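import Vale.Agent.Lib.P154.PChain.BJ.R7_0

set_option linter.all false

namespace Vale.Agent.Lib.P154.PChain.BJ.S8

open Vale.Agent.Lib.P154.Chain

noncomputable def pc0 : PT := (PT.nd (nat_lit 6487962) (PT.nd (nat_lit 6250608) (PT.nd (nat_lit 6072768) (PT.nd (nat_lit 5954130) (PT.nd (nat_lit 4352556) (PT.nd (nat_lit 4352478) PT.nil (PT.lf (nat_lit 76) (nat_lit 6) (nat_lit 1) (nat_lit 3) (nat_lit 248) (nat_lit 73) (nat_lit 249))) (PT.nd (nat_lit 59280) (PT.lf (nat_lit 76) (nat_lit 6) (nat_lit 1) (nat_lit 1) (nat_lit 249) (nat_lit 73) (nat_lit 248)) (PT.lf (nat_lit 152) (nat_lit 3) (nat_lit 2) (nat_lit 1) (nat_lit 248) (nat_lit 74) (nat_lit 248)))) (PT.nd (nat_lit 59358) (PT.nd (nat_lit 59280) (PT.lf (nat_lit 608) (nat_lit 3) (nat_lit 8) (nat_lit 1) (nat_lit 235) (nat_lit 100) (nat_lit 235)) (PT.lf (nat_lit 684) (nat_lit 6) (nat_lit 9) (nat_lit 3) (nat_lit 234) (nat_lit 101) (nat_lit 235))) (PT.nd (nat_lit 59202)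 (PT.lf (nat_lit 684) (nat_lit 6) (nat_lit 9) (nat_lit 1) (nat_lit 235) (nat_lit 101) (nat_lit 234)) (PT.lf (nat_lit 760) (nat_lit 6) (nat_lit 10) (nat_lit 3) (nat_lit 233) (nat_lit 102) (nat_lit 235))))) (PT.nd (nat_lit 59358) (PT.nd (nat_lit 78) (PT.lf (nat_lit 836) (nat_lit 3) (nat_lit 11) (nat_lit 1) (nat_lit 234) (nat_lit 102) (nat_lit 234)) (PT.nd (nat_lit 59202) (PT.lf (nat_lit 760) (nat_lit 6) (nat_lit 10) (nat_lit 1) (nat_lit 235) (nat_lit 102) (nat_lit 233)) (PT.lf (nat_lit 988) (nat_lit 6) (nat_lit 13) (nat_lit 3) (nat_lit 233) (nat_lit 103) (nat_lit 234)))) (PT.nd (nat_lit 59280) (PT.nd (nat_lit 59202) (PT.lf (nat_lit 988) (nat_lit 6) (nat_lit 13) (nat_lit 1) (nat_lit 234) (nat_lit 103) (nat_lit 233)) (PT.lf (nat_lit 1064) (nat_lit 6) (nat_lit 14) (nat_lit 3) (nat_lit 232) (nat_lit 104) (nat_lit 234))) (PT.nd (nat_lit 78) (PT.lf (nat_lit 1140) (nat_lit 3) (nat_lit 15) (nat_lit 1) (nat_lit 233) (nat_lit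 104) (nat_lit 233)) (PT.lf (nat_lit 1064) (nat_lit 6) (nat_lit 14) (nat_lit 1) (nat_lit 234) (nat_lit 104) (nat_lit 232)))))) (PT.nd (nat_lit 118638) (PT.nd (nat_lit 234) (PT.nd (nat_lit 78) (PT.lf (nat_lit 1216) (nat_lit 6) (nat_lit 16) (nat_lit 3) (nat_lit 231) (nat_lit 105) (nat_lit 234)) (PT.nd (nat_lit 78) (PT.lf (nat_lit 1292) (nat_lit 6) (nat_lit 17) (nat_lit 3) (nat_lit 232) (nat_lit 105) (nat_lit 233)) (PT.lf (nat_lit 1292) (nat_lit 6) (nat_lit 17) (nat_lit 1) (nat_lit 233) (nat_lit 105) (nat_lit 232)))) (PT.nd (nat_lit 59202) (PT.nd (nat_lit 59124) (PT.lf (nat_lit 1216) (nat_lit 6) (nat_lit 16) (nat_lit 1) (nat_lit 234) (nat_lit 105) (nat_lit 231)) (PT.lf (nat_lit 1368) (nat_lit 6) (nat_lit 18) (nat_lit 3) (nat_lit 231) (nat_lit 106) (nat_lit 233))) (PT.nd (nat_lit 78) (PT.lf (nat_lit 1444) (nat_lit 3) (nat_lit 19) (nat_lit 1) (nat_lit 232) (nat_lit 106) (nat_lit 232)) (PT.lf (nat_lit 1368) (nat_lit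 6) (nat_lit 18) (nat_lit 1) (nat_lit 233) (nat_lit 106) (nat_lit 231))))) (PT.nd (nat_lit 59358) (PT.nd (nat_lit 156) (PT.nd (nat_lit 78) (PT.lf (nat_lit 1520) (nat_lit 6) (nat_lit 20) (nat_lit 3) (nat_lit 230) (nat_lit 107) (nat_lit 233)) (PT.lf (nat_lit 1596) (nat_lit 6) (nat_lit 21) (nat_lit 3) (nat_lit 231) (nat_lit 107) (nat_lit 232))) (PT.nd (nat_lit 78) (PT.lf (nat_lit 1596) (nat_lit 6) (nat_lit 21) (nat_lit 1) (nat_lit 232) (nat_lit 107) (nat_lit 231)) (PT.lf (nat_lit 1520) (nat_lit 6) (nat_lit 20) (nat_lit 1) (nat_lit 233) (nat_lit 107) (nat_lit 230)))) (PT.nd (nat_lit 156) (PT.nd (nat_lit 78) (PT.lf (nat_lit 1748) (nat_lit 6) (nat_lit 23) (nat_lit 3) (nat_lit 230) (nat_lit 108) (nat_lit 232)) (PT.lf (nat_lit 1824) (nat_lit 3) (nat_lit 24) (nat_lit 1) (nat_lit 231) (nat_lit 108) (nat_lit 231))) (PT.nd (nat_lit 59124) (PT.lf (nat_lit 1748) (nat_lit 6) (nat_lit 23) (nat_lit 1) (nat_lit 232) (nat_lit 108)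 (nat_lit 230)) (PT.lf (nat_lit 1900) (nat_lit 6) (nat_lit 25) (nat_lit 3) (nat_lit 229) (nat_lit 109) (nat_lit 232))))))) (PT.nd (nat_lit 177996) (PT.nd (nat_lit 59514) (PT.nd (nat_lit 59202) (PT.nd (nat_lit 78) (PT.lf (nat_lit 1976) (nat_lit 6) (nat_lit 26) (nat_lit 3) (nat_lit 230) (nat_lit 109) (nat_lit 231)) (PT.nd (nat_lit 78) (PT.lf (nat_lit 1976) (nat_lit 6) (nat_lit 26) (nat_lit 1) (nat_lit 231) (nat_lit 109) (nat_lit 230)) (PT.lf (nat_lit 1900) (nat_lit 6) (nat_lit 25) (nat_lit 1) (nat_lit 232) (nat_lit 109) (nat_lit 229)))) (PT.nd (nat_lit 156) (PT.nd (nat_lit 78) (PT.lf (nat_lit 2052) (nat_lit 6) (nat_lit 27) (nat_lit 3) (nat_lit 228) (nat_lit 110) (nat_lit 232)) (PT.lf (nat_lit 2128) (nat_lit 6) (nat_lit 28) (nat_lit 3) (nat_lit 229) (nat_lit 110) (nat_lit 231))) (PT.nd (nat_lit 78) (PT.lf (nat_lit 2204) (nat_lit 3) (nat_lit 29) (nat_lit 1) (nat_lit 230) (nat_lit 110) (nat_lit 230)) (PT.lf (nat_lit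 2128) (nat_lit 6) (nat_lit 28) (nat_lit 1) (nat_lit 231) (nat_lit 110) (nat_lit 229))))) (PT.nd (nat_lit 59202) (PT.nd (nat_lit 59046) (PT.lf (nat_lit 2052) (nat_lit 6) (nat_lit 27) (nat_lit 1) (nat_lit 232) (nat_lit 110) (nat_lit 228)) (PT.nd (nat_lit 78) (PT.lf (nat_lit 2280) (nat_lit 6) (nat_lit 30) (nat_lit 3) (nat_lit 228) (nat_lit 111) (nat_lit 231)) (PT.lf (nat_lit 2356) (nat_lit 6) (nat_lit 31) (nat_lit 3) (nat_lit 229) (nat_lit 111) (nat_lit 230)))) (PT.nd (nat_lit 59124) (PT.nd (nat_lit 78) (PT.lf (nat_lit 2356) (nat_lit 6) (nat_lit 31) (nat_lit 1) (nat_lit 230) (nat_lit 111) (nat_lit 229)) (PT.lf (nat_lit 2280) (nat_lit 6) (nat_lit 30) (nat_lit 1) (nat_lit 231) (nat_lit 111) (nat_lit 228))) (PT.nd (nat_lit 78) (PT.lf (nat_lit 2432) (nat_lit 6) (nat_lit 32) (nat_lit 3) (nat_lit 227) (nat_lit 112) (nat_lit 231)) (PT.lf (nat_lit 2508) (nat_lit 6) (nat_lit 33) (nat_lit 3) (nat_lit 228) (nat_lit 112) (nat_lit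 230)))))) (PT.nd (nat_lit 118482) (PT.nd (nat_lit 59202) (PT.nd (nat_lit 78) (PT.lf (nat_lit 2584) (nat_lit 3) (nat_lit 34) (nat_lit 1) (nat_lit 229) (nat_lit 112) (nat_lit 229)) (PT.nd (nat_lit 78) (PT.lf (nat_lit 2508) (nat_lit 6) (nat_lit 33) (nat_lit 1) (nat_lit 230) (nat_lit 112) (nat_lit 228)) (PT.lf (nat_lit 2432) (nat_lit 6) (nat_lit 32) (nat_lit 1) (nat_lit 231) (nat_lit 112) (nat_lit 227)))) (PT.nd (nat_lit 156) (PT.nd (nat_lit 78) (PT.lf (nat_lit 2660) (nat_lit 6) (nat_lit 35) (nat_lit 3) (nat_lit 227) (nat_lit 113) (nat_lit 230)) (PT.lf (nat_lit 2736) (nat_lit 6) (nat_lit 36) (nat_lit 3) (nat_lit 228) (nat_lit 113) (nat_lit 229))) (PT.nd (nat_lit 78) (PT.lf (nat_lit 2736) (nat_lit 6) (nat_lit 36) (nat_lit 1) (nat_lit 229) (nat_lit 113) (nat_lit 228)) (PT.lf (nat_lit 2660) (nat_lit 6) (nat_lit 35) (nat_lit 1) (nat_lit 230) (nat_lit 113) (nat_lit 227))))) (PT.nd (nat_lit 312) (PT.nd (nat_lit 156) (PT.nd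 (nat_lit 78) (PT.lf (nat_lit 2812) (nat_lit 6) (nat_lit 37) (nat_lit 3) (nat_lit 226) (nat_lit 114) (nat_lit 230)) (PT.lf (nat_lit 2888) (nat_lit 6) (nat_lit 38) (nat_lit 3) (nat_lit 227) (nat_lit 114) (nat_lit 229))) (PT.nd (nat_lit 78) (PT.lf (nat_lit 2964) (nat_lit 3) (nat_lit 39) (nat_lit 1) (nat_lit 228) (nat_lit 114) (nat_lit 228)) (PT.lf (nat_lit 2888) (nat_lit 6) (nat_lit 38) (nat_lit 1) (nat_lit 229) (nat_lit 114) (nat_lit 227)))) (PT.nd (nat_lit 59124) (PT.nd (nat_lit 59046) (PT.lf (nat_lit 2812) (nat_lit 6) (nat_lit 37) (nat_lit 1) (nat_lit 230) (nat_lit 114) (nat_lit 226)) (PT.lf (nat_lit 3116) (nat_lit 6) (nat_lit 41) (nat_lit 3) (nat_lit 226) (nat_lit 115) (nat_lit 229))) (PT.nd (nat_lit 78) (PT.lf (nat_lit 3192) (nat_lit 6) (nat_lit 42) (nat_lit 3) (nat_lit 227) (nat_lit 115) (nat_lit 228)) (PT.lf (nat_lit 3192) (nat_lit 6) (nat_lit 42) (nat_lit 1) (nat_lit 228) (nat_lit 115) (nat_lit 227))))))))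
noncomputable def pc1 : PT := (PT.nd (nat_lit 355680) (PT.nd (nat_lit 177840) (PT.nd (nat_lit 118404) (PT.nd (nat_lit 59202) (PT.nd (nat_lit 59046) (PT.lf (nat_lit 3116) (nat_lit 6) (nat_lit 41) (nat_lit 1) (nat_lit 229) (nat_lit 115) (nat_lit 226)) (PT.nd (nat_lit 78) (PT.lf (nat_lit 3268) (nat_lit 6) (nat_lit 43) (nat_lit 3) (nat_lit 225) (nat_lit 116) (nat_lit 229)) (PT.lf (nat_lit 3344) (nat_lit 6) (nat_lit 44) (nat_lit 3) (nat_lit 226) (nat_lit 116) (nat_lit 228)))) (PT.nd (nat_lit 156) (PT.nd (nat_lit 78) (PT.lf (nat_lit 3420) (nat_lit 3) (nat_lit 45) (nat_lit 1) (nat_lit 227) (nat_lit 116) (nat_lit 227)) (PT.lf (nat_lit 3344) (nat_lit 6) (nat_lit 44) (nat_lit 1) (nat_lit 228) (nat_lit 116) (nat_lit 226))) (PT.nd (nat_lit 58968) (PT.lf (nat_lit 3268) (nat_lit 6) (nat_lit 43) (nat_lit 1) (nat_lit 229) (nat_lit 116) (nat_lit 225)) (PT.lf (nat_lit 3496) (nat_lit 6) (nat_lit 46) (nat_lit 3) (nat_lit 224) (nat_lit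 117) (nat_lit 229))))) (PT.nd (nat_lit 234) (PT.nd (nat_lit 78) (PT.lf (nat_lit 3572) (nat_lit 6) (nat_lit 47) (nat_lit 3) (nat_lit 225) (nat_lit 117) (nat_lit 228)) (PT.nd (nat_lit 78) (PT.lf (nat_lit 3648) (nat_lit 6) (nat_lit 48) (nat_lit 3) (nat_lit 226) (nat_lit 117) (nat_lit 227)) (PT.lf (nat_lit 3648) (nat_lit 6) (nat_lit 48) (nat_lit 1) (nat_lit 227) (nat_lit 117) (nat_lit 226)))) (PT.nd (nat_lit 59046) (PT.nd (nat_lit 78) (PT.lf (nat_lit 3572) (nat_lit 6) (nat_lit 47) (nat_lit 1) (nat_lit 228) (nat_lit 117) (nat_lit 225)) (PT.lf (nat_lit 3496) (nat_lit 6) (nat_lit 46) (nat_lit 1) (nat_lit 229) (nat_lit 117) (nat_lit 224))) (PT.nd (nat_lit 78) (PT.lf (nat_lit 3724) (nat_lit 6) (nat_lit 49) (nat_lit 3) (nat_lit 224) (nat_lit 118) (nat_lit 228)) (PT.lf (nat_lit 3800) (nat_lit 6) (nat_lit 50) (nat_lit 3) (nat_lit 225) (nat_lit 118) (nat_lit 227)))))) (PT.nd (nat_lit 59436) (PT.nd (nat_lit 59124) (PT.nd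 (nat_lit 78) (PT.lf (nat_lit 3876) (nat_lit 3) (nat_lit 51) (nat_lit 1) (nat_lit 226) (nat_lit 118) (nat_lit 226)) (PT.nd (nat_lit 78) (PT.lf (nat_lit 3800) (nat_lit 6) (nat_lit 50) (nat_lit 1) (nat_lit 227) (nat_lit 118) (nat_lit 225)) (PT.lf (nat_lit 3724) (nat_lit 6) (nat_lit 49) (nat_lit 1) (nat_lit 228) (nat_lit 118) (nat_lit 224)))) (PT.nd (nat_lit 156) (PT.nd (nat_lit 78) (PT.lf (nat_lit 3952) (nat_lit 6) (nat_lit 52) (nat_lit 3) (nat_lit 223) (nat_lit 119) (nat_lit 228)) (PT.lf (nat_lit 4028) (nat_lit 6) (nat_lit 53) (nat_lit 3) (nat_lit 224) (nat_lit 119) (nat_lit 227))) (PT.nd (nat_lit 78) (PT.lf (nat_lit 4104) (nat_lit 6) (nat_lit 54) (nat_lit 3) (nat_lit 225) (nat_lit 119) (nat_lit 226)) (PT.lf (nat_lit 4104) (nat_lit 6) (nat_lit 54) (nat_lit 1) (nat_lit 226) (nat_lit 119) (nat_lit 225))))) (PT.nd (nat_lit 59202) (PT.nd (nat_lit 59046) (PT.nd (nat_lit 78) (PT.lf (nat_lit 4028) (nat_lit 6) (nat_lit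 53) (nat_lit 1) (nat_lit 227) (nat_lit 119) (nat_lit 224)) (PT.lf (nat_lit 3952) (nat_lit 6) (nat_lit 52) (nat_lit 1) (nat_lit 228) (nat_lit 119) (nat_lit 223))) (PT.nd (nat_lit 78) (PT.lf (nat_lit 4256) (nat_lit 6) (nat_lit 56) (nat_lit 3) (nat_lit 223) (nat_lit 120) (nat_lit 227)) (PT.lf (nat_lit 4332) (nat_lit 6) (nat_lit 57) (nat_lit 3) (nat_lit 224) (nat_lit 120) (nat_lit 226)))) (PT.nd (nat_lit 156) (PT.nd (nat_lit 78) (PT.lf (nat_lit 4408) (nat_lit 3) (nat_lit 58) (nat_lit 1) (nat_lit 225) (nat_lit 120) (nat_lit 225)) (PT.lf (nat_lit 4332) (nat_lit 6) (nat_lit 57) (nat_lit 1) (nat_lit 226) (nat_lit 120) (nat_lit 224))) (PT.nd (nat_lit 58968) (PT.lf (nat_lit 4256) (nat_lit 6) (nat_lit 56) (nat_lit 1) (nat_lit 227) (nat_lit 120) (nat_lit 223)) (PT.lf (nat_lit 4484) (nat_lit 6) (nat_lit 59) (nat_lit 3) (nat_lit 222) (nat_lit 121) (nat_lit 227))))))) (PT.nd (nat_lit 118794) (PT.nd (nat_lit 59358) (PT.nd (nat_lit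 234) (PT.nd (nat_lit 78) (PT.lf (nat_lit 4560) (nat_lit 6) (nat_lit 60) (nat_lit 3) (nat_lit 223) (nat_lit 121) (nat_lit 226)) (PT.nd (nat_lit 78) (PT.lf (nat_lit 4636) (nat_lit 6) (nat_lit 61) (nat_lit 3) (nat_lit 224) (nat_lit 121) (nat_lit 225)) (PT.lf (nat_lit 4636) (nat_lit 6) (nat_lit 61) (nat_lit 1) (nat_lit 225) (nat_lit 121) (nat_lit 224)))) (PT.nd (nat_lit 58968) (PT.nd (nat_lit 78) (PT.lf (nat_lit 4560) (nat_lit 6) (nat_lit 60) (nat_lit 1) (nat_lit 226) (nat_lit 121) (nat_lit 223)) (PT.lf (nat_lit 4484) (nat_lit 6) (nat_lit 59) (nat_lit 1) (nat_lit 227) (nat_lit 121) (nat_lit 222))) (PT.nd (nat_lit 78) (PT.lf (nat_lit 4712) (nat_lit 6) (nat_lit 62) (nat_lit 3) (nat_lit 221) (nat_lit 122) (nat_lit 227)) (PT.lf (nat_lit 4788) (nat_lit 6) (nat_lit 63) (nat_lit 3) (nat_lit 222) (nat_lit 122) (nat_lit 226))))) (PT.nd (nat_lit 312) (PT.nd (nat_lit 156) (PT.nd (nat_lit 78) (PT.lf (nat_lit 4864) (nat_lit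 6) (nat_lit 64) (nat_lit 3) (nat_lit 223) (nat_lit 122) (nat_lit 225)) (PT.lf (nat_lit 4940) (nat_lit 3) (nat_lit 65) (nat_lit 1) (nat_lit 224) (nat_lit 122) (nat_lit 224))) (PT.nd (nat_lit 78) (PT.lf (nat_lit 4864) (nat_lit 6) (nat_lit 64) (nat_lit 1) (nat_lit 225) (nat_lit 122) (nat_lit 223)) (PT.lf (nat_lit 4788) (nat_lit 6) (nat_lit 63) (nat_lit 1) (nat_lit 226) (nat_lit 122) (nat_lit 222)))) (PT.nd (nat_lit 58968) (PT.nd (nat_lit 58890) (PT.lf (nat_lit 4712) (nat_lit 6) (nat_lit 62) (nat_lit 1) (nat_lit 227) (nat_lit 122) (nat_lit 221)) (PT.lf (nat_lit 5016) (nat_lit 6) (nat_lit 66) (nat_lit 3) (nat_lit 221) (nat_lit 123) (nat_lit 226))) (PT.nd (nat_lit 78) (PT.lf (nat_lit 5092) (nat_lit 6) (nat_lit 67) (nat_lit 3) (nat_lit 222) (nat_lit 123) (nat_lit 225)) (PT.lf (nat_lit 5168) (nat_lit 6) (nat_lit 68) (nat_lit 3) (nat_lit 223) (nat_lit 123) (nat_lit 224)))))) (PT.nd (nat_lit 59358) (PT.nd (nat_lit 59046)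 (PT.nd (nat_lit 78) (PT.lf (nat_lit 5168) (nat_lit 6) (nat_lit 68) (nat_lit 1) (nat_lit 224) (nat_lit 123) (nat_lit 223)) (PT.nd (nat_lit 78) (PT.lf (nat_lit 5092) (nat_lit 6) (nat_lit 67) (nat_lit 1) (nat_lit 225) (nat_lit 123) (nat_lit 222)) (PT.lf (nat_lit 5016) (nat_lit 6) (nat_lit 66) (nat_lit 1) (nat_lit 226) (nat_lit 123) (nat_lit 221)))) (PT.nd (nat_lit 156) (PT.nd (nat_lit 78) (PT.lf (nat_lit 5244) (nat_lit 6) (nat_lit 69) (nat_lit 3) (nat_lit 220) (nat_lit 124) (nat_lit 226)) (PT.lf (nat_lit 5320) (nat_lit 6) (nat_lit 70) (nat_lit 3) (nat_lit 221) (nat_lit 124) (nat_lit 225))) (PT.nd (nat_lit 78) (PT.lf (nat_lit 5396) (nat_lit 6) (nat_lit 71) (nat_lit 3) (nat_lit 222) (nat_lit 124) (nat_lit 224)) (PT.lf (nat_lit 5472) (nat_lit 3) (nat_lit 72) (nat_lit 1) (nat_lit 223) (nat_lit 124) (nat_lit 223))))) (PT.nd (nat_lit 59124) (PT.nd (nat_lit 156) (PT.nd (nat_lit 78) (PT.lf (nat_lit 5396) (nat_lit 6) (nat_lit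 71) (nat_lit 1) (nat_lit 224) (nat_lit 124) (nat_lit 222)) (PT.lf (nat_lit 5320) (nat_lit 6) (nat_lit 70) (nat_lit 1) (nat_lit 225) (nat_lit 124) (nat_lit 221))) (PT.nd (nat_lit 58890) (PT.lf (nat_lit 5244) (nat_lit 6) (nat_lit 69) (nat_lit 1) (nat_lit 226) (nat_lit 124) (nat_lit 220)) (PT.lf (nat_lit 5624) (nat_lit 6) (nat_lit 74) (nat_lit 3) (nat_lit 220) (nat_lit 125) (nat_lit 225)))) (PT.nd (nat_lit 156) (PT.nd (nat_lit 78) (PT.lf (nat_lit 5700) (nat_lit 6) (nat_lit 75) (nat_lit 3) (nat_lit 221) (nat_lit 125) (nat_lit 224)) (PT.lf (nat_lit 5776) (nat_lit 6) (nat_lit 76) (nat_lit 3) (nat_lit 222) (nat_lit 125) (nat_lit 223))) (PT.nd (nat_lit 78) (PT.lf (nat_lit 5776) (nat_lit 6) (nat_lit 76) (nat_lit 1) (nat_lit 223) (nat_lit 125) (nat_lit 222)) (PT.lf (nat_lit 5700) (nat_lit 6) (nat_lit 75) (nat_lit 1) (nat_lit 224) (nat_lit 125) (nat_lit 221))))))))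
noncomputable def pc2 : PT := (PT.nd (nat_lit 237276) (PT.nd (nat_lit 118638) (PT.nd (nat_lit 59358) (PT.nd (nat_lit 59046) (PT.nd (nat_lit 58890) (PT.lf (nat_lit 5624) (nat_lit 6) (nat_lit 74) (nat_lit 1) (nat_lit 225) (nat_lit 125) (nat_lit 220)) (PT.nd (nat_lit 78) (PT.lf (nat_lit 5852) (nat_lit 6) (nat_lit 77) (nat_lit 3) (nat_lit 219) (nat_lit 126) (nat_lit 225)) (PT.lf (nat_lit 5928) (nat_lit 6) (nat_lit 78) (nat_lit 3) (nat_lit 220) (nat_lit 126) (nat_lit 224)))) (PT.nd (nat_lit 156) (PT.nd (nat_lit 78) (PT.lf (nat_lit 6004) (nat_lit 6) (nat_lit 79) (nat_lit 3) (nat_lit 221) (nat_lit 126) (nat_lit 223)) (PT.lf (nat_lit 6080) (nat_lit 3) (nat_lit 80) (nat_lit 1) (nat_lit 222) (nat_lit 126) (nat_lit 222))) (PT.nd (nat_lit 78) (PT.lf (nat_lit 6004) (nat_lit 6) (nat_lit 79) (nat_lit 1) (nat_lit 223) (nat_lit 126) (nat_lit 221)) (PT.lf (nat_lit 5928) (nat_lit 6) (nat_lit 78) (nat_lit 1) (nat_lit 224) (nat_lit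 126) (nat_lit 220))))) (PT.nd (nat_lit 58968) (PT.nd (nat_lit 58812) (PT.lf (nat_lit 5852) (nat_lit 6) (nat_lit 77) (nat_lit 1) (nat_lit 225) (nat_lit 126) (nat_lit 219)) (PT.nd (nat_lit 78) (PT.lf (nat_lit 6156) (nat_lit 6) (nat_lit 81) (nat_lit 3) (nat_lit 218) (nat_lit 127) (nat_lit 225)) (PT.lf (nat_lit 6232) (nat_lit 6) (nat_lit 82) (nat_lit 3) (nat_lit 219) (nat_lit 127) (nat_lit 224)))) (PT.nd (nat_lit 156) (PT.nd (nat_lit 78) (PT.lf (nat_lit 6308) (nat_lit 6) (nat_lit 83) (nat_lit 3) (nat_lit 220) (nat_lit 127) (nat_lit 223)) (PT.lf (nat_lit 6384) (nat_lit 6) (nat_lit 84) (nat_lit 3) (nat_lit 221) (nat_lit 127) (nat_lit 222))) (PT.nd (nat_lit 78) (PT.lf (nat_lit 6384) (nat_lit 6) (nat_lit 84) (nat_lit 1) (nat_lit 222) (nat_lit 127) (nat_lit 221)) (PT.lf (nat_lit 6308) (nat_lit 6) (nat_lit 83) (nat_lit 1) (nat_lit 223) (nat_lit 127) (nat_lit 220)))))) (PT.nd (nat_lit 59280) (PT.nd (nat_lit 58968) (PT.nd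 (nat_lit 78) (PT.lf (nat_lit 6232) (nat_lit 6) (nat_lit 82) (nat_lit 1) (nat_lit 224) (nat_lit 127) (nat_lit 219)) (PT.nd (nat_lit 58812) (PT.lf (nat_lit 6156) (nat_lit 6) (nat_lit 81) (nat_lit 1) (nat_lit 225) (nat_lit 127) (nat_lit 218)) (PT.lf (nat_lit 6460) (nat_lit 6) (nat_lit 85) (nat_lit 3) (nat_lit 218) (nat_lit 128) (nat_lit 224)))) (PT.nd (nat_lit 156) (PT.nd (nat_lit 78) (PT.lf (nat_lit 6536) (nat_lit 6) (nat_lit 86) (nat_lit 3) (nat_lit 219) (nat_lit 128) (nat_lit 223)) (PT.lf (nat_lit 6612) (nat_lit 6) (nat_lit 87) (nat_lit 3) (nat_lit 220) (nat_lit 128) (nat_lit 222))) (PT.nd (nat_lit 78) (PT.lf (nat_lit 6688) (nat_lit 3) (nat_lit 88) (nat_lit 1) (nat_lit 221) (nat_lit 128) (nat_lit 221)) (PT.lf (nat_lit 6612) (nat_lit 6) (nat_lit 87) (nat_lit 1) (nat_lit 222) (nat_lit 128) (nat_lit 220))))) (PT.nd (nat_lit 59046) (PT.nd (nat_lit 58890) (PT.nd (nat_lit 78) (PT.lf (nat_lit 6536) (nat_lit 6) (nat_lit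 86) (nat_lit 1) (nat_lit 223) (nat_lit 128) (nat_lit 219)) (PT.lf (nat_lit 6460) (nat_lit 6) (nat_lit 85) (nat_lit 1) (nat_lit 224) (nat_lit 128) (nat_lit 218))) (PT.nd (nat_lit 78) (PT.lf (nat_lit 6764) (nat_lit 6) (nat_lit 89) (nat_lit 3) (nat_lit 217) (nat_lit 129) (nat_lit 224)) (PT.lf (nat_lit 6840) (nat_lit 6) (nat_lit 90) (nat_lit 3) (nat_lit 218) (nat_lit 129) (nat_lit 223)))) (PT.nd (nat_lit 156) (PT.nd (nat_lit 78) (PT.lf (nat_lit 6916) (nat_lit 6) (nat_lit 91) (nat_lit 3) (nat_lit 219) (nat_lit 129) (nat_lit 222)) (PT.lf (nat_lit 6992) (nat_lit 6) (nat_lit 92) (nat_lit 3) (nat_lit 220) (nat_lit 129) (nat_lit 221))) (PT.nd (nat_lit 78) (PT.lf (nat_lit 6992) (nat_lit 6) (nat_lit 92) (nat_lit 1) (nat_lit 221) (nat_lit 129) (nat_lit 220)) (PT.lf (nat_lit 6916) (nat_lit 6) (nat_lit 91) (nat_lit 1) (nat_lit 222) (nat_lit 129) (nat_lit 219))))))) (PT.nd (nat_lit 118404) (PT.nd (nat_lit 59202) (PT.nd (nat_lit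 58890) (PT.nd (nat_lit 78) (PT.lf (nat_lit 6840) (nat_lit 6) (nat_lit 90) (nat_lit 1) (nat_lit 223) (nat_lit 129) (nat_lit 218)) (PT.nd (nat_lit 58734) (PT.lf (nat_lit 6764) (nat_lit 6) (nat_lit 89) (nat_lit 1) (nat_lit 224) (nat_lit 129) (nat_lit 217)) (PT.lf (nat_lit 7068) (nat_lit 6) (nat_lit 93) (nat_lit 3) (nat_lit 216) (nat_lit 130) (nat_lit 224)))) (PT.nd (nat_lit 156) (PT.nd (nat_lit 78) (PT.lf (nat_lit 7144) (nat_lit 6) (nat_lit 94) (nat_lit 3) (nat_lit 217) (nat_lit 130) (nat_lit 223)) (PT.lf (nat_lit 7220) (nat_lit 6) (nat_lit 95) (nat_lit 3) (nat_lit 218) (nat_lit 130) (nat_lit 222))) (PT.nd (nat_lit 78) (PT.lf (nat_lit 7296) (nat_lit 6) (nat_lit 96) (nat_lit 3) (nat_lit 219) (nat_lit 130) (nat_lit 221)) (PT.lf (nat_lit 7372) (nat_lit 3) (nat_lit 97) (nat_lit 1) (nat_lit 220) (nat_lit 130) (nat_lit 220))))) (PT.nd (nat_lit 234) (PT.nd (nat_lit 78) (PT.lf (nat_lit 7296) (nat_lit 6) (nat_lit 96) (nat_lit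 1) (nat_lit 221) (nat_lit 130) (nat_lit 219)) (PT.nd (nat_lit 78) (PT.lf (nat_lit 7220) (nat_lit 6) (nat_lit 95) (nat_lit 1) (nat_lit 222) (nat_lit 130) (nat_lit 218)) (PT.lf (nat_lit 7144) (nat_lit 6) (nat_lit 94) (nat_lit 1) (nat_lit 223) (nat_lit 130) (nat_lit 217)))) (PT.nd (nat_lit 58812) (PT.nd (nat_lit 58734) (PT.lf (nat_lit 7068) (nat_lit 6) (nat_lit 93) (nat_lit 1) (nat_lit 224) (nat_lit 130) (nat_lit 216)) (PT.lf (nat_lit 7448) (nat_lit 6) (nat_lit 98) (nat_lit 3) (nat_lit 216) (nat_lit 131) (nat_lit 223))) (PT.nd (nat_lit 78) (PT.lf (nat_lit 7524) (nat_lit 6) (nat_lit 99) (nat_lit 3) (nat_lit 217) (nat_lit 131) (nat_lit 222)) (PT.lf (nat_lit 7600) (nat_lit 6) (nat_lit 100) (nat_lit 3) (nat_lit 218) (nat_lit 131) (nat_lit 221)))))) (PT.nd (nat_lit 59202) (PT.nd (nat_lit 234) (PT.nd (nat_lit 78) (PT.lf (nat_lit 7676) (nat_lit 6) (nat_lit 101) (nat_lit 3) (nat_lit 219) (nat_lit 131) (nat_lit 220)) (PT.nd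 (nat_lit 78) (PT.lf (nat_lit 7676) (nat_lit 6) (nat_lit 101) (nat_lit 1) (nat_lit 220) (nat_lit 131) (nat_lit 219)) (PT.lf (nat_lit 7600) (nat_lit 6) (nat_lit 100) (nat_lit 1) (nat_lit 221) (nat_lit 131) (nat_lit 218)))) (PT.nd (nat_lit 58812) (PT.nd (nat_lit 78) (PT.lf (nat_lit 7524) (nat_lit 6) (nat_lit 99) (nat_lit 1) (nat_lit 222) (nat_lit 131) (nat_lit 217)) (PT.lf (nat_lit 7448) (nat_lit 6) (nat_lit 98) (nat_lit 1) (nat_lit 223) (nat_lit 131) (nat_lit 216))) (PT.nd (nat_lit 78) (PT.lf (nat_lit 7752) (nat_lit 6) (nat_lit 102) (nat_lit 3) (nat_lit 215) (nat_lit 132) (nat_lit 223)) (PT.lf (nat_lit 7828) (nat_lit 6) (nat_lit 103) (nat_lit 3) (nat_lit 216) (nat_lit 132) (nat_lit 222))))) (PT.nd (nat_lit 312) (PT.nd (nat_lit 156) (PT.nd (nat_lit 78) (PT.lf (nat_lit 7904) (nat_lit 6) (nat_lit 104) (nat_lit 3) (nat_lit 217) (nat_lit 132) (nat_lit 221)) (PT.lf (nat_lit 7980) (nat_lit 6) (nat_lit 105) (nat_lit 3)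 (nat_lit 218) (nat_lit 132) (nat_lit 220))) (PT.nd (nat_lit 78) (PT.lf (nat_lit 8056) (nat_lit 3) (nat_lit 106) (nat_lit 1) (nat_lit 219) (nat_lit 132) (nat_lit 219)) (PT.lf (nat_lit 7980) (nat_lit 6) (nat_lit 105) (nat_lit 1) (nat_lit 220) (nat_lit 132) (nat_lit 218)))) (PT.nd (nat_lit 156) (PT.nd (nat_lit 78) (PT.lf (nat_lit 7904) (nat_lit 6) (nat_lit 104) (nat_lit 1) (nat_lit 221) (nat_lit 132) (nat_lit 217)) (PT.lf (nat_lit 7828) (nat_lit 6) (nat_lit 103) (nat_lit 1) (nat_lit 222) (nat_lit 132) (nat_lit 216))) (PT.nd (nat_lit 58734) (PT.lf (nat_lit 7752) (nat_lit 6) (nat_lit 102) (nat_lit 1) (nat_lit 223) (nat_lit 132) (nat_lit 215)) (PT.lf (nat_lit 8208) (nat_lit 6) (nat_lit 108) (nat_lit 3) (nat_lit 215) (nat_lit 133) (nat_lit 222))))))))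
noncomputable def pc3 : PT := (PT.nd (nat_lit 178074) (PT.nd (nat_lit 59748) (PT.nd (nat_lit 59202) (PT.nd (nat_lit 234) (PT.nd (nat_lit 78) (PT.lf (nat_lit 8284) (nat_lit 6) (nat_lit 109) (nat_lit 3) (nat_lit 216) (nat_lit 133) (nat_lit 221)) (PT.nd (nat_lit 78) (PT.lf (nat_lit 8360) (nat_lit 6) (nat_lit 110) (nat_lit 3) (nat_lit 217) (nat_lit 133) (nat_lit 220)) (PT.lf (nat_lit 8436) (nat_lit 6) (nat_lit 111) (nat_lit 3) (nat_lit 218) (nat_lit 133) (nat_lit 219)))) (PT.nd (nat_lit 156) (PT.nd (nat_lit 78) (PT.lf (nat_lit 8436) (nat_lit 6) (nat_lit 111) (nat_lit 1) (nat_lit 219) (nat_lit 133) (nat_lit 218)) (PT.lf (nat_lit 8360) (nat_lit 6) (nat_lit 110) (nat_lit 1) (nat_lit 220) (nat_lit 133) (nat_lit 217))) (PT.nd (nat_lit 78) (PT.lf (nat_lit 8284) (nat_lit 6) (nat_lit 109) (nat_lit 1) (nat_lit 221) (nat_lit 133) (nat_lit 216)) (PT.lf (nat_lit 8208) (nat_lit 6) (nat_lit 108) (nat_lit 1) (nat_lit 222) (nat_lit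 133) (nat_lit 215))))) (PT.nd (nat_lit 234) (PT.nd (nat_lit 78) (PT.lf (nat_lit 8512) (nat_lit 6) (nat_lit 112) (nat_lit 3) (nat_lit 214) (nat_lit 134) (nat_lit 222)) (PT.nd (nat_lit 78) (PT.lf (nat_lit 8588) (nat_lit 6) (nat_lit 113) (nat_lit 3) (nat_lit 215) (nat_lit 134) (nat_lit 221)) (PT.lf (nat_lit 8664) (nat_lit 6) (nat_lit 114) (nat_lit 3) (nat_lit 216) (nat_lit 134) (nat_lit 220)))) (PT.nd (nat_lit 156) (PT.nd (nat_lit 78) (PT.lf (nat_lit 8740) (nat_lit 6) (nat_lit 115) (nat_lit 3) (nat_lit 217) (nat_lit 134) (nat_lit 219)) (PT.lf (nat_lit 8816) (nat_lit 3) (nat_lit 116) (nat_lit 1) (nat_lit 218) (nat_lit 134) (nat_lit 218))) (PT.nd (nat_lit 78) (PT.lf (nat_lit 8740) (nat_lit 6) (nat_lit 115) (nat_lit 1) (nat_lit 219) (nat_lit 134) (nat_lit 217)) (PT.lf (nat_lit 8664) (nat_lit 6) (nat_lit 114) (nat_lit 1) (nat_lit 220) (nat_lit 134) (nat_lit 216)))))) (PT.nd (nat_lit 59124) (PT.nd (nat_lit 58812) (PT.nd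 (nat_lit 78) (PT.lf (nat_lit 8588) (nat_lit 6) (nat_lit 113) (nat_lit 1) (nat_lit 221) (nat_lit 134) (nat_lit 215)) (PT.nd (nat_lit 58656) (PT.lf (nat_lit 8512) (nat_lit 6) (nat_lit 112) (nat_lit 1) (nat_lit 222) (nat_lit 134) (nat_lit 214)) (PT.lf (nat_lit 8892) (nat_lit 6) (nat_lit 117) (nat_lit 3) (nat_lit 213) (nat_lit 135) (nat_lit 222)))) (PT.nd (nat_lit 156) (PT.nd (nat_lit 78) (PT.lf (nat_lit 8968) (nat_lit 6) (nat_lit 118) (nat_lit 3) (nat_lit 214) (nat_lit 135) (nat_lit 221)) (PT.lf (nat_lit 9044) (nat_lit 6) (nat_lit 119) (nat_lit 3) (nat_lit 215) (nat_lit 135) (nat_lit 220))) (PT.nd (nat_lit 78) (PT.lf (nat_lit 9120) (nat_lit 6) (nat_lit 120) (nat_lit 3) (nat_lit 216) (nat_lit 135) (nat_lit 219)) (PT.lf (nat_lit 9196) (nat_lit 6) (nat_lit 121) (nat_lit 3) (nat_lit 217) (nat_lit 135) (nat_lit 218))))) (PT.nd (nat_lit 312) (PT.nd (nat_lit 156) (PT.nd (nat_lit 78) (PT.lf (nat_lit 9196) (nat_lit 6) (nat_lit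 121) (nat_lit 1) (nat_lit 218) (nat_lit 135) (nat_lit 217)) (PT.lf (nat_lit 9120) (nat_lit 6) (nat_lit 120) (nat_lit 1) (nat_lit 219) (nat_lit 135) (nat_lit 216))) (PT.nd (nat_lit 78) (PT.lf (nat_lit 9044) (nat_lit 6) (nat_lit 119) (nat_lit 1) (nat_lit 220) (nat_lit 135) (nat_lit 215)) (PT.lf (nat_lit 8968) (nat_lit 6) (nat_lit 118) (nat_lit 1) (nat_lit 221) (nat_lit 135) (nat_lit 214)))) (PT.nd (nat_lit 58734) (PT.nd (nat_lit 58656) (PT.lf (nat_lit 8892) (nat_lit 6) (nat_lit 117) (nat_lit 1) (nat_lit 222) (nat_lit 135) (nat_lit 213)) (PT.lf (nat_lit 9348) (nat_lit 6) (nat_lit 123) (nat_lit 3) (nat_lit 213) (nat_lit 136) (nat_lit 221))) (PT.nd (nat_lit 78) (PT.lf (nat_lit 9424) (nat_lit 6) (nat_lit 124) (nat_lit 3) (nat_lit 214) (nat_lit 136) (nat_lit 220)) (PT.lf (nat_lit 9500) (nat_lit 6) (nat_lit 125) (nat_lit 3) (nat_lit 215) (nat_lit 136) (nat_lit 219))))))) (PT.nd (nat_lit 59748) (PT.nd (nat_lit 59124)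 (PT.nd (nat_lit 234) (PT.nd (nat_lit 78) (PT.lf (nat_lit 9576) (nat_lit 6) (nat_lit 126) (nat_lit 3) (nat_lit 216) (nat_lit 136) (nat_lit 218)) (PT.nd (nat_lit 78) (PT.lf (nat_lit 9652) (nat_lit 3) (nat_lit 127) (nat_lit 1) (nat_lit 217) (nat_lit 136) (nat_lit 217)) (PT.lf (nat_lit 9576) (nat_lit 6) (nat_lit 126) (nat_lit 1) (nat_lit 218) (nat_lit 136) (nat_lit 216)))) (PT.nd (nat_lit 156) (PT.nd (nat_lit 78) (PT.lf (nat_lit 9500) (nat_lit 6) (nat_lit 125) (nat_lit 1) (nat_lit 219) (nat_lit 136) (nat_lit 215)) (PT.lf (nat_lit 9424) (nat_lit 6) (nat_lit 124) (nat_lit 1) (nat_lit 220) (nat_lit 136) (nat_lit 214))) (PT.nd (nat_lit 58656) (PT.lf (nat_lit 9348) (nat_lit 6) (nat_lit 123) (nat_lit 1) (nat_lit 221) (nat_lit 136) (nat_lit 213)) (PT.lf (nat_lit 9728) (nat_lit 6) (nat_lit 128) (nat_lit 3) (nat_lit 212) (nat_lit 137) (nat_lit 221))))) (PT.nd (nat_lit 312) (PT.nd (nat_lit 156) (PT.nd (nat_lit 78) (PT.lf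 (nat_lit 9804) (nat_lit 6) (nat_lit 129) (nat_lit 3) (nat_lit 213) (nat_lit 137) (nat_lit 220)) (PT.lf (nat_lit 9880) (nat_lit 6) (nat_lit 130) (nat_lit 3) (nat_lit 214) (nat_lit 137) (nat_lit 219))) (PT.nd (nat_lit 78) (PT.lf (nat_lit 9956) (nat_lit 6) (nat_lit 131) (nat_lit 3) (nat_lit 215) (nat_lit 137) (nat_lit 218)) (PT.lf (nat_lit 10032) (nat_lit 6) (nat_lit 132) (nat_lit 3) (nat_lit 216) (nat_lit 137) (nat_lit 217)))) (PT.nd (nat_lit 156) (PT.nd (nat_lit 78) (PT.lf (nat_lit 10032) (nat_lit 6) (nat_lit 132) (nat_lit 1) (nat_lit 217) (nat_lit 137) (nat_lit 216)) (PT.lf (nat_lit 9956) (nat_lit 6) (nat_lit 131) (nat_lit 1) (nat_lit 218) (nat_lit 137) (nat_lit 215))) (PT.nd (nat_lit 78) (PT.lf (nat_lit 9880) (nat_lit 6) (nat_lit 130) (nat_lit 1) (nat_lit 219) (nat_lit 137) (nat_lit 214)) (PT.lf (nat_lit 9804) (nat_lit 6) (nat_lit 129) (nat_lit 1) (nat_lit 220) (nat_lit 137) (nat_lit 213)))))) (PT.nd (nat_lit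 59046) (PT.nd (nat_lit 58734) (PT.nd (nat_lit 58578) (PT.lf (nat_lit 9728) (nat_lit 6) (nat_lit 128) (nat_lit 1) (nat_lit 221) (nat_lit 137) (nat_lit 212)) (PT.nd (nat_lit 78) (PT.lf (nat_lit 10108) (nat_lit 6) (nat_lit 133) (nat_lit 3) (nat_lit 211) (nat_lit 138) (nat_lit 221)) (PT.lf (nat_lit 10184) (nat_lit 6) (nat_lit 134) (nat_lit 3) (nat_lit 212) (nat_lit 138) (nat_lit 220)))) (PT.nd (nat_lit 156) (PT.nd (nat_lit 78) (PT.lf (nat_lit 10260) (nat_lit 6) (nat_lit 135) (nat_lit 3) (nat_lit 213) (nat_lit 138) (nat_lit 219)) (PT.lf (nat_lit 10336) (nat_lit 6) (nat_lit 136) (nat_lit 3) (nat_lit 214) (nat_lit 138) (nat_lit 218))) (PT.nd (nat_lit 78) (PT.lf (nat_lit 10412) (nat_lit 6) (nat_lit 137) (nat_lit 3) (nat_lit 215) (nat_lit 138) (nat_lit 217)) (PT.lf (nat_lit 10488) (nat_lit 3) (nat_lit 138) (nat_lit 1) (nat_lit 216) (nat_lit 138) (nat_lit 216))))) (PT.nd (nat_lit 312) (PT.nd (nat_lit 156) (PT.nd (nat_lit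 78) (PT.lf (nat_lit 10412) (nat_lit 6) (nat_lit 137) (nat_lit 1) (nat_lit 217) (nat_lit 138) (nat_lit 215)) (PT.lf (nat_lit 10336) (nat_lit 6) (nat_lit 136) (nat_lit 1) (nat_lit 218) (nat_lit 138) (nat_lit 214))) (PT.nd (nat_lit 78) (PT.lf (nat_lit 10260) (nat_lit 6) (nat_lit 135) (nat_lit 1) (nat_lit 219) (nat_lit 138) (nat_lit 213)) (PT.lf (nat_lit 10184) (nat_lit 6) (nat_lit 134) (nat_lit 1) (nat_lit 220) (nat_lit 138) (nat_lit 212)))) (PT.nd (nat_lit 58656) (PT.nd (nat_lit 58578) (PT.lf (nat_lit 10108) (nat_lit 6) (nat_lit 133) (nat_lit 1) (nat_lit 221) (nat_lit 138) (nat_lit 211)) (PT.lf (nat_lit 10640) (nat_lit 6) (nat_lit 140) (nat_lit 3) (nat_lit 211) (nat_lit 139) (nat_lit 220))) (PT.nd (nat_lit 78) (PT.lf (nat_lit 10716) (nat_lit 6) (nat_lit 141) (nat_lit 3) (nat_lit 212) (nat_lit 139) (nat_lit 219)) (PT.lf (nat_lit 10792) (nat_lit 6) (nat_lit 142) (nat_lit 3) (nat_lit 213) (nat_lit 139) (nat_lit 218))))))))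
noncomputable def pc4 : PT := (PT.nd (nat_lit 119184) (PT.nd (nat_lit 59592) (PT.nd (nat_lit 59046) (PT.nd (nat_lit 234) (PT.nd (nat_lit 78) (PT.lf (nat_lit 10868) (nat_lit 6) (nat_lit 143) (nat_lit 3) (nat_lit 214) (nat_lit 139) (nat_lit 217)) (PT.nd (nat_lit 78) (PT.lf (nat_lit 10944) (nat_lit 6) (nat_lit 144) (nat_lit 3) (nat_lit 215) (nat_lit 139) (nat_lit 216)) (PT.lf (nat_lit 10944) (nat_lit 6) (nat_lit 144) (nat_lit 1) (nat_lit 216) (nat_lit 139) (nat_lit 215)))) (PT.nd (nat_lit 156) (PT.nd (nat_lit 78) (PT.lf (nat_lit 10868) (nat_lit 6) (nat_lit 143) (nat_lit 1) (nat_lit 217) (nat_lit 139) (nat_lit 214)) (PT.lf (nat_lit 10792) (nat_lit 6) (nat_lit 142) (nat_lit 1) (nat_lit 218) (nat_lit 139) (nat_lit 213))) (PT.nd (nat_lit 78) (PT.lf (nat_lit 10716) (nat_lit 6) (nat_lit 141) (nat_lit 1) (nat_lit 219) (nat_lit 139) (nat_lit 212)) (PT.lf (nat_lit 10640) (nat_lit 6) (nat_lit 140) (nat_lit 1) (nat_lit 220)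 (nat_lit 139) (nat_lit 211))))) (PT.nd (nat_lit 234) (PT.nd (nat_lit 78) (PT.lf (nat_lit 11020) (nat_lit 6) (nat_lit 145) (nat_lit 3) (nat_lit 210) (nat_lit 140) (nat_lit 220)) (PT.nd (nat_lit 78) (PT.lf (nat_lit 11096) (nat_lit 6) (nat_lit 146) (nat_lit 3) (nat_lit 211) (nat_lit 140) (nat_lit 219)) (PT.lf (nat_lit 11172) (nat_lit 6) (nat_lit 147) (nat_lit 3) (nat_lit 212) (nat_lit 140) (nat_lit 218)))) (PT.nd (nat_lit 156) (PT.nd (nat_lit 78) (PT.lf (nat_lit 11248) (nat_lit 6) (nat_lit 148) (nat_lit 3) (nat_lit 213) (nat_lit 140) (nat_lit 217)) (PT.lf (nat_lit 11324) (nat_lit 6) (nat_lit 149) (nat_lit 3) (nat_lit 214) (nat_lit 140) (nat_lit 216))) (PT.nd (nat_lit 78) (PT.lf (nat_lit 11400) (nat_lit 3) (nat_lit 150) (nat_lit 1) (nat_lit 215) (nat_lit 140) (nat_lit 215)) (PT.lf (nat_lit 11324) (nat_lit 6) (nat_lit 149) (nat_lit 1) (nat_lit 216) (nat_lit 140) (nat_lit 214)))))) (PT.nd (nat_lit 58968) (PT.nd (nat_lit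 234) (PT.nd (nat_lit 78) (PT.lf (nat_lit 11248) (nat_lit 6) (nat_lit 148) (nat_lit 1) (nat_lit 217) (nat_lit 140) (nat_lit 213)) (PT.nd (nat_lit 78) (PT.lf (nat_lit 11172) (nat_lit 6) (nat_lit 147) (nat_lit 1) (nat_lit 218) (nat_lit 140) (nat_lit 212)) (PT.lf (nat_lit 11096) (nat_lit 6) (nat_lit 146) (nat_lit 1) (nat_lit 219) (nat_lit 140) (nat_lit 211)))) (PT.nd (nat_lit 58578) (PT.nd (nat_lit 58500) (PT.lf (nat_lit 11020) (nat_lit 6) (nat_lit 145) (nat_lit 1) (nat_lit 220) (nat_lit 140) (nat_lit 210)) (PT.lf (nat_lit 11476) (nat_lit 6) (nat_lit 151) (nat_lit 3) (nat_lit 209) (nat_lit 141) (nat_lit 220))) (PT.nd (nat_lit 78) (PT.lf (nat_lit 11552) (nat_lit 6) (nat_lit 152) (nat_lit 3) (nat_lit 210) (nat_lit 141) (nat_lit 219)) (PT.lf (nat_lit 11628) (nat_lit 6) (nat_lit 153) (nat_lit 3) (nat_lit 211) (nat_lit 141) (nat_lit 218))))) (PT.nd (nat_lit 312) (PT.nd (nat_lit 156) (PT.nd (nat_lit 78) (PT.lf (nat_lit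 11704) (nat_lit 6) (nat_lit 154) (nat_lit 3) (nat_lit 212) (nat_lit 141) (nat_lit 217)) (PT.lf (nat_lit 11780) (nat_lit 6) (nat_lit 155) (nat_lit 3) (nat_lit 213) (nat_lit 141) (nat_lit 216))) (PT.nd (nat_lit 78) (PT.lf (nat_lit 11856) (nat_lit 6) (nat_lit 156) (nat_lit 3) (nat_lit 214) (nat_lit 141) (nat_lit 215)) (PT.lf (nat_lit 11856) (nat_lit 6) (nat_lit 156) (nat_lit 1) (nat_lit 215) (nat_lit 141) (nat_lit 214)))) (PT.nd (nat_lit 156) (PT.nd (nat_lit 78) (PT.lf (nat_lit 11780) (nat_lit 6) (nat_lit 155) (nat_lit 1) (nat_lit 216) (nat_lit 141) (nat_lit 213)) (PT.lf (nat_lit 11704) (nat_lit 6) (nat_lit 154) (nat_lit 1) (nat_lit 217) (nat_lit 141) (nat_lit 212))) (PT.nd (nat_lit 78) (PT.lf (nat_lit 11628) (nat_lit 6) (nat_lit 153) (nat_lit 1) (nat_lit 218) (nat_lit 141) (nat_lit 211)) (PT.lf (nat_lit 11552) (nat_lit 6) (nat_lit 152) (nat_lit 1) (nat_lit 219) (nat_lit 141) (nat_lit 210))))))) (PT.nd (nat_lit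 117936) (PT.nd (nat_lit 58968) (PT.nd (nat_lit 58656) (PT.nd (nat_lit 58500) (PT.lf (nat_lit 11476) (nat_lit 6) (nat_lit 151) (nat_lit 1) (nat_lit 220) (nat_lit 141) (nat_lit 209)) (PT.nd (nat_lit 78) (PT.lf (nat_lit 12008) (nat_lit 6) (nat_lit 158) (nat_lit 3) (nat_lit 209) (nat_lit 142) (nat_lit 219)) (PT.lf (nat_lit 12084) (nat_lit 6) (nat_lit 159) (nat_lit 3) (nat_lit 210) (nat_lit 142) (nat_lit 218)))) (PT.nd (nat_lit 156) (PT.nd (nat_lit 78) (PT.lf (nat_lit 12160) (nat_lit 6) (nat_lit 160) (nat_lit 3) (nat_lit 211) (nat_lit 142) (nat_lit 217)) (PT.lf (nat_lit 12236) (nat_lit 6) (nat_lit 161) (nat_lit 3) (nat_lit 212) (nat_lit 142) (nat_lit 216))) (PT.nd (nat_lit 78) (PT.lf (nat_lit 12312) (nat_lit 6) (nat_lit 162) (nat_lit 3) (nat_lit 213) (nat_lit 142) (nat_lit 215)) (PT.lf (nat_lit 12388) (nat_lit 3) (nat_lit 163) (nat_lit 1) (nat_lit 214) (nat_lit 142) (nat_lit 214))))) (PT.nd (nat_lit 234) (PT.nd (nat_lit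 78) (PT.lf (nat_lit 12312) (nat_lit 6) (nat_lit 162) (nat_lit 1) (nat_lit 215) (nat_lit 142) (nat_lit 213)) (PT.nd (nat_lit 78) (PT.lf (nat_lit 12236) (nat_lit 6) (nat_lit 161) (nat_lit 1) (nat_lit 216) (nat_lit 142) (nat_lit 212)) (PT.lf (nat_lit 12160) (nat_lit 6) (nat_lit 160) (nat_lit 1) (nat_lit 217) (nat_lit 142) (nat_lit 211)))) (PT.nd (nat_lit 58578) (PT.nd (nat_lit 78) (PT.lf (nat_lit 12084) (nat_lit 6) (nat_lit 159) (nat_lit 1) (nat_lit 218) (nat_lit 142) (nat_lit 210)) (PT.lf (nat_lit 12008) (nat_lit 6) (nat_lit 158) (nat_lit 1) (nat_lit 219) (nat_lit 142) (nat_lit 209))) (PT.nd (nat_lit 78) (PT.lf (nat_lit 12464) (nat_lit 6) (nat_lit 164) (nat_lit 3) (nat_lit 208) (nat_lit 143) (nat_lit 219)) (PT.lf (nat_lit 12540) (nat_lit 6) (nat_lit 165) (nat_lit 3) (nat_lit 209) (nat_lit 143) (nat_lit 218)))))) (PT.nd (nat_lit 546) (PT.nd (nat_lit 234) (PT.nd (nat_lit 78) (PT.lf (nat_lit 12616) (nat_lit 6) (nat_lit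 166) (nat_lit 3) (nat_lit 210) (nat_lit 143) (nat_lit 217)) (PT.nd (nat_lit 78) (PT.lf (nat_lit 12692) (nat_lit 6) (nat_lit 167) (nat_lit 3) (nat_lit 211) (nat_lit 143) (nat_lit 216)) (PT.lf (nat_lit 12768) (nat_lit 6) (nat_lit 168) (nat_lit 3) (nat_lit 212) (nat_lit 143) (nat_lit 215)))) (PT.nd (nat_lit 156) (PT.nd (nat_lit 78) (PT.lf (nat_lit 12844) (nat_lit 6) (nat_lit 169) (nat_lit 3) (nat_lit 213) (nat_lit 143) (nat_lit 214)) (PT.lf (nat_lit 12844) (nat_lit 6) (nat_lit 169) (nat_lit 1) (nat_lit 214) (nat_lit 143) (nat_lit 213))) (PT.nd (nat_lit 78) (PT.lf (nat_lit 12768) (nat_lit 6) (nat_lit 168) (nat_lit 1) (nat_lit 215) (nat_lit 143) (nat_lit 212)) (PT.lf (nat_lit 12692) (nat_lit 6) (nat_lit 167) (nat_lit 1) (nat_lit 216) (nat_lit 143) (nat_lit 211))))) (PT.nd (nat_lit 58656) (PT.nd (nat_lit 156) (PT.nd (nat_lit 78) (PT.lf (nat_lit 12616) (nat_lit 6) (nat_lit 166) (nat_lit 1) (nat_lit 217) (nat_lit 143)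 (nat_lit 210)) (PT.lf (nat_lit 12540) (nat_lit 6) (nat_lit 165) (nat_lit 1) (nat_lit 218) (nat_lit 143) (nat_lit 209))) (PT.nd (nat_lit 58422) (PT.lf (nat_lit 12464) (nat_lit 6) (nat_lit 164) (nat_lit 1) (nat_lit 219) (nat_lit 143) (nat_lit 208)) (PT.lf (nat_lit 12920) (nat_lit 6) (nat_lit 170) (nat_lit 3) (nat_lit 207) (nat_lit 144) (nat_lit 219)))) (PT.nd (nat_lit 156) (PT.nd (nat_lit 78) (PT.lf (nat_lit 12996) (nat_lit 6) (nat_lit 171) (nat_lit 3) (nat_lit 208) (nat_lit 144) (nat_lit 218)) (PT.lf (nat_lit 13072) (nat_lit 6) (nat_lit 172) (nat_lit 3) (nat_lit 209) (nat_lit 144) (nat_lit 217))) (PT.nd (nat_lit 78) (PT.lf (nat_lit 13148) (nat_lit 6) (nat_lit 173) (nat_lit 3) (nat_lit 210) (nat_lit 144) (nat_lit 216)) (PT.lf (nat_lit 13224) (nat_lit 6) (nat_lit 174) (nat_lit 3) (nat_lit 211) (nat_lit 144) (nat_lit 215))))))))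
noncomputable def pc5 : PT := (PT.nd (nat_lit 118950) (PT.nd (nat_lit 59436) (PT.nd (nat_lit 546) (PT.nd (nat_lit 234) (PT.nd (nat_lit 78) (PT.lf (nat_lit 13300) (nat_lit 6) (nat_lit 175) (nat_lit 3) (nat_lit 212) (nat_lit 144) (nat_lit 214)) (PT.nd (nat_lit 78) (PT.lf (nat_lit 13376) (nat_lit 3) (nat_lit 176) (nat_lit 1) (nat_lit 213) (nat_lit 144) (nat_lit 213)) (PT.lf (nat_lit 13300) (nat_lit 6) (nat_lit 175) (nat_lit 1) (nat_lit 214) (nat_lit 144) (nat_lit 212)))) (PT.nd (nat_lit 156) (PT.nd (nat_lit 78) (PT.lf (nat_lit 13224) (nat_lit 6) (nat_lit 174) (nat_lit 1) (nat_lit 215) (nat_lit 144) (nat_lit 211)) (PT.lf (nat_lit 13148) (nat_lit 6) (nat_lit 173) (nat_lit 1) (nat_lit 216) (nat_lit 144) (nat_lit 210))) (PT.nd (nat_lit 78) (PT.lf (nat_lit 13072) (nat_lit 6) (nat_lit 172) (nat_lit 1) (nat_lit 217) (nat_lit 144) (nat_lit 209)) (PT.lf (nat_lit 12996) (nat_lit 6) (nat_lit 171) (nat_lit 1) (nat_lit 218)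 (nat_lit 144) (nat_lit 208))))) (PT.nd (nat_lit 58578) (PT.nd (nat_lit 58422) (PT.lf (nat_lit 12920) (nat_lit 6) (nat_lit 170) (nat_lit 1) (nat_lit 219) (nat_lit 144) (nat_lit 207)) (PT.nd (nat_lit 78) (PT.lf (nat_lit 13528) (nat_lit 6) (nat_lit 178) (nat_lit 3) (nat_lit 207) (nat_lit 145) (nat_lit 218)) (PT.lf (nat_lit 13604) (nat_lit 6) (nat_lit 179) (nat_lit 3) (nat_lit 208) (nat_lit 145) (nat_lit 217)))) (PT.nd (nat_lit 156) (PT.nd (nat_lit 78) (PT.lf (nat_lit 13680) (nat_lit 6) (nat_lit 180) (nat_lit 3) (nat_lit 209) (nat_lit 145) (nat_lit 216)) (PT.lf (nat_lit 13756) (nat_lit 6) (nat_lit 181) (nat_lit 3) (nat_lit 210) (nat_lit 145) (nat_lit 215))) (PT.nd (nat_lit 78) (PT.lf (nat_lit 13832) (nat_lit 6) (nat_lit 182) (nat_lit 3) (nat_lit 211) (nat_lit 145) (nat_lit 214)) (PT.lf (nat_lit 13908) (nat_lit 6) (nat_lit 183) (nat_lit 3) (nat_lit 212) (nat_lit 145) (nat_lit 213)))))) (PT.nd (nat_lit 58890) (PT.nd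 (nat_lit 234) (PT.nd (nat_lit 78) (PT.lf (nat_lit 13908) (nat_lit 6) (nat_lit 183) (nat_lit 1) (nat_lit 213) (nat_lit 145) (nat_lit 212)) (PT.nd (nat_lit 78) (PT.lf (nat_lit 13832) (nat_lit 6) (nat_lit 182) (nat_lit 1) (nat_lit 214) (nat_lit 145) (nat_lit 211)) (PT.lf (nat_lit 13756) (nat_lit 6) (nat_lit 181) (nat_lit 1) (nat_lit 215) (nat_lit 145) (nat_lit 210)))) (PT.nd (nat_lit 156) (PT.nd (nat_lit 78) (PT.lf (nat_lit 13680) (nat_lit 6) (nat_lit 180) (nat_lit 1) (nat_lit 216) (nat_lit 145) (nat_lit 209)) (PT.lf (nat_lit 13604) (nat_lit 6) (nat_lit 179) (nat_lit 1) (nat_lit 217) (nat_lit 145) (nat_lit 208))) (PT.nd (nat_lit 58422) (PT.lf (nat_lit 13528) (nat_lit 6) (nat_lit 178) (nat_lit 1) (nat_lit 218) (nat_lit 145) (nat_lit 207)) (PT.lf (nat_lit 13984) (nat_lit 6) (nat_lit 184) (nat_lit 3) (nat_lit 206) (nat_lit 146) (nat_lit 218))))) (PT.nd (nat_lit 312) (PT.nd (nat_lit 156) (PT.nd (nat_lit 78) (PT.lf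 (nat_lit 14060) (nat_lit 6) (nat_lit 185) (nat_lit 3) (nat_lit 207) (nat_lit 146) (nat_lit 217)) (PT.lf (nat_lit 14136) (nat_lit 6) (nat_lit 186) (nat_lit 3) (nat_lit 208) (nat_lit 146) (nat_lit 216))) (PT.nd (nat_lit 78) (PT.lf (nat_lit 14212) (nat_lit 6) (nat_lit 187) (nat_lit 3) (nat_lit 209) (nat_lit 146) (nat_lit 215)) (PT.lf (nat_lit 14288) (nat_lit 6) (nat_lit 188) (nat_lit 3) (nat_lit 210) (nat_lit 146) (nat_lit 214)))) (PT.nd (nat_lit 156) (PT.nd (nat_lit 78) (PT.lf (nat_lit 14364) (nat_lit 6) (nat_lit 189) (nat_lit 3) (nat_lit 211) (nat_lit 146) (nat_lit 213)) (PT.lf (nat_lit 14440) (nat_lit 3) (nat_lit 190) (nat_lit 1) (nat_lit 212) (nat_lit 146) (nat_lit 212))) (PT.nd (nat_lit 78) (PT.lf (nat_lit 14364) (nat_lit 6) (nat_lit 189) (nat_lit 1) (nat_lit 213) (nat_lit 146) (nat_lit 211)) (PT.lf (nat_lit 14288) (nat_lit 6) (nat_lit 188) (nat_lit 1) (nat_lit 214) (nat_lit 146) (nat_lit 210))))))) (PT.nd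 (nat_lit 59436) (PT.nd (nat_lit 58812) (PT.nd (nat_lit 234) (PT.nd (nat_lit 78) (PT.lf (nat_lit 14212) (nat_lit 6) (nat_lit 187) (nat_lit 1) (nat_lit 215) (nat_lit 146) (nat_lit 209)) (PT.nd (nat_lit 78) (PT.lf (nat_lit 14136) (nat_lit 6) (nat_lit 186) (nat_lit 1) (nat_lit 216) (nat_lit 146) (nat_lit 208)) (PT.lf (nat_lit 14060) (nat_lit 6) (nat_lit 185) (nat_lit 1) (nat_lit 217) (nat_lit 146) (nat_lit 207)))) (PT.nd (nat_lit 58422) (PT.nd (nat_lit 58344) (PT.lf (nat_lit 13984) (nat_lit 6) (nat_lit 184) (nat_lit 1) (nat_lit 218) (nat_lit 146) (nat_lit 206)) (PT.lf (nat_lit 14516) (nat_lit 6) (nat_lit 191) (nat_lit 3) (nat_lit 205) (nat_lit 147) (nat_lit 218))) (PT.nd (nat_lit 78) (PT.lf (nat_lit 14592) (nat_lit 6) (nat_lit 192) (nat_lit 3) (nat_lit 206) (nat_lit 147) (nat_lit 217)) (PT.lf (nat_lit 14668) (nat_lit 6) (nat_lit 193) (nat_lit 3) (nat_lit 207) (nat_lit 147) (nat_lit 216))))) (PT.nd (nat_lit 312)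 (PT.nd (nat_lit 156) (PT.nd (nat_lit 78) (PT.lf (nat_lit 14744) (nat_lit 6) (nat_lit 194) (nat_lit 3) (nat_lit 208) (nat_lit 147) (nat_lit 215)) (PT.lf (nat_lit 14820) (nat_lit 6) (nat_lit 195) (nat_lit 3) (nat_lit 209) (nat_lit 147) (nat_lit 214))) (PT.nd (nat_lit 78) (PT.lf (nat_lit 14896) (nat_lit 6) (nat_lit 196) (nat_lit 3) (nat_lit 210) (nat_lit 147) (nat_lit 213)) (PT.lf (nat_lit 14972) (nat_lit 6) (nat_lit 197) (nat_lit 3) (nat_lit 211) (nat_lit 147) (nat_lit 212)))) (PT.nd (nat_lit 156) (PT.nd (nat_lit 78) (PT.lf (nat_lit 14972) (nat_lit 6) (nat_lit 197) (nat_lit 1) (nat_lit 212) (nat_lit 147) (nat_lit 211)) (PT.lf (nat_lit 14896) (nat_lit 6) (nat_lit 196) (nat_lit 1) (nat_lit 213) (nat_lit 147) (nat_lit 210))) (PT.nd (nat_lit 78) (PT.lf (nat_lit 14820) (nat_lit 6) (nat_lit 195) (nat_lit 1) (nat_lit 214) (nat_lit 147) (nat_lit 209)) (PT.lf (nat_lit 14744) (nat_lit 6) (nat_lit 194) (nat_lit 1) (nat_lit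 215) (nat_lit 147) (nat_lit 208)))))) (PT.nd (nat_lit 58734) (PT.nd (nat_lit 58422) (PT.nd (nat_lit 78) (PT.lf (nat_lit 14668) (nat_lit 6) (nat_lit 193) (nat_lit 1) (nat_lit 216) (nat_lit 147) (nat_lit 207)) (PT.nd (nat_lit 78) (PT.lf (nat_lit 14592) (nat_lit 6) (nat_lit 192) (nat_lit 1) (nat_lit 217) (nat_lit 147) (nat_lit 206)) (PT.lf (nat_lit 14516) (nat_lit 6) (nat_lit 191) (nat_lit 1) (nat_lit 218) (nat_lit 147) (nat_lit 205)))) (PT.nd (nat_lit 156) (PT.nd (nat_lit 78) (PT.lf (nat_lit 15048) (nat_lit 6) (nat_lit 198) (nat_lit 3) (nat_lit 204) (nat_lit 148) (nat_lit 218)) (PT.lf (nat_lit 15124) (nat_lit 6) (nat_lit 199) (nat_lit 3) (nat_lit 205) (nat_lit 148) (nat_lit 217))) (PT.nd (nat_lit 78) (PT.lf (nat_lit 15200) (nat_lit 6) (nat_lit 200) (nat_lit 3) (nat_lit 206) (nat_lit 148) (nat_lit 216)) (PT.lf (nat_lit 15276) (nat_lit 6) (nat_lit 201) (nat_lit 3) (nat_lit 207) (nat_lit 148) (nat_lit 215))))) (PT.nd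 (nat_lit 312) (PT.nd (nat_lit 156) (PT.nd (nat_lit 78) (PT.lf (nat_lit 15352) (nat_lit 6) (nat_lit 202) (nat_lit 3) (nat_lit 208) (nat_lit 148) (nat_lit 214)) (PT.lf (nat_lit 15428) (nat_lit 6) (nat_lit 203) (nat_lit 3) (nat_lit 209) (nat_lit 148) (nat_lit 213))) (PT.nd (nat_lit 78) (PT.lf (nat_lit 15504) (nat_lit 6) (nat_lit 204) (nat_lit 3) (nat_lit 210) (nat_lit 148) (nat_lit 212)) (PT.lf (nat_lit 15580) (nat_lit 3) (nat_lit 205) (nat_lit 1) (nat_lit 211) (nat_lit 148) (nat_lit 211)))) (PT.nd (nat_lit 156) (PT.nd (nat_lit 78) (PT.lf (nat_lit 15504) (nat_lit 6) (nat_lit 204) (nat_lit 1) (nat_lit 212) (nat_lit 148) (nat_lit 210)) (PT.lf (nat_lit 15428) (nat_lit 6) (nat_lit 203) (nat_lit 1) (nat_lit 213) (nat_lit 148) (nat_lit 209))) (PT.nd (nat_lit 78) (PT.lf (nat_lit 15352) (nat_lit 6) (nat_lit 202) (nat_lit 1) (nat_lit 214) (nat_lit 148) (nat_lit 208)) (PT.lf (nat_lit 15276) (nat_lit 6) (nat_lit 201) (nat_lit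 1) (nat_lit 215) (nat_lit 148) (nat_lit 207))))))))
noncomputable def pc6 : PT := (PT.nd (nat_lit 118638) (PT.nd (nat_lit 59280) (PT.nd (nat_lit 58734) (PT.nd (nat_lit 58422) (PT.nd (nat_lit 78) (PT.lf (nat_lit 15200) (nat_lit 6) (nat_lit 200) (nat_lit 1) (nat_lit 216) (nat_lit 148) (nat_lit 206)) (PT.nd (nat_lit 78) (PT.lf (nat_lit 15124) (nat_lit 6) (nat_lit 199) (nat_lit 1) (nat_lit 217) (nat_lit 148) (nat_lit 205)) (PT.lf (nat_lit 15048) (nat_lit 6) (nat_lit 198) (nat_lit 1) (nat_lit 218) (nat_lit 148) (nat_lit 204)))) (PT.nd (nat_lit 156) (PT.nd (nat_lit 78) (PT.lf (nat_lit 15656) (nat_lit 6) (nat_lit 206) (nat_lit 3) (nat_lit 204) (nat_lit 149) (nat_lit 217)) (PT.lf (nat_lit 15732) (nat_lit 6) (nat_lit 207) (nat_lit 3) (nat_lit 205) (nat_lit 149) (nat_lit 216))) (PT.nd (nat_lit 78) (PT.lf (nat_lit 15808) (nat_lit 6) (nat_lit 208) (nat_lit 3) (nat_lit 206) (nat_lit 149) (nat_lit 215)) (PT.lf (nat_lit 15884)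 (nat_lit 6) (nat_lit 209) (nat_lit 3) (nat_lit 207) (nat_lit 149) (nat_lit 214))))) (PT.nd (nat_lit 234) (PT.nd (nat_lit 78) (PT.lf (nat_lit 15960) (nat_lit 6) (nat_lit 210) (nat_lit 3) (nat_lit 208) (nat_lit 149) (nat_lit 213)) (PT.nd (nat_lit 78) (PT.lf (nat_lit 16036) (nat_lit 6) (nat_lit 211) (nat_lit 3) (nat_lit 209) (nat_lit 149) (nat_lit 212)) (PT.lf (nat_lit 16112) (nat_lit 6) (nat_lit 212) (nat_lit 3) (nat_lit 210) (nat_lit 149) (nat_lit 211)))) (PT.nd (nat_lit 156) (PT.nd (nat_lit 78) (PT.lf (nat_lit 16112) (nat_lit 6) (nat_lit 212) (nat_lit 1) (nat_lit 211) (nat_lit 149) (nat_lit 210)) (PT.lf (nat_lit 16036) (nat_lit 6) (nat_lit 211) (nat_lit 1) (nat_lit 212) (nat_lit 149) (nat_lit 209))) (PT.nd (nat_lit 78) (PT.lf (nat_lit 15960) (nat_lit 6) (nat_lit 210) (nat_lit 1) (nat_lit 213) (nat_lit 149) (nat_lit 208)) (PT.lf (nat_lit 15884) (nat_lit 6) (nat_lit 209) (nat_lit 1) (nat_lit 214) (nat_lit 149)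 (nat_lit 207)))))) (PT.nd (nat_lit 58734) (PT.nd (nat_lit 58422) (PT.nd (nat_lit 78) (PT.lf (nat_lit 15808) (nat_lit 6) (nat_lit 208) (nat_lit 1) (nat_lit 215) (nat_lit 149) (nat_lit 206)) (PT.nd (nat_lit 78) (PT.lf (nat_lit 15732) (nat_lit 6) (nat_lit 207) (nat_lit 1) (nat_lit 216) (nat_lit 149) (nat_lit 205)) (PT.lf (nat_lit 15656) (nat_lit 6) (nat_lit 206) (nat_lit 1) (nat_lit 217) (nat_lit 149) (nat_lit 204)))) (PT.nd (nat_lit 156) (PT.nd (nat_lit 78) (PT.lf (nat_lit 16188) (nat_lit 6) (nat_lit 213) (nat_lit 3) (nat_lit 203) (nat_lit 150) (nat_lit 217)) (PT.lf (nat_lit 16264) (nat_lit 6) (nat_lit 214) (nat_lit 3) (nat_lit 204) (nat_lit 150) (nat_lit 216))) (PT.nd (nat_lit 78) (PT.lf (nat_lit 16340) (nat_lit 6) (nat_lit 215) (nat_lit 3) (nat_lit 205) (nat_lit 150) (nat_lit 215)) (PT.lf (nat_lit 16416) (nat_lit 6) (nat_lit 216) (nat_lit 3) (nat_lit 206) (nat_lit 150) (nat_lit 214))))) (PT.nd (nat_lit 312)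 (PT.nd (nat_lit 156) (PT.nd (nat_lit 78) (PT.lf (nat_lit 16492) (nat_lit 6) (nat_lit 217) (nat_lit 3) (nat_lit 207) (nat_lit 150) (nat_lit 213)) (PT.lf (nat_lit 16568) (nat_lit 6) (nat_lit 218) (nat_lit 3) (nat_lit 208) (nat_lit 150) (nat_lit 212))) (PT.nd (nat_lit 78) (PT.lf (nat_lit 16644) (nat_lit 6) (nat_lit 219) (nat_lit 3) (nat_lit 209) (nat_lit 150) (nat_lit 211)) (PT.lf (nat_lit 16720) (nat_lit 3) (nat_lit 220) (nat_lit 1) (nat_lit 210) (nat_lit 150) (nat_lit 210)))) (PT.nd (nat_lit 156) (PT.nd (nat_lit 78) (PT.lf (nat_lit 16644) (nat_lit 6) (nat_lit 219) (nat_lit 1) (nat_lit 211) (nat_lit 150) (nat_lit 209)) (PT.lf (nat_lit 16568) (nat_lit 6) (nat_lit 218) (nat_lit 1) (nat_lit 212) (nat_lit 150) (nat_lit 208))) (PT.nd (nat_lit 78) (PT.lf (nat_lit 16492) (nat_lit 6) (nat_lit 217) (nat_lit 1) (nat_lit 213) (nat_lit 150) (nat_lit 207)) (PT.lf (nat_lit 16416) (nat_lit 6) (nat_lit 216) (nat_lit 1) (nat_lit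 214) (nat_lit 150) (nat_lit 206))))))) (PT.nd (nat_lit 59280) (PT.nd (nat_lit 58656) (PT.nd (nat_lit 58344) (PT.nd (nat_lit 78) (PT.lf (nat_lit 16340) (nat_lit 6) (nat_lit 215) (nat_lit 1) (nat_lit 215) (nat_lit 150) (nat_lit 205)) (PT.nd (nat_lit 78) (PT.lf (nat_lit 16264) (nat_lit 6) (nat_lit 214) (nat_lit 1) (nat_lit 216) (nat_lit 150) (nat_lit 204)) (PT.lf (nat_lit 16188) (nat_lit 6) (nat_lit 213) (nat_lit 1) (nat_lit 217) (nat_lit 150) (nat_lit 203)))) (PT.nd (nat_lit 156) (PT.nd (nat_lit 78) (PT.lf (nat_lit 16796) (nat_lit 6) (nat_lit 221) (nat_lit 3) (nat_lit 202) (nat_lit 151) (nat_lit 217)) (PT.lf (nat_lit 16872) (nat_lit 6) (nat_lit 222) (nat_lit 3) (nat_lit 203) (nat_lit 151) (nat_lit 216))) (PT.nd (nat_lit 78) (PT.lf (nat_lit 16948) (nat_lit 6) (nat_lit 223) (nat_lit 3) (nat_lit 204) (nat_lit 151) (nat_lit 215)) (PT.lf (nat_lit 17024) (nat_lit 6) (nat_lit 224) (nat_lit 3) (nat_lit 205) (nat_lit 151)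 (nat_lit 214))))) (PT.nd (nat_lit 312) (PT.nd (nat_lit 156) (PT.nd (nat_lit 78) (PT.lf (nat_lit 17100) (nat_lit 6) (nat_lit 225) (nat_lit 3) (nat_lit 206) (nat_lit 151) (nat_lit 213)) (PT.lf (nat_lit 17176) (nat_lit 6) (nat_lit 226) (nat_lit 3) (nat_lit 207) (nat_lit 151) (nat_lit 212))) (PT.nd (nat_lit 78) (PT.lf (nat_lit 17252) (nat_lit 6) (nat_lit 227) (nat_lit 3) (nat_lit 208) (nat_lit 151) (nat_lit 211)) (PT.lf (nat_lit 17328) (nat_lit 6) (nat_lit 228) (nat_lit 3) (nat_lit 209) (nat_lit 151) (nat_lit 210)))) (PT.nd (nat_lit 156) (PT.nd (nat_lit 78) (PT.lf (nat_lit 17328) (nat_lit 6) (nat_lit 228) (nat_lit 1) (nat_lit 210) (nat_lit 151) (nat_lit 209)) (PT.lf (nat_lit 17252) (nat_lit 6) (nat_lit 227) (nat_lit 1) (nat_lit 211) (nat_lit 151) (nat_lit 208))) (PT.nd (nat_lit 78) (PT.lf (nat_lit 17176) (nat_lit 6) (nat_lit 226) (nat_lit 1) (nat_lit 212) (nat_lit 151) (nat_lit 207)) (PT.lf (nat_lit 17100) (nat_lit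 6) (nat_lit 225) (nat_lit 1) (nat_lit 213) (nat_lit 151) (nat_lit 206)))))) (PT.nd (nat_lit 58578) (PT.nd (nat_lit 234) (PT.nd (nat_lit 78) (PT.lf (nat_lit 17024) (nat_lit 6) (nat_lit 224) (nat_lit 1) (nat_lit 214) (nat_lit 151) (nat_lit 205)) (PT.nd (nat_lit 78) (PT.lf (nat_lit 16948) (nat_lit 6) (nat_lit 223) (nat_lit 1) (nat_lit 215) (nat_lit 151) (nat_lit 204)) (PT.lf (nat_lit 16872) (nat_lit 6) (nat_lit 222) (nat_lit 1) (nat_lit 216) (nat_lit 151) (nat_lit 203)))) (PT.nd (nat_lit 58188) (PT.nd (nat_lit 58110) (PT.lf (nat_lit 16796) (nat_lit 6) (nat_lit 221) (nat_lit 1) (nat_lit 217) (nat_lit 151) (nat_lit 202)) (PT.lf (nat_lit 17404) (nat_lit 6) (nat_lit 229) (nat_lit 3) (nat_lit 201) (nat_lit 152) (nat_lit 217))) (PT.nd (nat_lit 78) (PT.lf (nat_lit 17480) (nat_lit 6) (nat_lit 230) (nat_lit 3) (nat_lit 202) (nat_lit 152) (nat_lit 216)) (PT.lf (nat_lit 17556) (nat_lit 6) (nat_lit 231) (nat_lit 3) (nat_lit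 203) (nat_lit 152) (nat_lit 215))))) (PT.nd (nat_lit 312) (PT.nd (nat_lit 156) (PT.nd (nat_lit 78) (PT.lf (nat_lit 17632) (nat_lit 6) (nat_lit 232) (nat_lit 3) (nat_lit 204) (nat_lit 152) (nat_lit 214)) (PT.lf (nat_lit 17708) (nat_lit 6) (nat_lit 233) (nat_lit 3) (nat_lit 205) (nat_lit 152) (nat_lit 213))) (PT.nd (nat_lit 78) (PT.lf (nat_lit 17784) (nat_lit 6) (nat_lit 234) (nat_lit 3) (nat_lit 206) (nat_lit 152) (nat_lit 212)) (PT.lf (nat_lit 17860) (nat_lit 6) (nat_lit 235) (nat_lit 3) (nat_lit 207) (nat_lit 152) (nat_lit 211)))) (PT.nd (nat_lit 156) (PT.nd (nat_lit 78) (PT.lf (nat_lit 17936) (nat_lit 6) (nat_lit 236) (nat_lit 3) (nat_lit 208) (nat_lit 152) (nat_lit 210)) (PT.lf (nat_lit 18012) (nat_lit 3) (nat_lit 237) (nat_lit 1) (nat_lit 209) (nat_lit 152) (nat_lit 209))) (PT.nd (nat_lit 78) (PT.lf (nat_lit 17936) (nat_lit 6) (nat_lit 236) (nat_lit 1) (nat_lit 210) (nat_lit 152) (nat_lit 208)) (PT.lf (nat_lit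 17860) (nat_lit 6) (nat_lit 235) (nat_lit 1) (nat_lit 211) (nat_lit 152) (nat_lit 207))))))))
noncomputable def pc7 : PT := (PT.nd (nat_lit 118326) (PT.nd (nat_lit 59124) (PT.nd (nat_lit 58578) (PT.nd (nat_lit 234) (PT.nd (nat_lit 78) (PT.lf (nat_lit 17784) (nat_lit 6) (nat_lit 234) (nat_lit 1) (nat_lit 212) (nat_lit 152) (nat_lit 206)) (PT.nd (nat_lit 78) (PT.lf (nat_lit 17708) (nat_lit 6) (nat_lit 233) (nat_lit 1) (nat_lit 213) (nat_lit 152) (nat_lit 205)) (PT.lf (nat_lit 17632) (nat_lit 6) (nat_lit 232) (nat_lit 1) (nat_lit 214) (nat_lit 152) (nat_lit 204)))) (PT.nd (nat_lit 156) (PT.nd (nat_lit 78) (PT.lf (nat_lit 17556) (nat_lit 6) (nat_lit 231) (nat_lit 1) (nat_lit 215) (nat_lit 152) (nat_lit 203)) (PT.lf (nat_lit 17480) (nat_lit 6) (nat_lit 230) (nat_lit 1) (nat_lit 216) (nat_lit 152) (nat_lit 202))) (PT.nd (nat_lit 58110) (PT.lf (nat_lit 17404) (nat_lit 6) (nat_lit 229) (nat_lit 1) (nat_lit 217) (nat_lit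 152) (nat_lit 201)) (PT.lf (nat_lit 18088) (nat_lit 6) (nat_lit 238) (nat_lit 3) (nat_lit 201) (nat_lit 153) (nat_lit 216))))) (PT.nd (nat_lit 234) (PT.nd (nat_lit 78) (PT.lf (nat_lit 18164) (nat_lit 6) (nat_lit 239) (nat_lit 3) (nat_lit 202) (nat_lit 153) (nat_lit 215)) (PT.nd (nat_lit 78) (PT.lf (nat_lit 18240) (nat_lit 6) (nat_lit 240) (nat_lit 3) (nat_lit 203) (nat_lit 153) (nat_lit 214)) (PT.lf (nat_lit 18316) (nat_lit 6) (nat_lit 241) (nat_lit 3) (nat_lit 204) (nat_lit 153) (nat_lit 213)))) (PT.nd (nat_lit 156) (PT.nd (nat_lit 78) (PT.lf (nat_lit 18392) (nat_lit 6) (nat_lit 242) (nat_lit 3) (nat_lit 205) (nat_lit 153) (nat_lit 212)) (PT.lf (nat_lit 18468) (nat_lit 6) (nat_lit 243) (nat_lit 3) (nat_lit 206) (nat_lit 153) (nat_lit 211))) (PT.nd (nat_lit 78) (PT.lf (nat_lit 18544) (nat_lit 6) (nat_lit 244) (nat_lit 3) (nat_lit 207) (nat_lit 153) (nat_lit 210)) (PT.lf (nat_lit 18620) (nat_lit 6) (nat_lit 245)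 (nat_lit 3) (nat_lit 208) (nat_lit 153) (nat_lit 209)))))) (PT.nd (nat_lit 546) (PT.nd (nat_lit 234) (PT.nd (nat_lit 78) (PT.lf (nat_lit 18620) (nat_lit 6) (nat_lit 245) (nat_lit 1) (nat_lit 209) (nat_lit 153) (nat_lit 208)) (PT.nd (nat_lit 78) (PT.lf (nat_lit 18544) (nat_lit 6) (nat_lit 244) (nat_lit 1) (nat_lit 210) (nat_lit 153) (nat_lit 207)) (PT.lf (nat_lit 18468) (nat_lit 6) (nat_lit 243) (nat_lit 1) (nat_lit 211) (nat_lit 153) (nat_lit 206)))) (PT.nd (nat_lit 156) (PT.nd (nat_lit 78) (PT.lf (nat_lit 18392) (nat_lit 6) (nat_lit 242) (nat_lit 1) (nat_lit 212) (nat_lit 153) (nat_lit 205)) (PT.lf (nat_lit 18316) (nat_lit 6) (nat_lit 241) (nat_lit 1) (nat_lit 213) (nat_lit 153) (nat_lit 204))) (PT.nd (nat_lit 78) (PT.lf (nat_lit 18240) (nat_lit 6) (nat_lit 240) (nat_lit 1) (nat_lit 214) (nat_lit 153) (nat_lit 203)) (PT.lf (nat_lit 18164) (nat_lit 6) (nat_lit 239) (nat_lit 1) (nat_lit 215) (nat_lit 153) (nat_lit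 202))))) (PT.nd (nat_lit 58344) (PT.nd (nat_lit 58188) (PT.nd (nat_lit 58110) (PT.lf (nat_lit 18088) (nat_lit 6) (nat_lit 238) (nat_lit 1) (nat_lit 216) (nat_lit 153) (nat_lit 201)) (PT.lf (nat_lit 18696) (nat_lit 6) (nat_lit 246) (nat_lit 3) (nat_lit 200) (nat_lit 154) (nat_lit 216))) (PT.nd (nat_lit 78) (PT.lf (nat_lit 18772) (nat_lit 6) (nat_lit 247) (nat_lit 3) (nat_lit 201) (nat_lit 154) (nat_lit 215)) (PT.lf (nat_lit 18848) (nat_lit 6) (nat_lit 248) (nat_lit 3) (nat_lit 202) (nat_lit 154) (nat_lit 214)))) (PT.nd (nat_lit 156) (PT.nd (nat_lit 78) (PT.lf (nat_lit 18924) (nat_lit 6) (nat_lit 249) (nat_lit 3) (nat_lit 203) (nat_lit 154) (nat_lit 213)) (PT.lf (nat_lit 19000) (nat_lit 6) (nat_lit 250) (nat_lit 3) (nat_lit 204) (nat_lit 154) (nat_lit 212))) (PT.nd (nat_lit 78) (PT.lf (nat_lit 19076) (nat_lit 6) (nat_lit 251) (nat_lit 3) (nat_lit 205) (nat_lit 154) (nat_lit 211)) (PT.lf (nat_lit 19152) (nat_lit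 6) (nat_lit 252) (nat_lit 3) (nat_lit 206) (nat_lit 154) (nat_lit 210))))))) (PT.nd (nat_lit 59124) (PT.nd (nat_lit 546) (PT.nd (nat_lit 234) (PT.nd (nat_lit 78) (PT.lf (nat_lit 19228) (nat_lit 6) (nat_lit 253) (nat_lit 3) (nat_lit 207) (nat_lit 154) (nat_lit 209)) (PT.nd (nat_lit 78) (PT.lf (nat_lit 19304) (nat_lit 3) (nat_lit 254) (nat_lit 1) (nat_lit 208) (nat_lit 154) (nat_lit 208)) (PT.lf (nat_lit 19228) (nat_lit 6) (nat_lit 253) (nat_lit 1) (nat_lit 209) (nat_lit 154) (nat_lit 207)))) (PT.nd (nat_lit 156) (PT.nd (nat_lit 78) (PT.lf (nat_lit 19152) (nat_lit 6) (nat_lit 252) (nat_lit 1) (nat_lit 210) (nat_lit 154) (nat_lit 206)) (PT.lf (nat_lit 19076) (nat_lit 6) (nat_lit 251) (nat_lit 1) (nat_lit 211) (nat_lit 154) (nat_lit 205))) (PT.nd (nat_lit 78) (PT.lf (nat_lit 19000) (nat_lit 6) (nat_lit 250) (nat_lit 1) (nat_lit 212) (nat_lit 154) (nat_lit 204)) (PT.lf (nat_lit 18924) (nat_lit 6) (nat_lit 249) (nat_lit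 1) (nat_lit 213) (nat_lit 154) (nat_lit 203))))) (PT.nd (nat_lit 58266) (PT.nd (nat_lit 156) (PT.nd (nat_lit 78) (PT.lf (nat_lit 18848) (nat_lit 6) (nat_lit 248) (nat_lit 1) (nat_lit 214) (nat_lit 154) (nat_lit 202)) (PT.lf (nat_lit 18772) (nat_lit 6) (nat_lit 247) (nat_lit 1) (nat_lit 215) (nat_lit 154) (nat_lit 201))) (PT.nd (nat_lit 58032) (PT.lf (nat_lit 18696) (nat_lit 6) (nat_lit 246) (nat_lit 1) (nat_lit 216) (nat_lit 154) (nat_lit 200)) (PT.lf (nat_lit 19380) (nat_lit 6) (nat_lit 255) (nat_lit 3) (nat_lit 199) (nat_lit 155) (nat_lit 216)))) (PT.nd (nat_lit 156) (PT.nd (nat_lit 78) (PT.lf (nat_lit 19456) (nat_lit 6) (nat_lit 256) (nat_lit 3) (nat_lit 200) (nat_lit 155) (nat_lit 215)) (PT.lf (nat_lit 19532) (nat_lit 6) (nat_lit 257) (nat_lit 3) (nat_lit 201) (nat_lit 155) (nat_lit 214))) (PT.nd (nat_lit 78) (PT.lf (nat_lit 19608) (nat_lit 6) (nat_lit 258) (nat_lit 3) (nat_lit 202) (nat_lit 155) (nat_lit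 213)) (PT.lf (nat_lit 19684) (nat_lit 6) (nat_lit 259) (nat_lit 3) (nat_lit 203) (nat_lit 155) (nat_lit 212)))))) (PT.nd (nat_lit 546) (PT.nd (nat_lit 234) (PT.nd (nat_lit 78) (PT.lf (nat_lit 19760) (nat_lit 6) (nat_lit 260) (nat_lit 3) (nat_lit 204) (nat_lit 155) (nat_lit 211)) (PT.nd (nat_lit 78) (PT.lf (nat_lit 19836) (nat_lit 6) (nat_lit 261) (nat_lit 3) (nat_lit 205) (nat_lit 155) (nat_lit 210)) (PT.lf (nat_lit 19912) (nat_lit 6) (nat_lit 262) (nat_lit 3) (nat_lit 206) (nat_lit 155) (nat_lit 209)))) (PT.nd (nat_lit 156) (PT.nd (nat_lit 78) (PT.lf (nat_lit 19988) (nat_lit 6) (nat_lit 263) (nat_lit 3) (nat_lit 207) (nat_lit 155) (nat_lit 208)) (PT.lf (nat_lit 19988) (nat_lit 6) (nat_lit 263) (nat_lit 1) (nat_lit 208) (nat_lit 155) (nat_lit 207))) (PT.nd (nat_lit 78) (PT.lf (nat_lit 19912) (nat_lit 6) (nat_lit 262) (nat_lit 1) (nat_lit 209) (nat_lit 155) (nat_lit 206)) (PT.lf (nat_lit 19836) (nat_lit 6) (nat_lit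 261) (nat_lit 1) (nat_lit 210) (nat_lit 155) (nat_lit 205))))) (PT.nd (nat_lit 312) (PT.nd (nat_lit 156) (PT.nd (nat_lit 78) (PT.lf (nat_lit 19760) (nat_lit 6) (nat_lit 260) (nat_lit 1) (nat_lit 211) (nat_lit 155) (nat_lit 204)) (PT.lf (nat_lit 19684) (nat_lit 6) (nat_lit 259) (nat_lit 1) (nat_lit 212) (nat_lit 155) (nat_lit 203))) (PT.nd (nat_lit 78) (PT.lf (nat_lit 19608) (nat_lit 6) (nat_lit 258) (nat_lit 1) (nat_lit 213) (nat_lit 155) (nat_lit 202)) (PT.lf (nat_lit 19532) (nat_lit 6) (nat_lit 257) (nat_lit 1) (nat_lit 214) (nat_lit 155) (nat_lit 201)))) (PT.nd (nat_lit 58032) (PT.nd (nat_lit 78) (PT.lf (nat_lit 19456) (nat_lit 6) (nat_lit 256) (nat_lit 1) (nat_lit 215) (nat_lit 155) (nat_lit 200)) (PT.lf (nat_lit 19380) (nat_lit 6) (nat_lit 255) (nat_lit 1) (nat_lit 216) (nat_lit 155) (nat_lit 199))) (PT.nd (nat_lit 78) (PT.lf (nat_lit 20064) (nat_lit 6) (nat_lit 264) (nat_lit 3) (nat_lit 198) (nat_lit 156)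 (nat_lit 216)) (PT.lf (nat_lit 20140) (nat_lit 6) (nat_lit 265) (nat_lit 3) (nat_lit 199) (nat_lit 156) (nat_lit 215))))))))
noncomputable def pc8 : PT := (PT.nd (nat_lit 60138) (PT.nd (nat_lit 1092) (PT.nd (nat_lit 546) (PT.nd (nat_lit 234) (PT.nd (nat_lit 78) (PT.lf (nat_lit 20216) (nat_lit 6) (nat_lit 266) (nat_lit 3) (nat_lit 200) (nat_lit 156) (nat_lit 214)) (PT.nd (nat_lit 78) (PT.lf (nat_lit 20292) (nat_lit 6) (nat_lit 267) (nat_lit 3) (nat_lit 201) (nat_lit 156) (nat_lit 213)) (PT.lf (nat_lit 20368) (nat_lit 6) (nat_lit 268) (nat_lit 3) (nat_lit 202) (nat_lit 156) (nat_lit 212)))) (PT.nd (nat_lit 156) (PT.nd (nat_lit 78) (PT.lf (nat_lit 20444) (nat_lit 6) (nat_lit 269) (nat_lit 3) (nat_lit 203) (nat_lit 156) (nat_lit 211)) (PT.lf (nat_lit 20520) (nat_lit 6) (nat_lit 270) (nat_lit 3) (nat_lit 204) (nat_lit 156) (nat_lit 210))) (PT.nd (nat_lit 78) (PT.lf (nat_lit 20596) (nat_lit 6) (nat_lit 271) (nat_lit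 3) (nat_lit 205) (nat_lit 156) (nat_lit 209)) (PT.lf (nat_lit 20672) (nat_lit 6) (nat_lit 272) (nat_lit 3) (nat_lit 206) (nat_lit 156) (nat_lit 208))))) (PT.nd (nat_lit 234) (PT.nd (nat_lit 78) (PT.lf (nat_lit 20748) (nat_lit 3) (nat_lit 273) (nat_lit 1) (nat_lit 207) (nat_lit 156) (nat_lit 207)) (PT.nd (nat_lit 78) (PT.lf (nat_lit 20672) (nat_lit 6) (nat_lit 272) (nat_lit 1) (nat_lit 208) (nat_lit 156) (nat_lit 206)) (PT.lf (nat_lit 20596) (nat_lit 6) (nat_lit 271) (nat_lit 1) (nat_lit 209) (nat_lit 156) (nat_lit 205)))) (PT.nd (nat_lit 156) (PT.nd (nat_lit 78) (PT.lf (nat_lit 20520) (nat_lit 6) (nat_lit 270) (nat_lit 1) (nat_lit 210) (nat_lit 156) (nat_lit 204)) (PT.lf (nat_lit 20444) (nat_lit 6) (nat_lit 269) (nat_lit 1) (nat_lit 211) (nat_lit 156) (nat_lit 203))) (PT.nd (nat_lit 78) (PT.lf (nat_lit 20368) (nat_lit 6) (nat_lit 268) (nat_lit 1) (nat_lit 212) (nat_lit 156) (nat_lit 202)) (PT.lf (nat_lit 20292)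 (nat_lit 6) (nat_lit 267) (nat_lit 1) (nat_lit 213) (nat_lit 156) (nat_lit 201)))))) (PT.nd (nat_lit 58422) (PT.nd (nat_lit 58110) (PT.nd (nat_lit 78) (PT.lf (nat_lit 20216) (nat_lit 6) (nat_lit 266) (nat_lit 1) (nat_lit 214) (nat_lit 156) (nat_lit 200)) (PT.nd (nat_lit 78) (PT.lf (nat_lit 20140) (nat_lit 6) (nat_lit 265) (nat_lit 1) (nat_lit 215) (nat_lit 156) (nat_lit 199)) (PT.lf (nat_lit 20064) (nat_lit 6) (nat_lit 264) (nat_lit 1) (nat_lit 216) (nat_lit 156) (nat_lit 198)))) (PT.nd (nat_lit 156) (PT.nd (nat_lit 78) (PT.lf (nat_lit 20824) (nat_lit 6) (nat_lit 274) (nat_lit 3) (nat_lit 198) (nat_lit 157) (nat_lit 215)) (PT.lf (nat_lit 20900) (nat_lit 6) (nat_lit 275) (nat_lit 3) (nat_lit 199) (nat_lit 157) (nat_lit 214))) (PT.nd (nat_lit 78) (PT.lf (nat_lit 20976) (nat_lit 6) (nat_lit 276) (nat_lit 3) (nat_lit 200) (nat_lit 157) (nat_lit 213)) (PT.lf (nat_lit 21052) (nat_lit 6) (nat_lit 277) (nat_lit 3) (nat_lit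 201) (nat_lit 157) (nat_lit 212))))) (PT.nd (nat_lit 312) (PT.nd (nat_lit 156) (PT.nd (nat_lit 78) (PT.lf (nat_lit 21128) (nat_lit 6) (nat_lit 278) (nat_lit 3) (nat_lit 202) (nat_lit 157) (nat_lit 211)) (PT.lf (nat_lit 21204) (nat_lit 6) (nat_lit 279) (nat_lit 3) (nat_lit 203) (nat_lit 157) (nat_lit 210))) (PT.nd (nat_lit 78) (PT.lf (nat_lit 21280) (nat_lit 6) (nat_lit 280) (nat_lit 3) (nat_lit 204) (nat_lit 157) (nat_lit 209)) (PT.lf (nat_lit 21356) (nat_lit 6) (nat_lit 281) (nat_lit 3) (nat_lit 205) (nat_lit 157) (nat_lit 208)))) (PT.nd (nat_lit 156) (PT.nd (nat_lit 78) (PT.lf (nat_lit 21432) (nat_lit 6) (nat_lit 282) (nat_lit 3) (nat_lit 206) (nat_lit 157) (nat_lit 207)) (PT.lf (nat_lit 21432) (nat_lit 6) (nat_lit 282) (nat_lit 1) (nat_lit 207) (nat_lit 157) (nat_lit 206))) (PT.nd (nat_lit 78) (PT.lf (nat_lit 21356) (nat_lit 6) (nat_lit 281) (nat_lit 1) (nat_lit 208) (nat_lit 157) (nat_lit 205)) (PT.lf (nat_lit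 21280) (nat_lit 6) (nat_lit 280) (nat_lit 1) (nat_lit 209) (nat_lit 157) (nat_lit 204))))))) (PT.nd (nat_lit 58968) (PT.nd (nat_lit 58422) (PT.nd (nat_lit 234) (PT.nd (nat_lit 78) (PT.lf (nat_lit 21204) (nat_lit 6) (nat_lit 279) (nat_lit 1) (nat_lit 210) (nat_lit 157) (nat_lit 203)) (PT.nd (nat_lit 78) (PT.lf (nat_lit 21128) (nat_lit 6) (nat_lit 278) (nat_lit 1) (nat_lit 211) (nat_lit 157) (nat_lit 202)) (PT.lf (nat_lit 21052) (nat_lit 6) (nat_lit 277) (nat_lit 1) (nat_lit 212) (nat_lit 157) (nat_lit 201)))) (PT.nd (nat_lit 156) (PT.nd (nat_lit 78) (PT.lf (nat_lit 20976) (nat_lit 6) (nat_lit 276) (nat_lit 1) (nat_lit 213) (nat_lit 157) (nat_lit 200)) (PT.lf (nat_lit 20900) (nat_lit 6) (nat_lit 275) (nat_lit 1) (nat_lit 214) (nat_lit 157) (nat_lit 199))) (PT.nd (nat_lit 57954) (PT.lf (nat_lit 20824) (nat_lit 6) (nat_lit 274) (nat_lit 1) (nat_lit 215) (nat_lit 157) (nat_lit 198)) (PT.lf (nat_lit 21508) (nat_lit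 6) (nat_lit 283) (nat_lit 3) (nat_lit 197) (nat_lit 158) (nat_lit 215))))) (PT.nd (nat_lit 234) (PT.nd (nat_lit 78) (PT.lf (nat_lit 21584) (nat_lit 6) (nat_lit 284) (nat_lit 3) (nat_lit 198) (nat_lit 158) (nat_lit 214)) (PT.nd (nat_lit 78) (PT.lf (nat_lit 21660) (nat_lit 6) (nat_lit 285) (nat_lit 3) (nat_lit 199) (nat_lit 158) (nat_lit 213)) (PT.lf (nat_lit 21736) (nat_lit 6) (nat_lit 286) (nat_lit 3) (nat_lit 200) (nat_lit 158) (nat_lit 212)))) (PT.nd (nat_lit 156) (PT.nd (nat_lit 78) (PT.lf (nat_lit 21812) (nat_lit 6) (nat_lit 287) (nat_lit 3) (nat_lit 201) (nat_lit 158) (nat_lit 211)) (PT.lf (nat_lit 21888) (nat_lit 6) (nat_lit 288) (nat_lit 3) (nat_lit 202) (nat_lit 158) (nat_lit 210))) (PT.nd (nat_lit 78) (PT.lf (nat_lit 21964) (nat_lit 6) (nat_lit 289) (nat_lit 3) (nat_lit 203) (nat_lit 158) (nat_lit 209)) (PT.lf (nat_lit 22040) (nat_lit 6) (nat_lit 290) (nat_lit 3) (nat_lit 204) (nat_lit 158) (nat_lit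 208)))))) (PT.nd (nat_lit 546) (PT.nd (nat_lit 234) (PT.nd (nat_lit 78) (PT.lf (nat_lit 22116) (nat_lit 6) (nat_lit 291) (nat_lit 3) (nat_lit 205) (nat_lit 158) (nat_lit 207)) (PT.nd (nat_lit 78) (PT.lf (nat_lit 22192) (nat_lit 3) (nat_lit 292) (nat_lit 1) (nat_lit 206) (nat_lit 158) (nat_lit 206)) (PT.lf (nat_lit 22116) (nat_lit 6) (nat_lit 291) (nat_lit 1) (nat_lit 207) (nat_lit 158) (nat_lit 205)))) (PT.nd (nat_lit 156) (PT.nd (nat_lit 78) (PT.lf (nat_lit 22040) (nat_lit 6) (nat_lit 290) (nat_lit 1) (nat_lit 208) (nat_lit 158) (nat_lit 204)) (PT.lf (nat_lit 21964) (nat_lit 6) (nat_lit 289) (nat_lit 1) (nat_lit 209) (nat_lit 158) (nat_lit 203))) (PT.nd (nat_lit 78) (PT.lf (nat_lit 21888) (nat_lit 6) (nat_lit 288) (nat_lit 1) (nat_lit 210) (nat_lit 158) (nat_lit 202)) (PT.lf (nat_lit 21812) (nat_lit 6) (nat_lit 287) (nat_lit 1) (nat_lit 211) (nat_lit 158) (nat_lit 201))))) (PT.nd (nat_lit 58110) (PT.nd (nat_lit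 156) (PT.nd (nat_lit 78) (PT.lf (nat_lit 21736) (nat_lit 6) (nat_lit 286) (nat_lit 1) (nat_lit 212) (nat_lit 158) (nat_lit 200)) (PT.lf (nat_lit 21660) (nat_lit 6) (nat_lit 285) (nat_lit 1) (nat_lit 213) (nat_lit 158) (nat_lit 199))) (PT.nd (nat_lit 78) (PT.lf (nat_lit 21584) (nat_lit 6) (nat_lit 284) (nat_lit 1) (nat_lit 214) (nat_lit 158) (nat_lit 198)) (PT.lf (nat_lit 21508) (nat_lit 6) (nat_lit 283) (nat_lit 1) (nat_lit 215) (nat_lit 158) (nat_lit 197)))) (PT.nd (nat_lit 156) (PT.nd (nat_lit 78) (PT.lf (nat_lit 22268) (nat_lit 6) (nat_lit 293) (nat_lit 3) (nat_lit 196) (nat_lit 159) (nat_lit 215)) (PT.lf (nat_lit 22344) (nat_lit 6) (nat_lit 294) (nat_lit 3) (nat_lit 197) (nat_lit 159) (nat_lit 214))) (PT.nd (nat_lit 78) (PT.lf (nat_lit 22420) (nat_lit 6) (nat_lit 295) (nat_lit 3) (nat_lit 198) (nat_lit 159) (nat_lit 213)) (PT.lf (nat_lit 22496) (nat_lit 6) (nat_lit 296) (nat_lit 3) (nat_lit 199) (nat_lit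 159) (nat_lit 212))))))))
noncomputable def pc9 : PT := (PT.nd (nat_lit 59982) (PT.nd (nat_lit 1092) (PT.nd (nat_lit 546) (PT.nd (nat_lit 234) (PT.nd (nat_lit 78) (PT.lf (nat_lit 22572) (nat_lit 6) (nat_lit 297) (nat_lit 3) (nat_lit 200) (nat_lit 159) (nat_lit 211)) (PT.nd (nat_lit 78) (PT.lf (nat_lit 22648) (nat_lit 6) (nat_lit 298) (nat_lit 3) (nat_lit 201) (nat_lit 159) (nat_lit 210)) (PT.lf (nat_lit 22724) (nat_lit 6) (nat_lit 299) (nat_lit 3) (nat_lit 202) (nat_lit 159) (nat_lit 209)))) (PT.nd (nat_lit 156) (PT.nd (nat_lit 78) (PT.lf (nat_lit 22800) (nat_lit 6) (nat_lit 300) (nat_lit 3) (nat_lit 203) (nat_lit 159) (nat_lit 208)) (PT.lf (nat_lit 22876) (nat_lit 6) (nat_lit 301) (nat_lit 3) (nat_lit 204) (nat_lit 159) (nat_lit 207))) (PT.nd (nat_lit 78) (PT.lf (nat_lit 22952) (nat_lit 6) (nat_lit 302) (nat_lit 3) (nat_lit 205) (nat_lit 159) (nat_lit 206)) (PT.lf (nat_lit 22952) (nat_lit 6) (nat_lit 302) (nat_lit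 1) (nat_lit 206) (nat_lit 159) (nat_lit 205))))) (PT.nd (nat_lit 234) (PT.nd (nat_lit 78) (PT.lf (nat_lit 22876) (nat_lit 6) (nat_lit 301) (nat_lit 1) (nat_lit 207) (nat_lit 159) (nat_lit 204)) (PT.nd (nat_lit 78) (PT.lf (nat_lit 22800) (nat_lit 6) (nat_lit 300) (nat_lit 1) (nat_lit 208) (nat_lit 159) (nat_lit 203)) (PT.lf (nat_lit 22724) (nat_lit 6) (nat_lit 299) (nat_lit 1) (nat_lit 209) (nat_lit 159) (nat_lit 202)))) (PT.nd (nat_lit 156) (PT.nd (nat_lit 78) (PT.lf (nat_lit 22648) (nat_lit 6) (nat_lit 298) (nat_lit 1) (nat_lit 210) (nat_lit 159) (nat_lit 201)) (PT.lf (nat_lit 22572) (nat_lit 6) (nat_lit 297) (nat_lit 1) (nat_lit 211) (nat_lit 159) (nat_lit 200))) (PT.nd (nat_lit 78) (PT.lf (nat_lit 22496) (nat_lit 6) (nat_lit 296) (nat_lit 1) (nat_lit 212) (nat_lit 159) (nat_lit 199)) (PT.lf (nat_lit 22420) (nat_lit 6) (nat_lit 295) (nat_lit 1) (nat_lit 213) (nat_lit 159) (nat_lit 198)))))) (PT.nd (nat_lit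 58266) (PT.nd (nat_lit 57954) (PT.nd (nat_lit 78) (PT.lf (nat_lit 22344) (nat_lit 6) (nat_lit 294) (nat_lit 1) (nat_lit 214) (nat_lit 159) (nat_lit 197)) (PT.nd (nat_lit 57798) (PT.lf (nat_lit 22268) (nat_lit 6) (nat_lit 293) (nat_lit 1) (nat_lit 215) (nat_lit 159) (nat_lit 196)) (PT.lf (nat_lit 23028) (nat_lit 6) (nat_lit 303) (nat_lit 3) (nat_lit 195) (nat_lit 160) (nat_lit 215)))) (PT.nd (nat_lit 156) (PT.nd (nat_lit 78) (PT.lf (nat_lit 23104) (nat_lit 6) (nat_lit 304) (nat_lit 3) (nat_lit 196) (nat_lit 160) (nat_lit 214)) (PT.lf (nat_lit 23180) (nat_lit 6) (nat_lit 305) (nat_lit 3) (nat_lit 197) (nat_lit 160) (nat_lit 213))) (PT.nd (nat_lit 78) (PT.lf (nat_lit 23256) (nat_lit 6) (nat_lit 306) (nat_lit 3) (nat_lit 198) (nat_lit 160) (nat_lit 212)) (PT.lf (nat_lit 23332) (nat_lit 6) (nat_lit 307) (nat_lit 3) (nat_lit 199) (nat_lit 160) (nat_lit 211))))) (PT.nd (nat_lit 312) (PT.nd (nat_lit 156) (PT.nd (nat_lit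 78) (PT.lf (nat_lit 23408) (nat_lit 6) (nat_lit 308) (nat_lit 3) (nat_lit 200) (nat_lit 160) (nat_lit 210)) (PT.lf (nat_lit 23484) (nat_lit 6) (nat_lit 309) (nat_lit 3) (nat_lit 201) (nat_lit 160) (nat_lit 209))) (PT.nd (nat_lit 78) (PT.lf (nat_lit 23560) (nat_lit 6) (nat_lit 310) (nat_lit 3) (nat_lit 202) (nat_lit 160) (nat_lit 208)) (PT.lf (nat_lit 23636) (nat_lit 6) (nat_lit 311) (nat_lit 3) (nat_lit 203) (nat_lit 160) (nat_lit 207)))) (PT.nd (nat_lit 156) (PT.nd (nat_lit 78) (PT.lf (nat_lit 23712) (nat_lit 6) (nat_lit 312) (nat_lit 3) (nat_lit 204) (nat_lit 160) (nat_lit 206)) (PT.lf (nat_lit 23788) (nat_lit 3) (nat_lit 313) (nat_lit 1) (nat_lit 205) (nat_lit 160) (nat_lit 205))) (PT.nd (nat_lit 78) (PT.lf (nat_lit 23712) (nat_lit 6) (nat_lit 312) (nat_lit 1) (nat_lit 206) (nat_lit 160) (nat_lit 204)) (PT.lf (nat_lit 23636) (nat_lit 6) (nat_lit 311) (nat_lit 1) (nat_lit 207) (nat_lit 160) (nat_lit 203)))))))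 (PT.nd (nat_lit 58890) (PT.nd (nat_lit 546) (PT.nd (nat_lit 234) (PT.nd (nat_lit 78) (PT.lf (nat_lit 23560) (nat_lit 6) (nat_lit 310) (nat_lit 1) (nat_lit 208) (nat_lit 160) (nat_lit 202)) (PT.nd (nat_lit 78) (PT.lf (nat_lit 23484) (nat_lit 6) (nat_lit 309) (nat_lit 1) (nat_lit 209) (nat_lit 160) (nat_lit 201)) (PT.lf (nat_lit 23408) (nat_lit 6) (nat_lit 308) (nat_lit 1) (nat_lit 210) (nat_lit 160) (nat_lit 200)))) (PT.nd (nat_lit 156) (PT.nd (nat_lit 78) (PT.lf (nat_lit 23332) (nat_lit 6) (nat_lit 307) (nat_lit 1) (nat_lit 211) (nat_lit 160) (nat_lit 199)) (PT.lf (nat_lit 23256) (nat_lit 6) (nat_lit 306) (nat_lit 1) (nat_lit 212) (nat_lit 160) (nat_lit 198))) (PT.nd (nat_lit 78) (PT.lf (nat_lit 23180) (nat_lit 6) (nat_lit 305) (nat_lit 1) (nat_lit 213) (nat_lit 160) (nat_lit 197)) (PT.lf (nat_lit 23104) (nat_lit 6) (nat_lit 304) (nat_lit 1) (nat_lit 214) (nat_lit 160) (nat_lit 196))))) (PT.nd (nat_lit 58032)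 (PT.nd (nat_lit 57876) (PT.nd (nat_lit 57798) (PT.lf (nat_lit 23028) (nat_lit 6) (nat_lit 303) (nat_lit 1) (nat_lit 215) (nat_lit 160) (nat_lit 195)) (PT.lf (nat_lit 23864) (nat_lit 6) (nat_lit 314) (nat_lit 3) (nat_lit 195) (nat_lit 161) (nat_lit 214))) (PT.nd (nat_lit 78) (PT.lf (nat_lit 23940) (nat_lit 6) (nat_lit 315) (nat_lit 3) (nat_lit 196) (nat_lit 161) (nat_lit 213)) (PT.lf (nat_lit 24016) (nat_lit 6) (nat_lit 316) (nat_lit 3) (nat_lit 197) (nat_lit 161) (nat_lit 212)))) (PT.nd (nat_lit 156) (PT.nd (nat_lit 78) (PT.lf (nat_lit 24092) (nat_lit 6) (nat_lit 317) (nat_lit 3) (nat_lit 198) (nat_lit 161) (nat_lit 211)) (PT.lf (nat_lit 24168) (nat_lit 6) (nat_lit 318) (nat_lit 3) (nat_lit 199) (nat_lit 161) (nat_lit 210))) (PT.nd (nat_lit 78) (PT.lf (nat_lit 24244) (nat_lit 6) (nat_lit 319) (nat_lit 3) (nat_lit 200) (nat_lit 161) (nat_lit 209)) (PT.lf (nat_lit 24320) (nat_lit 6) (nat_lit 320) (nat_lit 3) (nat_lit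 201) (nat_lit 161) (nat_lit 208)))))) (PT.nd (nat_lit 546) (PT.nd (nat_lit 234) (PT.nd (nat_lit 78) (PT.lf (nat_lit 24396) (nat_lit 6) (nat_lit 321) (nat_lit 3) (nat_lit 202) (nat_lit 161) (nat_lit 207)) (PT.nd (nat_lit 78) (PT.lf (nat_lit 24472) (nat_lit 6) (nat_lit 322) (nat_lit 3) (nat_lit 203) (nat_lit 161) (nat_lit 206)) (PT.lf (nat_lit 24548) (nat_lit 6) (nat_lit 323) (nat_lit 3) (nat_lit 204) (nat_lit 161) (nat_lit 205)))) (PT.nd (nat_lit 156) (PT.nd (nat_lit 78) (PT.lf (nat_lit 24548) (nat_lit 6) (nat_lit 323) (nat_lit 1) (nat_lit 205) (nat_lit 161) (nat_lit 204)) (PT.lf (nat_lit 24472) (nat_lit 6) (nat_lit 322) (nat_lit 1) (nat_lit 206) (nat_lit 161) (nat_lit 203))) (PT.nd (nat_lit 78) (PT.lf (nat_lit 24396) (nat_lit 6) (nat_lit 321) (nat_lit 1) (nat_lit 207) (nat_lit 161) (nat_lit 202)) (PT.lf (nat_lit 24320) (nat_lit 6) (nat_lit 320) (nat_lit 1) (nat_lit 208) (nat_lit 161) (nat_lit 201))))) (PT.nd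 (nat_lit 312) (PT.nd (nat_lit 156) (PT.nd (nat_lit 78) (PT.lf (nat_lit 24244) (nat_lit 6) (nat_lit 319) (nat_lit 1) (nat_lit 209) (nat_lit 161) (nat_lit 200)) (PT.lf (nat_lit 24168) (nat_lit 6) (nat_lit 318) (nat_lit 1) (nat_lit 210) (nat_lit 161) (nat_lit 199))) (PT.nd (nat_lit 78) (PT.lf (nat_lit 24092) (nat_lit 6) (nat_lit 317) (nat_lit 1) (nat_lit 211) (nat_lit 161) (nat_lit 198)) (PT.lf (nat_lit 24016) (nat_lit 6) (nat_lit 316) (nat_lit 1) (nat_lit 212) (nat_lit 161) (nat_lit 197)))) (PT.nd (nat_lit 57876) (PT.nd (nat_lit 78) (PT.lf (nat_lit 23940) (nat_lit 6) (nat_lit 315) (nat_lit 1) (nat_lit 213) (nat_lit 161) (nat_lit 196)) (PT.lf (nat_lit 23864) (nat_lit 6) (nat_lit 314) (nat_lit 1) (nat_lit 214) (nat_lit 161) (nat_lit 195))) (PT.nd (nat_lit 78) (PT.lf (nat_lit 24624) (nat_lit 6) (nat_lit 324) (nat_lit 3) (nat_lit 194) (nat_lit 162) (nat_lit 214)) (PT.lf (nat_lit 24700) (nat_lit 6) (nat_lit 325) (nat_lit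 3) (nat_lit 195) (nat_lit 162) (nat_lit 213))))))))
noncomputable def pc10 : PT := (PT.nd (nat_lit 59904) (PT.nd (nat_lit 1092) (PT.nd (nat_lit 546) (PT.nd (nat_lit 234) (PT.nd (nat_lit 78) (PT.lf (nat_lit 24776) (nat_lit 6) (nat_lit 326) (nat_lit 3) (nat_lit 196) (nat_lit 162) (nat_lit 212)) (PT.nd (nat_lit 78) (PT.lf (nat_lit 24852) (nat_lit 6) (nat_lit 327) (nat_lit 3) (nat_lit 197) (nat_lit 162) (nat_lit 211)) (PT.lf (nat_lit 24928) (nat_lit 6) (nat_lit 328) (nat_lit 3) (nat_lit 198) (nat_lit 162) (nat_lit 210)))) (PT.nd (nat_lit 156) (PT.nd (nat_lit 78) (PT.lf (nat_lit 25004) (nat_lit 6) (nat_lit 329) (nat_lit 3) (nat_lit 199) (nat_lit 162) (nat_lit 209)) (PT.lf (nat_lit 25080) (nat_lit 6) (nat_lit 330) (nat_lit 3) (nat_lit 200) (nat_lit 162) (nat_lit 208))) (PT.nd (nat_lit 78) (PT.lf (nat_lit 25156) (nat_lit 6) (nat_lit 331) (nat_lit 3) (nat_lit 201) (nat_lit 162) (nat_lit 207)) (PT.lf (nat_lit 25232)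 (nat_lit 6) (nat_lit 332) (nat_lit 3) (nat_lit 202) (nat_lit 162) (nat_lit 206))))) (PT.nd (nat_lit 234) (PT.nd (nat_lit 78) (PT.lf (nat_lit 25308) (nat_lit 6) (nat_lit 333) (nat_lit 3) (nat_lit 203) (nat_lit 162) (nat_lit 205)) (PT.nd (nat_lit 78) (PT.lf (nat_lit 25384) (nat_lit 3) (nat_lit 334) (nat_lit 1) (nat_lit 204) (nat_lit 162) (nat_lit 204)) (PT.lf (nat_lit 25308) (nat_lit 6) (nat_lit 333) (nat_lit 1) (nat_lit 205) (nat_lit 162) (nat_lit 203)))) (PT.nd (nat_lit 156) (PT.nd (nat_lit 78) (PT.lf (nat_lit 25232) (nat_lit 6) (nat_lit 332) (nat_lit 1) (nat_lit 206) (nat_lit 162) (nat_lit 202)) (PT.lf (nat_lit 25156) (nat_lit 6) (nat_lit 331) (nat_lit 1) (nat_lit 207) (nat_lit 162) (nat_lit 201))) (PT.nd (nat_lit 78) (PT.lf (nat_lit 25080) (nat_lit 6) (nat_lit 330) (nat_lit 1) (nat_lit 208) (nat_lit 162) (nat_lit 200)) (PT.lf (nat_lit 25004) (nat_lit 6) (nat_lit 329) (nat_lit 1) (nat_lit 209) (nat_lit 162)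 (nat_lit 199)))))) (PT.nd (nat_lit 58188) (PT.nd (nat_lit 234) (PT.nd (nat_lit 78) (PT.lf (nat_lit 24928) (nat_lit 6) (nat_lit 328) (nat_lit 1) (nat_lit 210) (nat_lit 162) (nat_lit 198)) (PT.nd (nat_lit 78) (PT.lf (nat_lit 24852) (nat_lit 6) (nat_lit 327) (nat_lit 1) (nat_lit 211) (nat_lit 162) (nat_lit 197)) (PT.lf (nat_lit 24776) (nat_lit 6) (nat_lit 326) (nat_lit 1) (nat_lit 212) (nat_lit 162) (nat_lit 196)))) (PT.nd (nat_lit 57798) (PT.nd (nat_lit 78) (PT.lf (nat_lit 24700) (nat_lit 6) (nat_lit 325) (nat_lit 1) (nat_lit 213) (nat_lit 162) (nat_lit 195)) (PT.lf (nat_lit 24624) (nat_lit 6) (nat_lit 324) (nat_lit 1) (nat_lit 214) (nat_lit 162) (nat_lit 194))) (PT.nd (nat_lit 78) (PT.lf (nat_lit 25460) (nat_lit 6) (nat_lit 335) (nat_lit 3) (nat_lit 193) (nat_lit 163) (nat_lit 214)) (PT.lf (nat_lit 25536) (nat_lit 6) (nat_lit 336) (nat_lit 3) (nat_lit 194) (nat_lit 163) (nat_lit 213))))) (PT.nd (nat_lit 312)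 (PT.nd (nat_lit 156) (PT.nd (nat_lit 78) (PT.lf (nat_lit 25612) (nat_lit 6) (nat_lit 337) (nat_lit 3) (nat_lit 195) (nat_lit 163) (nat_lit 212)) (PT.lf (nat_lit 25688) (nat_lit 6) (nat_lit 338) (nat_lit 3) (nat_lit 196) (nat_lit 163) (nat_lit 211))) (PT.nd (nat_lit 78) (PT.lf (nat_lit 25764) (nat_lit 6) (nat_lit 339) (nat_lit 3) (nat_lit 197) (nat_lit 163) (nat_lit 210)) (PT.lf (nat_lit 25840) (nat_lit 6) (nat_lit 340) (nat_lit 3) (nat_lit 198) (nat_lit 163) (nat_lit 209)))) (PT.nd (nat_lit 156) (PT.nd (nat_lit 78) (PT.lf (nat_lit 25916) (nat_lit 6) (nat_lit 341) (nat_lit 3) (nat_lit 199) (nat_lit 163) (nat_lit 208)) (PT.lf (nat_lit 25992) (nat_lit 6) (nat_lit 342) (nat_lit 3) (nat_lit 200) (nat_lit 163) (nat_lit 207))) (PT.nd (nat_lit 78) (PT.lf (nat_lit 26068) (nat_lit 6) (nat_lit 343) (nat_lit 3) (nat_lit 201) (nat_lit 163) (nat_lit 206)) (PT.lf (nat_lit 26144) (nat_lit 6) (nat_lit 344) (nat_lit 3) (nat_lit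 202) (nat_lit 163) (nat_lit 205))))))) (PT.nd (nat_lit 58656) (PT.nd (nat_lit 546) (PT.nd (nat_lit 234) (PT.nd (nat_lit 78) (PT.lf (nat_lit 26220) (nat_lit 6) (nat_lit 345) (nat_lit 3) (nat_lit 203) (nat_lit 163) (nat_lit 204)) (PT.nd (nat_lit 78) (PT.lf (nat_lit 26220) (nat_lit 6) (nat_lit 345) (nat_lit 1) (nat_lit 204) (nat_lit 163) (nat_lit 203)) (PT.lf (nat_lit 26144) (nat_lit 6) (nat_lit 344) (nat_lit 1) (nat_lit 205) (nat_lit 163) (nat_lit 202)))) (PT.nd (nat_lit 156) (PT.nd (nat_lit 78) (PT.lf (nat_lit 26068) (nat_lit 6) (nat_lit 343) (nat_lit 1) (nat_lit 206) (nat_lit 163) (nat_lit 201)) (PT.lf (nat_lit 25992) (nat_lit 6) (nat_lit 342) (nat_lit 1) (nat_lit 207) (nat_lit 163) (nat_lit 200))) (PT.nd (nat_lit 78) (PT.lf (nat_lit 25916) (nat_lit 6) (nat_lit 341) (nat_lit 1) (nat_lit 208) (nat_lit 163) (nat_lit 199)) (PT.lf (nat_lit 25840) (nat_lit 6) (nat_lit 340) (nat_lit 1) (nat_lit 209) (nat_lit 163)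 (nat_lit 198))))) (PT.nd (nat_lit 234) (PT.nd (nat_lit 78) (PT.lf (nat_lit 25764) (nat_lit 6) (nat_lit 339) (nat_lit 1) (nat_lit 210) (nat_lit 163) (nat_lit 197)) (PT.nd (nat_lit 78) (PT.lf (nat_lit 25688) (nat_lit 6) (nat_lit 338) (nat_lit 1) (nat_lit 211) (nat_lit 163) (nat_lit 196)) (PT.lf (nat_lit 25612) (nat_lit 6) (nat_lit 337) (nat_lit 1) (nat_lit 212) (nat_lit 163) (nat_lit 195)))) (PT.nd (nat_lit 57720) (PT.nd (nat_lit 78) (PT.lf (nat_lit 25536) (nat_lit 6) (nat_lit 336) (nat_lit 1) (nat_lit 213) (nat_lit 163) (nat_lit 194)) (PT.lf (nat_lit 25460) (nat_lit 6) (nat_lit 335) (nat_lit 1) (nat_lit 214) (nat_lit 163) (nat_lit 193))) (PT.nd (nat_lit 78) (PT.lf (nat_lit 26296) (nat_lit 6) (nat_lit 346) (nat_lit 3) (nat_lit 192) (nat_lit 164) (nat_lit 214)) (PT.lf (nat_lit 26372) (nat_lit 6) (nat_lit 347) (nat_lit 3) (nat_lit 193) (nat_lit 164) (nat_lit 213)))))) (PT.nd (nat_lit 546) (PT.nd (nat_lit 234) (PT.nd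 (nat_lit 78) (PT.lf (nat_lit 26448) (nat_lit 6) (nat_lit 348) (nat_lit 3) (nat_lit 194) (nat_lit 164) (nat_lit 212)) (PT.nd (nat_lit 78) (PT.lf (nat_lit 26524) (nat_lit 6) (nat_lit 349) (nat_lit 3) (nat_lit 195) (nat_lit 164) (nat_lit 211)) (PT.lf (nat_lit 26600) (nat_lit 6) (nat_lit 350) (nat_lit 3) (nat_lit 196) (nat_lit 164) (nat_lit 210)))) (PT.nd (nat_lit 156) (PT.nd (nat_lit 78) (PT.lf (nat_lit 26676) (nat_lit 6) (nat_lit 351) (nat_lit 3) (nat_lit 197) (nat_lit 164) (nat_lit 209)) (PT.lf (nat_lit 26752) (nat_lit 6) (nat_lit 352) (nat_lit 3) (nat_lit 198) (nat_lit 164) (nat_lit 208))) (PT.nd (nat_lit 78) (PT.lf (nat_lit 26828) (nat_lit 6) (nat_lit 353) (nat_lit 3) (nat_lit 199) (nat_lit 164) (nat_lit 207)) (PT.lf (nat_lit 26904) (nat_lit 6) (nat_lit 354) (nat_lit 3) (nat_lit 200) (nat_lit 164) (nat_lit 206))))) (PT.nd (nat_lit 312) (PT.nd (nat_lit 156) (PT.nd (nat_lit 78) (PT.lf (nat_lit 26980) (nat_lit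 6) (nat_lit 355) (nat_lit 3) (nat_lit 201) (nat_lit 164) (nat_lit 205)) (PT.lf (nat_lit 27056) (nat_lit 6) (nat_lit 356) (nat_lit 3) (nat_lit 202) (nat_lit 164) (nat_lit 204))) (PT.nd (nat_lit 78) (PT.lf (nat_lit 27132) (nat_lit 3) (nat_lit 357) (nat_lit 1) (nat_lit 203) (nat_lit 164) (nat_lit 203)) (PT.lf (nat_lit 27056) (nat_lit 6) (nat_lit 356) (nat_lit 1) (nat_lit 204) (nat_lit 164) (nat_lit 202)))) (PT.nd (nat_lit 156) (PT.nd (nat_lit 78) (PT.lf (nat_lit 26980) (nat_lit 6) (nat_lit 355) (nat_lit 1) (nat_lit 205) (nat_lit 164) (nat_lit 201)) (PT.lf (nat_lit 26904) (nat_lit 6) (nat_lit 354) (nat_lit 1) (nat_lit 206) (nat_lit 164) (nat_lit 200))) (PT.nd (nat_lit 78) (PT.lf (nat_lit 26828) (nat_lit 6) (nat_lit 353) (nat_lit 1) (nat_lit 207) (nat_lit 164) (nat_lit 199)) (PT.lf (nat_lit 26752) (nat_lit 6) (nat_lit 352) (nat_lit 1) (nat_lit 208) (nat_lit 164) (nat_lit 198))))))))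
noncomputable def pc11 : PT := (PT.nd (nat_lit 59748) (PT.nd (nat_lit 58578) (PT.nd (nat_lit 58032) (PT.nd (nat_lit 234) (PT.nd (nat_lit 78) (PT.lf (nat_lit 26676) (nat_lit 6) (nat_lit 351) (nat_lit 1) (nat_lit 209) (nat_lit 164) (nat_lit 197)) (PT.nd (nat_lit 78) (PT.lf (nat_lit 26600) (nat_lit 6) (nat_lit 350) (nat_lit 1) (nat_lit 210) (nat_lit 164) (nat_lit 196)) (PT.lf (nat_lit 26524) (nat_lit 6) (nat_lit 349) (nat_lit 1) (nat_lit 211) (nat_lit 164) (nat_lit 195)))) (PT.nd (nat_lit 156) (PT.nd (nat_lit 78) (PT.lf (nat_lit 26448) (nat_lit 6) (nat_lit 348) (nat_lit 1) (nat_lit 212) (nat_lit 164) (nat_lit 194)) (PT.lf (nat_lit 26372) (nat_lit 6) (nat_lit 347) (nat_lit 1) (nat_lit 213) (nat_lit 164) (nat_lit 193))) (PT.nd (nat_lit 57564) (PT.lf (nat_lit 26296) (nat_lit 6) (nat_lit 346) (nat_lit 1) (nat_lit 214) (nat_lit 164) (nat_lit 192)) (PT.lf (nat_lit 27208) (nat_lit 6) (nat_lit 358) (nat_lit 3) (nat_lit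 191) (nat_lit 165) (nat_lit 214))))) (PT.nd (nat_lit 234) (PT.nd (nat_lit 78) (PT.lf (nat_lit 27284) (nat_lit 6) (nat_lit 359) (nat_lit 3) (nat_lit 192) (nat_lit 165) (nat_lit 213)) (PT.nd (nat_lit 78) (PT.lf (nat_lit 27360) (nat_lit 6) (nat_lit 360) (nat_lit 3) (nat_lit 193) (nat_lit 165) (nat_lit 212)) (PT.lf (nat_lit 27436) (nat_lit 6) (nat_lit 361) (nat_lit 3) (nat_lit 194) (nat_lit 165) (nat_lit 211)))) (PT.nd (nat_lit 156) (PT.nd (nat_lit 78) (PT.lf (nat_lit 27512) (nat_lit 6) (nat_lit 362) (nat_lit 3) (nat_lit 195) (nat_lit 165) (nat_lit 210)) (PT.lf (nat_lit 27588) (nat_lit 6) (nat_lit 363) (nat_lit 3) (nat_lit 196) (nat_lit 165) (nat_lit 209))) (PT.nd (nat_lit 78) (PT.lf (nat_lit 27664) (nat_lit 6) (nat_lit 364) (nat_lit 3) (nat_lit 197) (nat_lit 165) (nat_lit 208)) (PT.lf (nat_lit 27740) (nat_lit 6) (nat_lit 365) (nat_lit 3) (nat_lit 198) (nat_lit 165) (nat_lit 207)))))) (PT.nd (nat_lit 546) (PT.nd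 (nat_lit 234) (PT.nd (nat_lit 78) (PT.lf (nat_lit 27816) (nat_lit 6) (nat_lit 366) (nat_lit 3) (nat_lit 199) (nat_lit 165) (nat_lit 206)) (PT.nd (nat_lit 78) (PT.lf (nat_lit 27892) (nat_lit 6) (nat_lit 367) (nat_lit 3) (nat_lit 200) (nat_lit 165) (nat_lit 205)) (PT.lf (nat_lit 27968) (nat_lit 6) (nat_lit 368) (nat_lit 3) (nat_lit 201) (nat_lit 165) (nat_lit 204)))) (PT.nd (nat_lit 156) (PT.nd (nat_lit 78) (PT.lf (nat_lit 28044) (nat_lit 6) (nat_lit 369) (nat_lit 3) (nat_lit 202) (nat_lit 165) (nat_lit 203)) (PT.lf (nat_lit 28044) (nat_lit 6) (nat_lit 369) (nat_lit 1) (nat_lit 203) (nat_lit 165) (nat_lit 202))) (PT.nd (nat_lit 78) (PT.lf (nat_lit 27968) (nat_lit 6) (nat_lit 368) (nat_lit 1) (nat_lit 204) (nat_lit 165) (nat_lit 201)) (PT.lf (nat_lit 27892) (nat_lit 6) (nat_lit 367) (nat_lit 1) (nat_lit 205) (nat_lit 165) (nat_lit 200))))) (PT.nd (nat_lit 312) (PT.nd (nat_lit 156) (PT.nd (nat_lit 78) (PT.lf (nat_lit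 27816) (nat_lit 6) (nat_lit 366) (nat_lit 1) (nat_lit 206) (nat_lit 165) (nat_lit 199)) (PT.lf (nat_lit 27740) (nat_lit 6) (nat_lit 365) (nat_lit 1) (nat_lit 207) (nat_lit 165) (nat_lit 198))) (PT.nd (nat_lit 78) (PT.lf (nat_lit 27664) (nat_lit 6) (nat_lit 364) (nat_lit 1) (nat_lit 208) (nat_lit 165) (nat_lit 197)) (PT.lf (nat_lit 27588) (nat_lit 6) (nat_lit 363) (nat_lit 1) (nat_lit 209) (nat_lit 165) (nat_lit 196)))) (PT.nd (nat_lit 156) (PT.nd (nat_lit 78) (PT.lf (nat_lit 27512) (nat_lit 6) (nat_lit 362) (nat_lit 1) (nat_lit 210) (nat_lit 165) (nat_lit 195)) (PT.lf (nat_lit 27436) (nat_lit 6) (nat_lit 361) (nat_lit 1) (nat_lit 211) (nat_lit 165) (nat_lit 194))) (PT.nd (nat_lit 78) (PT.lf (nat_lit 27360) (nat_lit 6) (nat_lit 360) (nat_lit 1) (nat_lit 212) (nat_lit 165) (nat_lit 193)) (PT.lf (nat_lit 27284) (nat_lit 6) (nat_lit 359) (nat_lit 1) (nat_lit 213) (nat_lit 165) (nat_lit 192))))))) (PT.nd (nat_lit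 58578) (PT.nd (nat_lit 57954) (PT.nd (nat_lit 57642) (PT.nd (nat_lit 57486) (PT.lf (nat_lit 27208) (nat_lit 6) (nat_lit 358) (nat_lit 1) (nat_lit 214) (nat_lit 165) (nat_lit 191)) (PT.nd (nat_lit 78) (PT.lf (nat_lit 28196) (nat_lit 6) (nat_lit 371) (nat_lit 3) (nat_lit 190) (nat_lit 166) (nat_lit 214)) (PT.lf (nat_lit 28272) (nat_lit 6) (nat_lit 372) (nat_lit 3) (nat_lit 191) (nat_lit 166) (nat_lit 213)))) (PT.nd (nat_lit 156) (PT.nd (nat_lit 78) (PT.lf (nat_lit 28348) (nat_lit 6) (nat_lit 373) (nat_lit 3) (nat_lit 192) (nat_lit 166) (nat_lit 212)) (PT.lf (nat_lit 28424) (nat_lit 6) (nat_lit 374) (nat_lit 3) (nat_lit 193) (nat_lit 166) (nat_lit 211))) (PT.nd (nat_lit 78) (PT.lf (nat_lit 28500) (nat_lit 6) (nat_lit 375) (nat_lit 3) (nat_lit 194) (nat_lit 166) (nat_lit 210)) (PT.lf (nat_lit 28576) (nat_lit 6) (nat_lit 376) (nat_lit 3) (nat_lit 195) (nat_lit 166) (nat_lit 209))))) (PT.nd (nat_lit 312) (PT.nd (nat_lit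 156) (PT.nd (nat_lit 78) (PT.lf (nat_lit 28652) (nat_lit 6) (nat_lit 377) (nat_lit 3) (nat_lit 196) (nat_lit 166) (nat_lit 208)) (PT.lf (nat_lit 28728) (nat_lit 6) (nat_lit 378) (nat_lit 3) (nat_lit 197) (nat_lit 166) (nat_lit 207))) (PT.nd (nat_lit 78) (PT.lf (nat_lit 28804) (nat_lit 6) (nat_lit 379) (nat_lit 3) (nat_lit 198) (nat_lit 166) (nat_lit 206)) (PT.lf (nat_lit 28880) (nat_lit 6) (nat_lit 380) (nat_lit 3) (nat_lit 199) (nat_lit 166) (nat_lit 205)))) (PT.nd (nat_lit 156) (PT.nd (nat_lit 78) (PT.lf (nat_lit 28956) (nat_lit 6) (nat_lit 381) (nat_lit 3) (nat_lit 200) (nat_lit 166) (nat_lit 204)) (PT.lf (nat_lit 29032) (nat_lit 6) (nat_lit 382) (nat_lit 3) (nat_lit 201) (nat_lit 166) (nat_lit 203))) (PT.nd (nat_lit 78) (PT.lf (nat_lit 29108) (nat_lit 3) (nat_lit 383) (nat_lit 1) (nat_lit 202) (nat_lit 166) (nat_lit 202)) (PT.lf (nat_lit 29032) (nat_lit 6) (nat_lit 382) (nat_lit 1) (nat_lit 203) (nat_lit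 166) (nat_lit 201)))))) (PT.nd (nat_lit 546) (PT.nd (nat_lit 234) (PT.nd (nat_lit 78) (PT.lf (nat_lit 28956) (nat_lit 6) (nat_lit 381) (nat_lit 1) (nat_lit 204) (nat_lit 166) (nat_lit 200)) (PT.nd (nat_lit 78) (PT.lf (nat_lit 28880) (nat_lit 6) (nat_lit 380) (nat_lit 1) (nat_lit 205) (nat_lit 166) (nat_lit 199)) (PT.lf (nat_lit 28804) (nat_lit 6) (nat_lit 379) (nat_lit 1) (nat_lit 206) (nat_lit 166) (nat_lit 198)))) (PT.nd (nat_lit 156) (PT.nd (nat_lit 78) (PT.lf (nat_lit 28728) (nat_lit 6) (nat_lit 378) (nat_lit 1) (nat_lit 207) (nat_lit 166) (nat_lit 197)) (PT.lf (nat_lit 28652) (nat_lit 6) (nat_lit 377) (nat_lit 1) (nat_lit 208) (nat_lit 166) (nat_lit 196))) (PT.nd (nat_lit 78) (PT.lf (nat_lit 28576) (nat_lit 6) (nat_lit 376) (nat_lit 1) (nat_lit 209) (nat_lit 166) (nat_lit 195)) (PT.lf (nat_lit 28500) (nat_lit 6) (nat_lit 375) (nat_lit 1) (nat_lit 210) (nat_lit 166) (nat_lit 194))))) (PT.nd (nat_lit 57720)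 (PT.nd (nat_lit 156) (PT.nd (nat_lit 78) (PT.lf (nat_lit 28424) (nat_lit 6) (nat_lit 374) (nat_lit 1) (nat_lit 211) (nat_lit 166) (nat_lit 193)) (PT.lf (nat_lit 28348) (nat_lit 6) (nat_lit 373) (nat_lit 1) (nat_lit 212) (nat_lit 166) (nat_lit 192))) (PT.nd (nat_lit 78) (PT.lf (nat_lit 28272) (nat_lit 6) (nat_lit 372) (nat_lit 1) (nat_lit 213) (nat_lit 166) (nat_lit 191)) (PT.lf (nat_lit 28196) (nat_lit 6) (nat_lit 371) (nat_lit 1) (nat_lit 214) (nat_lit 166) (nat_lit 190)))) (PT.nd (nat_lit 156) (PT.nd (nat_lit 78) (PT.lf (nat_lit 30020) (nat_lit 6) (nat_lit 395) (nat_lit 3) (nat_lit 190) (nat_lit 167) (nat_lit 213)) (PT.lf (nat_lit 30096) (nat_lit 6) (nat_lit 396) (nat_lit 3) (nat_lit 191) (nat_lit 167) (nat_lit 212))) (PT.nd (nat_lit 78) (PT.lf (nat_lit 30172) (nat_lit 6) (nat_lit 397) (nat_lit 3) (nat_lit 192) (nat_lit 167) (nat_lit 211)) (PT.lf (nat_lit 30248) (nat_lit 6) (nat_lit 398) (nat_lit 3) (nat_lit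 193) (nat_lit 167) (nat_lit 210))))))))
noncomputable def pc12 : PT := (PT.nd (nat_lit 59670) (PT.nd (nat_lit 1092) (PT.nd (nat_lit 546) (PT.nd (nat_lit 234) (PT.nd (nat_lit 78) (PT.lf (nat_lit 30324) (nat_lit 6) (nat_lit 399) (nat_lit 3) (nat_lit 194) (nat_lit 167) (nat_lit 209)) (PT.nd (nat_lit 78) (PT.lf (nat_lit 30400) (nat_lit 6) (nat_lit 400) (nat_lit 3) (nat_lit 195) (nat_lit 167) (nat_lit 208)) (PT.lf (nat_lit 30476) (nat_lit 6) (nat_lit 401) (nat_lit 3) (nat_lit 196) (nat_lit 167) (nat_lit 207)))) (PT.nd (nat_lit 156) (PT.nd (nat_lit 78) (PT.lf (nat_lit 30552) (nat_lit 6) (nat_lit 402) (nat_lit 3) (nat_lit 197) (nat_lit 167) (nat_lit 206)) (PT.lf (nat_lit 30628) (nat_lit 6) (nat_lit 403) (nat_lit 3) (nat_lit 198) (nat_lit 167) (nat_lit 205))) (PT.nd (nat_lit 78) (PT.lf (nat_lit 30704) (nat_lit 6) (nat_lit 404) (nat_lit 3) (nat_lit 199) (nat_lit 167) (nat_lit 204)) (PT.lf (nat_lit 30780) (nat_lit 6)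 (nat_lit 405) (nat_lit 3) (nat_lit 200) (nat_lit 167) (nat_lit 203))))) (PT.nd (nat_lit 234) (PT.nd (nat_lit 78) (PT.lf (nat_lit 30856) (nat_lit 6) (nat_lit 406) (nat_lit 3) (nat_lit 201) (nat_lit 167) (nat_lit 202)) (PT.nd (nat_lit 78) (PT.lf (nat_lit 30856) (nat_lit 6) (nat_lit 406) (nat_lit 1) (nat_lit 202) (nat_lit 167) (nat_lit 201)) (PT.lf (nat_lit 30780) (nat_lit 6) (nat_lit 405) (nat_lit 1) (nat_lit 203) (nat_lit 167) (nat_lit 200)))) (PT.nd (nat_lit 156) (PT.nd (nat_lit 78) (PT.lf (nat_lit 30704) (nat_lit 6) (nat_lit 404) (nat_lit 1) (nat_lit 204) (nat_lit 167) (nat_lit 199)) (PT.lf (nat_lit 30628) (nat_lit 6) (nat_lit 403) (nat_lit 1) (nat_lit 205) (nat_lit 167) (nat_lit 198))) (PT.nd (nat_lit 78) (PT.lf (nat_lit 30552) (nat_lit 6) (nat_lit 402) (nat_lit 1) (nat_lit 206) (nat_lit 167) (nat_lit 197)) (PT.lf (nat_lit 30476) (nat_lit 6) (nat_lit 401) (nat_lit 1) (nat_lit 207) (nat_lit 167) (nat_lit 196))))))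 (PT.nd (nat_lit 57954) (PT.nd (nat_lit 234) (PT.nd (nat_lit 78) (PT.lf (nat_lit 30400) (nat_lit 6) (nat_lit 400) (nat_lit 1) (nat_lit 208) (nat_lit 167) (nat_lit 195)) (PT.nd (nat_lit 78) (PT.lf (nat_lit 30324) (nat_lit 6) (nat_lit 399) (nat_lit 1) (nat_lit 209) (nat_lit 167) (nat_lit 194)) (PT.lf (nat_lit 30248) (nat_lit 6) (nat_lit 398) (nat_lit 1) (nat_lit 210) (nat_lit 167) (nat_lit 193)))) (PT.nd (nat_lit 156) (PT.nd (nat_lit 78) (PT.lf (nat_lit 30172) (nat_lit 6) (nat_lit 397) (nat_lit 1) (nat_lit 211) (nat_lit 167) (nat_lit 192)) (PT.lf (nat_lit 30096) (nat_lit 6) (nat_lit 396) (nat_lit 1) (nat_lit 212) (nat_lit 167) (nat_lit 191))) (PT.nd (nat_lit 57486) (PT.lf (nat_lit 30020) (nat_lit 6) (nat_lit 395) (nat_lit 1) (nat_lit 213) (nat_lit 167) (nat_lit 190)) (PT.lf (nat_lit 29944) (nat_lit 6) (nat_lit 394) (nat_lit 3) (nat_lit 189) (nat_lit 168) (nat_lit 213))))) (PT.nd (nat_lit 312) (PT.nd (nat_lit 156)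 (PT.nd (nat_lit 78) (PT.lf (nat_lit 31768) (nat_lit 6) (nat_lit 418) (nat_lit 3) (nat_lit 190) (nat_lit 168) (nat_lit 212)) (PT.lf (nat_lit 31844) (nat_lit 6) (nat_lit 419) (nat_lit 3) (nat_lit 191) (nat_lit 168) (nat_lit 211))) (PT.nd (nat_lit 78) (PT.lf (nat_lit 31920) (nat_lit 6) (nat_lit 420) (nat_lit 3) (nat_lit 192) (nat_lit 168) (nat_lit 210)) (PT.lf (nat_lit 31996) (nat_lit 6) (nat_lit 421) (nat_lit 3) (nat_lit 193) (nat_lit 168) (nat_lit 209)))) (PT.nd (nat_lit 156) (PT.nd (nat_lit 78) (PT.lf (nat_lit 32072) (nat_lit 6) (nat_lit 422) (nat_lit 3) (nat_lit 194) (nat_lit 168) (nat_lit 208)) (PT.lf (nat_lit 32148) (nat_lit 6) (nat_lit 423) (nat_lit 3) (nat_lit 195) (nat_lit 168) (nat_lit 207))) (PT.nd (nat_lit 78) (PT.lf (nat_lit 32224) (nat_lit 6) (nat_lit 424) (nat_lit 3) (nat_lit 196) (nat_lit 168) (nat_lit 206)) (PT.lf (nat_lit 32300) (nat_lit 6) (nat_lit 425) (nat_lit 3) (nat_lit 197) (nat_lit 168)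 (nat_lit 205))))))) (PT.nd (nat_lit 1092) (PT.nd (nat_lit 546) (PT.nd (nat_lit 234) (PT.nd (nat_lit 78) (PT.lf (nat_lit 32376) (nat_lit 6) (nat_lit 426) (nat_lit 3) (nat_lit 198) (nat_lit 168) (nat_lit 204)) (PT.nd (nat_lit 78) (PT.lf (nat_lit 32452) (nat_lit 6) (nat_lit 427) (nat_lit 3) (nat_lit 199) (nat_lit 168) (nat_lit 203)) (PT.lf (nat_lit 32528) (nat_lit 6) (nat_lit 428) (nat_lit 3) (nat_lit 200) (nat_lit 168) (nat_lit 202)))) (PT.nd (nat_lit 156) (PT.nd (nat_lit 78) (PT.lf (nat_lit 32604) (nat_lit 3) (nat_lit 429) (nat_lit 1) (nat_lit 201) (nat_lit 168) (nat_lit 201)) (PT.lf (nat_lit 32528) (nat_lit 6) (nat_lit 428) (nat_lit 1) (nat_lit 202) (nat_lit 168) (nat_lit 200))) (PT.nd (nat_lit 78) (PT.lf (nat_lit 32452) (nat_lit 6) (nat_lit 427) (nat_lit 1) (nat_lit 203) (nat_lit 168) (nat_lit 199)) (PT.lf (nat_lit 32376) (nat_lit 6) (nat_lit 426) (nat_lit 1) (nat_lit 204) (nat_lit 168) (nat_lit 198))))) (PT.nd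 (nat_lit 234) (PT.nd (nat_lit 78) (PT.lf (nat_lit 32300) (nat_lit 6) (nat_lit 425) (nat_lit 1) (nat_lit 205) (nat_lit 168) (nat_lit 197)) (PT.nd (nat_lit 78) (PT.lf (nat_lit 32224) (nat_lit 6) (nat_lit 424) (nat_lit 1) (nat_lit 206) (nat_lit 168) (nat_lit 196)) (PT.lf (nat_lit 32148) (nat_lit 6) (nat_lit 423) (nat_lit 1) (nat_lit 207) (nat_lit 168) (nat_lit 195)))) (PT.nd (nat_lit 156) (PT.nd (nat_lit 78) (PT.lf (nat_lit 32072) (nat_lit 6) (nat_lit 422) (nat_lit 1) (nat_lit 208) (nat_lit 168) (nat_lit 194)) (PT.lf (nat_lit 31996) (nat_lit 6) (nat_lit 421) (nat_lit 1) (nat_lit 209) (nat_lit 168) (nat_lit 193))) (PT.nd (nat_lit 78) (PT.lf (nat_lit 31920) (nat_lit 6) (nat_lit 420) (nat_lit 1) (nat_lit 210) (nat_lit 168) (nat_lit 192)) (PT.lf (nat_lit 31844) (nat_lit 6) (nat_lit 419) (nat_lit 1) (nat_lit 211) (nat_lit 168) (nat_lit 191)))))) (PT.nd (nat_lit 57876) (PT.nd (nat_lit 57564) (PT.nd (nat_lit 78) (PT.lf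 (nat_lit 31768) (nat_lit 6) (nat_lit 418) (nat_lit 1) (nat_lit 212) (nat_lit 168) (nat_lit 190)) (PT.nd (nat_lit 57408) (PT.lf (nat_lit 29944) (nat_lit 6) (nat_lit 394) (nat_lit 1) (nat_lit 213) (nat_lit 168) (nat_lit 189)) (PT.lf (nat_lit 29868) (nat_lit 6) (nat_lit 393) (nat_lit 3) (nat_lit 188) (nat_lit 169) (nat_lit 213)))) (PT.nd (nat_lit 156) (PT.nd (nat_lit 78) (PT.lf (nat_lit 31692) (nat_lit 6) (nat_lit 417) (nat_lit 3) (nat_lit 189) (nat_lit 169) (nat_lit 212)) (PT.lf (nat_lit 33440) (nat_lit 6) (nat_lit 440) (nat_lit 3) (nat_lit 190) (nat_lit 169) (nat_lit 211))) (PT.nd (nat_lit 78) (PT.lf (nat_lit 33516) (nat_lit 6) (nat_lit 441) (nat_lit 3) (nat_lit 191) (nat_lit 169) (nat_lit 210)) (PT.lf (nat_lit 33592) (nat_lit 6) (nat_lit 442) (nat_lit 3) (nat_lit 192) (nat_lit 169) (nat_lit 209))))) (PT.nd (nat_lit 312) (PT.nd (nat_lit 156) (PT.nd (nat_lit 78) (PT.lf (nat_lit 33668) (nat_lit 6) (nat_lit 443)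 (nat_lit 3) (nat_lit 193) (nat_lit 169) (nat_lit 208)) (PT.lf (nat_lit 33744) (nat_lit 6) (nat_lit 444) (nat_lit 3) (nat_lit 194) (nat_lit 169) (nat_lit 207))) (PT.nd (nat_lit 78) (PT.lf (nat_lit 33820) (nat_lit 6) (nat_lit 445) (nat_lit 3) (nat_lit 195) (nat_lit 169) (nat_lit 206)) (PT.lf (nat_lit 33896) (nat_lit 6) (nat_lit 446) (nat_lit 3) (nat_lit 196) (nat_lit 169) (nat_lit 205)))) (PT.nd (nat_lit 156) (PT.nd (nat_lit 78) (PT.lf (nat_lit 33972) (nat_lit 6) (nat_lit 447) (nat_lit 3) (nat_lit 197) (nat_lit 169) (nat_lit 204)) (PT.lf (nat_lit 34048) (nat_lit 6) (nat_lit 448) (nat_lit 3) (nat_lit 198) (nat_lit 169) (nat_lit 203))) (PT.nd (nat_lit 78) (PT.lf (nat_lit 34124) (nat_lit 6) (nat_lit 449) (nat_lit 3) (nat_lit 199) (nat_lit 169) (nat_lit 202)) (PT.lf (nat_lit 34200) (nat_lit 6) (nat_lit 450) (nat_lit 3) (nat_lit 200) (nat_lit 169) (nat_lit 201))))))))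
noncomputable def pc13 : PT := (PT.nd (nat_lit 59514) (PT.nd (nat_lit 58344) (PT.nd (nat_lit 546) (PT.nd (nat_lit 234) (PT.nd (nat_lit 78) (PT.lf (nat_lit 34200) (nat_lit 6) (nat_lit 450) (nat_lit 1) (nat_lit 201) (nat_lit 169) (nat_lit 200)) (PT.nd (nat_lit 78) (PT.lf (nat_lit 34124) (nat_lit 6) (nat_lit 449) (nat_lit 1) (nat_lit 202) (nat_lit 169) (nat_lit 199)) (PT.lf (nat_lit 34048) (nat_lit 6) (nat_lit 448) (nat_lit 1) (nat_lit 203) (nat_lit 169) (nat_lit 198)))) (PT.nd (nat_lit 156) (PT.nd (nat_lit 78) (PT.lf (nat_lit 33972) (nat_lit 6) (nat_lit 447) (nat_lit 1) (nat_lit 204) (nat_lit 169) (nat_lit 197)) (PT.lf (nat_lit 33896) (nat_lit 6) (nat_lit 446) (nat_lit 1) (nat_lit 205) (nat_lit 169) (nat_lit 196))) (PT.nd (nat_lit 78) (PT.lf (nat_lit 33820) (nat_lit 6) (nat_lit 445) (nat_lit 1) (nat_lit 206) (nat_lit 169) (nat_lit 195)) (PT.lf (nat_lit 33744) (nat_lit 6) (nat_lit 444) (nat_lit 1) (nat_lit 207)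 (nat_lit 169) (nat_lit 194))))) (PT.nd (nat_lit 234) (PT.nd (nat_lit 78) (PT.lf (nat_lit 33668) (nat_lit 6) (nat_lit 443) (nat_lit 1) (nat_lit 208) (nat_lit 169) (nat_lit 193)) (PT.nd (nat_lit 78) (PT.lf (nat_lit 33592) (nat_lit 6) (nat_lit 442) (nat_lit 1) (nat_lit 209) (nat_lit 169) (nat_lit 192)) (PT.lf (nat_lit 33516) (nat_lit 6) (nat_lit 441) (nat_lit 1) (nat_lit 210) (nat_lit 169) (nat_lit 191)))) (PT.nd (nat_lit 156) (PT.nd (nat_lit 78) (PT.lf (nat_lit 33440) (nat_lit 6) (nat_lit 440) (nat_lit 1) (nat_lit 211) (nat_lit 169) (nat_lit 190)) (PT.lf (nat_lit 31692) (nat_lit 6) (nat_lit 417) (nat_lit 1) (nat_lit 212) (nat_lit 169) (nat_lit 189))) (PT.nd (nat_lit 57330) (PT.lf (nat_lit 29868) (nat_lit 6) (nat_lit 393) (nat_lit 1) (nat_lit 213) (nat_lit 169) (nat_lit 188)) (PT.lf (nat_lit 29792) (nat_lit 6) (nat_lit 392) (nat_lit 3) (nat_lit 187) (nat_lit 170) (nat_lit 213)))))) (PT.nd (nat_lit 546) (PT.nd (nat_lit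 234) (PT.nd (nat_lit 78) (PT.lf (nat_lit 31616) (nat_lit 6) (nat_lit 416) (nat_lit 3) (nat_lit 188) (nat_lit 170) (nat_lit 212)) (PT.nd (nat_lit 78) (PT.lf (nat_lit 33364) (nat_lit 6) (nat_lit 439) (nat_lit 3) (nat_lit 189) (nat_lit 170) (nat_lit 211)) (PT.lf (nat_lit 35036) (nat_lit 6) (nat_lit 461) (nat_lit 3) (nat_lit 190) (nat_lit 170) (nat_lit 210)))) (PT.nd (nat_lit 156) (PT.nd (nat_lit 78) (PT.lf (nat_lit 35112) (nat_lit 6) (nat_lit 462) (nat_lit 3) (nat_lit 191) (nat_lit 170) (nat_lit 209)) (PT.lf (nat_lit 35188) (nat_lit 6) (nat_lit 463) (nat_lit 3) (nat_lit 192) (nat_lit 170) (nat_lit 208))) (PT.nd (nat_lit 78) (PT.lf (nat_lit 35264) (nat_lit 6) (nat_lit 464) (nat_lit 3) (nat_lit 193) (nat_lit 170) (nat_lit 207)) (PT.lf (nat_lit 35340) (nat_lit 6) (nat_lit 465) (nat_lit 3) (nat_lit 194) (nat_lit 170) (nat_lit 206))))) (PT.nd (nat_lit 312) (PT.nd (nat_lit 156) (PT.nd (nat_lit 78) (PT.lf (nat_lit 35416)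 (nat_lit 6) (nat_lit 466) (nat_lit 3) (nat_lit 195) (nat_lit 170) (nat_lit 205)) (PT.lf (nat_lit 35492) (nat_lit 6) (nat_lit 467) (nat_lit 3) (nat_lit 196) (nat_lit 170) (nat_lit 204))) (PT.nd (nat_lit 78) (PT.lf (nat_lit 35568) (nat_lit 6) (nat_lit 468) (nat_lit 3) (nat_lit 197) (nat_lit 170) (nat_lit 203)) (PT.lf (nat_lit 35644) (nat_lit 6) (nat_lit 469) (nat_lit 3) (nat_lit 198) (nat_lit 170) (nat_lit 202)))) (PT.nd (nat_lit 156) (PT.nd (nat_lit 78) (PT.lf (nat_lit 35720) (nat_lit 6) (nat_lit 470) (nat_lit 3) (nat_lit 199) (nat_lit 170) (nat_lit 201)) (PT.lf (nat_lit 35796) (nat_lit 3) (nat_lit 471) (nat_lit 1) (nat_lit 200) (nat_lit 170) (nat_lit 200))) (PT.nd (nat_lit 78) (PT.lf (nat_lit 35720) (nat_lit 6) (nat_lit 470) (nat_lit 1) (nat_lit 201) (nat_lit 170) (nat_lit 199)) (PT.lf (nat_lit 35644) (nat_lit 6) (nat_lit 469) (nat_lit 1) (nat_lit 202) (nat_lit 170) (nat_lit 198))))))) (PT.nd (nat_lit 58344)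 (PT.nd (nat_lit 546) (PT.nd (nat_lit 234) (PT.nd (nat_lit 78) (PT.lf (nat_lit 35568) (nat_lit 6) (nat_lit 468) (nat_lit 1) (nat_lit 203) (nat_lit 170) (nat_lit 197)) (PT.nd (nat_lit 78) (PT.lf (nat_lit 35492) (nat_lit 6) (nat_lit 467) (nat_lit 1) (nat_lit 204) (nat_lit 170) (nat_lit 196)) (PT.lf (nat_lit 35416) (nat_lit 6) (nat_lit 466) (nat_lit 1) (nat_lit 205) (nat_lit 170) (nat_lit 195)))) (PT.nd (nat_lit 156) (PT.nd (nat_lit 78) (PT.lf (nat_lit 35340) (nat_lit 6) (nat_lit 465) (nat_lit 1) (nat_lit 206) (nat_lit 170) (nat_lit 194)) (PT.lf (nat_lit 35264) (nat_lit 6) (nat_lit 464) (nat_lit 1) (nat_lit 207) (nat_lit 170) (nat_lit 193))) (PT.nd (nat_lit 78) (PT.lf (nat_lit 35188) (nat_lit 6) (nat_lit 463) (nat_lit 1) (nat_lit 208) (nat_lit 170) (nat_lit 192)) (PT.lf (nat_lit 35112) (nat_lit 6) (nat_lit 462) (nat_lit 1) (nat_lit 209) (nat_lit 170) (nat_lit 191))))) (PT.nd (nat_lit 57486) (PT.nd (nat_lit 156)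 (PT.nd (nat_lit 78) (PT.lf (nat_lit 35036) (nat_lit 6) (nat_lit 461) (nat_lit 1) (nat_lit 210) (nat_lit 170) (nat_lit 190)) (PT.lf (nat_lit 33364) (nat_lit 6) (nat_lit 439) (nat_lit 1) (nat_lit 211) (nat_lit 170) (nat_lit 189))) (PT.nd (nat_lit 78) (PT.lf (nat_lit 31616) (nat_lit 6) (nat_lit 416) (nat_lit 1) (nat_lit 212) (nat_lit 170) (nat_lit 188)) (PT.lf (nat_lit 29792) (nat_lit 6) (nat_lit 392) (nat_lit 1) (nat_lit 213) (nat_lit 170) (nat_lit 187)))) (PT.nd (nat_lit 156) (PT.nd (nat_lit 78) (PT.lf (nat_lit 29716) (nat_lit 6) (nat_lit 391) (nat_lit 3) (nat_lit 186) (nat_lit 171) (nat_lit 213)) (PT.lf (nat_lit 31540) (nat_lit 6) (nat_lit 415) (nat_lit 3) (nat_lit 187) (nat_lit 171) (nat_lit 212))) (PT.nd (nat_lit 78) (PT.lf (nat_lit 33288) (nat_lit 6) (nat_lit 438) (nat_lit 3) (nat_lit 188) (nat_lit 171) (nat_lit 211)) (PT.lf (nat_lit 34960) (nat_lit 6) (nat_lit 460) (nat_lit 3) (nat_lit 189) (nat_lit 171)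 (nat_lit 210)))))) (PT.nd (nat_lit 546) (PT.nd (nat_lit 234) (PT.nd (nat_lit 78) (PT.lf (nat_lit 36556) (nat_lit 6) (nat_lit 481) (nat_lit 3) (nat_lit 190) (nat_lit 171) (nat_lit 209)) (PT.nd (nat_lit 78) (PT.lf (nat_lit 36632) (nat_lit 6) (nat_lit 482) (nat_lit 3) (nat_lit 191) (nat_lit 171) (nat_lit 208)) (PT.lf (nat_lit 36708) (nat_lit 6) (nat_lit 483) (nat_lit 3) (nat_lit 192) (nat_lit 171) (nat_lit 207)))) (PT.nd (nat_lit 156) (PT.nd (nat_lit 78) (PT.lf (nat_lit 36784) (nat_lit 6) (nat_lit 484) (nat_lit 3) (nat_lit 193) (nat_lit 171) (nat_lit 206)) (PT.lf (nat_lit 36860) (nat_lit 6) (nat_lit 485) (nat_lit 3) (nat_lit 194) (nat_lit 171) (nat_lit 205))) (PT.nd (nat_lit 78) (PT.lf (nat_lit 36936) (nat_lit 6) (nat_lit 486) (nat_lit 3) (nat_lit 195) (nat_lit 171) (nat_lit 204)) (PT.lf (nat_lit 37012) (nat_lit 6) (nat_lit 487) (nat_lit 3) (nat_lit 196) (nat_lit 171) (nat_lit 203))))) (PT.nd (nat_lit 312) (PT.nd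 (nat_lit 156) (PT.nd (nat_lit 78) (PT.lf (nat_lit 37088) (nat_lit 6) (nat_lit 488) (nat_lit 3) (nat_lit 197) (nat_lit 171) (nat_lit 202)) (PT.lf (nat_lit 37164) (nat_lit 6) (nat_lit 489) (nat_lit 3) (nat_lit 198) (nat_lit 171) (nat_lit 201))) (PT.nd (nat_lit 78) (PT.lf (nat_lit 37240) (nat_lit 6) (nat_lit 490) (nat_lit 3) (nat_lit 199) (nat_lit 171) (nat_lit 200)) (PT.lf (nat_lit 37240) (nat_lit 6) (nat_lit 490) (nat_lit 1) (nat_lit 200) (nat_lit 171) (nat_lit 199)))) (PT.nd (nat_lit 156) (PT.nd (nat_lit 78) (PT.lf (nat_lit 37164) (nat_lit 6) (nat_lit 489) (nat_lit 1) (nat_lit 201) (nat_lit 171) (nat_lit 198)) (PT.lf (nat_lit 37088) (nat_lit 6) (nat_lit 488) (nat_lit 1) (nat_lit 202) (nat_lit 171) (nat_lit 197))) (PT.nd (nat_lit 78) (PT.lf (nat_lit 37012) (nat_lit 6) (nat_lit 487) (nat_lit 1) (nat_lit 203) (nat_lit 171) (nat_lit 196)) (PT.lf (nat_lit 36936) (nat_lit 6) (nat_lit 486) (nat_lit 1) (nat_lit 204)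 (nat_lit 171) (nat_lit 195))))))))
noncomputable def pc14 : PT := (PT.nd (nat_lit 59358) (PT.nd (nat_lit 58188) (PT.nd (nat_lit 546) (PT.nd (nat_lit 234) (PT.nd (nat_lit 78) (PT.lf (nat_lit 36860) (nat_lit 6) (nat_lit 485) (nat_lit 1) (nat_lit 205) (nat_lit 171) (nat_lit 194)) (PT.nd (nat_lit 78) (PT.lf (nat_lit 36784) (nat_lit 6) (nat_lit 484) (nat_lit 1) (nat_lit 206) (nat_lit 171) (nat_lit 193)) (PT.lf (nat_lit 36708) (nat_lit 6) (nat_lit 483) (nat_lit 1) (nat_lit 207) (nat_lit 171) (nat_lit 192)))) (PT.nd (nat_lit 156) (PT.nd (nat_lit 78) (PT.lf (nat_lit 36632) (nat_lit 6) (nat_lit 482) (nat_lit 1) (nat_lit 208) (nat_lit 171) (nat_lit 191)) (PT.lf (nat_lit 36556) (nat_lit 6) (nat_lit 481) (nat_lit 1) (nat_lit 209) (nat_lit 171) (nat_lit 190))) (PT.nd (nat_lit 78) (PT.lf (nat_lit 34960) (nat_lit 6) (nat_lit 460) (nat_lit 1) (nat_lit 210) (nat_lit 171) (nat_lit 189)) (PT.lf (nat_lit 33288) (nat_lit 6) (nat_lit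 438) (nat_lit 1) (nat_lit 211) (nat_lit 171) (nat_lit 188))))) (PT.nd (nat_lit 57330) (PT.nd (nat_lit 78) (PT.lf (nat_lit 31540) (nat_lit 6) (nat_lit 415) (nat_lit 1) (nat_lit 212) (nat_lit 171) (nat_lit 187)) (PT.nd (nat_lit 57174) (PT.lf (nat_lit 29716) (nat_lit 6) (nat_lit 391) (nat_lit 1) (nat_lit 213) (nat_lit 171) (nat_lit 186)) (PT.lf (nat_lit 29640) (nat_lit 6) (nat_lit 390) (nat_lit 3) (nat_lit 185) (nat_lit 172) (nat_lit 213)))) (PT.nd (nat_lit 156) (PT.nd (nat_lit 78) (PT.lf (nat_lit 31464) (nat_lit 6) (nat_lit 414) (nat_lit 3) (nat_lit 186) (nat_lit 172) (nat_lit 212)) (PT.lf (nat_lit 33212) (nat_lit 6) (nat_lit 437) (nat_lit 3) (nat_lit 187) (nat_lit 172) (nat_lit 211))) (PT.nd (nat_lit 78) (PT.lf (nat_lit 34884) (nat_lit 6) (nat_lit 459) (nat_lit 3) (nat_lit 188) (nat_lit 172) (nat_lit 210)) (PT.lf (nat_lit 36480) (nat_lit 6) (nat_lit 480) (nat_lit 3) (nat_lit 189) (nat_lit 172) (nat_lit 209))))))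 (PT.nd (nat_lit 546) (PT.nd (nat_lit 234) (PT.nd (nat_lit 78) (PT.lf (nat_lit 38000) (nat_lit 6) (nat_lit 500) (nat_lit 3) (nat_lit 190) (nat_lit 172) (nat_lit 208)) (PT.nd (nat_lit 78) (PT.lf (nat_lit 38076) (nat_lit 6) (nat_lit 501) (nat_lit 3) (nat_lit 191) (nat_lit 172) (nat_lit 207)) (PT.lf (nat_lit 38152) (nat_lit 6) (nat_lit 502) (nat_lit 3) (nat_lit 192) (nat_lit 172) (nat_lit 206)))) (PT.nd (nat_lit 156) (PT.nd (nat_lit 78) (PT.lf (nat_lit 38228) (nat_lit 6) (nat_lit 503) (nat_lit 3) (nat_lit 193) (nat_lit 172) (nat_lit 205)) (PT.lf (nat_lit 38304) (nat_lit 6) (nat_lit 504) (nat_lit 3) (nat_lit 194) (nat_lit 172) (nat_lit 204))) (PT.nd (nat_lit 78) (PT.lf (nat_lit 38380) (nat_lit 6) (nat_lit 505) (nat_lit 3) (nat_lit 195) (nat_lit 172) (nat_lit 203)) (PT.lf (nat_lit 38456) (nat_lit 6) (nat_lit 506) (nat_lit 3) (nat_lit 196) (nat_lit 172) (nat_lit 202))))) (PT.nd (nat_lit 312) (PT.nd (nat_lit 156) (PT.nd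 (nat_lit 78) (PT.lf (nat_lit 38532) (nat_lit 6) (nat_lit 507) (nat_lit 3) (nat_lit 197) (nat_lit 172) (nat_lit 201)) (PT.lf (nat_lit 38608) (nat_lit 6) (nat_lit 508) (nat_lit 3) (nat_lit 198) (nat_lit 172) (nat_lit 200))) (PT.nd (nat_lit 78) (PT.lf (nat_lit 38684) (nat_lit 3) (nat_lit 509) (nat_lit 1) (nat_lit 199) (nat_lit 172) (nat_lit 199)) (PT.lf (nat_lit 38608) (nat_lit 6) (nat_lit 508) (nat_lit 1) (nat_lit 200) (nat_lit 172) (nat_lit 198)))) (PT.nd (nat_lit 156) (PT.nd (nat_lit 78) (PT.lf (nat_lit 38532) (nat_lit 6) (nat_lit 507) (nat_lit 1) (nat_lit 201) (nat_lit 172) (nat_lit 197)) (PT.lf (nat_lit 38456) (nat_lit 6) (nat_lit 506) (nat_lit 1) (nat_lit 202) (nat_lit 172) (nat_lit 196))) (PT.nd (nat_lit 78) (PT.lf (nat_lit 38380) (nat_lit 6) (nat_lit 505) (nat_lit 1) (nat_lit 203) (nat_lit 172) (nat_lit 195)) (PT.lf (nat_lit 38304) (nat_lit 6) (nat_lit 504) (nat_lit 1) (nat_lit 204) (nat_lit 172) (nat_lit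 194))))))) (PT.nd (nat_lit 58188) (PT.nd (nat_lit 546) (PT.nd (nat_lit 234) (PT.nd (nat_lit 78) (PT.lf (nat_lit 38228) (nat_lit 6) (nat_lit 503) (nat_lit 1) (nat_lit 205) (nat_lit 172) (nat_lit 193)) (PT.nd (nat_lit 78) (PT.lf (nat_lit 38152) (nat_lit 6) (nat_lit 502) (nat_lit 1) (nat_lit 206) (nat_lit 172) (nat_lit 192)) (PT.lf (nat_lit 38076) (nat_lit 6) (nat_lit 501) (nat_lit 1) (nat_lit 207) (nat_lit 172) (nat_lit 191)))) (PT.nd (nat_lit 156) (PT.nd (nat_lit 78) (PT.lf (nat_lit 38000) (nat_lit 6) (nat_lit 500) (nat_lit 1) (nat_lit 208) (nat_lit 172) (nat_lit 190)) (PT.lf (nat_lit 36480) (nat_lit 6) (nat_lit 480) (nat_lit 1) (nat_lit 209) (nat_lit 172) (nat_lit 189))) (PT.nd (nat_lit 78) (PT.lf (nat_lit 34884) (nat_lit 6) (nat_lit 459) (nat_lit 1) (nat_lit 210) (nat_lit 172) (nat_lit 188)) (PT.lf (nat_lit 33212) (nat_lit 6) (nat_lit 437) (nat_lit 1) (nat_lit 211) (nat_lit 172) (nat_lit 187))))) (PT.nd (nat_lit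 57330) (PT.nd (nat_lit 57174) (PT.nd (nat_lit 78) (PT.lf (nat_lit 31464) (nat_lit 6) (nat_lit 414) (nat_lit 1) (nat_lit 212) (nat_lit 172) (nat_lit 186)) (PT.lf (nat_lit 29640) (nat_lit 6) (nat_lit 390) (nat_lit 1) (nat_lit 213) (nat_lit 172) (nat_lit 185))) (PT.nd (nat_lit 78) (PT.lf (nat_lit 29564) (nat_lit 6) (nat_lit 389) (nat_lit 3) (nat_lit 184) (nat_lit 173) (nat_lit 213)) (PT.lf (nat_lit 31388) (nat_lit 6) (nat_lit 413) (nat_lit 3) (nat_lit 185) (nat_lit 173) (nat_lit 212)))) (PT.nd (nat_lit 156) (PT.nd (nat_lit 78) (PT.lf (nat_lit 33136) (nat_lit 6) (nat_lit 436) (nat_lit 3) (nat_lit 186) (nat_lit 173) (nat_lit 211)) (PT.lf (nat_lit 34808) (nat_lit 6) (nat_lit 458) (nat_lit 3) (nat_lit 187) (nat_lit 173) (nat_lit 210))) (PT.nd (nat_lit 78) (PT.lf (nat_lit 36404) (nat_lit 6) (nat_lit 479) (nat_lit 3) (nat_lit 188) (nat_lit 173) (nat_lit 209)) (PT.lf (nat_lit 37924) (nat_lit 6) (nat_lit 499) (nat_lit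 3) (nat_lit 189) (nat_lit 173) (nat_lit 208)))))) (PT.nd (nat_lit 546) (PT.nd (nat_lit 234) (PT.nd (nat_lit 78) (PT.lf (nat_lit 39368) (nat_lit 6) (nat_lit 518) (nat_lit 3) (nat_lit 190) (nat_lit 173) (nat_lit 207)) (PT.nd (nat_lit 78) (PT.lf (nat_lit 39444) (nat_lit 6) (nat_lit 519) (nat_lit 3) (nat_lit 191) (nat_lit 173) (nat_lit 206)) (PT.lf (nat_lit 39520) (nat_lit 6) (nat_lit 520) (nat_lit 3) (nat_lit 192) (nat_lit 173) (nat_lit 205)))) (PT.nd (nat_lit 156) (PT.nd (nat_lit 78) (PT.lf (nat_lit 39596) (nat_lit 6) (nat_lit 521) (nat_lit 3) (nat_lit 193) (nat_lit 173) (nat_lit 204)) (PT.lf (nat_lit 39672) (nat_lit 6) (nat_lit 522) (nat_lit 3) (nat_lit 194) (nat_lit 173) (nat_lit 203))) (PT.nd (nat_lit 78) (PT.lf (nat_lit 39748) (nat_lit 6) (nat_lit 523) (nat_lit 3) (nat_lit 195) (nat_lit 173) (nat_lit 202)) (PT.lf (nat_lit 39824) (nat_lit 6) (nat_lit 524) (nat_lit 3) (nat_lit 196) (nat_lit 173) (nat_lit 201)))))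 (PT.nd (nat_lit 312) (PT.nd (nat_lit 156) (PT.nd (nat_lit 78) (PT.lf (nat_lit 39900) (nat_lit 6) (nat_lit 525) (nat_lit 3) (nat_lit 197) (nat_lit 173) (nat_lit 200)) (PT.lf (nat_lit 39976) (nat_lit 6) (nat_lit 526) (nat_lit 3) (nat_lit 198) (nat_lit 173) (nat_lit 199))) (PT.nd (nat_lit 78) (PT.lf (nat_lit 39976) (nat_lit 6) (nat_lit 526) (nat_lit 1) (nat_lit 199) (nat_lit 173) (nat_lit 198)) (PT.lf (nat_lit 39900) (nat_lit 6) (nat_lit 525) (nat_lit 1) (nat_lit 200) (nat_lit 173) (nat_lit 197)))) (PT.nd (nat_lit 156) (PT.nd (nat_lit 78) (PT.lf (nat_lit 39824) (nat_lit 6) (nat_lit 524) (nat_lit 1) (nat_lit 201) (nat_lit 173) (nat_lit 196)) (PT.lf (nat_lit 39748) (nat_lit 6) (nat_lit 523) (nat_lit 1) (nat_lit 202) (nat_lit 173) (nat_lit 195))) (PT.nd (nat_lit 78) (PT.lf (nat_lit 39672) (nat_lit 6) (nat_lit 522) (nat_lit 1) (nat_lit 203) (nat_lit 173) (nat_lit 194)) (PT.lf (nat_lit 39596) (nat_lit 6) (nat_lit 521)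 (nat_lit 1) (nat_lit 204) (nat_lit 173) (nat_lit 193))))))))
noncomputable def pc15 : PT := (PT.nd (nat_lit 59202) (PT.nd (nat_lit 58032) (PT.nd (nat_lit 546) (PT.nd (nat_lit 234) (PT.nd (nat_lit 78) (PT.lf (nat_lit 39520) (nat_lit 6) (nat_lit 520) (nat_lit 1) (nat_lit 205) (nat_lit 173) (nat_lit 192)) (PT.nd (nat_lit 78) (PT.lf (nat_lit 39444) (nat_lit 6) (nat_lit 519) (nat_lit 1) (nat_lit 206) (nat_lit 173) (nat_lit 191)) (PT.lf (nat_lit 39368) (nat_lit 6) (nat_lit 518) (nat_lit 1) (nat_lit 207) (nat_lit 173) (nat_lit 190)))) (PT.nd (nat_lit 156) (PT.nd (nat_lit 78) (PT.lf (nat_lit 37924) (nat_lit 6) (nat_lit 499) (nat_lit 1) (nat_lit 208) (nat_lit 173) (nat_lit 189)) (PT.lf (nat_lit 36404) (nat_lit 6) (nat_lit 479) (nat_lit 1) (nat_lit 209) (nat_lit 173) (nat_lit 188))) (PT.nd (nat_lit 78) (PT.lf (nat_lit 34808) (nat_lit 6) (nat_lit 458) (nat_lit 1) (nat_lit 210) (nat_lit 173) (nat_lit 187)) (PT.lf (nat_lit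 33136) (nat_lit 6) (nat_lit 436) (nat_lit 1) (nat_lit 211) (nat_lit 173) (nat_lit 186))))) (PT.nd (nat_lit 57174) (PT.nd (nat_lit 78) (PT.lf (nat_lit 31388) (nat_lit 6) (nat_lit 413) (nat_lit 1) (nat_lit 212) (nat_lit 173) (nat_lit 185)) (PT.nd (nat_lit 57018) (PT.lf (nat_lit 29564) (nat_lit 6) (nat_lit 389) (nat_lit 1) (nat_lit 213) (nat_lit 173) (nat_lit 184)) (PT.lf (nat_lit 29488) (nat_lit 6) (nat_lit 388) (nat_lit 3) (nat_lit 183) (nat_lit 174) (nat_lit 213)))) (PT.nd (nat_lit 156) (PT.nd (nat_lit 78) (PT.lf (nat_lit 31312) (nat_lit 6) (nat_lit 412) (nat_lit 3) (nat_lit 184) (nat_lit 174) (nat_lit 212)) (PT.lf (nat_lit 33060) (nat_lit 6) (nat_lit 435) (nat_lit 3) (nat_lit 185) (nat_lit 174) (nat_lit 211))) (PT.nd (nat_lit 78) (PT.lf (nat_lit 34732) (nat_lit 6) (nat_lit 457) (nat_lit 3) (nat_lit 186) (nat_lit 174) (nat_lit 210)) (PT.lf (nat_lit 36328) (nat_lit 6) (nat_lit 478) (nat_lit 3) (nat_lit 187) (nat_lit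 174) (nat_lit 209)))))) (PT.nd (nat_lit 546) (PT.nd (nat_lit 234) (PT.nd (nat_lit 78) (PT.lf (nat_lit 37848) (nat_lit 6) (nat_lit 498) (nat_lit 3) (nat_lit 188) (nat_lit 174) (nat_lit 208)) (PT.nd (nat_lit 78) (PT.lf (nat_lit 39292) (nat_lit 6) (nat_lit 517) (nat_lit 3) (nat_lit 189) (nat_lit 174) (nat_lit 207)) (PT.lf (nat_lit 40660) (nat_lit 6) (nat_lit 535) (nat_lit 3) (nat_lit 190) (nat_lit 174) (nat_lit 206)))) (PT.nd (nat_lit 156) (PT.nd (nat_lit 78) (PT.lf (nat_lit 40736) (nat_lit 6) (nat_lit 536) (nat_lit 3) (nat_lit 191) (nat_lit 174) (nat_lit 205)) (PT.lf (nat_lit 40812) (nat_lit 6) (nat_lit 537) (nat_lit 3) (nat_lit 192) (nat_lit 174) (nat_lit 204))) (PT.nd (nat_lit 78) (PT.lf (nat_lit 40888) (nat_lit 6) (nat_lit 538) (nat_lit 3) (nat_lit 193) (nat_lit 174) (nat_lit 203)) (PT.lf (nat_lit 40964) (nat_lit 6) (nat_lit 539) (nat_lit 3) (nat_lit 194) (nat_lit 174) (nat_lit 202))))) (PT.nd (nat_lit 312)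 (PT.nd (nat_lit 156) (PT.nd (nat_lit 78) (PT.lf (nat_lit 41040) (nat_lit 6) (nat_lit 540) (nat_lit 3) (nat_lit 195) (nat_lit 174) (nat_lit 201)) (PT.lf (nat_lit 41116) (nat_lit 6) (nat_lit 541) (nat_lit 3) (nat_lit 196) (nat_lit 174) (nat_lit 200))) (PT.nd (nat_lit 78) (PT.lf (nat_lit 41192) (nat_lit 6) (nat_lit 542) (nat_lit 3) (nat_lit 197) (nat_lit 174) (nat_lit 199)) (PT.lf (nat_lit 41268) (nat_lit 3) (nat_lit 543) (nat_lit 1) (nat_lit 198) (nat_lit 174) (nat_lit 198)))) (PT.nd (nat_lit 156) (PT.nd (nat_lit 78) (PT.lf (nat_lit 41192) (nat_lit 6) (nat_lit 542) (nat_lit 1) (nat_lit 199) (nat_lit 174) (nat_lit 197)) (PT.lf (nat_lit 41116) (nat_lit 6) (nat_lit 541) (nat_lit 1) (nat_lit 200) (nat_lit 174) (nat_lit 196))) (PT.nd (nat_lit 78) (PT.lf (nat_lit 41040) (nat_lit 6) (nat_lit 540) (nat_lit 1) (nat_lit 201) (nat_lit 174) (nat_lit 195)) (PT.lf (nat_lit 40964) (nat_lit 6) (nat_lit 539) (nat_lit 1) (nat_lit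 202) (nat_lit 174) (nat_lit 194))))))) (PT.nd (nat_lit 58032) (PT.nd (nat_lit 546) (PT.nd (nat_lit 234) (PT.nd (nat_lit 78) (PT.lf (nat_lit 40888) (nat_lit 6) (nat_lit 538) (nat_lit 1) (nat_lit 203) (nat_lit 174) (nat_lit 193)) (PT.nd (nat_lit 78) (PT.lf (nat_lit 40812) (nat_lit 6) (nat_lit 537) (nat_lit 1) (nat_lit 204) (nat_lit 174) (nat_lit 192)) (PT.lf (nat_lit 40736) (nat_lit 6) (nat_lit 536) (nat_lit 1) (nat_lit 205) (nat_lit 174) (nat_lit 191)))) (PT.nd (nat_lit 156) (PT.nd (nat_lit 78) (PT.lf (nat_lit 40660) (nat_lit 6) (nat_lit 535) (nat_lit 1) (nat_lit 206) (nat_lit 174) (nat_lit 190)) (PT.lf (nat_lit 39292) (nat_lit 6) (nat_lit 517) (nat_lit 1) (nat_lit 207) (nat_lit 174) (nat_lit 189))) (PT.nd (nat_lit 78) (PT.lf (nat_lit 37848) (nat_lit 6) (nat_lit 498) (nat_lit 1) (nat_lit 208) (nat_lit 174) (nat_lit 188)) (PT.lf (nat_lit 36328) (nat_lit 6) (nat_lit 478) (nat_lit 1) (nat_lit 209) (nat_lit 174)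 (nat_lit 187))))) (PT.nd (nat_lit 57174) (PT.nd (nat_lit 156) (PT.nd (nat_lit 78) (PT.lf (nat_lit 34732) (nat_lit 6) (nat_lit 457) (nat_lit 1) (nat_lit 210) (nat_lit 174) (nat_lit 186)) (PT.lf (nat_lit 33060) (nat_lit 6) (nat_lit 435) (nat_lit 1) (nat_lit 211) (nat_lit 174) (nat_lit 185))) (PT.nd (nat_lit 78) (PT.lf (nat_lit 31312) (nat_lit 6) (nat_lit 412) (nat_lit 1) (nat_lit 212) (nat_lit 174) (nat_lit 184)) (PT.lf (nat_lit 29488) (nat_lit 6) (nat_lit 388) (nat_lit 1) (nat_lit 213) (nat_lit 174) (nat_lit 183)))) (PT.nd (nat_lit 156) (PT.nd (nat_lit 78) (PT.lf (nat_lit 29412) (nat_lit 6) (nat_lit 387) (nat_lit 3) (nat_lit 182) (nat_lit 175) (nat_lit 213)) (PT.lf (nat_lit 31236) (nat_lit 6) (nat_lit 411) (nat_lit 3) (nat_lit 183) (nat_lit 175) (nat_lit 212))) (PT.nd (nat_lit 78) (PT.lf (nat_lit 32984) (nat_lit 6) (nat_lit 434) (nat_lit 3) (nat_lit 184) (nat_lit 175) (nat_lit 211)) (PT.lf (nat_lit 34656) (nat_lit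 6) (nat_lit 456) (nat_lit 3) (nat_lit 185) (nat_lit 175) (nat_lit 210)))))) (PT.nd (nat_lit 546) (PT.nd (nat_lit 234) (PT.nd (nat_lit 78) (PT.lf (nat_lit 36252) (nat_lit 6) (nat_lit 477) (nat_lit 3) (nat_lit 186) (nat_lit 175) (nat_lit 209)) (PT.nd (nat_lit 78) (PT.lf (nat_lit 37772) (nat_lit 6) (nat_lit 497) (nat_lit 3) (nat_lit 187) (nat_lit 175) (nat_lit 208)) (PT.lf (nat_lit 39216) (nat_lit 6) (nat_lit 516) (nat_lit 3) (nat_lit 188) (nat_lit 175) (nat_lit 207)))) (PT.nd (nat_lit 156) (PT.nd (nat_lit 78) (PT.lf (nat_lit 40584) (nat_lit 6) (nat_lit 534) (nat_lit 3) (nat_lit 189) (nat_lit 175) (nat_lit 206)) (PT.lf (nat_lit 41876) (nat_lit 6) (nat_lit 551) (nat_lit 3) (nat_lit 190) (nat_lit 175) (nat_lit 205))) (PT.nd (nat_lit 78) (PT.lf (nat_lit 41952) (nat_lit 6) (nat_lit 552) (nat_lit 3) (nat_lit 191) (nat_lit 175) (nat_lit 204)) (PT.lf (nat_lit 42028) (nat_lit 6) (nat_lit 553) (nat_lit 3) (nat_lit 192)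 (nat_lit 175) (nat_lit 203))))) (PT.nd (nat_lit 312) (PT.nd (nat_lit 156) (PT.nd (nat_lit 78) (PT.lf (nat_lit 42104) (nat_lit 6) (nat_lit 554) (nat_lit 3) (nat_lit 193) (nat_lit 175) (nat_lit 202)) (PT.lf (nat_lit 42180) (nat_lit 6) (nat_lit 555) (nat_lit 3) (nat_lit 194) (nat_lit 175) (nat_lit 201))) (PT.nd (nat_lit 78) (PT.lf (nat_lit 42256) (nat_lit 6) (nat_lit 556) (nat_lit 3) (nat_lit 195) (nat_lit 175) (nat_lit 200)) (PT.lf (nat_lit 42332) (nat_lit 6) (nat_lit 557) (nat_lit 3) (nat_lit 196) (nat_lit 175) (nat_lit 199)))) (PT.nd (nat_lit 156) (PT.nd (nat_lit 78) (PT.lf (nat_lit 42408) (nat_lit 6) (nat_lit 558) (nat_lit 3) (nat_lit 197) (nat_lit 175) (nat_lit 198)) (PT.lf (nat_lit 42408) (nat_lit 6) (nat_lit 558) (nat_lit 1) (nat_lit 198) (nat_lit 175) (nat_lit 197))) (PT.nd (nat_lit 78) (PT.lf (nat_lit 42332) (nat_lit 6) (nat_lit 557) (nat_lit 1) (nat_lit 199) (nat_lit 175) (nat_lit 196)) (PT.lf (nat_lit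 42256) (nat_lit 6) (nat_lit 556) (nat_lit 1) (nat_lit 200) (nat_lit 175) (nat_lit 195))))))))
noncomputable def pc16 : PT := (PT.nd (nat_lit 59046) (PT.nd (nat_lit 57876) (PT.nd (nat_lit 546) (PT.nd (nat_lit 234) (PT.nd (nat_lit 78) (PT.lf (nat_lit 42180) (nat_lit 6) (nat_lit 555) (nat_lit 1) (nat_lit 201) (nat_lit 175) (nat_lit 194)) (PT.nd (nat_lit 78) (PT.lf (nat_lit 42104) (nat_lit 6) (nat_lit 554) (nat_lit 1) (nat_lit 202) (nat_lit 175) (nat_lit 193)) (PT.lf (nat_lit 42028) (nat_lit 6) (nat_lit 553) (nat_lit 1) (nat_lit 203) (nat_lit 175) (nat_lit 192)))) (PT.nd (nat_lit 156) (PT.nd (nat_lit 78) (PT.lf (nat_lit 41952) (nat_lit 6) (nat_lit 552) (nat_lit 1) (nat_lit 204) (nat_lit 175) (nat_lit 191)) (PT.lf (nat_lit 41876) (nat_lit 6) (nat_lit 551) (nat_lit 1) (nat_lit 205) (nat_lit 175) (nat_lit 190))) (PT.nd (nat_lit 78) (PT.lf (nat_lit 40584) (nat_lit 6) (nat_lit 534) (nat_lit 1) (nat_lit 206) (nat_lit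 175) (nat_lit 189)) (PT.lf (nat_lit 39216) (nat_lit 6) (nat_lit 516) (nat_lit 1) (nat_lit 207) (nat_lit 175) (nat_lit 188))))) (PT.nd (nat_lit 234) (PT.nd (nat_lit 78) (PT.lf (nat_lit 37772) (nat_lit 6) (nat_lit 497) (nat_lit 1) (nat_lit 208) (nat_lit 175) (nat_lit 187)) (PT.nd (nat_lit 78) (PT.lf (nat_lit 36252) (nat_lit 6) (nat_lit 477) (nat_lit 1) (nat_lit 209) (nat_lit 175) (nat_lit 186)) (PT.lf (nat_lit 34656) (nat_lit 6) (nat_lit 456) (nat_lit 1) (nat_lit 210) (nat_lit 175) (nat_lit 185)))) (PT.nd (nat_lit 156) (PT.nd (nat_lit 78) (PT.lf (nat_lit 32984) (nat_lit 6) (nat_lit 434) (nat_lit 1) (nat_lit 211) (nat_lit 175) (nat_lit 184)) (PT.lf (nat_lit 31236) (nat_lit 6) (nat_lit 411) (nat_lit 1) (nat_lit 212) (nat_lit 175) (nat_lit 183))) (PT.nd (nat_lit 56862) (PT.lf (nat_lit 29412) (nat_lit 6) (nat_lit 387) (nat_lit 1) (nat_lit 213) (nat_lit 175) (nat_lit 182)) (PT.lf (nat_lit 29336) (nat_lit 6) (nat_lit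 386) (nat_lit 3) (nat_lit 181) (nat_lit 176) (nat_lit 213)))))) (PT.nd (nat_lit 546) (PT.nd (nat_lit 234) (PT.nd (nat_lit 78) (PT.lf (nat_lit 31160) (nat_lit 6) (nat_lit 410) (nat_lit 3) (nat_lit 182) (nat_lit 176) (nat_lit 212)) (PT.nd (nat_lit 78) (PT.lf (nat_lit 32908) (nat_lit 6) (nat_lit 433) (nat_lit 3) (nat_lit 183) (nat_lit 176) (nat_lit 211)) (PT.lf (nat_lit 34580) (nat_lit 6) (nat_lit 455) (nat_lit 3) (nat_lit 184) (nat_lit 176) (nat_lit 210)))) (PT.nd (nat_lit 156) (PT.nd (nat_lit 78) (PT.lf (nat_lit 36176) (nat_lit 6) (nat_lit 476) (nat_lit 3) (nat_lit 185) (nat_lit 176) (nat_lit 209)) (PT.lf (nat_lit 37696) (nat_lit 6) (nat_lit 496) (nat_lit 3) (nat_lit 186) (nat_lit 176) (nat_lit 208))) (PT.nd (nat_lit 78) (PT.lf (nat_lit 39140) (nat_lit 6) (nat_lit 515) (nat_lit 3) (nat_lit 187) (nat_lit 176) (nat_lit 207)) (PT.lf (nat_lit 40508) (nat_lit 6) (nat_lit 533) (nat_lit 3) (nat_lit 188) (nat_lit 176)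 (nat_lit 206))))) (PT.nd (nat_lit 312) (PT.nd (nat_lit 156) (PT.nd (nat_lit 78) (PT.lf (nat_lit 41800) (nat_lit 6) (nat_lit 550) (nat_lit 3) (nat_lit 189) (nat_lit 176) (nat_lit 205)) (PT.lf (nat_lit 43016) (nat_lit 6) (nat_lit 566) (nat_lit 3) (nat_lit 190) (nat_lit 176) (nat_lit 204))) (PT.nd (nat_lit 78) (PT.lf (nat_lit 43092) (nat_lit 6) (nat_lit 567) (nat_lit 3) (nat_lit 191) (nat_lit 176) (nat_lit 203)) (PT.lf (nat_lit 43168) (nat_lit 6) (nat_lit 568) (nat_lit 3) (nat_lit 192) (nat_lit 176) (nat_lit 202)))) (PT.nd (nat_lit 156) (PT.nd (nat_lit 78) (PT.lf (nat_lit 43244) (nat_lit 6) (nat_lit 569) (nat_lit 3) (nat_lit 193) (nat_lit 176) (nat_lit 201)) (PT.lf (nat_lit 43320) (nat_lit 6) (nat_lit 570) (nat_lit 3) (nat_lit 194) (nat_lit 176) (nat_lit 200))) (PT.nd (nat_lit 78) (PT.lf (nat_lit 43396) (nat_lit 6) (nat_lit 571) (nat_lit 3) (nat_lit 195) (nat_lit 176) (nat_lit 199)) (PT.lf (nat_lit 43472) (nat_lit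 6) (nat_lit 572) (nat_lit 3) (nat_lit 196) (nat_lit 176) (nat_lit 198))))))) (PT.nd (nat_lit 1092) (PT.nd (nat_lit 546) (PT.nd (nat_lit 234) (PT.nd (nat_lit 78) (PT.lf (nat_lit 43548) (nat_lit 3) (nat_lit 573) (nat_lit 1) (nat_lit 197) (nat_lit 176) (nat_lit 197)) (PT.nd (nat_lit 78) (PT.lf (nat_lit 43472) (nat_lit 6) (nat_lit 572) (nat_lit 1) (nat_lit 198) (nat_lit 176) (nat_lit 196)) (PT.lf (nat_lit 43396) (nat_lit 6) (nat_lit 571) (nat_lit 1) (nat_lit 199) (nat_lit 176) (nat_lit 195)))) (PT.nd (nat_lit 156) (PT.nd (nat_lit 78) (PT.lf (nat_lit 43320) (nat_lit 6) (nat_lit 570) (nat_lit 1) (nat_lit 200) (nat_lit 176) (nat_lit 194)) (PT.lf (nat_lit 43244) (nat_lit 6) (nat_lit 569) (nat_lit 1) (nat_lit 201) (nat_lit 176) (nat_lit 193))) (PT.nd (nat_lit 78) (PT.lf (nat_lit 43168) (nat_lit 6) (nat_lit 568) (nat_lit 1) (nat_lit 202) (nat_lit 176) (nat_lit 192)) (PT.lf (nat_lit 43092) (nat_lit 6) (nat_lit 567) (nat_lit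 1) (nat_lit 203) (nat_lit 176) (nat_lit 191))))) (PT.nd (nat_lit 234) (PT.nd (nat_lit 78) (PT.lf (nat_lit 43016) (nat_lit 6) (nat_lit 566) (nat_lit 1) (nat_lit 204) (nat_lit 176) (nat_lit 190)) (PT.nd (nat_lit 78) (PT.lf (nat_lit 41800) (nat_lit 6) (nat_lit 550) (nat_lit 1) (nat_lit 205) (nat_lit 176) (nat_lit 189)) (PT.lf (nat_lit 40508) (nat_lit 6) (nat_lit 533) (nat_lit 1) (nat_lit 206) (nat_lit 176) (nat_lit 188)))) (PT.nd (nat_lit 156) (PT.nd (nat_lit 78) (PT.lf (nat_lit 39140) (nat_lit 6) (nat_lit 515) (nat_lit 1) (nat_lit 207) (nat_lit 176) (nat_lit 187)) (PT.lf (nat_lit 37696) (nat_lit 6) (nat_lit 496) (nat_lit 1) (nat_lit 208) (nat_lit 176) (nat_lit 186))) (PT.nd (nat_lit 78) (PT.lf (nat_lit 36176) (nat_lit 6) (nat_lit 476) (nat_lit 1) (nat_lit 209) (nat_lit 176) (nat_lit 185)) (PT.lf (nat_lit 34580) (nat_lit 6) (nat_lit 455) (nat_lit 1) (nat_lit 210) (nat_lit 176) (nat_lit 184)))))) (PT.nd (nat_lit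 57252) (PT.nd (nat_lit 56940) (PT.nd (nat_lit 78) (PT.lf (nat_lit 32908) (nat_lit 6) (nat_lit 433) (nat_lit 1) (nat_lit 211) (nat_lit 176) (nat_lit 183)) (PT.nd (nat_lit 78) (PT.lf (nat_lit 31160) (nat_lit 6) (nat_lit 410) (nat_lit 1) (nat_lit 212) (nat_lit 176) (nat_lit 182)) (PT.lf (nat_lit 29336) (nat_lit 6) (nat_lit 386) (nat_lit 1) (nat_lit 213) (nat_lit 176) (nat_lit 181)))) (PT.nd (nat_lit 156) (PT.nd (nat_lit 78) (PT.lf (nat_lit 29260) (nat_lit 6) (nat_lit 385) (nat_lit 3) (nat_lit 180) (nat_lit 177) (nat_lit 213)) (PT.lf (nat_lit 31084) (nat_lit 6) (nat_lit 409) (nat_lit 3) (nat_lit 181) (nat_lit 177) (nat_lit 212))) (PT.nd (nat_lit 78) (PT.lf (nat_lit 32832) (nat_lit 6) (nat_lit 432) (nat_lit 3) (nat_lit 182) (nat_lit 177) (nat_lit 211)) (PT.lf (nat_lit 34504) (nat_lit 6) (nat_lit 454) (nat_lit 3) (nat_lit 183) (nat_lit 177) (nat_lit 210))))) (PT.nd (nat_lit 312) (PT.nd (nat_lit 156) (PT.nd (nat_lit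 78) (PT.lf (nat_lit 36100) (nat_lit 6) (nat_lit 475) (nat_lit 3) (nat_lit 184) (nat_lit 177) (nat_lit 209)) (PT.lf (nat_lit 37620) (nat_lit 6) (nat_lit 495) (nat_lit 3) (nat_lit 185) (nat_lit 177) (nat_lit 208))) (PT.nd (nat_lit 78) (PT.lf (nat_lit 39064) (nat_lit 6) (nat_lit 514) (nat_lit 3) (nat_lit 186) (nat_lit 177) (nat_lit 207)) (PT.lf (nat_lit 40432) (nat_lit 6) (nat_lit 532) (nat_lit 3) (nat_lit 187) (nat_lit 177) (nat_lit 206)))) (PT.nd (nat_lit 156) (PT.nd (nat_lit 78) (PT.lf (nat_lit 41724) (nat_lit 6) (nat_lit 549) (nat_lit 3) (nat_lit 188) (nat_lit 177) (nat_lit 205)) (PT.lf (nat_lit 42940) (nat_lit 6) (nat_lit 565) (nat_lit 3) (nat_lit 189) (nat_lit 177) (nat_lit 204))) (PT.nd (nat_lit 78) (PT.lf (nat_lit 44080) (nat_lit 6) (nat_lit 580) (nat_lit 3) (nat_lit 190) (nat_lit 177) (nat_lit 203)) (PT.lf (nat_lit 44156) (nat_lit 6) (nat_lit 581) (nat_lit 3) (nat_lit 191) (nat_lit 177) (nat_lit 202))))))))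
noncomputable def pc17 : PT := (PT.nd (nat_lit 58890) (PT.nd (nat_lit 1092) (PT.nd (nat_lit 546) (PT.nd (nat_lit 234) (PT.nd (nat_lit 78) (PT.lf (nat_lit 44232) (nat_lit 6) (nat_lit 582) (nat_lit 3) (nat_lit 192) (nat_lit 177) (nat_lit 201)) (PT.nd (nat_lit 78) (PT.lf (nat_lit 44308) (nat_lit 6) (nat_lit 583) (nat_lit 3) (nat_lit 193) (nat_lit 177) (nat_lit 200)) (PT.lf (nat_lit 44384) (nat_lit 6) (nat_lit 584) (nat_lit 3) (nat_lit 194) (nat_lit 177) (nat_lit 199)))) (PT.nd (nat_lit 156) (PT.nd (nat_lit 78) (PT.lf (nat_lit 44460) (nat_lit 6) (nat_lit 585) (nat_lit 3) (nat_lit 195) (nat_lit 177) (nat_lit 198)) (PT.lf (nat_lit 44536) (nat_lit 6) (nat_lit 586) (nat_lit 3) (nat_lit 196) (nat_lit 177) (nat_lit 197))) (PT.nd (nat_lit 78) (PT.lf (nat_lit 44536) (nat_lit 6) (nat_lit 586) (nat_lit 1) (nat_lit 197) (nat_lit 177) (nat_lit 196)) (PT.lf (nat_lit 44460) (nat_lit 6) (nat_lit 585) (nat_lit 1) (nat_lit 198)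 (nat_lit 177) (nat_lit 195))))) (PT.nd (nat_lit 234) (PT.nd (nat_lit 78) (PT.lf (nat_lit 44384) (nat_lit 6) (nat_lit 584) (nat_lit 1) (nat_lit 199) (nat_lit 177) (nat_lit 194)) (PT.nd (nat_lit 78) (PT.lf (nat_lit 44308) (nat_lit 6) (nat_lit 583) (nat_lit 1) (nat_lit 200) (nat_lit 177) (nat_lit 193)) (PT.lf (nat_lit 44232) (nat_lit 6) (nat_lit 582) (nat_lit 1) (nat_lit 201) (nat_lit 177) (nat_lit 192)))) (PT.nd (nat_lit 156) (PT.nd (nat_lit 78) (PT.lf (nat_lit 44156) (nat_lit 6) (nat_lit 581) (nat_lit 1) (nat_lit 202) (nat_lit 177) (nat_lit 191)) (PT.lf (nat_lit 44080) (nat_lit 6) (nat_lit 580) (nat_lit 1) (nat_lit 203) (nat_lit 177) (nat_lit 190))) (PT.nd (nat_lit 78) (PT.lf (nat_lit 42940) (nat_lit 6) (nat_lit 565) (nat_lit 1) (nat_lit 204) (nat_lit 177) (nat_lit 189)) (PT.lf (nat_lit 41724) (nat_lit 6) (nat_lit 549) (nat_lit 1) (nat_lit 205) (nat_lit 177) (nat_lit 188)))))) (PT.nd (nat_lit 546) (PT.nd (nat_lit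 234) (PT.nd (nat_lit 78) (PT.lf (nat_lit 40432) (nat_lit 6) (nat_lit 532) (nat_lit 1) (nat_lit 206) (nat_lit 177) (nat_lit 187)) (PT.nd (nat_lit 78) (PT.lf (nat_lit 39064) (nat_lit 6) (nat_lit 514) (nat_lit 1) (nat_lit 207) (nat_lit 177) (nat_lit 186)) (PT.lf (nat_lit 37620) (nat_lit 6) (nat_lit 495) (nat_lit 1) (nat_lit 208) (nat_lit 177) (nat_lit 185)))) (PT.nd (nat_lit 156) (PT.nd (nat_lit 78) (PT.lf (nat_lit 36100) (nat_lit 6) (nat_lit 475) (nat_lit 1) (nat_lit 209) (nat_lit 177) (nat_lit 184)) (PT.lf (nat_lit 34504) (nat_lit 6) (nat_lit 454) (nat_lit 1) (nat_lit 210) (nat_lit 177) (nat_lit 183))) (PT.nd (nat_lit 78) (PT.lf (nat_lit 32832) (nat_lit 6) (nat_lit 432) (nat_lit 1) (nat_lit 211) (nat_lit 177) (nat_lit 182)) (PT.lf (nat_lit 31084) (nat_lit 6) (nat_lit 409) (nat_lit 1) (nat_lit 212) (nat_lit 177) (nat_lit 181))))) (PT.nd (nat_lit 56940) (PT.nd (nat_lit 56784) (PT.nd (nat_lit 56706) (PT.lf (nat_lit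 29260) (nat_lit 6) (nat_lit 385) (nat_lit 1) (nat_lit 213) (nat_lit 177) (nat_lit 180)) (PT.lf (nat_lit 29184) (nat_lit 6) (nat_lit 384) (nat_lit 3) (nat_lit 179) (nat_lit 178) (nat_lit 213))) (PT.nd (nat_lit 78) (PT.lf (nat_lit 31008) (nat_lit 6) (nat_lit 408) (nat_lit 3) (nat_lit 180) (nat_lit 178) (nat_lit 212)) (PT.lf (nat_lit 32756) (nat_lit 6) (nat_lit 431) (nat_lit 3) (nat_lit 181) (nat_lit 178) (nat_lit 211)))) (PT.nd (nat_lit 156) (PT.nd (nat_lit 78) (PT.lf (nat_lit 34428) (nat_lit 6) (nat_lit 453) (nat_lit 3) (nat_lit 182) (nat_lit 178) (nat_lit 210)) (PT.lf (nat_lit 36024) (nat_lit 6) (nat_lit 474) (nat_lit 3) (nat_lit 183) (nat_lit 178) (nat_lit 209))) (PT.nd (nat_lit 78) (PT.lf (nat_lit 37544) (nat_lit 6) (nat_lit 494) (nat_lit 3) (nat_lit 184) (nat_lit 178) (nat_lit 208)) (PT.lf (nat_lit 38988) (nat_lit 6) (nat_lit 513) (nat_lit 3) (nat_lit 185) (nat_lit 178) (nat_lit 207))))))) (PT.nd (nat_lit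 1170) (PT.nd (nat_lit 546) (PT.nd (nat_lit 234) (PT.nd (nat_lit 78) (PT.lf (nat_lit 40356) (nat_lit 6) (nat_lit 531) (nat_lit 3) (nat_lit 186) (nat_lit 178) (nat_lit 206)) (PT.nd (nat_lit 78) (PT.lf (nat_lit 41648) (nat_lit 6) (nat_lit 548) (nat_lit 3) (nat_lit 187) (nat_lit 178) (nat_lit 205)) (PT.lf (nat_lit 42864) (nat_lit 6) (nat_lit 564) (nat_lit 3) (nat_lit 188) (nat_lit 178) (nat_lit 204)))) (PT.nd (nat_lit 156) (PT.nd (nat_lit 78) (PT.lf (nat_lit 44004) (nat_lit 6) (nat_lit 579) (nat_lit 3) (nat_lit 189) (nat_lit 178) (nat_lit 203)) (PT.lf (nat_lit 45068) (nat_lit 6) (nat_lit 593) (nat_lit 3) (nat_lit 190) (nat_lit 178) (nat_lit 202))) (PT.nd (nat_lit 78) (PT.lf (nat_lit 45144) (nat_lit 6) (nat_lit 594) (nat_lit 3) (nat_lit 191) (nat_lit 178) (nat_lit 201)) (PT.lf (nat_lit 45220) (nat_lit 6) (nat_lit 595) (nat_lit 3) (nat_lit 192) (nat_lit 178) (nat_lit 200))))) (PT.nd (nat_lit 312) (PT.nd (nat_lit 156)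 (PT.nd (nat_lit 78) (PT.lf (nat_lit 45296) (nat_lit 6) (nat_lit 596) (nat_lit 3) (nat_lit 193) (nat_lit 178) (nat_lit 199)) (PT.lf (nat_lit 45372) (nat_lit 6) (nat_lit 597) (nat_lit 3) (nat_lit 194) (nat_lit 178) (nat_lit 198))) (PT.nd (nat_lit 78) (PT.lf (nat_lit 45448) (nat_lit 6) (nat_lit 598) (nat_lit 3) (nat_lit 195) (nat_lit 178) (nat_lit 197)) (PT.lf (nat_lit 45524) (nat_lit 3) (nat_lit 599) (nat_lit 1) (nat_lit 196) (nat_lit 178) (nat_lit 196)))) (PT.nd (nat_lit 156) (PT.nd (nat_lit 78) (PT.lf (nat_lit 45448) (nat_lit 6) (nat_lit 598) (nat_lit 1) (nat_lit 197) (nat_lit 178) (nat_lit 195)) (PT.lf (nat_lit 45372) (nat_lit 6) (nat_lit 597) (nat_lit 1) (nat_lit 198) (nat_lit 178) (nat_lit 194))) (PT.nd (nat_lit 78) (PT.lf (nat_lit 45296) (nat_lit 6) (nat_lit 596) (nat_lit 1) (nat_lit 199) (nat_lit 178) (nat_lit 193)) (PT.lf (nat_lit 45220) (nat_lit 6) (nat_lit 595) (nat_lit 1) (nat_lit 200) (nat_lit 178)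 (nat_lit 192)))))) (PT.nd (nat_lit 546) (PT.nd (nat_lit 234) (PT.nd (nat_lit 78) (PT.lf (nat_lit 45144) (nat_lit 6) (nat_lit 594) (nat_lit 1) (nat_lit 201) (nat_lit 178) (nat_lit 191)) (PT.nd (nat_lit 78) (PT.lf (nat_lit 45068) (nat_lit 6) (nat_lit 593) (nat_lit 1) (nat_lit 202) (nat_lit 178) (nat_lit 190)) (PT.lf (nat_lit 44004) (nat_lit 6) (nat_lit 579) (nat_lit 1) (nat_lit 203) (nat_lit 178) (nat_lit 189)))) (PT.nd (nat_lit 156) (PT.nd (nat_lit 78) (PT.lf (nat_lit 42864) (nat_lit 6) (nat_lit 564) (nat_lit 1) (nat_lit 204) (nat_lit 178) (nat_lit 188)) (PT.lf (nat_lit 41648) (nat_lit 6) (nat_lit 548) (nat_lit 1) (nat_lit 205) (nat_lit 178) (nat_lit 187))) (PT.nd (nat_lit 78) (PT.lf (nat_lit 40356) (nat_lit 6) (nat_lit 531) (nat_lit 1) (nat_lit 206) (nat_lit 178) (nat_lit 186)) (PT.lf (nat_lit 38988) (nat_lit 6) (nat_lit 513) (nat_lit 1) (nat_lit 207) (nat_lit 178) (nat_lit 185))))) (PT.nd (nat_lit 312) (PT.nd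 (nat_lit 156) (PT.nd (nat_lit 78) (PT.lf (nat_lit 37544) (nat_lit 6) (nat_lit 494) (nat_lit 1) (nat_lit 208) (nat_lit 178) (nat_lit 184)) (PT.lf (nat_lit 36024) (nat_lit 6) (nat_lit 474) (nat_lit 1) (nat_lit 209) (nat_lit 178) (nat_lit 183))) (PT.nd (nat_lit 78) (PT.lf (nat_lit 34428) (nat_lit 6) (nat_lit 453) (nat_lit 1) (nat_lit 210) (nat_lit 178) (nat_lit 182)) (PT.lf (nat_lit 32756) (nat_lit 6) (nat_lit 431) (nat_lit 1) (nat_lit 211) (nat_lit 178) (nat_lit 181)))) (PT.nd (nat_lit 56706) (PT.nd (nat_lit 78) (PT.lf (nat_lit 31008) (nat_lit 6) (nat_lit 408) (nat_lit 1) (nat_lit 212) (nat_lit 178) (nat_lit 180)) (PT.lf (nat_lit 29184) (nat_lit 6) (nat_lit 384) (nat_lit 1) (nat_lit 213) (nat_lit 178) (nat_lit 179))) (PT.nd (nat_lit 78) (PT.lf (nat_lit 29184) (nat_lit 6) (nat_lit 384) (nat_lit 5) (nat_lit 178) (nat_lit 179) (nat_lit 213)) (PT.lf (nat_lit 30932) (nat_lit 3) (nat_lit 407) (nat_lit 3) (nat_lit 179)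 (nat_lit 179) (nat_lit 212))))))))
noncomputable def pc18 : PT := (PT.nd (nat_lit 2262) (PT.nd (nat_lit 1092) (PT.nd (nat_lit 546) (PT.nd (nat_lit 234) (PT.nd (nat_lit 78) (PT.lf (nat_lit 32680) (nat_lit 6) (nat_lit 430) (nat_lit 3) (nat_lit 180) (nat_lit 179) (nat_lit 211)) (PT.nd (nat_lit 78) (PT.lf (nat_lit 34352) (nat_lit 6) (nat_lit 452) (nat_lit 3) (nat_lit 181) (nat_lit 179) (nat_lit 210)) (PT.lf (nat_lit 35948) (nat_lit 6) (nat_lit 473) (nat_lit 3) (nat_lit 182) (nat_lit 179) (nat_lit 209)))) (PT.nd (nat_lit 156) (PT.nd (nat_lit 78) (PT.lf (nat_lit 37468) (nat_lit 6) (nat_lit 493) (nat_lit 3) (nat_lit 183) (nat_lit 179) (nat_lit 208)) (PT.lf (nat_lit 38912) (nat_lit 6) (nat_lit 512) (nat_lit 3) (nat_lit 184) (nat_lit 179) (nat_lit 207))) (PT.nd (nat_lit 78) (PT.lf (nat_lit 40280) (nat_lit 6) (nat_lit 530) (nat_lit 3) (nat_lit 185) (nat_lit 179) (nat_lit 206)) (PT.lf (nat_lit 41572) (nat_lit 6) (nat_lit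 547) (nat_lit 3) (nat_lit 186) (nat_lit 179) (nat_lit 205))))) (PT.nd (nat_lit 234) (PT.nd (nat_lit 78) (PT.lf (nat_lit 42788) (nat_lit 6) (nat_lit 563) (nat_lit 3) (nat_lit 187) (nat_lit 179) (nat_lit 204)) (PT.nd (nat_lit 78) (PT.lf (nat_lit 43928) (nat_lit 6) (nat_lit 578) (nat_lit 3) (nat_lit 188) (nat_lit 179) (nat_lit 203)) (PT.lf (nat_lit 44992) (nat_lit 6) (nat_lit 592) (nat_lit 3) (nat_lit 189) (nat_lit 179) (nat_lit 202)))) (PT.nd (nat_lit 156) (PT.nd (nat_lit 78) (PT.lf (nat_lit 45980) (nat_lit 6) (nat_lit 605) (nat_lit 3) (nat_lit 190) (nat_lit 179) (nat_lit 201)) (PT.lf (nat_lit 46056) (nat_lit 6) (nat_lit 606) (nat_lit 3) (nat_lit 191) (nat_lit 179) (nat_lit 200))) (PT.nd (nat_lit 78) (PT.lf (nat_lit 46132) (nat_lit 6) (nat_lit 607) (nat_lit 3) (nat_lit 192) (nat_lit 179) (nat_lit 199)) (PT.lf (nat_lit 46208) (nat_lit 6) (nat_lit 608) (nat_lit 3) (nat_lit 193) (nat_lit 179) (nat_lit 198)))))) (PT.nd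 (nat_lit 546) (PT.nd (nat_lit 234) (PT.nd (nat_lit 78) (PT.lf (nat_lit 46284) (nat_lit 6) (nat_lit 609) (nat_lit 3) (nat_lit 194) (nat_lit 179) (nat_lit 197)) (PT.nd (nat_lit 78) (PT.lf (nat_lit 46360) (nat_lit 6) (nat_lit 610) (nat_lit 3) (nat_lit 195) (nat_lit 179) (nat_lit 196)) (PT.lf (nat_lit 46360) (nat_lit 6) (nat_lit 610) (nat_lit 1) (nat_lit 196) (nat_lit 179) (nat_lit 195)))) (PT.nd (nat_lit 156) (PT.nd (nat_lit 78) (PT.lf (nat_lit 46284) (nat_lit 6) (nat_lit 609) (nat_lit 1) (nat_lit 197) (nat_lit 179) (nat_lit 194)) (PT.lf (nat_lit 46208) (nat_lit 6) (nat_lit 608) (nat_lit 1) (nat_lit 198) (nat_lit 179) (nat_lit 193))) (PT.nd (nat_lit 78) (PT.lf (nat_lit 46132) (nat_lit 6) (nat_lit 607) (nat_lit 1) (nat_lit 199) (nat_lit 179) (nat_lit 192)) (PT.lf (nat_lit 46056) (nat_lit 6) (nat_lit 606) (nat_lit 1) (nat_lit 200) (nat_lit 179) (nat_lit 191))))) (PT.nd (nat_lit 312) (PT.nd (nat_lit 156) (PT.nd (nat_lit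 78) (PT.lf (nat_lit 45980) (nat_lit 6) (nat_lit 605) (nat_lit 1) (nat_lit 201) (nat_lit 179) (nat_lit 190)) (PT.lf (nat_lit 44992) (nat_lit 6) (nat_lit 592) (nat_lit 1) (nat_lit 202) (nat_lit 179) (nat_lit 189))) (PT.nd (nat_lit 78) (PT.lf (nat_lit 43928) (nat_lit 6) (nat_lit 578) (nat_lit 1) (nat_lit 203) (nat_lit 179) (nat_lit 188)) (PT.lf (nat_lit 42788) (nat_lit 6) (nat_lit 563) (nat_lit 1) (nat_lit 204) (nat_lit 179) (nat_lit 187)))) (PT.nd (nat_lit 156) (PT.nd (nat_lit 78) (PT.lf (nat_lit 41572) (nat_lit 6) (nat_lit 547) (nat_lit 1) (nat_lit 205) (nat_lit 179) (nat_lit 186)) (PT.lf (nat_lit 40280) (nat_lit 6) (nat_lit 530) (nat_lit 1) (nat_lit 206) (nat_lit 179) (nat_lit 185))) (PT.nd (nat_lit 78) (PT.lf (nat_lit 38912) (nat_lit 6) (nat_lit 512) (nat_lit 1) (nat_lit 207) (nat_lit 179) (nat_lit 184)) (PT.lf (nat_lit 37468) (nat_lit 6) (nat_lit 493) (nat_lit 1) (nat_lit 208) (nat_lit 179) (nat_lit 183)))))))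 (PT.nd (nat_lit 57564) (PT.nd (nat_lit 57018) (PT.nd (nat_lit 234) (PT.nd (nat_lit 78) (PT.lf (nat_lit 35948) (nat_lit 6) (nat_lit 473) (nat_lit 1) (nat_lit 209) (nat_lit 179) (nat_lit 182)) (PT.nd (nat_lit 78) (PT.lf (nat_lit 34352) (nat_lit 6) (nat_lit 452) (nat_lit 1) (nat_lit 210) (nat_lit 179) (nat_lit 181)) (PT.lf (nat_lit 32680) (nat_lit 6) (nat_lit 430) (nat_lit 1) (nat_lit 211) (nat_lit 179) (nat_lit 180)))) (PT.nd (nat_lit 56628) (PT.nd (nat_lit 78) (PT.lf (nat_lit 30932) (nat_lit 3) (nat_lit 407) (nat_lit 0) (nat_lit 212) (nat_lit 179) (nat_lit 179)) (PT.lf (nat_lit 29184) (nat_lit 6) (nat_lit 384) (nat_lit 0) (nat_lit 213) (nat_lit 179) (nat_lit 178))) (PT.nd (nat_lit 78) (PT.lf (nat_lit 29260) (nat_lit 6) (nat_lit 385) (nat_lit 5) (nat_lit 177) (nat_lit 180) (nat_lit 213)) (PT.lf (nat_lit 31008) (nat_lit 6) (nat_lit 408) (nat_lit 5) (nat_lit 178) (nat_lit 180) (nat_lit 212))))) (PT.nd (nat_lit 234)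 (PT.nd (nat_lit 78) (PT.lf (nat_lit 32680) (nat_lit 6) (nat_lit 430) (nat_lit 5) (nat_lit 179) (nat_lit 180) (nat_lit 211)) (PT.nd (nat_lit 78) (PT.lf (nat_lit 34276) (nat_lit 3) (nat_lit 451) (nat_lit 3) (nat_lit 180) (nat_lit 180) (nat_lit 210)) (PT.lf (nat_lit 35872) (nat_lit 6) (nat_lit 472) (nat_lit 3) (nat_lit 181) (nat_lit 180) (nat_lit 209)))) (PT.nd (nat_lit 156) (PT.nd (nat_lit 78) (PT.lf (nat_lit 37392) (nat_lit 6) (nat_lit 492) (nat_lit 3) (nat_lit 182) (nat_lit 180) (nat_lit 208)) (PT.lf (nat_lit 38836) (nat_lit 6) (nat_lit 511) (nat_lit 3) (nat_lit 183) (nat_lit 180) (nat_lit 207))) (PT.nd (nat_lit 78) (PT.lf (nat_lit 40204) (nat_lit 6) (nat_lit 529) (nat_lit 3) (nat_lit 184) (nat_lit 180) (nat_lit 206)) (PT.lf (nat_lit 41496) (nat_lit 6) (nat_lit 546) (nat_lit 3) (nat_lit 185) (nat_lit 180) (nat_lit 205)))))) (PT.nd (nat_lit 546) (PT.nd (nat_lit 234) (PT.nd (nat_lit 78) (PT.lf (nat_lit 42712)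 (nat_lit 6) (nat_lit 562) (nat_lit 3) (nat_lit 186) (nat_lit 180) (nat_lit 204)) (PT.nd (nat_lit 78) (PT.lf (nat_lit 43852) (nat_lit 6) (nat_lit 577) (nat_lit 3) (nat_lit 187) (nat_lit 180) (nat_lit 203)) (PT.lf (nat_lit 44916) (nat_lit 6) (nat_lit 591) (nat_lit 3) (nat_lit 188) (nat_lit 180) (nat_lit 202)))) (PT.nd (nat_lit 156) (PT.nd (nat_lit 78) (PT.lf (nat_lit 45904) (nat_lit 6) (nat_lit 604) (nat_lit 3) (nat_lit 189) (nat_lit 180) (nat_lit 201)) (PT.lf (nat_lit 46816) (nat_lit 6) (nat_lit 616) (nat_lit 3) (nat_lit 190) (nat_lit 180) (nat_lit 200))) (PT.nd (nat_lit 78) (PT.lf (nat_lit 46892) (nat_lit 6) (nat_lit 617) (nat_lit 3) (nat_lit 191) (nat_lit 180) (nat_lit 199)) (PT.lf (nat_lit 46968) (nat_lit 6) (nat_lit 618) (nat_lit 3) (nat_lit 192) (nat_lit 180) (nat_lit 198))))) (PT.nd (nat_lit 312) (PT.nd (nat_lit 156) (PT.nd (nat_lit 78) (PT.lf (nat_lit 47044) (nat_lit 6) (nat_lit 619) (nat_lit 3) (nat_lit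 193) (nat_lit 180) (nat_lit 197)) (PT.lf (nat_lit 47120) (nat_lit 6) (nat_lit 620) (nat_lit 3) (nat_lit 194) (nat_lit 180) (nat_lit 196))) (PT.nd (nat_lit 78) (PT.lf (nat_lit 47196) (nat_lit 3) (nat_lit 621) (nat_lit 1) (nat_lit 195) (nat_lit 180) (nat_lit 195)) (PT.lf (nat_lit 47120) (nat_lit 6) (nat_lit 620) (nat_lit 1) (nat_lit 196) (nat_lit 180) (nat_lit 194)))) (PT.nd (nat_lit 156) (PT.nd (nat_lit 78) (PT.lf (nat_lit 47044) (nat_lit 6) (nat_lit 619) (nat_lit 1) (nat_lit 197) (nat_lit 180) (nat_lit 193)) (PT.lf (nat_lit 46968) (nat_lit 6) (nat_lit 618) (nat_lit 1) (nat_lit 198) (nat_lit 180) (nat_lit 192))) (PT.nd (nat_lit 78) (PT.lf (nat_lit 46892) (nat_lit 6) (nat_lit 617) (nat_lit 1) (nat_lit 199) (nat_lit 180) (nat_lit 191)) (PT.lf (nat_lit 46816) (nat_lit 6) (nat_lit 616) (nat_lit 1) (nat_lit 200) (nat_lit 180) (nat_lit 190))))))))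
noncomputable def pc19 : PT := (PT.nd (nat_lit 58656) (PT.nd (nat_lit 57486) (PT.nd (nat_lit 546) (PT.nd (nat_lit 234) (PT.nd (nat_lit 78) (PT.lf (nat_lit 45904) (nat_lit 6) (nat_lit 604) (nat_lit 1) (nat_lit 201) (nat_lit 180) (nat_lit 189)) (PT.nd (nat_lit 78) (PT.lf (nat_lit 44916) (nat_lit 6) (nat_lit 591) (nat_lit 1) (nat_lit 202) (nat_lit 180) (nat_lit 188)) (PT.lf (nat_lit 43852) (nat_lit 6) (nat_lit 577) (nat_lit 1) (nat_lit 203) (nat_lit 180) (nat_lit 187)))) (PT.nd (nat_lit 156) (PT.nd (nat_lit 78) (PT.lf (nat_lit 42712) (nat_lit 6) (nat_lit 562) (nat_lit 1) (nat_lit 204) (nat_lit 180) (nat_lit 186)) (PT.lf (nat_lit 41496) (nat_lit 6) (nat_lit 546) (nat_lit 1) (nat_lit 205) (nat_lit 180) (nat_lit 185))) (PT.nd (nat_lit 78) (PT.lf (nat_lit 40204) (nat_lit 6) (nat_lit 529) (nat_lit 1) (nat_lit 206) (nat_lit 180) (nat_lit 184)) (PT.lf (nat_lit 38836) (nat_lit 6) (nat_lit 511) (nat_lit 1) (nat_lit 207)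 (nat_lit 180) (nat_lit 183))))) (PT.nd (nat_lit 234) (PT.nd (nat_lit 78) (PT.lf (nat_lit 37392) (nat_lit 6) (nat_lit 492) (nat_lit 1) (nat_lit 208) (nat_lit 180) (nat_lit 182)) (PT.nd (nat_lit 78) (PT.lf (nat_lit 35872) (nat_lit 6) (nat_lit 472) (nat_lit 1) (nat_lit 209) (nat_lit 180) (nat_lit 181)) (PT.lf (nat_lit 34276) (nat_lit 3) (nat_lit 451) (nat_lit 0) (nat_lit 210) (nat_lit 180) (nat_lit 180)))) (PT.nd (nat_lit 156) (PT.nd (nat_lit 78) (PT.lf (nat_lit 32680) (nat_lit 6) (nat_lit 430) (nat_lit 0) (nat_lit 211) (nat_lit 180) (nat_lit 179)) (PT.lf (nat_lit 31008) (nat_lit 6) (nat_lit 408) (nat_lit 0) (nat_lit 212) (nat_lit 180) (nat_lit 178))) (PT.nd (nat_lit 56472) (PT.lf (nat_lit 29260) (nat_lit 6) (nat_lit 385) (nat_lit 0) (nat_lit 213) (nat_lit 180) (nat_lit 177)) (PT.lf (nat_lit 29336) (nat_lit 6) (nat_lit 386) (nat_lit 5) (nat_lit 176) (nat_lit 181) (nat_lit 213)))))) (PT.nd (nat_lit 546) (PT.nd (nat_lit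 234) (PT.nd (nat_lit 78) (PT.lf (nat_lit 31084) (nat_lit 6) (nat_lit 409) (nat_lit 5) (nat_lit 177) (nat_lit 181) (nat_lit 212)) (PT.nd (nat_lit 78) (PT.lf (nat_lit 32756) (nat_lit 6) (nat_lit 431) (nat_lit 5) (nat_lit 178) (nat_lit 181) (nat_lit 211)) (PT.lf (nat_lit 34352) (nat_lit 6) (nat_lit 452) (nat_lit 5) (nat_lit 179) (nat_lit 181) (nat_lit 210)))) (PT.nd (nat_lit 156) (PT.nd (nat_lit 78) (PT.lf (nat_lit 35872) (nat_lit 6) (nat_lit 472) (nat_lit 5) (nat_lit 180) (nat_lit 181) (nat_lit 209)) (PT.lf (nat_lit 37316) (nat_lit 3) (nat_lit 491) (nat_lit 3) (nat_lit 181) (nat_lit 181) (nat_lit 208))) (PT.nd (nat_lit 78) (PT.lf (nat_lit 38760) (nat_lit 6) (nat_lit 510) (nat_lit 3) (nat_lit 182) (nat_lit 181) (nat_lit 207)) (PT.lf (nat_lit 40128) (nat_lit 6) (nat_lit 528) (nat_lit 3) (nat_lit 183) (nat_lit 181) (nat_lit 206))))) (PT.nd (nat_lit 312) (PT.nd (nat_lit 156) (PT.nd (nat_lit 78) (PT.lf (nat_lit 41420)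 (nat_lit 6) (nat_lit 545) (nat_lit 3) (nat_lit 184) (nat_lit 181) (nat_lit 205)) (PT.lf (nat_lit 42636) (nat_lit 6) (nat_lit 561) (nat_lit 3) (nat_lit 185) (nat_lit 181) (nat_lit 204))) (PT.nd (nat_lit 78) (PT.lf (nat_lit 43776) (nat_lit 6) (nat_lit 576) (nat_lit 3) (nat_lit 186) (nat_lit 181) (nat_lit 203)) (PT.lf (nat_lit 44840) (nat_lit 6) (nat_lit 590) (nat_lit 3) (nat_lit 187) (nat_lit 181) (nat_lit 202)))) (PT.nd (nat_lit 156) (PT.nd (nat_lit 78) (PT.lf (nat_lit 45828) (nat_lit 6) (nat_lit 603) (nat_lit 3) (nat_lit 188) (nat_lit 181) (nat_lit 201)) (PT.lf (nat_lit 46740) (nat_lit 6) (nat_lit 615) (nat_lit 3) (nat_lit 189) (nat_lit 181) (nat_lit 200))) (PT.nd (nat_lit 78) (PT.lf (nat_lit 47576) (nat_lit 6) (nat_lit 626) (nat_lit 3) (nat_lit 190) (nat_lit 181) (nat_lit 199)) (PT.lf (nat_lit 47652) (nat_lit 6) (nat_lit 627) (nat_lit 3) (nat_lit 191) (nat_lit 181) (nat_lit 198))))))) (PT.nd (nat_lit 1170)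 (PT.nd (nat_lit 546) (PT.nd (nat_lit 234) (PT.nd (nat_lit 78) (PT.lf (nat_lit 47728) (nat_lit 6) (nat_lit 628) (nat_lit 3) (nat_lit 192) (nat_lit 181) (nat_lit 197)) (PT.nd (nat_lit 78) (PT.lf (nat_lit 47804) (nat_lit 6) (nat_lit 629) (nat_lit 3) (nat_lit 193) (nat_lit 181) (nat_lit 196)) (PT.lf (nat_lit 47880) (nat_lit 6) (nat_lit 630) (nat_lit 3) (nat_lit 194) (nat_lit 181) (nat_lit 195)))) (PT.nd (nat_lit 156) (PT.nd (nat_lit 78) (PT.lf (nat_lit 47880) (nat_lit 6) (nat_lit 630) (nat_lit 1) (nat_lit 195) (nat_lit 181) (nat_lit 194)) (PT.lf (nat_lit 47804) (nat_lit 6) (nat_lit 629) (nat_lit 1) (nat_lit 196) (nat_lit 181) (nat_lit 193))) (PT.nd (nat_lit 78) (PT.lf (nat_lit 47728) (nat_lit 6) (nat_lit 628) (nat_lit 1) (nat_lit 197) (nat_lit 181) (nat_lit 192)) (PT.lf (nat_lit 47652) (nat_lit 6) (nat_lit 627) (nat_lit 1) (nat_lit 198) (nat_lit 181) (nat_lit 191))))) (PT.nd (nat_lit 312) (PT.nd (nat_lit 156) (PT.nd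 (nat_lit 78) (PT.lf (nat_lit 47576) (nat_lit 6) (nat_lit 626) (nat_lit 1) (nat_lit 199) (nat_lit 181) (nat_lit 190)) (PT.lf (nat_lit 46740) (nat_lit 6) (nat_lit 615) (nat_lit 1) (nat_lit 200) (nat_lit 181) (nat_lit 189))) (PT.nd (nat_lit 78) (PT.lf (nat_lit 45828) (nat_lit 6) (nat_lit 603) (nat_lit 1) (nat_lit 201) (nat_lit 181) (nat_lit 188)) (PT.lf (nat_lit 44840) (nat_lit 6) (nat_lit 590) (nat_lit 1) (nat_lit 202) (nat_lit 181) (nat_lit 187)))) (PT.nd (nat_lit 156) (PT.nd (nat_lit 78) (PT.lf (nat_lit 43776) (nat_lit 6) (nat_lit 576) (nat_lit 1) (nat_lit 203) (nat_lit 181) (nat_lit 186)) (PT.lf (nat_lit 42636) (nat_lit 6) (nat_lit 561) (nat_lit 1) (nat_lit 204) (nat_lit 181) (nat_lit 185))) (PT.nd (nat_lit 78) (PT.lf (nat_lit 41420) (nat_lit 6) (nat_lit 545) (nat_lit 1) (nat_lit 205) (nat_lit 181) (nat_lit 184)) (PT.lf (nat_lit 40128) (nat_lit 6) (nat_lit 528) (nat_lit 1) (nat_lit 206) (nat_lit 181) (nat_lit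 183)))))) (PT.nd (nat_lit 56862) (PT.nd (nat_lit 234) (PT.nd (nat_lit 78) (PT.lf (nat_lit 38760) (nat_lit 6) (nat_lit 510) (nat_lit 1) (nat_lit 207) (nat_lit 181) (nat_lit 182)) (PT.nd (nat_lit 78) (PT.lf (nat_lit 37316) (nat_lit 3) (nat_lit 491) (nat_lit 0) (nat_lit 208) (nat_lit 181) (nat_lit 181)) (PT.lf (nat_lit 35872) (nat_lit 6) (nat_lit 472) (nat_lit 0) (nat_lit 209) (nat_lit 181) (nat_lit 180)))) (PT.nd (nat_lit 156) (PT.nd (nat_lit 78) (PT.lf (nat_lit 34352) (nat_lit 6) (nat_lit 452) (nat_lit 0) (nat_lit 210) (nat_lit 181) (nat_lit 179)) (PT.lf (nat_lit 32756) (nat_lit 6) (nat_lit 431) (nat_lit 0) (nat_lit 211) (nat_lit 181) (nat_lit 178))) (PT.nd (nat_lit 78) (PT.lf (nat_lit 31084) (nat_lit 6) (nat_lit 409) (nat_lit 0) (nat_lit 212) (nat_lit 181) (nat_lit 177)) (PT.lf (nat_lit 29336) (nat_lit 6) (nat_lit 386) (nat_lit 0) (nat_lit 213) (nat_lit 181) (nat_lit 176))))) (PT.nd (nat_lit 312) (PT.nd (nat_lit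 156) (PT.nd (nat_lit 78) (PT.lf (nat_lit 29412) (nat_lit 6) (nat_lit 387) (nat_lit 5) (nat_lit 175) (nat_lit 182) (nat_lit 213)) (PT.lf (nat_lit 31160) (nat_lit 6) (nat_lit 410) (nat_lit 5) (nat_lit 176) (nat_lit 182) (nat_lit 212))) (PT.nd (nat_lit 78) (PT.lf (nat_lit 32832) (nat_lit 6) (nat_lit 432) (nat_lit 5) (nat_lit 177) (nat_lit 182) (nat_lit 211)) (PT.lf (nat_lit 34428) (nat_lit 6) (nat_lit 453) (nat_lit 5) (nat_lit 178) (nat_lit 182) (nat_lit 210)))) (PT.nd (nat_lit 156) (PT.nd (nat_lit 78) (PT.lf (nat_lit 35948) (nat_lit 6) (nat_lit 473) (nat_lit 5) (nat_lit 179) (nat_lit 182) (nat_lit 209)) (PT.lf (nat_lit 37392) (nat_lit 6) (nat_lit 492) (nat_lit 5) (nat_lit 180) (nat_lit 182) (nat_lit 208))) (PT.nd (nat_lit 78) (PT.lf (nat_lit 38760) (nat_lit 6) (nat_lit 510) (nat_lit 5) (nat_lit 181) (nat_lit 182) (nat_lit 207)) (PT.lf (nat_lit 40052) (nat_lit 3) (nat_lit 527) (nat_lit 3) (nat_lit 182) (nat_lit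 182) (nat_lit 206))))))))
noncomputable def pc20 : PT := (PT.nd (nat_lit 2262) (PT.nd (nat_lit 1092) (PT.nd (nat_lit 546) (PT.nd (nat_lit 234) (PT.nd (nat_lit 78) (PT.lf (nat_lit 41344) (nat_lit 6) (nat_lit 544) (nat_lit 3) (nat_lit 183) (nat_lit 182) (nat_lit 205)) (PT.nd (nat_lit 78) (PT.lf (nat_lit 42560) (nat_lit 6) (nat_lit 560) (nat_lit 3) (nat_lit 184) (nat_lit 182) (nat_lit 204)) (PT.lf (nat_lit 43700) (nat_lit 6) (nat_lit 575) (nat_lit 3) (nat_lit 185) (nat_lit 182) (nat_lit 203)))) (PT.nd (nat_lit 156) (PT.nd (nat_lit 78) (PT.lf (nat_lit 44764) (nat_lit 6) (nat_lit 589) (nat_lit 3) (nat_lit 186) (nat_lit 182) (nat_lit 202)) (PT.lf (nat_lit 45752) (nat_lit 6) (nat_lit 602) (nat_lit 3) (nat_lit 187) (nat_lit 182) (nat_lit 201))) (PT.nd (nat_lit 78) (PT.lf (nat_lit 46664) (nat_lit 6) (nat_lit 614) (nat_lit 3) (nat_lit 188) (nat_lit 182) (nat_lit 200)) (PT.lf (nat_lit 47500) (nat_lit 6) (nat_lit 625) (nat_lit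 3) (nat_lit 189) (nat_lit 182) (nat_lit 199))))) (PT.nd (nat_lit 234) (PT.nd (nat_lit 78) (PT.lf (nat_lit 48260) (nat_lit 6) (nat_lit 635) (nat_lit 3) (nat_lit 190) (nat_lit 182) (nat_lit 198)) (PT.nd (nat_lit 78) (PT.lf (nat_lit 48336) (nat_lit 6) (nat_lit 636) (nat_lit 3) (nat_lit 191) (nat_lit 182) (nat_lit 197)) (PT.lf (nat_lit 48412) (nat_lit 6) (nat_lit 637) (nat_lit 3) (nat_lit 192) (nat_lit 182) (nat_lit 196)))) (PT.nd (nat_lit 156) (PT.nd (nat_lit 78) (PT.lf (nat_lit 48488) (nat_lit 6) (nat_lit 638) (nat_lit 3) (nat_lit 193) (nat_lit 182) (nat_lit 195)) (PT.lf (nat_lit 48564) (nat_lit 3) (nat_lit 639) (nat_lit 1) (nat_lit 194) (nat_lit 182) (nat_lit 194))) (PT.nd (nat_lit 78) (PT.lf (nat_lit 48488) (nat_lit 6) (nat_lit 638) (nat_lit 1) (nat_lit 195) (nat_lit 182) (nat_lit 193)) (PT.lf (nat_lit 48412) (nat_lit 6) (nat_lit 637) (nat_lit 1) (nat_lit 196) (nat_lit 182) (nat_lit 192)))))) (PT.nd (nat_lit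 546) (PT.nd (nat_lit 234) (PT.nd (nat_lit 78) (PT.lf (nat_lit 48336) (nat_lit 6) (nat_lit 636) (nat_lit 1) (nat_lit 197) (nat_lit 182) (nat_lit 191)) (PT.nd (nat_lit 78) (PT.lf (nat_lit 48260) (nat_lit 6) (nat_lit 635) (nat_lit 1) (nat_lit 198) (nat_lit 182) (nat_lit 190)) (PT.lf (nat_lit 47500) (nat_lit 6) (nat_lit 625) (nat_lit 1) (nat_lit 199) (nat_lit 182) (nat_lit 189)))) (PT.nd (nat_lit 156) (PT.nd (nat_lit 78) (PT.lf (nat_lit 46664) (nat_lit 6) (nat_lit 614) (nat_lit 1) (nat_lit 200) (nat_lit 182) (nat_lit 188)) (PT.lf (nat_lit 45752) (nat_lit 6) (nat_lit 602) (nat_lit 1) (nat_lit 201) (nat_lit 182) (nat_lit 187))) (PT.nd (nat_lit 78) (PT.lf (nat_lit 44764) (nat_lit 6) (nat_lit 589) (nat_lit 1) (nat_lit 202) (nat_lit 182) (nat_lit 186)) (PT.lf (nat_lit 43700) (nat_lit 6) (nat_lit 575) (nat_lit 1) (nat_lit 203) (nat_lit 182) (nat_lit 185))))) (PT.nd (nat_lit 312) (PT.nd (nat_lit 156) (PT.nd (nat_lit 78)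 (PT.lf (nat_lit 42560) (nat_lit 6) (nat_lit 560) (nat_lit 1) (nat_lit 204) (nat_lit 182) (nat_lit 184)) (PT.lf (nat_lit 41344) (nat_lit 6) (nat_lit 544) (nat_lit 1) (nat_lit 205) (nat_lit 182) (nat_lit 183))) (PT.nd (nat_lit 78) (PT.lf (nat_lit 40052) (nat_lit 3) (nat_lit 527) (nat_lit 0) (nat_lit 206) (nat_lit 182) (nat_lit 182)) (PT.lf (nat_lit 38760) (nat_lit 6) (nat_lit 510) (nat_lit 0) (nat_lit 207) (nat_lit 182) (nat_lit 181)))) (PT.nd (nat_lit 156) (PT.nd (nat_lit 78) (PT.lf (nat_lit 37392) (nat_lit 6) (nat_lit 492) (nat_lit 0) (nat_lit 208) (nat_lit 182) (nat_lit 180)) (PT.lf (nat_lit 35948) (nat_lit 6) (nat_lit 473) (nat_lit 0) (nat_lit 209) (nat_lit 182) (nat_lit 179))) (PT.nd (nat_lit 78) (PT.lf (nat_lit 34428) (nat_lit 6) (nat_lit 453) (nat_lit 0) (nat_lit 210) (nat_lit 182) (nat_lit 178)) (PT.lf (nat_lit 32832) (nat_lit 6) (nat_lit 432) (nat_lit 0) (nat_lit 211) (nat_lit 182) (nat_lit 177)))))))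 (PT.nd (nat_lit 57330) (PT.nd (nat_lit 56784) (PT.nd (nat_lit 56472) (PT.nd (nat_lit 78) (PT.lf (nat_lit 31160) (nat_lit 6) (nat_lit 410) (nat_lit 0) (nat_lit 212) (nat_lit 182) (nat_lit 176)) (PT.nd (nat_lit 56316) (PT.lf (nat_lit 29412) (nat_lit 6) (nat_lit 387) (nat_lit 0) (nat_lit 213) (nat_lit 182) (nat_lit 175)) (PT.lf (nat_lit 29488) (nat_lit 6) (nat_lit 388) (nat_lit 5) (nat_lit 174) (nat_lit 183) (nat_lit 213)))) (PT.nd (nat_lit 156) (PT.nd (nat_lit 78) (PT.lf (nat_lit 31236) (nat_lit 6) (nat_lit 411) (nat_lit 5) (nat_lit 175) (nat_lit 183) (nat_lit 212)) (PT.lf (nat_lit 32908) (nat_lit 6) (nat_lit 433) (nat_lit 5) (nat_lit 176) (nat_lit 183) (nat_lit 211))) (PT.nd (nat_lit 78) (PT.lf (nat_lit 34504) (nat_lit 6) (nat_lit 454) (nat_lit 5) (nat_lit 177) (nat_lit 183) (nat_lit 210)) (PT.lf (nat_lit 36024) (nat_lit 6) (nat_lit 474) (nat_lit 5) (nat_lit 178) (nat_lit 183) (nat_lit 209))))) (PT.nd (nat_lit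 234) (PT.nd (nat_lit 78) (PT.lf (nat_lit 37468) (nat_lit 6) (nat_lit 493) (nat_lit 5) (nat_lit 179) (nat_lit 183) (nat_lit 208)) (PT.nd (nat_lit 78) (PT.lf (nat_lit 38836) (nat_lit 6) (nat_lit 511) (nat_lit 5) (nat_lit 180) (nat_lit 183) (nat_lit 207)) (PT.lf (nat_lit 40128) (nat_lit 6) (nat_lit 528) (nat_lit 5) (nat_lit 181) (nat_lit 183) (nat_lit 206)))) (PT.nd (nat_lit 156) (PT.nd (nat_lit 78) (PT.lf (nat_lit 41344) (nat_lit 6) (nat_lit 544) (nat_lit 5) (nat_lit 182) (nat_lit 183) (nat_lit 205)) (PT.lf (nat_lit 42484) (nat_lit 3) (nat_lit 559) (nat_lit 3) (nat_lit 183) (nat_lit 183) (nat_lit 204))) (PT.nd (nat_lit 78) (PT.lf (nat_lit 43624) (nat_lit 6) (nat_lit 574) (nat_lit 3) (nat_lit 184) (nat_lit 183) (nat_lit 203)) (PT.lf (nat_lit 44688) (nat_lit 6) (nat_lit 588) (nat_lit 3) (nat_lit 185) (nat_lit 183) (nat_lit 202)))))) (PT.nd (nat_lit 546) (PT.nd (nat_lit 234) (PT.nd (nat_lit 78) (PT.lf (nat_lit 45676)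 (nat_lit 6) (nat_lit 601) (nat_lit 3) (nat_lit 186) (nat_lit 183) (nat_lit 201)) (PT.nd (nat_lit 78) (PT.lf (nat_lit 46588) (nat_lit 6) (nat_lit 613) (nat_lit 3) (nat_lit 187) (nat_lit 183) (nat_lit 200)) (PT.lf (nat_lit 47424) (nat_lit 6) (nat_lit 624) (nat_lit 3) (nat_lit 188) (nat_lit 183) (nat_lit 199)))) (PT.nd (nat_lit 156) (PT.nd (nat_lit 78) (PT.lf (nat_lit 48184) (nat_lit 6) (nat_lit 634) (nat_lit 3) (nat_lit 189) (nat_lit 183) (nat_lit 198)) (PT.lf (nat_lit 48868) (nat_lit 6) (nat_lit 643) (nat_lit 3) (nat_lit 190) (nat_lit 183) (nat_lit 197))) (PT.nd (nat_lit 78) (PT.lf (nat_lit 48944) (nat_lit 6) (nat_lit 644) (nat_lit 3) (nat_lit 191) (nat_lit 183) (nat_lit 196)) (PT.lf (nat_lit 49020) (nat_lit 6) (nat_lit 645) (nat_lit 3) (nat_lit 192) (nat_lit 183) (nat_lit 195))))) (PT.nd (nat_lit 312) (PT.nd (nat_lit 156) (PT.nd (nat_lit 78) (PT.lf (nat_lit 49096) (nat_lit 6) (nat_lit 646) (nat_lit 3) (nat_lit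 193) (nat_lit 183) (nat_lit 194)) (PT.lf (nat_lit 49096) (nat_lit 6) (nat_lit 646) (nat_lit 1) (nat_lit 194) (nat_lit 183) (nat_lit 193))) (PT.nd (nat_lit 78) (PT.lf (nat_lit 49020) (nat_lit 6) (nat_lit 645) (nat_lit 1) (nat_lit 195) (nat_lit 183) (nat_lit 192)) (PT.lf (nat_lit 48944) (nat_lit 6) (nat_lit 644) (nat_lit 1) (nat_lit 196) (nat_lit 183) (nat_lit 191)))) (PT.nd (nat_lit 156) (PT.nd (nat_lit 78) (PT.lf (nat_lit 48868) (nat_lit 6) (nat_lit 643) (nat_lit 1) (nat_lit 197) (nat_lit 183) (nat_lit 190)) (PT.lf (nat_lit 48184) (nat_lit 6) (nat_lit 634) (nat_lit 1) (nat_lit 198) (nat_lit 183) (nat_lit 189))) (PT.nd (nat_lit 78) (PT.lf (nat_lit 47424) (nat_lit 6) (nat_lit 624) (nat_lit 1) (nat_lit 199) (nat_lit 183) (nat_lit 188)) (PT.lf (nat_lit 46588) (nat_lit 6) (nat_lit 613) (nat_lit 1) (nat_lit 200) (nat_lit 183) (nat_lit 187))))))))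
noncomputable def pc21 : PT := (PT.nd (nat_lit 58422) (PT.nd (nat_lit 57252) (PT.nd (nat_lit 546) (PT.nd (nat_lit 234) (PT.nd (nat_lit 78) (PT.lf (nat_lit 45676) (nat_lit 6) (nat_lit 601) (nat_lit 1) (nat_lit 201) (nat_lit 183) (nat_lit 186)) (PT.nd (nat_lit 78) (PT.lf (nat_lit 44688) (nat_lit 6) (nat_lit 588) (nat_lit 1) (nat_lit 202) (nat_lit 183) (nat_lit 185)) (PT.lf (nat_lit 43624) (nat_lit 6) (nat_lit 574) (nat_lit 1) (nat_lit 203) (nat_lit 183) (nat_lit 184)))) (PT.nd (nat_lit 156) (PT.nd (nat_lit 78) (PT.lf (nat_lit 42484) (nat_lit 3) (nat_lit 559) (nat_lit 0) (nat_lit 204) (nat_lit 183) (nat_lit 183)) (PT.lf (nat_lit 41344) (nat_lit 6) (nat_lit 544) (nat_lit 0) (nat_lit 205) (nat_lit 183) (nat_lit 182))) (PT.nd (nat_lit 78) (PT.lf (nat_lit 40128) (nat_lit 6) (nat_lit 528) (nat_lit 0) (nat_lit 206) (nat_lit 183) (nat_lit 181)) (PT.lf (nat_lit 38836) (nat_lit 6) (nat_lit 511) (nat_lit 0) (nat_lit 207)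 (nat_lit 183) (nat_lit 180))))) (PT.nd (nat_lit 234) (PT.nd (nat_lit 78) (PT.lf (nat_lit 37468) (nat_lit 6) (nat_lit 493) (nat_lit 0) (nat_lit 208) (nat_lit 183) (nat_lit 179)) (PT.nd (nat_lit 78) (PT.lf (nat_lit 36024) (nat_lit 6) (nat_lit 474) (nat_lit 0) (nat_lit 209) (nat_lit 183) (nat_lit 178)) (PT.lf (nat_lit 34504) (nat_lit 6) (nat_lit 454) (nat_lit 0) (nat_lit 210) (nat_lit 183) (nat_lit 177)))) (PT.nd (nat_lit 156) (PT.nd (nat_lit 78) (PT.lf (nat_lit 32908) (nat_lit 6) (nat_lit 433) (nat_lit 0) (nat_lit 211) (nat_lit 183) (nat_lit 176)) (PT.lf (nat_lit 31236) (nat_lit 6) (nat_lit 411) (nat_lit 0) (nat_lit 212) (nat_lit 183) (nat_lit 175))) (PT.nd (nat_lit 56238) (PT.lf (nat_lit 29488) (nat_lit 6) (nat_lit 388) (nat_lit 0) (nat_lit 213) (nat_lit 183) (nat_lit 174)) (PT.lf (nat_lit 29564) (nat_lit 6) (nat_lit 389) (nat_lit 5) (nat_lit 173) (nat_lit 184) (nat_lit 213)))))) (PT.nd (nat_lit 546) (PT.nd (nat_lit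 234) (PT.nd (nat_lit 78) (PT.lf (nat_lit 31312) (nat_lit 6) (nat_lit 412) (nat_lit 5) (nat_lit 174) (nat_lit 184) (nat_lit 212)) (PT.nd (nat_lit 78) (PT.lf (nat_lit 32984) (nat_lit 6) (nat_lit 434) (nat_lit 5) (nat_lit 175) (nat_lit 184) (nat_lit 211)) (PT.lf (nat_lit 34580) (nat_lit 6) (nat_lit 455) (nat_lit 5) (nat_lit 176) (nat_lit 184) (nat_lit 210)))) (PT.nd (nat_lit 156) (PT.nd (nat_lit 78) (PT.lf (nat_lit 36100) (nat_lit 6) (nat_lit 475) (nat_lit 5) (nat_lit 177) (nat_lit 184) (nat_lit 209)) (PT.lf (nat_lit 37544) (nat_lit 6) (nat_lit 494) (nat_lit 5) (nat_lit 178) (nat_lit 184) (nat_lit 208))) (PT.nd (nat_lit 78) (PT.lf (nat_lit 38912) (nat_lit 6) (nat_lit 512) (nat_lit 5) (nat_lit 179) (nat_lit 184) (nat_lit 207)) (PT.lf (nat_lit 40204) (nat_lit 6) (nat_lit 529) (nat_lit 5) (nat_lit 180) (nat_lit 184) (nat_lit 206))))) (PT.nd (nat_lit 312) (PT.nd (nat_lit 156) (PT.nd (nat_lit 78) (PT.lf (nat_lit 41420)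 (nat_lit 6) (nat_lit 545) (nat_lit 5) (nat_lit 181) (nat_lit 184) (nat_lit 205)) (PT.lf (nat_lit 42560) (nat_lit 6) (nat_lit 560) (nat_lit 5) (nat_lit 182) (nat_lit 184) (nat_lit 204))) (PT.nd (nat_lit 78) (PT.lf (nat_lit 43624) (nat_lit 6) (nat_lit 574) (nat_lit 5) (nat_lit 183) (nat_lit 184) (nat_lit 203)) (PT.lf (nat_lit 44612) (nat_lit 3) (nat_lit 587) (nat_lit 3) (nat_lit 184) (nat_lit 184) (nat_lit 202)))) (PT.nd (nat_lit 156) (PT.nd (nat_lit 78) (PT.lf (nat_lit 45600) (nat_lit 6) (nat_lit 600) (nat_lit 3) (nat_lit 185) (nat_lit 184) (nat_lit 201)) (PT.lf (nat_lit 46512) (nat_lit 6) (nat_lit 612) (nat_lit 3) (nat_lit 186) (nat_lit 184) (nat_lit 200))) (PT.nd (nat_lit 78) (PT.lf (nat_lit 47348) (nat_lit 6) (nat_lit 623) (nat_lit 3) (nat_lit 187) (nat_lit 184) (nat_lit 199)) (PT.lf (nat_lit 48108) (nat_lit 6) (nat_lit 633) (nat_lit 3) (nat_lit 188) (nat_lit 184) (nat_lit 198))))))) (PT.nd (nat_lit 1170)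 (PT.nd (nat_lit 546) (PT.nd (nat_lit 234) (PT.nd (nat_lit 78) (PT.lf (nat_lit 48792) (nat_lit 6) (nat_lit 642) (nat_lit 3) (nat_lit 189) (nat_lit 184) (nat_lit 197)) (PT.nd (nat_lit 78) (PT.lf (nat_lit 49400) (nat_lit 6) (nat_lit 650) (nat_lit 3) (nat_lit 190) (nat_lit 184) (nat_lit 196)) (PT.lf (nat_lit 49476) (nat_lit 6) (nat_lit 651) (nat_lit 3) (nat_lit 191) (nat_lit 184) (nat_lit 195)))) (PT.nd (nat_lit 156) (PT.nd (nat_lit 78) (PT.lf (nat_lit 49552) (nat_lit 6) (nat_lit 652) (nat_lit 3) (nat_lit 192) (nat_lit 184) (nat_lit 194)) (PT.lf (nat_lit 49628) (nat_lit 3) (nat_lit 653) (nat_lit 1) (nat_lit 193) (nat_lit 184) (nat_lit 193))) (PT.nd (nat_lit 78) (PT.lf (nat_lit 49552) (nat_lit 6) (nat_lit 652) (nat_lit 1) (nat_lit 194) (nat_lit 184) (nat_lit 192)) (PT.lf (nat_lit 49476) (nat_lit 6) (nat_lit 651) (nat_lit 1) (nat_lit 195) (nat_lit 184) (nat_lit 191))))) (PT.nd (nat_lit 312) (PT.nd (nat_lit 156) (PT.nd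 (nat_lit 78) (PT.lf (nat_lit 49400) (nat_lit 6) (nat_lit 650) (nat_lit 1) (nat_lit 196) (nat_lit 184) (nat_lit 190)) (PT.lf (nat_lit 48792) (nat_lit 6) (nat_lit 642) (nat_lit 1) (nat_lit 197) (nat_lit 184) (nat_lit 189))) (PT.nd (nat_lit 78) (PT.lf (nat_lit 48108) (nat_lit 6) (nat_lit 633) (nat_lit 1) (nat_lit 198) (nat_lit 184) (nat_lit 188)) (PT.lf (nat_lit 47348) (nat_lit 6) (nat_lit 623) (nat_lit 1) (nat_lit 199) (nat_lit 184) (nat_lit 187)))) (PT.nd (nat_lit 156) (PT.nd (nat_lit 78) (PT.lf (nat_lit 46512) (nat_lit 6) (nat_lit 612) (nat_lit 1) (nat_lit 200) (nat_lit 184) (nat_lit 186)) (PT.lf (nat_lit 45600) (nat_lit 6) (nat_lit 600) (nat_lit 1) (nat_lit 201) (nat_lit 184) (nat_lit 185))) (PT.nd (nat_lit 78) (PT.lf (nat_lit 44612) (nat_lit 3) (nat_lit 587) (nat_lit 0) (nat_lit 202) (nat_lit 184) (nat_lit 184)) (PT.lf (nat_lit 43624) (nat_lit 6) (nat_lit 574) (nat_lit 0) (nat_lit 203) (nat_lit 184) (nat_lit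 183)))))) (PT.nd (nat_lit 546) (PT.nd (nat_lit 234) (PT.nd (nat_lit 78) (PT.lf (nat_lit 42560) (nat_lit 6) (nat_lit 560) (nat_lit 0) (nat_lit 204) (nat_lit 184) (nat_lit 182)) (PT.nd (nat_lit 78) (PT.lf (nat_lit 41420) (nat_lit 6) (nat_lit 545) (nat_lit 0) (nat_lit 205) (nat_lit 184) (nat_lit 181)) (PT.lf (nat_lit 40204) (nat_lit 6) (nat_lit 529) (nat_lit 0) (nat_lit 206) (nat_lit 184) (nat_lit 180)))) (PT.nd (nat_lit 156) (PT.nd (nat_lit 78) (PT.lf (nat_lit 38912) (nat_lit 6) (nat_lit 512) (nat_lit 0) (nat_lit 207) (nat_lit 184) (nat_lit 179)) (PT.lf (nat_lit 37544) (nat_lit 6) (nat_lit 494) (nat_lit 0) (nat_lit 208) (nat_lit 184) (nat_lit 178))) (PT.nd (nat_lit 78) (PT.lf (nat_lit 36100) (nat_lit 6) (nat_lit 475) (nat_lit 0) (nat_lit 209) (nat_lit 184) (nat_lit 177)) (PT.lf (nat_lit 34580) (nat_lit 6) (nat_lit 455) (nat_lit 0) (nat_lit 210) (nat_lit 184) (nat_lit 176))))) (PT.nd (nat_lit 56394) (PT.nd (nat_lit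 156) (PT.nd (nat_lit 78) (PT.lf (nat_lit 32984) (nat_lit 6) (nat_lit 434) (nat_lit 0) (nat_lit 211) (nat_lit 184) (nat_lit 175)) (PT.lf (nat_lit 31312) (nat_lit 6) (nat_lit 412) (nat_lit 0) (nat_lit 212) (nat_lit 184) (nat_lit 174))) (PT.nd (nat_lit 56160) (PT.lf (nat_lit 29564) (nat_lit 6) (nat_lit 389) (nat_lit 0) (nat_lit 213) (nat_lit 184) (nat_lit 173)) (PT.lf (nat_lit 29640) (nat_lit 6) (nat_lit 390) (nat_lit 5) (nat_lit 172) (nat_lit 185) (nat_lit 213)))) (PT.nd (nat_lit 156) (PT.nd (nat_lit 78) (PT.lf (nat_lit 31388) (nat_lit 6) (nat_lit 413) (nat_lit 5) (nat_lit 173) (nat_lit 185) (nat_lit 212)) (PT.lf (nat_lit 33060) (nat_lit 6) (nat_lit 435) (nat_lit 5) (nat_lit 174) (nat_lit 185) (nat_lit 211))) (PT.nd (nat_lit 78) (PT.lf (nat_lit 34656) (nat_lit 6) (nat_lit 456) (nat_lit 5) (nat_lit 175) (nat_lit 185) (nat_lit 210)) (PT.lf (nat_lit 36176) (nat_lit 6) (nat_lit 476) (nat_lit 5) (nat_lit 176) (nat_lit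 185) (nat_lit 209))))))))
noncomputable def pc22 : PT := (PT.nd (nat_lit 2262) (PT.nd (nat_lit 1092) (PT.nd (nat_lit 546) (PT.nd (nat_lit 234) (PT.nd (nat_lit 78) (PT.lf (nat_lit 37620) (nat_lit 6) (nat_lit 495) (nat_lit 5) (nat_lit 177) (nat_lit 185) (nat_lit 208)) (PT.nd (nat_lit 78) (PT.lf (nat_lit 38988) (nat_lit 6) (nat_lit 513) (nat_lit 5) (nat_lit 178) (nat_lit 185) (nat_lit 207)) (PT.lf (nat_lit 40280) (nat_lit 6) (nat_lit 530) (nat_lit 5) (nat_lit 179) (nat_lit 185) (nat_lit 206)))) (PT.nd (nat_lit 156) (PT.nd (nat_lit 78) (PT.lf (nat_lit 41496) (nat_lit 6) (nat_lit 546) (nat_lit 5) (nat_lit 180) (nat_lit 185) (nat_lit 205)) (PT.lf (nat_lit 42636) (nat_lit 6) (nat_lit 561) (nat_lit 5) (nat_lit 181) (nat_lit 185) (nat_lit 204))) (PT.nd (nat_lit 78) (PT.lf (nat_lit 43700) (nat_lit 6) (nat_lit 575) (nat_lit 5) (nat_lit 182) (nat_lit 185) (nat_lit 203)) (PT.lf (nat_lit 44688) (nat_lit 6) (nat_lit 588) (nat_lit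 5) (nat_lit 183) (nat_lit 185) (nat_lit 202))))) (PT.nd (nat_lit 234) (PT.nd (nat_lit 78) (PT.lf (nat_lit 45600) (nat_lit 6) (nat_lit 600) (nat_lit 5) (nat_lit 184) (nat_lit 185) (nat_lit 201)) (PT.nd (nat_lit 78) (PT.lf (nat_lit 46436) (nat_lit 3) (nat_lit 611) (nat_lit 3) (nat_lit 185) (nat_lit 185) (nat_lit 200)) (PT.lf (nat_lit 47272) (nat_lit 6) (nat_lit 622) (nat_lit 3) (nat_lit 186) (nat_lit 185) (nat_lit 199)))) (PT.nd (nat_lit 156) (PT.nd (nat_lit 78) (PT.lf (nat_lit 48032) (nat_lit 6) (nat_lit 632) (nat_lit 3) (nat_lit 187) (nat_lit 185) (nat_lit 198)) (PT.lf (nat_lit 48716) (nat_lit 6) (nat_lit 641) (nat_lit 3) (nat_lit 188) (nat_lit 185) (nat_lit 197))) (PT.nd (nat_lit 78) (PT.lf (nat_lit 49324) (nat_lit 6) (nat_lit 649) (nat_lit 3) (nat_lit 189) (nat_lit 185) (nat_lit 196)) (PT.lf (nat_lit 49856) (nat_lit 6) (nat_lit 656) (nat_lit 3) (nat_lit 190) (nat_lit 185) (nat_lit 195)))))) (PT.nd (nat_lit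 546) (PT.nd (nat_lit 234) (PT.nd (nat_lit 78) (PT.lf (nat_lit 49932) (nat_lit 6) (nat_lit 657) (nat_lit 3) (nat_lit 191) (nat_lit 185) (nat_lit 194)) (PT.nd (nat_lit 78) (PT.lf (nat_lit 50008) (nat_lit 6) (nat_lit 658) (nat_lit 3) (nat_lit 192) (nat_lit 185) (nat_lit 193)) (PT.lf (nat_lit 50008) (nat_lit 6) (nat_lit 658) (nat_lit 1) (nat_lit 193) (nat_lit 185) (nat_lit 192)))) (PT.nd (nat_lit 156) (PT.nd (nat_lit 78) (PT.lf (nat_lit 49932) (nat_lit 6) (nat_lit 657) (nat_lit 1) (nat_lit 194) (nat_lit 185) (nat_lit 191)) (PT.lf (nat_lit 49856) (nat_lit 6) (nat_lit 656) (nat_lit 1) (nat_lit 195) (nat_lit 185) (nat_lit 190))) (PT.nd (nat_lit 78) (PT.lf (nat_lit 49324) (nat_lit 6) (nat_lit 649) (nat_lit 1) (nat_lit 196) (nat_lit 185) (nat_lit 189)) (PT.lf (nat_lit 48716) (nat_lit 6) (nat_lit 641) (nat_lit 1) (nat_lit 197) (nat_lit 185) (nat_lit 188))))) (PT.nd (nat_lit 312) (PT.nd (nat_lit 156) (PT.nd (nat_lit 78)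 (PT.lf (nat_lit 48032) (nat_lit 6) (nat_lit 632) (nat_lit 1) (nat_lit 198) (nat_lit 185) (nat_lit 187)) (PT.lf (nat_lit 47272) (nat_lit 6) (nat_lit 622) (nat_lit 1) (nat_lit 199) (nat_lit 185) (nat_lit 186))) (PT.nd (nat_lit 78) (PT.lf (nat_lit 46436) (nat_lit 3) (nat_lit 611) (nat_lit 0) (nat_lit 200) (nat_lit 185) (nat_lit 185)) (PT.lf (nat_lit 45600) (nat_lit 6) (nat_lit 600) (nat_lit 0) (nat_lit 201) (nat_lit 185) (nat_lit 184)))) (PT.nd (nat_lit 156) (PT.nd (nat_lit 78) (PT.lf (nat_lit 44688) (nat_lit 6) (nat_lit 588) (nat_lit 0) (nat_lit 202) (nat_lit 185) (nat_lit 183)) (PT.lf (nat_lit 43700) (nat_lit 6) (nat_lit 575) (nat_lit 0) (nat_lit 203) (nat_lit 185) (nat_lit 182))) (PT.nd (nat_lit 78) (PT.lf (nat_lit 42636) (nat_lit 6) (nat_lit 561) (nat_lit 0) (nat_lit 204) (nat_lit 185) (nat_lit 181)) (PT.lf (nat_lit 41496) (nat_lit 6) (nat_lit 546) (nat_lit 0) (nat_lit 205) (nat_lit 185) (nat_lit 180)))))))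 (PT.nd (nat_lit 57174) (PT.nd (nat_lit 546) (PT.nd (nat_lit 234) (PT.nd (nat_lit 78) (PT.lf (nat_lit 40280) (nat_lit 6) (nat_lit 530) (nat_lit 0) (nat_lit 206) (nat_lit 185) (nat_lit 179)) (PT.nd (nat_lit 78) (PT.lf (nat_lit 38988) (nat_lit 6) (nat_lit 513) (nat_lit 0) (nat_lit 207) (nat_lit 185) (nat_lit 178)) (PT.lf (nat_lit 37620) (nat_lit 6) (nat_lit 495) (nat_lit 0) (nat_lit 208) (nat_lit 185) (nat_lit 177)))) (PT.nd (nat_lit 156) (PT.nd (nat_lit 78) (PT.lf (nat_lit 36176) (nat_lit 6) (nat_lit 476) (nat_lit 0) (nat_lit 209) (nat_lit 185) (nat_lit 176)) (PT.lf (nat_lit 34656) (nat_lit 6) (nat_lit 456) (nat_lit 0) (nat_lit 210) (nat_lit 185) (nat_lit 175))) (PT.nd (nat_lit 78) (PT.lf (nat_lit 33060) (nat_lit 6) (nat_lit 435) (nat_lit 0) (nat_lit 211) (nat_lit 185) (nat_lit 174)) (PT.lf (nat_lit 31388) (nat_lit 6) (nat_lit 413) (nat_lit 0) (nat_lit 212) (nat_lit 185) (nat_lit 173))))) (PT.nd (nat_lit 56316)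 (PT.nd (nat_lit 56160) (PT.nd (nat_lit 56082) (PT.lf (nat_lit 29640) (nat_lit 6) (nat_lit 390) (nat_lit 0) (nat_lit 213) (nat_lit 185) (nat_lit 172)) (PT.lf (nat_lit 29716) (nat_lit 6) (nat_lit 391) (nat_lit 5) (nat_lit 171) (nat_lit 186) (nat_lit 213))) (PT.nd (nat_lit 78) (PT.lf (nat_lit 31464) (nat_lit 6) (nat_lit 414) (nat_lit 5) (nat_lit 172) (nat_lit 186) (nat_lit 212)) (PT.lf (nat_lit 33136) (nat_lit 6) (nat_lit 436) (nat_lit 5) (nat_lit 173) (nat_lit 186) (nat_lit 211)))) (PT.nd (nat_lit 156) (PT.nd (nat_lit 78) (PT.lf (nat_lit 34732) (nat_lit 6) (nat_lit 457) (nat_lit 5) (nat_lit 174) (nat_lit 186) (nat_lit 210)) (PT.lf (nat_lit 36252) (nat_lit 6) (nat_lit 477) (nat_lit 5) (nat_lit 175) (nat_lit 186) (nat_lit 209))) (PT.nd (nat_lit 78) (PT.lf (nat_lit 37696) (nat_lit 6) (nat_lit 496) (nat_lit 5) (nat_lit 176) (nat_lit 186) (nat_lit 208)) (PT.lf (nat_lit 39064) (nat_lit 6) (nat_lit 514) (nat_lit 5) (nat_lit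 177) (nat_lit 186) (nat_lit 207)))))) (PT.nd (nat_lit 546) (PT.nd (nat_lit 234) (PT.nd (nat_lit 78) (PT.lf (nat_lit 40356) (nat_lit 6) (nat_lit 531) (nat_lit 5) (nat_lit 178) (nat_lit 186) (nat_lit 206)) (PT.nd (nat_lit 78) (PT.lf (nat_lit 41572) (nat_lit 6) (nat_lit 547) (nat_lit 5) (nat_lit 179) (nat_lit 186) (nat_lit 205)) (PT.lf (nat_lit 42712) (nat_lit 6) (nat_lit 562) (nat_lit 5) (nat_lit 180) (nat_lit 186) (nat_lit 204)))) (PT.nd (nat_lit 156) (PT.nd (nat_lit 78) (PT.lf (nat_lit 43776) (nat_lit 6) (nat_lit 576) (nat_lit 5) (nat_lit 181) (nat_lit 186) (nat_lit 203)) (PT.lf (nat_lit 44764) (nat_lit 6) (nat_lit 589) (nat_lit 5) (nat_lit 182) (nat_lit 186) (nat_lit 202))) (PT.nd (nat_lit 78) (PT.lf (nat_lit 45676) (nat_lit 6) (nat_lit 601) (nat_lit 5) (nat_lit 183) (nat_lit 186) (nat_lit 201)) (PT.lf (nat_lit 46512) (nat_lit 6) (nat_lit 612) (nat_lit 5) (nat_lit 184) (nat_lit 186) (nat_lit 200))))) (PT.nd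 (nat_lit 312) (PT.nd (nat_lit 156) (PT.nd (nat_lit 78) (PT.lf (nat_lit 47272) (nat_lit 6) (nat_lit 622) (nat_lit 5) (nat_lit 185) (nat_lit 186) (nat_lit 199)) (PT.lf (nat_lit 47956) (nat_lit 3) (nat_lit 631) (nat_lit 3) (nat_lit 186) (nat_lit 186) (nat_lit 198))) (PT.nd (nat_lit 78) (PT.lf (nat_lit 48640) (nat_lit 6) (nat_lit 640) (nat_lit 3) (nat_lit 187) (nat_lit 186) (nat_lit 197)) (PT.lf (nat_lit 49248) (nat_lit 6) (nat_lit 648) (nat_lit 3) (nat_lit 188) (nat_lit 186) (nat_lit 196)))) (PT.nd (nat_lit 156) (PT.nd (nat_lit 78) (PT.lf (nat_lit 49780) (nat_lit 6) (nat_lit 655) (nat_lit 3) (nat_lit 189) (nat_lit 186) (nat_lit 195)) (PT.lf (nat_lit 50236) (nat_lit 6) (nat_lit 661) (nat_lit 3) (nat_lit 190) (nat_lit 186) (nat_lit 194))) (PT.nd (nat_lit 78) (PT.lf (nat_lit 50312) (nat_lit 6) (nat_lit 662) (nat_lit 3) (nat_lit 191) (nat_lit 186) (nat_lit 193)) (PT.lf (nat_lit 50388) (nat_lit 3) (nat_lit 663) (nat_lit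 1) (nat_lit 192) (nat_lit 186) (nat_lit 192))))))))
noncomputable def pc23 : PT := (PT.nd (nat_lit 58188) (PT.nd (nat_lit 1092) (PT.nd (nat_lit 546) (PT.nd (nat_lit 234) (PT.nd (nat_lit 78) (PT.lf (nat_lit 50312) (nat_lit 6) (nat_lit 662) (nat_lit 1) (nat_lit 193) (nat_lit 186) (nat_lit 191)) (PT.nd (nat_lit 78) (PT.lf (nat_lit 50236) (nat_lit 6) (nat_lit 661) (nat_lit 1) (nat_lit 194) (nat_lit 186) (nat_lit 190)) (PT.lf (nat_lit 49780) (nat_lit 6) (nat_lit 655) (nat_lit 1) (nat_lit 195) (nat_lit 186) (nat_lit 189)))) (PT.nd (nat_lit 156) (PT.nd (nat_lit 78) (PT.lf (nat_lit 49248) (nat_lit 6) (nat_lit 648) (nat_lit 1) (nat_lit 196) (nat_lit 186) (nat_lit 188)) (PT.lf (nat_lit 48640) (nat_lit 6) (nat_lit 640) (nat_lit 1) (nat_lit 197) (nat_lit 186) (nat_lit 187))) (PT.nd (nat_lit 78) (PT.lf (nat_lit 47956) (nat_lit 3) (nat_lit 631) (nat_lit 0) (nat_lit 198) (nat_lit 186) (nat_lit 186)) (PT.lf (nat_lit 47272)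 (nat_lit 6) (nat_lit 622) (nat_lit 0) (nat_lit 199) (nat_lit 186) (nat_lit 185))))) (PT.nd (nat_lit 234) (PT.nd (nat_lit 78) (PT.lf (nat_lit 46512) (nat_lit 6) (nat_lit 612) (nat_lit 0) (nat_lit 200) (nat_lit 186) (nat_lit 184)) (PT.nd (nat_lit 78) (PT.lf (nat_lit 45676) (nat_lit 6) (nat_lit 601) (nat_lit 0) (nat_lit 201) (nat_lit 186) (nat_lit 183)) (PT.lf (nat_lit 44764) (nat_lit 6) (nat_lit 589) (nat_lit 0) (nat_lit 202) (nat_lit 186) (nat_lit 182)))) (PT.nd (nat_lit 156) (PT.nd (nat_lit 78) (PT.lf (nat_lit 43776) (nat_lit 6) (nat_lit 576) (nat_lit 0) (nat_lit 203) (nat_lit 186) (nat_lit 181)) (PT.lf (nat_lit 42712) (nat_lit 6) (nat_lit 562) (nat_lit 0) (nat_lit 204) (nat_lit 186) (nat_lit 180))) (PT.nd (nat_lit 78) (PT.lf (nat_lit 41572) (nat_lit 6) (nat_lit 547) (nat_lit 0) (nat_lit 205) (nat_lit 186) (nat_lit 179)) (PT.lf (nat_lit 40356) (nat_lit 6) (nat_lit 531) (nat_lit 0) (nat_lit 206) (nat_lit 186)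 (nat_lit 178)))))) (PT.nd (nat_lit 56472) (PT.nd (nat_lit 234) (PT.nd (nat_lit 78) (PT.lf (nat_lit 39064) (nat_lit 6) (nat_lit 514) (nat_lit 0) (nat_lit 207) (nat_lit 186) (nat_lit 177)) (PT.nd (nat_lit 78) (PT.lf (nat_lit 37696) (nat_lit 6) (nat_lit 496) (nat_lit 0) (nat_lit 208) (nat_lit 186) (nat_lit 176)) (PT.lf (nat_lit 36252) (nat_lit 6) (nat_lit 477) (nat_lit 0) (nat_lit 209) (nat_lit 186) (nat_lit 175)))) (PT.nd (nat_lit 156) (PT.nd (nat_lit 78) (PT.lf (nat_lit 34732) (nat_lit 6) (nat_lit 457) (nat_lit 0) (nat_lit 210) (nat_lit 186) (nat_lit 174)) (PT.lf (nat_lit 33136) (nat_lit 6) (nat_lit 436) (nat_lit 0) (nat_lit 211) (nat_lit 186) (nat_lit 173))) (PT.nd (nat_lit 78) (PT.lf (nat_lit 31464) (nat_lit 6) (nat_lit 414) (nat_lit 0) (nat_lit 212) (nat_lit 186) (nat_lit 172)) (PT.lf (nat_lit 29716) (nat_lit 6) (nat_lit 391) (nat_lit 0) (nat_lit 213) (nat_lit 186) (nat_lit 171))))) (PT.nd (nat_lit 312) (PT.nd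 (nat_lit 156) (PT.nd (nat_lit 78) (PT.lf (nat_lit 29792) (nat_lit 6) (nat_lit 392) (nat_lit 5) (nat_lit 170) (nat_lit 187) (nat_lit 213)) (PT.lf (nat_lit 31540) (nat_lit 6) (nat_lit 415) (nat_lit 5) (nat_lit 171) (nat_lit 187) (nat_lit 212))) (PT.nd (nat_lit 78) (PT.lf (nat_lit 33212) (nat_lit 6) (nat_lit 437) (nat_lit 5) (nat_lit 172) (nat_lit 187) (nat_lit 211)) (PT.lf (nat_lit 34808) (nat_lit 6) (nat_lit 458) (nat_lit 5) (nat_lit 173) (nat_lit 187) (nat_lit 210)))) (PT.nd (nat_lit 156) (PT.nd (nat_lit 78) (PT.lf (nat_lit 36328) (nat_lit 6) (nat_lit 478) (nat_lit 5) (nat_lit 174) (nat_lit 187) (nat_lit 209)) (PT.lf (nat_lit 37772) (nat_lit 6) (nat_lit 497) (nat_lit 5) (nat_lit 175) (nat_lit 187) (nat_lit 208))) (PT.nd (nat_lit 78) (PT.lf (nat_lit 39140) (nat_lit 6) (nat_lit 515) (nat_lit 5) (nat_lit 176) (nat_lit 187) (nat_lit 207)) (PT.lf (nat_lit 40432) (nat_lit 6) (nat_lit 532) (nat_lit 5) (nat_lit 177)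 (nat_lit 187) (nat_lit 206))))))) (PT.nd (nat_lit 1170) (PT.nd (nat_lit 546) (PT.nd (nat_lit 234) (PT.nd (nat_lit 78) (PT.lf (nat_lit 41648) (nat_lit 6) (nat_lit 548) (nat_lit 5) (nat_lit 178) (nat_lit 187) (nat_lit 205)) (PT.nd (nat_lit 78) (PT.lf (nat_lit 42788) (nat_lit 6) (nat_lit 563) (nat_lit 5) (nat_lit 179) (nat_lit 187) (nat_lit 204)) (PT.lf (nat_lit 43852) (nat_lit 6) (nat_lit 577) (nat_lit 5) (nat_lit 180) (nat_lit 187) (nat_lit 203)))) (PT.nd (nat_lit 156) (PT.nd (nat_lit 78) (PT.lf (nat_lit 44840) (nat_lit 6) (nat_lit 590) (nat_lit 5) (nat_lit 181) (nat_lit 187) (nat_lit 202)) (PT.lf (nat_lit 45752) (nat_lit 6) (nat_lit 602) (nat_lit 5) (nat_lit 182) (nat_lit 187) (nat_lit 201))) (PT.nd (nat_lit 78) (PT.lf (nat_lit 46588) (nat_lit 6) (nat_lit 613) (nat_lit 5) (nat_lit 183) (nat_lit 187) (nat_lit 200)) (PT.lf (nat_lit 47348) (nat_lit 6) (nat_lit 623) (nat_lit 5) (nat_lit 184) (nat_lit 187) (nat_lit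 199))))) (PT.nd (nat_lit 312) (PT.nd (nat_lit 156) (PT.nd (nat_lit 78) (PT.lf (nat_lit 48032) (nat_lit 6) (nat_lit 632) (nat_lit 5) (nat_lit 185) (nat_lit 187) (nat_lit 198)) (PT.lf (nat_lit 48640) (nat_lit 6) (nat_lit 640) (nat_lit 5) (nat_lit 186) (nat_lit 187) (nat_lit 197))) (PT.nd (nat_lit 78) (PT.lf (nat_lit 49172) (nat_lit 3) (nat_lit 647) (nat_lit 3) (nat_lit 187) (nat_lit 187) (nat_lit 196)) (PT.lf (nat_lit 49704) (nat_lit 6) (nat_lit 654) (nat_lit 3) (nat_lit 188) (nat_lit 187) (nat_lit 195)))) (PT.nd (nat_lit 156) (PT.nd (nat_lit 78) (PT.lf (nat_lit 50160) (nat_lit 6) (nat_lit 660) (nat_lit 3) (nat_lit 189) (nat_lit 187) (nat_lit 194)) (PT.lf (nat_lit 50540) (nat_lit 6) (nat_lit 665) (nat_lit 3) (nat_lit 190) (nat_lit 187) (nat_lit 193))) (PT.nd (nat_lit 78) (PT.lf (nat_lit 50616) (nat_lit 6) (nat_lit 666) (nat_lit 3) (nat_lit 191) (nat_lit 187) (nat_lit 192)) (PT.lf (nat_lit 50616) (nat_lit 6) (nat_lit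 666) (nat_lit 1) (nat_lit 192) (nat_lit 187) (nat_lit 191)))))) (PT.nd (nat_lit 546) (PT.nd (nat_lit 234) (PT.nd (nat_lit 78) (PT.lf (nat_lit 50540) (nat_lit 6) (nat_lit 665) (nat_lit 1) (nat_lit 193) (nat_lit 187) (nat_lit 190)) (PT.nd (nat_lit 78) (PT.lf (nat_lit 50160) (nat_lit 6) (nat_lit 660) (nat_lit 1) (nat_lit 194) (nat_lit 187) (nat_lit 189)) (PT.lf (nat_lit 49704) (nat_lit 6) (nat_lit 654) (nat_lit 1) (nat_lit 195) (nat_lit 187) (nat_lit 188)))) (PT.nd (nat_lit 156) (PT.nd (nat_lit 78) (PT.lf (nat_lit 49172) (nat_lit 3) (nat_lit 647) (nat_lit 0) (nat_lit 196) (nat_lit 187) (nat_lit 187)) (PT.lf (nat_lit 48640) (nat_lit 6) (nat_lit 640) (nat_lit 0) (nat_lit 197) (nat_lit 187) (nat_lit 186))) (PT.nd (nat_lit 78) (PT.lf (nat_lit 48032) (nat_lit 6) (nat_lit 632) (nat_lit 0) (nat_lit 198) (nat_lit 187) (nat_lit 185)) (PT.lf (nat_lit 47348) (nat_lit 6) (nat_lit 623) (nat_lit 0) (nat_lit 199) (nat_lit 187)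 (nat_lit 184))))) (PT.nd (nat_lit 312) (PT.nd (nat_lit 156) (PT.nd (nat_lit 78) (PT.lf (nat_lit 46588) (nat_lit 6) (nat_lit 613) (nat_lit 0) (nat_lit 200) (nat_lit 187) (nat_lit 183)) (PT.lf (nat_lit 45752) (nat_lit 6) (nat_lit 602) (nat_lit 0) (nat_lit 201) (nat_lit 187) (nat_lit 182))) (PT.nd (nat_lit 78) (PT.lf (nat_lit 44840) (nat_lit 6) (nat_lit 590) (nat_lit 0) (nat_lit 202) (nat_lit 187) (nat_lit 181)) (PT.lf (nat_lit 43852) (nat_lit 6) (nat_lit 577) (nat_lit 0) (nat_lit 203) (nat_lit 187) (nat_lit 180)))) (PT.nd (nat_lit 156) (PT.nd (nat_lit 78) (PT.lf (nat_lit 42788) (nat_lit 6) (nat_lit 563) (nat_lit 0) (nat_lit 204) (nat_lit 187) (nat_lit 179)) (PT.lf (nat_lit 41648) (nat_lit 6) (nat_lit 548) (nat_lit 0) (nat_lit 205) (nat_lit 187) (nat_lit 178))) (PT.nd (nat_lit 78) (PT.lf (nat_lit 40432) (nat_lit 6) (nat_lit 532) (nat_lit 0) (nat_lit 206) (nat_lit 187) (nat_lit 177)) (PT.lf (nat_lit 39140) (nat_lit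 6) (nat_lit 515) (nat_lit 0) (nat_lit 207) (nat_lit 187) (nat_lit 176))))))))
noncomputable def pc24 : PT := (PT.nd (nat_lit 58110) (PT.nd (nat_lit 56940) (PT.nd (nat_lit 56394) (PT.nd (nat_lit 234) (PT.nd (nat_lit 78) (PT.lf (nat_lit 37772) (nat_lit 6) (nat_lit 497) (nat_lit 0) (nat_lit 208) (nat_lit 187) (nat_lit 175)) (PT.nd (nat_lit 78) (PT.lf (nat_lit 36328) (nat_lit 6) (nat_lit 478) (nat_lit 0) (nat_lit 209) (nat_lit 187) (nat_lit 174)) (PT.lf (nat_lit 34808) (nat_lit 6) (nat_lit 458) (nat_lit 0) (nat_lit 210) (nat_lit 187) (nat_lit 173)))) (PT.nd (nat_lit 156) (PT.nd (nat_lit 78) (PT.lf (nat_lit 33212) (nat_lit 6) (nat_lit 437) (nat_lit 0) (nat_lit 211) (nat_lit 187) (nat_lit 172)) (PT.lf (nat_lit 31540) (nat_lit 6) (nat_lit 415) (nat_lit 0) (nat_lit 212) (nat_lit 187) (nat_lit 171))) (PT.nd (nat_lit 55926) (PT.lf (nat_lit 29792) (nat_lit 6) (nat_lit 392) (nat_lit 0) (nat_lit 213) (nat_lit 187) (nat_lit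 170)) (PT.lf (nat_lit 29868) (nat_lit 6) (nat_lit 393) (nat_lit 5) (nat_lit 169) (nat_lit 188) (nat_lit 213))))) (PT.nd (nat_lit 234) (PT.nd (nat_lit 78) (PT.lf (nat_lit 31616) (nat_lit 6) (nat_lit 416) (nat_lit 5) (nat_lit 170) (nat_lit 188) (nat_lit 212)) (PT.nd (nat_lit 78) (PT.lf (nat_lit 33288) (nat_lit 6) (nat_lit 438) (nat_lit 5) (nat_lit 171) (nat_lit 188) (nat_lit 211)) (PT.lf (nat_lit 34884) (nat_lit 6) (nat_lit 459) (nat_lit 5) (nat_lit 172) (nat_lit 188) (nat_lit 210)))) (PT.nd (nat_lit 156) (PT.nd (nat_lit 78) (PT.lf (nat_lit 36404) (nat_lit 6) (nat_lit 479) (nat_lit 5) (nat_lit 173) (nat_lit 188) (nat_lit 209)) (PT.lf (nat_lit 37848) (nat_lit 6) (nat_lit 498) (nat_lit 5) (nat_lit 174) (nat_lit 188) (nat_lit 208))) (PT.nd (nat_lit 78) (PT.lf (nat_lit 39216) (nat_lit 6) (nat_lit 516) (nat_lit 5) (nat_lit 175) (nat_lit 188) (nat_lit 207)) (PT.lf (nat_lit 40508) (nat_lit 6) (nat_lit 533) (nat_lit 5)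 (nat_lit 176) (nat_lit 188) (nat_lit 206)))))) (PT.nd (nat_lit 546) (PT.nd (nat_lit 234) (PT.nd (nat_lit 78) (PT.lf (nat_lit 41724) (nat_lit 6) (nat_lit 549) (nat_lit 5) (nat_lit 177) (nat_lit 188) (nat_lit 205)) (PT.nd (nat_lit 78) (PT.lf (nat_lit 42864) (nat_lit 6) (nat_lit 564) (nat_lit 5) (nat_lit 178) (nat_lit 188) (nat_lit 204)) (PT.lf (nat_lit 43928) (nat_lit 6) (nat_lit 578) (nat_lit 5) (nat_lit 179) (nat_lit 188) (nat_lit 203)))) (PT.nd (nat_lit 156) (PT.nd (nat_lit 78) (PT.lf (nat_lit 44916) (nat_lit 6) (nat_lit 591) (nat_lit 5) (nat_lit 180) (nat_lit 188) (nat_lit 202)) (PT.lf (nat_lit 45828) (nat_lit 6) (nat_lit 603) (nat_lit 5) (nat_lit 181) (nat_lit 188) (nat_lit 201))) (PT.nd (nat_lit 78) (PT.lf (nat_lit 46664) (nat_lit 6) (nat_lit 614) (nat_lit 5) (nat_lit 182) (nat_lit 188) (nat_lit 200)) (PT.lf (nat_lit 47424) (nat_lit 6) (nat_lit 624) (nat_lit 5) (nat_lit 183) (nat_lit 188) (nat_lit 199)))))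 (PT.nd (nat_lit 312) (PT.nd (nat_lit 156) (PT.nd (nat_lit 78) (PT.lf (nat_lit 48108) (nat_lit 6) (nat_lit 633) (nat_lit 5) (nat_lit 184) (nat_lit 188) (nat_lit 198)) (PT.lf (nat_lit 48716) (nat_lit 6) (nat_lit 641) (nat_lit 5) (nat_lit 185) (nat_lit 188) (nat_lit 197))) (PT.nd (nat_lit 78) (PT.lf (nat_lit 49248) (nat_lit 6) (nat_lit 648) (nat_lit 5) (nat_lit 186) (nat_lit 188) (nat_lit 196)) (PT.lf (nat_lit 49704) (nat_lit 6) (nat_lit 654) (nat_lit 5) (nat_lit 187) (nat_lit 188) (nat_lit 195)))) (PT.nd (nat_lit 156) (PT.nd (nat_lit 78) (PT.lf (nat_lit 50084) (nat_lit 3) (nat_lit 659) (nat_lit 3) (nat_lit 188) (nat_lit 188) (nat_lit 194)) (PT.lf (nat_lit 50464) (nat_lit 6) (nat_lit 664) (nat_lit 3) (nat_lit 189) (nat_lit 188) (nat_lit 193))) (PT.nd (nat_lit 78) (PT.lf (nat_lit 50768) (nat_lit 6) (nat_lit 668) (nat_lit 3) (nat_lit 190) (nat_lit 188) (nat_lit 192)) (PT.lf (nat_lit 50844) (nat_lit 3) (nat_lit 669)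 (nat_lit 1) (nat_lit 191) (nat_lit 188) (nat_lit 191))))))) (PT.nd (nat_lit 1092) (PT.nd (nat_lit 546) (PT.nd (nat_lit 234) (PT.nd (nat_lit 78) (PT.lf (nat_lit 50768) (nat_lit 6) (nat_lit 668) (nat_lit 1) (nat_lit 192) (nat_lit 188) (nat_lit 190)) (PT.nd (nat_lit 78) (PT.lf (nat_lit 50464) (nat_lit 6) (nat_lit 664) (nat_lit 1) (nat_lit 193) (nat_lit 188) (nat_lit 189)) (PT.lf (nat_lit 50084) (nat_lit 3) (nat_lit 659) (nat_lit 0) (nat_lit 194) (nat_lit 188) (nat_lit 188)))) (PT.nd (nat_lit 156) (PT.nd (nat_lit 78) (PT.lf (nat_lit 49704) (nat_lit 6) (nat_lit 654) (nat_lit 0) (nat_lit 195) (nat_lit 188) (nat_lit 187)) (PT.lf (nat_lit 49248) (nat_lit 6) (nat_lit 648) (nat_lit 0) (nat_lit 196) (nat_lit 188) (nat_lit 186))) (PT.nd (nat_lit 78) (PT.lf (nat_lit 48716) (nat_lit 6) (nat_lit 641) (nat_lit 0) (nat_lit 197) (nat_lit 188) (nat_lit 185)) (PT.lf (nat_lit 48108) (nat_lit 6) (nat_lit 633) (nat_lit 0) (nat_lit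 198) (nat_lit 188) (nat_lit 184))))) (PT.nd (nat_lit 234) (PT.nd (nat_lit 78) (PT.lf (nat_lit 47424) (nat_lit 6) (nat_lit 624) (nat_lit 0) (nat_lit 199) (nat_lit 188) (nat_lit 183)) (PT.nd (nat_lit 78) (PT.lf (nat_lit 46664) (nat_lit 6) (nat_lit 614) (nat_lit 0) (nat_lit 200) (nat_lit 188) (nat_lit 182)) (PT.lf (nat_lit 45828) (nat_lit 6) (nat_lit 603) (nat_lit 0) (nat_lit 201) (nat_lit 188) (nat_lit 181)))) (PT.nd (nat_lit 156) (PT.nd (nat_lit 78) (PT.lf (nat_lit 44916) (nat_lit 6) (nat_lit 591) (nat_lit 0) (nat_lit 202) (nat_lit 188) (nat_lit 180)) (PT.lf (nat_lit 43928) (nat_lit 6) (nat_lit 578) (nat_lit 0) (nat_lit 203) (nat_lit 188) (nat_lit 179))) (PT.nd (nat_lit 78) (PT.lf (nat_lit 42864) (nat_lit 6) (nat_lit 564) (nat_lit 0) (nat_lit 204) (nat_lit 188) (nat_lit 178)) (PT.lf (nat_lit 41724) (nat_lit 6) (nat_lit 549) (nat_lit 0) (nat_lit 205) (nat_lit 188) (nat_lit 177)))))) (PT.nd (nat_lit 546) (PT.nd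 (nat_lit 234) (PT.nd (nat_lit 78) (PT.lf (nat_lit 40508) (nat_lit 6) (nat_lit 533) (nat_lit 0) (nat_lit 206) (nat_lit 188) (nat_lit 176)) (PT.nd (nat_lit 78) (PT.lf (nat_lit 39216) (nat_lit 6) (nat_lit 516) (nat_lit 0) (nat_lit 207) (nat_lit 188) (nat_lit 175)) (PT.lf (nat_lit 37848) (nat_lit 6) (nat_lit 498) (nat_lit 0) (nat_lit 208) (nat_lit 188) (nat_lit 174)))) (PT.nd (nat_lit 156) (PT.nd (nat_lit 78) (PT.lf (nat_lit 36404) (nat_lit 6) (nat_lit 479) (nat_lit 0) (nat_lit 209) (nat_lit 188) (nat_lit 173)) (PT.lf (nat_lit 34884) (nat_lit 6) (nat_lit 459) (nat_lit 0) (nat_lit 210) (nat_lit 188) (nat_lit 172))) (PT.nd (nat_lit 78) (PT.lf (nat_lit 33288) (nat_lit 6) (nat_lit 438) (nat_lit 0) (nat_lit 211) (nat_lit 188) (nat_lit 171)) (PT.lf (nat_lit 31616) (nat_lit 6) (nat_lit 416) (nat_lit 0) (nat_lit 212) (nat_lit 188) (nat_lit 170))))) (PT.nd (nat_lit 56082) (PT.nd (nat_lit 55926) (PT.nd (nat_lit 55848) (PT.lf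 (nat_lit 29868) (nat_lit 6) (nat_lit 393) (nat_lit 0) (nat_lit 213) (nat_lit 188) (nat_lit 169)) (PT.lf (nat_lit 29944) (nat_lit 6) (nat_lit 394) (nat_lit 5) (nat_lit 168) (nat_lit 189) (nat_lit 213))) (PT.nd (nat_lit 78) (PT.lf (nat_lit 31692) (nat_lit 6) (nat_lit 417) (nat_lit 5) (nat_lit 169) (nat_lit 189) (nat_lit 212)) (PT.lf (nat_lit 33364) (nat_lit 6) (nat_lit 439) (nat_lit 5) (nat_lit 170) (nat_lit 189) (nat_lit 211)))) (PT.nd (nat_lit 156) (PT.nd (nat_lit 78) (PT.lf (nat_lit 34960) (nat_lit 6) (nat_lit 460) (nat_lit 5) (nat_lit 171) (nat_lit 189) (nat_lit 210)) (PT.lf (nat_lit 36480) (nat_lit 6) (nat_lit 480) (nat_lit 5) (nat_lit 172) (nat_lit 189) (nat_lit 209))) (PT.nd (nat_lit 78) (PT.lf (nat_lit 37924) (nat_lit 6) (nat_lit 499) (nat_lit 5) (nat_lit 173) (nat_lit 189) (nat_lit 208)) (PT.lf (nat_lit 39292) (nat_lit 6) (nat_lit 517) (nat_lit 5) (nat_lit 174) (nat_lit 189) (nat_lit 207))))))))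
noncomputable def pc25 : PT := (PT.nd (nat_lit 2262) (PT.nd (nat_lit 1092) (PT.nd (nat_lit 546) (PT.nd (nat_lit 234) (PT.nd (nat_lit 78) (PT.lf (nat_lit 40584) (nat_lit 6) (nat_lit 534) (nat_lit 5) (nat_lit 175) (nat_lit 189) (nat_lit 206)) (PT.nd (nat_lit 78) (PT.lf (nat_lit 41800) (nat_lit 6) (nat_lit 550) (nat_lit 5) (nat_lit 176) (nat_lit 189) (nat_lit 205)) (PT.lf (nat_lit 42940) (nat_lit 6) (nat_lit 565) (nat_lit 5) (nat_lit 177) (nat_lit 189) (nat_lit 204)))) (PT.nd (nat_lit 156) (PT.nd (nat_lit 78) (PT.lf (nat_lit 44004) (nat_lit 6) (nat_lit 579) (nat_lit 5) (nat_lit 178) (nat_lit 189) (nat_lit 203)) (PT.lf (nat_lit 44992) (nat_lit 6) (nat_lit 592) (nat_lit 5) (nat_lit 179) (nat_lit 189) (nat_lit 202))) (PT.nd (nat_lit 78) (PT.lf (nat_lit 45904) (nat_lit 6) (nat_lit 604) (nat_lit 5) (nat_lit 180) (nat_lit 189) (nat_lit 201)) (PT.lf (nat_lit 46740) (nat_lit 6) (nat_lit 615) (nat_lit 5) (nat_lit 181) (nat_lit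 189) (nat_lit 200))))) (PT.nd (nat_lit 234) (PT.nd (nat_lit 78) (PT.lf (nat_lit 47500) (nat_lit 6) (nat_lit 625) (nat_lit 5) (nat_lit 182) (nat_lit 189) (nat_lit 199)) (PT.nd (nat_lit 78) (PT.lf (nat_lit 48184) (nat_lit 6) (nat_lit 634) (nat_lit 5) (nat_lit 183) (nat_lit 189) (nat_lit 198)) (PT.lf (nat_lit 48792) (nat_lit 6) (nat_lit 642) (nat_lit 5) (nat_lit 184) (nat_lit 189) (nat_lit 197)))) (PT.nd (nat_lit 156) (PT.nd (nat_lit 78) (PT.lf (nat_lit 49324) (nat_lit 6) (nat_lit 649) (nat_lit 5) (nat_lit 185) (nat_lit 189) (nat_lit 196)) (PT.lf (nat_lit 49780) (nat_lit 6) (nat_lit 655) (nat_lit 5) (nat_lit 186) (nat_lit 189) (nat_lit 195))) (PT.nd (nat_lit 78) (PT.lf (nat_lit 50160) (nat_lit 6) (nat_lit 660) (nat_lit 5) (nat_lit 187) (nat_lit 189) (nat_lit 194)) (PT.lf (nat_lit 50464) (nat_lit 6) (nat_lit 664) (nat_lit 5) (nat_lit 188) (nat_lit 189) (nat_lit 193)))))) (PT.nd (nat_lit 546) (PT.nd (nat_lit 234)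 (PT.nd (nat_lit 78) (PT.lf (nat_lit 50692) (nat_lit 3) (nat_lit 667) (nat_lit 3) (nat_lit 189) (nat_lit 189) (nat_lit 192)) (PT.nd (nat_lit 78) (PT.lf (nat_lit 50920) (nat_lit 6) (nat_lit 670) (nat_lit 3) (nat_lit 190) (nat_lit 189) (nat_lit 191)) (PT.lf (nat_lit 50920) (nat_lit 6) (nat_lit 670) (nat_lit 1) (nat_lit 191) (nat_lit 189) (nat_lit 190)))) (PT.nd (nat_lit 156) (PT.nd (nat_lit 78) (PT.lf (nat_lit 50692) (nat_lit 3) (nat_lit 667) (nat_lit 0) (nat_lit 192) (nat_lit 189) (nat_lit 189)) (PT.lf (nat_lit 50464) (nat_lit 6) (nat_lit 664) (nat_lit 0) (nat_lit 193) (nat_lit 189) (nat_lit 188))) (PT.nd (nat_lit 78) (PT.lf (nat_lit 50160) (nat_lit 6) (nat_lit 660) (nat_lit 0) (nat_lit 194) (nat_lit 189) (nat_lit 187)) (PT.lf (nat_lit 49780) (nat_lit 6) (nat_lit 655) (nat_lit 0) (nat_lit 195) (nat_lit 189) (nat_lit 186))))) (PT.nd (nat_lit 312) (PT.nd (nat_lit 156) (PT.nd (nat_lit 78) (PT.lf (nat_lit 49324) (nat_lit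 6) (nat_lit 649) (nat_lit 0) (nat_lit 196) (nat_lit 189) (nat_lit 185)) (PT.lf (nat_lit 48792) (nat_lit 6) (nat_lit 642) (nat_lit 0) (nat_lit 197) (nat_lit 189) (nat_lit 184))) (PT.nd (nat_lit 78) (PT.lf (nat_lit 48184) (nat_lit 6) (nat_lit 634) (nat_lit 0) (nat_lit 198) (nat_lit 189) (nat_lit 183)) (PT.lf (nat_lit 47500) (nat_lit 6) (nat_lit 625) (nat_lit 0) (nat_lit 199) (nat_lit 189) (nat_lit 182)))) (PT.nd (nat_lit 156) (PT.nd (nat_lit 78) (PT.lf (nat_lit 46740) (nat_lit 6) (nat_lit 615) (nat_lit 0) (nat_lit 200) (nat_lit 189) (nat_lit 181)) (PT.lf (nat_lit 45904) (nat_lit 6) (nat_lit 604) (nat_lit 0) (nat_lit 201) (nat_lit 189) (nat_lit 180))) (PT.nd (nat_lit 78) (PT.lf (nat_lit 44992) (nat_lit 6) (nat_lit 592) (nat_lit 0) (nat_lit 202) (nat_lit 189) (nat_lit 179)) (PT.lf (nat_lit 44004) (nat_lit 6) (nat_lit 579) (nat_lit 0) (nat_lit 203) (nat_lit 189) (nat_lit 178))))))) (PT.nd (nat_lit 56784) (PT.nd (nat_lit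 546) (PT.nd (nat_lit 234) (PT.nd (nat_lit 78) (PT.lf (nat_lit 42940) (nat_lit 6) (nat_lit 565) (nat_lit 0) (nat_lit 204) (nat_lit 189) (nat_lit 177)) (PT.nd (nat_lit 78) (PT.lf (nat_lit 41800) (nat_lit 6) (nat_lit 550) (nat_lit 0) (nat_lit 205) (nat_lit 189) (nat_lit 176)) (PT.lf (nat_lit 40584) (nat_lit 6) (nat_lit 534) (nat_lit 0) (nat_lit 206) (nat_lit 189) (nat_lit 175)))) (PT.nd (nat_lit 156) (PT.nd (nat_lit 78) (PT.lf (nat_lit 39292) (nat_lit 6) (nat_lit 517) (nat_lit 0) (nat_lit 207) (nat_lit 189) (nat_lit 174)) (PT.lf (nat_lit 37924) (nat_lit 6) (nat_lit 499) (nat_lit 0) (nat_lit 208) (nat_lit 189) (nat_lit 173))) (PT.nd (nat_lit 78) (PT.lf (nat_lit 36480) (nat_lit 6) (nat_lit 480) (nat_lit 0) (nat_lit 209) (nat_lit 189) (nat_lit 172)) (PT.lf (nat_lit 34960) (nat_lit 6) (nat_lit 460) (nat_lit 0) (nat_lit 210) (nat_lit 189) (nat_lit 171))))) (PT.nd (nat_lit 55926) (PT.nd (nat_lit 156) (PT.nd (nat_lit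 78) (PT.lf (nat_lit 33364) (nat_lit 6) (nat_lit 439) (nat_lit 0) (nat_lit 211) (nat_lit 189) (nat_lit 170)) (PT.lf (nat_lit 31692) (nat_lit 6) (nat_lit 417) (nat_lit 0) (nat_lit 212) (nat_lit 189) (nat_lit 169))) (PT.nd (nat_lit 55692) (PT.lf (nat_lit 29944) (nat_lit 6) (nat_lit 394) (nat_lit 0) (nat_lit 213) (nat_lit 189) (nat_lit 168)) (PT.lf (nat_lit 28196) (nat_lit 6) (nat_lit 371) (nat_lit 5) (nat_lit 166) (nat_lit 190) (nat_lit 214)))) (PT.nd (nat_lit 156) (PT.nd (nat_lit 78) (PT.lf (nat_lit 30020) (nat_lit 6) (nat_lit 395) (nat_lit 5) (nat_lit 167) (nat_lit 190) (nat_lit 213)) (PT.lf (nat_lit 31768) (nat_lit 6) (nat_lit 418) (nat_lit 5) (nat_lit 168) (nat_lit 190) (nat_lit 212))) (PT.nd (nat_lit 78) (PT.lf (nat_lit 33440) (nat_lit 6) (nat_lit 440) (nat_lit 5) (nat_lit 169) (nat_lit 190) (nat_lit 211)) (PT.lf (nat_lit 35036) (nat_lit 6) (nat_lit 461) (nat_lit 5) (nat_lit 170) (nat_lit 190) (nat_lit 210))))))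 (PT.nd (nat_lit 546) (PT.nd (nat_lit 234) (PT.nd (nat_lit 78) (PT.lf (nat_lit 36556) (nat_lit 6) (nat_lit 481) (nat_lit 5) (nat_lit 171) (nat_lit 190) (nat_lit 209)) (PT.nd (nat_lit 78) (PT.lf (nat_lit 38000) (nat_lit 6) (nat_lit 500) (nat_lit 5) (nat_lit 172) (nat_lit 190) (nat_lit 208)) (PT.lf (nat_lit 39368) (nat_lit 6) (nat_lit 518) (nat_lit 5) (nat_lit 173) (nat_lit 190) (nat_lit 207)))) (PT.nd (nat_lit 156) (PT.nd (nat_lit 78) (PT.lf (nat_lit 40660) (nat_lit 6) (nat_lit 535) (nat_lit 5) (nat_lit 174) (nat_lit 190) (nat_lit 206)) (PT.lf (nat_lit 41876) (nat_lit 6) (nat_lit 551) (nat_lit 5) (nat_lit 175) (nat_lit 190) (nat_lit 205))) (PT.nd (nat_lit 78) (PT.lf (nat_lit 43016) (nat_lit 6) (nat_lit 566) (nat_lit 5) (nat_lit 176) (nat_lit 190) (nat_lit 204)) (PT.lf (nat_lit 44080) (nat_lit 6) (nat_lit 580) (nat_lit 5) (nat_lit 177) (nat_lit 190) (nat_lit 203))))) (PT.nd (nat_lit 312) (PT.nd (nat_lit 156) (PT.nd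 (nat_lit 78) (PT.lf (nat_lit 45068) (nat_lit 6) (nat_lit 593) (nat_lit 5) (nat_lit 178) (nat_lit 190) (nat_lit 202)) (PT.lf (nat_lit 45980) (nat_lit 6) (nat_lit 605) (nat_lit 5) (nat_lit 179) (nat_lit 190) (nat_lit 201))) (PT.nd (nat_lit 78) (PT.lf (nat_lit 46816) (nat_lit 6) (nat_lit 616) (nat_lit 5) (nat_lit 180) (nat_lit 190) (nat_lit 200)) (PT.lf (nat_lit 47576) (nat_lit 6) (nat_lit 626) (nat_lit 5) (nat_lit 181) (nat_lit 190) (nat_lit 199)))) (PT.nd (nat_lit 156) (PT.nd (nat_lit 78) (PT.lf (nat_lit 48260) (nat_lit 6) (nat_lit 635) (nat_lit 5) (nat_lit 182) (nat_lit 190) (nat_lit 198)) (PT.lf (nat_lit 48868) (nat_lit 6) (nat_lit 643) (nat_lit 5) (nat_lit 183) (nat_lit 190) (nat_lit 197))) (PT.nd (nat_lit 78) (PT.lf (nat_lit 49400) (nat_lit 6) (nat_lit 650) (nat_lit 5) (nat_lit 184) (nat_lit 190) (nat_lit 196)) (PT.lf (nat_lit 49856) (nat_lit 6) (nat_lit 656) (nat_lit 5) (nat_lit 185) (nat_lit 190) (nat_lit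 195))))))))
noncomputable def pc26 : PT := (PT.nd (nat_lit 57720) (PT.nd (nat_lit 1092) (PT.nd (nat_lit 546) (PT.nd (nat_lit 234) (PT.nd (nat_lit 78) (PT.lf (nat_lit 50236) (nat_lit 6) (nat_lit 661) (nat_lit 5) (nat_lit 186) (nat_lit 190) (nat_lit 194)) (PT.nd (nat_lit 78) (PT.lf (nat_lit 50540) (nat_lit 6) (nat_lit 665) (nat_lit 5) (nat_lit 187) (nat_lit 190) (nat_lit 193)) (PT.lf (nat_lit 50768) (nat_lit 6) (nat_lit 668) (nat_lit 5) (nat_lit 188) (nat_lit 190) (nat_lit 192)))) (PT.nd (nat_lit 156) (PT.nd (nat_lit 78) (PT.lf (nat_lit 50920) (nat_lit 6) (nat_lit 670) (nat_lit 5) (nat_lit 189) (nat_lit 190) (nat_lit 191)) (PT.lf (nat_lit 50996) (nat_lit 1) (nat_lit 671) (nat_lit 0) (nat_lit 190) (nat_lit 190) (nat_lit 190))) (PT.nd (nat_lit 78) (PT.lf (nat_lit 50920) (nat_lit 6) (nat_lit 670) (nat_lit 0) (nat_lit 191) (nat_lit 190) (nat_lit 189)) (PT.lf (nat_lit 50768) (nat_lit 6) (nat_lit 668) (nat_lit 0) (nat_lit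 192) (nat_lit 190) (nat_lit 188))))) (PT.nd (nat_lit 234) (PT.nd (nat_lit 78) (PT.lf (nat_lit 50540) (nat_lit 6) (nat_lit 665) (nat_lit 0) (nat_lit 193) (nat_lit 190) (nat_lit 187)) (PT.nd (nat_lit 78) (PT.lf (nat_lit 50236) (nat_lit 6) (nat_lit 661) (nat_lit 0) (nat_lit 194) (nat_lit 190) (nat_lit 186)) (PT.lf (nat_lit 49856) (nat_lit 6) (nat_lit 656) (nat_lit 0) (nat_lit 195) (nat_lit 190) (nat_lit 185)))) (PT.nd (nat_lit 156) (PT.nd (nat_lit 78) (PT.lf (nat_lit 49400) (nat_lit 6) (nat_lit 650) (nat_lit 0) (nat_lit 196) (nat_lit 190) (nat_lit 184)) (PT.lf (nat_lit 48868) (nat_lit 6) (nat_lit 643) (nat_lit 0) (nat_lit 197) (nat_lit 190) (nat_lit 183))) (PT.nd (nat_lit 78) (PT.lf (nat_lit 48260) (nat_lit 6) (nat_lit 635) (nat_lit 0) (nat_lit 198) (nat_lit 190) (nat_lit 182)) (PT.lf (nat_lit 47576) (nat_lit 6) (nat_lit 626) (nat_lit 0) (nat_lit 199) (nat_lit 190) (nat_lit 181)))))) (PT.nd (nat_lit 546) (PT.nd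 (nat_lit 234) (PT.nd (nat_lit 78) (PT.lf (nat_lit 46816) (nat_lit 6) (nat_lit 616) (nat_lit 0) (nat_lit 200) (nat_lit 190) (nat_lit 180)) (PT.nd (nat_lit 78) (PT.lf (nat_lit 45980) (nat_lit 6) (nat_lit 605) (nat_lit 0) (nat_lit 201) (nat_lit 190) (nat_lit 179)) (PT.lf (nat_lit 45068) (nat_lit 6) (nat_lit 593) (nat_lit 0) (nat_lit 202) (nat_lit 190) (nat_lit 178)))) (PT.nd (nat_lit 156) (PT.nd (nat_lit 78) (PT.lf (nat_lit 44080) (nat_lit 6) (nat_lit 580) (nat_lit 0) (nat_lit 203) (nat_lit 190) (nat_lit 177)) (PT.lf (nat_lit 43016) (nat_lit 6) (nat_lit 566) (nat_lit 0) (nat_lit 204) (nat_lit 190) (nat_lit 176))) (PT.nd (nat_lit 78) (PT.lf (nat_lit 41876) (nat_lit 6) (nat_lit 551) (nat_lit 0) (nat_lit 205) (nat_lit 190) (nat_lit 175)) (PT.lf (nat_lit 40660) (nat_lit 6) (nat_lit 535) (nat_lit 0) (nat_lit 206) (nat_lit 190) (nat_lit 174))))) (PT.nd (nat_lit 312) (PT.nd (nat_lit 156) (PT.nd (nat_lit 78) (PT.lf (nat_lit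 39368) (nat_lit 6) (nat_lit 518) (nat_lit 0) (nat_lit 207) (nat_lit 190) (nat_lit 173)) (PT.lf (nat_lit 38000) (nat_lit 6) (nat_lit 500) (nat_lit 0) (nat_lit 208) (nat_lit 190) (nat_lit 172))) (PT.nd (nat_lit 78) (PT.lf (nat_lit 36556) (nat_lit 6) (nat_lit 481) (nat_lit 0) (nat_lit 209) (nat_lit 190) (nat_lit 171)) (PT.lf (nat_lit 35036) (nat_lit 6) (nat_lit 461) (nat_lit 0) (nat_lit 210) (nat_lit 190) (nat_lit 170)))) (PT.nd (nat_lit 156) (PT.nd (nat_lit 78) (PT.lf (nat_lit 33440) (nat_lit 6) (nat_lit 440) (nat_lit 0) (nat_lit 211) (nat_lit 190) (nat_lit 169)) (PT.lf (nat_lit 31768) (nat_lit 6) (nat_lit 418) (nat_lit 0) (nat_lit 212) (nat_lit 190) (nat_lit 168))) (PT.nd (nat_lit 78) (PT.lf (nat_lit 30020) (nat_lit 6) (nat_lit 395) (nat_lit 0) (nat_lit 213) (nat_lit 190) (nat_lit 167)) (PT.lf (nat_lit 28196) (nat_lit 6) (nat_lit 371) (nat_lit 0) (nat_lit 214) (nat_lit 190) (nat_lit 166))))))) (PT.nd (nat_lit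 1170) (PT.nd (nat_lit 546) (PT.nd (nat_lit 234) (PT.nd (nat_lit 78) (PT.lf (nat_lit 27208) (nat_lit 6) (nat_lit 358) (nat_lit 5) (nat_lit 165) (nat_lit 191) (nat_lit 214)) (PT.nd (nat_lit 78) (PT.lf (nat_lit 28272) (nat_lit 6) (nat_lit 372) (nat_lit 5) (nat_lit 166) (nat_lit 191) (nat_lit 213)) (PT.lf (nat_lit 30096) (nat_lit 6) (nat_lit 396) (nat_lit 5) (nat_lit 167) (nat_lit 191) (nat_lit 212)))) (PT.nd (nat_lit 156) (PT.nd (nat_lit 78) (PT.lf (nat_lit 31844) (nat_lit 6) (nat_lit 419) (nat_lit 5) (nat_lit 168) (nat_lit 191) (nat_lit 211)) (PT.lf (nat_lit 33516) (nat_lit 6) (nat_lit 441) (nat_lit 5) (nat_lit 169) (nat_lit 191) (nat_lit 210))) (PT.nd (nat_lit 78) (PT.lf (nat_lit 35112) (nat_lit 6) (nat_lit 462) (nat_lit 5) (nat_lit 170) (nat_lit 191) (nat_lit 209)) (PT.lf (nat_lit 36632) (nat_lit 6) (nat_lit 482) (nat_lit 5) (nat_lit 171) (nat_lit 191) (nat_lit 208))))) (PT.nd (nat_lit 312) (PT.nd (nat_lit 156)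 (PT.nd (nat_lit 78) (PT.lf (nat_lit 38076) (nat_lit 6) (nat_lit 501) (nat_lit 5) (nat_lit 172) (nat_lit 191) (nat_lit 207)) (PT.lf (nat_lit 39444) (nat_lit 6) (nat_lit 519) (nat_lit 5) (nat_lit 173) (nat_lit 191) (nat_lit 206))) (PT.nd (nat_lit 78) (PT.lf (nat_lit 40736) (nat_lit 6) (nat_lit 536) (nat_lit 5) (nat_lit 174) (nat_lit 191) (nat_lit 205)) (PT.lf (nat_lit 41952) (nat_lit 6) (nat_lit 552) (nat_lit 5) (nat_lit 175) (nat_lit 191) (nat_lit 204)))) (PT.nd (nat_lit 156) (PT.nd (nat_lit 78) (PT.lf (nat_lit 43092) (nat_lit 6) (nat_lit 567) (nat_lit 5) (nat_lit 176) (nat_lit 191) (nat_lit 203)) (PT.lf (nat_lit 44156) (nat_lit 6) (nat_lit 581) (nat_lit 5) (nat_lit 177) (nat_lit 191) (nat_lit 202))) (PT.nd (nat_lit 78) (PT.lf (nat_lit 45144) (nat_lit 6) (nat_lit 594) (nat_lit 5) (nat_lit 178) (nat_lit 191) (nat_lit 201)) (PT.lf (nat_lit 46056) (nat_lit 6) (nat_lit 606) (nat_lit 5) (nat_lit 179) (nat_lit 191)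 (nat_lit 200)))))) (PT.nd (nat_lit 546) (PT.nd (nat_lit 234) (PT.nd (nat_lit 78) (PT.lf (nat_lit 46892) (nat_lit 6) (nat_lit 617) (nat_lit 5) (nat_lit 180) (nat_lit 191) (nat_lit 199)) (PT.nd (nat_lit 78) (PT.lf (nat_lit 47652) (nat_lit 6) (nat_lit 627) (nat_lit 5) (nat_lit 181) (nat_lit 191) (nat_lit 198)) (PT.lf (nat_lit 48336) (nat_lit 6) (nat_lit 636) (nat_lit 5) (nat_lit 182) (nat_lit 191) (nat_lit 197)))) (PT.nd (nat_lit 156) (PT.nd (nat_lit 78) (PT.lf (nat_lit 48944) (nat_lit 6) (nat_lit 644) (nat_lit 5) (nat_lit 183) (nat_lit 191) (nat_lit 196)) (PT.lf (nat_lit 49476) (nat_lit 6) (nat_lit 651) (nat_lit 5) (nat_lit 184) (nat_lit 191) (nat_lit 195))) (PT.nd (nat_lit 78) (PT.lf (nat_lit 49932) (nat_lit 6) (nat_lit 657) (nat_lit 5) (nat_lit 185) (nat_lit 191) (nat_lit 194)) (PT.lf (nat_lit 50312) (nat_lit 6) (nat_lit 662) (nat_lit 5) (nat_lit 186) (nat_lit 191) (nat_lit 193))))) (PT.nd (nat_lit 312) (PT.nd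 (nat_lit 156) (PT.nd (nat_lit 78) (PT.lf (nat_lit 50616) (nat_lit 6) (nat_lit 666) (nat_lit 5) (nat_lit 187) (nat_lit 191) (nat_lit 192)) (PT.lf (nat_lit 50844) (nat_lit 3) (nat_lit 669) (nat_lit 4) (nat_lit 188) (nat_lit 191) (nat_lit 191))) (PT.nd (nat_lit 78) (PT.lf (nat_lit 50920) (nat_lit 6) (nat_lit 670) (nat_lit 4) (nat_lit 189) (nat_lit 191) (nat_lit 190)) (PT.lf (nat_lit 50920) (nat_lit 6) (nat_lit 670) (nat_lit 2) (nat_lit 190) (nat_lit 191) (nat_lit 189)))) (PT.nd (nat_lit 156) (PT.nd (nat_lit 78) (PT.lf (nat_lit 50844) (nat_lit 3) (nat_lit 669) (nat_lit 0) (nat_lit 191) (nat_lit 191) (nat_lit 188)) (PT.lf (nat_lit 50616) (nat_lit 6) (nat_lit 666) (nat_lit 0) (nat_lit 192) (nat_lit 191) (nat_lit 187))) (PT.nd (nat_lit 78) (PT.lf (nat_lit 50312) (nat_lit 6) (nat_lit 662) (nat_lit 0) (nat_lit 193) (nat_lit 191) (nat_lit 186)) (PT.lf (nat_lit 49932) (nat_lit 6) (nat_lit 657) (nat_lit 0) (nat_lit 194)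 (nat_lit 191) (nat_lit 185))))))))
noncomputable def pc27 : PT := (PT.nd (nat_lit 57642) (PT.nd (nat_lit 1092) (PT.nd (nat_lit 546) (PT.nd (nat_lit 234) (PT.nd (nat_lit 78) (PT.lf (nat_lit 49476) (nat_lit 6) (nat_lit 651) (nat_lit 0) (nat_lit 195) (nat_lit 191) (nat_lit 184)) (PT.nd (nat_lit 78) (PT.lf (nat_lit 48944) (nat_lit 6) (nat_lit 644) (nat_lit 0) (nat_lit 196) (nat_lit 191) (nat_lit 183)) (PT.lf (nat_lit 48336) (nat_lit 6) (nat_lit 636) (nat_lit 0) (nat_lit 197) (nat_lit 191) (nat_lit 182)))) (PT.nd (nat_lit 156) (PT.nd (nat_lit 78) (PT.lf (nat_lit 47652) (nat_lit 6) (nat_lit 627) (nat_lit 0) (nat_lit 198) (nat_lit 191) (nat_lit 181)) (PT.lf (nat_lit 46892) (nat_lit 6) (nat_lit 617) (nat_lit 0) (nat_lit 199) (nat_lit 191) (nat_lit 180))) (PT.nd (nat_lit 78) (PT.lf (nat_lit 46056) (nat_lit 6) (nat_lit 606) (nat_lit 0) (nat_lit 200) (nat_lit 191) (nat_lit 179)) (PT.lf (nat_lit 45144) (nat_lit 6) (nat_lit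 594) (nat_lit 0) (nat_lit 201) (nat_lit 191) (nat_lit 178))))) (PT.nd (nat_lit 234) (PT.nd (nat_lit 78) (PT.lf (nat_lit 44156) (nat_lit 6) (nat_lit 581) (nat_lit 0) (nat_lit 202) (nat_lit 191) (nat_lit 177)) (PT.nd (nat_lit 78) (PT.lf (nat_lit 43092) (nat_lit 6) (nat_lit 567) (nat_lit 0) (nat_lit 203) (nat_lit 191) (nat_lit 176)) (PT.lf (nat_lit 41952) (nat_lit 6) (nat_lit 552) (nat_lit 0) (nat_lit 204) (nat_lit 191) (nat_lit 175)))) (PT.nd (nat_lit 156) (PT.nd (nat_lit 78) (PT.lf (nat_lit 40736) (nat_lit 6) (nat_lit 536) (nat_lit 0) (nat_lit 205) (nat_lit 191) (nat_lit 174)) (PT.lf (nat_lit 39444) (nat_lit 6) (nat_lit 519) (nat_lit 0) (nat_lit 206) (nat_lit 191) (nat_lit 173))) (PT.nd (nat_lit 78) (PT.lf (nat_lit 38076) (nat_lit 6) (nat_lit 501) (nat_lit 0) (nat_lit 207) (nat_lit 191) (nat_lit 172)) (PT.lf (nat_lit 36632) (nat_lit 6) (nat_lit 482) (nat_lit 0) (nat_lit 208) (nat_lit 191) (nat_lit 171)))))) (PT.nd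 (nat_lit 55926) (PT.nd (nat_lit 234) (PT.nd (nat_lit 78) (PT.lf (nat_lit 35112) (nat_lit 6) (nat_lit 462) (nat_lit 0) (nat_lit 209) (nat_lit 191) (nat_lit 170)) (PT.nd (nat_lit 78) (PT.lf (nat_lit 33516) (nat_lit 6) (nat_lit 441) (nat_lit 0) (nat_lit 210) (nat_lit 191) (nat_lit 169)) (PT.lf (nat_lit 31844) (nat_lit 6) (nat_lit 419) (nat_lit 0) (nat_lit 211) (nat_lit 191) (nat_lit 168)))) (PT.nd (nat_lit 156) (PT.nd (nat_lit 78) (PT.lf (nat_lit 30096) (nat_lit 6) (nat_lit 396) (nat_lit 0) (nat_lit 212) (nat_lit 191) (nat_lit 167)) (PT.lf (nat_lit 28272) (nat_lit 6) (nat_lit 372) (nat_lit 0) (nat_lit 213) (nat_lit 191) (nat_lit 166))) (PT.nd (nat_lit 55458) (PT.lf (nat_lit 27208) (nat_lit 6) (nat_lit 358) (nat_lit 0) (nat_lit 214) (nat_lit 191) (nat_lit 165)) (PT.lf (nat_lit 26296) (nat_lit 6) (nat_lit 346) (nat_lit 5) (nat_lit 164) (nat_lit 192) (nat_lit 214))))) (PT.nd (nat_lit 312) (PT.nd (nat_lit 156) (PT.nd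 (nat_lit 78) (PT.lf (nat_lit 27284) (nat_lit 6) (nat_lit 359) (nat_lit 5) (nat_lit 165) (nat_lit 192) (nat_lit 213)) (PT.lf (nat_lit 28348) (nat_lit 6) (nat_lit 373) (nat_lit 5) (nat_lit 166) (nat_lit 192) (nat_lit 212))) (PT.nd (nat_lit 78) (PT.lf (nat_lit 30172) (nat_lit 6) (nat_lit 397) (nat_lit 5) (nat_lit 167) (nat_lit 192) (nat_lit 211)) (PT.lf (nat_lit 31920) (nat_lit 6) (nat_lit 420) (nat_lit 5) (nat_lit 168) (nat_lit 192) (nat_lit 210)))) (PT.nd (nat_lit 156) (PT.nd (nat_lit 78) (PT.lf (nat_lit 33592) (nat_lit 6) (nat_lit 442) (nat_lit 5) (nat_lit 169) (nat_lit 192) (nat_lit 209)) (PT.lf (nat_lit 35188) (nat_lit 6) (nat_lit 463) (nat_lit 5) (nat_lit 170) (nat_lit 192) (nat_lit 208))) (PT.nd (nat_lit 78) (PT.lf (nat_lit 36708) (nat_lit 6) (nat_lit 483) (nat_lit 5) (nat_lit 171) (nat_lit 192) (nat_lit 207)) (PT.lf (nat_lit 38152) (nat_lit 6) (nat_lit 502) (nat_lit 5) (nat_lit 172) (nat_lit 192) (nat_lit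 206))))))) (PT.nd (nat_lit 1170) (PT.nd (nat_lit 546) (PT.nd (nat_lit 234) (PT.nd (nat_lit 78) (PT.lf (nat_lit 39520) (nat_lit 6) (nat_lit 520) (nat_lit 5) (nat_lit 173) (nat_lit 192) (nat_lit 205)) (PT.nd (nat_lit 78) (PT.lf (nat_lit 40812) (nat_lit 6) (nat_lit 537) (nat_lit 5) (nat_lit 174) (nat_lit 192) (nat_lit 204)) (PT.lf (nat_lit 42028) (nat_lit 6) (nat_lit 553) (nat_lit 5) (nat_lit 175) (nat_lit 192) (nat_lit 203)))) (PT.nd (nat_lit 156) (PT.nd (nat_lit 78) (PT.lf (nat_lit 43168) (nat_lit 6) (nat_lit 568) (nat_lit 5) (nat_lit 176) (nat_lit 192) (nat_lit 202)) (PT.lf (nat_lit 44232) (nat_lit 6) (nat_lit 582) (nat_lit 5) (nat_lit 177) (nat_lit 192) (nat_lit 201))) (PT.nd (nat_lit 78) (PT.lf (nat_lit 45220) (nat_lit 6) (nat_lit 595) (nat_lit 5) (nat_lit 178) (nat_lit 192) (nat_lit 200)) (PT.lf (nat_lit 46132) (nat_lit 6) (nat_lit 607) (nat_lit 5) (nat_lit 179) (nat_lit 192) (nat_lit 199))))) (PT.nd (nat_lit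 312) (PT.nd (nat_lit 156) (PT.nd (nat_lit 78) (PT.lf (nat_lit 46968) (nat_lit 6) (nat_lit 618) (nat_lit 5) (nat_lit 180) (nat_lit 192) (nat_lit 198)) (PT.lf (nat_lit 47728) (nat_lit 6) (nat_lit 628) (nat_lit 5) (nat_lit 181) (nat_lit 192) (nat_lit 197))) (PT.nd (nat_lit 78) (PT.lf (nat_lit 48412) (nat_lit 6) (nat_lit 637) (nat_lit 5) (nat_lit 182) (nat_lit 192) (nat_lit 196)) (PT.lf (nat_lit 49020) (nat_lit 6) (nat_lit 645) (nat_lit 5) (nat_lit 183) (nat_lit 192) (nat_lit 195)))) (PT.nd (nat_lit 156) (PT.nd (nat_lit 78) (PT.lf (nat_lit 49552) (nat_lit 6) (nat_lit 652) (nat_lit 5) (nat_lit 184) (nat_lit 192) (nat_lit 194)) (PT.lf (nat_lit 50008) (nat_lit 6) (nat_lit 658) (nat_lit 5) (nat_lit 185) (nat_lit 192) (nat_lit 193))) (PT.nd (nat_lit 78) (PT.lf (nat_lit 50388) (nat_lit 3) (nat_lit 663) (nat_lit 4) (nat_lit 186) (nat_lit 192) (nat_lit 192)) (PT.lf (nat_lit 50616) (nat_lit 6) (nat_lit 666) (nat_lit 4) (nat_lit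 187) (nat_lit 192) (nat_lit 191)))))) (PT.nd (nat_lit 546) (PT.nd (nat_lit 234) (PT.nd (nat_lit 78) (PT.lf (nat_lit 50768) (nat_lit 6) (nat_lit 668) (nat_lit 4) (nat_lit 188) (nat_lit 192) (nat_lit 190)) (PT.nd (nat_lit 78) (PT.lf (nat_lit 50692) (nat_lit 3) (nat_lit 667) (nat_lit 2) (nat_lit 189) (nat_lit 192) (nat_lit 189)) (PT.lf (nat_lit 50768) (nat_lit 6) (nat_lit 668) (nat_lit 2) (nat_lit 190) (nat_lit 192) (nat_lit 188)))) (PT.nd (nat_lit 156) (PT.nd (nat_lit 78) (PT.lf (nat_lit 50616) (nat_lit 6) (nat_lit 666) (nat_lit 2) (nat_lit 191) (nat_lit 192) (nat_lit 187)) (PT.lf (nat_lit 50388) (nat_lit 3) (nat_lit 663) (nat_lit 0) (nat_lit 192) (nat_lit 192) (nat_lit 186))) (PT.nd (nat_lit 78) (PT.lf (nat_lit 50008) (nat_lit 6) (nat_lit 658) (nat_lit 0) (nat_lit 193) (nat_lit 192) (nat_lit 185)) (PT.lf (nat_lit 49552) (nat_lit 6) (nat_lit 652) (nat_lit 0) (nat_lit 194) (nat_lit 192) (nat_lit 184))))) (PT.nd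 (nat_lit 312) (PT.nd (nat_lit 156) (PT.nd (nat_lit 78) (PT.lf (nat_lit 49020) (nat_lit 6) (nat_lit 645) (nat_lit 0) (nat_lit 195) (nat_lit 192) (nat_lit 183)) (PT.lf (nat_lit 48412) (nat_lit 6) (nat_lit 637) (nat_lit 0) (nat_lit 196) (nat_lit 192) (nat_lit 182))) (PT.nd (nat_lit 78) (PT.lf (nat_lit 47728) (nat_lit 6) (nat_lit 628) (nat_lit 0) (nat_lit 197) (nat_lit 192) (nat_lit 181)) (PT.lf (nat_lit 46968) (nat_lit 6) (nat_lit 618) (nat_lit 0) (nat_lit 198) (nat_lit 192) (nat_lit 180)))) (PT.nd (nat_lit 156) (PT.nd (nat_lit 78) (PT.lf (nat_lit 46132) (nat_lit 6) (nat_lit 607) (nat_lit 0) (nat_lit 199) (nat_lit 192) (nat_lit 179)) (PT.lf (nat_lit 45220) (nat_lit 6) (nat_lit 595) (nat_lit 0) (nat_lit 200) (nat_lit 192) (nat_lit 178))) (PT.nd (nat_lit 78) (PT.lf (nat_lit 44232) (nat_lit 6) (nat_lit 582) (nat_lit 0) (nat_lit 201) (nat_lit 192) (nat_lit 177)) (PT.lf (nat_lit 43168) (nat_lit 6) (nat_lit 568) (nat_lit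 0) (nat_lit 202) (nat_lit 192) (nat_lit 176))))))))
noncomputable def pc28 : PT := (PT.nd (nat_lit 57564) (PT.nd (nat_lit 56394) (PT.nd (nat_lit 546) (PT.nd (nat_lit 234) (PT.nd (nat_lit 78) (PT.lf (nat_lit 42028) (nat_lit 6) (nat_lit 553) (nat_lit 0) (nat_lit 203) (nat_lit 192) (nat_lit 175)) (PT.nd (nat_lit 78) (PT.lf (nat_lit 40812) (nat_lit 6) (nat_lit 537) (nat_lit 0) (nat_lit 204) (nat_lit 192) (nat_lit 174)) (PT.lf (nat_lit 39520) (nat_lit 6) (nat_lit 520) (nat_lit 0) (nat_lit 205) (nat_lit 192) (nat_lit 173)))) (PT.nd (nat_lit 156) (PT.nd (nat_lit 78) (PT.lf (nat_lit 38152) (nat_lit 6) (nat_lit 502) (nat_lit 0) (nat_lit 206) (nat_lit 192) (nat_lit 172)) (PT.lf (nat_lit 36708) (nat_lit 6) (nat_lit 483) (nat_lit 0) (nat_lit 207) (nat_lit 192) (nat_lit 171))) (PT.nd (nat_lit 78) (PT.lf (nat_lit 35188) (nat_lit 6) (nat_lit 463) (nat_lit 0) (nat_lit 208) (nat_lit 192) (nat_lit 170)) (PT.lf (nat_lit 33592)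 (nat_lit 6) (nat_lit 442) (nat_lit 0) (nat_lit 209) (nat_lit 192) (nat_lit 169))))) (PT.nd (nat_lit 234) (PT.nd (nat_lit 78) (PT.lf (nat_lit 31920) (nat_lit 6) (nat_lit 420) (nat_lit 0) (nat_lit 210) (nat_lit 192) (nat_lit 168)) (PT.nd (nat_lit 78) (PT.lf (nat_lit 30172) (nat_lit 6) (nat_lit 397) (nat_lit 0) (nat_lit 211) (nat_lit 192) (nat_lit 167)) (PT.lf (nat_lit 28348) (nat_lit 6) (nat_lit 373) (nat_lit 0) (nat_lit 212) (nat_lit 192) (nat_lit 166)))) (PT.nd (nat_lit 55458) (PT.nd (nat_lit 78) (PT.lf (nat_lit 27284) (nat_lit 6) (nat_lit 359) (nat_lit 0) (nat_lit 213) (nat_lit 192) (nat_lit 165)) (PT.lf (nat_lit 26296) (nat_lit 6) (nat_lit 346) (nat_lit 0) (nat_lit 214) (nat_lit 192) (nat_lit 164))) (PT.nd (nat_lit 78) (PT.lf (nat_lit 25460) (nat_lit 6) (nat_lit 335) (nat_lit 5) (nat_lit 163) (nat_lit 193) (nat_lit 214)) (PT.lf (nat_lit 26372) (nat_lit 6) (nat_lit 347) (nat_lit 5) (nat_lit 164) (nat_lit 193)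 (nat_lit 213)))))) (PT.nd (nat_lit 546) (PT.nd (nat_lit 234) (PT.nd (nat_lit 78) (PT.lf (nat_lit 27360) (nat_lit 6) (nat_lit 360) (nat_lit 5) (nat_lit 165) (nat_lit 193) (nat_lit 212)) (PT.nd (nat_lit 78) (PT.lf (nat_lit 28424) (nat_lit 6) (nat_lit 374) (nat_lit 5) (nat_lit 166) (nat_lit 193) (nat_lit 211)) (PT.lf (nat_lit 30248) (nat_lit 6) (nat_lit 398) (nat_lit 5) (nat_lit 167) (nat_lit 193) (nat_lit 210)))) (PT.nd (nat_lit 156) (PT.nd (nat_lit 78) (PT.lf (nat_lit 31996) (nat_lit 6) (nat_lit 421) (nat_lit 5) (nat_lit 168) (nat_lit 193) (nat_lit 209)) (PT.lf (nat_lit 33668) (nat_lit 6) (nat_lit 443) (nat_lit 5) (nat_lit 169) (nat_lit 193) (nat_lit 208))) (PT.nd (nat_lit 78) (PT.lf (nat_lit 35264) (nat_lit 6) (nat_lit 464) (nat_lit 5) (nat_lit 170) (nat_lit 193) (nat_lit 207)) (PT.lf (nat_lit 36784) (nat_lit 6) (nat_lit 484) (nat_lit 5) (nat_lit 171) (nat_lit 193) (nat_lit 206))))) (PT.nd (nat_lit 312) (PT.nd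 (nat_lit 156) (PT.nd (nat_lit 78) (PT.lf (nat_lit 38228) (nat_lit 6) (nat_lit 503) (nat_lit 5) (nat_lit 172) (nat_lit 193) (nat_lit 205)) (PT.lf (nat_lit 39596) (nat_lit 6) (nat_lit 521) (nat_lit 5) (nat_lit 173) (nat_lit 193) (nat_lit 204))) (PT.nd (nat_lit 78) (PT.lf (nat_lit 40888) (nat_lit 6) (nat_lit 538) (nat_lit 5) (nat_lit 174) (nat_lit 193) (nat_lit 203)) (PT.lf (nat_lit 42104) (nat_lit 6) (nat_lit 554) (nat_lit 5) (nat_lit 175) (nat_lit 193) (nat_lit 202)))) (PT.nd (nat_lit 156) (PT.nd (nat_lit 78) (PT.lf (nat_lit 43244) (nat_lit 6) (nat_lit 569) (nat_lit 5) (nat_lit 176) (nat_lit 193) (nat_lit 201)) (PT.lf (nat_lit 44308) (nat_lit 6) (nat_lit 583) (nat_lit 5) (nat_lit 177) (nat_lit 193) (nat_lit 200))) (PT.nd (nat_lit 78) (PT.lf (nat_lit 45296) (nat_lit 6) (nat_lit 596) (nat_lit 5) (nat_lit 178) (nat_lit 193) (nat_lit 199)) (PT.lf (nat_lit 46208) (nat_lit 6) (nat_lit 608) (nat_lit 5) (nat_lit 179)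 (nat_lit 193) (nat_lit 198))))))) (PT.nd (nat_lit 1092) (PT.nd (nat_lit 546) (PT.nd (nat_lit 234) (PT.nd (nat_lit 78) (PT.lf (nat_lit 47044) (nat_lit 6) (nat_lit 619) (nat_lit 5) (nat_lit 180) (nat_lit 193) (nat_lit 197)) (PT.nd (nat_lit 78) (PT.lf (nat_lit 47804) (nat_lit 6) (nat_lit 629) (nat_lit 5) (nat_lit 181) (nat_lit 193) (nat_lit 196)) (PT.lf (nat_lit 48488) (nat_lit 6) (nat_lit 638) (nat_lit 5) (nat_lit 182) (nat_lit 193) (nat_lit 195)))) (PT.nd (nat_lit 156) (PT.nd (nat_lit 78) (PT.lf (nat_lit 49096) (nat_lit 6) (nat_lit 646) (nat_lit 5) (nat_lit 183) (nat_lit 193) (nat_lit 194)) (PT.lf (nat_lit 49628) (nat_lit 3) (nat_lit 653) (nat_lit 4) (nat_lit 184) (nat_lit 193) (nat_lit 193))) (PT.nd (nat_lit 78) (PT.lf (nat_lit 50008) (nat_lit 6) (nat_lit 658) (nat_lit 4) (nat_lit 185) (nat_lit 193) (nat_lit 192)) (PT.lf (nat_lit 50312) (nat_lit 6) (nat_lit 662) (nat_lit 4) (nat_lit 186) (nat_lit 193) (nat_lit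 191))))) (PT.nd (nat_lit 234) (PT.nd (nat_lit 78) (PT.lf (nat_lit 50540) (nat_lit 6) (nat_lit 665) (nat_lit 4) (nat_lit 187) (nat_lit 193) (nat_lit 190)) (PT.nd (nat_lit 78) (PT.lf (nat_lit 50464) (nat_lit 6) (nat_lit 664) (nat_lit 4) (nat_lit 188) (nat_lit 193) (nat_lit 189)) (PT.lf (nat_lit 50464) (nat_lit 6) (nat_lit 664) (nat_lit 2) (nat_lit 189) (nat_lit 193) (nat_lit 188)))) (PT.nd (nat_lit 156) (PT.nd (nat_lit 78) (PT.lf (nat_lit 50540) (nat_lit 6) (nat_lit 665) (nat_lit 2) (nat_lit 190) (nat_lit 193) (nat_lit 187)) (PT.lf (nat_lit 50312) (nat_lit 6) (nat_lit 662) (nat_lit 2) (nat_lit 191) (nat_lit 193) (nat_lit 186))) (PT.nd (nat_lit 78) (PT.lf (nat_lit 50008) (nat_lit 6) (nat_lit 658) (nat_lit 2) (nat_lit 192) (nat_lit 193) (nat_lit 185)) (PT.lf (nat_lit 49628) (nat_lit 3) (nat_lit 653) (nat_lit 0) (nat_lit 193) (nat_lit 193) (nat_lit 184)))))) (PT.nd (nat_lit 546) (PT.nd (nat_lit 234) (PT.nd (nat_lit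 78) (PT.lf (nat_lit 49096) (nat_lit 6) (nat_lit 646) (nat_lit 0) (nat_lit 194) (nat_lit 193) (nat_lit 183)) (PT.nd (nat_lit 78) (PT.lf (nat_lit 48488) (nat_lit 6) (nat_lit 638) (nat_lit 0) (nat_lit 195) (nat_lit 193) (nat_lit 182)) (PT.lf (nat_lit 47804) (nat_lit 6) (nat_lit 629) (nat_lit 0) (nat_lit 196) (nat_lit 193) (nat_lit 181)))) (PT.nd (nat_lit 156) (PT.nd (nat_lit 78) (PT.lf (nat_lit 47044) (nat_lit 6) (nat_lit 619) (nat_lit 0) (nat_lit 197) (nat_lit 193) (nat_lit 180)) (PT.lf (nat_lit 46208) (nat_lit 6) (nat_lit 608) (nat_lit 0) (nat_lit 198) (nat_lit 193) (nat_lit 179))) (PT.nd (nat_lit 78) (PT.lf (nat_lit 45296) (nat_lit 6) (nat_lit 596) (nat_lit 0) (nat_lit 199) (nat_lit 193) (nat_lit 178)) (PT.lf (nat_lit 44308) (nat_lit 6) (nat_lit 583) (nat_lit 0) (nat_lit 200) (nat_lit 193) (nat_lit 177))))) (PT.nd (nat_lit 312) (PT.nd (nat_lit 156) (PT.nd (nat_lit 78) (PT.lf (nat_lit 43244) (nat_lit 6) (nat_lit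 569) (nat_lit 0) (nat_lit 201) (nat_lit 193) (nat_lit 176)) (PT.lf (nat_lit 42104) (nat_lit 6) (nat_lit 554) (nat_lit 0) (nat_lit 202) (nat_lit 193) (nat_lit 175))) (PT.nd (nat_lit 78) (PT.lf (nat_lit 40888) (nat_lit 6) (nat_lit 538) (nat_lit 0) (nat_lit 203) (nat_lit 193) (nat_lit 174)) (PT.lf (nat_lit 39596) (nat_lit 6) (nat_lit 521) (nat_lit 0) (nat_lit 204) (nat_lit 193) (nat_lit 173)))) (PT.nd (nat_lit 156) (PT.nd (nat_lit 78) (PT.lf (nat_lit 38228) (nat_lit 6) (nat_lit 503) (nat_lit 0) (nat_lit 205) (nat_lit 193) (nat_lit 172)) (PT.lf (nat_lit 36784) (nat_lit 6) (nat_lit 484) (nat_lit 0) (nat_lit 206) (nat_lit 193) (nat_lit 171))) (PT.nd (nat_lit 78) (PT.lf (nat_lit 35264) (nat_lit 6) (nat_lit 464) (nat_lit 0) (nat_lit 207) (nat_lit 193) (nat_lit 170)) (PT.lf (nat_lit 33668) (nat_lit 6) (nat_lit 443) (nat_lit 0) (nat_lit 208) (nat_lit 193) (nat_lit 169))))))))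
noncomputable def pc29 : PT := (PT.nd (nat_lit 57486) (PT.nd (nat_lit 56316) (PT.nd (nat_lit 55770) (PT.nd (nat_lit 234) (PT.nd (nat_lit 78) (PT.lf (nat_lit 31996) (nat_lit 6) (nat_lit 421) (nat_lit 0) (nat_lit 209) (nat_lit 193) (nat_lit 168)) (PT.nd (nat_lit 78) (PT.lf (nat_lit 30248) (nat_lit 6) (nat_lit 398) (nat_lit 0) (nat_lit 210) (nat_lit 193) (nat_lit 167)) (PT.lf (nat_lit 28424) (nat_lit 6) (nat_lit 374) (nat_lit 0) (nat_lit 211) (nat_lit 193) (nat_lit 166)))) (PT.nd (nat_lit 156) (PT.nd (nat_lit 78) (PT.lf (nat_lit 27360) (nat_lit 6) (nat_lit 360) (nat_lit 0) (nat_lit 212) (nat_lit 193) (nat_lit 165)) (PT.lf (nat_lit 26372) (nat_lit 6) (nat_lit 347) (nat_lit 0) (nat_lit 213) (nat_lit 193) (nat_lit 164))) (PT.nd (nat_lit 55302) (PT.lf (nat_lit 25460) (nat_lit 6) (nat_lit 335) (nat_lit 0) (nat_lit 214) (nat_lit 193) (nat_lit 163)) (PT.lf (nat_lit 24624) (nat_lit 6) (nat_lit 324) (nat_lit 5) (nat_lit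 162) (nat_lit 194) (nat_lit 214))))) (PT.nd (nat_lit 234) (PT.nd (nat_lit 78) (PT.lf (nat_lit 25536) (nat_lit 6) (nat_lit 336) (nat_lit 5) (nat_lit 163) (nat_lit 194) (nat_lit 213)) (PT.nd (nat_lit 78) (PT.lf (nat_lit 26448) (nat_lit 6) (nat_lit 348) (nat_lit 5) (nat_lit 164) (nat_lit 194) (nat_lit 212)) (PT.lf (nat_lit 27436) (nat_lit 6) (nat_lit 361) (nat_lit 5) (nat_lit 165) (nat_lit 194) (nat_lit 211)))) (PT.nd (nat_lit 156) (PT.nd (nat_lit 78) (PT.lf (nat_lit 28500) (nat_lit 6) (nat_lit 375) (nat_lit 5) (nat_lit 166) (nat_lit 194) (nat_lit 210)) (PT.lf (nat_lit 30324) (nat_lit 6) (nat_lit 399) (nat_lit 5) (nat_lit 167) (nat_lit 194) (nat_lit 209))) (PT.nd (nat_lit 78) (PT.lf (nat_lit 32072) (nat_lit 6) (nat_lit 422) (nat_lit 5) (nat_lit 168) (nat_lit 194) (nat_lit 208)) (PT.lf (nat_lit 33744) (nat_lit 6) (nat_lit 444) (nat_lit 5) (nat_lit 169) (nat_lit 194) (nat_lit 207)))))) (PT.nd (nat_lit 546) (PT.nd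 (nat_lit 234) (PT.nd (nat_lit 78) (PT.lf (nat_lit 35340) (nat_lit 6) (nat_lit 465) (nat_lit 5) (nat_lit 170) (nat_lit 194) (nat_lit 206)) (PT.nd (nat_lit 78) (PT.lf (nat_lit 36860) (nat_lit 6) (nat_lit 485) (nat_lit 5) (nat_lit 171) (nat_lit 194) (nat_lit 205)) (PT.lf (nat_lit 38304) (nat_lit 6) (nat_lit 504) (nat_lit 5) (nat_lit 172) (nat_lit 194) (nat_lit 204)))) (PT.nd (nat_lit 156) (PT.nd (nat_lit 78) (PT.lf (nat_lit 39672) (nat_lit 6) (nat_lit 522) (nat_lit 5) (nat_lit 173) (nat_lit 194) (nat_lit 203)) (PT.lf (nat_lit 40964) (nat_lit 6) (nat_lit 539) (nat_lit 5) (nat_lit 174) (nat_lit 194) (nat_lit 202))) (PT.nd (nat_lit 78) (PT.lf (nat_lit 42180) (nat_lit 6) (nat_lit 555) (nat_lit 5) (nat_lit 175) (nat_lit 194) (nat_lit 201)) (PT.lf (nat_lit 43320) (nat_lit 6) (nat_lit 570) (nat_lit 5) (nat_lit 176) (nat_lit 194) (nat_lit 200))))) (PT.nd (nat_lit 312) (PT.nd (nat_lit 156) (PT.nd (nat_lit 78) (PT.lf (nat_lit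 44384) (nat_lit 6) (nat_lit 584) (nat_lit 5) (nat_lit 177) (nat_lit 194) (nat_lit 199)) (PT.lf (nat_lit 45372) (nat_lit 6) (nat_lit 597) (nat_lit 5) (nat_lit 178) (nat_lit 194) (nat_lit 198))) (PT.nd (nat_lit 78) (PT.lf (nat_lit 46284) (nat_lit 6) (nat_lit 609) (nat_lit 5) (nat_lit 179) (nat_lit 194) (nat_lit 197)) (PT.lf (nat_lit 47120) (nat_lit 6) (nat_lit 620) (nat_lit 5) (nat_lit 180) (nat_lit 194) (nat_lit 196)))) (PT.nd (nat_lit 156) (PT.nd (nat_lit 78) (PT.lf (nat_lit 47880) (nat_lit 6) (nat_lit 630) (nat_lit 5) (nat_lit 181) (nat_lit 194) (nat_lit 195)) (PT.lf (nat_lit 48564) (nat_lit 3) (nat_lit 639) (nat_lit 4) (nat_lit 182) (nat_lit 194) (nat_lit 194))) (PT.nd (nat_lit 78) (PT.lf (nat_lit 49096) (nat_lit 6) (nat_lit 646) (nat_lit 4) (nat_lit 183) (nat_lit 194) (nat_lit 193)) (PT.lf (nat_lit 49552) (nat_lit 6) (nat_lit 652) (nat_lit 4) (nat_lit 184) (nat_lit 194) (nat_lit 192))))))) (PT.nd (nat_lit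 1170) (PT.nd (nat_lit 546) (PT.nd (nat_lit 234) (PT.nd (nat_lit 78) (PT.lf (nat_lit 49932) (nat_lit 6) (nat_lit 657) (nat_lit 4) (nat_lit 185) (nat_lit 194) (nat_lit 191)) (PT.nd (nat_lit 78) (PT.lf (nat_lit 50236) (nat_lit 6) (nat_lit 661) (nat_lit 4) (nat_lit 186) (nat_lit 194) (nat_lit 190)) (PT.lf (nat_lit 50160) (nat_lit 6) (nat_lit 660) (nat_lit 4) (nat_lit 187) (nat_lit 194) (nat_lit 189)))) (PT.nd (nat_lit 156) (PT.nd (nat_lit 78) (PT.lf (nat_lit 50084) (nat_lit 3) (nat_lit 659) (nat_lit 2) (nat_lit 188) (nat_lit 194) (nat_lit 188)) (PT.lf (nat_lit 50160) (nat_lit 6) (nat_lit 660) (nat_lit 2) (nat_lit 189) (nat_lit 194) (nat_lit 187))) (PT.nd (nat_lit 78) (PT.lf (nat_lit 50236) (nat_lit 6) (nat_lit 661) (nat_lit 2) (nat_lit 190) (nat_lit 194) (nat_lit 186)) (PT.lf (nat_lit 49932) (nat_lit 6) (nat_lit 657) (nat_lit 2) (nat_lit 191) (nat_lit 194) (nat_lit 185))))) (PT.nd (nat_lit 312) (PT.nd (nat_lit 156)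 (PT.nd (nat_lit 78) (PT.lf (nat_lit 49552) (nat_lit 6) (nat_lit 652) (nat_lit 2) (nat_lit 192) (nat_lit 194) (nat_lit 184)) (PT.lf (nat_lit 49096) (nat_lit 6) (nat_lit 646) (nat_lit 2) (nat_lit 193) (nat_lit 194) (nat_lit 183))) (PT.nd (nat_lit 78) (PT.lf (nat_lit 48564) (nat_lit 3) (nat_lit 639) (nat_lit 0) (nat_lit 194) (nat_lit 194) (nat_lit 182)) (PT.lf (nat_lit 47880) (nat_lit 6) (nat_lit 630) (nat_lit 0) (nat_lit 195) (nat_lit 194) (nat_lit 181)))) (PT.nd (nat_lit 156) (PT.nd (nat_lit 78) (PT.lf (nat_lit 47120) (nat_lit 6) (nat_lit 620) (nat_lit 0) (nat_lit 196) (nat_lit 194) (nat_lit 180)) (PT.lf (nat_lit 46284) (nat_lit 6) (nat_lit 609) (nat_lit 0) (nat_lit 197) (nat_lit 194) (nat_lit 179))) (PT.nd (nat_lit 78) (PT.lf (nat_lit 45372) (nat_lit 6) (nat_lit 597) (nat_lit 0) (nat_lit 198) (nat_lit 194) (nat_lit 178)) (PT.lf (nat_lit 44384) (nat_lit 6) (nat_lit 584) (nat_lit 0) (nat_lit 199) (nat_lit 194)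 (nat_lit 177)))))) (PT.nd (nat_lit 546) (PT.nd (nat_lit 234) (PT.nd (nat_lit 78) (PT.lf (nat_lit 43320) (nat_lit 6) (nat_lit 570) (nat_lit 0) (nat_lit 200) (nat_lit 194) (nat_lit 176)) (PT.nd (nat_lit 78) (PT.lf (nat_lit 42180) (nat_lit 6) (nat_lit 555) (nat_lit 0) (nat_lit 201) (nat_lit 194) (nat_lit 175)) (PT.lf (nat_lit 40964) (nat_lit 6) (nat_lit 539) (nat_lit 0) (nat_lit 202) (nat_lit 194) (nat_lit 174)))) (PT.nd (nat_lit 156) (PT.nd (nat_lit 78) (PT.lf (nat_lit 39672) (nat_lit 6) (nat_lit 522) (nat_lit 0) (nat_lit 203) (nat_lit 194) (nat_lit 173)) (PT.lf (nat_lit 38304) (nat_lit 6) (nat_lit 504) (nat_lit 0) (nat_lit 204) (nat_lit 194) (nat_lit 172))) (PT.nd (nat_lit 78) (PT.lf (nat_lit 36860) (nat_lit 6) (nat_lit 485) (nat_lit 0) (nat_lit 205) (nat_lit 194) (nat_lit 171)) (PT.lf (nat_lit 35340) (nat_lit 6) (nat_lit 465) (nat_lit 0) (nat_lit 206) (nat_lit 194) (nat_lit 170))))) (PT.nd (nat_lit 312) (PT.nd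 (nat_lit 156) (PT.nd (nat_lit 78) (PT.lf (nat_lit 33744) (nat_lit 6) (nat_lit 444) (nat_lit 0) (nat_lit 207) (nat_lit 194) (nat_lit 169)) (PT.lf (nat_lit 32072) (nat_lit 6) (nat_lit 422) (nat_lit 0) (nat_lit 208) (nat_lit 194) (nat_lit 168))) (PT.nd (nat_lit 78) (PT.lf (nat_lit 30324) (nat_lit 6) (nat_lit 399) (nat_lit 0) (nat_lit 209) (nat_lit 194) (nat_lit 167)) (PT.lf (nat_lit 28500) (nat_lit 6) (nat_lit 375) (nat_lit 0) (nat_lit 210) (nat_lit 194) (nat_lit 166)))) (PT.nd (nat_lit 156) (PT.nd (nat_lit 78) (PT.lf (nat_lit 27436) (nat_lit 6) (nat_lit 361) (nat_lit 0) (nat_lit 211) (nat_lit 194) (nat_lit 165)) (PT.lf (nat_lit 26448) (nat_lit 6) (nat_lit 348) (nat_lit 0) (nat_lit 212) (nat_lit 194) (nat_lit 164))) (PT.nd (nat_lit 78) (PT.lf (nat_lit 25536) (nat_lit 6) (nat_lit 336) (nat_lit 0) (nat_lit 213) (nat_lit 194) (nat_lit 163)) (PT.lf (nat_lit 24624) (nat_lit 6) (nat_lit 324) (nat_lit 0) (nat_lit 214)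 (nat_lit 194) (nat_lit 162))))))))
noncomputable def pc30 : PT := (PT.nd (nat_lit 2262) (PT.nd (nat_lit 1092) (PT.nd (nat_lit 546) (PT.nd (nat_lit 234) (PT.nd (nat_lit 78) (PT.lf (nat_lit 23028) (nat_lit 6) (nat_lit 303) (nat_lit 5) (nat_lit 160) (nat_lit 195) (nat_lit 215)) (PT.nd (nat_lit 78) (PT.lf (nat_lit 23864) (nat_lit 6) (nat_lit 314) (nat_lit 5) (nat_lit 161) (nat_lit 195) (nat_lit 214)) (PT.lf (nat_lit 24700) (nat_lit 6) (nat_lit 325) (nat_lit 5) (nat_lit 162) (nat_lit 195) (nat_lit 213)))) (PT.nd (nat_lit 156) (PT.nd (nat_lit 78) (PT.lf (nat_lit 25612) (nat_lit 6) (nat_lit 337) (nat_lit 5) (nat_lit 163) (nat_lit 195) (nat_lit 212)) (PT.lf (nat_lit 26524) (nat_lit 6) (nat_lit 349) (nat_lit 5) (nat_lit 164) (nat_lit 195) (nat_lit 211))) (PT.nd (nat_lit 78) (PT.lf (nat_lit 27512) (nat_lit 6) (nat_lit 362) (nat_lit 5) (nat_lit 165) (nat_lit 195) (nat_lit 210)) (PT.lf (nat_lit 28576) (nat_lit 6) (nat_lit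 376) (nat_lit 5) (nat_lit 166) (nat_lit 195) (nat_lit 209))))) (PT.nd (nat_lit 234) (PT.nd (nat_lit 78) (PT.lf (nat_lit 30400) (nat_lit 6) (nat_lit 400) (nat_lit 5) (nat_lit 167) (nat_lit 195) (nat_lit 208)) (PT.nd (nat_lit 78) (PT.lf (nat_lit 32148) (nat_lit 6) (nat_lit 423) (nat_lit 5) (nat_lit 168) (nat_lit 195) (nat_lit 207)) (PT.lf (nat_lit 33820) (nat_lit 6) (nat_lit 445) (nat_lit 5) (nat_lit 169) (nat_lit 195) (nat_lit 206)))) (PT.nd (nat_lit 156) (PT.nd (nat_lit 78) (PT.lf (nat_lit 35416) (nat_lit 6) (nat_lit 466) (nat_lit 5) (nat_lit 170) (nat_lit 195) (nat_lit 205)) (PT.lf (nat_lit 36936) (nat_lit 6) (nat_lit 486) (nat_lit 5) (nat_lit 171) (nat_lit 195) (nat_lit 204))) (PT.nd (nat_lit 78) (PT.lf (nat_lit 38380) (nat_lit 6) (nat_lit 505) (nat_lit 5) (nat_lit 172) (nat_lit 195) (nat_lit 203)) (PT.lf (nat_lit 39748) (nat_lit 6) (nat_lit 523) (nat_lit 5) (nat_lit 173) (nat_lit 195) (nat_lit 202)))))) (PT.nd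 (nat_lit 546) (PT.nd (nat_lit 234) (PT.nd (nat_lit 78) (PT.lf (nat_lit 41040) (nat_lit 6) (nat_lit 540) (nat_lit 5) (nat_lit 174) (nat_lit 195) (nat_lit 201)) (PT.nd (nat_lit 78) (PT.lf (nat_lit 42256) (nat_lit 6) (nat_lit 556) (nat_lit 5) (nat_lit 175) (nat_lit 195) (nat_lit 200)) (PT.lf (nat_lit 43396) (nat_lit 6) (nat_lit 571) (nat_lit 5) (nat_lit 176) (nat_lit 195) (nat_lit 199)))) (PT.nd (nat_lit 156) (PT.nd (nat_lit 78) (PT.lf (nat_lit 44460) (nat_lit 6) (nat_lit 585) (nat_lit 5) (nat_lit 177) (nat_lit 195) (nat_lit 198)) (PT.lf (nat_lit 45448) (nat_lit 6) (nat_lit 598) (nat_lit 5) (nat_lit 178) (nat_lit 195) (nat_lit 197))) (PT.nd (nat_lit 78) (PT.lf (nat_lit 46360) (nat_lit 6) (nat_lit 610) (nat_lit 5) (nat_lit 179) (nat_lit 195) (nat_lit 196)) (PT.lf (nat_lit 47196) (nat_lit 3) (nat_lit 621) (nat_lit 4) (nat_lit 180) (nat_lit 195) (nat_lit 195))))) (PT.nd (nat_lit 312) (PT.nd (nat_lit 156) (PT.nd (nat_lit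 78) (PT.lf (nat_lit 47880) (nat_lit 6) (nat_lit 630) (nat_lit 4) (nat_lit 181) (nat_lit 195) (nat_lit 194)) (PT.lf (nat_lit 48488) (nat_lit 6) (nat_lit 638) (nat_lit 4) (nat_lit 182) (nat_lit 195) (nat_lit 193))) (PT.nd (nat_lit 78) (PT.lf (nat_lit 49020) (nat_lit 6) (nat_lit 645) (nat_lit 4) (nat_lit 183) (nat_lit 195) (nat_lit 192)) (PT.lf (nat_lit 49476) (nat_lit 6) (nat_lit 651) (nat_lit 4) (nat_lit 184) (nat_lit 195) (nat_lit 191)))) (PT.nd (nat_lit 156) (PT.nd (nat_lit 78) (PT.lf (nat_lit 49856) (nat_lit 6) (nat_lit 656) (nat_lit 4) (nat_lit 185) (nat_lit 195) (nat_lit 190)) (PT.lf (nat_lit 49780) (nat_lit 6) (nat_lit 655) (nat_lit 4) (nat_lit 186) (nat_lit 195) (nat_lit 189))) (PT.nd (nat_lit 78) (PT.lf (nat_lit 49704) (nat_lit 6) (nat_lit 654) (nat_lit 4) (nat_lit 187) (nat_lit 195) (nat_lit 188)) (PT.lf (nat_lit 49704) (nat_lit 6) (nat_lit 654) (nat_lit 2) (nat_lit 188) (nat_lit 195) (nat_lit 187)))))))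 (PT.nd (nat_lit 1170) (PT.nd (nat_lit 546) (PT.nd (nat_lit 234) (PT.nd (nat_lit 78) (PT.lf (nat_lit 49780) (nat_lit 6) (nat_lit 655) (nat_lit 2) (nat_lit 189) (nat_lit 195) (nat_lit 186)) (PT.nd (nat_lit 78) (PT.lf (nat_lit 49856) (nat_lit 6) (nat_lit 656) (nat_lit 2) (nat_lit 190) (nat_lit 195) (nat_lit 185)) (PT.lf (nat_lit 49476) (nat_lit 6) (nat_lit 651) (nat_lit 2) (nat_lit 191) (nat_lit 195) (nat_lit 184)))) (PT.nd (nat_lit 156) (PT.nd (nat_lit 78) (PT.lf (nat_lit 49020) (nat_lit 6) (nat_lit 645) (nat_lit 2) (nat_lit 192) (nat_lit 195) (nat_lit 183)) (PT.lf (nat_lit 48488) (nat_lit 6) (nat_lit 638) (nat_lit 2) (nat_lit 193) (nat_lit 195) (nat_lit 182))) (PT.nd (nat_lit 78) (PT.lf (nat_lit 47880) (nat_lit 6) (nat_lit 630) (nat_lit 2) (nat_lit 194) (nat_lit 195) (nat_lit 181)) (PT.lf (nat_lit 47196) (nat_lit 3) (nat_lit 621) (nat_lit 0) (nat_lit 195) (nat_lit 195) (nat_lit 180))))) (PT.nd (nat_lit 312) (PT.nd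 (nat_lit 156) (PT.nd (nat_lit 78) (PT.lf (nat_lit 46360) (nat_lit 6) (nat_lit 610) (nat_lit 0) (nat_lit 196) (nat_lit 195) (nat_lit 179)) (PT.lf (nat_lit 45448) (nat_lit 6) (nat_lit 598) (nat_lit 0) (nat_lit 197) (nat_lit 195) (nat_lit 178))) (PT.nd (nat_lit 78) (PT.lf (nat_lit 44460) (nat_lit 6) (nat_lit 585) (nat_lit 0) (nat_lit 198) (nat_lit 195) (nat_lit 177)) (PT.lf (nat_lit 43396) (nat_lit 6) (nat_lit 571) (nat_lit 0) (nat_lit 199) (nat_lit 195) (nat_lit 176)))) (PT.nd (nat_lit 156) (PT.nd (nat_lit 78) (PT.lf (nat_lit 42256) (nat_lit 6) (nat_lit 556) (nat_lit 0) (nat_lit 200) (nat_lit 195) (nat_lit 175)) (PT.lf (nat_lit 41040) (nat_lit 6) (nat_lit 540) (nat_lit 0) (nat_lit 201) (nat_lit 195) (nat_lit 174))) (PT.nd (nat_lit 78) (PT.lf (nat_lit 39748) (nat_lit 6) (nat_lit 523) (nat_lit 0) (nat_lit 202) (nat_lit 195) (nat_lit 173)) (PT.lf (nat_lit 38380) (nat_lit 6) (nat_lit 505) (nat_lit 0) (nat_lit 203)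 (nat_lit 195) (nat_lit 172)))))) (PT.nd (nat_lit 546) (PT.nd (nat_lit 234) (PT.nd (nat_lit 78) (PT.lf (nat_lit 36936) (nat_lit 6) (nat_lit 486) (nat_lit 0) (nat_lit 204) (nat_lit 195) (nat_lit 171)) (PT.nd (nat_lit 78) (PT.lf (nat_lit 35416) (nat_lit 6) (nat_lit 466) (nat_lit 0) (nat_lit 205) (nat_lit 195) (nat_lit 170)) (PT.lf (nat_lit 33820) (nat_lit 6) (nat_lit 445) (nat_lit 0) (nat_lit 206) (nat_lit 195) (nat_lit 169)))) (PT.nd (nat_lit 156) (PT.nd (nat_lit 78) (PT.lf (nat_lit 32148) (nat_lit 6) (nat_lit 423) (nat_lit 0) (nat_lit 207) (nat_lit 195) (nat_lit 168)) (PT.lf (nat_lit 30400) (nat_lit 6) (nat_lit 400) (nat_lit 0) (nat_lit 208) (nat_lit 195) (nat_lit 167))) (PT.nd (nat_lit 78) (PT.lf (nat_lit 28576) (nat_lit 6) (nat_lit 376) (nat_lit 0) (nat_lit 209) (nat_lit 195) (nat_lit 166)) (PT.lf (nat_lit 27512) (nat_lit 6) (nat_lit 362) (nat_lit 0) (nat_lit 210) (nat_lit 195) (nat_lit 165))))) (PT.nd (nat_lit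 312) (PT.nd (nat_lit 156) (PT.nd (nat_lit 78) (PT.lf (nat_lit 26524) (nat_lit 6) (nat_lit 349) (nat_lit 0) (nat_lit 211) (nat_lit 195) (nat_lit 164)) (PT.lf (nat_lit 25612) (nat_lit 6) (nat_lit 337) (nat_lit 0) (nat_lit 212) (nat_lit 195) (nat_lit 163))) (PT.nd (nat_lit 78) (PT.lf (nat_lit 24700) (nat_lit 6) (nat_lit 325) (nat_lit 0) (nat_lit 213) (nat_lit 195) (nat_lit 162)) (PT.lf (nat_lit 23864) (nat_lit 6) (nat_lit 314) (nat_lit 0) (nat_lit 214) (nat_lit 195) (nat_lit 161)))) (PT.nd (nat_lit 55068) (PT.nd (nat_lit 54990) (PT.lf (nat_lit 23028) (nat_lit 6) (nat_lit 303) (nat_lit 0) (nat_lit 215) (nat_lit 195) (nat_lit 160)) (PT.lf (nat_lit 22268) (nat_lit 6) (nat_lit 293) (nat_lit 5) (nat_lit 159) (nat_lit 196) (nat_lit 215))) (PT.nd (nat_lit 78) (PT.lf (nat_lit 23104) (nat_lit 6) (nat_lit 304) (nat_lit 5) (nat_lit 160) (nat_lit 196) (nat_lit 214)) (PT.lf (nat_lit 23940) (nat_lit 6) (nat_lit 315) (nat_lit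 5) (nat_lit 161) (nat_lit 196) (nat_lit 213))))))))
noncomputable def pc31 : PT := (PT.nd (nat_lit 2262) (PT.nd (nat_lit 1092) (PT.nd (nat_lit 546) (PT.nd (nat_lit 234) (PT.nd (nat_lit 78) (PT.lf (nat_lit 24776) (nat_lit 6) (nat_lit 326) (nat_lit 5) (nat_lit 162) (nat_lit 196) (nat_lit 212)) (PT.nd (nat_lit 78) (PT.lf (nat_lit 25688) (nat_lit 6) (nat_lit 338) (nat_lit 5) (nat_lit 163) (nat_lit 196) (nat_lit 211)) (PT.lf (nat_lit 26600) (nat_lit 6) (nat_lit 350) (nat_lit 5) (nat_lit 164) (nat_lit 196) (nat_lit 210)))) (PT.nd (nat_lit 156) (PT.nd (nat_lit 78) (PT.lf (nat_lit 27588) (nat_lit 6) (nat_lit 363) (nat_lit 5) (nat_lit 165) (nat_lit 196) (nat_lit 209)) (PT.lf (nat_lit 28652) (nat_lit 6) (nat_lit 377) (nat_lit 5) (nat_lit 166) (nat_lit 196) (nat_lit 208))) (PT.nd (nat_lit 78) (PT.lf (nat_lit 30476) (nat_lit 6) (nat_lit 401) (nat_lit 5) (nat_lit 167) (nat_lit 196) (nat_lit 207)) (PT.lf (nat_lit 32224) (nat_lit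 6) (nat_lit 424) (nat_lit 5) (nat_lit 168) (nat_lit 196) (nat_lit 206))))) (PT.nd (nat_lit 234) (PT.nd (nat_lit 78) (PT.lf (nat_lit 33896) (nat_lit 6) (nat_lit 446) (nat_lit 5) (nat_lit 169) (nat_lit 196) (nat_lit 205)) (PT.nd (nat_lit 78) (PT.lf (nat_lit 35492) (nat_lit 6) (nat_lit 467) (nat_lit 5) (nat_lit 170) (nat_lit 196) (nat_lit 204)) (PT.lf (nat_lit 37012) (nat_lit 6) (nat_lit 487) (nat_lit 5) (nat_lit 171) (nat_lit 196) (nat_lit 203)))) (PT.nd (nat_lit 156) (PT.nd (nat_lit 78) (PT.lf (nat_lit 38456) (nat_lit 6) (nat_lit 506) (nat_lit 5) (nat_lit 172) (nat_lit 196) (nat_lit 202)) (PT.lf (nat_lit 39824) (nat_lit 6) (nat_lit 524) (nat_lit 5) (nat_lit 173) (nat_lit 196) (nat_lit 201))) (PT.nd (nat_lit 78) (PT.lf (nat_lit 41116) (nat_lit 6) (nat_lit 541) (nat_lit 5) (nat_lit 174) (nat_lit 196) (nat_lit 200)) (PT.lf (nat_lit 42332) (nat_lit 6) (nat_lit 557) (nat_lit 5) (nat_lit 175) (nat_lit 196) (nat_lit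 199)))))) (PT.nd (nat_lit 546) (PT.nd (nat_lit 234) (PT.nd (nat_lit 78) (PT.lf (nat_lit 43472) (nat_lit 6) (nat_lit 572) (nat_lit 5) (nat_lit 176) (nat_lit 196) (nat_lit 198)) (PT.nd (nat_lit 78) (PT.lf (nat_lit 44536) (nat_lit 6) (nat_lit 586) (nat_lit 5) (nat_lit 177) (nat_lit 196) (nat_lit 197)) (PT.lf (nat_lit 45524) (nat_lit 3) (nat_lit 599) (nat_lit 4) (nat_lit 178) (nat_lit 196) (nat_lit 196)))) (PT.nd (nat_lit 156) (PT.nd (nat_lit 78) (PT.lf (nat_lit 46360) (nat_lit 6) (nat_lit 610) (nat_lit 4) (nat_lit 179) (nat_lit 196) (nat_lit 195)) (PT.lf (nat_lit 47120) (nat_lit 6) (nat_lit 620) (nat_lit 4) (nat_lit 180) (nat_lit 196) (nat_lit 194))) (PT.nd (nat_lit 78) (PT.lf (nat_lit 47804) (nat_lit 6) (nat_lit 629) (nat_lit 4) (nat_lit 181) (nat_lit 196) (nat_lit 193)) (PT.lf (nat_lit 48412) (nat_lit 6) (nat_lit 637) (nat_lit 4) (nat_lit 182) (nat_lit 196) (nat_lit 192))))) (PT.nd (nat_lit 312) (PT.nd (nat_lit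 156) (PT.nd (nat_lit 78) (PT.lf (nat_lit 48944) (nat_lit 6) (nat_lit 644) (nat_lit 4) (nat_lit 183) (nat_lit 196) (nat_lit 191)) (PT.lf (nat_lit 49400) (nat_lit 6) (nat_lit 650) (nat_lit 4) (nat_lit 184) (nat_lit 196) (nat_lit 190))) (PT.nd (nat_lit 78) (PT.lf (nat_lit 49324) (nat_lit 6) (nat_lit 649) (nat_lit 4) (nat_lit 185) (nat_lit 196) (nat_lit 189)) (PT.lf (nat_lit 49248) (nat_lit 6) (nat_lit 648) (nat_lit 4) (nat_lit 186) (nat_lit 196) (nat_lit 188)))) (PT.nd (nat_lit 156) (PT.nd (nat_lit 78) (PT.lf (nat_lit 49172) (nat_lit 3) (nat_lit 647) (nat_lit 2) (nat_lit 187) (nat_lit 196) (nat_lit 187)) (PT.lf (nat_lit 49248) (nat_lit 6) (nat_lit 648) (nat_lit 2) (nat_lit 188) (nat_lit 196) (nat_lit 186))) (PT.nd (nat_lit 78) (PT.lf (nat_lit 49324) (nat_lit 6) (nat_lit 649) (nat_lit 2) (nat_lit 189) (nat_lit 196) (nat_lit 185)) (PT.lf (nat_lit 49400) (nat_lit 6) (nat_lit 650) (nat_lit 2) (nat_lit 190) (nat_lit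 196) (nat_lit 184))))))) (PT.nd (nat_lit 1170) (PT.nd (nat_lit 546) (PT.nd (nat_lit 234) (PT.nd (nat_lit 78) (PT.lf (nat_lit 48944) (nat_lit 6) (nat_lit 644) (nat_lit 2) (nat_lit 191) (nat_lit 196) (nat_lit 183)) (PT.nd (nat_lit 78) (PT.lf (nat_lit 48412) (nat_lit 6) (nat_lit 637) (nat_lit 2) (nat_lit 192) (nat_lit 196) (nat_lit 182)) (PT.lf (nat_lit 47804) (nat_lit 6) (nat_lit 629) (nat_lit 2) (nat_lit 193) (nat_lit 196) (nat_lit 181)))) (PT.nd (nat_lit 156) (PT.nd (nat_lit 78) (PT.lf (nat_lit 47120) (nat_lit 6) (nat_lit 620) (nat_lit 2) (nat_lit 194) (nat_lit 196) (nat_lit 180)) (PT.lf (nat_lit 46360) (nat_lit 6) (nat_lit 610) (nat_lit 2) (nat_lit 195) (nat_lit 196) (nat_lit 179))) (PT.nd (nat_lit 78) (PT.lf (nat_lit 45524) (nat_lit 3) (nat_lit 599) (nat_lit 0) (nat_lit 196) (nat_lit 196) (nat_lit 178)) (PT.lf (nat_lit 44536) (nat_lit 6) (nat_lit 586) (nat_lit 0) (nat_lit 197) (nat_lit 196) (nat_lit 177)))))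 (PT.nd (nat_lit 312) (PT.nd (nat_lit 156) (PT.nd (nat_lit 78) (PT.lf (nat_lit 43472) (nat_lit 6) (nat_lit 572) (nat_lit 0) (nat_lit 198) (nat_lit 196) (nat_lit 176)) (PT.lf (nat_lit 42332) (nat_lit 6) (nat_lit 557) (nat_lit 0) (nat_lit 199) (nat_lit 196) (nat_lit 175))) (PT.nd (nat_lit 78) (PT.lf (nat_lit 41116) (nat_lit 6) (nat_lit 541) (nat_lit 0) (nat_lit 200) (nat_lit 196) (nat_lit 174)) (PT.lf (nat_lit 39824) (nat_lit 6) (nat_lit 524) (nat_lit 0) (nat_lit 201) (nat_lit 196) (nat_lit 173)))) (PT.nd (nat_lit 156) (PT.nd (nat_lit 78) (PT.lf (nat_lit 38456) (nat_lit 6) (nat_lit 506) (nat_lit 0) (nat_lit 202) (nat_lit 196) (nat_lit 172)) (PT.lf (nat_lit 37012) (nat_lit 6) (nat_lit 487) (nat_lit 0) (nat_lit 203) (nat_lit 196) (nat_lit 171))) (PT.nd (nat_lit 78) (PT.lf (nat_lit 35492) (nat_lit 6) (nat_lit 467) (nat_lit 0) (nat_lit 204) (nat_lit 196) (nat_lit 170)) (PT.lf (nat_lit 33896) (nat_lit 6) (nat_lit 446)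 (nat_lit 0) (nat_lit 205) (nat_lit 196) (nat_lit 169)))))) (PT.nd (nat_lit 546) (PT.nd (nat_lit 234) (PT.nd (nat_lit 78) (PT.lf (nat_lit 32224) (nat_lit 6) (nat_lit 424) (nat_lit 0) (nat_lit 206) (nat_lit 196) (nat_lit 168)) (PT.nd (nat_lit 78) (PT.lf (nat_lit 30476) (nat_lit 6) (nat_lit 401) (nat_lit 0) (nat_lit 207) (nat_lit 196) (nat_lit 167)) (PT.lf (nat_lit 28652) (nat_lit 6) (nat_lit 377) (nat_lit 0) (nat_lit 208) (nat_lit 196) (nat_lit 166)))) (PT.nd (nat_lit 156) (PT.nd (nat_lit 78) (PT.lf (nat_lit 27588) (nat_lit 6) (nat_lit 363) (nat_lit 0) (nat_lit 209) (nat_lit 196) (nat_lit 165)) (PT.lf (nat_lit 26600) (nat_lit 6) (nat_lit 350) (nat_lit 0) (nat_lit 210) (nat_lit 196) (nat_lit 164))) (PT.nd (nat_lit 78) (PT.lf (nat_lit 25688) (nat_lit 6) (nat_lit 338) (nat_lit 0) (nat_lit 211) (nat_lit 196) (nat_lit 163)) (PT.lf (nat_lit 24776) (nat_lit 6) (nat_lit 326) (nat_lit 0) (nat_lit 212) (nat_lit 196) (nat_lit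 162))))) (PT.nd (nat_lit 55146) (PT.nd (nat_lit 156) (PT.nd (nat_lit 78) (PT.lf (nat_lit 23940) (nat_lit 6) (nat_lit 315) (nat_lit 0) (nat_lit 213) (nat_lit 196) (nat_lit 161)) (PT.lf (nat_lit 23104) (nat_lit 6) (nat_lit 304) (nat_lit 0) (nat_lit 214) (nat_lit 196) (nat_lit 160))) (PT.nd (nat_lit 54912) (PT.lf (nat_lit 22268) (nat_lit 6) (nat_lit 293) (nat_lit 0) (nat_lit 215) (nat_lit 196) (nat_lit 159)) (PT.lf (nat_lit 21508) (nat_lit 6) (nat_lit 283) (nat_lit 5) (nat_lit 158) (nat_lit 197) (nat_lit 215)))) (PT.nd (nat_lit 156) (PT.nd (nat_lit 78) (PT.lf (nat_lit 22344) (nat_lit 6) (nat_lit 294) (nat_lit 5) (nat_lit 159) (nat_lit 197) (nat_lit 214)) (PT.lf (nat_lit 23180) (nat_lit 6) (nat_lit 305) (nat_lit 5) (nat_lit 160) (nat_lit 197) (nat_lit 213))) (PT.nd (nat_lit 78) (PT.lf (nat_lit 24016) (nat_lit 6) (nat_lit 316) (nat_lit 5) (nat_lit 161) (nat_lit 197) (nat_lit 212)) (PT.lf (nat_lit 24852) (nat_lit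 6) (nat_lit 327) (nat_lit 5) (nat_lit 162) (nat_lit 197) (nat_lit 211))))))))
noncomputable def pc32 : PT := (PT.nd (nat_lit 2262) (PT.nd (nat_lit 1092) (PT.nd (nat_lit 546) (PT.nd (nat_lit 234) (PT.nd (nat_lit 78) (PT.lf (nat_lit 25764) (nat_lit 6) (nat_lit 339) (nat_lit 5) (nat_lit 163) (nat_lit 197) (nat_lit 210)) (PT.nd (nat_lit 78) (PT.lf (nat_lit 26676) (nat_lit 6) (nat_lit 351) (nat_lit 5) (nat_lit 164) (nat_lit 197) (nat_lit 209)) (PT.lf (nat_lit 27664) (nat_lit 6) (nat_lit 364) (nat_lit 5) (nat_lit 165) (nat_lit 197) (nat_lit 208)))) (PT.nd (nat_lit 156) (PT.nd (nat_lit 78) (PT.lf (nat_lit 28728) (nat_lit 6) (nat_lit 378) (nat_lit 5) (nat_lit 166) (nat_lit 197) (nat_lit 207)) (PT.lf (nat_lit 30552) (nat_lit 6) (nat_lit 402) (nat_lit 5) (nat_lit 167) (nat_lit 197) (nat_lit 206))) (PT.nd (nat_lit 78) (PT.lf (nat_lit 32300) (nat_lit 6) (nat_lit 425) (nat_lit 5) (nat_lit 168) (nat_lit 197) (nat_lit 205))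 (PT.lf (nat_lit 33972) (nat_lit 6) (nat_lit 447) (nat_lit 5) (nat_lit 169) (nat_lit 197) (nat_lit 204))))) (PT.nd (nat_lit 234) (PT.nd (nat_lit 78) (PT.lf (nat_lit 35568) (nat_lit 6) (nat_lit 468) (nat_lit 5) (nat_lit 170) (nat_lit 197) (nat_lit 203)) (PT.nd (nat_lit 78) (PT.lf (nat_lit 37088) (nat_lit 6) (nat_lit 488) (nat_lit 5) (nat_lit 171) (nat_lit 197) (nat_lit 202)) (PT.lf (nat_lit 38532) (nat_lit 6) (nat_lit 507) (nat_lit 5) (nat_lit 172) (nat_lit 197) (nat_lit 201)))) (PT.nd (nat_lit 156) (PT.nd (nat_lit 78) (PT.lf (nat_lit 39900) (nat_lit 6) (nat_lit 525) (nat_lit 5) (nat_lit 173) (nat_lit 197) (nat_lit 200)) (PT.lf (nat_lit 41192) (nat_lit 6) (nat_lit 542) (nat_lit 5) (nat_lit 174) (nat_lit 197) (nat_lit 199))) (PT.nd (nat_lit 78) (PT.lf (nat_lit 42408) (nat_lit 6) (nat_lit 558) (nat_lit 5) (nat_lit 175) (nat_lit 197) (nat_lit 198)) (PT.lf (nat_lit 43548) (nat_lit 3) (nat_lit 573) (nat_lit 4) (nat_lit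 176) (nat_lit 197) (nat_lit 197)))))) (PT.nd (nat_lit 546) (PT.nd (nat_lit 234) (PT.nd (nat_lit 78) (PT.lf (nat_lit 44536) (nat_lit 6) (nat_lit 586) (nat_lit 4) (nat_lit 177) (nat_lit 197) (nat_lit 196)) (PT.nd (nat_lit 78) (PT.lf (nat_lit 45448) (nat_lit 6) (nat_lit 598) (nat_lit 4) (nat_lit 178) (nat_lit 197) (nat_lit 195)) (PT.lf (nat_lit 46284) (nat_lit 6) (nat_lit 609) (nat_lit 4) (nat_lit 179) (nat_lit 197) (nat_lit 194)))) (PT.nd (nat_lit 156) (PT.nd (nat_lit 78) (PT.lf (nat_lit 47044) (nat_lit 6) (nat_lit 619) (nat_lit 4) (nat_lit 180) (nat_lit 197) (nat_lit 193)) (PT.lf (nat_lit 47728) (nat_lit 6) (nat_lit 628) (nat_lit 4) (nat_lit 181) (nat_lit 197) (nat_lit 192))) (PT.nd (nat_lit 78) (PT.lf (nat_lit 48336) (nat_lit 6) (nat_lit 636) (nat_lit 4) (nat_lit 182) (nat_lit 197) (nat_lit 191)) (PT.lf (nat_lit 48868) (nat_lit 6) (nat_lit 643) (nat_lit 4) (nat_lit 183) (nat_lit 197) (nat_lit 190))))) (PT.nd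 (nat_lit 312) (PT.nd (nat_lit 156) (PT.nd (nat_lit 78) (PT.lf (nat_lit 48792) (nat_lit 6) (nat_lit 642) (nat_lit 4) (nat_lit 184) (nat_lit 197) (nat_lit 189)) (PT.lf (nat_lit 48716) (nat_lit 6) (nat_lit 641) (nat_lit 4) (nat_lit 185) (nat_lit 197) (nat_lit 188))) (PT.nd (nat_lit 78) (PT.lf (nat_lit 48640) (nat_lit 6) (nat_lit 640) (nat_lit 4) (nat_lit 186) (nat_lit 197) (nat_lit 187)) (PT.lf (nat_lit 48640) (nat_lit 6) (nat_lit 640) (nat_lit 2) (nat_lit 187) (nat_lit 197) (nat_lit 186)))) (PT.nd (nat_lit 156) (PT.nd (nat_lit 78) (PT.lf (nat_lit 48716) (nat_lit 6) (nat_lit 641) (nat_lit 2) (nat_lit 188) (nat_lit 197) (nat_lit 185)) (PT.lf (nat_lit 48792) (nat_lit 6) (nat_lit 642) (nat_lit 2) (nat_lit 189) (nat_lit 197) (nat_lit 184))) (PT.nd (nat_lit 78) (PT.lf (nat_lit 48868) (nat_lit 6) (nat_lit 643) (nat_lit 2) (nat_lit 190) (nat_lit 197) (nat_lit 183)) (PT.lf (nat_lit 48336) (nat_lit 6) (nat_lit 636) (nat_lit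 2) (nat_lit 191) (nat_lit 197) (nat_lit 182))))))) (PT.nd (nat_lit 1092) (PT.nd (nat_lit 546) (PT.nd (nat_lit 234) (PT.nd (nat_lit 78) (PT.lf (nat_lit 47728) (nat_lit 6) (nat_lit 628) (nat_lit 2) (nat_lit 192) (nat_lit 197) (nat_lit 181)) (PT.nd (nat_lit 78) (PT.lf (nat_lit 47044) (nat_lit 6) (nat_lit 619) (nat_lit 2) (nat_lit 193) (nat_lit 197) (nat_lit 180)) (PT.lf (nat_lit 46284) (nat_lit 6) (nat_lit 609) (nat_lit 2) (nat_lit 194) (nat_lit 197) (nat_lit 179)))) (PT.nd (nat_lit 156) (PT.nd (nat_lit 78) (PT.lf (nat_lit 45448) (nat_lit 6) (nat_lit 598) (nat_lit 2) (nat_lit 195) (nat_lit 197) (nat_lit 178)) (PT.lf (nat_lit 44536) (nat_lit 6) (nat_lit 586) (nat_lit 2) (nat_lit 196) (nat_lit 197) (nat_lit 177))) (PT.nd (nat_lit 78) (PT.lf (nat_lit 43548) (nat_lit 3) (nat_lit 573) (nat_lit 0) (nat_lit 197) (nat_lit 197) (nat_lit 176)) (PT.lf (nat_lit 42408) (nat_lit 6) (nat_lit 558) (nat_lit 0) (nat_lit 198) (nat_lit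 197) (nat_lit 175))))) (PT.nd (nat_lit 234) (PT.nd (nat_lit 78) (PT.lf (nat_lit 41192) (nat_lit 6) (nat_lit 542) (nat_lit 0) (nat_lit 199) (nat_lit 197) (nat_lit 174)) (PT.nd (nat_lit 78) (PT.lf (nat_lit 39900) (nat_lit 6) (nat_lit 525) (nat_lit 0) (nat_lit 200) (nat_lit 197) (nat_lit 173)) (PT.lf (nat_lit 38532) (nat_lit 6) (nat_lit 507) (nat_lit 0) (nat_lit 201) (nat_lit 197) (nat_lit 172)))) (PT.nd (nat_lit 156) (PT.nd (nat_lit 78) (PT.lf (nat_lit 37088) (nat_lit 6) (nat_lit 488) (nat_lit 0) (nat_lit 202) (nat_lit 197) (nat_lit 171)) (PT.lf (nat_lit 35568) (nat_lit 6) (nat_lit 468) (nat_lit 0) (nat_lit 203) (nat_lit 197) (nat_lit 170))) (PT.nd (nat_lit 78) (PT.lf (nat_lit 33972) (nat_lit 6) (nat_lit 447) (nat_lit 0) (nat_lit 204) (nat_lit 197) (nat_lit 169)) (PT.lf (nat_lit 32300) (nat_lit 6) (nat_lit 425) (nat_lit 0) (nat_lit 205) (nat_lit 197) (nat_lit 168)))))) (PT.nd (nat_lit 546) (PT.nd (nat_lit 234)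 (PT.nd (nat_lit 78) (PT.lf (nat_lit 30552) (nat_lit 6) (nat_lit 402) (nat_lit 0) (nat_lit 206) (nat_lit 197) (nat_lit 167)) (PT.nd (nat_lit 78) (PT.lf (nat_lit 28728) (nat_lit 6) (nat_lit 378) (nat_lit 0) (nat_lit 207) (nat_lit 197) (nat_lit 166)) (PT.lf (nat_lit 27664) (nat_lit 6) (nat_lit 364) (nat_lit 0) (nat_lit 208) (nat_lit 197) (nat_lit 165)))) (PT.nd (nat_lit 156) (PT.nd (nat_lit 78) (PT.lf (nat_lit 26676) (nat_lit 6) (nat_lit 351) (nat_lit 0) (nat_lit 209) (nat_lit 197) (nat_lit 164)) (PT.lf (nat_lit 25764) (nat_lit 6) (nat_lit 339) (nat_lit 0) (nat_lit 210) (nat_lit 197) (nat_lit 163))) (PT.nd (nat_lit 78) (PT.lf (nat_lit 24852) (nat_lit 6) (nat_lit 327) (nat_lit 0) (nat_lit 211) (nat_lit 197) (nat_lit 162)) (PT.lf (nat_lit 24016) (nat_lit 6) (nat_lit 316) (nat_lit 0) (nat_lit 212) (nat_lit 197) (nat_lit 161))))) (PT.nd (nat_lit 54990) (PT.nd (nat_lit 156) (PT.nd (nat_lit 78) (PT.lf (nat_lit 23180)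 (nat_lit 6) (nat_lit 305) (nat_lit 0) (nat_lit 213) (nat_lit 197) (nat_lit 160)) (PT.lf (nat_lit 22344) (nat_lit 6) (nat_lit 294) (nat_lit 0) (nat_lit 214) (nat_lit 197) (nat_lit 159))) (PT.nd (nat_lit 54756) (PT.lf (nat_lit 21508) (nat_lit 6) (nat_lit 283) (nat_lit 0) (nat_lit 215) (nat_lit 197) (nat_lit 158)) (PT.lf (nat_lit 20064) (nat_lit 6) (nat_lit 264) (nat_lit 5) (nat_lit 156) (nat_lit 198) (nat_lit 216)))) (PT.nd (nat_lit 156) (PT.nd (nat_lit 78) (PT.lf (nat_lit 20824) (nat_lit 6) (nat_lit 274) (nat_lit 5) (nat_lit 157) (nat_lit 198) (nat_lit 215)) (PT.lf (nat_lit 21584) (nat_lit 6) (nat_lit 284) (nat_lit 5) (nat_lit 158) (nat_lit 198) (nat_lit 214))) (PT.nd (nat_lit 78) (PT.lf (nat_lit 22420) (nat_lit 6) (nat_lit 295) (nat_lit 5) (nat_lit 159) (nat_lit 198) (nat_lit 213)) (PT.lf (nat_lit 23256) (nat_lit 6) (nat_lit 306) (nat_lit 5) (nat_lit 160) (nat_lit 198) (nat_lit 212))))))))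
noncomputable def pc33 : PT := (PT.nd (nat_lit 2262) (PT.nd (nat_lit 1092) (PT.nd (nat_lit 546) (PT.nd (nat_lit 234) (PT.nd (nat_lit 78) (PT.lf (nat_lit 24092) (nat_lit 6) (nat_lit 317) (nat_lit 5) (nat_lit 161) (nat_lit 198) (nat_lit 211)) (PT.nd (nat_lit 78) (PT.lf (nat_lit 24928) (nat_lit 6) (nat_lit 328) (nat_lit 5) (nat_lit 162) (nat_lit 198) (nat_lit 210)) (PT.lf (nat_lit 25840) (nat_lit 6) (nat_lit 340) (nat_lit 5) (nat_lit 163) (nat_lit 198) (nat_lit 209)))) (PT.nd (nat_lit 156) (PT.nd (nat_lit 78) (PT.lf (nat_lit 26752) (nat_lit 6) (nat_lit 352) (nat_lit 5) (nat_lit 164) (nat_lit 198) (nat_lit 208)) (PT.lf (nat_lit 27740) (nat_lit 6) (nat_lit 365) (nat_lit 5) (nat_lit 165) (nat_lit 198) (nat_lit 207))) (PT.nd (nat_lit 78) (PT.lf (nat_lit 28804) (nat_lit 6) (nat_lit 379) (nat_lit 5) (nat_lit 166) (nat_lit 198) (nat_lit 206)) (PT.lf (nat_lit 30628) (nat_lit 6) (nat_lit 403) (nat_lit 5) (nat_lit 167) (nat_lit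 198) (nat_lit 205))))) (PT.nd (nat_lit 234) (PT.nd (nat_lit 78) (PT.lf (nat_lit 32376) (nat_lit 6) (nat_lit 426) (nat_lit 5) (nat_lit 168) (nat_lit 198) (nat_lit 204)) (PT.nd (nat_lit 78) (PT.lf (nat_lit 34048) (nat_lit 6) (nat_lit 448) (nat_lit 5) (nat_lit 169) (nat_lit 198) (nat_lit 203)) (PT.lf (nat_lit 35644) (nat_lit 6) (nat_lit 469) (nat_lit 5) (nat_lit 170) (nat_lit 198) (nat_lit 202)))) (PT.nd (nat_lit 156) (PT.nd (nat_lit 78) (PT.lf (nat_lit 37164) (nat_lit 6) (nat_lit 489) (nat_lit 5) (nat_lit 171) (nat_lit 198) (nat_lit 201)) (PT.lf (nat_lit 38608) (nat_lit 6) (nat_lit 508) (nat_lit 5) (nat_lit 172) (nat_lit 198) (nat_lit 200))) (PT.nd (nat_lit 78) (PT.lf (nat_lit 39976) (nat_lit 6) (nat_lit 526) (nat_lit 5) (nat_lit 173) (nat_lit 198) (nat_lit 199)) (PT.lf (nat_lit 41268) (nat_lit 3) (nat_lit 543) (nat_lit 4) (nat_lit 174) (nat_lit 198) (nat_lit 198)))))) (PT.nd (nat_lit 546) (PT.nd (nat_lit 234)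 (PT.nd (nat_lit 78) (PT.lf (nat_lit 42408) (nat_lit 6) (nat_lit 558) (nat_lit 4) (nat_lit 175) (nat_lit 198) (nat_lit 197)) (PT.nd (nat_lit 78) (PT.lf (nat_lit 43472) (nat_lit 6) (nat_lit 572) (nat_lit 4) (nat_lit 176) (nat_lit 198) (nat_lit 196)) (PT.lf (nat_lit 44460) (nat_lit 6) (nat_lit 585) (nat_lit 4) (nat_lit 177) (nat_lit 198) (nat_lit 195)))) (PT.nd (nat_lit 156) (PT.nd (nat_lit 78) (PT.lf (nat_lit 45372) (nat_lit 6) (nat_lit 597) (nat_lit 4) (nat_lit 178) (nat_lit 198) (nat_lit 194)) (PT.lf (nat_lit 46208) (nat_lit 6) (nat_lit 608) (nat_lit 4) (nat_lit 179) (nat_lit 198) (nat_lit 193))) (PT.nd (nat_lit 78) (PT.lf (nat_lit 46968) (nat_lit 6) (nat_lit 618) (nat_lit 4) (nat_lit 180) (nat_lit 198) (nat_lit 192)) (PT.lf (nat_lit 47652) (nat_lit 6) (nat_lit 627) (nat_lit 4) (nat_lit 181) (nat_lit 198) (nat_lit 191))))) (PT.nd (nat_lit 312) (PT.nd (nat_lit 156) (PT.nd (nat_lit 78) (PT.lf (nat_lit 48260) (nat_lit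 6) (nat_lit 635) (nat_lit 4) (nat_lit 182) (nat_lit 198) (nat_lit 190)) (PT.lf (nat_lit 48184) (nat_lit 6) (nat_lit 634) (nat_lit 4) (nat_lit 183) (nat_lit 198) (nat_lit 189))) (PT.nd (nat_lit 78) (PT.lf (nat_lit 48108) (nat_lit 6) (nat_lit 633) (nat_lit 4) (nat_lit 184) (nat_lit 198) (nat_lit 188)) (PT.lf (nat_lit 48032) (nat_lit 6) (nat_lit 632) (nat_lit 4) (nat_lit 185) (nat_lit 198) (nat_lit 187)))) (PT.nd (nat_lit 156) (PT.nd (nat_lit 78) (PT.lf (nat_lit 47956) (nat_lit 3) (nat_lit 631) (nat_lit 2) (nat_lit 186) (nat_lit 198) (nat_lit 186)) (PT.lf (nat_lit 48032) (nat_lit 6) (nat_lit 632) (nat_lit 2) (nat_lit 187) (nat_lit 198) (nat_lit 185))) (PT.nd (nat_lit 78) (PT.lf (nat_lit 48108) (nat_lit 6) (nat_lit 633) (nat_lit 2) (nat_lit 188) (nat_lit 198) (nat_lit 184)) (PT.lf (nat_lit 48184) (nat_lit 6) (nat_lit 634) (nat_lit 2) (nat_lit 189) (nat_lit 198) (nat_lit 183))))))) (PT.nd (nat_lit 1170) (PT.nd (nat_lit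 546) (PT.nd (nat_lit 234) (PT.nd (nat_lit 78) (PT.lf (nat_lit 48260) (nat_lit 6) (nat_lit 635) (nat_lit 2) (nat_lit 190) (nat_lit 198) (nat_lit 182)) (PT.nd (nat_lit 78) (PT.lf (nat_lit 47652) (nat_lit 6) (nat_lit 627) (nat_lit 2) (nat_lit 191) (nat_lit 198) (nat_lit 181)) (PT.lf (nat_lit 46968) (nat_lit 6) (nat_lit 618) (nat_lit 2) (nat_lit 192) (nat_lit 198) (nat_lit 180)))) (PT.nd (nat_lit 156) (PT.nd (nat_lit 78) (PT.lf (nat_lit 46208) (nat_lit 6) (nat_lit 608) (nat_lit 2) (nat_lit 193) (nat_lit 198) (nat_lit 179)) (PT.lf (nat_lit 45372) (nat_lit 6) (nat_lit 597) (nat_lit 2) (nat_lit 194) (nat_lit 198) (nat_lit 178))) (PT.nd (nat_lit 78) (PT.lf (nat_lit 44460) (nat_lit 6) (nat_lit 585) (nat_lit 2) (nat_lit 195) (nat_lit 198) (nat_lit 177)) (PT.lf (nat_lit 43472) (nat_lit 6) (nat_lit 572) (nat_lit 2) (nat_lit 196) (nat_lit 198) (nat_lit 176))))) (PT.nd (nat_lit 312) (PT.nd (nat_lit 156) (PT.nd (nat_lit 78)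 (PT.lf (nat_lit 42408) (nat_lit 6) (nat_lit 558) (nat_lit 2) (nat_lit 197) (nat_lit 198) (nat_lit 175)) (PT.lf (nat_lit 41268) (nat_lit 3) (nat_lit 543) (nat_lit 0) (nat_lit 198) (nat_lit 198) (nat_lit 174))) (PT.nd (nat_lit 78) (PT.lf (nat_lit 39976) (nat_lit 6) (nat_lit 526) (nat_lit 0) (nat_lit 199) (nat_lit 198) (nat_lit 173)) (PT.lf (nat_lit 38608) (nat_lit 6) (nat_lit 508) (nat_lit 0) (nat_lit 200) (nat_lit 198) (nat_lit 172)))) (PT.nd (nat_lit 156) (PT.nd (nat_lit 78) (PT.lf (nat_lit 37164) (nat_lit 6) (nat_lit 489) (nat_lit 0) (nat_lit 201) (nat_lit 198) (nat_lit 171)) (PT.lf (nat_lit 35644) (nat_lit 6) (nat_lit 469) (nat_lit 0) (nat_lit 202) (nat_lit 198) (nat_lit 170))) (PT.nd (nat_lit 78) (PT.lf (nat_lit 34048) (nat_lit 6) (nat_lit 448) (nat_lit 0) (nat_lit 203) (nat_lit 198) (nat_lit 169)) (PT.lf (nat_lit 32376) (nat_lit 6) (nat_lit 426) (nat_lit 0) (nat_lit 204) (nat_lit 198) (nat_lit 168))))))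 (PT.nd (nat_lit 546) (PT.nd (nat_lit 234) (PT.nd (nat_lit 78) (PT.lf (nat_lit 30628) (nat_lit 6) (nat_lit 403) (nat_lit 0) (nat_lit 205) (nat_lit 198) (nat_lit 167)) (PT.nd (nat_lit 78) (PT.lf (nat_lit 28804) (nat_lit 6) (nat_lit 379) (nat_lit 0) (nat_lit 206) (nat_lit 198) (nat_lit 166)) (PT.lf (nat_lit 27740) (nat_lit 6) (nat_lit 365) (nat_lit 0) (nat_lit 207) (nat_lit 198) (nat_lit 165)))) (PT.nd (nat_lit 156) (PT.nd (nat_lit 78) (PT.lf (nat_lit 26752) (nat_lit 6) (nat_lit 352) (nat_lit 0) (nat_lit 208) (nat_lit 198) (nat_lit 164)) (PT.lf (nat_lit 25840) (nat_lit 6) (nat_lit 340) (nat_lit 0) (nat_lit 209) (nat_lit 198) (nat_lit 163))) (PT.nd (nat_lit 78) (PT.lf (nat_lit 24928) (nat_lit 6) (nat_lit 328) (nat_lit 0) (nat_lit 210) (nat_lit 198) (nat_lit 162)) (PT.lf (nat_lit 24092) (nat_lit 6) (nat_lit 317) (nat_lit 0) (nat_lit 211) (nat_lit 198) (nat_lit 161))))) (PT.nd (nat_lit 312) (PT.nd (nat_lit 156) (PT.nd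 (nat_lit 78) (PT.lf (nat_lit 23256) (nat_lit 6) (nat_lit 306) (nat_lit 0) (nat_lit 212) (nat_lit 198) (nat_lit 160)) (PT.lf (nat_lit 22420) (nat_lit 6) (nat_lit 295) (nat_lit 0) (nat_lit 213) (nat_lit 198) (nat_lit 159))) (PT.nd (nat_lit 78) (PT.lf (nat_lit 21584) (nat_lit 6) (nat_lit 284) (nat_lit 0) (nat_lit 214) (nat_lit 198) (nat_lit 158)) (PT.lf (nat_lit 20824) (nat_lit 6) (nat_lit 274) (nat_lit 0) (nat_lit 215) (nat_lit 198) (nat_lit 157)))) (PT.nd (nat_lit 54678) (PT.nd (nat_lit 54600) (PT.lf (nat_lit 20064) (nat_lit 6) (nat_lit 264) (nat_lit 0) (nat_lit 216) (nat_lit 198) (nat_lit 156)) (PT.lf (nat_lit 19380) (nat_lit 6) (nat_lit 255) (nat_lit 5) (nat_lit 155) (nat_lit 199) (nat_lit 216))) (PT.nd (nat_lit 78) (PT.lf (nat_lit 20140) (nat_lit 6) (nat_lit 265) (nat_lit 5) (nat_lit 156) (nat_lit 199) (nat_lit 215)) (PT.lf (nat_lit 20900) (nat_lit 6) (nat_lit 275) (nat_lit 5) (nat_lit 157) (nat_lit 199) (nat_lit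 214))))))))
noncomputable def pc34 : PT := (PT.nd (nat_lit 2262) (PT.nd (nat_lit 1092) (PT.nd (nat_lit 546) (PT.nd (nat_lit 234) (PT.nd (nat_lit 78) (PT.lf (nat_lit 21660) (nat_lit 6) (nat_lit 285) (nat_lit 5) (nat_lit 158) (nat_lit 199) (nat_lit 213)) (PT.nd (nat_lit 78) (PT.lf (nat_lit 22496) (nat_lit 6) (nat_lit 296) (nat_lit 5) (nat_lit 159) (nat_lit 199) (nat_lit 212)) (PT.lf (nat_lit 23332) (nat_lit 6) (nat_lit 307) (nat_lit 5) (nat_lit 160) (nat_lit 199) (nat_lit 211)))) (PT.nd (nat_lit 156) (PT.nd (nat_lit 78) (PT.lf (nat_lit 24168) (nat_lit 6) (nat_lit 318) (nat_lit 5) (nat_lit 161) (nat_lit 199) (nat_lit 210)) (PT.lf (nat_lit 25004) (nat_lit 6) (nat_lit 329) (nat_lit 5) (nat_lit 162) (nat_lit 199) (nat_lit 209))) (PT.nd (nat_lit 78) (PT.lf (nat_lit 25916) (nat_lit 6) (nat_lit 341) (nat_lit 5) (nat_lit 163) (nat_lit 199) (nat_lit 208)) (PT.lf (nat_lit 26828) (nat_lit 6) (nat_lit 353) (nat_lit 5) (nat_lit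 164) (nat_lit 199) (nat_lit 207))))) (PT.nd (nat_lit 234) (PT.nd (nat_lit 78) (PT.lf (nat_lit 27816) (nat_lit 6) (nat_lit 366) (nat_lit 5) (nat_lit 165) (nat_lit 199) (nat_lit 206)) (PT.nd (nat_lit 78) (PT.lf (nat_lit 28880) (nat_lit 6) (nat_lit 380) (nat_lit 5) (nat_lit 166) (nat_lit 199) (nat_lit 205)) (PT.lf (nat_lit 30704) (nat_lit 6) (nat_lit 404) (nat_lit 5) (nat_lit 167) (nat_lit 199) (nat_lit 204)))) (PT.nd (nat_lit 156) (PT.nd (nat_lit 78) (PT.lf (nat_lit 32452) (nat_lit 6) (nat_lit 427) (nat_lit 5) (nat_lit 168) (nat_lit 199) (nat_lit 203)) (PT.lf (nat_lit 34124) (nat_lit 6) (nat_lit 449) (nat_lit 5) (nat_lit 169) (nat_lit 199) (nat_lit 202))) (PT.nd (nat_lit 78) (PT.lf (nat_lit 35720) (nat_lit 6) (nat_lit 470) (nat_lit 5) (nat_lit 170) (nat_lit 199) (nat_lit 201)) (PT.lf (nat_lit 37240) (nat_lit 6) (nat_lit 490) (nat_lit 5) (nat_lit 171) (nat_lit 199) (nat_lit 200)))))) (PT.nd (nat_lit 546) (PT.nd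 (nat_lit 234) (PT.nd (nat_lit 78) (PT.lf (nat_lit 38684) (nat_lit 3) (nat_lit 509) (nat_lit 4) (nat_lit 172) (nat_lit 199) (nat_lit 199)) (PT.nd (nat_lit 78) (PT.lf (nat_lit 39976) (nat_lit 6) (nat_lit 526) (nat_lit 4) (nat_lit 173) (nat_lit 199) (nat_lit 198)) (PT.lf (nat_lit 41192) (nat_lit 6) (nat_lit 542) (nat_lit 4) (nat_lit 174) (nat_lit 199) (nat_lit 197)))) (PT.nd (nat_lit 156) (PT.nd (nat_lit 78) (PT.lf (nat_lit 42332) (nat_lit 6) (nat_lit 557) (nat_lit 4) (nat_lit 175) (nat_lit 199) (nat_lit 196)) (PT.lf (nat_lit 43396) (nat_lit 6) (nat_lit 571) (nat_lit 4) (nat_lit 176) (nat_lit 199) (nat_lit 195))) (PT.nd (nat_lit 78) (PT.lf (nat_lit 44384) (nat_lit 6) (nat_lit 584) (nat_lit 4) (nat_lit 177) (nat_lit 199) (nat_lit 194)) (PT.lf (nat_lit 45296) (nat_lit 6) (nat_lit 596) (nat_lit 4) (nat_lit 178) (nat_lit 199) (nat_lit 193))))) (PT.nd (nat_lit 312) (PT.nd (nat_lit 156) (PT.nd (nat_lit 78) (PT.lf (nat_lit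 46132) (nat_lit 6) (nat_lit 607) (nat_lit 4) (nat_lit 179) (nat_lit 199) (nat_lit 192)) (PT.lf (nat_lit 46892) (nat_lit 6) (nat_lit 617) (nat_lit 4) (nat_lit 180) (nat_lit 199) (nat_lit 191))) (PT.nd (nat_lit 78) (PT.lf (nat_lit 47576) (nat_lit 6) (nat_lit 626) (nat_lit 4) (nat_lit 181) (nat_lit 199) (nat_lit 190)) (PT.lf (nat_lit 47500) (nat_lit 6) (nat_lit 625) (nat_lit 4) (nat_lit 182) (nat_lit 199) (nat_lit 189)))) (PT.nd (nat_lit 156) (PT.nd (nat_lit 78) (PT.lf (nat_lit 47424) (nat_lit 6) (nat_lit 624) (nat_lit 4) (nat_lit 183) (nat_lit 199) (nat_lit 188)) (PT.lf (nat_lit 47348) (nat_lit 6) (nat_lit 623) (nat_lit 4) (nat_lit 184) (nat_lit 199) (nat_lit 187))) (PT.nd (nat_lit 78) (PT.lf (nat_lit 47272) (nat_lit 6) (nat_lit 622) (nat_lit 4) (nat_lit 185) (nat_lit 199) (nat_lit 186)) (PT.lf (nat_lit 47272) (nat_lit 6) (nat_lit 622) (nat_lit 2) (nat_lit 186) (nat_lit 199) (nat_lit 185))))))) (PT.nd (nat_lit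 1092) (PT.nd (nat_lit 546) (PT.nd (nat_lit 234) (PT.nd (nat_lit 78) (PT.lf (nat_lit 47348) (nat_lit 6) (nat_lit 623) (nat_lit 2) (nat_lit 187) (nat_lit 199) (nat_lit 184)) (PT.nd (nat_lit 78) (PT.lf (nat_lit 47424) (nat_lit 6) (nat_lit 624) (nat_lit 2) (nat_lit 188) (nat_lit 199) (nat_lit 183)) (PT.lf (nat_lit 47500) (nat_lit 6) (nat_lit 625) (nat_lit 2) (nat_lit 189) (nat_lit 199) (nat_lit 182)))) (PT.nd (nat_lit 156) (PT.nd (nat_lit 78) (PT.lf (nat_lit 47576) (nat_lit 6) (nat_lit 626) (nat_lit 2) (nat_lit 190) (nat_lit 199) (nat_lit 181)) (PT.lf (nat_lit 46892) (nat_lit 6) (nat_lit 617) (nat_lit 2) (nat_lit 191) (nat_lit 199) (nat_lit 180))) (PT.nd (nat_lit 78) (PT.lf (nat_lit 46132) (nat_lit 6) (nat_lit 607) (nat_lit 2) (nat_lit 192) (nat_lit 199) (nat_lit 179)) (PT.lf (nat_lit 45296) (nat_lit 6) (nat_lit 596) (nat_lit 2) (nat_lit 193) (nat_lit 199) (nat_lit 178))))) (PT.nd (nat_lit 234) (PT.nd (nat_lit 78)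 (PT.lf (nat_lit 44384) (nat_lit 6) (nat_lit 584) (nat_lit 2) (nat_lit 194) (nat_lit 199) (nat_lit 177)) (PT.nd (nat_lit 78) (PT.lf (nat_lit 43396) (nat_lit 6) (nat_lit 571) (nat_lit 2) (nat_lit 195) (nat_lit 199) (nat_lit 176)) (PT.lf (nat_lit 42332) (nat_lit 6) (nat_lit 557) (nat_lit 2) (nat_lit 196) (nat_lit 199) (nat_lit 175)))) (PT.nd (nat_lit 156) (PT.nd (nat_lit 78) (PT.lf (nat_lit 41192) (nat_lit 6) (nat_lit 542) (nat_lit 2) (nat_lit 197) (nat_lit 199) (nat_lit 174)) (PT.lf (nat_lit 39976) (nat_lit 6) (nat_lit 526) (nat_lit 2) (nat_lit 198) (nat_lit 199) (nat_lit 173))) (PT.nd (nat_lit 78) (PT.lf (nat_lit 38684) (nat_lit 3) (nat_lit 509) (nat_lit 0) (nat_lit 199) (nat_lit 199) (nat_lit 172)) (PT.lf (nat_lit 37240) (nat_lit 6) (nat_lit 490) (nat_lit 0) (nat_lit 200) (nat_lit 199) (nat_lit 171)))))) (PT.nd (nat_lit 546) (PT.nd (nat_lit 234) (PT.nd (nat_lit 78) (PT.lf (nat_lit 35720) (nat_lit 6) (nat_lit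 470) (nat_lit 0) (nat_lit 201) (nat_lit 199) (nat_lit 170)) (PT.nd (nat_lit 78) (PT.lf (nat_lit 34124) (nat_lit 6) (nat_lit 449) (nat_lit 0) (nat_lit 202) (nat_lit 199) (nat_lit 169)) (PT.lf (nat_lit 32452) (nat_lit 6) (nat_lit 427) (nat_lit 0) (nat_lit 203) (nat_lit 199) (nat_lit 168)))) (PT.nd (nat_lit 156) (PT.nd (nat_lit 78) (PT.lf (nat_lit 30704) (nat_lit 6) (nat_lit 404) (nat_lit 0) (nat_lit 204) (nat_lit 199) (nat_lit 167)) (PT.lf (nat_lit 28880) (nat_lit 6) (nat_lit 380) (nat_lit 0) (nat_lit 205) (nat_lit 199) (nat_lit 166))) (PT.nd (nat_lit 78) (PT.lf (nat_lit 27816) (nat_lit 6) (nat_lit 366) (nat_lit 0) (nat_lit 206) (nat_lit 199) (nat_lit 165)) (PT.lf (nat_lit 26828) (nat_lit 6) (nat_lit 353) (nat_lit 0) (nat_lit 207) (nat_lit 199) (nat_lit 164))))) (PT.nd (nat_lit 312) (PT.nd (nat_lit 156) (PT.nd (nat_lit 78) (PT.lf (nat_lit 25916) (nat_lit 6) (nat_lit 341) (nat_lit 0) (nat_lit 208) (nat_lit 199)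 (nat_lit 163)) (PT.lf (nat_lit 25004) (nat_lit 6) (nat_lit 329) (nat_lit 0) (nat_lit 209) (nat_lit 199) (nat_lit 162))) (PT.nd (nat_lit 78) (PT.lf (nat_lit 24168) (nat_lit 6) (nat_lit 318) (nat_lit 0) (nat_lit 210) (nat_lit 199) (nat_lit 161)) (PT.lf (nat_lit 23332) (nat_lit 6) (nat_lit 307) (nat_lit 0) (nat_lit 211) (nat_lit 199) (nat_lit 160)))) (PT.nd (nat_lit 156) (PT.nd (nat_lit 78) (PT.lf (nat_lit 22496) (nat_lit 6) (nat_lit 296) (nat_lit 0) (nat_lit 212) (nat_lit 199) (nat_lit 159)) (PT.lf (nat_lit 21660) (nat_lit 6) (nat_lit 285) (nat_lit 0) (nat_lit 213) (nat_lit 199) (nat_lit 158))) (PT.nd (nat_lit 78) (PT.lf (nat_lit 20900) (nat_lit 6) (nat_lit 275) (nat_lit 0) (nat_lit 214) (nat_lit 199) (nat_lit 157)) (PT.lf (nat_lit 20140) (nat_lit 6) (nat_lit 265) (nat_lit 0) (nat_lit 215) (nat_lit 199) (nat_lit 156))))))))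
noncomputable def pc35 : PT := (PT.nd (nat_lit 56706) (PT.nd (nat_lit 55536) (PT.nd (nat_lit 54990) (PT.nd (nat_lit 54678) (PT.nd (nat_lit 54522) (PT.lf (nat_lit 19380) (nat_lit 6) (nat_lit 255) (nat_lit 0) (nat_lit 216) (nat_lit 199) (nat_lit 155)) (PT.nd (nat_lit 78) (PT.lf (nat_lit 18696) (nat_lit 6) (nat_lit 246) (nat_lit 5) (nat_lit 154) (nat_lit 200) (nat_lit 216)) (PT.lf (nat_lit 19456) (nat_lit 6) (nat_lit 256) (nat_lit 5) (nat_lit 155) (nat_lit 200) (nat_lit 215)))) (PT.nd (nat_lit 156) (PT.nd (nat_lit 78) (PT.lf (nat_lit 20216) (nat_lit 6) (nat_lit 266) (nat_lit 5) (nat_lit 156) (nat_lit 200) (nat_lit 214)) (PT.lf (nat_lit 20976) (nat_lit 6) (nat_lit 276) (nat_lit 5) (nat_lit 157) (nat_lit 200) (nat_lit 213))) (PT.nd (nat_lit 78) (PT.lf (nat_lit 21736) (nat_lit 6) (nat_lit 286) (nat_lit 5) (nat_lit 158) (nat_lit 200) (nat_lit 212)) (PT.lf (nat_lit 22572) (nat_lit 6) (nat_lit 297) (nat_lit 5) (nat_lit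 159) (nat_lit 200) (nat_lit 211))))) (PT.nd (nat_lit 234) (PT.nd (nat_lit 78) (PT.lf (nat_lit 23408) (nat_lit 6) (nat_lit 308) (nat_lit 5) (nat_lit 160) (nat_lit 200) (nat_lit 210)) (PT.nd (nat_lit 78) (PT.lf (nat_lit 24244) (nat_lit 6) (nat_lit 319) (nat_lit 5) (nat_lit 161) (nat_lit 200) (nat_lit 209)) (PT.lf (nat_lit 25080) (nat_lit 6) (nat_lit 330) (nat_lit 5) (nat_lit 162) (nat_lit 200) (nat_lit 208)))) (PT.nd (nat_lit 156) (PT.nd (nat_lit 78) (PT.lf (nat_lit 25992) (nat_lit 6) (nat_lit 342) (nat_lit 5) (nat_lit 163) (nat_lit 200) (nat_lit 207)) (PT.lf (nat_lit 26904) (nat_lit 6) (nat_lit 354) (nat_lit 5) (nat_lit 164) (nat_lit 200) (nat_lit 206))) (PT.nd (nat_lit 78) (PT.lf (nat_lit 27892) (nat_lit 6) (nat_lit 367) (nat_lit 5) (nat_lit 165) (nat_lit 200) (nat_lit 205)) (PT.lf (nat_lit 28956) (nat_lit 6) (nat_lit 381) (nat_lit 5) (nat_lit 166) (nat_lit 200) (nat_lit 204)))))) (PT.nd (nat_lit 546) (PT.nd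 (nat_lit 234) (PT.nd (nat_lit 78) (PT.lf (nat_lit 30780) (nat_lit 6) (nat_lit 405) (nat_lit 5) (nat_lit 167) (nat_lit 200) (nat_lit 203)) (PT.nd (nat_lit 78) (PT.lf (nat_lit 32528) (nat_lit 6) (nat_lit 428) (nat_lit 5) (nat_lit 168) (nat_lit 200) (nat_lit 202)) (PT.lf (nat_lit 34200) (nat_lit 6) (nat_lit 450) (nat_lit 5) (nat_lit 169) (nat_lit 200) (nat_lit 201)))) (PT.nd (nat_lit 156) (PT.nd (nat_lit 78) (PT.lf (nat_lit 35796) (nat_lit 3) (nat_lit 471) (nat_lit 4) (nat_lit 170) (nat_lit 200) (nat_lit 200)) (PT.lf (nat_lit 37240) (nat_lit 6) (nat_lit 490) (nat_lit 4) (nat_lit 171) (nat_lit 200) (nat_lit 199))) (PT.nd (nat_lit 78) (PT.lf (nat_lit 38608) (nat_lit 6) (nat_lit 508) (nat_lit 4) (nat_lit 172) (nat_lit 200) (nat_lit 198)) (PT.lf (nat_lit 39900) (nat_lit 6) (nat_lit 525) (nat_lit 4) (nat_lit 173) (nat_lit 200) (nat_lit 197))))) (PT.nd (nat_lit 312) (PT.nd (nat_lit 156) (PT.nd (nat_lit 78) (PT.lf (nat_lit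 41116) (nat_lit 6) (nat_lit 541) (nat_lit 4) (nat_lit 174) (nat_lit 200) (nat_lit 196)) (PT.lf (nat_lit 42256) (nat_lit 6) (nat_lit 556) (nat_lit 4) (nat_lit 175) (nat_lit 200) (nat_lit 195))) (PT.nd (nat_lit 78) (PT.lf (nat_lit 43320) (nat_lit 6) (nat_lit 570) (nat_lit 4) (nat_lit 176) (nat_lit 200) (nat_lit 194)) (PT.lf (nat_lit 44308) (nat_lit 6) (nat_lit 583) (nat_lit 4) (nat_lit 177) (nat_lit 200) (nat_lit 193)))) (PT.nd (nat_lit 156) (PT.nd (nat_lit 78) (PT.lf (nat_lit 45220) (nat_lit 6) (nat_lit 595) (nat_lit 4) (nat_lit 178) (nat_lit 200) (nat_lit 192)) (PT.lf (nat_lit 46056) (nat_lit 6) (nat_lit 606) (nat_lit 4) (nat_lit 179) (nat_lit 200) (nat_lit 191))) (PT.nd (nat_lit 78) (PT.lf (nat_lit 46816) (nat_lit 6) (nat_lit 616) (nat_lit 4) (nat_lit 180) (nat_lit 200) (nat_lit 190)) (PT.lf (nat_lit 46740) (nat_lit 6) (nat_lit 615) (nat_lit 4) (nat_lit 181) (nat_lit 200) (nat_lit 189))))))) (PT.nd (nat_lit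 1170) (PT.nd (nat_lit 546) (PT.nd (nat_lit 234) (PT.nd (nat_lit 78) (PT.lf (nat_lit 46664) (nat_lit 6) (nat_lit 614) (nat_lit 4) (nat_lit 182) (nat_lit 200) (nat_lit 188)) (PT.nd (nat_lit 78) (PT.lf (nat_lit 46588) (nat_lit 6) (nat_lit 613) (nat_lit 4) (nat_lit 183) (nat_lit 200) (nat_lit 187)) (PT.lf (nat_lit 46512) (nat_lit 6) (nat_lit 612) (nat_lit 4) (nat_lit 184) (nat_lit 200) (nat_lit 186)))) (PT.nd (nat_lit 156) (PT.nd (nat_lit 78) (PT.lf (nat_lit 46436) (nat_lit 3) (nat_lit 611) (nat_lit 2) (nat_lit 185) (nat_lit 200) (nat_lit 185)) (PT.lf (nat_lit 46512) (nat_lit 6) (nat_lit 612) (nat_lit 2) (nat_lit 186) (nat_lit 200) (nat_lit 184))) (PT.nd (nat_lit 78) (PT.lf (nat_lit 46588) (nat_lit 6) (nat_lit 613) (nat_lit 2) (nat_lit 187) (nat_lit 200) (nat_lit 183)) (PT.lf (nat_lit 46664) (nat_lit 6) (nat_lit 614) (nat_lit 2) (nat_lit 188) (nat_lit 200) (nat_lit 182))))) (PT.nd (nat_lit 312) (PT.nd (nat_lit 156)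 (PT.nd (nat_lit 78) (PT.lf (nat_lit 46740) (nat_lit 6) (nat_lit 615) (nat_lit 2) (nat_lit 189) (nat_lit 200) (nat_lit 181)) (PT.lf (nat_lit 46816) (nat_lit 6) (nat_lit 616) (nat_lit 2) (nat_lit 190) (nat_lit 200) (nat_lit 180))) (PT.nd (nat_lit 78) (PT.lf (nat_lit 46056) (nat_lit 6) (nat_lit 606) (nat_lit 2) (nat_lit 191) (nat_lit 200) (nat_lit 179)) (PT.lf (nat_lit 45220) (nat_lit 6) (nat_lit 595) (nat_lit 2) (nat_lit 192) (nat_lit 200) (nat_lit 178)))) (PT.nd (nat_lit 156) (PT.nd (nat_lit 78) (PT.lf (nat_lit 44308) (nat_lit 6) (nat_lit 583) (nat_lit 2) (nat_lit 193) (nat_lit 200) (nat_lit 177)) (PT.lf (nat_lit 43320) (nat_lit 6) (nat_lit 570) (nat_lit 2) (nat_lit 194) (nat_lit 200) (nat_lit 176))) (PT.nd (nat_lit 78) (PT.lf (nat_lit 42256) (nat_lit 6) (nat_lit 556) (nat_lit 2) (nat_lit 195) (nat_lit 200) (nat_lit 175)) (PT.lf (nat_lit 41116) (nat_lit 6) (nat_lit 541) (nat_lit 2) (nat_lit 196) (nat_lit 200)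 (nat_lit 174)))))) (PT.nd (nat_lit 546) (PT.nd (nat_lit 234) (PT.nd (nat_lit 78) (PT.lf (nat_lit 39900) (nat_lit 6) (nat_lit 525) (nat_lit 2) (nat_lit 197) (nat_lit 200) (nat_lit 173)) (PT.nd (nat_lit 78) (PT.lf (nat_lit 38608) (nat_lit 6) (nat_lit 508) (nat_lit 2) (nat_lit 198) (nat_lit 200) (nat_lit 172)) (PT.lf (nat_lit 37240) (nat_lit 6) (nat_lit 490) (nat_lit 2) (nat_lit 199) (nat_lit 200) (nat_lit 171)))) (PT.nd (nat_lit 156) (PT.nd (nat_lit 78) (PT.lf (nat_lit 35796) (nat_lit 3) (nat_lit 471) (nat_lit 0) (nat_lit 200) (nat_lit 200) (nat_lit 170)) (PT.lf (nat_lit 34200) (nat_lit 6) (nat_lit 450) (nat_lit 0) (nat_lit 201) (nat_lit 200) (nat_lit 169))) (PT.nd (nat_lit 78) (PT.lf (nat_lit 32528) (nat_lit 6) (nat_lit 428) (nat_lit 0) (nat_lit 202) (nat_lit 200) (nat_lit 168)) (PT.lf (nat_lit 30780) (nat_lit 6) (nat_lit 405) (nat_lit 0) (nat_lit 203) (nat_lit 200) (nat_lit 167))))) (PT.nd (nat_lit 312) (PT.nd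 (nat_lit 156) (PT.nd (nat_lit 78) (PT.lf (nat_lit 28956) (nat_lit 6) (nat_lit 381) (nat_lit 0) (nat_lit 204) (nat_lit 200) (nat_lit 166)) (PT.lf (nat_lit 27892) (nat_lit 6) (nat_lit 367) (nat_lit 0) (nat_lit 205) (nat_lit 200) (nat_lit 165))) (PT.nd (nat_lit 78) (PT.lf (nat_lit 26904) (nat_lit 6) (nat_lit 354) (nat_lit 0) (nat_lit 206) (nat_lit 200) (nat_lit 164)) (PT.lf (nat_lit 25992) (nat_lit 6) (nat_lit 342) (nat_lit 0) (nat_lit 207) (nat_lit 200) (nat_lit 163)))) (PT.nd (nat_lit 156) (PT.nd (nat_lit 78) (PT.lf (nat_lit 25080) (nat_lit 6) (nat_lit 330) (nat_lit 0) (nat_lit 208) (nat_lit 200) (nat_lit 162)) (PT.lf (nat_lit 24244) (nat_lit 6) (nat_lit 319) (nat_lit 0) (nat_lit 209) (nat_lit 200) (nat_lit 161))) (PT.nd (nat_lit 78) (PT.lf (nat_lit 23408) (nat_lit 6) (nat_lit 308) (nat_lit 0) (nat_lit 210) (nat_lit 200) (nat_lit 160)) (PT.lf (nat_lit 22572) (nat_lit 6) (nat_lit 297) (nat_lit 0) (nat_lit 211)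 (nat_lit 200) (nat_lit 159))))))))
noncomputable def pc36 : PT := (PT.nd (nat_lit 56550) (PT.nd (nat_lit 55380) (PT.nd (nat_lit 54834) (PT.nd (nat_lit 234) (PT.nd (nat_lit 78) (PT.lf (nat_lit 21736) (nat_lit 6) (nat_lit 286) (nat_lit 0) (nat_lit 212) (nat_lit 200) (nat_lit 158)) (PT.nd (nat_lit 78) (PT.lf (nat_lit 20976) (nat_lit 6) (nat_lit 276) (nat_lit 0) (nat_lit 213) (nat_lit 200) (nat_lit 157)) (PT.lf (nat_lit 20216) (nat_lit 6) (nat_lit 266) (nat_lit 0) (nat_lit 214) (nat_lit 200) (nat_lit 156)))) (PT.nd (nat_lit 54444) (PT.nd (nat_lit 78) (PT.lf (nat_lit 19456) (nat_lit 6) (nat_lit 256) (nat_lit 0) (nat_lit 215) (nat_lit 200) (nat_lit 155)) (PT.lf (nat_lit 18696) (nat_lit 6) (nat_lit 246) (nat_lit 0) (nat_lit 216) (nat_lit 200) (nat_lit 154))) (PT.nd (nat_lit 78) (PT.lf (nat_lit 17404) (nat_lit 6) (nat_lit 229) (nat_lit 5) (nat_lit 152) (nat_lit 201) (nat_lit 217)) (PT.lf (nat_lit 18088) (nat_lit 6)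 (nat_lit 238) (nat_lit 5) (nat_lit 153) (nat_lit 201) (nat_lit 216))))) (PT.nd (nat_lit 234) (PT.nd (nat_lit 78) (PT.lf (nat_lit 18772) (nat_lit 6) (nat_lit 247) (nat_lit 5) (nat_lit 154) (nat_lit 201) (nat_lit 215)) (PT.nd (nat_lit 78) (PT.lf (nat_lit 19532) (nat_lit 6) (nat_lit 257) (nat_lit 5) (nat_lit 155) (nat_lit 201) (nat_lit 214)) (PT.lf (nat_lit 20292) (nat_lit 6) (nat_lit 267) (nat_lit 5) (nat_lit 156) (nat_lit 201) (nat_lit 213)))) (PT.nd (nat_lit 156) (PT.nd (nat_lit 78) (PT.lf (nat_lit 21052) (nat_lit 6) (nat_lit 277) (nat_lit 5) (nat_lit 157) (nat_lit 201) (nat_lit 212)) (PT.lf (nat_lit 21812) (nat_lit 6) (nat_lit 287) (nat_lit 5) (nat_lit 158) (nat_lit 201) (nat_lit 211))) (PT.nd (nat_lit 78) (PT.lf (nat_lit 22648) (nat_lit 6) (nat_lit 298) (nat_lit 5) (nat_lit 159) (nat_lit 201) (nat_lit 210)) (PT.lf (nat_lit 23484) (nat_lit 6) (nat_lit 309) (nat_lit 5) (nat_lit 160) (nat_lit 201) (nat_lit 209))))))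 (PT.nd (nat_lit 546) (PT.nd (nat_lit 234) (PT.nd (nat_lit 78) (PT.lf (nat_lit 24320) (nat_lit 6) (nat_lit 320) (nat_lit 5) (nat_lit 161) (nat_lit 201) (nat_lit 208)) (PT.nd (nat_lit 78) (PT.lf (nat_lit 25156) (nat_lit 6) (nat_lit 331) (nat_lit 5) (nat_lit 162) (nat_lit 201) (nat_lit 207)) (PT.lf (nat_lit 26068) (nat_lit 6) (nat_lit 343) (nat_lit 5) (nat_lit 163) (nat_lit 201) (nat_lit 206)))) (PT.nd (nat_lit 156) (PT.nd (nat_lit 78) (PT.lf (nat_lit 26980) (nat_lit 6) (nat_lit 355) (nat_lit 5) (nat_lit 164) (nat_lit 201) (nat_lit 205)) (PT.lf (nat_lit 27968) (nat_lit 6) (nat_lit 368) (nat_lit 5) (nat_lit 165) (nat_lit 201) (nat_lit 204))) (PT.nd (nat_lit 78) (PT.lf (nat_lit 29032) (nat_lit 6) (nat_lit 382) (nat_lit 5) (nat_lit 166) (nat_lit 201) (nat_lit 203)) (PT.lf (nat_lit 30856) (nat_lit 6) (nat_lit 406) (nat_lit 5) (nat_lit 167) (nat_lit 201) (nat_lit 202))))) (PT.nd (nat_lit 312) (PT.nd (nat_lit 156) (PT.nd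 (nat_lit 78) (PT.lf (nat_lit 32604) (nat_lit 3) (nat_lit 429) (nat_lit 4) (nat_lit 168) (nat_lit 201) (nat_lit 201)) (PT.lf (nat_lit 34200) (nat_lit 6) (nat_lit 450) (nat_lit 4) (nat_lit 169) (nat_lit 201) (nat_lit 200))) (PT.nd (nat_lit 78) (PT.lf (nat_lit 35720) (nat_lit 6) (nat_lit 470) (nat_lit 4) (nat_lit 170) (nat_lit 201) (nat_lit 199)) (PT.lf (nat_lit 37164) (nat_lit 6) (nat_lit 489) (nat_lit 4) (nat_lit 171) (nat_lit 201) (nat_lit 198)))) (PT.nd (nat_lit 156) (PT.nd (nat_lit 78) (PT.lf (nat_lit 38532) (nat_lit 6) (nat_lit 507) (nat_lit 4) (nat_lit 172) (nat_lit 201) (nat_lit 197)) (PT.lf (nat_lit 39824) (nat_lit 6) (nat_lit 524) (nat_lit 4) (nat_lit 173) (nat_lit 201) (nat_lit 196))) (PT.nd (nat_lit 78) (PT.lf (nat_lit 41040) (nat_lit 6) (nat_lit 540) (nat_lit 4) (nat_lit 174) (nat_lit 201) (nat_lit 195)) (PT.lf (nat_lit 42180) (nat_lit 6) (nat_lit 555) (nat_lit 4) (nat_lit 175) (nat_lit 201) (nat_lit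 194))))))) (PT.nd (nat_lit 1092) (PT.nd (nat_lit 546) (PT.nd (nat_lit 234) (PT.nd (nat_lit 78) (PT.lf (nat_lit 43244) (nat_lit 6) (nat_lit 569) (nat_lit 4) (nat_lit 176) (nat_lit 201) (nat_lit 193)) (PT.nd (nat_lit 78) (PT.lf (nat_lit 44232) (nat_lit 6) (nat_lit 582) (nat_lit 4) (nat_lit 177) (nat_lit 201) (nat_lit 192)) (PT.lf (nat_lit 45144) (nat_lit 6) (nat_lit 594) (nat_lit 4) (nat_lit 178) (nat_lit 201) (nat_lit 191)))) (PT.nd (nat_lit 156) (PT.nd (nat_lit 78) (PT.lf (nat_lit 45980) (nat_lit 6) (nat_lit 605) (nat_lit 4) (nat_lit 179) (nat_lit 201) (nat_lit 190)) (PT.lf (nat_lit 45904) (nat_lit 6) (nat_lit 604) (nat_lit 4) (nat_lit 180) (nat_lit 201) (nat_lit 189))) (PT.nd (nat_lit 78) (PT.lf (nat_lit 45828) (nat_lit 6) (nat_lit 603) (nat_lit 4) (nat_lit 181) (nat_lit 201) (nat_lit 188)) (PT.lf (nat_lit 45752) (nat_lit 6) (nat_lit 602) (nat_lit 4) (nat_lit 182) (nat_lit 201) (nat_lit 187))))) (PT.nd (nat_lit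 234) (PT.nd (nat_lit 78) (PT.lf (nat_lit 45676) (nat_lit 6) (nat_lit 601) (nat_lit 4) (nat_lit 183) (nat_lit 201) (nat_lit 186)) (PT.nd (nat_lit 78) (PT.lf (nat_lit 45600) (nat_lit 6) (nat_lit 600) (nat_lit 4) (nat_lit 184) (nat_lit 201) (nat_lit 185)) (PT.lf (nat_lit 45600) (nat_lit 6) (nat_lit 600) (nat_lit 2) (nat_lit 185) (nat_lit 201) (nat_lit 184)))) (PT.nd (nat_lit 156) (PT.nd (nat_lit 78) (PT.lf (nat_lit 45676) (nat_lit 6) (nat_lit 601) (nat_lit 2) (nat_lit 186) (nat_lit 201) (nat_lit 183)) (PT.lf (nat_lit 45752) (nat_lit 6) (nat_lit 602) (nat_lit 2) (nat_lit 187) (nat_lit 201) (nat_lit 182))) (PT.nd (nat_lit 78) (PT.lf (nat_lit 45828) (nat_lit 6) (nat_lit 603) (nat_lit 2) (nat_lit 188) (nat_lit 201) (nat_lit 181)) (PT.lf (nat_lit 45904) (nat_lit 6) (nat_lit 604) (nat_lit 2) (nat_lit 189) (nat_lit 201) (nat_lit 180)))))) (PT.nd (nat_lit 546) (PT.nd (nat_lit 234) (PT.nd (nat_lit 78) (PT.lf (nat_lit 45980)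 (nat_lit 6) (nat_lit 605) (nat_lit 2) (nat_lit 190) (nat_lit 201) (nat_lit 179)) (PT.nd (nat_lit 78) (PT.lf (nat_lit 45144) (nat_lit 6) (nat_lit 594) (nat_lit 2) (nat_lit 191) (nat_lit 201) (nat_lit 178)) (PT.lf (nat_lit 44232) (nat_lit 6) (nat_lit 582) (nat_lit 2) (nat_lit 192) (nat_lit 201) (nat_lit 177)))) (PT.nd (nat_lit 156) (PT.nd (nat_lit 78) (PT.lf (nat_lit 43244) (nat_lit 6) (nat_lit 569) (nat_lit 2) (nat_lit 193) (nat_lit 201) (nat_lit 176)) (PT.lf (nat_lit 42180) (nat_lit 6) (nat_lit 555) (nat_lit 2) (nat_lit 194) (nat_lit 201) (nat_lit 175))) (PT.nd (nat_lit 78) (PT.lf (nat_lit 41040) (nat_lit 6) (nat_lit 540) (nat_lit 2) (nat_lit 195) (nat_lit 201) (nat_lit 174)) (PT.lf (nat_lit 39824) (nat_lit 6) (nat_lit 524) (nat_lit 2) (nat_lit 196) (nat_lit 201) (nat_lit 173))))) (PT.nd (nat_lit 312) (PT.nd (nat_lit 156) (PT.nd (nat_lit 78) (PT.lf (nat_lit 38532) (nat_lit 6) (nat_lit 507) (nat_lit 2) (nat_lit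 197) (nat_lit 201) (nat_lit 172)) (PT.lf (nat_lit 37164) (nat_lit 6) (nat_lit 489) (nat_lit 2) (nat_lit 198) (nat_lit 201) (nat_lit 171))) (PT.nd (nat_lit 78) (PT.lf (nat_lit 35720) (nat_lit 6) (nat_lit 470) (nat_lit 2) (nat_lit 199) (nat_lit 201) (nat_lit 170)) (PT.lf (nat_lit 34200) (nat_lit 6) (nat_lit 450) (nat_lit 2) (nat_lit 200) (nat_lit 201) (nat_lit 169)))) (PT.nd (nat_lit 156) (PT.nd (nat_lit 78) (PT.lf (nat_lit 32604) (nat_lit 3) (nat_lit 429) (nat_lit 0) (nat_lit 201) (nat_lit 201) (nat_lit 168)) (PT.lf (nat_lit 30856) (nat_lit 6) (nat_lit 406) (nat_lit 0) (nat_lit 202) (nat_lit 201) (nat_lit 167))) (PT.nd (nat_lit 78) (PT.lf (nat_lit 29032) (nat_lit 6) (nat_lit 382) (nat_lit 0) (nat_lit 203) (nat_lit 201) (nat_lit 166)) (PT.lf (nat_lit 27968) (nat_lit 6) (nat_lit 368) (nat_lit 0) (nat_lit 204) (nat_lit 201) (nat_lit 165))))))))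
noncomputable def pc37 : PT := (PT.nd (nat_lit 56394) (PT.nd (nat_lit 55224) (PT.nd (nat_lit 546) (PT.nd (nat_lit 234) (PT.nd (nat_lit 78) (PT.lf (nat_lit 26980) (nat_lit 6) (nat_lit 355) (nat_lit 0) (nat_lit 205) (nat_lit 201) (nat_lit 164)) (PT.nd (nat_lit 78) (PT.lf (nat_lit 26068) (nat_lit 6) (nat_lit 343) (nat_lit 0) (nat_lit 206) (nat_lit 201) (nat_lit 163)) (PT.lf (nat_lit 25156) (nat_lit 6) (nat_lit 331) (nat_lit 0) (nat_lit 207) (nat_lit 201) (nat_lit 162)))) (PT.nd (nat_lit 156) (PT.nd (nat_lit 78) (PT.lf (nat_lit 24320) (nat_lit 6) (nat_lit 320) (nat_lit 0) (nat_lit 208) (nat_lit 201) (nat_lit 161)) (PT.lf (nat_lit 23484) (nat_lit 6) (nat_lit 309) (nat_lit 0) (nat_lit 209) (nat_lit 201) (nat_lit 160))) (PT.nd (nat_lit 78) (PT.lf (nat_lit 22648) (nat_lit 6) (nat_lit 298) (nat_lit 0) (nat_lit 210) (nat_lit 201) (nat_lit 159)) (PT.lf (nat_lit 21812) (nat_lit 6) (nat_lit 287) (nat_lit 0) (nat_lit 211)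 (nat_lit 201) (nat_lit 158))))) (PT.nd (nat_lit 234) (PT.nd (nat_lit 78) (PT.lf (nat_lit 21052) (nat_lit 6) (nat_lit 277) (nat_lit 0) (nat_lit 212) (nat_lit 201) (nat_lit 157)) (PT.nd (nat_lit 78) (PT.lf (nat_lit 20292) (nat_lit 6) (nat_lit 267) (nat_lit 0) (nat_lit 213) (nat_lit 201) (nat_lit 156)) (PT.lf (nat_lit 19532) (nat_lit 6) (nat_lit 257) (nat_lit 0) (nat_lit 214) (nat_lit 201) (nat_lit 155)))) (PT.nd (nat_lit 156) (PT.nd (nat_lit 78) (PT.lf (nat_lit 18772) (nat_lit 6) (nat_lit 247) (nat_lit 0) (nat_lit 215) (nat_lit 201) (nat_lit 154)) (PT.lf (nat_lit 18088) (nat_lit 6) (nat_lit 238) (nat_lit 0) (nat_lit 216) (nat_lit 201) (nat_lit 153))) (PT.nd (nat_lit 54210) (PT.lf (nat_lit 17404) (nat_lit 6) (nat_lit 229) (nat_lit 0) (nat_lit 217) (nat_lit 201) (nat_lit 152)) (PT.lf (nat_lit 16796) (nat_lit 6) (nat_lit 221) (nat_lit 5) (nat_lit 151) (nat_lit 202) (nat_lit 217)))))) (PT.nd (nat_lit 546) (PT.nd (nat_lit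 234) (PT.nd (nat_lit 78) (PT.lf (nat_lit 17480) (nat_lit 6) (nat_lit 230) (nat_lit 5) (nat_lit 152) (nat_lit 202) (nat_lit 216)) (PT.nd (nat_lit 78) (PT.lf (nat_lit 18164) (nat_lit 6) (nat_lit 239) (nat_lit 5) (nat_lit 153) (nat_lit 202) (nat_lit 215)) (PT.lf (nat_lit 18848) (nat_lit 6) (nat_lit 248) (nat_lit 5) (nat_lit 154) (nat_lit 202) (nat_lit 214)))) (PT.nd (nat_lit 156) (PT.nd (nat_lit 78) (PT.lf (nat_lit 19608) (nat_lit 6) (nat_lit 258) (nat_lit 5) (nat_lit 155) (nat_lit 202) (nat_lit 213)) (PT.lf (nat_lit 20368) (nat_lit 6) (nat_lit 268) (nat_lit 5) (nat_lit 156) (nat_lit 202) (nat_lit 212))) (PT.nd (nat_lit 78) (PT.lf (nat_lit 21128) (nat_lit 6) (nat_lit 278) (nat_lit 5) (nat_lit 157) (nat_lit 202) (nat_lit 211)) (PT.lf (nat_lit 21888) (nat_lit 6) (nat_lit 288) (nat_lit 5) (nat_lit 158) (nat_lit 202) (nat_lit 210))))) (PT.nd (nat_lit 312) (PT.nd (nat_lit 156) (PT.nd (nat_lit 78) (PT.lf (nat_lit 22724)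 (nat_lit 6) (nat_lit 299) (nat_lit 5) (nat_lit 159) (nat_lit 202) (nat_lit 209)) (PT.lf (nat_lit 23560) (nat_lit 6) (nat_lit 310) (nat_lit 5) (nat_lit 160) (nat_lit 202) (nat_lit 208))) (PT.nd (nat_lit 78) (PT.lf (nat_lit 24396) (nat_lit 6) (nat_lit 321) (nat_lit 5) (nat_lit 161) (nat_lit 202) (nat_lit 207)) (PT.lf (nat_lit 25232) (nat_lit 6) (nat_lit 332) (nat_lit 5) (nat_lit 162) (nat_lit 202) (nat_lit 206)))) (PT.nd (nat_lit 156) (PT.nd (nat_lit 78) (PT.lf (nat_lit 26144) (nat_lit 6) (nat_lit 344) (nat_lit 5) (nat_lit 163) (nat_lit 202) (nat_lit 205)) (PT.lf (nat_lit 27056) (nat_lit 6) (nat_lit 356) (nat_lit 5) (nat_lit 164) (nat_lit 202) (nat_lit 204))) (PT.nd (nat_lit 78) (PT.lf (nat_lit 28044) (nat_lit 6) (nat_lit 369) (nat_lit 5) (nat_lit 165) (nat_lit 202) (nat_lit 203)) (PT.lf (nat_lit 29108) (nat_lit 3) (nat_lit 383) (nat_lit 4) (nat_lit 166) (nat_lit 202) (nat_lit 202))))))) (PT.nd (nat_lit 1170)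 (PT.nd (nat_lit 546) (PT.nd (nat_lit 234) (PT.nd (nat_lit 78) (PT.lf (nat_lit 30856) (nat_lit 6) (nat_lit 406) (nat_lit 4) (nat_lit 167) (nat_lit 202) (nat_lit 201)) (PT.nd (nat_lit 78) (PT.lf (nat_lit 32528) (nat_lit 6) (nat_lit 428) (nat_lit 4) (nat_lit 168) (nat_lit 202) (nat_lit 200)) (PT.lf (nat_lit 34124) (nat_lit 6) (nat_lit 449) (nat_lit 4) (nat_lit 169) (nat_lit 202) (nat_lit 199)))) (PT.nd (nat_lit 156) (PT.nd (nat_lit 78) (PT.lf (nat_lit 35644) (nat_lit 6) (nat_lit 469) (nat_lit 4) (nat_lit 170) (nat_lit 202) (nat_lit 198)) (PT.lf (nat_lit 37088) (nat_lit 6) (nat_lit 488) (nat_lit 4) (nat_lit 171) (nat_lit 202) (nat_lit 197))) (PT.nd (nat_lit 78) (PT.lf (nat_lit 38456) (nat_lit 6) (nat_lit 506) (nat_lit 4) (nat_lit 172) (nat_lit 202) (nat_lit 196)) (PT.lf (nat_lit 39748) (nat_lit 6) (nat_lit 523) (nat_lit 4) (nat_lit 173) (nat_lit 202) (nat_lit 195))))) (PT.nd (nat_lit 312) (PT.nd (nat_lit 156) (PT.nd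 (nat_lit 78) (PT.lf (nat_lit 40964) (nat_lit 6) (nat_lit 539) (nat_lit 4) (nat_lit 174) (nat_lit 202) (nat_lit 194)) (PT.lf (nat_lit 42104) (nat_lit 6) (nat_lit 554) (nat_lit 4) (nat_lit 175) (nat_lit 202) (nat_lit 193))) (PT.nd (nat_lit 78) (PT.lf (nat_lit 43168) (nat_lit 6) (nat_lit 568) (nat_lit 4) (nat_lit 176) (nat_lit 202) (nat_lit 192)) (PT.lf (nat_lit 44156) (nat_lit 6) (nat_lit 581) (nat_lit 4) (nat_lit 177) (nat_lit 202) (nat_lit 191)))) (PT.nd (nat_lit 156) (PT.nd (nat_lit 78) (PT.lf (nat_lit 45068) (nat_lit 6) (nat_lit 593) (nat_lit 4) (nat_lit 178) (nat_lit 202) (nat_lit 190)) (PT.lf (nat_lit 44992) (nat_lit 6) (nat_lit 592) (nat_lit 4) (nat_lit 179) (nat_lit 202) (nat_lit 189))) (PT.nd (nat_lit 78) (PT.lf (nat_lit 44916) (nat_lit 6) (nat_lit 591) (nat_lit 4) (nat_lit 180) (nat_lit 202) (nat_lit 188)) (PT.lf (nat_lit 44840) (nat_lit 6) (nat_lit 590) (nat_lit 4) (nat_lit 181) (nat_lit 202) (nat_lit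 187)))))) (PT.nd (nat_lit 546) (PT.nd (nat_lit 234) (PT.nd (nat_lit 78) (PT.lf (nat_lit 44764) (nat_lit 6) (nat_lit 589) (nat_lit 4) (nat_lit 182) (nat_lit 202) (nat_lit 186)) (PT.nd (nat_lit 78) (PT.lf (nat_lit 44688) (nat_lit 6) (nat_lit 588) (nat_lit 4) (nat_lit 183) (nat_lit 202) (nat_lit 185)) (PT.lf (nat_lit 44612) (nat_lit 3) (nat_lit 587) (nat_lit 2) (nat_lit 184) (nat_lit 202) (nat_lit 184)))) (PT.nd (nat_lit 156) (PT.nd (nat_lit 78) (PT.lf (nat_lit 44688) (nat_lit 6) (nat_lit 588) (nat_lit 2) (nat_lit 185) (nat_lit 202) (nat_lit 183)) (PT.lf (nat_lit 44764) (nat_lit 6) (nat_lit 589) (nat_lit 2) (nat_lit 186) (nat_lit 202) (nat_lit 182))) (PT.nd (nat_lit 78) (PT.lf (nat_lit 44840) (nat_lit 6) (nat_lit 590) (nat_lit 2) (nat_lit 187) (nat_lit 202) (nat_lit 181)) (PT.lf (nat_lit 44916) (nat_lit 6) (nat_lit 591) (nat_lit 2) (nat_lit 188) (nat_lit 202) (nat_lit 180))))) (PT.nd (nat_lit 312) (PT.nd (nat_lit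 156) (PT.nd (nat_lit 78) (PT.lf (nat_lit 44992) (nat_lit 6) (nat_lit 592) (nat_lit 2) (nat_lit 189) (nat_lit 202) (nat_lit 179)) (PT.lf (nat_lit 45068) (nat_lit 6) (nat_lit 593) (nat_lit 2) (nat_lit 190) (nat_lit 202) (nat_lit 178))) (PT.nd (nat_lit 78) (PT.lf (nat_lit 44156) (nat_lit 6) (nat_lit 581) (nat_lit 2) (nat_lit 191) (nat_lit 202) (nat_lit 177)) (PT.lf (nat_lit 43168) (nat_lit 6) (nat_lit 568) (nat_lit 2) (nat_lit 192) (nat_lit 202) (nat_lit 176)))) (PT.nd (nat_lit 156) (PT.nd (nat_lit 78) (PT.lf (nat_lit 42104) (nat_lit 6) (nat_lit 554) (nat_lit 2) (nat_lit 193) (nat_lit 202) (nat_lit 175)) (PT.lf (nat_lit 40964) (nat_lit 6) (nat_lit 539) (nat_lit 2) (nat_lit 194) (nat_lit 202) (nat_lit 174))) (PT.nd (nat_lit 78) (PT.lf (nat_lit 39748) (nat_lit 6) (nat_lit 523) (nat_lit 2) (nat_lit 195) (nat_lit 202) (nat_lit 173)) (PT.lf (nat_lit 38456) (nat_lit 6) (nat_lit 506) (nat_lit 2) (nat_lit 196) (nat_lit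 202) (nat_lit 172))))))))
noncomputable def pc38 : PT := (PT.nd (nat_lit 56316) (PT.nd (nat_lit 1092) (PT.nd (nat_lit 546) (PT.nd (nat_lit 234) (PT.nd (nat_lit 78) (PT.lf (nat_lit 37088) (nat_lit 6) (nat_lit 488) (nat_lit 2) (nat_lit 197) (nat_lit 202) (nat_lit 171)) (PT.nd (nat_lit 78) (PT.lf (nat_lit 35644) (nat_lit 6) (nat_lit 469) (nat_lit 2) (nat_lit 198) (nat_lit 202) (nat_lit 170)) (PT.lf (nat_lit 34124) (nat_lit 6) (nat_lit 449) (nat_lit 2) (nat_lit 199) (nat_lit 202) (nat_lit 169)))) (PT.nd (nat_lit 156) (PT.nd (nat_lit 78) (PT.lf (nat_lit 32528) (nat_lit 6) (nat_lit 428) (nat_lit 2) (nat_lit 200) (nat_lit 202) (nat_lit 168)) (PT.lf (nat_lit 30856) (nat_lit 6) (nat_lit 406) (nat_lit 2) (nat_lit 201) (nat_lit 202) (nat_lit 167))) (PT.nd (nat_lit 78) (PT.lf (nat_lit 29108) (nat_lit 3) (nat_lit 383) (nat_lit 0) (nat_lit 202) (nat_lit 202) (nat_lit 166)) (PT.lf (nat_lit 28044) (nat_lit 6) (nat_lit 369)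 (nat_lit 0) (nat_lit 203) (nat_lit 202) (nat_lit 165))))) (PT.nd (nat_lit 234) (PT.nd (nat_lit 78) (PT.lf (nat_lit 27056) (nat_lit 6) (nat_lit 356) (nat_lit 0) (nat_lit 204) (nat_lit 202) (nat_lit 164)) (PT.nd (nat_lit 78) (PT.lf (nat_lit 26144) (nat_lit 6) (nat_lit 344) (nat_lit 0) (nat_lit 205) (nat_lit 202) (nat_lit 163)) (PT.lf (nat_lit 25232) (nat_lit 6) (nat_lit 332) (nat_lit 0) (nat_lit 206) (nat_lit 202) (nat_lit 162)))) (PT.nd (nat_lit 156) (PT.nd (nat_lit 78) (PT.lf (nat_lit 24396) (nat_lit 6) (nat_lit 321) (nat_lit 0) (nat_lit 207) (nat_lit 202) (nat_lit 161)) (PT.lf (nat_lit 23560) (nat_lit 6) (nat_lit 310) (nat_lit 0) (nat_lit 208) (nat_lit 202) (nat_lit 160))) (PT.nd (nat_lit 78) (PT.lf (nat_lit 22724) (nat_lit 6) (nat_lit 299) (nat_lit 0) (nat_lit 209) (nat_lit 202) (nat_lit 159)) (PT.lf (nat_lit 21888) (nat_lit 6) (nat_lit 288) (nat_lit 0) (nat_lit 210) (nat_lit 202) (nat_lit 158)))))) (PT.nd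 (nat_lit 54600) (PT.nd (nat_lit 234) (PT.nd (nat_lit 78) (PT.lf (nat_lit 21128) (nat_lit 6) (nat_lit 278) (nat_lit 0) (nat_lit 211) (nat_lit 202) (nat_lit 157)) (PT.nd (nat_lit 78) (PT.lf (nat_lit 20368) (nat_lit 6) (nat_lit 268) (nat_lit 0) (nat_lit 212) (nat_lit 202) (nat_lit 156)) (PT.lf (nat_lit 19608) (nat_lit 6) (nat_lit 258) (nat_lit 0) (nat_lit 213) (nat_lit 202) (nat_lit 155)))) (PT.nd (nat_lit 156) (PT.nd (nat_lit 78) (PT.lf (nat_lit 18848) (nat_lit 6) (nat_lit 248) (nat_lit 0) (nat_lit 214) (nat_lit 202) (nat_lit 154)) (PT.lf (nat_lit 18164) (nat_lit 6) (nat_lit 239) (nat_lit 0) (nat_lit 215) (nat_lit 202) (nat_lit 153))) (PT.nd (nat_lit 78) (PT.lf (nat_lit 17480) (nat_lit 6) (nat_lit 230) (nat_lit 0) (nat_lit 216) (nat_lit 202) (nat_lit 152)) (PT.lf (nat_lit 16796) (nat_lit 6) (nat_lit 221) (nat_lit 0) (nat_lit 217) (nat_lit 202) (nat_lit 151))))) (PT.nd (nat_lit 312) (PT.nd (nat_lit 156) (PT.nd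 (nat_lit 78) (PT.lf (nat_lit 16188) (nat_lit 6) (nat_lit 213) (nat_lit 5) (nat_lit 150) (nat_lit 203) (nat_lit 217)) (PT.lf (nat_lit 16872) (nat_lit 6) (nat_lit 222) (nat_lit 5) (nat_lit 151) (nat_lit 203) (nat_lit 216))) (PT.nd (nat_lit 78) (PT.lf (nat_lit 17556) (nat_lit 6) (nat_lit 231) (nat_lit 5) (nat_lit 152) (nat_lit 203) (nat_lit 215)) (PT.lf (nat_lit 18240) (nat_lit 6) (nat_lit 240) (nat_lit 5) (nat_lit 153) (nat_lit 203) (nat_lit 214)))) (PT.nd (nat_lit 156) (PT.nd (nat_lit 78) (PT.lf (nat_lit 18924) (nat_lit 6) (nat_lit 249) (nat_lit 5) (nat_lit 154) (nat_lit 203) (nat_lit 213)) (PT.lf (nat_lit 19684) (nat_lit 6) (nat_lit 259) (nat_lit 5) (nat_lit 155) (nat_lit 203) (nat_lit 212))) (PT.nd (nat_lit 78) (PT.lf (nat_lit 20444) (nat_lit 6) (nat_lit 269) (nat_lit 5) (nat_lit 156) (nat_lit 203) (nat_lit 211)) (PT.lf (nat_lit 21204) (nat_lit 6) (nat_lit 279) (nat_lit 5) (nat_lit 157) (nat_lit 203) (nat_lit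 210))))))) (PT.nd (nat_lit 1170) (PT.nd (nat_lit 546) (PT.nd (nat_lit 234) (PT.nd (nat_lit 78) (PT.lf (nat_lit 21964) (nat_lit 6) (nat_lit 289) (nat_lit 5) (nat_lit 158) (nat_lit 203) (nat_lit 209)) (PT.nd (nat_lit 78) (PT.lf (nat_lit 22800) (nat_lit 6) (nat_lit 300) (nat_lit 5) (nat_lit 159) (nat_lit 203) (nat_lit 208)) (PT.lf (nat_lit 23636) (nat_lit 6) (nat_lit 311) (nat_lit 5) (nat_lit 160) (nat_lit 203) (nat_lit 207)))) (PT.nd (nat_lit 156) (PT.nd (nat_lit 78) (PT.lf (nat_lit 24472) (nat_lit 6) (nat_lit 322) (nat_lit 5) (nat_lit 161) (nat_lit 203) (nat_lit 206)) (PT.lf (nat_lit 25308) (nat_lit 6) (nat_lit 333) (nat_lit 5) (nat_lit 162) (nat_lit 203) (nat_lit 205))) (PT.nd (nat_lit 78) (PT.lf (nat_lit 26220) (nat_lit 6) (nat_lit 345) (nat_lit 5) (nat_lit 163) (nat_lit 203) (nat_lit 204)) (PT.lf (nat_lit 27132) (nat_lit 3) (nat_lit 357) (nat_lit 4) (nat_lit 164) (nat_lit 203) (nat_lit 203))))) (PT.nd (nat_lit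 312) (PT.nd (nat_lit 156) (PT.nd (nat_lit 78) (PT.lf (nat_lit 28044) (nat_lit 6) (nat_lit 369) (nat_lit 4) (nat_lit 165) (nat_lit 203) (nat_lit 202)) (PT.lf (nat_lit 29032) (nat_lit 6) (nat_lit 382) (nat_lit 4) (nat_lit 166) (nat_lit 203) (nat_lit 201))) (PT.nd (nat_lit 78) (PT.lf (nat_lit 30780) (nat_lit 6) (nat_lit 405) (nat_lit 4) (nat_lit 167) (nat_lit 203) (nat_lit 200)) (PT.lf (nat_lit 32452) (nat_lit 6) (nat_lit 427) (nat_lit 4) (nat_lit 168) (nat_lit 203) (nat_lit 199)))) (PT.nd (nat_lit 156) (PT.nd (nat_lit 78) (PT.lf (nat_lit 34048) (nat_lit 6) (nat_lit 448) (nat_lit 4) (nat_lit 169) (nat_lit 203) (nat_lit 198)) (PT.lf (nat_lit 35568) (nat_lit 6) (nat_lit 468) (nat_lit 4) (nat_lit 170) (nat_lit 203) (nat_lit 197))) (PT.nd (nat_lit 78) (PT.lf (nat_lit 37012) (nat_lit 6) (nat_lit 487) (nat_lit 4) (nat_lit 171) (nat_lit 203) (nat_lit 196)) (PT.lf (nat_lit 38380) (nat_lit 6) (nat_lit 505) (nat_lit 4) (nat_lit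 172) (nat_lit 203) (nat_lit 195)))))) (PT.nd (nat_lit 546) (PT.nd (nat_lit 234) (PT.nd (nat_lit 78) (PT.lf (nat_lit 39672) (nat_lit 6) (nat_lit 522) (nat_lit 4) (nat_lit 173) (nat_lit 203) (nat_lit 194)) (PT.nd (nat_lit 78) (PT.lf (nat_lit 40888) (nat_lit 6) (nat_lit 538) (nat_lit 4) (nat_lit 174) (nat_lit 203) (nat_lit 193)) (PT.lf (nat_lit 42028) (nat_lit 6) (nat_lit 553) (nat_lit 4) (nat_lit 175) (nat_lit 203) (nat_lit 192)))) (PT.nd (nat_lit 156) (PT.nd (nat_lit 78) (PT.lf (nat_lit 43092) (nat_lit 6) (nat_lit 567) (nat_lit 4) (nat_lit 176) (nat_lit 203) (nat_lit 191)) (PT.lf (nat_lit 44080) (nat_lit 6) (nat_lit 580) (nat_lit 4) (nat_lit 177) (nat_lit 203) (nat_lit 190))) (PT.nd (nat_lit 78) (PT.lf (nat_lit 44004) (nat_lit 6) (nat_lit 579) (nat_lit 4) (nat_lit 178) (nat_lit 203) (nat_lit 189)) (PT.lf (nat_lit 43928) (nat_lit 6) (nat_lit 578) (nat_lit 4) (nat_lit 179) (nat_lit 203) (nat_lit 188))))) (PT.nd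 (nat_lit 312) (PT.nd (nat_lit 156) (PT.nd (nat_lit 78) (PT.lf (nat_lit 43852) (nat_lit 6) (nat_lit 577) (nat_lit 4) (nat_lit 180) (nat_lit 203) (nat_lit 187)) (PT.lf (nat_lit 43776) (nat_lit 6) (nat_lit 576) (nat_lit 4) (nat_lit 181) (nat_lit 203) (nat_lit 186))) (PT.nd (nat_lit 78) (PT.lf (nat_lit 43700) (nat_lit 6) (nat_lit 575) (nat_lit 4) (nat_lit 182) (nat_lit 203) (nat_lit 185)) (PT.lf (nat_lit 43624) (nat_lit 6) (nat_lit 574) (nat_lit 4) (nat_lit 183) (nat_lit 203) (nat_lit 184)))) (PT.nd (nat_lit 156) (PT.nd (nat_lit 78) (PT.lf (nat_lit 43624) (nat_lit 6) (nat_lit 574) (nat_lit 2) (nat_lit 184) (nat_lit 203) (nat_lit 183)) (PT.lf (nat_lit 43700) (nat_lit 6) (nat_lit 575) (nat_lit 2) (nat_lit 185) (nat_lit 203) (nat_lit 182))) (PT.nd (nat_lit 78) (PT.lf (nat_lit 43776) (nat_lit 6) (nat_lit 576) (nat_lit 2) (nat_lit 186) (nat_lit 203) (nat_lit 181)) (PT.lf (nat_lit 43852) (nat_lit 6) (nat_lit 577) (nat_lit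 2) (nat_lit 187) (nat_lit 203) (nat_lit 180))))))))
noncomputable def pc39 : PT := (PT.nd (nat_lit 2262) (PT.nd (nat_lit 1092) (PT.nd (nat_lit 546) (PT.nd (nat_lit 234) (PT.nd (nat_lit 78) (PT.lf (nat_lit 43928) (nat_lit 6) (nat_lit 578) (nat_lit 2) (nat_lit 188) (nat_lit 203) (nat_lit 179)) (PT.nd (nat_lit 78) (PT.lf (nat_lit 44004) (nat_lit 6) (nat_lit 579) (nat_lit 2) (nat_lit 189) (nat_lit 203) (nat_lit 178)) (PT.lf (nat_lit 44080) (nat_lit 6) (nat_lit 580) (nat_lit 2) (nat_lit 190) (nat_lit 203) (nat_lit 177)))) (PT.nd (nat_lit 156) (PT.nd (nat_lit 78) (PT.lf (nat_lit 43092) (nat_lit 6) (nat_lit 567) (nat_lit 2) (nat_lit 191) (nat_lit 203) (nat_lit 176)) (PT.lf (nat_lit 42028) (nat_lit 6) (nat_lit 553) (nat_lit 2) (nat_lit 192) (nat_lit 203) (nat_lit 175))) (PT.nd (nat_lit 78) (PT.lf (nat_lit 40888) (nat_lit 6) (nat_lit 538) (nat_lit 2) (nat_lit 193) (nat_lit 203) (nat_lit 174)) (PT.lf (nat_lit 39672) (nat_lit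 6) (nat_lit 522) (nat_lit 2) (nat_lit 194) (nat_lit 203) (nat_lit 173))))) (PT.nd (nat_lit 234) (PT.nd (nat_lit 78) (PT.lf (nat_lit 38380) (nat_lit 6) (nat_lit 505) (nat_lit 2) (nat_lit 195) (nat_lit 203) (nat_lit 172)) (PT.nd (nat_lit 78) (PT.lf (nat_lit 37012) (nat_lit 6) (nat_lit 487) (nat_lit 2) (nat_lit 196) (nat_lit 203) (nat_lit 171)) (PT.lf (nat_lit 35568) (nat_lit 6) (nat_lit 468) (nat_lit 2) (nat_lit 197) (nat_lit 203) (nat_lit 170)))) (PT.nd (nat_lit 156) (PT.nd (nat_lit 78) (PT.lf (nat_lit 34048) (nat_lit 6) (nat_lit 448) (nat_lit 2) (nat_lit 198) (nat_lit 203) (nat_lit 169)) (PT.lf (nat_lit 32452) (nat_lit 6) (nat_lit 427) (nat_lit 2) (nat_lit 199) (nat_lit 203) (nat_lit 168))) (PT.nd (nat_lit 78) (PT.lf (nat_lit 30780) (nat_lit 6) (nat_lit 405) (nat_lit 2) (nat_lit 200) (nat_lit 203) (nat_lit 167)) (PT.lf (nat_lit 29032) (nat_lit 6) (nat_lit 382) (nat_lit 2) (nat_lit 201) (nat_lit 203) (nat_lit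 166)))))) (PT.nd (nat_lit 546) (PT.nd (nat_lit 234) (PT.nd (nat_lit 78) (PT.lf (nat_lit 28044) (nat_lit 6) (nat_lit 369) (nat_lit 2) (nat_lit 202) (nat_lit 203) (nat_lit 165)) (PT.nd (nat_lit 78) (PT.lf (nat_lit 27132) (nat_lit 3) (nat_lit 357) (nat_lit 0) (nat_lit 203) (nat_lit 203) (nat_lit 164)) (PT.lf (nat_lit 26220) (nat_lit 6) (nat_lit 345) (nat_lit 0) (nat_lit 204) (nat_lit 203) (nat_lit 163)))) (PT.nd (nat_lit 156) (PT.nd (nat_lit 78) (PT.lf (nat_lit 25308) (nat_lit 6) (nat_lit 333) (nat_lit 0) (nat_lit 205) (nat_lit 203) (nat_lit 162)) (PT.lf (nat_lit 24472) (nat_lit 6) (nat_lit 322) (nat_lit 0) (nat_lit 206) (nat_lit 203) (nat_lit 161))) (PT.nd (nat_lit 78) (PT.lf (nat_lit 23636) (nat_lit 6) (nat_lit 311) (nat_lit 0) (nat_lit 207) (nat_lit 203) (nat_lit 160)) (PT.lf (nat_lit 22800) (nat_lit 6) (nat_lit 300) (nat_lit 0) (nat_lit 208) (nat_lit 203) (nat_lit 159))))) (PT.nd (nat_lit 312) (PT.nd (nat_lit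 156) (PT.nd (nat_lit 78) (PT.lf (nat_lit 21964) (nat_lit 6) (nat_lit 289) (nat_lit 0) (nat_lit 209) (nat_lit 203) (nat_lit 158)) (PT.lf (nat_lit 21204) (nat_lit 6) (nat_lit 279) (nat_lit 0) (nat_lit 210) (nat_lit 203) (nat_lit 157))) (PT.nd (nat_lit 78) (PT.lf (nat_lit 20444) (nat_lit 6) (nat_lit 269) (nat_lit 0) (nat_lit 211) (nat_lit 203) (nat_lit 156)) (PT.lf (nat_lit 19684) (nat_lit 6) (nat_lit 259) (nat_lit 0) (nat_lit 212) (nat_lit 203) (nat_lit 155)))) (PT.nd (nat_lit 156) (PT.nd (nat_lit 78) (PT.lf (nat_lit 18924) (nat_lit 6) (nat_lit 249) (nat_lit 0) (nat_lit 213) (nat_lit 203) (nat_lit 154)) (PT.lf (nat_lit 18240) (nat_lit 6) (nat_lit 240) (nat_lit 0) (nat_lit 214) (nat_lit 203) (nat_lit 153))) (PT.nd (nat_lit 78) (PT.lf (nat_lit 17556) (nat_lit 6) (nat_lit 231) (nat_lit 0) (nat_lit 215) (nat_lit 203) (nat_lit 152)) (PT.lf (nat_lit 16872) (nat_lit 6) (nat_lit 222) (nat_lit 0) (nat_lit 216) (nat_lit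 203) (nat_lit 151))))))) (PT.nd (nat_lit 55068) (PT.nd (nat_lit 54444) (PT.nd (nat_lit 54132) (PT.nd (nat_lit 53976) (PT.lf (nat_lit 16188) (nat_lit 6) (nat_lit 213) (nat_lit 0) (nat_lit 217) (nat_lit 203) (nat_lit 150)) (PT.nd (nat_lit 78) (PT.lf (nat_lit 15048) (nat_lit 6) (nat_lit 198) (nat_lit 5) (nat_lit 148) (nat_lit 204) (nat_lit 218)) (PT.lf (nat_lit 15656) (nat_lit 6) (nat_lit 206) (nat_lit 5) (nat_lit 149) (nat_lit 204) (nat_lit 217)))) (PT.nd (nat_lit 156) (PT.nd (nat_lit 78) (PT.lf (nat_lit 16264) (nat_lit 6) (nat_lit 214) (nat_lit 5) (nat_lit 150) (nat_lit 204) (nat_lit 216)) (PT.lf (nat_lit 16948) (nat_lit 6) (nat_lit 223) (nat_lit 5) (nat_lit 151) (nat_lit 204) (nat_lit 215))) (PT.nd (nat_lit 78) (PT.lf (nat_lit 17632) (nat_lit 6) (nat_lit 232) (nat_lit 5) (nat_lit 152) (nat_lit 204) (nat_lit 214)) (PT.lf (nat_lit 18316) (nat_lit 6) (nat_lit 241) (nat_lit 5) (nat_lit 153) (nat_lit 204) (nat_lit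 213))))) (PT.nd (nat_lit 312) (PT.nd (nat_lit 156) (PT.nd (nat_lit 78) (PT.lf (nat_lit 19000) (nat_lit 6) (nat_lit 250) (nat_lit 5) (nat_lit 154) (nat_lit 204) (nat_lit 212)) (PT.lf (nat_lit 19760) (nat_lit 6) (nat_lit 260) (nat_lit 5) (nat_lit 155) (nat_lit 204) (nat_lit 211))) (PT.nd (nat_lit 78) (PT.lf (nat_lit 20520) (nat_lit 6) (nat_lit 270) (nat_lit 5) (nat_lit 156) (nat_lit 204) (nat_lit 210)) (PT.lf (nat_lit 21280) (nat_lit 6) (nat_lit 280) (nat_lit 5) (nat_lit 157) (nat_lit 204) (nat_lit 209)))) (PT.nd (nat_lit 156) (PT.nd (nat_lit 78) (PT.lf (nat_lit 22040) (nat_lit 6) (nat_lit 290) (nat_lit 5) (nat_lit 158) (nat_lit 204) (nat_lit 208)) (PT.lf (nat_lit 22876) (nat_lit 6) (nat_lit 301) (nat_lit 5) (nat_lit 159) (nat_lit 204) (nat_lit 207))) (PT.nd (nat_lit 78) (PT.lf (nat_lit 23712) (nat_lit 6) (nat_lit 312) (nat_lit 5) (nat_lit 160) (nat_lit 204) (nat_lit 206)) (PT.lf (nat_lit 24548) (nat_lit 6) (nat_lit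 323) (nat_lit 5) (nat_lit 161) (nat_lit 204) (nat_lit 205)))))) (PT.nd (nat_lit 546) (PT.nd (nat_lit 234) (PT.nd (nat_lit 78) (PT.lf (nat_lit 25384) (nat_lit 3) (nat_lit 334) (nat_lit 4) (nat_lit 162) (nat_lit 204) (nat_lit 204)) (PT.nd (nat_lit 78) (PT.lf (nat_lit 26220) (nat_lit 6) (nat_lit 345) (nat_lit 4) (nat_lit 163) (nat_lit 204) (nat_lit 203)) (PT.lf (nat_lit 27056) (nat_lit 6) (nat_lit 356) (nat_lit 4) (nat_lit 164) (nat_lit 204) (nat_lit 202)))) (PT.nd (nat_lit 156) (PT.nd (nat_lit 78) (PT.lf (nat_lit 27968) (nat_lit 6) (nat_lit 368) (nat_lit 4) (nat_lit 165) (nat_lit 204) (nat_lit 201)) (PT.lf (nat_lit 28956) (nat_lit 6) (nat_lit 381) (nat_lit 4) (nat_lit 166) (nat_lit 204) (nat_lit 200))) (PT.nd (nat_lit 78) (PT.lf (nat_lit 30704) (nat_lit 6) (nat_lit 404) (nat_lit 4) (nat_lit 167) (nat_lit 204) (nat_lit 199)) (PT.lf (nat_lit 32376) (nat_lit 6) (nat_lit 426) (nat_lit 4) (nat_lit 168) (nat_lit 204)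 (nat_lit 198))))) (PT.nd (nat_lit 312) (PT.nd (nat_lit 156) (PT.nd (nat_lit 78) (PT.lf (nat_lit 33972) (nat_lit 6) (nat_lit 447) (nat_lit 4) (nat_lit 169) (nat_lit 204) (nat_lit 197)) (PT.lf (nat_lit 35492) (nat_lit 6) (nat_lit 467) (nat_lit 4) (nat_lit 170) (nat_lit 204) (nat_lit 196))) (PT.nd (nat_lit 78) (PT.lf (nat_lit 36936) (nat_lit 6) (nat_lit 486) (nat_lit 4) (nat_lit 171) (nat_lit 204) (nat_lit 195)) (PT.lf (nat_lit 38304) (nat_lit 6) (nat_lit 504) (nat_lit 4) (nat_lit 172) (nat_lit 204) (nat_lit 194)))) (PT.nd (nat_lit 156) (PT.nd (nat_lit 78) (PT.lf (nat_lit 39596) (nat_lit 6) (nat_lit 521) (nat_lit 4) (nat_lit 173) (nat_lit 204) (nat_lit 193)) (PT.lf (nat_lit 40812) (nat_lit 6) (nat_lit 537) (nat_lit 4) (nat_lit 174) (nat_lit 204) (nat_lit 192))) (PT.nd (nat_lit 78) (PT.lf (nat_lit 41952) (nat_lit 6) (nat_lit 552) (nat_lit 4) (nat_lit 175) (nat_lit 204) (nat_lit 191)) (PT.lf (nat_lit 43016) (nat_lit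 6) (nat_lit 566) (nat_lit 4) (nat_lit 176) (nat_lit 204) (nat_lit 190))))))))
noncomputable def pc40 : PT := (PT.nd (nat_lit 2262) (PT.nd (nat_lit 1092) (PT.nd (nat_lit 546) (PT.nd (nat_lit 234) (PT.nd (nat_lit 78) (PT.lf (nat_lit 42940) (nat_lit 6) (nat_lit 565) (nat_lit 4) (nat_lit 177) (nat_lit 204) (nat_lit 189)) (PT.nd (nat_lit 78) (PT.lf (nat_lit 42864) (nat_lit 6) (nat_lit 564) (nat_lit 4) (nat_lit 178) (nat_lit 204) (nat_lit 188)) (PT.lf (nat_lit 42788) (nat_lit 6) (nat_lit 563) (nat_lit 4) (nat_lit 179) (nat_lit 204) (nat_lit 187)))) (PT.nd (nat_lit 156) (PT.nd (nat_lit 78) (PT.lf (nat_lit 42712) (nat_lit 6) (nat_lit 562) (nat_lit 4) (nat_lit 180) (nat_lit 204) (nat_lit 186)) (PT.lf (nat_lit 42636) (nat_lit 6) (nat_lit 561) (nat_lit 4) (nat_lit 181) (nat_lit 204) (nat_lit 185))) (PT.nd (nat_lit 78) (PT.lf (nat_lit 42560) (nat_lit 6) (nat_lit 560) (nat_lit 4) (nat_lit 182) (nat_lit 204) (nat_lit 184))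 (PT.lf (nat_lit 42484) (nat_lit 3) (nat_lit 559) (nat_lit 2) (nat_lit 183) (nat_lit 204) (nat_lit 183))))) (PT.nd (nat_lit 234) (PT.nd (nat_lit 78) (PT.lf (nat_lit 42560) (nat_lit 6) (nat_lit 560) (nat_lit 2) (nat_lit 184) (nat_lit 204) (nat_lit 182)) (PT.nd (nat_lit 78) (PT.lf (nat_lit 42636) (nat_lit 6) (nat_lit 561) (nat_lit 2) (nat_lit 185) (nat_lit 204) (nat_lit 181)) (PT.lf (nat_lit 42712) (nat_lit 6) (nat_lit 562) (nat_lit 2) (nat_lit 186) (nat_lit 204) (nat_lit 180)))) (PT.nd (nat_lit 156) (PT.nd (nat_lit 78) (PT.lf (nat_lit 42788) (nat_lit 6) (nat_lit 563) (nat_lit 2) (nat_lit 187) (nat_lit 204) (nat_lit 179)) (PT.lf (nat_lit 42864) (nat_lit 6) (nat_lit 564) (nat_lit 2) (nat_lit 188) (nat_lit 204) (nat_lit 178))) (PT.nd (nat_lit 78) (PT.lf (nat_lit 42940) (nat_lit 6) (nat_lit 565) (nat_lit 2) (nat_lit 189) (nat_lit 204) (nat_lit 177)) (PT.lf (nat_lit 43016) (nat_lit 6) (nat_lit 566) (nat_lit 2) (nat_lit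 190) (nat_lit 204) (nat_lit 176)))))) (PT.nd (nat_lit 546) (PT.nd (nat_lit 234) (PT.nd (nat_lit 78) (PT.lf (nat_lit 41952) (nat_lit 6) (nat_lit 552) (nat_lit 2) (nat_lit 191) (nat_lit 204) (nat_lit 175)) (PT.nd (nat_lit 78) (PT.lf (nat_lit 40812) (nat_lit 6) (nat_lit 537) (nat_lit 2) (nat_lit 192) (nat_lit 204) (nat_lit 174)) (PT.lf (nat_lit 39596) (nat_lit 6) (nat_lit 521) (nat_lit 2) (nat_lit 193) (nat_lit 204) (nat_lit 173)))) (PT.nd (nat_lit 156) (PT.nd (nat_lit 78) (PT.lf (nat_lit 38304) (nat_lit 6) (nat_lit 504) (nat_lit 2) (nat_lit 194) (nat_lit 204) (nat_lit 172)) (PT.lf (nat_lit 36936) (nat_lit 6) (nat_lit 486) (nat_lit 2) (nat_lit 195) (nat_lit 204) (nat_lit 171))) (PT.nd (nat_lit 78) (PT.lf (nat_lit 35492) (nat_lit 6) (nat_lit 467) (nat_lit 2) (nat_lit 196) (nat_lit 204) (nat_lit 170)) (PT.lf (nat_lit 33972) (nat_lit 6) (nat_lit 447) (nat_lit 2) (nat_lit 197) (nat_lit 204) (nat_lit 169))))) (PT.nd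 (nat_lit 312) (PT.nd (nat_lit 156) (PT.nd (nat_lit 78) (PT.lf (nat_lit 32376) (nat_lit 6) (nat_lit 426) (nat_lit 2) (nat_lit 198) (nat_lit 204) (nat_lit 168)) (PT.lf (nat_lit 30704) (nat_lit 6) (nat_lit 404) (nat_lit 2) (nat_lit 199) (nat_lit 204) (nat_lit 167))) (PT.nd (nat_lit 78) (PT.lf (nat_lit 28956) (nat_lit 6) (nat_lit 381) (nat_lit 2) (nat_lit 200) (nat_lit 204) (nat_lit 166)) (PT.lf (nat_lit 27968) (nat_lit 6) (nat_lit 368) (nat_lit 2) (nat_lit 201) (nat_lit 204) (nat_lit 165)))) (PT.nd (nat_lit 156) (PT.nd (nat_lit 78) (PT.lf (nat_lit 27056) (nat_lit 6) (nat_lit 356) (nat_lit 2) (nat_lit 202) (nat_lit 204) (nat_lit 164)) (PT.lf (nat_lit 26220) (nat_lit 6) (nat_lit 345) (nat_lit 2) (nat_lit 203) (nat_lit 204) (nat_lit 163))) (PT.nd (nat_lit 78) (PT.lf (nat_lit 25384) (nat_lit 3) (nat_lit 334) (nat_lit 0) (nat_lit 204) (nat_lit 204) (nat_lit 162)) (PT.lf (nat_lit 24548) (nat_lit 6) (nat_lit 323) (nat_lit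 0) (nat_lit 205) (nat_lit 204) (nat_lit 161))))))) (PT.nd (nat_lit 54834) (PT.nd (nat_lit 546) (PT.nd (nat_lit 234) (PT.nd (nat_lit 78) (PT.lf (nat_lit 23712) (nat_lit 6) (nat_lit 312) (nat_lit 0) (nat_lit 206) (nat_lit 204) (nat_lit 160)) (PT.nd (nat_lit 78) (PT.lf (nat_lit 22876) (nat_lit 6) (nat_lit 301) (nat_lit 0) (nat_lit 207) (nat_lit 204) (nat_lit 159)) (PT.lf (nat_lit 22040) (nat_lit 6) (nat_lit 290) (nat_lit 0) (nat_lit 208) (nat_lit 204) (nat_lit 158)))) (PT.nd (nat_lit 156) (PT.nd (nat_lit 78) (PT.lf (nat_lit 21280) (nat_lit 6) (nat_lit 280) (nat_lit 0) (nat_lit 209) (nat_lit 204) (nat_lit 157)) (PT.lf (nat_lit 20520) (nat_lit 6) (nat_lit 270) (nat_lit 0) (nat_lit 210) (nat_lit 204) (nat_lit 156))) (PT.nd (nat_lit 78) (PT.lf (nat_lit 19760) (nat_lit 6) (nat_lit 260) (nat_lit 0) (nat_lit 211) (nat_lit 204) (nat_lit 155)) (PT.lf (nat_lit 19000) (nat_lit 6) (nat_lit 250) (nat_lit 0) (nat_lit 212) (nat_lit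 204) (nat_lit 154))))) (PT.nd (nat_lit 234) (PT.nd (nat_lit 78) (PT.lf (nat_lit 18316) (nat_lit 6) (nat_lit 241) (nat_lit 0) (nat_lit 213) (nat_lit 204) (nat_lit 153)) (PT.nd (nat_lit 78) (PT.lf (nat_lit 17632) (nat_lit 6) (nat_lit 232) (nat_lit 0) (nat_lit 214) (nat_lit 204) (nat_lit 152)) (PT.lf (nat_lit 16948) (nat_lit 6) (nat_lit 223) (nat_lit 0) (nat_lit 215) (nat_lit 204) (nat_lit 151)))) (PT.nd (nat_lit 156) (PT.nd (nat_lit 78) (PT.lf (nat_lit 16264) (nat_lit 6) (nat_lit 214) (nat_lit 0) (nat_lit 216) (nat_lit 204) (nat_lit 150)) (PT.lf (nat_lit 15656) (nat_lit 6) (nat_lit 206) (nat_lit 0) (nat_lit 217) (nat_lit 204) (nat_lit 149))) (PT.nd (nat_lit 53820) (PT.lf (nat_lit 15048) (nat_lit 6) (nat_lit 198) (nat_lit 0) (nat_lit 218) (nat_lit 204) (nat_lit 148)) (PT.lf (nat_lit 14516) (nat_lit 6) (nat_lit 191) (nat_lit 5) (nat_lit 147) (nat_lit 205) (nat_lit 218)))))) (PT.nd (nat_lit 546) (PT.nd (nat_lit 234)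 (PT.nd (nat_lit 78) (PT.lf (nat_lit 15124) (nat_lit 6) (nat_lit 199) (nat_lit 5) (nat_lit 148) (nat_lit 205) (nat_lit 217)) (PT.nd (nat_lit 78) (PT.lf (nat_lit 15732) (nat_lit 6) (nat_lit 207) (nat_lit 5) (nat_lit 149) (nat_lit 205) (nat_lit 216)) (PT.lf (nat_lit 16340) (nat_lit 6) (nat_lit 215) (nat_lit 5) (nat_lit 150) (nat_lit 205) (nat_lit 215)))) (PT.nd (nat_lit 156) (PT.nd (nat_lit 78) (PT.lf (nat_lit 17024) (nat_lit 6) (nat_lit 224) (nat_lit 5) (nat_lit 151) (nat_lit 205) (nat_lit 214)) (PT.lf (nat_lit 17708) (nat_lit 6) (nat_lit 233) (nat_lit 5) (nat_lit 152) (nat_lit 205) (nat_lit 213))) (PT.nd (nat_lit 78) (PT.lf (nat_lit 18392) (nat_lit 6) (nat_lit 242) (nat_lit 5) (nat_lit 153) (nat_lit 205) (nat_lit 212)) (PT.lf (nat_lit 19076) (nat_lit 6) (nat_lit 251) (nat_lit 5) (nat_lit 154) (nat_lit 205) (nat_lit 211))))) (PT.nd (nat_lit 312) (PT.nd (nat_lit 156) (PT.nd (nat_lit 78) (PT.lf (nat_lit 19836) (nat_lit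 6) (nat_lit 261) (nat_lit 5) (nat_lit 155) (nat_lit 205) (nat_lit 210)) (PT.lf (nat_lit 20596) (nat_lit 6) (nat_lit 271) (nat_lit 5) (nat_lit 156) (nat_lit 205) (nat_lit 209))) (PT.nd (nat_lit 78) (PT.lf (nat_lit 21356) (nat_lit 6) (nat_lit 281) (nat_lit 5) (nat_lit 157) (nat_lit 205) (nat_lit 208)) (PT.lf (nat_lit 22116) (nat_lit 6) (nat_lit 291) (nat_lit 5) (nat_lit 158) (nat_lit 205) (nat_lit 207)))) (PT.nd (nat_lit 156) (PT.nd (nat_lit 78) (PT.lf (nat_lit 22952) (nat_lit 6) (nat_lit 302) (nat_lit 5) (nat_lit 159) (nat_lit 205) (nat_lit 206)) (PT.lf (nat_lit 23788) (nat_lit 3) (nat_lit 313) (nat_lit 4) (nat_lit 160) (nat_lit 205) (nat_lit 205))) (PT.nd (nat_lit 78) (PT.lf (nat_lit 24548) (nat_lit 6) (nat_lit 323) (nat_lit 4) (nat_lit 161) (nat_lit 205) (nat_lit 204)) (PT.lf (nat_lit 25308) (nat_lit 6) (nat_lit 333) (nat_lit 4) (nat_lit 162) (nat_lit 205) (nat_lit 203))))))))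
noncomputable def pc41 : PT := (PT.nd (nat_lit 2262) (PT.nd (nat_lit 1092) (PT.nd (nat_lit 546) (PT.nd (nat_lit 234) (PT.nd (nat_lit 78) (PT.lf (nat_lit 26144) (nat_lit 6) (nat_lit 344) (nat_lit 4) (nat_lit 163) (nat_lit 205) (nat_lit 202)) (PT.nd (nat_lit 78) (PT.lf (nat_lit 26980) (nat_lit 6) (nat_lit 355) (nat_lit 4) (nat_lit 164) (nat_lit 205) (nat_lit 201)) (PT.lf (nat_lit 27892) (nat_lit 6) (nat_lit 367) (nat_lit 4) (nat_lit 165) (nat_lit 205) (nat_lit 200)))) (PT.nd (nat_lit 156) (PT.nd (nat_lit 78) (PT.lf (nat_lit 28880) (nat_lit 6) (nat_lit 380) (nat_lit 4) (nat_lit 166) (nat_lit 205) (nat_lit 199)) (PT.lf (nat_lit 30628) (nat_lit 6) (nat_lit 403) (nat_lit 4) (nat_lit 167) (nat_lit 205) (nat_lit 198))) (PT.nd (nat_lit 78) (PT.lf (nat_lit 32300) (nat_lit 6) (nat_lit 425) (nat_lit 4) (nat_lit 168) (nat_lit 205) (nat_lit 197)) (PT.lf (nat_lit 33896) (nat_lit 6) (nat_lit 446) (nat_lit 4) (nat_lit 169) (nat_lit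 205) (nat_lit 196))))) (PT.nd (nat_lit 234) (PT.nd (nat_lit 78) (PT.lf (nat_lit 35416) (nat_lit 6) (nat_lit 466) (nat_lit 4) (nat_lit 170) (nat_lit 205) (nat_lit 195)) (PT.nd (nat_lit 78) (PT.lf (nat_lit 36860) (nat_lit 6) (nat_lit 485) (nat_lit 4) (nat_lit 171) (nat_lit 205) (nat_lit 194)) (PT.lf (nat_lit 38228) (nat_lit 6) (nat_lit 503) (nat_lit 4) (nat_lit 172) (nat_lit 205) (nat_lit 193)))) (PT.nd (nat_lit 156) (PT.nd (nat_lit 78) (PT.lf (nat_lit 39520) (nat_lit 6) (nat_lit 520) (nat_lit 4) (nat_lit 173) (nat_lit 205) (nat_lit 192)) (PT.lf (nat_lit 40736) (nat_lit 6) (nat_lit 536) (nat_lit 4) (nat_lit 174) (nat_lit 205) (nat_lit 191))) (PT.nd (nat_lit 78) (PT.lf (nat_lit 41876) (nat_lit 6) (nat_lit 551) (nat_lit 4) (nat_lit 175) (nat_lit 205) (nat_lit 190)) (PT.lf (nat_lit 41800) (nat_lit 6) (nat_lit 550) (nat_lit 4) (nat_lit 176) (nat_lit 205) (nat_lit 189)))))) (PT.nd (nat_lit 546) (PT.nd (nat_lit 234)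 (PT.nd (nat_lit 78) (PT.lf (nat_lit 41724) (nat_lit 6) (nat_lit 549) (nat_lit 4) (nat_lit 177) (nat_lit 205) (nat_lit 188)) (PT.nd (nat_lit 78) (PT.lf (nat_lit 41648) (nat_lit 6) (nat_lit 548) (nat_lit 4) (nat_lit 178) (nat_lit 205) (nat_lit 187)) (PT.lf (nat_lit 41572) (nat_lit 6) (nat_lit 547) (nat_lit 4) (nat_lit 179) (nat_lit 205) (nat_lit 186)))) (PT.nd (nat_lit 156) (PT.nd (nat_lit 78) (PT.lf (nat_lit 41496) (nat_lit 6) (nat_lit 546) (nat_lit 4) (nat_lit 180) (nat_lit 205) (nat_lit 185)) (PT.lf (nat_lit 41420) (nat_lit 6) (nat_lit 545) (nat_lit 4) (nat_lit 181) (nat_lit 205) (nat_lit 184))) (PT.nd (nat_lit 78) (PT.lf (nat_lit 41344) (nat_lit 6) (nat_lit 544) (nat_lit 4) (nat_lit 182) (nat_lit 205) (nat_lit 183)) (PT.lf (nat_lit 41344) (nat_lit 6) (nat_lit 544) (nat_lit 2) (nat_lit 183) (nat_lit 205) (nat_lit 182))))) (PT.nd (nat_lit 312) (PT.nd (nat_lit 156) (PT.nd (nat_lit 78) (PT.lf (nat_lit 41420) (nat_lit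 6) (nat_lit 545) (nat_lit 2) (nat_lit 184) (nat_lit 205) (nat_lit 181)) (PT.lf (nat_lit 41496) (nat_lit 6) (nat_lit 546) (nat_lit 2) (nat_lit 185) (nat_lit 205) (nat_lit 180))) (PT.nd (nat_lit 78) (PT.lf (nat_lit 41572) (nat_lit 6) (nat_lit 547) (nat_lit 2) (nat_lit 186) (nat_lit 205) (nat_lit 179)) (PT.lf (nat_lit 41648) (nat_lit 6) (nat_lit 548) (nat_lit 2) (nat_lit 187) (nat_lit 205) (nat_lit 178)))) (PT.nd (nat_lit 156) (PT.nd (nat_lit 78) (PT.lf (nat_lit 41724) (nat_lit 6) (nat_lit 549) (nat_lit 2) (nat_lit 188) (nat_lit 205) (nat_lit 177)) (PT.lf (nat_lit 41800) (nat_lit 6) (nat_lit 550) (nat_lit 2) (nat_lit 189) (nat_lit 205) (nat_lit 176))) (PT.nd (nat_lit 78) (PT.lf (nat_lit 41876) (nat_lit 6) (nat_lit 551) (nat_lit 2) (nat_lit 190) (nat_lit 205) (nat_lit 175)) (PT.lf (nat_lit 40736) (nat_lit 6) (nat_lit 536) (nat_lit 2) (nat_lit 191) (nat_lit 205) (nat_lit 174))))))) (PT.nd (nat_lit 1170) (PT.nd (nat_lit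 546) (PT.nd (nat_lit 234) (PT.nd (nat_lit 78) (PT.lf (nat_lit 39520) (nat_lit 6) (nat_lit 520) (nat_lit 2) (nat_lit 192) (nat_lit 205) (nat_lit 173)) (PT.nd (nat_lit 78) (PT.lf (nat_lit 38228) (nat_lit 6) (nat_lit 503) (nat_lit 2) (nat_lit 193) (nat_lit 205) (nat_lit 172)) (PT.lf (nat_lit 36860) (nat_lit 6) (nat_lit 485) (nat_lit 2) (nat_lit 194) (nat_lit 205) (nat_lit 171)))) (PT.nd (nat_lit 156) (PT.nd (nat_lit 78) (PT.lf (nat_lit 35416) (nat_lit 6) (nat_lit 466) (nat_lit 2) (nat_lit 195) (nat_lit 205) (nat_lit 170)) (PT.lf (nat_lit 33896) (nat_lit 6) (nat_lit 446) (nat_lit 2) (nat_lit 196) (nat_lit 205) (nat_lit 169))) (PT.nd (nat_lit 78) (PT.lf (nat_lit 32300) (nat_lit 6) (nat_lit 425) (nat_lit 2) (nat_lit 197) (nat_lit 205) (nat_lit 168)) (PT.lf (nat_lit 30628) (nat_lit 6) (nat_lit 403) (nat_lit 2) (nat_lit 198) (nat_lit 205) (nat_lit 167))))) (PT.nd (nat_lit 312) (PT.nd (nat_lit 156) (PT.nd (nat_lit 78)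 (PT.lf (nat_lit 28880) (nat_lit 6) (nat_lit 380) (nat_lit 2) (nat_lit 199) (nat_lit 205) (nat_lit 166)) (PT.lf (nat_lit 27892) (nat_lit 6) (nat_lit 367) (nat_lit 2) (nat_lit 200) (nat_lit 205) (nat_lit 165))) (PT.nd (nat_lit 78) (PT.lf (nat_lit 26980) (nat_lit 6) (nat_lit 355) (nat_lit 2) (nat_lit 201) (nat_lit 205) (nat_lit 164)) (PT.lf (nat_lit 26144) (nat_lit 6) (nat_lit 344) (nat_lit 2) (nat_lit 202) (nat_lit 205) (nat_lit 163)))) (PT.nd (nat_lit 156) (PT.nd (nat_lit 78) (PT.lf (nat_lit 25308) (nat_lit 6) (nat_lit 333) (nat_lit 2) (nat_lit 203) (nat_lit 205) (nat_lit 162)) (PT.lf (nat_lit 24548) (nat_lit 6) (nat_lit 323) (nat_lit 2) (nat_lit 204) (nat_lit 205) (nat_lit 161))) (PT.nd (nat_lit 78) (PT.lf (nat_lit 23788) (nat_lit 3) (nat_lit 313) (nat_lit 0) (nat_lit 205) (nat_lit 205) (nat_lit 160)) (PT.lf (nat_lit 22952) (nat_lit 6) (nat_lit 302) (nat_lit 0) (nat_lit 206) (nat_lit 205) (nat_lit 159))))))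 (PT.nd (nat_lit 546) (PT.nd (nat_lit 234) (PT.nd (nat_lit 78) (PT.lf (nat_lit 22116) (nat_lit 6) (nat_lit 291) (nat_lit 0) (nat_lit 207) (nat_lit 205) (nat_lit 158)) (PT.nd (nat_lit 78) (PT.lf (nat_lit 21356) (nat_lit 6) (nat_lit 281) (nat_lit 0) (nat_lit 208) (nat_lit 205) (nat_lit 157)) (PT.lf (nat_lit 20596) (nat_lit 6) (nat_lit 271) (nat_lit 0) (nat_lit 209) (nat_lit 205) (nat_lit 156)))) (PT.nd (nat_lit 156) (PT.nd (nat_lit 78) (PT.lf (nat_lit 19836) (nat_lit 6) (nat_lit 261) (nat_lit 0) (nat_lit 210) (nat_lit 205) (nat_lit 155)) (PT.lf (nat_lit 19076) (nat_lit 6) (nat_lit 251) (nat_lit 0) (nat_lit 211) (nat_lit 205) (nat_lit 154))) (PT.nd (nat_lit 78) (PT.lf (nat_lit 18392) (nat_lit 6) (nat_lit 242) (nat_lit 0) (nat_lit 212) (nat_lit 205) (nat_lit 153)) (PT.lf (nat_lit 17708) (nat_lit 6) (nat_lit 233) (nat_lit 0) (nat_lit 213) (nat_lit 205) (nat_lit 152))))) (PT.nd (nat_lit 312) (PT.nd (nat_lit 156) (PT.nd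 (nat_lit 78) (PT.lf (nat_lit 17024) (nat_lit 6) (nat_lit 224) (nat_lit 0) (nat_lit 214) (nat_lit 205) (nat_lit 151)) (PT.lf (nat_lit 16340) (nat_lit 6) (nat_lit 215) (nat_lit 0) (nat_lit 215) (nat_lit 205) (nat_lit 150))) (PT.nd (nat_lit 78) (PT.lf (nat_lit 15732) (nat_lit 6) (nat_lit 207) (nat_lit 0) (nat_lit 216) (nat_lit 205) (nat_lit 149)) (PT.lf (nat_lit 15124) (nat_lit 6) (nat_lit 199) (nat_lit 0) (nat_lit 217) (nat_lit 205) (nat_lit 148)))) (PT.nd (nat_lit 53820) (PT.nd (nat_lit 53742) (PT.lf (nat_lit 14516) (nat_lit 6) (nat_lit 191) (nat_lit 0) (nat_lit 218) (nat_lit 205) (nat_lit 147)) (PT.lf (nat_lit 13984) (nat_lit 6) (nat_lit 184) (nat_lit 5) (nat_lit 146) (nat_lit 206) (nat_lit 218))) (PT.nd (nat_lit 78) (PT.lf (nat_lit 14592) (nat_lit 6) (nat_lit 192) (nat_lit 5) (nat_lit 147) (nat_lit 206) (nat_lit 217)) (PT.lf (nat_lit 15200) (nat_lit 6) (nat_lit 200) (nat_lit 5) (nat_lit 148) (nat_lit 206) (nat_lit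 216))))))))
noncomputable def pc42 : PT := (PT.nd (nat_lit 2262) (PT.nd (nat_lit 1092) (PT.nd (nat_lit 546) (PT.nd (nat_lit 234) (PT.nd (nat_lit 78) (PT.lf (nat_lit 15808) (nat_lit 6) (nat_lit 208) (nat_lit 5) (nat_lit 149) (nat_lit 206) (nat_lit 215)) (PT.nd (nat_lit 78) (PT.lf (nat_lit 16416) (nat_lit 6) (nat_lit 216) (nat_lit 5) (nat_lit 150) (nat_lit 206) (nat_lit 214)) (PT.lf (nat_lit 17100) (nat_lit 6) (nat_lit 225) (nat_lit 5) (nat_lit 151) (nat_lit 206) (nat_lit 213)))) (PT.nd (nat_lit 156) (PT.nd (nat_lit 78) (PT.lf (nat_lit 17784) (nat_lit 6) (nat_lit 234) (nat_lit 5) (nat_lit 152) (nat_lit 206) (nat_lit 212)) (PT.lf (nat_lit 18468) (nat_lit 6) (nat_lit 243) (nat_lit 5) (nat_lit 153) (nat_lit 206) (nat_lit 211))) (PT.nd (nat_lit 78) (PT.lf (nat_lit 19152) (nat_lit 6) (nat_lit 252) (nat_lit 5) (nat_lit 154) (nat_lit 206) (nat_lit 210)) (PT.lf (nat_lit 19912) (nat_lit 6) (nat_lit 262) (nat_lit 5) (nat_lit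 155) (nat_lit 206) (nat_lit 209))))) (PT.nd (nat_lit 234) (PT.nd (nat_lit 78) (PT.lf (nat_lit 20672) (nat_lit 6) (nat_lit 272) (nat_lit 5) (nat_lit 156) (nat_lit 206) (nat_lit 208)) (PT.nd (nat_lit 78) (PT.lf (nat_lit 21432) (nat_lit 6) (nat_lit 282) (nat_lit 5) (nat_lit 157) (nat_lit 206) (nat_lit 207)) (PT.lf (nat_lit 22192) (nat_lit 3) (nat_lit 292) (nat_lit 4) (nat_lit 158) (nat_lit 206) (nat_lit 206)))) (PT.nd (nat_lit 156) (PT.nd (nat_lit 78) (PT.lf (nat_lit 22952) (nat_lit 6) (nat_lit 302) (nat_lit 4) (nat_lit 159) (nat_lit 206) (nat_lit 205)) (PT.lf (nat_lit 23712) (nat_lit 6) (nat_lit 312) (nat_lit 4) (nat_lit 160) (nat_lit 206) (nat_lit 204))) (PT.nd (nat_lit 78) (PT.lf (nat_lit 24472) (nat_lit 6) (nat_lit 322) (nat_lit 4) (nat_lit 161) (nat_lit 206) (nat_lit 203)) (PT.lf (nat_lit 25232) (nat_lit 6) (nat_lit 332) (nat_lit 4) (nat_lit 162) (nat_lit 206) (nat_lit 202)))))) (PT.nd (nat_lit 546) (PT.nd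 (nat_lit 234) (PT.nd (nat_lit 78) (PT.lf (nat_lit 26068) (nat_lit 6) (nat_lit 343) (nat_lit 4) (nat_lit 163) (nat_lit 206) (nat_lit 201)) (PT.nd (nat_lit 78) (PT.lf (nat_lit 26904) (nat_lit 6) (nat_lit 354) (nat_lit 4) (nat_lit 164) (nat_lit 206) (nat_lit 200)) (PT.lf (nat_lit 27816) (nat_lit 6) (nat_lit 366) (nat_lit 4) (nat_lit 165) (nat_lit 206) (nat_lit 199)))) (PT.nd (nat_lit 156) (PT.nd (nat_lit 78) (PT.lf (nat_lit 28804) (nat_lit 6) (nat_lit 379) (nat_lit 4) (nat_lit 166) (nat_lit 206) (nat_lit 198)) (PT.lf (nat_lit 30552) (nat_lit 6) (nat_lit 402) (nat_lit 4) (nat_lit 167) (nat_lit 206) (nat_lit 197))) (PT.nd (nat_lit 78) (PT.lf (nat_lit 32224) (nat_lit 6) (nat_lit 424) (nat_lit 4) (nat_lit 168) (nat_lit 206) (nat_lit 196)) (PT.lf (nat_lit 33820) (nat_lit 6) (nat_lit 445) (nat_lit 4) (nat_lit 169) (nat_lit 206) (nat_lit 195))))) (PT.nd (nat_lit 312) (PT.nd (nat_lit 156) (PT.nd (nat_lit 78) (PT.lf (nat_lit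 35340) (nat_lit 6) (nat_lit 465) (nat_lit 4) (nat_lit 170) (nat_lit 206) (nat_lit 194)) (PT.lf (nat_lit 36784) (nat_lit 6) (nat_lit 484) (nat_lit 4) (nat_lit 171) (nat_lit 206) (nat_lit 193))) (PT.nd (nat_lit 78) (PT.lf (nat_lit 38152) (nat_lit 6) (nat_lit 502) (nat_lit 4) (nat_lit 172) (nat_lit 206) (nat_lit 192)) (PT.lf (nat_lit 39444) (nat_lit 6) (nat_lit 519) (nat_lit 4) (nat_lit 173) (nat_lit 206) (nat_lit 191)))) (PT.nd (nat_lit 156) (PT.nd (nat_lit 78) (PT.lf (nat_lit 40660) (nat_lit 6) (nat_lit 535) (nat_lit 4) (nat_lit 174) (nat_lit 206) (nat_lit 190)) (PT.lf (nat_lit 40584) (nat_lit 6) (nat_lit 534) (nat_lit 4) (nat_lit 175) (nat_lit 206) (nat_lit 189))) (PT.nd (nat_lit 78) (PT.lf (nat_lit 40508) (nat_lit 6) (nat_lit 533) (nat_lit 4) (nat_lit 176) (nat_lit 206) (nat_lit 188)) (PT.lf (nat_lit 40432) (nat_lit 6) (nat_lit 532) (nat_lit 4) (nat_lit 177) (nat_lit 206) (nat_lit 187))))))) (PT.nd (nat_lit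 1092) (PT.nd (nat_lit 546) (PT.nd (nat_lit 234) (PT.nd (nat_lit 78) (PT.lf (nat_lit 40356) (nat_lit 6) (nat_lit 531) (nat_lit 4) (nat_lit 178) (nat_lit 206) (nat_lit 186)) (PT.nd (nat_lit 78) (PT.lf (nat_lit 40280) (nat_lit 6) (nat_lit 530) (nat_lit 4) (nat_lit 179) (nat_lit 206) (nat_lit 185)) (PT.lf (nat_lit 40204) (nat_lit 6) (nat_lit 529) (nat_lit 4) (nat_lit 180) (nat_lit 206) (nat_lit 184)))) (PT.nd (nat_lit 156) (PT.nd (nat_lit 78) (PT.lf (nat_lit 40128) (nat_lit 6) (nat_lit 528) (nat_lit 4) (nat_lit 181) (nat_lit 206) (nat_lit 183)) (PT.lf (nat_lit 40052) (nat_lit 3) (nat_lit 527) (nat_lit 2) (nat_lit 182) (nat_lit 206) (nat_lit 182))) (PT.nd (nat_lit 78) (PT.lf (nat_lit 40128) (nat_lit 6) (nat_lit 528) (nat_lit 2) (nat_lit 183) (nat_lit 206) (nat_lit 181)) (PT.lf (nat_lit 40204) (nat_lit 6) (nat_lit 529) (nat_lit 2) (nat_lit 184) (nat_lit 206) (nat_lit 180))))) (PT.nd (nat_lit 234) (PT.nd (nat_lit 78)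 (PT.lf (nat_lit 40280) (nat_lit 6) (nat_lit 530) (nat_lit 2) (nat_lit 185) (nat_lit 206) (nat_lit 179)) (PT.nd (nat_lit 78) (PT.lf (nat_lit 40356) (nat_lit 6) (nat_lit 531) (nat_lit 2) (nat_lit 186) (nat_lit 206) (nat_lit 178)) (PT.lf (nat_lit 40432) (nat_lit 6) (nat_lit 532) (nat_lit 2) (nat_lit 187) (nat_lit 206) (nat_lit 177)))) (PT.nd (nat_lit 156) (PT.nd (nat_lit 78) (PT.lf (nat_lit 40508) (nat_lit 6) (nat_lit 533) (nat_lit 2) (nat_lit 188) (nat_lit 206) (nat_lit 176)) (PT.lf (nat_lit 40584) (nat_lit 6) (nat_lit 534) (nat_lit 2) (nat_lit 189) (nat_lit 206) (nat_lit 175))) (PT.nd (nat_lit 78) (PT.lf (nat_lit 40660) (nat_lit 6) (nat_lit 535) (nat_lit 2) (nat_lit 190) (nat_lit 206) (nat_lit 174)) (PT.lf (nat_lit 39444) (nat_lit 6) (nat_lit 519) (nat_lit 2) (nat_lit 191) (nat_lit 206) (nat_lit 173)))))) (PT.nd (nat_lit 546) (PT.nd (nat_lit 234) (PT.nd (nat_lit 78) (PT.lf (nat_lit 38152) (nat_lit 6) (nat_lit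 502) (nat_lit 2) (nat_lit 192) (nat_lit 206) (nat_lit 172)) (PT.nd (nat_lit 78) (PT.lf (nat_lit 36784) (nat_lit 6) (nat_lit 484) (nat_lit 2) (nat_lit 193) (nat_lit 206) (nat_lit 171)) (PT.lf (nat_lit 35340) (nat_lit 6) (nat_lit 465) (nat_lit 2) (nat_lit 194) (nat_lit 206) (nat_lit 170)))) (PT.nd (nat_lit 156) (PT.nd (nat_lit 78) (PT.lf (nat_lit 33820) (nat_lit 6) (nat_lit 445) (nat_lit 2) (nat_lit 195) (nat_lit 206) (nat_lit 169)) (PT.lf (nat_lit 32224) (nat_lit 6) (nat_lit 424) (nat_lit 2) (nat_lit 196) (nat_lit 206) (nat_lit 168))) (PT.nd (nat_lit 78) (PT.lf (nat_lit 30552) (nat_lit 6) (nat_lit 402) (nat_lit 2) (nat_lit 197) (nat_lit 206) (nat_lit 167)) (PT.lf (nat_lit 28804) (nat_lit 6) (nat_lit 379) (nat_lit 2) (nat_lit 198) (nat_lit 206) (nat_lit 166))))) (PT.nd (nat_lit 312) (PT.nd (nat_lit 156) (PT.nd (nat_lit 78) (PT.lf (nat_lit 27816) (nat_lit 6) (nat_lit 366) (nat_lit 2) (nat_lit 199) (nat_lit 206)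 (nat_lit 165)) (PT.lf (nat_lit 26904) (nat_lit 6) (nat_lit 354) (nat_lit 2) (nat_lit 200) (nat_lit 206) (nat_lit 164))) (PT.nd (nat_lit 78) (PT.lf (nat_lit 26068) (nat_lit 6) (nat_lit 343) (nat_lit 2) (nat_lit 201) (nat_lit 206) (nat_lit 163)) (PT.lf (nat_lit 25232) (nat_lit 6) (nat_lit 332) (nat_lit 2) (nat_lit 202) (nat_lit 206) (nat_lit 162)))) (PT.nd (nat_lit 156) (PT.nd (nat_lit 78) (PT.lf (nat_lit 24472) (nat_lit 6) (nat_lit 322) (nat_lit 2) (nat_lit 203) (nat_lit 206) (nat_lit 161)) (PT.lf (nat_lit 23712) (nat_lit 6) (nat_lit 312) (nat_lit 2) (nat_lit 204) (nat_lit 206) (nat_lit 160))) (PT.nd (nat_lit 78) (PT.lf (nat_lit 22952) (nat_lit 6) (nat_lit 302) (nat_lit 2) (nat_lit 205) (nat_lit 206) (nat_lit 159)) (PT.lf (nat_lit 22192) (nat_lit 3) (nat_lit 292) (nat_lit 0) (nat_lit 206) (nat_lit 206) (nat_lit 158))))))))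
noncomputable def pc43 : PT := (PT.nd (nat_lit 55770) (PT.nd (nat_lit 54600) (PT.nd (nat_lit 546) (PT.nd (nat_lit 234) (PT.nd (nat_lit 78) (PT.lf (nat_lit 21432) (nat_lit 6) (nat_lit 282) (nat_lit 0) (nat_lit 207) (nat_lit 206) (nat_lit 157)) (PT.nd (nat_lit 78) (PT.lf (nat_lit 20672) (nat_lit 6) (nat_lit 272) (nat_lit 0) (nat_lit 208) (nat_lit 206) (nat_lit 156)) (PT.lf (nat_lit 19912) (nat_lit 6) (nat_lit 262) (nat_lit 0) (nat_lit 209) (nat_lit 206) (nat_lit 155)))) (PT.nd (nat_lit 156) (PT.nd (nat_lit 78) (PT.lf (nat_lit 19152) (nat_lit 6) (nat_lit 252) (nat_lit 0) (nat_lit 210) (nat_lit 206) (nat_lit 154)) (PT.lf (nat_lit 18468) (nat_lit 6) (nat_lit 243) (nat_lit 0) (nat_lit 211) (nat_lit 206) (nat_lit 153))) (PT.nd (nat_lit 78) (PT.lf (nat_lit 17784) (nat_lit 6) (nat_lit 234) (nat_lit 0) (nat_lit 212) (nat_lit 206) (nat_lit 152)) (PT.lf (nat_lit 17100) (nat_lit 6) (nat_lit 225) (nat_lit 0) (nat_lit 213)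 (nat_lit 206) (nat_lit 151))))) (PT.nd (nat_lit 234) (PT.nd (nat_lit 78) (PT.lf (nat_lit 16416) (nat_lit 6) (nat_lit 216) (nat_lit 0) (nat_lit 214) (nat_lit 206) (nat_lit 150)) (PT.nd (nat_lit 78) (PT.lf (nat_lit 15808) (nat_lit 6) (nat_lit 208) (nat_lit 0) (nat_lit 215) (nat_lit 206) (nat_lit 149)) (PT.lf (nat_lit 15200) (nat_lit 6) (nat_lit 200) (nat_lit 0) (nat_lit 216) (nat_lit 206) (nat_lit 148)))) (PT.nd (nat_lit 53664) (PT.nd (nat_lit 78) (PT.lf (nat_lit 14592) (nat_lit 6) (nat_lit 192) (nat_lit 0) (nat_lit 217) (nat_lit 206) (nat_lit 147)) (PT.lf (nat_lit 13984) (nat_lit 6) (nat_lit 184) (nat_lit 0) (nat_lit 218) (nat_lit 206) (nat_lit 146))) (PT.nd (nat_lit 78) (PT.lf (nat_lit 12920) (nat_lit 6) (nat_lit 170) (nat_lit 5) (nat_lit 144) (nat_lit 207) (nat_lit 219)) (PT.lf (nat_lit 13528) (nat_lit 6) (nat_lit 178) (nat_lit 5) (nat_lit 145) (nat_lit 207) (nat_lit 218)))))) (PT.nd (nat_lit 546) (PT.nd (nat_lit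 234) (PT.nd (nat_lit 78) (PT.lf (nat_lit 14060) (nat_lit 6) (nat_lit 185) (nat_lit 5) (nat_lit 146) (nat_lit 207) (nat_lit 217)) (PT.nd (nat_lit 78) (PT.lf (nat_lit 14668) (nat_lit 6) (nat_lit 193) (nat_lit 5) (nat_lit 147) (nat_lit 207) (nat_lit 216)) (PT.lf (nat_lit 15276) (nat_lit 6) (nat_lit 201) (nat_lit 5) (nat_lit 148) (nat_lit 207) (nat_lit 215)))) (PT.nd (nat_lit 156) (PT.nd (nat_lit 78) (PT.lf (nat_lit 15884) (nat_lit 6) (nat_lit 209) (nat_lit 5) (nat_lit 149) (nat_lit 207) (nat_lit 214)) (PT.lf (nat_lit 16492) (nat_lit 6) (nat_lit 217) (nat_lit 5) (nat_lit 150) (nat_lit 207) (nat_lit 213))) (PT.nd (nat_lit 78) (PT.lf (nat_lit 17176) (nat_lit 6) (nat_lit 226) (nat_lit 5) (nat_lit 151) (nat_lit 207) (nat_lit 212)) (PT.lf (nat_lit 17860) (nat_lit 6) (nat_lit 235) (nat_lit 5) (nat_lit 152) (nat_lit 207) (nat_lit 211))))) (PT.nd (nat_lit 312) (PT.nd (nat_lit 156) (PT.nd (nat_lit 78) (PT.lf (nat_lit 18544)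 (nat_lit 6) (nat_lit 244) (nat_lit 5) (nat_lit 153) (nat_lit 207) (nat_lit 210)) (PT.lf (nat_lit 19228) (nat_lit 6) (nat_lit 253) (nat_lit 5) (nat_lit 154) (nat_lit 207) (nat_lit 209))) (PT.nd (nat_lit 78) (PT.lf (nat_lit 19988) (nat_lit 6) (nat_lit 263) (nat_lit 5) (nat_lit 155) (nat_lit 207) (nat_lit 208)) (PT.lf (nat_lit 20748) (nat_lit 3) (nat_lit 273) (nat_lit 4) (nat_lit 156) (nat_lit 207) (nat_lit 207)))) (PT.nd (nat_lit 156) (PT.nd (nat_lit 78) (PT.lf (nat_lit 21432) (nat_lit 6) (nat_lit 282) (nat_lit 4) (nat_lit 157) (nat_lit 207) (nat_lit 206)) (PT.lf (nat_lit 22116) (nat_lit 6) (nat_lit 291) (nat_lit 4) (nat_lit 158) (nat_lit 207) (nat_lit 205))) (PT.nd (nat_lit 78) (PT.lf (nat_lit 22876) (nat_lit 6) (nat_lit 301) (nat_lit 4) (nat_lit 159) (nat_lit 207) (nat_lit 204)) (PT.lf (nat_lit 23636) (nat_lit 6) (nat_lit 311) (nat_lit 4) (nat_lit 160) (nat_lit 207) (nat_lit 203))))))) (PT.nd (nat_lit 1170)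 (PT.nd (nat_lit 546) (PT.nd (nat_lit 234) (PT.nd (nat_lit 78) (PT.lf (nat_lit 24396) (nat_lit 6) (nat_lit 321) (nat_lit 4) (nat_lit 161) (nat_lit 207) (nat_lit 202)) (PT.nd (nat_lit 78) (PT.lf (nat_lit 25156) (nat_lit 6) (nat_lit 331) (nat_lit 4) (nat_lit 162) (nat_lit 207) (nat_lit 201)) (PT.lf (nat_lit 25992) (nat_lit 6) (nat_lit 342) (nat_lit 4) (nat_lit 163) (nat_lit 207) (nat_lit 200)))) (PT.nd (nat_lit 156) (PT.nd (nat_lit 78) (PT.lf (nat_lit 26828) (nat_lit 6) (nat_lit 353) (nat_lit 4) (nat_lit 164) (nat_lit 207) (nat_lit 199)) (PT.lf (nat_lit 27740) (nat_lit 6) (nat_lit 365) (nat_lit 4) (nat_lit 165) (nat_lit 207) (nat_lit 198))) (PT.nd (nat_lit 78) (PT.lf (nat_lit 28728) (nat_lit 6) (nat_lit 378) (nat_lit 4) (nat_lit 166) (nat_lit 207) (nat_lit 197)) (PT.lf (nat_lit 30476) (nat_lit 6) (nat_lit 401) (nat_lit 4) (nat_lit 167) (nat_lit 207) (nat_lit 196))))) (PT.nd (nat_lit 312) (PT.nd (nat_lit 156) (PT.nd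 (nat_lit 78) (PT.lf (nat_lit 32148) (nat_lit 6) (nat_lit 423) (nat_lit 4) (nat_lit 168) (nat_lit 207) (nat_lit 195)) (PT.lf (nat_lit 33744) (nat_lit 6) (nat_lit 444) (nat_lit 4) (nat_lit 169) (nat_lit 207) (nat_lit 194))) (PT.nd (nat_lit 78) (PT.lf (nat_lit 35264) (nat_lit 6) (nat_lit 464) (nat_lit 4) (nat_lit 170) (nat_lit 207) (nat_lit 193)) (PT.lf (nat_lit 36708) (nat_lit 6) (nat_lit 483) (nat_lit 4) (nat_lit 171) (nat_lit 207) (nat_lit 192)))) (PT.nd (nat_lit 156) (PT.nd (nat_lit 78) (PT.lf (nat_lit 38076) (nat_lit 6) (nat_lit 501) (nat_lit 4) (nat_lit 172) (nat_lit 207) (nat_lit 191)) (PT.lf (nat_lit 39368) (nat_lit 6) (nat_lit 518) (nat_lit 4) (nat_lit 173) (nat_lit 207) (nat_lit 190))) (PT.nd (nat_lit 78) (PT.lf (nat_lit 39292) (nat_lit 6) (nat_lit 517) (nat_lit 4) (nat_lit 174) (nat_lit 207) (nat_lit 189)) (PT.lf (nat_lit 39216) (nat_lit 6) (nat_lit 516) (nat_lit 4) (nat_lit 175) (nat_lit 207) (nat_lit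 188)))))) (PT.nd (nat_lit 546) (PT.nd (nat_lit 234) (PT.nd (nat_lit 78) (PT.lf (nat_lit 39140) (nat_lit 6) (nat_lit 515) (nat_lit 4) (nat_lit 176) (nat_lit 207) (nat_lit 187)) (PT.nd (nat_lit 78) (PT.lf (nat_lit 39064) (nat_lit 6) (nat_lit 514) (nat_lit 4) (nat_lit 177) (nat_lit 207) (nat_lit 186)) (PT.lf (nat_lit 38988) (nat_lit 6) (nat_lit 513) (nat_lit 4) (nat_lit 178) (nat_lit 207) (nat_lit 185)))) (PT.nd (nat_lit 156) (PT.nd (nat_lit 78) (PT.lf (nat_lit 38912) (nat_lit 6) (nat_lit 512) (nat_lit 4) (nat_lit 179) (nat_lit 207) (nat_lit 184)) (PT.lf (nat_lit 38836) (nat_lit 6) (nat_lit 511) (nat_lit 4) (nat_lit 180) (nat_lit 207) (nat_lit 183))) (PT.nd (nat_lit 78) (PT.lf (nat_lit 38760) (nat_lit 6) (nat_lit 510) (nat_lit 4) (nat_lit 181) (nat_lit 207) (nat_lit 182)) (PT.lf (nat_lit 38760) (nat_lit 6) (nat_lit 510) (nat_lit 2) (nat_lit 182) (nat_lit 207) (nat_lit 181))))) (PT.nd (nat_lit 312) (PT.nd (nat_lit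 156) (PT.nd (nat_lit 78) (PT.lf (nat_lit 38836) (nat_lit 6) (nat_lit 511) (nat_lit 2) (nat_lit 183) (nat_lit 207) (nat_lit 180)) (PT.lf (nat_lit 38912) (nat_lit 6) (nat_lit 512) (nat_lit 2) (nat_lit 184) (nat_lit 207) (nat_lit 179))) (PT.nd (nat_lit 78) (PT.lf (nat_lit 38988) (nat_lit 6) (nat_lit 513) (nat_lit 2) (nat_lit 185) (nat_lit 207) (nat_lit 178)) (PT.lf (nat_lit 39064) (nat_lit 6) (nat_lit 514) (nat_lit 2) (nat_lit 186) (nat_lit 207) (nat_lit 177)))) (PT.nd (nat_lit 156) (PT.nd (nat_lit 78) (PT.lf (nat_lit 39140) (nat_lit 6) (nat_lit 515) (nat_lit 2) (nat_lit 187) (nat_lit 207) (nat_lit 176)) (PT.lf (nat_lit 39216) (nat_lit 6) (nat_lit 516) (nat_lit 2) (nat_lit 188) (nat_lit 207) (nat_lit 175))) (PT.nd (nat_lit 78) (PT.lf (nat_lit 39292) (nat_lit 6) (nat_lit 517) (nat_lit 2) (nat_lit 189) (nat_lit 207) (nat_lit 174)) (PT.lf (nat_lit 39368) (nat_lit 6) (nat_lit 518) (nat_lit 2) (nat_lit 190) (nat_lit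 207) (nat_lit 173))))))))
noncomputable def pc44 : PT := (PT.nd (nat_lit 55614) (PT.nd (nat_lit 1092) (PT.nd (nat_lit 546) (PT.nd (nat_lit 234) (PT.nd (nat_lit 78) (PT.lf (nat_lit 38076) (nat_lit 6) (nat_lit 501) (nat_lit 2) (nat_lit 191) (nat_lit 207) (nat_lit 172)) (PT.nd (nat_lit 78) (PT.lf (nat_lit 36708) (nat_lit 6) (nat_lit 483) (nat_lit 2) (nat_lit 192) (nat_lit 207) (nat_lit 171)) (PT.lf (nat_lit 35264) (nat_lit 6) (nat_lit 464) (nat_lit 2) (nat_lit 193) (nat_lit 207) (nat_lit 170)))) (PT.nd (nat_lit 156) (PT.nd (nat_lit 78) (PT.lf (nat_lit 33744) (nat_lit 6) (nat_lit 444) (nat_lit 2) (nat_lit 194) (nat_lit 207) (nat_lit 169)) (PT.lf (nat_lit 32148) (nat_lit 6) (nat_lit 423) (nat_lit 2) (nat_lit 195) (nat_lit 207) (nat_lit 168))) (PT.nd (nat_lit 78) (PT.lf (nat_lit 30476) (nat_lit 6) (nat_lit 401) (nat_lit 2) (nat_lit 196) (nat_lit 207) (nat_lit 167)) (PT.lf (nat_lit 28728) (nat_lit 6) (nat_lit 378)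 (nat_lit 2) (nat_lit 197) (nat_lit 207) (nat_lit 166))))) (PT.nd (nat_lit 234) (PT.nd (nat_lit 78) (PT.lf (nat_lit 27740) (nat_lit 6) (nat_lit 365) (nat_lit 2) (nat_lit 198) (nat_lit 207) (nat_lit 165)) (PT.nd (nat_lit 78) (PT.lf (nat_lit 26828) (nat_lit 6) (nat_lit 353) (nat_lit 2) (nat_lit 199) (nat_lit 207) (nat_lit 164)) (PT.lf (nat_lit 25992) (nat_lit 6) (nat_lit 342) (nat_lit 2) (nat_lit 200) (nat_lit 207) (nat_lit 163)))) (PT.nd (nat_lit 156) (PT.nd (nat_lit 78) (PT.lf (nat_lit 25156) (nat_lit 6) (nat_lit 331) (nat_lit 2) (nat_lit 201) (nat_lit 207) (nat_lit 162)) (PT.lf (nat_lit 24396) (nat_lit 6) (nat_lit 321) (nat_lit 2) (nat_lit 202) (nat_lit 207) (nat_lit 161))) (PT.nd (nat_lit 78) (PT.lf (nat_lit 23636) (nat_lit 6) (nat_lit 311) (nat_lit 2) (nat_lit 203) (nat_lit 207) (nat_lit 160)) (PT.lf (nat_lit 22876) (nat_lit 6) (nat_lit 301) (nat_lit 2) (nat_lit 204) (nat_lit 207) (nat_lit 159)))))) (PT.nd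 (nat_lit 546) (PT.nd (nat_lit 234) (PT.nd (nat_lit 78) (PT.lf (nat_lit 22116) (nat_lit 6) (nat_lit 291) (nat_lit 2) (nat_lit 205) (nat_lit 207) (nat_lit 158)) (PT.nd (nat_lit 78) (PT.lf (nat_lit 21432) (nat_lit 6) (nat_lit 282) (nat_lit 2) (nat_lit 206) (nat_lit 207) (nat_lit 157)) (PT.lf (nat_lit 20748) (nat_lit 3) (nat_lit 273) (nat_lit 0) (nat_lit 207) (nat_lit 207) (nat_lit 156)))) (PT.nd (nat_lit 156) (PT.nd (nat_lit 78) (PT.lf (nat_lit 19988) (nat_lit 6) (nat_lit 263) (nat_lit 0) (nat_lit 208) (nat_lit 207) (nat_lit 155)) (PT.lf (nat_lit 19228) (nat_lit 6) (nat_lit 253) (nat_lit 0) (nat_lit 209) (nat_lit 207) (nat_lit 154))) (PT.nd (nat_lit 78) (PT.lf (nat_lit 18544) (nat_lit 6) (nat_lit 244) (nat_lit 0) (nat_lit 210) (nat_lit 207) (nat_lit 153)) (PT.lf (nat_lit 17860) (nat_lit 6) (nat_lit 235) (nat_lit 0) (nat_lit 211) (nat_lit 207) (nat_lit 152))))) (PT.nd (nat_lit 312) (PT.nd (nat_lit 156) (PT.nd (nat_lit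 78) (PT.lf (nat_lit 17176) (nat_lit 6) (nat_lit 226) (nat_lit 0) (nat_lit 212) (nat_lit 207) (nat_lit 151)) (PT.lf (nat_lit 16492) (nat_lit 6) (nat_lit 217) (nat_lit 0) (nat_lit 213) (nat_lit 207) (nat_lit 150))) (PT.nd (nat_lit 78) (PT.lf (nat_lit 15884) (nat_lit 6) (nat_lit 209) (nat_lit 0) (nat_lit 214) (nat_lit 207) (nat_lit 149)) (PT.lf (nat_lit 15276) (nat_lit 6) (nat_lit 201) (nat_lit 0) (nat_lit 215) (nat_lit 207) (nat_lit 148)))) (PT.nd (nat_lit 156) (PT.nd (nat_lit 78) (PT.lf (nat_lit 14668) (nat_lit 6) (nat_lit 193) (nat_lit 0) (nat_lit 216) (nat_lit 207) (nat_lit 147)) (PT.lf (nat_lit 14060) (nat_lit 6) (nat_lit 185) (nat_lit 0) (nat_lit 217) (nat_lit 207) (nat_lit 146))) (PT.nd (nat_lit 78) (PT.lf (nat_lit 13528) (nat_lit 6) (nat_lit 178) (nat_lit 0) (nat_lit 218) (nat_lit 207) (nat_lit 145)) (PT.lf (nat_lit 12920) (nat_lit 6) (nat_lit 170) (nat_lit 0) (nat_lit 219) (nat_lit 207) (nat_lit 144)))))))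 (PT.nd (nat_lit 1092) (PT.nd (nat_lit 546) (PT.nd (nat_lit 234) (PT.nd (nat_lit 78) (PT.lf (nat_lit 12464) (nat_lit 6) (nat_lit 164) (nat_lit 5) (nat_lit 143) (nat_lit 208) (nat_lit 219)) (PT.nd (nat_lit 78) (PT.lf (nat_lit 12996) (nat_lit 6) (nat_lit 171) (nat_lit 5) (nat_lit 144) (nat_lit 208) (nat_lit 218)) (PT.lf (nat_lit 13604) (nat_lit 6) (nat_lit 179) (nat_lit 5) (nat_lit 145) (nat_lit 208) (nat_lit 217)))) (PT.nd (nat_lit 156) (PT.nd (nat_lit 78) (PT.lf (nat_lit 14136) (nat_lit 6) (nat_lit 186) (nat_lit 5) (nat_lit 146) (nat_lit 208) (nat_lit 216)) (PT.lf (nat_lit 14744) (nat_lit 6) (nat_lit 194) (nat_lit 5) (nat_lit 147) (nat_lit 208) (nat_lit 215))) (PT.nd (nat_lit 78) (PT.lf (nat_lit 15352) (nat_lit 6) (nat_lit 202) (nat_lit 5) (nat_lit 148) (nat_lit 208) (nat_lit 214)) (PT.lf (nat_lit 15960) (nat_lit 6) (nat_lit 210) (nat_lit 5) (nat_lit 149) (nat_lit 208) (nat_lit 213))))) (PT.nd (nat_lit 234) (PT.nd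 (nat_lit 78) (PT.lf (nat_lit 16568) (nat_lit 6) (nat_lit 218) (nat_lit 5) (nat_lit 150) (nat_lit 208) (nat_lit 212)) (PT.nd (nat_lit 78) (PT.lf (nat_lit 17252) (nat_lit 6) (nat_lit 227) (nat_lit 5) (nat_lit 151) (nat_lit 208) (nat_lit 211)) (PT.lf (nat_lit 17936) (nat_lit 6) (nat_lit 236) (nat_lit 5) (nat_lit 152) (nat_lit 208) (nat_lit 210)))) (PT.nd (nat_lit 156) (PT.nd (nat_lit 78) (PT.lf (nat_lit 18620) (nat_lit 6) (nat_lit 245) (nat_lit 5) (nat_lit 153) (nat_lit 208) (nat_lit 209)) (PT.lf (nat_lit 19304) (nat_lit 3) (nat_lit 254) (nat_lit 4) (nat_lit 154) (nat_lit 208) (nat_lit 208))) (PT.nd (nat_lit 78) (PT.lf (nat_lit 19988) (nat_lit 6) (nat_lit 263) (nat_lit 4) (nat_lit 155) (nat_lit 208) (nat_lit 207)) (PT.lf (nat_lit 20672) (nat_lit 6) (nat_lit 272) (nat_lit 4) (nat_lit 156) (nat_lit 208) (nat_lit 206)))))) (PT.nd (nat_lit 546) (PT.nd (nat_lit 234) (PT.nd (nat_lit 78) (PT.lf (nat_lit 21356) (nat_lit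 6) (nat_lit 281) (nat_lit 4) (nat_lit 157) (nat_lit 208) (nat_lit 205)) (PT.nd (nat_lit 78) (PT.lf (nat_lit 22040) (nat_lit 6) (nat_lit 290) (nat_lit 4) (nat_lit 158) (nat_lit 208) (nat_lit 204)) (PT.lf (nat_lit 22800) (nat_lit 6) (nat_lit 300) (nat_lit 4) (nat_lit 159) (nat_lit 208) (nat_lit 203)))) (PT.nd (nat_lit 156) (PT.nd (nat_lit 78) (PT.lf (nat_lit 23560) (nat_lit 6) (nat_lit 310) (nat_lit 4) (nat_lit 160) (nat_lit 208) (nat_lit 202)) (PT.lf (nat_lit 24320) (nat_lit 6) (nat_lit 320) (nat_lit 4) (nat_lit 161) (nat_lit 208) (nat_lit 201))) (PT.nd (nat_lit 78) (PT.lf (nat_lit 25080) (nat_lit 6) (nat_lit 330) (nat_lit 4) (nat_lit 162) (nat_lit 208) (nat_lit 200)) (PT.lf (nat_lit 25916) (nat_lit 6) (nat_lit 341) (nat_lit 4) (nat_lit 163) (nat_lit 208) (nat_lit 199))))) (PT.nd (nat_lit 312) (PT.nd (nat_lit 156) (PT.nd (nat_lit 78) (PT.lf (nat_lit 26752) (nat_lit 6) (nat_lit 352) (nat_lit 4) (nat_lit 164) (nat_lit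 208) (nat_lit 198)) (PT.lf (nat_lit 27664) (nat_lit 6) (nat_lit 364) (nat_lit 4) (nat_lit 165) (nat_lit 208) (nat_lit 197))) (PT.nd (nat_lit 78) (PT.lf (nat_lit 28652) (nat_lit 6) (nat_lit 377) (nat_lit 4) (nat_lit 166) (nat_lit 208) (nat_lit 196)) (PT.lf (nat_lit 30400) (nat_lit 6) (nat_lit 400) (nat_lit 4) (nat_lit 167) (nat_lit 208) (nat_lit 195)))) (PT.nd (nat_lit 156) (PT.nd (nat_lit 78) (PT.lf (nat_lit 32072) (nat_lit 6) (nat_lit 422) (nat_lit 4) (nat_lit 168) (nat_lit 208) (nat_lit 194)) (PT.lf (nat_lit 33668) (nat_lit 6) (nat_lit 443) (nat_lit 4) (nat_lit 169) (nat_lit 208) (nat_lit 193))) (PT.nd (nat_lit 78) (PT.lf (nat_lit 35188) (nat_lit 6) (nat_lit 463) (nat_lit 4) (nat_lit 170) (nat_lit 208) (nat_lit 192)) (PT.lf (nat_lit 36632) (nat_lit 6) (nat_lit 482) (nat_lit 4) (nat_lit 171) (nat_lit 208) (nat_lit 191))))))))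
noncomputable def pc45 : PT := (PT.nd (nat_lit 2262) (PT.nd (nat_lit 1092) (PT.nd (nat_lit 546) (PT.nd (nat_lit 234) (PT.nd (nat_lit 78) (PT.lf (nat_lit 38000) (nat_lit 6) (nat_lit 500) (nat_lit 4) (nat_lit 172) (nat_lit 208) (nat_lit 190)) (PT.nd (nat_lit 78) (PT.lf (nat_lit 37924) (nat_lit 6) (nat_lit 499) (nat_lit 4) (nat_lit 173) (nat_lit 208) (nat_lit 189)) (PT.lf (nat_lit 37848) (nat_lit 6) (nat_lit 498) (nat_lit 4) (nat_lit 174) (nat_lit 208) (nat_lit 188)))) (PT.nd (nat_lit 156) (PT.nd (nat_lit 78) (PT.lf (nat_lit 37772) (nat_lit 6) (nat_lit 497) (nat_lit 4) (nat_lit 175) (nat_lit 208) (nat_lit 187)) (PT.lf (nat_lit 37696) (nat_lit 6) (nat_lit 496) (nat_lit 4) (nat_lit 176) (nat_lit 208) (nat_lit 186))) (PT.nd (nat_lit 78) (PT.lf (nat_lit 37620) (nat_lit 6) (nat_lit 495) (nat_lit 4) (nat_lit 177) (nat_lit 208) (nat_lit 185)) (PT.lf (nat_lit 37544) (nat_lit 6) (nat_lit 494) (nat_lit 4) (nat_lit 178) (nat_lit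 208) (nat_lit 184))))) (PT.nd (nat_lit 234) (PT.nd (nat_lit 78) (PT.lf (nat_lit 37468) (nat_lit 6) (nat_lit 493) (nat_lit 4) (nat_lit 179) (nat_lit 208) (nat_lit 183)) (PT.nd (nat_lit 78) (PT.lf (nat_lit 37392) (nat_lit 6) (nat_lit 492) (nat_lit 4) (nat_lit 180) (nat_lit 208) (nat_lit 182)) (PT.lf (nat_lit 37316) (nat_lit 3) (nat_lit 491) (nat_lit 2) (nat_lit 181) (nat_lit 208) (nat_lit 181)))) (PT.nd (nat_lit 156) (PT.nd (nat_lit 78) (PT.lf (nat_lit 37392) (nat_lit 6) (nat_lit 492) (nat_lit 2) (nat_lit 182) (nat_lit 208) (nat_lit 180)) (PT.lf (nat_lit 37468) (nat_lit 6) (nat_lit 493) (nat_lit 2) (nat_lit 183) (nat_lit 208) (nat_lit 179))) (PT.nd (nat_lit 78) (PT.lf (nat_lit 37544) (nat_lit 6) (nat_lit 494) (nat_lit 2) (nat_lit 184) (nat_lit 208) (nat_lit 178)) (PT.lf (nat_lit 37620) (nat_lit 6) (nat_lit 495) (nat_lit 2) (nat_lit 185) (nat_lit 208) (nat_lit 177)))))) (PT.nd (nat_lit 546) (PT.nd (nat_lit 234)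 (PT.nd (nat_lit 78) (PT.lf (nat_lit 37696) (nat_lit 6) (nat_lit 496) (nat_lit 2) (nat_lit 186) (nat_lit 208) (nat_lit 176)) (PT.nd (nat_lit 78) (PT.lf (nat_lit 37772) (nat_lit 6) (nat_lit 497) (nat_lit 2) (nat_lit 187) (nat_lit 208) (nat_lit 175)) (PT.lf (nat_lit 37848) (nat_lit 6) (nat_lit 498) (nat_lit 2) (nat_lit 188) (nat_lit 208) (nat_lit 174)))) (PT.nd (nat_lit 156) (PT.nd (nat_lit 78) (PT.lf (nat_lit 37924) (nat_lit 6) (nat_lit 499) (nat_lit 2) (nat_lit 189) (nat_lit 208) (nat_lit 173)) (PT.lf (nat_lit 38000) (nat_lit 6) (nat_lit 500) (nat_lit 2) (nat_lit 190) (nat_lit 208) (nat_lit 172))) (PT.nd (nat_lit 78) (PT.lf (nat_lit 36632) (nat_lit 6) (nat_lit 482) (nat_lit 2) (nat_lit 191) (nat_lit 208) (nat_lit 171)) (PT.lf (nat_lit 35188) (nat_lit 6) (nat_lit 463) (nat_lit 2) (nat_lit 192) (nat_lit 208) (nat_lit 170))))) (PT.nd (nat_lit 312) (PT.nd (nat_lit 156) (PT.nd (nat_lit 78) (PT.lf (nat_lit 33668) (nat_lit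 6) (nat_lit 443) (nat_lit 2) (nat_lit 193) (nat_lit 208) (nat_lit 169)) (PT.lf (nat_lit 32072) (nat_lit 6) (nat_lit 422) (nat_lit 2) (nat_lit 194) (nat_lit 208) (nat_lit 168))) (PT.nd (nat_lit 78) (PT.lf (nat_lit 30400) (nat_lit 6) (nat_lit 400) (nat_lit 2) (nat_lit 195) (nat_lit 208) (nat_lit 167)) (PT.lf (nat_lit 28652) (nat_lit 6) (nat_lit 377) (nat_lit 2) (nat_lit 196) (nat_lit 208) (nat_lit 166)))) (PT.nd (nat_lit 156) (PT.nd (nat_lit 78) (PT.lf (nat_lit 27664) (nat_lit 6) (nat_lit 364) (nat_lit 2) (nat_lit 197) (nat_lit 208) (nat_lit 165)) (PT.lf (nat_lit 26752) (nat_lit 6) (nat_lit 352) (nat_lit 2) (nat_lit 198) (nat_lit 208) (nat_lit 164))) (PT.nd (nat_lit 78) (PT.lf (nat_lit 25916) (nat_lit 6) (nat_lit 341) (nat_lit 2) (nat_lit 199) (nat_lit 208) (nat_lit 163)) (PT.lf (nat_lit 25080) (nat_lit 6) (nat_lit 330) (nat_lit 2) (nat_lit 200) (nat_lit 208) (nat_lit 162))))))) (PT.nd (nat_lit 1170) (PT.nd (nat_lit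 546) (PT.nd (nat_lit 234) (PT.nd (nat_lit 78) (PT.lf (nat_lit 24320) (nat_lit 6) (nat_lit 320) (nat_lit 2) (nat_lit 201) (nat_lit 208) (nat_lit 161)) (PT.nd (nat_lit 78) (PT.lf (nat_lit 23560) (nat_lit 6) (nat_lit 310) (nat_lit 2) (nat_lit 202) (nat_lit 208) (nat_lit 160)) (PT.lf (nat_lit 22800) (nat_lit 6) (nat_lit 300) (nat_lit 2) (nat_lit 203) (nat_lit 208) (nat_lit 159)))) (PT.nd (nat_lit 156) (PT.nd (nat_lit 78) (PT.lf (nat_lit 22040) (nat_lit 6) (nat_lit 290) (nat_lit 2) (nat_lit 204) (nat_lit 208) (nat_lit 158)) (PT.lf (nat_lit 21356) (nat_lit 6) (nat_lit 281) (nat_lit 2) (nat_lit 205) (nat_lit 208) (nat_lit 157))) (PT.nd (nat_lit 78) (PT.lf (nat_lit 20672) (nat_lit 6) (nat_lit 272) (nat_lit 2) (nat_lit 206) (nat_lit 208) (nat_lit 156)) (PT.lf (nat_lit 19988) (nat_lit 6) (nat_lit 263) (nat_lit 2) (nat_lit 207) (nat_lit 208) (nat_lit 155))))) (PT.nd (nat_lit 312) (PT.nd (nat_lit 156) (PT.nd (nat_lit 78)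 (PT.lf (nat_lit 19304) (nat_lit 3) (nat_lit 254) (nat_lit 0) (nat_lit 208) (nat_lit 208) (nat_lit 154)) (PT.lf (nat_lit 18620) (nat_lit 6) (nat_lit 245) (nat_lit 0) (nat_lit 209) (nat_lit 208) (nat_lit 153))) (PT.nd (nat_lit 78) (PT.lf (nat_lit 17936) (nat_lit 6) (nat_lit 236) (nat_lit 0) (nat_lit 210) (nat_lit 208) (nat_lit 152)) (PT.lf (nat_lit 17252) (nat_lit 6) (nat_lit 227) (nat_lit 0) (nat_lit 211) (nat_lit 208) (nat_lit 151)))) (PT.nd (nat_lit 156) (PT.nd (nat_lit 78) (PT.lf (nat_lit 16568) (nat_lit 6) (nat_lit 218) (nat_lit 0) (nat_lit 212) (nat_lit 208) (nat_lit 150)) (PT.lf (nat_lit 15960) (nat_lit 6) (nat_lit 210) (nat_lit 0) (nat_lit 213) (nat_lit 208) (nat_lit 149))) (PT.nd (nat_lit 78) (PT.lf (nat_lit 15352) (nat_lit 6) (nat_lit 202) (nat_lit 0) (nat_lit 214) (nat_lit 208) (nat_lit 148)) (PT.lf (nat_lit 14744) (nat_lit 6) (nat_lit 194) (nat_lit 0) (nat_lit 215) (nat_lit 208) (nat_lit 147))))))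 (PT.nd (nat_lit 53742) (PT.nd (nat_lit 234) (PT.nd (nat_lit 78) (PT.lf (nat_lit 14136) (nat_lit 6) (nat_lit 186) (nat_lit 0) (nat_lit 216) (nat_lit 208) (nat_lit 146)) (PT.nd (nat_lit 78) (PT.lf (nat_lit 13604) (nat_lit 6) (nat_lit 179) (nat_lit 0) (nat_lit 217) (nat_lit 208) (nat_lit 145)) (PT.lf (nat_lit 12996) (nat_lit 6) (nat_lit 171) (nat_lit 0) (nat_lit 218) (nat_lit 208) (nat_lit 144)))) (PT.nd (nat_lit 53352) (PT.nd (nat_lit 53274) (PT.lf (nat_lit 12464) (nat_lit 6) (nat_lit 164) (nat_lit 0) (nat_lit 219) (nat_lit 208) (nat_lit 143)) (PT.lf (nat_lit 11476) (nat_lit 6) (nat_lit 151) (nat_lit 5) (nat_lit 141) (nat_lit 209) (nat_lit 220))) (PT.nd (nat_lit 78) (PT.lf (nat_lit 12008) (nat_lit 6) (nat_lit 158) (nat_lit 5) (nat_lit 142) (nat_lit 209) (nat_lit 219)) (PT.lf (nat_lit 12540) (nat_lit 6) (nat_lit 165) (nat_lit 5) (nat_lit 143) (nat_lit 209) (nat_lit 218))))) (PT.nd (nat_lit 312) (PT.nd (nat_lit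 156) (PT.nd (nat_lit 78) (PT.lf (nat_lit 13072) (nat_lit 6) (nat_lit 172) (nat_lit 5) (nat_lit 144) (nat_lit 209) (nat_lit 217)) (PT.lf (nat_lit 13680) (nat_lit 6) (nat_lit 180) (nat_lit 5) (nat_lit 145) (nat_lit 209) (nat_lit 216))) (PT.nd (nat_lit 78) (PT.lf (nat_lit 14212) (nat_lit 6) (nat_lit 187) (nat_lit 5) (nat_lit 146) (nat_lit 209) (nat_lit 215)) (PT.lf (nat_lit 14820) (nat_lit 6) (nat_lit 195) (nat_lit 5) (nat_lit 147) (nat_lit 209) (nat_lit 214)))) (PT.nd (nat_lit 156) (PT.nd (nat_lit 78) (PT.lf (nat_lit 15428) (nat_lit 6) (nat_lit 203) (nat_lit 5) (nat_lit 148) (nat_lit 209) (nat_lit 213)) (PT.lf (nat_lit 16036) (nat_lit 6) (nat_lit 211) (nat_lit 5) (nat_lit 149) (nat_lit 209) (nat_lit 212))) (PT.nd (nat_lit 78) (PT.lf (nat_lit 16644) (nat_lit 6) (nat_lit 219) (nat_lit 5) (nat_lit 150) (nat_lit 209) (nat_lit 211)) (PT.lf (nat_lit 17328) (nat_lit 6) (nat_lit 228) (nat_lit 5) (nat_lit 151) (nat_lit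 209) (nat_lit 210))))))))
noncomputable def pc46 : PT := (PT.nd (nat_lit 2262) (PT.nd (nat_lit 1092) (PT.nd (nat_lit 546) (PT.nd (nat_lit 234) (PT.nd (nat_lit 78) (PT.lf (nat_lit 18012) (nat_lit 3) (nat_lit 237) (nat_lit 4) (nat_lit 152) (nat_lit 209) (nat_lit 209)) (PT.nd (nat_lit 78) (PT.lf (nat_lit 18620) (nat_lit 6) (nat_lit 245) (nat_lit 4) (nat_lit 153) (nat_lit 209) (nat_lit 208)) (PT.lf (nat_lit 19228) (nat_lit 6) (nat_lit 253) (nat_lit 4) (nat_lit 154) (nat_lit 209) (nat_lit 207)))) (PT.nd (nat_lit 156) (PT.nd (nat_lit 78) (PT.lf (nat_lit 19912) (nat_lit 6) (nat_lit 262) (nat_lit 4) (nat_lit 155) (nat_lit 209) (nat_lit 206)) (PT.lf (nat_lit 20596) (nat_lit 6) (nat_lit 271) (nat_lit 4) (nat_lit 156) (nat_lit 209) (nat_lit 205))) (PT.nd (nat_lit 78) (PT.lf (nat_lit 21280) (nat_lit 6) (nat_lit 280) (nat_lit 4) (nat_lit 157) (nat_lit 209) (nat_lit 204)) (PT.lf (nat_lit 21964) (nat_lit 6) (nat_lit 289) (nat_lit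 4) (nat_lit 158) (nat_lit 209) (nat_lit 203))))) (PT.nd (nat_lit 234) (PT.nd (nat_lit 78) (PT.lf (nat_lit 22724) (nat_lit 6) (nat_lit 299) (nat_lit 4) (nat_lit 159) (nat_lit 209) (nat_lit 202)) (PT.nd (nat_lit 78) (PT.lf (nat_lit 23484) (nat_lit 6) (nat_lit 309) (nat_lit 4) (nat_lit 160) (nat_lit 209) (nat_lit 201)) (PT.lf (nat_lit 24244) (nat_lit 6) (nat_lit 319) (nat_lit 4) (nat_lit 161) (nat_lit 209) (nat_lit 200)))) (PT.nd (nat_lit 156) (PT.nd (nat_lit 78) (PT.lf (nat_lit 25004) (nat_lit 6) (nat_lit 329) (nat_lit 4) (nat_lit 162) (nat_lit 209) (nat_lit 199)) (PT.lf (nat_lit 25840) (nat_lit 6) (nat_lit 340) (nat_lit 4) (nat_lit 163) (nat_lit 209) (nat_lit 198))) (PT.nd (nat_lit 78) (PT.lf (nat_lit 26676) (nat_lit 6) (nat_lit 351) (nat_lit 4) (nat_lit 164) (nat_lit 209) (nat_lit 197)) (PT.lf (nat_lit 27588) (nat_lit 6) (nat_lit 363) (nat_lit 4) (nat_lit 165) (nat_lit 209) (nat_lit 196)))))) (PT.nd (nat_lit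 546) (PT.nd (nat_lit 234) (PT.nd (nat_lit 78) (PT.lf (nat_lit 28576) (nat_lit 6) (nat_lit 376) (nat_lit 4) (nat_lit 166) (nat_lit 209) (nat_lit 195)) (PT.nd (nat_lit 78) (PT.lf (nat_lit 30324) (nat_lit 6) (nat_lit 399) (nat_lit 4) (nat_lit 167) (nat_lit 209) (nat_lit 194)) (PT.lf (nat_lit 31996) (nat_lit 6) (nat_lit 421) (nat_lit 4) (nat_lit 168) (nat_lit 209) (nat_lit 193)))) (PT.nd (nat_lit 156) (PT.nd (nat_lit 78) (PT.lf (nat_lit 33592) (nat_lit 6) (nat_lit 442) (nat_lit 4) (nat_lit 169) (nat_lit 209) (nat_lit 192)) (PT.lf (nat_lit 35112) (nat_lit 6) (nat_lit 462) (nat_lit 4) (nat_lit 170) (nat_lit 209) (nat_lit 191))) (PT.nd (nat_lit 78) (PT.lf (nat_lit 36556) (nat_lit 6) (nat_lit 481) (nat_lit 4) (nat_lit 171) (nat_lit 209) (nat_lit 190)) (PT.lf (nat_lit 36480) (nat_lit 6) (nat_lit 480) (nat_lit 4) (nat_lit 172) (nat_lit 209) (nat_lit 189))))) (PT.nd (nat_lit 312) (PT.nd (nat_lit 156) (PT.nd (nat_lit 78)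 (PT.lf (nat_lit 36404) (nat_lit 6) (nat_lit 479) (nat_lit 4) (nat_lit 173) (nat_lit 209) (nat_lit 188)) (PT.lf (nat_lit 36328) (nat_lit 6) (nat_lit 478) (nat_lit 4) (nat_lit 174) (nat_lit 209) (nat_lit 187))) (PT.nd (nat_lit 78) (PT.lf (nat_lit 36252) (nat_lit 6) (nat_lit 477) (nat_lit 4) (nat_lit 175) (nat_lit 209) (nat_lit 186)) (PT.lf (nat_lit 36176) (nat_lit 6) (nat_lit 476) (nat_lit 4) (nat_lit 176) (nat_lit 209) (nat_lit 185)))) (PT.nd (nat_lit 156) (PT.nd (nat_lit 78) (PT.lf (nat_lit 36100) (nat_lit 6) (nat_lit 475) (nat_lit 4) (nat_lit 177) (nat_lit 209) (nat_lit 184)) (PT.lf (nat_lit 36024) (nat_lit 6) (nat_lit 474) (nat_lit 4) (nat_lit 178) (nat_lit 209) (nat_lit 183))) (PT.nd (nat_lit 78) (PT.lf (nat_lit 35948) (nat_lit 6) (nat_lit 473) (nat_lit 4) (nat_lit 179) (nat_lit 209) (nat_lit 182)) (PT.lf (nat_lit 35872) (nat_lit 6) (nat_lit 472) (nat_lit 4) (nat_lit 180) (nat_lit 209) (nat_lit 181)))))))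 (PT.nd (nat_lit 1170) (PT.nd (nat_lit 546) (PT.nd (nat_lit 234) (PT.nd (nat_lit 78) (PT.lf (nat_lit 35872) (nat_lit 6) (nat_lit 472) (nat_lit 2) (nat_lit 181) (nat_lit 209) (nat_lit 180)) (PT.nd (nat_lit 78) (PT.lf (nat_lit 35948) (nat_lit 6) (nat_lit 473) (nat_lit 2) (nat_lit 182) (nat_lit 209) (nat_lit 179)) (PT.lf (nat_lit 36024) (nat_lit 6) (nat_lit 474) (nat_lit 2) (nat_lit 183) (nat_lit 209) (nat_lit 178)))) (PT.nd (nat_lit 156) (PT.nd (nat_lit 78) (PT.lf (nat_lit 36100) (nat_lit 6) (nat_lit 475) (nat_lit 2) (nat_lit 184) (nat_lit 209) (nat_lit 177)) (PT.lf (nat_lit 36176) (nat_lit 6) (nat_lit 476) (nat_lit 2) (nat_lit 185) (nat_lit 209) (nat_lit 176))) (PT.nd (nat_lit 78) (PT.lf (nat_lit 36252) (nat_lit 6) (nat_lit 477) (nat_lit 2) (nat_lit 186) (nat_lit 209) (nat_lit 175)) (PT.lf (nat_lit 36328) (nat_lit 6) (nat_lit 478) (nat_lit 2) (nat_lit 187) (nat_lit 209) (nat_lit 174))))) (PT.nd (nat_lit 312) (PT.nd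 (nat_lit 156) (PT.nd (nat_lit 78) (PT.lf (nat_lit 36404) (nat_lit 6) (nat_lit 479) (nat_lit 2) (nat_lit 188) (nat_lit 209) (nat_lit 173)) (PT.lf (nat_lit 36480) (nat_lit 6) (nat_lit 480) (nat_lit 2) (nat_lit 189) (nat_lit 209) (nat_lit 172))) (PT.nd (nat_lit 78) (PT.lf (nat_lit 36556) (nat_lit 6) (nat_lit 481) (nat_lit 2) (nat_lit 190) (nat_lit 209) (nat_lit 171)) (PT.lf (nat_lit 35112) (nat_lit 6) (nat_lit 462) (nat_lit 2) (nat_lit 191) (nat_lit 209) (nat_lit 170)))) (PT.nd (nat_lit 156) (PT.nd (nat_lit 78) (PT.lf (nat_lit 33592) (nat_lit 6) (nat_lit 442) (nat_lit 2) (nat_lit 192) (nat_lit 209) (nat_lit 169)) (PT.lf (nat_lit 31996) (nat_lit 6) (nat_lit 421) (nat_lit 2) (nat_lit 193) (nat_lit 209) (nat_lit 168))) (PT.nd (nat_lit 78) (PT.lf (nat_lit 30324) (nat_lit 6) (nat_lit 399) (nat_lit 2) (nat_lit 194) (nat_lit 209) (nat_lit 167)) (PT.lf (nat_lit 28576) (nat_lit 6) (nat_lit 376) (nat_lit 2) (nat_lit 195)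 (nat_lit 209) (nat_lit 166)))))) (PT.nd (nat_lit 546) (PT.nd (nat_lit 234) (PT.nd (nat_lit 78) (PT.lf (nat_lit 27588) (nat_lit 6) (nat_lit 363) (nat_lit 2) (nat_lit 196) (nat_lit 209) (nat_lit 165)) (PT.nd (nat_lit 78) (PT.lf (nat_lit 26676) (nat_lit 6) (nat_lit 351) (nat_lit 2) (nat_lit 197) (nat_lit 209) (nat_lit 164)) (PT.lf (nat_lit 25840) (nat_lit 6) (nat_lit 340) (nat_lit 2) (nat_lit 198) (nat_lit 209) (nat_lit 163)))) (PT.nd (nat_lit 156) (PT.nd (nat_lit 78) (PT.lf (nat_lit 25004) (nat_lit 6) (nat_lit 329) (nat_lit 2) (nat_lit 199) (nat_lit 209) (nat_lit 162)) (PT.lf (nat_lit 24244) (nat_lit 6) (nat_lit 319) (nat_lit 2) (nat_lit 200) (nat_lit 209) (nat_lit 161))) (PT.nd (nat_lit 78) (PT.lf (nat_lit 23484) (nat_lit 6) (nat_lit 309) (nat_lit 2) (nat_lit 201) (nat_lit 209) (nat_lit 160)) (PT.lf (nat_lit 22724) (nat_lit 6) (nat_lit 299) (nat_lit 2) (nat_lit 202) (nat_lit 209) (nat_lit 159))))) (PT.nd (nat_lit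 312) (PT.nd (nat_lit 156) (PT.nd (nat_lit 78) (PT.lf (nat_lit 21964) (nat_lit 6) (nat_lit 289) (nat_lit 2) (nat_lit 203) (nat_lit 209) (nat_lit 158)) (PT.lf (nat_lit 21280) (nat_lit 6) (nat_lit 280) (nat_lit 2) (nat_lit 204) (nat_lit 209) (nat_lit 157))) (PT.nd (nat_lit 78) (PT.lf (nat_lit 20596) (nat_lit 6) (nat_lit 271) (nat_lit 2) (nat_lit 205) (nat_lit 209) (nat_lit 156)) (PT.lf (nat_lit 19912) (nat_lit 6) (nat_lit 262) (nat_lit 2) (nat_lit 206) (nat_lit 209) (nat_lit 155)))) (PT.nd (nat_lit 156) (PT.nd (nat_lit 78) (PT.lf (nat_lit 19228) (nat_lit 6) (nat_lit 253) (nat_lit 2) (nat_lit 207) (nat_lit 209) (nat_lit 154)) (PT.lf (nat_lit 18620) (nat_lit 6) (nat_lit 245) (nat_lit 2) (nat_lit 208) (nat_lit 209) (nat_lit 153))) (PT.nd (nat_lit 78) (PT.lf (nat_lit 18012) (nat_lit 3) (nat_lit 237) (nat_lit 0) (nat_lit 209) (nat_lit 209) (nat_lit 152)) (PT.lf (nat_lit 17328) (nat_lit 6) (nat_lit 228) (nat_lit 0) (nat_lit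 210) (nat_lit 209) (nat_lit 151))))))))
noncomputable def pc47 : PT := (PT.nd (nat_lit 55302) (PT.nd (nat_lit 54132) (PT.nd (nat_lit 546) (PT.nd (nat_lit 234) (PT.nd (nat_lit 78) (PT.lf (nat_lit 16644) (nat_lit 6) (nat_lit 219) (nat_lit 0) (nat_lit 211) (nat_lit 209) (nat_lit 150)) (PT.nd (nat_lit 78) (PT.lf (nat_lit 16036) (nat_lit 6) (nat_lit 211) (nat_lit 0) (nat_lit 212) (nat_lit 209) (nat_lit 149)) (PT.lf (nat_lit 15428) (nat_lit 6) (nat_lit 203) (nat_lit 0) (nat_lit 213) (nat_lit 209) (nat_lit 148)))) (PT.nd (nat_lit 156) (PT.nd (nat_lit 78) (PT.lf (nat_lit 14820) (nat_lit 6) (nat_lit 195) (nat_lit 0) (nat_lit 214) (nat_lit 209) (nat_lit 147)) (PT.lf (nat_lit 14212) (nat_lit 6) (nat_lit 187) (nat_lit 0) (nat_lit 215) (nat_lit 209) (nat_lit 146))) (PT.nd (nat_lit 78) (PT.lf (nat_lit 13680) (nat_lit 6) (nat_lit 180) (nat_lit 0) (nat_lit 216) (nat_lit 209) (nat_lit 145)) (PT.lf (nat_lit 13072) (nat_lit 6)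 (nat_lit 172) (nat_lit 0) (nat_lit 217) (nat_lit 209) (nat_lit 144))))) (PT.nd (nat_lit 53274) (PT.nd (nat_lit 78) (PT.lf (nat_lit 12540) (nat_lit 6) (nat_lit 165) (nat_lit 0) (nat_lit 218) (nat_lit 209) (nat_lit 143)) (PT.nd (nat_lit 78) (PT.lf (nat_lit 12008) (nat_lit 6) (nat_lit 158) (nat_lit 0) (nat_lit 219) (nat_lit 209) (nat_lit 142)) (PT.lf (nat_lit 11476) (nat_lit 6) (nat_lit 151) (nat_lit 0) (nat_lit 220) (nat_lit 209) (nat_lit 141)))) (PT.nd (nat_lit 156) (PT.nd (nat_lit 78) (PT.lf (nat_lit 11020) (nat_lit 6) (nat_lit 145) (nat_lit 5) (nat_lit 140) (nat_lit 210) (nat_lit 220)) (PT.lf (nat_lit 11552) (nat_lit 6) (nat_lit 152) (nat_lit 5) (nat_lit 141) (nat_lit 210) (nat_lit 219))) (PT.nd (nat_lit 78) (PT.lf (nat_lit 12084) (nat_lit 6) (nat_lit 159) (nat_lit 5) (nat_lit 142) (nat_lit 210) (nat_lit 218)) (PT.lf (nat_lit 12616) (nat_lit 6) (nat_lit 166) (nat_lit 5) (nat_lit 143) (nat_lit 210) (nat_lit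 217)))))) (PT.nd (nat_lit 546) (PT.nd (nat_lit 234) (PT.nd (nat_lit 78) (PT.lf (nat_lit 13148) (nat_lit 6) (nat_lit 173) (nat_lit 5) (nat_lit 144) (nat_lit 210) (nat_lit 216)) (PT.nd (nat_lit 78) (PT.lf (nat_lit 13756) (nat_lit 6) (nat_lit 181) (nat_lit 5) (nat_lit 145) (nat_lit 210) (nat_lit 215)) (PT.lf (nat_lit 14288) (nat_lit 6) (nat_lit 188) (nat_lit 5) (nat_lit 146) (nat_lit 210) (nat_lit 214)))) (PT.nd (nat_lit 156) (PT.nd (nat_lit 78) (PT.lf (nat_lit 14896) (nat_lit 6) (nat_lit 196) (nat_lit 5) (nat_lit 147) (nat_lit 210) (nat_lit 213)) (PT.lf (nat_lit 15504) (nat_lit 6) (nat_lit 204) (nat_lit 5) (nat_lit 148) (nat_lit 210) (nat_lit 212))) (PT.nd (nat_lit 78) (PT.lf (nat_lit 16112) (nat_lit 6) (nat_lit 212) (nat_lit 5) (nat_lit 149) (nat_lit 210) (nat_lit 211)) (PT.lf (nat_lit 16720) (nat_lit 3) (nat_lit 220) (nat_lit 4) (nat_lit 150) (nat_lit 210) (nat_lit 210))))) (PT.nd (nat_lit 312) (PT.nd (nat_lit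 156) (PT.nd (nat_lit 78) (PT.lf (nat_lit 17328) (nat_lit 6) (nat_lit 228) (nat_lit 4) (nat_lit 151) (nat_lit 210) (nat_lit 209)) (PT.lf (nat_lit 17936) (nat_lit 6) (nat_lit 236) (nat_lit 4) (nat_lit 152) (nat_lit 210) (nat_lit 208))) (PT.nd (nat_lit 78) (PT.lf (nat_lit 18544) (nat_lit 6) (nat_lit 244) (nat_lit 4) (nat_lit 153) (nat_lit 210) (nat_lit 207)) (PT.lf (nat_lit 19152) (nat_lit 6) (nat_lit 252) (nat_lit 4) (nat_lit 154) (nat_lit 210) (nat_lit 206)))) (PT.nd (nat_lit 156) (PT.nd (nat_lit 78) (PT.lf (nat_lit 19836) (nat_lit 6) (nat_lit 261) (nat_lit 4) (nat_lit 155) (nat_lit 210) (nat_lit 205)) (PT.lf (nat_lit 20520) (nat_lit 6) (nat_lit 270) (nat_lit 4) (nat_lit 156) (nat_lit 210) (nat_lit 204))) (PT.nd (nat_lit 78) (PT.lf (nat_lit 21204) (nat_lit 6) (nat_lit 279) (nat_lit 4) (nat_lit 157) (nat_lit 210) (nat_lit 203)) (PT.lf (nat_lit 21888) (nat_lit 6) (nat_lit 288) (nat_lit 4) (nat_lit 158) (nat_lit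 210) (nat_lit 202))))))) (PT.nd (nat_lit 1170) (PT.nd (nat_lit 546) (PT.nd (nat_lit 234) (PT.nd (nat_lit 78) (PT.lf (nat_lit 22648) (nat_lit 6) (nat_lit 298) (nat_lit 4) (nat_lit 159) (nat_lit 210) (nat_lit 201)) (PT.nd (nat_lit 78) (PT.lf (nat_lit 23408) (nat_lit 6) (nat_lit 308) (nat_lit 4) (nat_lit 160) (nat_lit 210) (nat_lit 200)) (PT.lf (nat_lit 24168) (nat_lit 6) (nat_lit 318) (nat_lit 4) (nat_lit 161) (nat_lit 210) (nat_lit 199)))) (PT.nd (nat_lit 156) (PT.nd (nat_lit 78) (PT.lf (nat_lit 24928) (nat_lit 6) (nat_lit 328) (nat_lit 4) (nat_lit 162) (nat_lit 210) (nat_lit 198)) (PT.lf (nat_lit 25764) (nat_lit 6) (nat_lit 339) (nat_lit 4) (nat_lit 163) (nat_lit 210) (nat_lit 197))) (PT.nd (nat_lit 78) (PT.lf (nat_lit 26600) (nat_lit 6) (nat_lit 350) (nat_lit 4) (nat_lit 164) (nat_lit 210) (nat_lit 196)) (PT.lf (nat_lit 27512) (nat_lit 6) (nat_lit 362) (nat_lit 4) (nat_lit 165) (nat_lit 210) (nat_lit 195)))))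 (PT.nd (nat_lit 312) (PT.nd (nat_lit 156) (PT.nd (nat_lit 78) (PT.lf (nat_lit 28500) (nat_lit 6) (nat_lit 375) (nat_lit 4) (nat_lit 166) (nat_lit 210) (nat_lit 194)) (PT.lf (nat_lit 30248) (nat_lit 6) (nat_lit 398) (nat_lit 4) (nat_lit 167) (nat_lit 210) (nat_lit 193))) (PT.nd (nat_lit 78) (PT.lf (nat_lit 31920) (nat_lit 6) (nat_lit 420) (nat_lit 4) (nat_lit 168) (nat_lit 210) (nat_lit 192)) (PT.lf (nat_lit 33516) (nat_lit 6) (nat_lit 441) (nat_lit 4) (nat_lit 169) (nat_lit 210) (nat_lit 191)))) (PT.nd (nat_lit 156) (PT.nd (nat_lit 78) (PT.lf (nat_lit 35036) (nat_lit 6) (nat_lit 461) (nat_lit 4) (nat_lit 170) (nat_lit 210) (nat_lit 190)) (PT.lf (nat_lit 34960) (nat_lit 6) (nat_lit 460) (nat_lit 4) (nat_lit 171) (nat_lit 210) (nat_lit 189))) (PT.nd (nat_lit 78) (PT.lf (nat_lit 34884) (nat_lit 6) (nat_lit 459) (nat_lit 4) (nat_lit 172) (nat_lit 210) (nat_lit 188)) (PT.lf (nat_lit 34808) (nat_lit 6) (nat_lit 458)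 (nat_lit 4) (nat_lit 173) (nat_lit 210) (nat_lit 187)))))) (PT.nd (nat_lit 546) (PT.nd (nat_lit 234) (PT.nd (nat_lit 78) (PT.lf (nat_lit 34732) (nat_lit 6) (nat_lit 457) (nat_lit 4) (nat_lit 174) (nat_lit 210) (nat_lit 186)) (PT.nd (nat_lit 78) (PT.lf (nat_lit 34656) (nat_lit 6) (nat_lit 456) (nat_lit 4) (nat_lit 175) (nat_lit 210) (nat_lit 185)) (PT.lf (nat_lit 34580) (nat_lit 6) (nat_lit 455) (nat_lit 4) (nat_lit 176) (nat_lit 210) (nat_lit 184)))) (PT.nd (nat_lit 156) (PT.nd (nat_lit 78) (PT.lf (nat_lit 34504) (nat_lit 6) (nat_lit 454) (nat_lit 4) (nat_lit 177) (nat_lit 210) (nat_lit 183)) (PT.lf (nat_lit 34428) (nat_lit 6) (nat_lit 453) (nat_lit 4) (nat_lit 178) (nat_lit 210) (nat_lit 182))) (PT.nd (nat_lit 78) (PT.lf (nat_lit 34352) (nat_lit 6) (nat_lit 452) (nat_lit 4) (nat_lit 179) (nat_lit 210) (nat_lit 181)) (PT.lf (nat_lit 34276) (nat_lit 3) (nat_lit 451) (nat_lit 2) (nat_lit 180) (nat_lit 210) (nat_lit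 180))))) (PT.nd (nat_lit 312) (PT.nd (nat_lit 156) (PT.nd (nat_lit 78) (PT.lf (nat_lit 34352) (nat_lit 6) (nat_lit 452) (nat_lit 2) (nat_lit 181) (nat_lit 210) (nat_lit 179)) (PT.lf (nat_lit 34428) (nat_lit 6) (nat_lit 453) (nat_lit 2) (nat_lit 182) (nat_lit 210) (nat_lit 178))) (PT.nd (nat_lit 78) (PT.lf (nat_lit 34504) (nat_lit 6) (nat_lit 454) (nat_lit 2) (nat_lit 183) (nat_lit 210) (nat_lit 177)) (PT.lf (nat_lit 34580) (nat_lit 6) (nat_lit 455) (nat_lit 2) (nat_lit 184) (nat_lit 210) (nat_lit 176)))) (PT.nd (nat_lit 156) (PT.nd (nat_lit 78) (PT.lf (nat_lit 34656) (nat_lit 6) (nat_lit 456) (nat_lit 2) (nat_lit 185) (nat_lit 210) (nat_lit 175)) (PT.lf (nat_lit 34732) (nat_lit 6) (nat_lit 457) (nat_lit 2) (nat_lit 186) (nat_lit 210) (nat_lit 174))) (PT.nd (nat_lit 78) (PT.lf (nat_lit 34808) (nat_lit 6) (nat_lit 458) (nat_lit 2) (nat_lit 187) (nat_lit 210) (nat_lit 173)) (PT.lf (nat_lit 34884) (nat_lit 6) (nat_lit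 459) (nat_lit 2) (nat_lit 188) (nat_lit 210) (nat_lit 172))))))))
noncomputable def pc48 : PT := (PT.nd (nat_lit 2262) (PT.nd (nat_lit 1092) (PT.nd (nat_lit 546) (PT.nd (nat_lit 234) (PT.nd (nat_lit 78) (PT.lf (nat_lit 34960) (nat_lit 6) (nat_lit 460) (nat_lit 2) (nat_lit 189) (nat_lit 210) (nat_lit 171)) (PT.nd (nat_lit 78) (PT.lf (nat_lit 35036) (nat_lit 6) (nat_lit 461) (nat_lit 2) (nat_lit 190) (nat_lit 210) (nat_lit 170)) (PT.lf (nat_lit 33516) (nat_lit 6) (nat_lit 441) (nat_lit 2) (nat_lit 191) (nat_lit 210) (nat_lit 169)))) (PT.nd (nat_lit 156) (PT.nd (nat_lit 78) (PT.lf (nat_lit 31920) (nat_lit 6) (nat_lit 420) (nat_lit 2) (nat_lit 192) (nat_lit 210) (nat_lit 168)) (PT.lf (nat_lit 30248) (nat_lit 6) (nat_lit 398) (nat_lit 2) (nat_lit 193) (nat_lit 210) (nat_lit 167))) (PT.nd (nat_lit 78) (PT.lf (nat_lit 28500) (nat_lit 6) (nat_lit 375) (nat_lit 2) (nat_lit 194) (nat_lit 210) (nat_lit 166)) (PT.lf (nat_lit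 27512) (nat_lit 6) (nat_lit 362) (nat_lit 2) (nat_lit 195) (nat_lit 210) (nat_lit 165))))) (PT.nd (nat_lit 234) (PT.nd (nat_lit 78) (PT.lf (nat_lit 26600) (nat_lit 6) (nat_lit 350) (nat_lit 2) (nat_lit 196) (nat_lit 210) (nat_lit 164)) (PT.nd (nat_lit 78) (PT.lf (nat_lit 25764) (nat_lit 6) (nat_lit 339) (nat_lit 2) (nat_lit 197) (nat_lit 210) (nat_lit 163)) (PT.lf (nat_lit 24928) (nat_lit 6) (nat_lit 328) (nat_lit 2) (nat_lit 198) (nat_lit 210) (nat_lit 162)))) (PT.nd (nat_lit 156) (PT.nd (nat_lit 78) (PT.lf (nat_lit 24168) (nat_lit 6) (nat_lit 318) (nat_lit 2) (nat_lit 199) (nat_lit 210) (nat_lit 161)) (PT.lf (nat_lit 23408) (nat_lit 6) (nat_lit 308) (nat_lit 2) (nat_lit 200) (nat_lit 210) (nat_lit 160))) (PT.nd (nat_lit 78) (PT.lf (nat_lit 22648) (nat_lit 6) (nat_lit 298) (nat_lit 2) (nat_lit 201) (nat_lit 210) (nat_lit 159)) (PT.lf (nat_lit 21888) (nat_lit 6) (nat_lit 288) (nat_lit 2) (nat_lit 202) (nat_lit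 210) (nat_lit 158)))))) (PT.nd (nat_lit 546) (PT.nd (nat_lit 234) (PT.nd (nat_lit 78) (PT.lf (nat_lit 21204) (nat_lit 6) (nat_lit 279) (nat_lit 2) (nat_lit 203) (nat_lit 210) (nat_lit 157)) (PT.nd (nat_lit 78) (PT.lf (nat_lit 20520) (nat_lit 6) (nat_lit 270) (nat_lit 2) (nat_lit 204) (nat_lit 210) (nat_lit 156)) (PT.lf (nat_lit 19836) (nat_lit 6) (nat_lit 261) (nat_lit 2) (nat_lit 205) (nat_lit 210) (nat_lit 155)))) (PT.nd (nat_lit 156) (PT.nd (nat_lit 78) (PT.lf (nat_lit 19152) (nat_lit 6) (nat_lit 252) (nat_lit 2) (nat_lit 206) (nat_lit 210) (nat_lit 154)) (PT.lf (nat_lit 18544) (nat_lit 6) (nat_lit 244) (nat_lit 2) (nat_lit 207) (nat_lit 210) (nat_lit 153))) (PT.nd (nat_lit 78) (PT.lf (nat_lit 17936) (nat_lit 6) (nat_lit 236) (nat_lit 2) (nat_lit 208) (nat_lit 210) (nat_lit 152)) (PT.lf (nat_lit 17328) (nat_lit 6) (nat_lit 228) (nat_lit 2) (nat_lit 209) (nat_lit 210) (nat_lit 151))))) (PT.nd (nat_lit 312)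 (PT.nd (nat_lit 156) (PT.nd (nat_lit 78) (PT.lf (nat_lit 16720) (nat_lit 3) (nat_lit 220) (nat_lit 0) (nat_lit 210) (nat_lit 210) (nat_lit 150)) (PT.lf (nat_lit 16112) (nat_lit 6) (nat_lit 212) (nat_lit 0) (nat_lit 211) (nat_lit 210) (nat_lit 149))) (PT.nd (nat_lit 78) (PT.lf (nat_lit 15504) (nat_lit 6) (nat_lit 204) (nat_lit 0) (nat_lit 212) (nat_lit 210) (nat_lit 148)) (PT.lf (nat_lit 14896) (nat_lit 6) (nat_lit 196) (nat_lit 0) (nat_lit 213) (nat_lit 210) (nat_lit 147)))) (PT.nd (nat_lit 156) (PT.nd (nat_lit 78) (PT.lf (nat_lit 14288) (nat_lit 6) (nat_lit 188) (nat_lit 0) (nat_lit 214) (nat_lit 210) (nat_lit 146)) (PT.lf (nat_lit 13756) (nat_lit 6) (nat_lit 181) (nat_lit 0) (nat_lit 215) (nat_lit 210) (nat_lit 145))) (PT.nd (nat_lit 78) (PT.lf (nat_lit 13148) (nat_lit 6) (nat_lit 173) (nat_lit 0) (nat_lit 216) (nat_lit 210) (nat_lit 144)) (PT.lf (nat_lit 12616) (nat_lit 6) (nat_lit 166) (nat_lit 0) (nat_lit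 217) (nat_lit 210) (nat_lit 143))))))) (PT.nd (nat_lit 53976) (PT.nd (nat_lit 53430) (PT.nd (nat_lit 53118) (PT.nd (nat_lit 78) (PT.lf (nat_lit 12084) (nat_lit 6) (nat_lit 159) (nat_lit 0) (nat_lit 218) (nat_lit 210) (nat_lit 142)) (PT.nd (nat_lit 78) (PT.lf (nat_lit 11552) (nat_lit 6) (nat_lit 152) (nat_lit 0) (nat_lit 219) (nat_lit 210) (nat_lit 141)) (PT.lf (nat_lit 11020) (nat_lit 6) (nat_lit 145) (nat_lit 0) (nat_lit 220) (nat_lit 210) (nat_lit 140)))) (PT.nd (nat_lit 156) (PT.nd (nat_lit 78) (PT.lf (nat_lit 10108) (nat_lit 6) (nat_lit 133) (nat_lit 5) (nat_lit 138) (nat_lit 211) (nat_lit 221)) (PT.lf (nat_lit 10640) (nat_lit 6) (nat_lit 140) (nat_lit 5) (nat_lit 139) (nat_lit 211) (nat_lit 220))) (PT.nd (nat_lit 78) (PT.lf (nat_lit 11096) (nat_lit 6) (nat_lit 146) (nat_lit 5) (nat_lit 140) (nat_lit 211) (nat_lit 219)) (PT.lf (nat_lit 11628) (nat_lit 6) (nat_lit 153) (nat_lit 5) (nat_lit 141) (nat_lit 211)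 (nat_lit 218))))) (PT.nd (nat_lit 234) (PT.nd (nat_lit 78) (PT.lf (nat_lit 12160) (nat_lit 6) (nat_lit 160) (nat_lit 5) (nat_lit 142) (nat_lit 211) (nat_lit 217)) (PT.nd (nat_lit 78) (PT.lf (nat_lit 12692) (nat_lit 6) (nat_lit 167) (nat_lit 5) (nat_lit 143) (nat_lit 211) (nat_lit 216)) (PT.lf (nat_lit 13224) (nat_lit 6) (nat_lit 174) (nat_lit 5) (nat_lit 144) (nat_lit 211) (nat_lit 215)))) (PT.nd (nat_lit 156) (PT.nd (nat_lit 78) (PT.lf (nat_lit 13832) (nat_lit 6) (nat_lit 182) (nat_lit 5) (nat_lit 145) (nat_lit 211) (nat_lit 214)) (PT.lf (nat_lit 14364) (nat_lit 6) (nat_lit 189) (nat_lit 5) (nat_lit 146) (nat_lit 211) (nat_lit 213))) (PT.nd (nat_lit 78) (PT.lf (nat_lit 14972) (nat_lit 6) (nat_lit 197) (nat_lit 5) (nat_lit 147) (nat_lit 211) (nat_lit 212)) (PT.lf (nat_lit 15580) (nat_lit 3) (nat_lit 205) (nat_lit 4) (nat_lit 148) (nat_lit 211) (nat_lit 211)))))) (PT.nd (nat_lit 546) (PT.nd (nat_lit 234) (PT.nd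 (nat_lit 78) (PT.lf (nat_lit 16112) (nat_lit 6) (nat_lit 212) (nat_lit 4) (nat_lit 149) (nat_lit 211) (nat_lit 210)) (PT.nd (nat_lit 78) (PT.lf (nat_lit 16644) (nat_lit 6) (nat_lit 219) (nat_lit 4) (nat_lit 150) (nat_lit 211) (nat_lit 209)) (PT.lf (nat_lit 17252) (nat_lit 6) (nat_lit 227) (nat_lit 4) (nat_lit 151) (nat_lit 211) (nat_lit 208)))) (PT.nd (nat_lit 156) (PT.nd (nat_lit 78) (PT.lf (nat_lit 17860) (nat_lit 6) (nat_lit 235) (nat_lit 4) (nat_lit 152) (nat_lit 211) (nat_lit 207)) (PT.lf (nat_lit 18468) (nat_lit 6) (nat_lit 243) (nat_lit 4) (nat_lit 153) (nat_lit 211) (nat_lit 206))) (PT.nd (nat_lit 78) (PT.lf (nat_lit 19076) (nat_lit 6) (nat_lit 251) (nat_lit 4) (nat_lit 154) (nat_lit 211) (nat_lit 205)) (PT.lf (nat_lit 19760) (nat_lit 6) (nat_lit 260) (nat_lit 4) (nat_lit 155) (nat_lit 211) (nat_lit 204))))) (PT.nd (nat_lit 312) (PT.nd (nat_lit 156) (PT.nd (nat_lit 78) (PT.lf (nat_lit 20444) (nat_lit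 6) (nat_lit 269) (nat_lit 4) (nat_lit 156) (nat_lit 211) (nat_lit 203)) (PT.lf (nat_lit 21128) (nat_lit 6) (nat_lit 278) (nat_lit 4) (nat_lit 157) (nat_lit 211) (nat_lit 202))) (PT.nd (nat_lit 78) (PT.lf (nat_lit 21812) (nat_lit 6) (nat_lit 287) (nat_lit 4) (nat_lit 158) (nat_lit 211) (nat_lit 201)) (PT.lf (nat_lit 22572) (nat_lit 6) (nat_lit 297) (nat_lit 4) (nat_lit 159) (nat_lit 211) (nat_lit 200)))) (PT.nd (nat_lit 156) (PT.nd (nat_lit 78) (PT.lf (nat_lit 23332) (nat_lit 6) (nat_lit 307) (nat_lit 4) (nat_lit 160) (nat_lit 211) (nat_lit 199)) (PT.lf (nat_lit 24092) (nat_lit 6) (nat_lit 317) (nat_lit 4) (nat_lit 161) (nat_lit 211) (nat_lit 198))) (PT.nd (nat_lit 78) (PT.lf (nat_lit 24852) (nat_lit 6) (nat_lit 327) (nat_lit 4) (nat_lit 162) (nat_lit 211) (nat_lit 197)) (PT.lf (nat_lit 25688) (nat_lit 6) (nat_lit 338) (nat_lit 4) (nat_lit 163) (nat_lit 211) (nat_lit 196))))))))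
noncomputable def pc49 : PT := (PT.nd (nat_lit 2262) (PT.nd (nat_lit 1092) (PT.nd (nat_lit 546) (PT.nd (nat_lit 234) (PT.nd (nat_lit 78) (PT.lf (nat_lit 26524) (nat_lit 6) (nat_lit 349) (nat_lit 4) (nat_lit 164) (nat_lit 211) (nat_lit 195)) (PT.nd (nat_lit 78) (PT.lf (nat_lit 27436) (nat_lit 6) (nat_lit 361) (nat_lit 4) (nat_lit 165) (nat_lit 211) (nat_lit 194)) (PT.lf (nat_lit 28424) (nat_lit 6) (nat_lit 374) (nat_lit 4) (nat_lit 166) (nat_lit 211) (nat_lit 193)))) (PT.nd (nat_lit 156) (PT.nd (nat_lit 78) (PT.lf (nat_lit 30172) (nat_lit 6) (nat_lit 397) (nat_lit 4) (nat_lit 167) (nat_lit 211) (nat_lit 192)) (PT.lf (nat_lit 31844) (nat_lit 6) (nat_lit 419) (nat_lit 4) (nat_lit 168) (nat_lit 211) (nat_lit 191))) (PT.nd (nat_lit 78) (PT.lf (nat_lit 33440) (nat_lit 6) (nat_lit 440) (nat_lit 4) (nat_lit 169) (nat_lit 211) (nat_lit 190)) (PT.lf (nat_lit 33364) (nat_lit 6) (nat_lit 439) (nat_lit 4) (nat_lit 170) (nat_lit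 211) (nat_lit 189))))) (PT.nd (nat_lit 234) (PT.nd (nat_lit 78) (PT.lf (nat_lit 33288) (nat_lit 6) (nat_lit 438) (nat_lit 4) (nat_lit 171) (nat_lit 211) (nat_lit 188)) (PT.nd (nat_lit 78) (PT.lf (nat_lit 33212) (nat_lit 6) (nat_lit 437) (nat_lit 4) (nat_lit 172) (nat_lit 211) (nat_lit 187)) (PT.lf (nat_lit 33136) (nat_lit 6) (nat_lit 436) (nat_lit 4) (nat_lit 173) (nat_lit 211) (nat_lit 186)))) (PT.nd (nat_lit 156) (PT.nd (nat_lit 78) (PT.lf (nat_lit 33060) (nat_lit 6) (nat_lit 435) (nat_lit 4) (nat_lit 174) (nat_lit 211) (nat_lit 185)) (PT.lf (nat_lit 32984) (nat_lit 6) (nat_lit 434) (nat_lit 4) (nat_lit 175) (nat_lit 211) (nat_lit 184))) (PT.nd (nat_lit 78) (PT.lf (nat_lit 32908) (nat_lit 6) (nat_lit 433) (nat_lit 4) (nat_lit 176) (nat_lit 211) (nat_lit 183)) (PT.lf (nat_lit 32832) (nat_lit 6) (nat_lit 432) (nat_lit 4) (nat_lit 177) (nat_lit 211) (nat_lit 182)))))) (PT.nd (nat_lit 546) (PT.nd (nat_lit 234)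 (PT.nd (nat_lit 78) (PT.lf (nat_lit 32756) (nat_lit 6) (nat_lit 431) (nat_lit 4) (nat_lit 178) (nat_lit 211) (nat_lit 181)) (PT.nd (nat_lit 78) (PT.lf (nat_lit 32680) (nat_lit 6) (nat_lit 430) (nat_lit 4) (nat_lit 179) (nat_lit 211) (nat_lit 180)) (PT.lf (nat_lit 32680) (nat_lit 6) (nat_lit 430) (nat_lit 2) (nat_lit 180) (nat_lit 211) (nat_lit 179)))) (PT.nd (nat_lit 156) (PT.nd (nat_lit 78) (PT.lf (nat_lit 32756) (nat_lit 6) (nat_lit 431) (nat_lit 2) (nat_lit 181) (nat_lit 211) (nat_lit 178)) (PT.lf (nat_lit 32832) (nat_lit 6) (nat_lit 432) (nat_lit 2) (nat_lit 182) (nat_lit 211) (nat_lit 177))) (PT.nd (nat_lit 78) (PT.lf (nat_lit 32908) (nat_lit 6) (nat_lit 433) (nat_lit 2) (nat_lit 183) (nat_lit 211) (nat_lit 176)) (PT.lf (nat_lit 32984) (nat_lit 6) (nat_lit 434) (nat_lit 2) (nat_lit 184) (nat_lit 211) (nat_lit 175))))) (PT.nd (nat_lit 312) (PT.nd (nat_lit 156) (PT.nd (nat_lit 78) (PT.lf (nat_lit 33060) (nat_lit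 6) (nat_lit 435) (nat_lit 2) (nat_lit 185) (nat_lit 211) (nat_lit 174)) (PT.lf (nat_lit 33136) (nat_lit 6) (nat_lit 436) (nat_lit 2) (nat_lit 186) (nat_lit 211) (nat_lit 173))) (PT.nd (nat_lit 78) (PT.lf (nat_lit 33212) (nat_lit 6) (nat_lit 437) (nat_lit 2) (nat_lit 187) (nat_lit 211) (nat_lit 172)) (PT.lf (nat_lit 33288) (nat_lit 6) (nat_lit 438) (nat_lit 2) (nat_lit 188) (nat_lit 211) (nat_lit 171)))) (PT.nd (nat_lit 156) (PT.nd (nat_lit 78) (PT.lf (nat_lit 33364) (nat_lit 6) (nat_lit 439) (nat_lit 2) (nat_lit 189) (nat_lit 211) (nat_lit 170)) (PT.lf (nat_lit 33440) (nat_lit 6) (nat_lit 440) (nat_lit 2) (nat_lit 190) (nat_lit 211) (nat_lit 169))) (PT.nd (nat_lit 78) (PT.lf (nat_lit 31844) (nat_lit 6) (nat_lit 419) (nat_lit 2) (nat_lit 191) (nat_lit 211) (nat_lit 168)) (PT.lf (nat_lit 30172) (nat_lit 6) (nat_lit 397) (nat_lit 2) (nat_lit 192) (nat_lit 211) (nat_lit 167))))))) (PT.nd (nat_lit 1170) (PT.nd (nat_lit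 546) (PT.nd (nat_lit 234) (PT.nd (nat_lit 78) (PT.lf (nat_lit 28424) (nat_lit 6) (nat_lit 374) (nat_lit 2) (nat_lit 193) (nat_lit 211) (nat_lit 166)) (PT.nd (nat_lit 78) (PT.lf (nat_lit 27436) (nat_lit 6) (nat_lit 361) (nat_lit 2) (nat_lit 194) (nat_lit 211) (nat_lit 165)) (PT.lf (nat_lit 26524) (nat_lit 6) (nat_lit 349) (nat_lit 2) (nat_lit 195) (nat_lit 211) (nat_lit 164)))) (PT.nd (nat_lit 156) (PT.nd (nat_lit 78) (PT.lf (nat_lit 25688) (nat_lit 6) (nat_lit 338) (nat_lit 2) (nat_lit 196) (nat_lit 211) (nat_lit 163)) (PT.lf (nat_lit 24852) (nat_lit 6) (nat_lit 327) (nat_lit 2) (nat_lit 197) (nat_lit 211) (nat_lit 162))) (PT.nd (nat_lit 78) (PT.lf (nat_lit 24092) (nat_lit 6) (nat_lit 317) (nat_lit 2) (nat_lit 198) (nat_lit 211) (nat_lit 161)) (PT.lf (nat_lit 23332) (nat_lit 6) (nat_lit 307) (nat_lit 2) (nat_lit 199) (nat_lit 211) (nat_lit 160))))) (PT.nd (nat_lit 312) (PT.nd (nat_lit 156) (PT.nd (nat_lit 78)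 (PT.lf (nat_lit 22572) (nat_lit 6) (nat_lit 297) (nat_lit 2) (nat_lit 200) (nat_lit 211) (nat_lit 159)) (PT.lf (nat_lit 21812) (nat_lit 6) (nat_lit 287) (nat_lit 2) (nat_lit 201) (nat_lit 211) (nat_lit 158))) (PT.nd (nat_lit 78) (PT.lf (nat_lit 21128) (nat_lit 6) (nat_lit 278) (nat_lit 2) (nat_lit 202) (nat_lit 211) (nat_lit 157)) (PT.lf (nat_lit 20444) (nat_lit 6) (nat_lit 269) (nat_lit 2) (nat_lit 203) (nat_lit 211) (nat_lit 156)))) (PT.nd (nat_lit 156) (PT.nd (nat_lit 78) (PT.lf (nat_lit 19760) (nat_lit 6) (nat_lit 260) (nat_lit 2) (nat_lit 204) (nat_lit 211) (nat_lit 155)) (PT.lf (nat_lit 19076) (nat_lit 6) (nat_lit 251) (nat_lit 2) (nat_lit 205) (nat_lit 211) (nat_lit 154))) (PT.nd (nat_lit 78) (PT.lf (nat_lit 18468) (nat_lit 6) (nat_lit 243) (nat_lit 2) (nat_lit 206) (nat_lit 211) (nat_lit 153)) (PT.lf (nat_lit 17860) (nat_lit 6) (nat_lit 235) (nat_lit 2) (nat_lit 207) (nat_lit 211) (nat_lit 152))))))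 (PT.nd (nat_lit 546) (PT.nd (nat_lit 234) (PT.nd (nat_lit 78) (PT.lf (nat_lit 17252) (nat_lit 6) (nat_lit 227) (nat_lit 2) (nat_lit 208) (nat_lit 211) (nat_lit 151)) (PT.nd (nat_lit 78) (PT.lf (nat_lit 16644) (nat_lit 6) (nat_lit 219) (nat_lit 2) (nat_lit 209) (nat_lit 211) (nat_lit 150)) (PT.lf (nat_lit 16112) (nat_lit 6) (nat_lit 212) (nat_lit 2) (nat_lit 210) (nat_lit 211) (nat_lit 149)))) (PT.nd (nat_lit 156) (PT.nd (nat_lit 78) (PT.lf (nat_lit 15580) (nat_lit 3) (nat_lit 205) (nat_lit 0) (nat_lit 211) (nat_lit 211) (nat_lit 148)) (PT.lf (nat_lit 14972) (nat_lit 6) (nat_lit 197) (nat_lit 0) (nat_lit 212) (nat_lit 211) (nat_lit 147))) (PT.nd (nat_lit 78) (PT.lf (nat_lit 14364) (nat_lit 6) (nat_lit 189) (nat_lit 0) (nat_lit 213) (nat_lit 211) (nat_lit 146)) (PT.lf (nat_lit 13832) (nat_lit 6) (nat_lit 182) (nat_lit 0) (nat_lit 214) (nat_lit 211) (nat_lit 145))))) (PT.nd (nat_lit 312) (PT.nd (nat_lit 156) (PT.nd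 (nat_lit 78) (PT.lf (nat_lit 13224) (nat_lit 6) (nat_lit 174) (nat_lit 0) (nat_lit 215) (nat_lit 211) (nat_lit 144)) (PT.lf (nat_lit 12692) (nat_lit 6) (nat_lit 167) (nat_lit 0) (nat_lit 216) (nat_lit 211) (nat_lit 143))) (PT.nd (nat_lit 78) (PT.lf (nat_lit 12160) (nat_lit 6) (nat_lit 160) (nat_lit 0) (nat_lit 217) (nat_lit 211) (nat_lit 142)) (PT.lf (nat_lit 11628) (nat_lit 6) (nat_lit 153) (nat_lit 0) (nat_lit 218) (nat_lit 211) (nat_lit 141)))) (PT.nd (nat_lit 156) (PT.nd (nat_lit 78) (PT.lf (nat_lit 11096) (nat_lit 6) (nat_lit 146) (nat_lit 0) (nat_lit 219) (nat_lit 211) (nat_lit 140)) (PT.lf (nat_lit 10640) (nat_lit 6) (nat_lit 140) (nat_lit 0) (nat_lit 220) (nat_lit 211) (nat_lit 139))) (PT.nd (nat_lit 52806) (PT.lf (nat_lit 10108) (nat_lit 6) (nat_lit 133) (nat_lit 0) (nat_lit 221) (nat_lit 211) (nat_lit 138)) (PT.lf (nat_lit 9728) (nat_lit 6) (nat_lit 128) (nat_lit 5) (nat_lit 137) (nat_lit 212) (nat_lit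 221))))))))
noncomputable def pc50 : PT := (PT.nd (nat_lit 2262) (PT.nd (nat_lit 1092) (PT.nd (nat_lit 546) (PT.nd (nat_lit 234) (PT.nd (nat_lit 78) (PT.lf (nat_lit 10184) (nat_lit 6) (nat_lit 134) (nat_lit 5) (nat_lit 138) (nat_lit 212) (nat_lit 220)) (PT.nd (nat_lit 78) (PT.lf (nat_lit 10716) (nat_lit 6) (nat_lit 141) (nat_lit 5) (nat_lit 139) (nat_lit 212) (nat_lit 219)) (PT.lf (nat_lit 11172) (nat_lit 6) (nat_lit 147) (nat_lit 5) (nat_lit 140) (nat_lit 212) (nat_lit 218)))) (PT.nd (nat_lit 156) (PT.nd (nat_lit 78) (PT.lf (nat_lit 11704) (nat_lit 6) (nat_lit 154) (nat_lit 5) (nat_lit 141) (nat_lit 212) (nat_lit 217)) (PT.lf (nat_lit 12236) (nat_lit 6) (nat_lit 161) (nat_lit 5) (nat_lit 142) (nat_lit 212) (nat_lit 216))) (PT.nd (nat_lit 78) (PT.lf (nat_lit 12768) (nat_lit 6) (nat_lit 168) (nat_lit 5) (nat_lit 143) (nat_lit 212) (nat_lit 215)) (PT.lf (nat_lit 13300) (nat_lit 6) (nat_lit 175) (nat_lit 5) (nat_lit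 144) (nat_lit 212) (nat_lit 214))))) (PT.nd (nat_lit 234) (PT.nd (nat_lit 78) (PT.lf (nat_lit 13908) (nat_lit 6) (nat_lit 183) (nat_lit 5) (nat_lit 145) (nat_lit 212) (nat_lit 213)) (PT.nd (nat_lit 78) (PT.lf (nat_lit 14440) (nat_lit 3) (nat_lit 190) (nat_lit 4) (nat_lit 146) (nat_lit 212) (nat_lit 212)) (PT.lf (nat_lit 14972) (nat_lit 6) (nat_lit 197) (nat_lit 4) (nat_lit 147) (nat_lit 212) (nat_lit 211)))) (PT.nd (nat_lit 156) (PT.nd (nat_lit 78) (PT.lf (nat_lit 15504) (nat_lit 6) (nat_lit 204) (nat_lit 4) (nat_lit 148) (nat_lit 212) (nat_lit 210)) (PT.lf (nat_lit 16036) (nat_lit 6) (nat_lit 211) (nat_lit 4) (nat_lit 149) (nat_lit 212) (nat_lit 209))) (PT.nd (nat_lit 78) (PT.lf (nat_lit 16568) (nat_lit 6) (nat_lit 218) (nat_lit 4) (nat_lit 150) (nat_lit 212) (nat_lit 208)) (PT.lf (nat_lit 17176) (nat_lit 6) (nat_lit 226) (nat_lit 4) (nat_lit 151) (nat_lit 212) (nat_lit 207)))))) (PT.nd (nat_lit 546) (PT.nd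 (nat_lit 234) (PT.nd (nat_lit 78) (PT.lf (nat_lit 17784) (nat_lit 6) (nat_lit 234) (nat_lit 4) (nat_lit 152) (nat_lit 212) (nat_lit 206)) (PT.nd (nat_lit 78) (PT.lf (nat_lit 18392) (nat_lit 6) (nat_lit 242) (nat_lit 4) (nat_lit 153) (nat_lit 212) (nat_lit 205)) (PT.lf (nat_lit 19000) (nat_lit 6) (nat_lit 250) (nat_lit 4) (nat_lit 154) (nat_lit 212) (nat_lit 204)))) (PT.nd (nat_lit 156) (PT.nd (nat_lit 78) (PT.lf (nat_lit 19684) (nat_lit 6) (nat_lit 259) (nat_lit 4) (nat_lit 155) (nat_lit 212) (nat_lit 203)) (PT.lf (nat_lit 20368) (nat_lit 6) (nat_lit 268) (nat_lit 4) (nat_lit 156) (nat_lit 212) (nat_lit 202))) (PT.nd (nat_lit 78) (PT.lf (nat_lit 21052) (nat_lit 6) (nat_lit 277) (nat_lit 4) (nat_lit 157) (nat_lit 212) (nat_lit 201)) (PT.lf (nat_lit 21736) (nat_lit 6) (nat_lit 286) (nat_lit 4) (nat_lit 158) (nat_lit 212) (nat_lit 200))))) (PT.nd (nat_lit 312) (PT.nd (nat_lit 156) (PT.nd (nat_lit 78) (PT.lf (nat_lit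 22496) (nat_lit 6) (nat_lit 296) (nat_lit 4) (nat_lit 159) (nat_lit 212) (nat_lit 199)) (PT.lf (nat_lit 23256) (nat_lit 6) (nat_lit 306) (nat_lit 4) (nat_lit 160) (nat_lit 212) (nat_lit 198))) (PT.nd (nat_lit 78) (PT.lf (nat_lit 24016) (nat_lit 6) (nat_lit 316) (nat_lit 4) (nat_lit 161) (nat_lit 212) (nat_lit 197)) (PT.lf (nat_lit 24776) (nat_lit 6) (nat_lit 326) (nat_lit 4) (nat_lit 162) (nat_lit 212) (nat_lit 196)))) (PT.nd (nat_lit 156) (PT.nd (nat_lit 78) (PT.lf (nat_lit 25612) (nat_lit 6) (nat_lit 337) (nat_lit 4) (nat_lit 163) (nat_lit 212) (nat_lit 195)) (PT.lf (nat_lit 26448) (nat_lit 6) (nat_lit 348) (nat_lit 4) (nat_lit 164) (nat_lit 212) (nat_lit 194))) (PT.nd (nat_lit 78) (PT.lf (nat_lit 27360) (nat_lit 6) (nat_lit 360) (nat_lit 4) (nat_lit 165) (nat_lit 212) (nat_lit 193)) (PT.lf (nat_lit 28348) (nat_lit 6) (nat_lit 373) (nat_lit 4) (nat_lit 166) (nat_lit 212) (nat_lit 192))))))) (PT.nd (nat_lit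 1092) (PT.nd (nat_lit 546) (PT.nd (nat_lit 234) (PT.nd (nat_lit 78) (PT.lf (nat_lit 30096) (nat_lit 6) (nat_lit 396) (nat_lit 4) (nat_lit 167) (nat_lit 212) (nat_lit 191)) (PT.nd (nat_lit 78) (PT.lf (nat_lit 31768) (nat_lit 6) (nat_lit 418) (nat_lit 4) (nat_lit 168) (nat_lit 212) (nat_lit 190)) (PT.lf (nat_lit 31692) (nat_lit 6) (nat_lit 417) (nat_lit 4) (nat_lit 169) (nat_lit 212) (nat_lit 189)))) (PT.nd (nat_lit 156) (PT.nd (nat_lit 78) (PT.lf (nat_lit 31616) (nat_lit 6) (nat_lit 416) (nat_lit 4) (nat_lit 170) (nat_lit 212) (nat_lit 188)) (PT.lf (nat_lit 31540) (nat_lit 6) (nat_lit 415) (nat_lit 4) (nat_lit 171) (nat_lit 212) (nat_lit 187))) (PT.nd (nat_lit 78) (PT.lf (nat_lit 31464) (nat_lit 6) (nat_lit 414) (nat_lit 4) (nat_lit 172) (nat_lit 212) (nat_lit 186)) (PT.lf (nat_lit 31388) (nat_lit 6) (nat_lit 413) (nat_lit 4) (nat_lit 173) (nat_lit 212) (nat_lit 185))))) (PT.nd (nat_lit 234) (PT.nd (nat_lit 78)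 (PT.lf (nat_lit 31312) (nat_lit 6) (nat_lit 412) (nat_lit 4) (nat_lit 174) (nat_lit 212) (nat_lit 184)) (PT.nd (nat_lit 78) (PT.lf (nat_lit 31236) (nat_lit 6) (nat_lit 411) (nat_lit 4) (nat_lit 175) (nat_lit 212) (nat_lit 183)) (PT.lf (nat_lit 31160) (nat_lit 6) (nat_lit 410) (nat_lit 4) (nat_lit 176) (nat_lit 212) (nat_lit 182)))) (PT.nd (nat_lit 156) (PT.nd (nat_lit 78) (PT.lf (nat_lit 31084) (nat_lit 6) (nat_lit 409) (nat_lit 4) (nat_lit 177) (nat_lit 212) (nat_lit 181)) (PT.lf (nat_lit 31008) (nat_lit 6) (nat_lit 408) (nat_lit 4) (nat_lit 178) (nat_lit 212) (nat_lit 180))) (PT.nd (nat_lit 78) (PT.lf (nat_lit 30932) (nat_lit 3) (nat_lit 407) (nat_lit 2) (nat_lit 179) (nat_lit 212) (nat_lit 179)) (PT.lf (nat_lit 31008) (nat_lit 6) (nat_lit 408) (nat_lit 2) (nat_lit 180) (nat_lit 212) (nat_lit 178)))))) (PT.nd (nat_lit 546) (PT.nd (nat_lit 234) (PT.nd (nat_lit 78) (PT.lf (nat_lit 31084) (nat_lit 6) (nat_lit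 409) (nat_lit 2) (nat_lit 181) (nat_lit 212) (nat_lit 177)) (PT.nd (nat_lit 78) (PT.lf (nat_lit 31160) (nat_lit 6) (nat_lit 410) (nat_lit 2) (nat_lit 182) (nat_lit 212) (nat_lit 176)) (PT.lf (nat_lit 31236) (nat_lit 6) (nat_lit 411) (nat_lit 2) (nat_lit 183) (nat_lit 212) (nat_lit 175)))) (PT.nd (nat_lit 156) (PT.nd (nat_lit 78) (PT.lf (nat_lit 31312) (nat_lit 6) (nat_lit 412) (nat_lit 2) (nat_lit 184) (nat_lit 212) (nat_lit 174)) (PT.lf (nat_lit 31388) (nat_lit 6) (nat_lit 413) (nat_lit 2) (nat_lit 185) (nat_lit 212) (nat_lit 173))) (PT.nd (nat_lit 78) (PT.lf (nat_lit 31464) (nat_lit 6) (nat_lit 414) (nat_lit 2) (nat_lit 186) (nat_lit 212) (nat_lit 172)) (PT.lf (nat_lit 31540) (nat_lit 6) (nat_lit 415) (nat_lit 2) (nat_lit 187) (nat_lit 212) (nat_lit 171))))) (PT.nd (nat_lit 312) (PT.nd (nat_lit 156) (PT.nd (nat_lit 78) (PT.lf (nat_lit 31616) (nat_lit 6) (nat_lit 416) (nat_lit 2) (nat_lit 188) (nat_lit 212)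 (nat_lit 170)) (PT.lf (nat_lit 31692) (nat_lit 6) (nat_lit 417) (nat_lit 2) (nat_lit 189) (nat_lit 212) (nat_lit 169))) (PT.nd (nat_lit 78) (PT.lf (nat_lit 31768) (nat_lit 6) (nat_lit 418) (nat_lit 2) (nat_lit 190) (nat_lit 212) (nat_lit 168)) (PT.lf (nat_lit 30096) (nat_lit 6) (nat_lit 396) (nat_lit 2) (nat_lit 191) (nat_lit 212) (nat_lit 167)))) (PT.nd (nat_lit 156) (PT.nd (nat_lit 78) (PT.lf (nat_lit 28348) (nat_lit 6) (nat_lit 373) (nat_lit 2) (nat_lit 192) (nat_lit 212) (nat_lit 166)) (PT.lf (nat_lit 27360) (nat_lit 6) (nat_lit 360) (nat_lit 2) (nat_lit 193) (nat_lit 212) (nat_lit 165))) (PT.nd (nat_lit 78) (PT.lf (nat_lit 26448) (nat_lit 6) (nat_lit 348) (nat_lit 2) (nat_lit 194) (nat_lit 212) (nat_lit 164)) (PT.lf (nat_lit 25612) (nat_lit 6) (nat_lit 337) (nat_lit 2) (nat_lit 195) (nat_lit 212) (nat_lit 163))))))))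
noncomputable def pc51 : PT := (PT.nd (nat_lit 54834) (PT.nd (nat_lit 1092) (PT.nd (nat_lit 546) (PT.nd (nat_lit 234) (PT.nd (nat_lit 78) (PT.lf (nat_lit 24776) (nat_lit 6) (nat_lit 326) (nat_lit 2) (nat_lit 196) (nat_lit 212) (nat_lit 162)) (PT.nd (nat_lit 78) (PT.lf (nat_lit 24016) (nat_lit 6) (nat_lit 316) (nat_lit 2) (nat_lit 197) (nat_lit 212) (nat_lit 161)) (PT.lf (nat_lit 23256) (nat_lit 6) (nat_lit 306) (nat_lit 2) (nat_lit 198) (nat_lit 212) (nat_lit 160)))) (PT.nd (nat_lit 156) (PT.nd (nat_lit 78) (PT.lf (nat_lit 22496) (nat_lit 6) (nat_lit 296) (nat_lit 2) (nat_lit 199) (nat_lit 212) (nat_lit 159)) (PT.lf (nat_lit 21736) (nat_lit 6) (nat_lit 286) (nat_lit 2) (nat_lit 200) (nat_lit 212) (nat_lit 158))) (PT.nd (nat_lit 78) (PT.lf (nat_lit 21052) (nat_lit 6) (nat_lit 277) (nat_lit 2) (nat_lit 201) (nat_lit 212) (nat_lit 157)) (PT.lf (nat_lit 20368) (nat_lit 6) (nat_lit 268) (nat_lit 2) (nat_lit 202)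 (nat_lit 212) (nat_lit 156))))) (PT.nd (nat_lit 234) (PT.nd (nat_lit 78) (PT.lf (nat_lit 19684) (nat_lit 6) (nat_lit 259) (nat_lit 2) (nat_lit 203) (nat_lit 212) (nat_lit 155)) (PT.nd (nat_lit 78) (PT.lf (nat_lit 19000) (nat_lit 6) (nat_lit 250) (nat_lit 2) (nat_lit 204) (nat_lit 212) (nat_lit 154)) (PT.lf (nat_lit 18392) (nat_lit 6) (nat_lit 242) (nat_lit 2) (nat_lit 205) (nat_lit 212) (nat_lit 153)))) (PT.nd (nat_lit 156) (PT.nd (nat_lit 78) (PT.lf (nat_lit 17784) (nat_lit 6) (nat_lit 234) (nat_lit 2) (nat_lit 206) (nat_lit 212) (nat_lit 152)) (PT.lf (nat_lit 17176) (nat_lit 6) (nat_lit 226) (nat_lit 2) (nat_lit 207) (nat_lit 212) (nat_lit 151))) (PT.nd (nat_lit 78) (PT.lf (nat_lit 16568) (nat_lit 6) (nat_lit 218) (nat_lit 2) (nat_lit 208) (nat_lit 212) (nat_lit 150)) (PT.lf (nat_lit 16036) (nat_lit 6) (nat_lit 211) (nat_lit 2) (nat_lit 209) (nat_lit 212) (nat_lit 149)))))) (PT.nd (nat_lit 546) (PT.nd (nat_lit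 234) (PT.nd (nat_lit 78) (PT.lf (nat_lit 15504) (nat_lit 6) (nat_lit 204) (nat_lit 2) (nat_lit 210) (nat_lit 212) (nat_lit 148)) (PT.nd (nat_lit 78) (PT.lf (nat_lit 14972) (nat_lit 6) (nat_lit 197) (nat_lit 2) (nat_lit 211) (nat_lit 212) (nat_lit 147)) (PT.lf (nat_lit 14440) (nat_lit 3) (nat_lit 190) (nat_lit 0) (nat_lit 212) (nat_lit 212) (nat_lit 146)))) (PT.nd (nat_lit 156) (PT.nd (nat_lit 78) (PT.lf (nat_lit 13908) (nat_lit 6) (nat_lit 183) (nat_lit 0) (nat_lit 213) (nat_lit 212) (nat_lit 145)) (PT.lf (nat_lit 13300) (nat_lit 6) (nat_lit 175) (nat_lit 0) (nat_lit 214) (nat_lit 212) (nat_lit 144))) (PT.nd (nat_lit 78) (PT.lf (nat_lit 12768) (nat_lit 6) (nat_lit 168) (nat_lit 0) (nat_lit 215) (nat_lit 212) (nat_lit 143)) (PT.lf (nat_lit 12236) (nat_lit 6) (nat_lit 161) (nat_lit 0) (nat_lit 216) (nat_lit 212) (nat_lit 142))))) (PT.nd (nat_lit 312) (PT.nd (nat_lit 156) (PT.nd (nat_lit 78) (PT.lf (nat_lit 11704)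 (nat_lit 6) (nat_lit 154) (nat_lit 0) (nat_lit 217) (nat_lit 212) (nat_lit 141)) (PT.lf (nat_lit 11172) (nat_lit 6) (nat_lit 147) (nat_lit 0) (nat_lit 218) (nat_lit 212) (nat_lit 140))) (PT.nd (nat_lit 78) (PT.lf (nat_lit 10716) (nat_lit 6) (nat_lit 141) (nat_lit 0) (nat_lit 219) (nat_lit 212) (nat_lit 139)) (PT.lf (nat_lit 10184) (nat_lit 6) (nat_lit 134) (nat_lit 0) (nat_lit 220) (nat_lit 212) (nat_lit 138)))) (PT.nd (nat_lit 52728) (PT.nd (nat_lit 52650) (PT.lf (nat_lit 9728) (nat_lit 6) (nat_lit 128) (nat_lit 0) (nat_lit 221) (nat_lit 212) (nat_lit 137)) (PT.lf (nat_lit 8892) (nat_lit 6) (nat_lit 117) (nat_lit 5) (nat_lit 135) (nat_lit 213) (nat_lit 222))) (PT.nd (nat_lit 78) (PT.lf (nat_lit 9348) (nat_lit 6) (nat_lit 123) (nat_lit 5) (nat_lit 136) (nat_lit 213) (nat_lit 221)) (PT.lf (nat_lit 9804) (nat_lit 6) (nat_lit 129) (nat_lit 5) (nat_lit 137) (nat_lit 213) (nat_lit 220))))))) (PT.nd (nat_lit 1170)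 (PT.nd (nat_lit 546) (PT.nd (nat_lit 234) (PT.nd (nat_lit 78) (PT.lf (nat_lit 10260) (nat_lit 6) (nat_lit 135) (nat_lit 5) (nat_lit 138) (nat_lit 213) (nat_lit 219)) (PT.nd (nat_lit 78) (PT.lf (nat_lit 10792) (nat_lit 6) (nat_lit 142) (nat_lit 5) (nat_lit 139) (nat_lit 213) (nat_lit 218)) (PT.lf (nat_lit 11248) (nat_lit 6) (nat_lit 148) (nat_lit 5) (nat_lit 140) (nat_lit 213) (nat_lit 217)))) (PT.nd (nat_lit 156) (PT.nd (nat_lit 78) (PT.lf (nat_lit 11780) (nat_lit 6) (nat_lit 155) (nat_lit 5) (nat_lit 141) (nat_lit 213) (nat_lit 216)) (PT.lf (nat_lit 12312) (nat_lit 6) (nat_lit 162) (nat_lit 5) (nat_lit 142) (nat_lit 213) (nat_lit 215))) (PT.nd (nat_lit 78) (PT.lf (nat_lit 12844) (nat_lit 6) (nat_lit 169) (nat_lit 5) (nat_lit 143) (nat_lit 213) (nat_lit 214)) (PT.lf (nat_lit 13376) (nat_lit 3) (nat_lit 176) (nat_lit 4) (nat_lit 144) (nat_lit 213) (nat_lit 213))))) (PT.nd (nat_lit 312) (PT.nd (nat_lit 156) (PT.nd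 (nat_lit 78) (PT.lf (nat_lit 13908) (nat_lit 6) (nat_lit 183) (nat_lit 4) (nat_lit 145) (nat_lit 213) (nat_lit 212)) (PT.lf (nat_lit 14364) (nat_lit 6) (nat_lit 189) (nat_lit 4) (nat_lit 146) (nat_lit 213) (nat_lit 211))) (PT.nd (nat_lit 78) (PT.lf (nat_lit 14896) (nat_lit 6) (nat_lit 196) (nat_lit 4) (nat_lit 147) (nat_lit 213) (nat_lit 210)) (PT.lf (nat_lit 15428) (nat_lit 6) (nat_lit 203) (nat_lit 4) (nat_lit 148) (nat_lit 213) (nat_lit 209)))) (PT.nd (nat_lit 156) (PT.nd (nat_lit 78) (PT.lf (nat_lit 15960) (nat_lit 6) (nat_lit 210) (nat_lit 4) (nat_lit 149) (nat_lit 213) (nat_lit 208)) (PT.lf (nat_lit 16492) (nat_lit 6) (nat_lit 217) (nat_lit 4) (nat_lit 150) (nat_lit 213) (nat_lit 207))) (PT.nd (nat_lit 78) (PT.lf (nat_lit 17100) (nat_lit 6) (nat_lit 225) (nat_lit 4) (nat_lit 151) (nat_lit 213) (nat_lit 206)) (PT.lf (nat_lit 17708) (nat_lit 6) (nat_lit 233) (nat_lit 4) (nat_lit 152) (nat_lit 213) (nat_lit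 205)))))) (PT.nd (nat_lit 546) (PT.nd (nat_lit 234) (PT.nd (nat_lit 78) (PT.lf (nat_lit 18316) (nat_lit 6) (nat_lit 241) (nat_lit 4) (nat_lit 153) (nat_lit 213) (nat_lit 204)) (PT.nd (nat_lit 78) (PT.lf (nat_lit 18924) (nat_lit 6) (nat_lit 249) (nat_lit 4) (nat_lit 154) (nat_lit 213) (nat_lit 203)) (PT.lf (nat_lit 19608) (nat_lit 6) (nat_lit 258) (nat_lit 4) (nat_lit 155) (nat_lit 213) (nat_lit 202)))) (PT.nd (nat_lit 156) (PT.nd (nat_lit 78) (PT.lf (nat_lit 20292) (nat_lit 6) (nat_lit 267) (nat_lit 4) (nat_lit 156) (nat_lit 213) (nat_lit 201)) (PT.lf (nat_lit 20976) (nat_lit 6) (nat_lit 276) (nat_lit 4) (nat_lit 157) (nat_lit 213) (nat_lit 200))) (PT.nd (nat_lit 78) (PT.lf (nat_lit 21660) (nat_lit 6) (nat_lit 285) (nat_lit 4) (nat_lit 158) (nat_lit 213) (nat_lit 199)) (PT.lf (nat_lit 22420) (nat_lit 6) (nat_lit 295) (nat_lit 4) (nat_lit 159) (nat_lit 213) (nat_lit 198))))) (PT.nd (nat_lit 312) (PT.nd (nat_lit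 156) (PT.nd (nat_lit 78) (PT.lf (nat_lit 23180) (nat_lit 6) (nat_lit 305) (nat_lit 4) (nat_lit 160) (nat_lit 213) (nat_lit 197)) (PT.lf (nat_lit 23940) (nat_lit 6) (nat_lit 315) (nat_lit 4) (nat_lit 161) (nat_lit 213) (nat_lit 196))) (PT.nd (nat_lit 78) (PT.lf (nat_lit 24700) (nat_lit 6) (nat_lit 325) (nat_lit 4) (nat_lit 162) (nat_lit 213) (nat_lit 195)) (PT.lf (nat_lit 25536) (nat_lit 6) (nat_lit 336) (nat_lit 4) (nat_lit 163) (nat_lit 213) (nat_lit 194)))) (PT.nd (nat_lit 156) (PT.nd (nat_lit 78) (PT.lf (nat_lit 26372) (nat_lit 6) (nat_lit 347) (nat_lit 4) (nat_lit 164) (nat_lit 213) (nat_lit 193)) (PT.lf (nat_lit 27284) (nat_lit 6) (nat_lit 359) (nat_lit 4) (nat_lit 165) (nat_lit 213) (nat_lit 192))) (PT.nd (nat_lit 78) (PT.lf (nat_lit 28272) (nat_lit 6) (nat_lit 372) (nat_lit 4) (nat_lit 166) (nat_lit 213) (nat_lit 191)) (PT.lf (nat_lit 30020) (nat_lit 6) (nat_lit 395) (nat_lit 4) (nat_lit 167) (nat_lit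 213) (nat_lit 190))))))))
noncomputable def pc52 : PT := (PT.nd (nat_lit 2262) (PT.nd (nat_lit 1092) (PT.nd (nat_lit 546) (PT.nd (nat_lit 234) (PT.nd (nat_lit 78) (PT.lf (nat_lit 29944) (nat_lit 6) (nat_lit 394) (nat_lit 4) (nat_lit 168) (nat_lit 213) (nat_lit 189)) (PT.nd (nat_lit 78) (PT.lf (nat_lit 29868) (nat_lit 6) (nat_lit 393) (nat_lit 4) (nat_lit 169) (nat_lit 213) (nat_lit 188)) (PT.lf (nat_lit 29792) (nat_lit 6) (nat_lit 392) (nat_lit 4) (nat_lit 170) (nat_lit 213) (nat_lit 187)))) (PT.nd (nat_lit 156) (PT.nd (nat_lit 78) (PT.lf (nat_lit 29716) (nat_lit 6) (nat_lit 391) (nat_lit 4) (nat_lit 171) (nat_lit 213) (nat_lit 186)) (PT.lf (nat_lit 29640) (nat_lit 6) (nat_lit 390) (nat_lit 4) (nat_lit 172) (nat_lit 213) (nat_lit 185))) (PT.nd (nat_lit 78) (PT.lf (nat_lit 29564) (nat_lit 6) (nat_lit 389) (nat_lit 4) (nat_lit 173) (nat_lit 213) (nat_lit 184)) (PT.lf (nat_lit 29488) (nat_lit 6) (nat_lit 388) (nat_lit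 4) (nat_lit 174) (nat_lit 213) (nat_lit 183))))) (PT.nd (nat_lit 234) (PT.nd (nat_lit 78) (PT.lf (nat_lit 29412) (nat_lit 6) (nat_lit 387) (nat_lit 4) (nat_lit 175) (nat_lit 213) (nat_lit 182)) (PT.nd (nat_lit 78) (PT.lf (nat_lit 29336) (nat_lit 6) (nat_lit 386) (nat_lit 4) (nat_lit 176) (nat_lit 213) (nat_lit 181)) (PT.lf (nat_lit 29260) (nat_lit 6) (nat_lit 385) (nat_lit 4) (nat_lit 177) (nat_lit 213) (nat_lit 180)))) (PT.nd (nat_lit 156) (PT.nd (nat_lit 78) (PT.lf (nat_lit 29184) (nat_lit 6) (nat_lit 384) (nat_lit 4) (nat_lit 178) (nat_lit 213) (nat_lit 179)) (PT.lf (nat_lit 29184) (nat_lit 6) (nat_lit 384) (nat_lit 2) (nat_lit 179) (nat_lit 213) (nat_lit 178))) (PT.nd (nat_lit 78) (PT.lf (nat_lit 29260) (nat_lit 6) (nat_lit 385) (nat_lit 2) (nat_lit 180) (nat_lit 213) (nat_lit 177)) (PT.lf (nat_lit 29336) (nat_lit 6) (nat_lit 386) (nat_lit 2) (nat_lit 181) (nat_lit 213) (nat_lit 176)))))) (PT.nd (nat_lit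 546) (PT.nd (nat_lit 234) (PT.nd (nat_lit 78) (PT.lf (nat_lit 29412) (nat_lit 6) (nat_lit 387) (nat_lit 2) (nat_lit 182) (nat_lit 213) (nat_lit 175)) (PT.nd (nat_lit 78) (PT.lf (nat_lit 29488) (nat_lit 6) (nat_lit 388) (nat_lit 2) (nat_lit 183) (nat_lit 213) (nat_lit 174)) (PT.lf (nat_lit 29564) (nat_lit 6) (nat_lit 389) (nat_lit 2) (nat_lit 184) (nat_lit 213) (nat_lit 173)))) (PT.nd (nat_lit 156) (PT.nd (nat_lit 78) (PT.lf (nat_lit 29640) (nat_lit 6) (nat_lit 390) (nat_lit 2) (nat_lit 185) (nat_lit 213) (nat_lit 172)) (PT.lf (nat_lit 29716) (nat_lit 6) (nat_lit 391) (nat_lit 2) (nat_lit 186) (nat_lit 213) (nat_lit 171))) (PT.nd (nat_lit 78) (PT.lf (nat_lit 29792) (nat_lit 6) (nat_lit 392) (nat_lit 2) (nat_lit 187) (nat_lit 213) (nat_lit 170)) (PT.lf (nat_lit 29868) (nat_lit 6) (nat_lit 393) (nat_lit 2) (nat_lit 188) (nat_lit 213) (nat_lit 169))))) (PT.nd (nat_lit 312) (PT.nd (nat_lit 156) (PT.nd (nat_lit 78)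 (PT.lf (nat_lit 29944) (nat_lit 6) (nat_lit 394) (nat_lit 2) (nat_lit 189) (nat_lit 213) (nat_lit 168)) (PT.lf (nat_lit 30020) (nat_lit 6) (nat_lit 395) (nat_lit 2) (nat_lit 190) (nat_lit 213) (nat_lit 167))) (PT.nd (nat_lit 78) (PT.lf (nat_lit 28272) (nat_lit 6) (nat_lit 372) (nat_lit 2) (nat_lit 191) (nat_lit 213) (nat_lit 166)) (PT.lf (nat_lit 27284) (nat_lit 6) (nat_lit 359) (nat_lit 2) (nat_lit 192) (nat_lit 213) (nat_lit 165)))) (PT.nd (nat_lit 156) (PT.nd (nat_lit 78) (PT.lf (nat_lit 26372) (nat_lit 6) (nat_lit 347) (nat_lit 2) (nat_lit 193) (nat_lit 213) (nat_lit 164)) (PT.lf (nat_lit 25536) (nat_lit 6) (nat_lit 336) (nat_lit 2) (nat_lit 194) (nat_lit 213) (nat_lit 163))) (PT.nd (nat_lit 78) (PT.lf (nat_lit 24700) (nat_lit 6) (nat_lit 325) (nat_lit 2) (nat_lit 195) (nat_lit 213) (nat_lit 162)) (PT.lf (nat_lit 23940) (nat_lit 6) (nat_lit 315) (nat_lit 2) (nat_lit 196) (nat_lit 213) (nat_lit 161)))))))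 (PT.nd (nat_lit 1092) (PT.nd (nat_lit 546) (PT.nd (nat_lit 234) (PT.nd (nat_lit 78) (PT.lf (nat_lit 23180) (nat_lit 6) (nat_lit 305) (nat_lit 2) (nat_lit 197) (nat_lit 213) (nat_lit 160)) (PT.nd (nat_lit 78) (PT.lf (nat_lit 22420) (nat_lit 6) (nat_lit 295) (nat_lit 2) (nat_lit 198) (nat_lit 213) (nat_lit 159)) (PT.lf (nat_lit 21660) (nat_lit 6) (nat_lit 285) (nat_lit 2) (nat_lit 199) (nat_lit 213) (nat_lit 158)))) (PT.nd (nat_lit 156) (PT.nd (nat_lit 78) (PT.lf (nat_lit 20976) (nat_lit 6) (nat_lit 276) (nat_lit 2) (nat_lit 200) (nat_lit 213) (nat_lit 157)) (PT.lf (nat_lit 20292) (nat_lit 6) (nat_lit 267) (nat_lit 2) (nat_lit 201) (nat_lit 213) (nat_lit 156))) (PT.nd (nat_lit 78) (PT.lf (nat_lit 19608) (nat_lit 6) (nat_lit 258) (nat_lit 2) (nat_lit 202) (nat_lit 213) (nat_lit 155)) (PT.lf (nat_lit 18924) (nat_lit 6) (nat_lit 249) (nat_lit 2) (nat_lit 203) (nat_lit 213) (nat_lit 154))))) (PT.nd (nat_lit 234) (PT.nd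 (nat_lit 78) (PT.lf (nat_lit 18316) (nat_lit 6) (nat_lit 241) (nat_lit 2) (nat_lit 204) (nat_lit 213) (nat_lit 153)) (PT.nd (nat_lit 78) (PT.lf (nat_lit 17708) (nat_lit 6) (nat_lit 233) (nat_lit 2) (nat_lit 205) (nat_lit 213) (nat_lit 152)) (PT.lf (nat_lit 17100) (nat_lit 6) (nat_lit 225) (nat_lit 2) (nat_lit 206) (nat_lit 213) (nat_lit 151)))) (PT.nd (nat_lit 156) (PT.nd (nat_lit 78) (PT.lf (nat_lit 16492) (nat_lit 6) (nat_lit 217) (nat_lit 2) (nat_lit 207) (nat_lit 213) (nat_lit 150)) (PT.lf (nat_lit 15960) (nat_lit 6) (nat_lit 210) (nat_lit 2) (nat_lit 208) (nat_lit 213) (nat_lit 149))) (PT.nd (nat_lit 78) (PT.lf (nat_lit 15428) (nat_lit 6) (nat_lit 203) (nat_lit 2) (nat_lit 209) (nat_lit 213) (nat_lit 148)) (PT.lf (nat_lit 14896) (nat_lit 6) (nat_lit 196) (nat_lit 2) (nat_lit 210) (nat_lit 213) (nat_lit 147)))))) (PT.nd (nat_lit 546) (PT.nd (nat_lit 234) (PT.nd (nat_lit 78) (PT.lf (nat_lit 14364) (nat_lit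 6) (nat_lit 189) (nat_lit 2) (nat_lit 211) (nat_lit 213) (nat_lit 146)) (PT.nd (nat_lit 78) (PT.lf (nat_lit 13908) (nat_lit 6) (nat_lit 183) (nat_lit 2) (nat_lit 212) (nat_lit 213) (nat_lit 145)) (PT.lf (nat_lit 13376) (nat_lit 3) (nat_lit 176) (nat_lit 0) (nat_lit 213) (nat_lit 213) (nat_lit 144)))) (PT.nd (nat_lit 156) (PT.nd (nat_lit 78) (PT.lf (nat_lit 12844) (nat_lit 6) (nat_lit 169) (nat_lit 0) (nat_lit 214) (nat_lit 213) (nat_lit 143)) (PT.lf (nat_lit 12312) (nat_lit 6) (nat_lit 162) (nat_lit 0) (nat_lit 215) (nat_lit 213) (nat_lit 142))) (PT.nd (nat_lit 78) (PT.lf (nat_lit 11780) (nat_lit 6) (nat_lit 155) (nat_lit 0) (nat_lit 216) (nat_lit 213) (nat_lit 141)) (PT.lf (nat_lit 11248) (nat_lit 6) (nat_lit 148) (nat_lit 0) (nat_lit 217) (nat_lit 213) (nat_lit 140))))) (PT.nd (nat_lit 312) (PT.nd (nat_lit 156) (PT.nd (nat_lit 78) (PT.lf (nat_lit 10792) (nat_lit 6) (nat_lit 142) (nat_lit 0) (nat_lit 218) (nat_lit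 213) (nat_lit 139)) (PT.lf (nat_lit 10260) (nat_lit 6) (nat_lit 135) (nat_lit 0) (nat_lit 219) (nat_lit 213) (nat_lit 138))) (PT.nd (nat_lit 78) (PT.lf (nat_lit 9804) (nat_lit 6) (nat_lit 129) (nat_lit 0) (nat_lit 220) (nat_lit 213) (nat_lit 137)) (PT.lf (nat_lit 9348) (nat_lit 6) (nat_lit 123) (nat_lit 0) (nat_lit 221) (nat_lit 213) (nat_lit 136)))) (PT.nd (nat_lit 52572) (PT.nd (nat_lit 52494) (PT.lf (nat_lit 8892) (nat_lit 6) (nat_lit 117) (nat_lit 0) (nat_lit 222) (nat_lit 213) (nat_lit 135)) (PT.lf (nat_lit 8512) (nat_lit 6) (nat_lit 112) (nat_lit 5) (nat_lit 134) (nat_lit 214) (nat_lit 222))) (PT.nd (nat_lit 78) (PT.lf (nat_lit 8968) (nat_lit 6) (nat_lit 118) (nat_lit 5) (nat_lit 135) (nat_lit 214) (nat_lit 221)) (PT.lf (nat_lit 9424) (nat_lit 6) (nat_lit 124) (nat_lit 5) (nat_lit 136) (nat_lit 214) (nat_lit 220))))))))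
noncomputable def pc53 : PT := (PT.nd (nat_lit 2262) (PT.nd (nat_lit 1092) (PT.nd (nat_lit 546) (PT.nd (nat_lit 234) (PT.nd (nat_lit 78) (PT.lf (nat_lit 9880) (nat_lit 6) (nat_lit 130) (nat_lit 5) (nat_lit 137) (nat_lit 214) (nat_lit 219)) (PT.nd (nat_lit 78) (PT.lf (nat_lit 10336) (nat_lit 6) (nat_lit 136) (nat_lit 5) (nat_lit 138) (nat_lit 214) (nat_lit 218)) (PT.lf (nat_lit 10868) (nat_lit 6) (nat_lit 143) (nat_lit 5) (nat_lit 139) (nat_lit 214) (nat_lit 217)))) (PT.nd (nat_lit 156) (PT.nd (nat_lit 78) (PT.lf (nat_lit 11324) (nat_lit 6) (nat_lit 149) (nat_lit 5) (nat_lit 140) (nat_lit 214) (nat_lit 216)) (PT.lf (nat_lit 11856) (nat_lit 6) (nat_lit 156) (nat_lit 5) (nat_lit 141) (nat_lit 214) (nat_lit 215))) (PT.nd (nat_lit 78) (PT.lf (nat_lit 12388) (nat_lit 3) (nat_lit 163) (nat_lit 4) (nat_lit 142) (nat_lit 214) (nat_lit 214)) (PT.lf (nat_lit 12844) (nat_lit 6) (nat_lit 169) (nat_lit 4) (nat_lit 143) (nat_lit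 214) (nat_lit 213))))) (PT.nd (nat_lit 234) (PT.nd (nat_lit 78) (PT.lf (nat_lit 13300) (nat_lit 6) (nat_lit 175) (nat_lit 4) (nat_lit 144) (nat_lit 214) (nat_lit 212)) (PT.nd (nat_lit 78) (PT.lf (nat_lit 13832) (nat_lit 6) (nat_lit 182) (nat_lit 4) (nat_lit 145) (nat_lit 214) (nat_lit 211)) (PT.lf (nat_lit 14288) (nat_lit 6) (nat_lit 188) (nat_lit 4) (nat_lit 146) (nat_lit 214) (nat_lit 210)))) (PT.nd (nat_lit 156) (PT.nd (nat_lit 78) (PT.lf (nat_lit 14820) (nat_lit 6) (nat_lit 195) (nat_lit 4) (nat_lit 147) (nat_lit 214) (nat_lit 209)) (PT.lf (nat_lit 15352) (nat_lit 6) (nat_lit 202) (nat_lit 4) (nat_lit 148) (nat_lit 214) (nat_lit 208))) (PT.nd (nat_lit 78) (PT.lf (nat_lit 15884) (nat_lit 6) (nat_lit 209) (nat_lit 4) (nat_lit 149) (nat_lit 214) (nat_lit 207)) (PT.lf (nat_lit 16416) (nat_lit 6) (nat_lit 216) (nat_lit 4) (nat_lit 150) (nat_lit 214) (nat_lit 206)))))) (PT.nd (nat_lit 546) (PT.nd (nat_lit 234)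 (PT.nd (nat_lit 78) (PT.lf (nat_lit 17024) (nat_lit 6) (nat_lit 224) (nat_lit 4) (nat_lit 151) (nat_lit 214) (nat_lit 205)) (PT.nd (nat_lit 78) (PT.lf (nat_lit 17632) (nat_lit 6) (nat_lit 232) (nat_lit 4) (nat_lit 152) (nat_lit 214) (nat_lit 204)) (PT.lf (nat_lit 18240) (nat_lit 6) (nat_lit 240) (nat_lit 4) (nat_lit 153) (nat_lit 214) (nat_lit 203)))) (PT.nd (nat_lit 156) (PT.nd (nat_lit 78) (PT.lf (nat_lit 18848) (nat_lit 6) (nat_lit 248) (nat_lit 4) (nat_lit 154) (nat_lit 214) (nat_lit 202)) (PT.lf (nat_lit 19532) (nat_lit 6) (nat_lit 257) (nat_lit 4) (nat_lit 155) (nat_lit 214) (nat_lit 201))) (PT.nd (nat_lit 78) (PT.lf (nat_lit 20216) (nat_lit 6) (nat_lit 266) (nat_lit 4) (nat_lit 156) (nat_lit 214) (nat_lit 200)) (PT.lf (nat_lit 20900) (nat_lit 6) (nat_lit 275) (nat_lit 4) (nat_lit 157) (nat_lit 214) (nat_lit 199))))) (PT.nd (nat_lit 312) (PT.nd (nat_lit 156) (PT.nd (nat_lit 78) (PT.lf (nat_lit 21584) (nat_lit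 6) (nat_lit 284) (nat_lit 4) (nat_lit 158) (nat_lit 214) (nat_lit 198)) (PT.lf (nat_lit 22344) (nat_lit 6) (nat_lit 294) (nat_lit 4) (nat_lit 159) (nat_lit 214) (nat_lit 197))) (PT.nd (nat_lit 78) (PT.lf (nat_lit 23104) (nat_lit 6) (nat_lit 304) (nat_lit 4) (nat_lit 160) (nat_lit 214) (nat_lit 196)) (PT.lf (nat_lit 23864) (nat_lit 6) (nat_lit 314) (nat_lit 4) (nat_lit 161) (nat_lit 214) (nat_lit 195)))) (PT.nd (nat_lit 156) (PT.nd (nat_lit 78) (PT.lf (nat_lit 24624) (nat_lit 6) (nat_lit 324) (nat_lit 4) (nat_lit 162) (nat_lit 214) (nat_lit 194)) (PT.lf (nat_lit 25460) (nat_lit 6) (nat_lit 335) (nat_lit 4) (nat_lit 163) (nat_lit 214) (nat_lit 193))) (PT.nd (nat_lit 78) (PT.lf (nat_lit 26296) (nat_lit 6) (nat_lit 346) (nat_lit 4) (nat_lit 164) (nat_lit 214) (nat_lit 192)) (PT.lf (nat_lit 27208) (nat_lit 6) (nat_lit 358) (nat_lit 4) (nat_lit 165) (nat_lit 214) (nat_lit 191))))))) (PT.nd (nat_lit 2964) (PT.nd (nat_lit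 2340) (PT.nd (nat_lit 2028) (PT.nd (nat_lit 1872) (PT.lf (nat_lit 28196) (nat_lit 6) (nat_lit 371) (nat_lit 4) (nat_lit 166) (nat_lit 214) (nat_lit 190)) (PT.nd (nat_lit 78) (PT.lf (nat_lit 28196) (nat_lit 6) (nat_lit 371) (nat_lit 2) (nat_lit 190) (nat_lit 214) (nat_lit 166)) (PT.lf (nat_lit 27208) (nat_lit 6) (nat_lit 358) (nat_lit 2) (nat_lit 191) (nat_lit 214) (nat_lit 165)))) (PT.nd (nat_lit 156) (PT.nd (nat_lit 78) (PT.lf (nat_lit 26296) (nat_lit 6) (nat_lit 346) (nat_lit 2) (nat_lit 192) (nat_lit 214) (nat_lit 164)) (PT.lf (nat_lit 25460) (nat_lit 6) (nat_lit 335) (nat_lit 2) (nat_lit 193) (nat_lit 214) (nat_lit 163))) (PT.nd (nat_lit 78) (PT.lf (nat_lit 24624) (nat_lit 6) (nat_lit 324) (nat_lit 2) (nat_lit 194) (nat_lit 214) (nat_lit 162)) (PT.lf (nat_lit 23864) (nat_lit 6) (nat_lit 314) (nat_lit 2) (nat_lit 195) (nat_lit 214) (nat_lit 161))))) (PT.nd (nat_lit 312) (PT.nd (nat_lit 156) (PT.nd (nat_lit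 78) (PT.lf (nat_lit 23104) (nat_lit 6) (nat_lit 304) (nat_lit 2) (nat_lit 196) (nat_lit 214) (nat_lit 160)) (PT.lf (nat_lit 22344) (nat_lit 6) (nat_lit 294) (nat_lit 2) (nat_lit 197) (nat_lit 214) (nat_lit 159))) (PT.nd (nat_lit 78) (PT.lf (nat_lit 21584) (nat_lit 6) (nat_lit 284) (nat_lit 2) (nat_lit 198) (nat_lit 214) (nat_lit 158)) (PT.lf (nat_lit 20900) (nat_lit 6) (nat_lit 275) (nat_lit 2) (nat_lit 199) (nat_lit 214) (nat_lit 157)))) (PT.nd (nat_lit 156) (PT.nd (nat_lit 78) (PT.lf (nat_lit 20216) (nat_lit 6) (nat_lit 266) (nat_lit 2) (nat_lit 200) (nat_lit 214) (nat_lit 156)) (PT.lf (nat_lit 19532) (nat_lit 6) (nat_lit 257) (nat_lit 2) (nat_lit 201) (nat_lit 214) (nat_lit 155))) (PT.nd (nat_lit 78) (PT.lf (nat_lit 18848) (nat_lit 6) (nat_lit 248) (nat_lit 2) (nat_lit 202) (nat_lit 214) (nat_lit 154)) (PT.lf (nat_lit 18240) (nat_lit 6) (nat_lit 240) (nat_lit 2) (nat_lit 203) (nat_lit 214) (nat_lit 153))))))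 (PT.nd (nat_lit 546) (PT.nd (nat_lit 234) (PT.nd (nat_lit 78) (PT.lf (nat_lit 17632) (nat_lit 6) (nat_lit 232) (nat_lit 2) (nat_lit 204) (nat_lit 214) (nat_lit 152)) (PT.nd (nat_lit 78) (PT.lf (nat_lit 17024) (nat_lit 6) (nat_lit 224) (nat_lit 2) (nat_lit 205) (nat_lit 214) (nat_lit 151)) (PT.lf (nat_lit 16416) (nat_lit 6) (nat_lit 216) (nat_lit 2) (nat_lit 206) (nat_lit 214) (nat_lit 150)))) (PT.nd (nat_lit 156) (PT.nd (nat_lit 78) (PT.lf (nat_lit 15884) (nat_lit 6) (nat_lit 209) (nat_lit 2) (nat_lit 207) (nat_lit 214) (nat_lit 149)) (PT.lf (nat_lit 15352) (nat_lit 6) (nat_lit 202) (nat_lit 2) (nat_lit 208) (nat_lit 214) (nat_lit 148))) (PT.nd (nat_lit 78) (PT.lf (nat_lit 14820) (nat_lit 6) (nat_lit 195) (nat_lit 2) (nat_lit 209) (nat_lit 214) (nat_lit 147)) (PT.lf (nat_lit 14288) (nat_lit 6) (nat_lit 188) (nat_lit 2) (nat_lit 210) (nat_lit 214) (nat_lit 146))))) (PT.nd (nat_lit 312) (PT.nd (nat_lit 156) (PT.nd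 (nat_lit 78) (PT.lf (nat_lit 13832) (nat_lit 6) (nat_lit 182) (nat_lit 2) (nat_lit 211) (nat_lit 214) (nat_lit 145)) (PT.lf (nat_lit 13300) (nat_lit 6) (nat_lit 175) (nat_lit 2) (nat_lit 212) (nat_lit 214) (nat_lit 144))) (PT.nd (nat_lit 78) (PT.lf (nat_lit 12844) (nat_lit 6) (nat_lit 169) (nat_lit 2) (nat_lit 213) (nat_lit 214) (nat_lit 143)) (PT.lf (nat_lit 12388) (nat_lit 3) (nat_lit 163) (nat_lit 0) (nat_lit 214) (nat_lit 214) (nat_lit 142)))) (PT.nd (nat_lit 156) (PT.nd (nat_lit 78) (PT.lf (nat_lit 11856) (nat_lit 6) (nat_lit 156) (nat_lit 0) (nat_lit 215) (nat_lit 214) (nat_lit 141)) (PT.lf (nat_lit 11324) (nat_lit 6) (nat_lit 149) (nat_lit 0) (nat_lit 216) (nat_lit 214) (nat_lit 140))) (PT.nd (nat_lit 78) (PT.lf (nat_lit 10868) (nat_lit 6) (nat_lit 143) (nat_lit 0) (nat_lit 217) (nat_lit 214) (nat_lit 139)) (PT.lf (nat_lit 10336) (nat_lit 6) (nat_lit 136) (nat_lit 0) (nat_lit 218) (nat_lit 214) (nat_lit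 138))))))))
noncomputable def pc54 : PT := (PT.nd (nat_lit 54522) (PT.nd (nat_lit 53352) (PT.nd (nat_lit 52806) (PT.nd (nat_lit 234) (PT.nd (nat_lit 78) (PT.lf (nat_lit 9880) (nat_lit 6) (nat_lit 130) (nat_lit 0) (nat_lit 219) (nat_lit 214) (nat_lit 137)) (PT.nd (nat_lit 78) (PT.lf (nat_lit 9424) (nat_lit 6) (nat_lit 124) (nat_lit 0) (nat_lit 220) (nat_lit 214) (nat_lit 136)) (PT.lf (nat_lit 8968) (nat_lit 6) (nat_lit 118) (nat_lit 0) (nat_lit 221) (nat_lit 214) (nat_lit 135)))) (PT.nd (nat_lit 52416) (PT.nd (nat_lit 52338) (PT.lf (nat_lit 8512) (nat_lit 6) (nat_lit 112) (nat_lit 0) (nat_lit 222) (nat_lit 214) (nat_lit 134)) (PT.lf (nat_lit 7752) (nat_lit 6) (nat_lit 102) (nat_lit 5) (nat_lit 132) (nat_lit 215) (nat_lit 223))) (PT.nd (nat_lit 78) (PT.lf (nat_lit 8208) (nat_lit 6) (nat_lit 108) (nat_lit 5) (nat_lit 133) (nat_lit 215) (nat_lit 222)) (PT.lf (nat_lit 8588) (nat_lit 6) (nat_lit 113) (nat_lit 5) (nat_lit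 134) (nat_lit 215) (nat_lit 221))))) (PT.nd (nat_lit 234) (PT.nd (nat_lit 78) (PT.lf (nat_lit 9044) (nat_lit 6) (nat_lit 119) (nat_lit 5) (nat_lit 135) (nat_lit 215) (nat_lit 220)) (PT.nd (nat_lit 78) (PT.lf (nat_lit 9500) (nat_lit 6) (nat_lit 125) (nat_lit 5) (nat_lit 136) (nat_lit 215) (nat_lit 219)) (PT.lf (nat_lit 9956) (nat_lit 6) (nat_lit 131) (nat_lit 5) (nat_lit 137) (nat_lit 215) (nat_lit 218)))) (PT.nd (nat_lit 156) (PT.nd (nat_lit 78) (PT.lf (nat_lit 10412) (nat_lit 6) (nat_lit 137) (nat_lit 5) (nat_lit 138) (nat_lit 215) (nat_lit 217)) (PT.lf (nat_lit 10944) (nat_lit 6) (nat_lit 144) (nat_lit 5) (nat_lit 139) (nat_lit 215) (nat_lit 216))) (PT.nd (nat_lit 78) (PT.lf (nat_lit 11400) (nat_lit 3) (nat_lit 150) (nat_lit 4) (nat_lit 140) (nat_lit 215) (nat_lit 215)) (PT.lf (nat_lit 11856) (nat_lit 6) (nat_lit 156) (nat_lit 4) (nat_lit 141) (nat_lit 215) (nat_lit 214)))))) (PT.nd (nat_lit 546) (PT.nd (nat_lit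 234) (PT.nd (nat_lit 78) (PT.lf (nat_lit 12312) (nat_lit 6) (nat_lit 162) (nat_lit 4) (nat_lit 142) (nat_lit 215) (nat_lit 213)) (PT.nd (nat_lit 78) (PT.lf (nat_lit 12768) (nat_lit 6) (nat_lit 168) (nat_lit 4) (nat_lit 143) (nat_lit 215) (nat_lit 212)) (PT.lf (nat_lit 13224) (nat_lit 6) (nat_lit 174) (nat_lit 4) (nat_lit 144) (nat_lit 215) (nat_lit 211)))) (PT.nd (nat_lit 156) (PT.nd (nat_lit 78) (PT.lf (nat_lit 13756) (nat_lit 6) (nat_lit 181) (nat_lit 4) (nat_lit 145) (nat_lit 215) (nat_lit 210)) (PT.lf (nat_lit 14212) (nat_lit 6) (nat_lit 187) (nat_lit 4) (nat_lit 146) (nat_lit 215) (nat_lit 209))) (PT.nd (nat_lit 78) (PT.lf (nat_lit 14744) (nat_lit 6) (nat_lit 194) (nat_lit 4) (nat_lit 147) (nat_lit 215) (nat_lit 208)) (PT.lf (nat_lit 15276) (nat_lit 6) (nat_lit 201) (nat_lit 4) (nat_lit 148) (nat_lit 215) (nat_lit 207))))) (PT.nd (nat_lit 312) (PT.nd (nat_lit 156) (PT.nd (nat_lit 78) (PT.lf (nat_lit 15808)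 (nat_lit 6) (nat_lit 208) (nat_lit 4) (nat_lit 149) (nat_lit 215) (nat_lit 206)) (PT.lf (nat_lit 16340) (nat_lit 6) (nat_lit 215) (nat_lit 4) (nat_lit 150) (nat_lit 215) (nat_lit 205))) (PT.nd (nat_lit 78) (PT.lf (nat_lit 16948) (nat_lit 6) (nat_lit 223) (nat_lit 4) (nat_lit 151) (nat_lit 215) (nat_lit 204)) (PT.lf (nat_lit 17556) (nat_lit 6) (nat_lit 231) (nat_lit 4) (nat_lit 152) (nat_lit 215) (nat_lit 203)))) (PT.nd (nat_lit 156) (PT.nd (nat_lit 78) (PT.lf (nat_lit 18164) (nat_lit 6) (nat_lit 239) (nat_lit 4) (nat_lit 153) (nat_lit 215) (nat_lit 202)) (PT.lf (nat_lit 18772) (nat_lit 6) (nat_lit 247) (nat_lit 4) (nat_lit 154) (nat_lit 215) (nat_lit 201))) (PT.nd (nat_lit 78) (PT.lf (nat_lit 19456) (nat_lit 6) (nat_lit 256) (nat_lit 4) (nat_lit 155) (nat_lit 215) (nat_lit 200)) (PT.lf (nat_lit 20140) (nat_lit 6) (nat_lit 265) (nat_lit 4) (nat_lit 156) (nat_lit 215) (nat_lit 199))))))) (PT.nd (nat_lit 3822)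 (PT.nd (nat_lit 3198) (PT.nd (nat_lit 234) (PT.nd (nat_lit 78) (PT.lf (nat_lit 20824) (nat_lit 6) (nat_lit 274) (nat_lit 4) (nat_lit 157) (nat_lit 215) (nat_lit 198)) (PT.nd (nat_lit 78) (PT.lf (nat_lit 21508) (nat_lit 6) (nat_lit 283) (nat_lit 4) (nat_lit 158) (nat_lit 215) (nat_lit 197)) (PT.lf (nat_lit 22268) (nat_lit 6) (nat_lit 293) (nat_lit 4) (nat_lit 159) (nat_lit 215) (nat_lit 196)))) (PT.nd (nat_lit 2808) (PT.nd (nat_lit 2730) (PT.lf (nat_lit 23028) (nat_lit 6) (nat_lit 303) (nat_lit 4) (nat_lit 160) (nat_lit 215) (nat_lit 195)) (PT.lf (nat_lit 23028) (nat_lit 6) (nat_lit 303) (nat_lit 2) (nat_lit 195) (nat_lit 215) (nat_lit 160))) (PT.nd (nat_lit 78) (PT.lf (nat_lit 22268) (nat_lit 6) (nat_lit 293) (nat_lit 2) (nat_lit 196) (nat_lit 215) (nat_lit 159)) (PT.lf (nat_lit 21508) (nat_lit 6) (nat_lit 283) (nat_lit 2) (nat_lit 197) (nat_lit 215) (nat_lit 158))))) (PT.nd (nat_lit 312) (PT.nd (nat_lit 156)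 (PT.nd (nat_lit 78) (PT.lf (nat_lit 20824) (nat_lit 6) (nat_lit 274) (nat_lit 2) (nat_lit 198) (nat_lit 215) (nat_lit 157)) (PT.lf (nat_lit 20140) (nat_lit 6) (nat_lit 265) (nat_lit 2) (nat_lit 199) (nat_lit 215) (nat_lit 156))) (PT.nd (nat_lit 78) (PT.lf (nat_lit 19456) (nat_lit 6) (nat_lit 256) (nat_lit 2) (nat_lit 200) (nat_lit 215) (nat_lit 155)) (PT.lf (nat_lit 18772) (nat_lit 6) (nat_lit 247) (nat_lit 2) (nat_lit 201) (nat_lit 215) (nat_lit 154)))) (PT.nd (nat_lit 156) (PT.nd (nat_lit 78) (PT.lf (nat_lit 18164) (nat_lit 6) (nat_lit 239) (nat_lit 2) (nat_lit 202) (nat_lit 215) (nat_lit 153)) (PT.lf (nat_lit 17556) (nat_lit 6) (nat_lit 231) (nat_lit 2) (nat_lit 203) (nat_lit 215) (nat_lit 152))) (PT.nd (nat_lit 78) (PT.lf (nat_lit 16948) (nat_lit 6) (nat_lit 223) (nat_lit 2) (nat_lit 204) (nat_lit 215) (nat_lit 151)) (PT.lf (nat_lit 16340) (nat_lit 6) (nat_lit 215) (nat_lit 2) (nat_lit 205) (nat_lit 215)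 (nat_lit 150)))))) (PT.nd (nat_lit 546) (PT.nd (nat_lit 234) (PT.nd (nat_lit 78) (PT.lf (nat_lit 15808) (nat_lit 6) (nat_lit 208) (nat_lit 2) (nat_lit 206) (nat_lit 215) (nat_lit 149)) (PT.nd (nat_lit 78) (PT.lf (nat_lit 15276) (nat_lit 6) (nat_lit 201) (nat_lit 2) (nat_lit 207) (nat_lit 215) (nat_lit 148)) (PT.lf (nat_lit 14744) (nat_lit 6) (nat_lit 194) (nat_lit 2) (nat_lit 208) (nat_lit 215) (nat_lit 147)))) (PT.nd (nat_lit 156) (PT.nd (nat_lit 78) (PT.lf (nat_lit 14212) (nat_lit 6) (nat_lit 187) (nat_lit 2) (nat_lit 209) (nat_lit 215) (nat_lit 146)) (PT.lf (nat_lit 13756) (nat_lit 6) (nat_lit 181) (nat_lit 2) (nat_lit 210) (nat_lit 215) (nat_lit 145))) (PT.nd (nat_lit 78) (PT.lf (nat_lit 13224) (nat_lit 6) (nat_lit 174) (nat_lit 2) (nat_lit 211) (nat_lit 215) (nat_lit 144)) (PT.lf (nat_lit 12768) (nat_lit 6) (nat_lit 168) (nat_lit 2) (nat_lit 212) (nat_lit 215) (nat_lit 143))))) (PT.nd (nat_lit 312) (PT.nd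 (nat_lit 156) (PT.nd (nat_lit 78) (PT.lf (nat_lit 12312) (nat_lit 6) (nat_lit 162) (nat_lit 2) (nat_lit 213) (nat_lit 215) (nat_lit 142)) (PT.lf (nat_lit 11856) (nat_lit 6) (nat_lit 156) (nat_lit 2) (nat_lit 214) (nat_lit 215) (nat_lit 141))) (PT.nd (nat_lit 78) (PT.lf (nat_lit 11400) (nat_lit 3) (nat_lit 150) (nat_lit 0) (nat_lit 215) (nat_lit 215) (nat_lit 140)) (PT.lf (nat_lit 10944) (nat_lit 6) (nat_lit 144) (nat_lit 0) (nat_lit 216) (nat_lit 215) (nat_lit 139)))) (PT.nd (nat_lit 156) (PT.nd (nat_lit 78) (PT.lf (nat_lit 10412) (nat_lit 6) (nat_lit 137) (nat_lit 0) (nat_lit 217) (nat_lit 215) (nat_lit 138)) (PT.lf (nat_lit 9956) (nat_lit 6) (nat_lit 131) (nat_lit 0) (nat_lit 218) (nat_lit 215) (nat_lit 137))) (PT.nd (nat_lit 78) (PT.lf (nat_lit 9500) (nat_lit 6) (nat_lit 125) (nat_lit 0) (nat_lit 219) (nat_lit 215) (nat_lit 136)) (PT.lf (nat_lit 9044) (nat_lit 6) (nat_lit 119) (nat_lit 0) (nat_lit 220) (nat_lit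 215) (nat_lit 135))))))))
noncomputable def pc55 : PT := (PT.nd (nat_lit 54288) (PT.nd (nat_lit 53118) (PT.nd (nat_lit 52572) (PT.nd (nat_lit 52260) (PT.nd (nat_lit 78) (PT.lf (nat_lit 8588) (nat_lit 6) (nat_lit 113) (nat_lit 0) (nat_lit 221) (nat_lit 215) (nat_lit 134)) (PT.nd (nat_lit 78) (PT.lf (nat_lit 8208) (nat_lit 6) (nat_lit 108) (nat_lit 0) (nat_lit 222) (nat_lit 215) (nat_lit 133)) (PT.lf (nat_lit 7752) (nat_lit 6) (nat_lit 102) (nat_lit 0) (nat_lit 223) (nat_lit 215) (nat_lit 132)))) (PT.nd (nat_lit 156) (PT.nd (nat_lit 78) (PT.lf (nat_lit 7068) (nat_lit 6) (nat_lit 93) (nat_lit 5) (nat_lit 130) (nat_lit 216) (nat_lit 224)) (PT.lf (nat_lit 7448) (nat_lit 6) (nat_lit 98) (nat_lit 5) (nat_lit 131) (nat_lit 216) (nat_lit 223))) (PT.nd (nat_lit 78) (PT.lf (nat_lit 7828) (nat_lit 6) (nat_lit 103) (nat_lit 5) (nat_lit 132) (nat_lit 216) (nat_lit 222)) (PT.lf (nat_lit 8284) (nat_lit 6) (nat_lit 109) (nat_lit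 5) (nat_lit 133) (nat_lit 216) (nat_lit 221))))) (PT.nd (nat_lit 234) (PT.nd (nat_lit 78) (PT.lf (nat_lit 8664) (nat_lit 6) (nat_lit 114) (nat_lit 5) (nat_lit 134) (nat_lit 216) (nat_lit 220)) (PT.nd (nat_lit 78) (PT.lf (nat_lit 9120) (nat_lit 6) (nat_lit 120) (nat_lit 5) (nat_lit 135) (nat_lit 216) (nat_lit 219)) (PT.lf (nat_lit 9576) (nat_lit 6) (nat_lit 126) (nat_lit 5) (nat_lit 136) (nat_lit 216) (nat_lit 218)))) (PT.nd (nat_lit 156) (PT.nd (nat_lit 78) (PT.lf (nat_lit 10032) (nat_lit 6) (nat_lit 132) (nat_lit 5) (nat_lit 137) (nat_lit 216) (nat_lit 217)) (PT.lf (nat_lit 10488) (nat_lit 3) (nat_lit 138) (nat_lit 4) (nat_lit 138) (nat_lit 216) (nat_lit 216))) (PT.nd (nat_lit 78) (PT.lf (nat_lit 10944) (nat_lit 6) (nat_lit 144) (nat_lit 4) (nat_lit 139) (nat_lit 216) (nat_lit 215)) (PT.lf (nat_lit 11324) (nat_lit 6) (nat_lit 149) (nat_lit 4) (nat_lit 140) (nat_lit 216) (nat_lit 214)))))) (PT.nd (nat_lit 546)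 (PT.nd (nat_lit 234) (PT.nd (nat_lit 78) (PT.lf (nat_lit 11780) (nat_lit 6) (nat_lit 155) (nat_lit 4) (nat_lit 141) (nat_lit 216) (nat_lit 213)) (PT.nd (nat_lit 78) (PT.lf (nat_lit 12236) (nat_lit 6) (nat_lit 161) (nat_lit 4) (nat_lit 142) (nat_lit 216) (nat_lit 212)) (PT.lf (nat_lit 12692) (nat_lit 6) (nat_lit 167) (nat_lit 4) (nat_lit 143) (nat_lit 216) (nat_lit 211)))) (PT.nd (nat_lit 156) (PT.nd (nat_lit 78) (PT.lf (nat_lit 13148) (nat_lit 6) (nat_lit 173) (nat_lit 4) (nat_lit 144) (nat_lit 216) (nat_lit 210)) (PT.lf (nat_lit 13680) (nat_lit 6) (nat_lit 180) (nat_lit 4) (nat_lit 145) (nat_lit 216) (nat_lit 209))) (PT.nd (nat_lit 78) (PT.lf (nat_lit 14136) (nat_lit 6) (nat_lit 186) (nat_lit 4) (nat_lit 146) (nat_lit 216) (nat_lit 208)) (PT.lf (nat_lit 14668) (nat_lit 6) (nat_lit 193) (nat_lit 4) (nat_lit 147) (nat_lit 216) (nat_lit 207))))) (PT.nd (nat_lit 312) (PT.nd (nat_lit 156) (PT.nd (nat_lit 78) (PT.lf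 (nat_lit 15200) (nat_lit 6) (nat_lit 200) (nat_lit 4) (nat_lit 148) (nat_lit 216) (nat_lit 206)) (PT.lf (nat_lit 15732) (nat_lit 6) (nat_lit 207) (nat_lit 4) (nat_lit 149) (nat_lit 216) (nat_lit 205))) (PT.nd (nat_lit 78) (PT.lf (nat_lit 16264) (nat_lit 6) (nat_lit 214) (nat_lit 4) (nat_lit 150) (nat_lit 216) (nat_lit 204)) (PT.lf (nat_lit 16872) (nat_lit 6) (nat_lit 222) (nat_lit 4) (nat_lit 151) (nat_lit 216) (nat_lit 203)))) (PT.nd (nat_lit 156) (PT.nd (nat_lit 78) (PT.lf (nat_lit 17480) (nat_lit 6) (nat_lit 230) (nat_lit 4) (nat_lit 152) (nat_lit 216) (nat_lit 202)) (PT.lf (nat_lit 18088) (nat_lit 6) (nat_lit 238) (nat_lit 4) (nat_lit 153) (nat_lit 216) (nat_lit 201))) (PT.nd (nat_lit 78) (PT.lf (nat_lit 18696) (nat_lit 6) (nat_lit 246) (nat_lit 4) (nat_lit 154) (nat_lit 216) (nat_lit 200)) (PT.lf (nat_lit 19380) (nat_lit 6) (nat_lit 255) (nat_lit 4) (nat_lit 155) (nat_lit 216) (nat_lit 199))))))) (PT.nd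 (nat_lit 4368) (PT.nd (nat_lit 3744) (PT.nd (nat_lit 3432) (PT.nd (nat_lit 3276) (PT.lf (nat_lit 20064) (nat_lit 6) (nat_lit 264) (nat_lit 4) (nat_lit 156) (nat_lit 216) (nat_lit 198)) (PT.nd (nat_lit 78) (PT.lf (nat_lit 20064) (nat_lit 6) (nat_lit 264) (nat_lit 2) (nat_lit 198) (nat_lit 216) (nat_lit 156)) (PT.lf (nat_lit 19380) (nat_lit 6) (nat_lit 255) (nat_lit 2) (nat_lit 199) (nat_lit 216) (nat_lit 155)))) (PT.nd (nat_lit 156) (PT.nd (nat_lit 78) (PT.lf (nat_lit 18696) (nat_lit 6) (nat_lit 246) (nat_lit 2) (nat_lit 200) (nat_lit 216) (nat_lit 154)) (PT.lf (nat_lit 18088) (nat_lit 6) (nat_lit 238) (nat_lit 2) (nat_lit 201) (nat_lit 216) (nat_lit 153))) (PT.nd (nat_lit 78) (PT.lf (nat_lit 17480) (nat_lit 6) (nat_lit 230) (nat_lit 2) (nat_lit 202) (nat_lit 216) (nat_lit 152)) (PT.lf (nat_lit 16872) (nat_lit 6) (nat_lit 222) (nat_lit 2) (nat_lit 203) (nat_lit 216) (nat_lit 151))))) (PT.nd (nat_lit 312) (PT.nd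 (nat_lit 156) (PT.nd (nat_lit 78) (PT.lf (nat_lit 16264) (nat_lit 6) (nat_lit 214) (nat_lit 2) (nat_lit 204) (nat_lit 216) (nat_lit 150)) (PT.lf (nat_lit 15732) (nat_lit 6) (nat_lit 207) (nat_lit 2) (nat_lit 205) (nat_lit 216) (nat_lit 149))) (PT.nd (nat_lit 78) (PT.lf (nat_lit 15200) (nat_lit 6) (nat_lit 200) (nat_lit 2) (nat_lit 206) (nat_lit 216) (nat_lit 148)) (PT.lf (nat_lit 14668) (nat_lit 6) (nat_lit 193) (nat_lit 2) (nat_lit 207) (nat_lit 216) (nat_lit 147)))) (PT.nd (nat_lit 156) (PT.nd (nat_lit 78) (PT.lf (nat_lit 14136) (nat_lit 6) (nat_lit 186) (nat_lit 2) (nat_lit 208) (nat_lit 216) (nat_lit 146)) (PT.lf (nat_lit 13680) (nat_lit 6) (nat_lit 180) (nat_lit 2) (nat_lit 209) (nat_lit 216) (nat_lit 145))) (PT.nd (nat_lit 78) (PT.lf (nat_lit 13148) (nat_lit 6) (nat_lit 173) (nat_lit 2) (nat_lit 210) (nat_lit 216) (nat_lit 144)) (PT.lf (nat_lit 12692) (nat_lit 6) (nat_lit 167) (nat_lit 2) (nat_lit 211)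 (nat_lit 216) (nat_lit 143)))))) (PT.nd (nat_lit 546) (PT.nd (nat_lit 234) (PT.nd (nat_lit 78) (PT.lf (nat_lit 12236) (nat_lit 6) (nat_lit 161) (nat_lit 2) (nat_lit 212) (nat_lit 216) (nat_lit 142)) (PT.nd (nat_lit 78) (PT.lf (nat_lit 11780) (nat_lit 6) (nat_lit 155) (nat_lit 2) (nat_lit 213) (nat_lit 216) (nat_lit 141)) (PT.lf (nat_lit 11324) (nat_lit 6) (nat_lit 149) (nat_lit 2) (nat_lit 214) (nat_lit 216) (nat_lit 140)))) (PT.nd (nat_lit 156) (PT.nd (nat_lit 78) (PT.lf (nat_lit 10944) (nat_lit 6) (nat_lit 144) (nat_lit 2) (nat_lit 215) (nat_lit 216) (nat_lit 139)) (PT.lf (nat_lit 10488) (nat_lit 3) (nat_lit 138) (nat_lit 0) (nat_lit 216) (nat_lit 216) (nat_lit 138))) (PT.nd (nat_lit 78) (PT.lf (nat_lit 10032) (nat_lit 6) (nat_lit 132) (nat_lit 0) (nat_lit 217) (nat_lit 216) (nat_lit 137)) (PT.lf (nat_lit 9576) (nat_lit 6) (nat_lit 126) (nat_lit 0) (nat_lit 218) (nat_lit 216) (nat_lit 136))))) (PT.nd (nat_lit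 312) (PT.nd (nat_lit 156) (PT.nd (nat_lit 78) (PT.lf (nat_lit 9120) (nat_lit 6) (nat_lit 120) (nat_lit 0) (nat_lit 219) (nat_lit 216) (nat_lit 135)) (PT.lf (nat_lit 8664) (nat_lit 6) (nat_lit 114) (nat_lit 0) (nat_lit 220) (nat_lit 216) (nat_lit 134))) (PT.nd (nat_lit 78) (PT.lf (nat_lit 8284) (nat_lit 6) (nat_lit 109) (nat_lit 0) (nat_lit 221) (nat_lit 216) (nat_lit 133)) (PT.lf (nat_lit 7828) (nat_lit 6) (nat_lit 103) (nat_lit 0) (nat_lit 222) (nat_lit 216) (nat_lit 132)))) (PT.nd (nat_lit 52026) (PT.nd (nat_lit 78) (PT.lf (nat_lit 7448) (nat_lit 6) (nat_lit 98) (nat_lit 0) (nat_lit 223) (nat_lit 216) (nat_lit 131)) (PT.lf (nat_lit 7068) (nat_lit 6) (nat_lit 93) (nat_lit 0) (nat_lit 224) (nat_lit 216) (nat_lit 130))) (PT.nd (nat_lit 78) (PT.lf (nat_lit 6764) (nat_lit 6) (nat_lit 89) (nat_lit 5) (nat_lit 129) (nat_lit 217) (nat_lit 224)) (PT.lf (nat_lit 7144) (nat_lit 6) (nat_lit 94) (nat_lit 5) (nat_lit 130)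 (nat_lit 217) (nat_lit 223))))))))
noncomputable def pc56 : PT := (PT.nd (nat_lit 6006) (PT.nd (nat_lit 1092) (PT.nd (nat_lit 546) (PT.nd (nat_lit 234) (PT.nd (nat_lit 78) (PT.lf (nat_lit 7524) (nat_lit 6) (nat_lit 99) (nat_lit 5) (nat_lit 131) (nat_lit 217) (nat_lit 222)) (PT.nd (nat_lit 78) (PT.lf (nat_lit 7904) (nat_lit 6) (nat_lit 104) (nat_lit 5) (nat_lit 132) (nat_lit 217) (nat_lit 221)) (PT.lf (nat_lit 8360) (nat_lit 6) (nat_lit 110) (nat_lit 5) (nat_lit 133) (nat_lit 217) (nat_lit 220)))) (PT.nd (nat_lit 156) (PT.nd (nat_lit 78) (PT.lf (nat_lit 8740) (nat_lit 6) (nat_lit 115) (nat_lit 5) (nat_lit 134) (nat_lit 217) (nat_lit 219)) (PT.lf (nat_lit 9196) (nat_lit 6) (nat_lit 121) (nat_lit 5) (nat_lit 135) (nat_lit 217) (nat_lit 218))) (PT.nd (nat_lit 78) (PT.lf (nat_lit 9652) (nat_lit 3) (nat_lit 127) (nat_lit 4) (nat_lit 136) (nat_lit 217) (nat_lit 217)) (PT.lf (nat_lit 10032) (nat_lit 6) (nat_lit 132)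 (nat_lit 4) (nat_lit 137) (nat_lit 217) (nat_lit 216))))) (PT.nd (nat_lit 234) (PT.nd (nat_lit 78) (PT.lf (nat_lit 10412) (nat_lit 6) (nat_lit 137) (nat_lit 4) (nat_lit 138) (nat_lit 217) (nat_lit 215)) (PT.nd (nat_lit 78) (PT.lf (nat_lit 10868) (nat_lit 6) (nat_lit 143) (nat_lit 4) (nat_lit 139) (nat_lit 217) (nat_lit 214)) (PT.lf (nat_lit 11248) (nat_lit 6) (nat_lit 148) (nat_lit 4) (nat_lit 140) (nat_lit 217) (nat_lit 213)))) (PT.nd (nat_lit 156) (PT.nd (nat_lit 78) (PT.lf (nat_lit 11704) (nat_lit 6) (nat_lit 154) (nat_lit 4) (nat_lit 141) (nat_lit 217) (nat_lit 212)) (PT.lf (nat_lit 12160) (nat_lit 6) (nat_lit 160) (nat_lit 4) (nat_lit 142) (nat_lit 217) (nat_lit 211))) (PT.nd (nat_lit 78) (PT.lf (nat_lit 12616) (nat_lit 6) (nat_lit 166) (nat_lit 4) (nat_lit 143) (nat_lit 217) (nat_lit 210)) (PT.lf (nat_lit 13072) (nat_lit 6) (nat_lit 172) (nat_lit 4) (nat_lit 144) (nat_lit 217) (nat_lit 209)))))) (PT.nd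 (nat_lit 546) (PT.nd (nat_lit 234) (PT.nd (nat_lit 78) (PT.lf (nat_lit 13604) (nat_lit 6) (nat_lit 179) (nat_lit 4) (nat_lit 145) (nat_lit 217) (nat_lit 208)) (PT.nd (nat_lit 78) (PT.lf (nat_lit 14060) (nat_lit 6) (nat_lit 185) (nat_lit 4) (nat_lit 146) (nat_lit 217) (nat_lit 207)) (PT.lf (nat_lit 14592) (nat_lit 6) (nat_lit 192) (nat_lit 4) (nat_lit 147) (nat_lit 217) (nat_lit 206)))) (PT.nd (nat_lit 156) (PT.nd (nat_lit 78) (PT.lf (nat_lit 15124) (nat_lit 6) (nat_lit 199) (nat_lit 4) (nat_lit 148) (nat_lit 217) (nat_lit 205)) (PT.lf (nat_lit 15656) (nat_lit 6) (nat_lit 206) (nat_lit 4) (nat_lit 149) (nat_lit 217) (nat_lit 204))) (PT.nd (nat_lit 78) (PT.lf (nat_lit 16188) (nat_lit 6) (nat_lit 213) (nat_lit 4) (nat_lit 150) (nat_lit 217) (nat_lit 203)) (PT.lf (nat_lit 16796) (nat_lit 6) (nat_lit 221) (nat_lit 4) (nat_lit 151) (nat_lit 217) (nat_lit 202))))) (PT.nd (nat_lit 4056) (PT.nd (nat_lit 3900) (PT.nd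 (nat_lit 3822) (PT.lf (nat_lit 17404) (nat_lit 6) (nat_lit 229) (nat_lit 4) (nat_lit 152) (nat_lit 217) (nat_lit 201)) (PT.lf (nat_lit 17404) (nat_lit 6) (nat_lit 229) (nat_lit 2) (nat_lit 201) (nat_lit 217) (nat_lit 152))) (PT.nd (nat_lit 78) (PT.lf (nat_lit 16796) (nat_lit 6) (nat_lit 221) (nat_lit 2) (nat_lit 202) (nat_lit 217) (nat_lit 151)) (PT.lf (nat_lit 16188) (nat_lit 6) (nat_lit 213) (nat_lit 2) (nat_lit 203) (nat_lit 217) (nat_lit 150)))) (PT.nd (nat_lit 156) (PT.nd (nat_lit 78) (PT.lf (nat_lit 15656) (nat_lit 6) (nat_lit 206) (nat_lit 2) (nat_lit 204) (nat_lit 217) (nat_lit 149)) (PT.lf (nat_lit 15124) (nat_lit 6) (nat_lit 199) (nat_lit 2) (nat_lit 205) (nat_lit 217) (nat_lit 148))) (PT.nd (nat_lit 78) (PT.lf (nat_lit 14592) (nat_lit 6) (nat_lit 192) (nat_lit 2) (nat_lit 206) (nat_lit 217) (nat_lit 147)) (PT.lf (nat_lit 14060) (nat_lit 6) (nat_lit 185) (nat_lit 2) (nat_lit 207) (nat_lit 217) (nat_lit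 146))))))) (PT.nd (nat_lit 1092) (PT.nd (nat_lit 546) (PT.nd (nat_lit 234) (PT.nd (nat_lit 78) (PT.lf (nat_lit 13604) (nat_lit 6) (nat_lit 179) (nat_lit 2) (nat_lit 208) (nat_lit 217) (nat_lit 145)) (PT.nd (nat_lit 78) (PT.lf (nat_lit 13072) (nat_lit 6) (nat_lit 172) (nat_lit 2) (nat_lit 209) (nat_lit 217) (nat_lit 144)) (PT.lf (nat_lit 12616) (nat_lit 6) (nat_lit 166) (nat_lit 2) (nat_lit 210) (nat_lit 217) (nat_lit 143)))) (PT.nd (nat_lit 156) (PT.nd (nat_lit 78) (PT.lf (nat_lit 12160) (nat_lit 6) (nat_lit 160) (nat_lit 2) (nat_lit 211) (nat_lit 217) (nat_lit 142)) (PT.lf (nat_lit 11704) (nat_lit 6) (nat_lit 154) (nat_lit 2) (nat_lit 212) (nat_lit 217) (nat_lit 141))) (PT.nd (nat_lit 78) (PT.lf (nat_lit 11248) (nat_lit 6) (nat_lit 148) (nat_lit 2) (nat_lit 213) (nat_lit 217) (nat_lit 140)) (PT.lf (nat_lit 10868) (nat_lit 6) (nat_lit 143) (nat_lit 2) (nat_lit 214) (nat_lit 217) (nat_lit 139))))) (PT.nd (nat_lit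 234) (PT.nd (nat_lit 78) (PT.lf (nat_lit 10412) (nat_lit 6) (nat_lit 137) (nat_lit 2) (nat_lit 215) (nat_lit 217) (nat_lit 138)) (PT.nd (nat_lit 78) (PT.lf (nat_lit 10032) (nat_lit 6) (nat_lit 132) (nat_lit 2) (nat_lit 216) (nat_lit 217) (nat_lit 137)) (PT.lf (nat_lit 9652) (nat_lit 3) (nat_lit 127) (nat_lit 0) (nat_lit 217) (nat_lit 217) (nat_lit 136)))) (PT.nd (nat_lit 156) (PT.nd (nat_lit 78) (PT.lf (nat_lit 9196) (nat_lit 6) (nat_lit 121) (nat_lit 0) (nat_lit 218) (nat_lit 217) (nat_lit 135)) (PT.lf (nat_lit 8740) (nat_lit 6) (nat_lit 115) (nat_lit 0) (nat_lit 219) (nat_lit 217) (nat_lit 134))) (PT.nd (nat_lit 78) (PT.lf (nat_lit 8360) (nat_lit 6) (nat_lit 110) (nat_lit 0) (nat_lit 220) (nat_lit 217) (nat_lit 133)) (PT.lf (nat_lit 7904) (nat_lit 6) (nat_lit 104) (nat_lit 0) (nat_lit 221) (nat_lit 217) (nat_lit 132)))))) (PT.nd (nat_lit 52260) (PT.nd (nat_lit 51948) (PT.nd (nat_lit 78) (PT.lf (nat_lit 7524)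 (nat_lit 6) (nat_lit 99) (nat_lit 0) (nat_lit 222) (nat_lit 217) (nat_lit 131)) (PT.nd (nat_lit 78) (PT.lf (nat_lit 7144) (nat_lit 6) (nat_lit 94) (nat_lit 0) (nat_lit 223) (nat_lit 217) (nat_lit 130)) (PT.lf (nat_lit 6764) (nat_lit 6) (nat_lit 89) (nat_lit 0) (nat_lit 224) (nat_lit 217) (nat_lit 129)))) (PT.nd (nat_lit 156) (PT.nd (nat_lit 78) (PT.lf (nat_lit 6156) (nat_lit 6) (nat_lit 81) (nat_lit 5) (nat_lit 127) (nat_lit 218) (nat_lit 225)) (PT.lf (nat_lit 6460) (nat_lit 6) (nat_lit 85) (nat_lit 5) (nat_lit 128) (nat_lit 218) (nat_lit 224))) (PT.nd (nat_lit 78) (PT.lf (nat_lit 6840) (nat_lit 6) (nat_lit 90) (nat_lit 5) (nat_lit 129) (nat_lit 218) (nat_lit 223)) (PT.lf (nat_lit 7220) (nat_lit 6) (nat_lit 95) (nat_lit 5) (nat_lit 130) (nat_lit 218) (nat_lit 222))))) (PT.nd (nat_lit 312) (PT.nd (nat_lit 156) (PT.nd (nat_lit 78) (PT.lf (nat_lit 7600) (nat_lit 6) (nat_lit 100) (nat_lit 5) (nat_lit 131) (nat_lit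 218) (nat_lit 221)) (PT.lf (nat_lit 7980) (nat_lit 6) (nat_lit 105) (nat_lit 5) (nat_lit 132) (nat_lit 218) (nat_lit 220))) (PT.nd (nat_lit 78) (PT.lf (nat_lit 8436) (nat_lit 6) (nat_lit 111) (nat_lit 5) (nat_lit 133) (nat_lit 218) (nat_lit 219)) (PT.lf (nat_lit 8816) (nat_lit 3) (nat_lit 116) (nat_lit 4) (nat_lit 134) (nat_lit 218) (nat_lit 218)))) (PT.nd (nat_lit 156) (PT.nd (nat_lit 78) (PT.lf (nat_lit 9196) (nat_lit 6) (nat_lit 121) (nat_lit 4) (nat_lit 135) (nat_lit 218) (nat_lit 217)) (PT.lf (nat_lit 9576) (nat_lit 6) (nat_lit 126) (nat_lit 4) (nat_lit 136) (nat_lit 218) (nat_lit 216))) (PT.nd (nat_lit 78) (PT.lf (nat_lit 9956) (nat_lit 6) (nat_lit 131) (nat_lit 4) (nat_lit 137) (nat_lit 218) (nat_lit 215)) (PT.lf (nat_lit 10336) (nat_lit 6) (nat_lit 136) (nat_lit 4) (nat_lit 138) (nat_lit 218) (nat_lit 214))))))))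
noncomputable def pc57 : PT := (PT.nd (nat_lit 6552) (PT.nd (nat_lit 5382) (PT.nd (nat_lit 546) (PT.nd (nat_lit 234) (PT.nd (nat_lit 78) (PT.lf (nat_lit 10792) (nat_lit 6) (nat_lit 142) (nat_lit 4) (nat_lit 139) (nat_lit 218) (nat_lit 213)) (PT.nd (nat_lit 78) (PT.lf (nat_lit 11172) (nat_lit 6) (nat_lit 147) (nat_lit 4) (nat_lit 140) (nat_lit 218) (nat_lit 212)) (PT.lf (nat_lit 11628) (nat_lit 6) (nat_lit 153) (nat_lit 4) (nat_lit 141) (nat_lit 218) (nat_lit 211)))) (PT.nd (nat_lit 156) (PT.nd (nat_lit 78) (PT.lf (nat_lit 12084) (nat_lit 6) (nat_lit 159) (nat_lit 4) (nat_lit 142) (nat_lit 218) (nat_lit 210)) (PT.lf (nat_lit 12540) (nat_lit 6) (nat_lit 165) (nat_lit 4) (nat_lit 143) (nat_lit 218) (nat_lit 209))) (PT.nd (nat_lit 78) (PT.lf (nat_lit 12996) (nat_lit 6) (nat_lit 171) (nat_lit 4) (nat_lit 144) (nat_lit 218) (nat_lit 208)) (PT.lf (nat_lit 13528) (nat_lit 6) (nat_lit 178) (nat_lit 4) (nat_lit 145) (nat_lit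 218) (nat_lit 207))))) (PT.nd (nat_lit 4524) (PT.nd (nat_lit 78) (PT.lf (nat_lit 13984) (nat_lit 6) (nat_lit 184) (nat_lit 4) (nat_lit 146) (nat_lit 218) (nat_lit 206)) (PT.nd (nat_lit 78) (PT.lf (nat_lit 14516) (nat_lit 6) (nat_lit 191) (nat_lit 4) (nat_lit 147) (nat_lit 218) (nat_lit 205)) (PT.lf (nat_lit 15048) (nat_lit 6) (nat_lit 198) (nat_lit 4) (nat_lit 148) (nat_lit 218) (nat_lit 204)))) (PT.nd (nat_lit 156) (PT.nd (nat_lit 78) (PT.lf (nat_lit 15048) (nat_lit 6) (nat_lit 198) (nat_lit 2) (nat_lit 204) (nat_lit 218) (nat_lit 148)) (PT.lf (nat_lit 14516) (nat_lit 6) (nat_lit 191) (nat_lit 2) (nat_lit 205) (nat_lit 218) (nat_lit 147))) (PT.nd (nat_lit 78) (PT.lf (nat_lit 13984) (nat_lit 6) (nat_lit 184) (nat_lit 2) (nat_lit 206) (nat_lit 218) (nat_lit 146)) (PT.lf (nat_lit 13528) (nat_lit 6) (nat_lit 178) (nat_lit 2) (nat_lit 207) (nat_lit 218) (nat_lit 145)))))) (PT.nd (nat_lit 546) (PT.nd (nat_lit 234)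 (PT.nd (nat_lit 78) (PT.lf (nat_lit 12996) (nat_lit 6) (nat_lit 171) (nat_lit 2) (nat_lit 208) (nat_lit 218) (nat_lit 144)) (PT.nd (nat_lit 78) (PT.lf (nat_lit 12540) (nat_lit 6) (nat_lit 165) (nat_lit 2) (nat_lit 209) (nat_lit 218) (nat_lit 143)) (PT.lf (nat_lit 12084) (nat_lit 6) (nat_lit 159) (nat_lit 2) (nat_lit 210) (nat_lit 218) (nat_lit 142)))) (PT.nd (nat_lit 156) (PT.nd (nat_lit 78) (PT.lf (nat_lit 11628) (nat_lit 6) (nat_lit 153) (nat_lit 2) (nat_lit 211) (nat_lit 218) (nat_lit 141)) (PT.lf (nat_lit 11172) (nat_lit 6) (nat_lit 147) (nat_lit 2) (nat_lit 212) (nat_lit 218) (nat_lit 140))) (PT.nd (nat_lit 78) (PT.lf (nat_lit 10792) (nat_lit 6) (nat_lit 142) (nat_lit 2) (nat_lit 213) (nat_lit 218) (nat_lit 139)) (PT.lf (nat_lit 10336) (nat_lit 6) (nat_lit 136) (nat_lit 2) (nat_lit 214) (nat_lit 218) (nat_lit 138))))) (PT.nd (nat_lit 312) (PT.nd (nat_lit 156) (PT.nd (nat_lit 78) (PT.lf (nat_lit 9956) (nat_lit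 6) (nat_lit 131) (nat_lit 2) (nat_lit 215) (nat_lit 218) (nat_lit 137)) (PT.lf (nat_lit 9576) (nat_lit 6) (nat_lit 126) (nat_lit 2) (nat_lit 216) (nat_lit 218) (nat_lit 136))) (PT.nd (nat_lit 78) (PT.lf (nat_lit 9196) (nat_lit 6) (nat_lit 121) (nat_lit 2) (nat_lit 217) (nat_lit 218) (nat_lit 135)) (PT.lf (nat_lit 8816) (nat_lit 3) (nat_lit 116) (nat_lit 0) (nat_lit 218) (nat_lit 218) (nat_lit 134)))) (PT.nd (nat_lit 156) (PT.nd (nat_lit 78) (PT.lf (nat_lit 8436) (nat_lit 6) (nat_lit 111) (nat_lit 0) (nat_lit 219) (nat_lit 218) (nat_lit 133)) (PT.lf (nat_lit 7980) (nat_lit 6) (nat_lit 105) (nat_lit 0) (nat_lit 220) (nat_lit 218) (nat_lit 132))) (PT.nd (nat_lit 78) (PT.lf (nat_lit 7600) (nat_lit 6) (nat_lit 100) (nat_lit 0) (nat_lit 221) (nat_lit 218) (nat_lit 131)) (PT.lf (nat_lit 7220) (nat_lit 6) (nat_lit 95) (nat_lit 0) (nat_lit 222) (nat_lit 218) (nat_lit 130))))))) (PT.nd (nat_lit 52728) (PT.nd (nat_lit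 52104) (PT.nd (nat_lit 51792) (PT.nd (nat_lit 78) (PT.lf (nat_lit 6840) (nat_lit 6) (nat_lit 90) (nat_lit 0) (nat_lit 223) (nat_lit 218) (nat_lit 129)) (PT.nd (nat_lit 78) (PT.lf (nat_lit 6460) (nat_lit 6) (nat_lit 85) (nat_lit 0) (nat_lit 224) (nat_lit 218) (nat_lit 128)) (PT.lf (nat_lit 6156) (nat_lit 6) (nat_lit 81) (nat_lit 0) (nat_lit 225) (nat_lit 218) (nat_lit 127)))) (PT.nd (nat_lit 156) (PT.nd (nat_lit 78) (PT.lf (nat_lit 5852) (nat_lit 6) (nat_lit 77) (nat_lit 5) (nat_lit 126) (nat_lit 219) (nat_lit 225)) (PT.lf (nat_lit 6232) (nat_lit 6) (nat_lit 82) (nat_lit 5) (nat_lit 127) (nat_lit 219) (nat_lit 224))) (PT.nd (nat_lit 78) (PT.lf (nat_lit 6536) (nat_lit 6) (nat_lit 86) (nat_lit 5) (nat_lit 128) (nat_lit 219) (nat_lit 223)) (PT.lf (nat_lit 6916) (nat_lit 6) (nat_lit 91) (nat_lit 5) (nat_lit 129) (nat_lit 219) (nat_lit 222))))) (PT.nd (nat_lit 312) (PT.nd (nat_lit 156) (PT.nd (nat_lit 78) (PT.lf (nat_lit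 7296) (nat_lit 6) (nat_lit 96) (nat_lit 5) (nat_lit 130) (nat_lit 219) (nat_lit 221)) (PT.lf (nat_lit 7676) (nat_lit 6) (nat_lit 101) (nat_lit 5) (nat_lit 131) (nat_lit 219) (nat_lit 220))) (PT.nd (nat_lit 78) (PT.lf (nat_lit 8056) (nat_lit 3) (nat_lit 106) (nat_lit 4) (nat_lit 132) (nat_lit 219) (nat_lit 219)) (PT.lf (nat_lit 8436) (nat_lit 6) (nat_lit 111) (nat_lit 4) (nat_lit 133) (nat_lit 219) (nat_lit 218)))) (PT.nd (nat_lit 156) (PT.nd (nat_lit 78) (PT.lf (nat_lit 8740) (nat_lit 6) (nat_lit 115) (nat_lit 4) (nat_lit 134) (nat_lit 219) (nat_lit 217)) (PT.lf (nat_lit 9120) (nat_lit 6) (nat_lit 120) (nat_lit 4) (nat_lit 135) (nat_lit 219) (nat_lit 216))) (PT.nd (nat_lit 78) (PT.lf (nat_lit 9500) (nat_lit 6) (nat_lit 125) (nat_lit 4) (nat_lit 136) (nat_lit 219) (nat_lit 215)) (PT.lf (nat_lit 9880) (nat_lit 6) (nat_lit 130) (nat_lit 4) (nat_lit 137) (nat_lit 219) (nat_lit 214)))))) (PT.nd (nat_lit 5382) (PT.nd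 (nat_lit 234) (PT.nd (nat_lit 78) (PT.lf (nat_lit 10260) (nat_lit 6) (nat_lit 135) (nat_lit 4) (nat_lit 138) (nat_lit 219) (nat_lit 213)) (PT.nd (nat_lit 78) (PT.lf (nat_lit 10716) (nat_lit 6) (nat_lit 141) (nat_lit 4) (nat_lit 139) (nat_lit 219) (nat_lit 212)) (PT.lf (nat_lit 11096) (nat_lit 6) (nat_lit 146) (nat_lit 4) (nat_lit 140) (nat_lit 219) (nat_lit 211)))) (PT.nd (nat_lit 156) (PT.nd (nat_lit 78) (PT.lf (nat_lit 11552) (nat_lit 6) (nat_lit 152) (nat_lit 4) (nat_lit 141) (nat_lit 219) (nat_lit 210)) (PT.lf (nat_lit 12008) (nat_lit 6) (nat_lit 158) (nat_lit 4) (nat_lit 142) (nat_lit 219) (nat_lit 209))) (PT.nd (nat_lit 78) (PT.lf (nat_lit 12464) (nat_lit 6) (nat_lit 164) (nat_lit 4) (nat_lit 143) (nat_lit 219) (nat_lit 208)) (PT.lf (nat_lit 12920) (nat_lit 6) (nat_lit 170) (nat_lit 4) (nat_lit 144) (nat_lit 219) (nat_lit 207))))) (PT.nd (nat_lit 312) (PT.nd (nat_lit 156) (PT.nd (nat_lit 78) (PT.lf (nat_lit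 12920) (nat_lit 6) (nat_lit 170) (nat_lit 2) (nat_lit 207) (nat_lit 219) (nat_lit 144)) (PT.lf (nat_lit 12464) (nat_lit 6) (nat_lit 164) (nat_lit 2) (nat_lit 208) (nat_lit 219) (nat_lit 143))) (PT.nd (nat_lit 78) (PT.lf (nat_lit 12008) (nat_lit 6) (nat_lit 158) (nat_lit 2) (nat_lit 209) (nat_lit 219) (nat_lit 142)) (PT.lf (nat_lit 11552) (nat_lit 6) (nat_lit 152) (nat_lit 2) (nat_lit 210) (nat_lit 219) (nat_lit 141)))) (PT.nd (nat_lit 156) (PT.nd (nat_lit 78) (PT.lf (nat_lit 11096) (nat_lit 6) (nat_lit 146) (nat_lit 2) (nat_lit 211) (nat_lit 219) (nat_lit 140)) (PT.lf (nat_lit 10716) (nat_lit 6) (nat_lit 141) (nat_lit 2) (nat_lit 212) (nat_lit 219) (nat_lit 139))) (PT.nd (nat_lit 78) (PT.lf (nat_lit 10260) (nat_lit 6) (nat_lit 135) (nat_lit 2) (nat_lit 213) (nat_lit 219) (nat_lit 138)) (PT.lf (nat_lit 9880) (nat_lit 6) (nat_lit 130) (nat_lit 2) (nat_lit 214) (nat_lit 219) (nat_lit 137))))))))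
noncomputable def pc58 : PT := (PT.nd (nat_lit 58890) (PT.nd (nat_lit 52494) (PT.nd (nat_lit 546) (PT.nd (nat_lit 234) (PT.nd (nat_lit 78) (PT.lf (nat_lit 9500) (nat_lit 6) (nat_lit 125) (nat_lit 2) (nat_lit 215) (nat_lit 219) (nat_lit 136)) (PT.nd (nat_lit 78) (PT.lf (nat_lit 9120) (nat_lit 6) (nat_lit 120) (nat_lit 2) (nat_lit 216) (nat_lit 219) (nat_lit 135)) (PT.lf (nat_lit 8740) (nat_lit 6) (nat_lit 115) (nat_lit 2) (nat_lit 217) (nat_lit 219) (nat_lit 134)))) (PT.nd (nat_lit 156) (PT.nd (nat_lit 78) (PT.lf (nat_lit 8436) (nat_lit 6) (nat_lit 111) (nat_lit 2) (nat_lit 218) (nat_lit 219) (nat_lit 133)) (PT.lf (nat_lit 8056) (nat_lit 3) (nat_lit 106) (nat_lit 0) (nat_lit 219) (nat_lit 219) (nat_lit 132))) (PT.nd (nat_lit 78) (PT.lf (nat_lit 7676) (nat_lit 6) (nat_lit 101) (nat_lit 0) (nat_lit 220) (nat_lit 219) (nat_lit 131)) (PT.lf (nat_lit 7296) (nat_lit 6) (nat_lit 96) (nat_lit 0) (nat_lit 221) (nat_lit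 219) (nat_lit 130))))) (PT.nd (nat_lit 234) (PT.nd (nat_lit 78) (PT.lf (nat_lit 6916) (nat_lit 6) (nat_lit 91) (nat_lit 0) (nat_lit 222) (nat_lit 219) (nat_lit 129)) (PT.nd (nat_lit 78) (PT.lf (nat_lit 6536) (nat_lit 6) (nat_lit 86) (nat_lit 0) (nat_lit 223) (nat_lit 219) (nat_lit 128)) (PT.lf (nat_lit 6232) (nat_lit 6) (nat_lit 82) (nat_lit 0) (nat_lit 224) (nat_lit 219) (nat_lit 127)))) (PT.nd (nat_lit 51558) (PT.nd (nat_lit 51480) (PT.lf (nat_lit 5852) (nat_lit 6) (nat_lit 77) (nat_lit 0) (nat_lit 225) (nat_lit 219) (nat_lit 126)) (PT.lf (nat_lit 5244) (nat_lit 6) (nat_lit 69) (nat_lit 5) (nat_lit 124) (nat_lit 220) (nat_lit 226))) (PT.nd (nat_lit 78) (PT.lf (nat_lit 5624) (nat_lit 6) (nat_lit 74) (nat_lit 5) (nat_lit 125) (nat_lit 220) (nat_lit 225)) (PT.lf (nat_lit 5928) (nat_lit 6) (nat_lit 78) (nat_lit 5) (nat_lit 126) (nat_lit 220) (nat_lit 224)))))) (PT.nd (nat_lit 546) (PT.nd (nat_lit 234) (PT.nd (nat_lit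 78) (PT.lf (nat_lit 6308) (nat_lit 6) (nat_lit 83) (nat_lit 5) (nat_lit 127) (nat_lit 220) (nat_lit 223)) (PT.nd (nat_lit 78) (PT.lf (nat_lit 6612) (nat_lit 6) (nat_lit 87) (nat_lit 5) (nat_lit 128) (nat_lit 220) (nat_lit 222)) (PT.lf (nat_lit 6992) (nat_lit 6) (nat_lit 92) (nat_lit 5) (nat_lit 129) (nat_lit 220) (nat_lit 221)))) (PT.nd (nat_lit 156) (PT.nd (nat_lit 78) (PT.lf (nat_lit 7372) (nat_lit 3) (nat_lit 97) (nat_lit 4) (nat_lit 130) (nat_lit 220) (nat_lit 220)) (PT.lf (nat_lit 7676) (nat_lit 6) (nat_lit 101) (nat_lit 4) (nat_lit 131) (nat_lit 220) (nat_lit 219))) (PT.nd (nat_lit 78) (PT.lf (nat_lit 7980) (nat_lit 6) (nat_lit 105) (nat_lit 4) (nat_lit 132) (nat_lit 220) (nat_lit 218)) (PT.lf (nat_lit 8360) (nat_lit 6) (nat_lit 110) (nat_lit 4) (nat_lit 133) (nat_lit 220) (nat_lit 217))))) (PT.nd (nat_lit 312) (PT.nd (nat_lit 156) (PT.nd (nat_lit 78) (PT.lf (nat_lit 8664) (nat_lit 6) (nat_lit 114) (nat_lit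 4) (nat_lit 134) (nat_lit 220) (nat_lit 216)) (PT.lf (nat_lit 9044) (nat_lit 6) (nat_lit 119) (nat_lit 4) (nat_lit 135) (nat_lit 220) (nat_lit 215))) (PT.nd (nat_lit 78) (PT.lf (nat_lit 9424) (nat_lit 6) (nat_lit 124) (nat_lit 4) (nat_lit 136) (nat_lit 220) (nat_lit 214)) (PT.lf (nat_lit 9804) (nat_lit 6) (nat_lit 129) (nat_lit 4) (nat_lit 137) (nat_lit 220) (nat_lit 213)))) (PT.nd (nat_lit 156) (PT.nd (nat_lit 78) (PT.lf (nat_lit 10184) (nat_lit 6) (nat_lit 134) (nat_lit 4) (nat_lit 138) (nat_lit 220) (nat_lit 212)) (PT.lf (nat_lit 10640) (nat_lit 6) (nat_lit 140) (nat_lit 4) (nat_lit 139) (nat_lit 220) (nat_lit 211))) (PT.nd (nat_lit 78) (PT.lf (nat_lit 11020) (nat_lit 6) (nat_lit 145) (nat_lit 4) (nat_lit 140) (nat_lit 220) (nat_lit 210)) (PT.lf (nat_lit 11476) (nat_lit 6) (nat_lit 151) (nat_lit 4) (nat_lit 141) (nat_lit 220) (nat_lit 209))))))) (PT.nd (nat_lit 1170) (PT.nd (nat_lit 546) (PT.nd (nat_lit 234)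 (PT.nd (nat_lit 78) (PT.lf (nat_lit 11476) (nat_lit 6) (nat_lit 151) (nat_lit 2) (nat_lit 209) (nat_lit 220) (nat_lit 141)) (PT.nd (nat_lit 78) (PT.lf (nat_lit 11020) (nat_lit 6) (nat_lit 145) (nat_lit 2) (nat_lit 210) (nat_lit 220) (nat_lit 140)) (PT.lf (nat_lit 10640) (nat_lit 6) (nat_lit 140) (nat_lit 2) (nat_lit 211) (nat_lit 220) (nat_lit 139)))) (PT.nd (nat_lit 156) (PT.nd (nat_lit 78) (PT.lf (nat_lit 10184) (nat_lit 6) (nat_lit 134) (nat_lit 2) (nat_lit 212) (nat_lit 220) (nat_lit 138)) (PT.lf (nat_lit 9804) (nat_lit 6) (nat_lit 129) (nat_lit 2) (nat_lit 213) (nat_lit 220) (nat_lit 137))) (PT.nd (nat_lit 78) (PT.lf (nat_lit 9424) (nat_lit 6) (nat_lit 124) (nat_lit 2) (nat_lit 214) (nat_lit 220) (nat_lit 136)) (PT.lf (nat_lit 9044) (nat_lit 6) (nat_lit 119) (nat_lit 2) (nat_lit 215) (nat_lit 220) (nat_lit 135))))) (PT.nd (nat_lit 312) (PT.nd (nat_lit 156) (PT.nd (nat_lit 78) (PT.lf (nat_lit 8664) (nat_lit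 6) (nat_lit 114) (nat_lit 2) (nat_lit 216) (nat_lit 220) (nat_lit 134)) (PT.lf (nat_lit 8360) (nat_lit 6) (nat_lit 110) (nat_lit 2) (nat_lit 217) (nat_lit 220) (nat_lit 133))) (PT.nd (nat_lit 78) (PT.lf (nat_lit 7980) (nat_lit 6) (nat_lit 105) (nat_lit 2) (nat_lit 218) (nat_lit 220) (nat_lit 132)) (PT.lf (nat_lit 7676) (nat_lit 6) (nat_lit 101) (nat_lit 2) (nat_lit 219) (nat_lit 220) (nat_lit 131)))) (PT.nd (nat_lit 156) (PT.nd (nat_lit 78) (PT.lf (nat_lit 7372) (nat_lit 3) (nat_lit 97) (nat_lit 0) (nat_lit 220) (nat_lit 220) (nat_lit 130)) (PT.lf (nat_lit 6992) (nat_lit 6) (nat_lit 92) (nat_lit 0) (nat_lit 221) (nat_lit 220) (nat_lit 129))) (PT.nd (nat_lit 78) (PT.lf (nat_lit 6612) (nat_lit 6) (nat_lit 87) (nat_lit 0) (nat_lit 222) (nat_lit 220) (nat_lit 128)) (PT.lf (nat_lit 6308) (nat_lit 6) (nat_lit 83) (nat_lit 0) (nat_lit 223) (nat_lit 220) (nat_lit 127)))))) (PT.nd (nat_lit 51714) (PT.nd (nat_lit 51402)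 (PT.nd (nat_lit 78) (PT.lf (nat_lit 5928) (nat_lit 6) (nat_lit 78) (nat_lit 0) (nat_lit 224) (nat_lit 220) (nat_lit 126)) (PT.nd (nat_lit 78) (PT.lf (nat_lit 5624) (nat_lit 6) (nat_lit 74) (nat_lit 0) (nat_lit 225) (nat_lit 220) (nat_lit 125)) (PT.lf (nat_lit 5244) (nat_lit 6) (nat_lit 69) (nat_lit 0) (nat_lit 226) (nat_lit 220) (nat_lit 124)))) (PT.nd (nat_lit 156) (PT.nd (nat_lit 78) (PT.lf (nat_lit 4712) (nat_lit 6) (nat_lit 62) (nat_lit 5) (nat_lit 122) (nat_lit 221) (nat_lit 227)) (PT.lf (nat_lit 5016) (nat_lit 6) (nat_lit 66) (nat_lit 5) (nat_lit 123) (nat_lit 221) (nat_lit 226))) (PT.nd (nat_lit 78) (PT.lf (nat_lit 5320) (nat_lit 6) (nat_lit 70) (nat_lit 5) (nat_lit 124) (nat_lit 221) (nat_lit 225)) (PT.lf (nat_lit 5700) (nat_lit 6) (nat_lit 75) (nat_lit 5) (nat_lit 125) (nat_lit 221) (nat_lit 224))))) (PT.nd (nat_lit 312) (PT.nd (nat_lit 156) (PT.nd (nat_lit 78) (PT.lf (nat_lit 6004) (nat_lit 6) (nat_lit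 79) (nat_lit 5) (nat_lit 126) (nat_lit 221) (nat_lit 223)) (PT.lf (nat_lit 6384) (nat_lit 6) (nat_lit 84) (nat_lit 5) (nat_lit 127) (nat_lit 221) (nat_lit 222))) (PT.nd (nat_lit 78) (PT.lf (nat_lit 6688) (nat_lit 3) (nat_lit 88) (nat_lit 4) (nat_lit 128) (nat_lit 221) (nat_lit 221)) (PT.lf (nat_lit 6992) (nat_lit 6) (nat_lit 92) (nat_lit 4) (nat_lit 129) (nat_lit 221) (nat_lit 220)))) (PT.nd (nat_lit 156) (PT.nd (nat_lit 78) (PT.lf (nat_lit 7296) (nat_lit 6) (nat_lit 96) (nat_lit 4) (nat_lit 130) (nat_lit 221) (nat_lit 219)) (PT.lf (nat_lit 7600) (nat_lit 6) (nat_lit 100) (nat_lit 4) (nat_lit 131) (nat_lit 221) (nat_lit 218))) (PT.nd (nat_lit 78) (PT.lf (nat_lit 7904) (nat_lit 6) (nat_lit 104) (nat_lit 4) (nat_lit 132) (nat_lit 221) (nat_lit 217)) (PT.lf (nat_lit 8284) (nat_lit 6) (nat_lit 109) (nat_lit 4) (nat_lit 133) (nat_lit 221) (nat_lit 216))))))))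
noncomputable def pc59 : PT := (PT.nd (nat_lit 58890) (PT.nd (nat_lit 6708) (PT.nd (nat_lit 6162) (PT.nd (nat_lit 234) (PT.nd (nat_lit 78) (PT.lf (nat_lit 8588) (nat_lit 6) (nat_lit 113) (nat_lit 4) (nat_lit 134) (nat_lit 221) (nat_lit 215)) (PT.nd (nat_lit 78) (PT.lf (nat_lit 8968) (nat_lit 6) (nat_lit 118) (nat_lit 4) (nat_lit 135) (nat_lit 221) (nat_lit 214)) (PT.lf (nat_lit 9348) (nat_lit 6) (nat_lit 123) (nat_lit 4) (nat_lit 136) (nat_lit 221) (nat_lit 213)))) (PT.nd (nat_lit 5772) (PT.nd (nat_lit 78) (PT.lf (nat_lit 9728) (nat_lit 6) (nat_lit 128) (nat_lit 4) (nat_lit 137) (nat_lit 221) (nat_lit 212)) (PT.lf (nat_lit 10108) (nat_lit 6) (nat_lit 133) (nat_lit 4) (nat_lit 138) (nat_lit 221) (nat_lit 211))) (PT.nd (nat_lit 78) (PT.lf (nat_lit 10108) (nat_lit 6) (nat_lit 133) (nat_lit 2) (nat_lit 211) (nat_lit 221) (nat_lit 138)) (PT.lf (nat_lit 9728) (nat_lit 6) (nat_lit 128) (nat_lit 2) (nat_lit 212) (nat_lit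 221) (nat_lit 137))))) (PT.nd (nat_lit 234) (PT.nd (nat_lit 78) (PT.lf (nat_lit 9348) (nat_lit 6) (nat_lit 123) (nat_lit 2) (nat_lit 213) (nat_lit 221) (nat_lit 136)) (PT.nd (nat_lit 78) (PT.lf (nat_lit 8968) (nat_lit 6) (nat_lit 118) (nat_lit 2) (nat_lit 214) (nat_lit 221) (nat_lit 135)) (PT.lf (nat_lit 8588) (nat_lit 6) (nat_lit 113) (nat_lit 2) (nat_lit 215) (nat_lit 221) (nat_lit 134)))) (PT.nd (nat_lit 156) (PT.nd (nat_lit 78) (PT.lf (nat_lit 8284) (nat_lit 6) (nat_lit 109) (nat_lit 2) (nat_lit 216) (nat_lit 221) (nat_lit 133)) (PT.lf (nat_lit 7904) (nat_lit 6) (nat_lit 104) (nat_lit 2) (nat_lit 217) (nat_lit 221) (nat_lit 132))) (PT.nd (nat_lit 78) (PT.lf (nat_lit 7600) (nat_lit 6) (nat_lit 100) (nat_lit 2) (nat_lit 218) (nat_lit 221) (nat_lit 131)) (PT.lf (nat_lit 7296) (nat_lit 6) (nat_lit 96) (nat_lit 2) (nat_lit 219) (nat_lit 221) (nat_lit 130)))))) (PT.nd (nat_lit 546) (PT.nd (nat_lit 234) (PT.nd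 (nat_lit 78) (PT.lf (nat_lit 6992) (nat_lit 6) (nat_lit 92) (nat_lit 2) (nat_lit 220) (nat_lit 221) (nat_lit 129)) (PT.nd (nat_lit 78) (PT.lf (nat_lit 6688) (nat_lit 3) (nat_lit 88) (nat_lit 0) (nat_lit 221) (nat_lit 221) (nat_lit 128)) (PT.lf (nat_lit 6384) (nat_lit 6) (nat_lit 84) (nat_lit 0) (nat_lit 222) (nat_lit 221) (nat_lit 127)))) (PT.nd (nat_lit 156) (PT.nd (nat_lit 78) (PT.lf (nat_lit 6004) (nat_lit 6) (nat_lit 79) (nat_lit 0) (nat_lit 223) (nat_lit 221) (nat_lit 126)) (PT.lf (nat_lit 5700) (nat_lit 6) (nat_lit 75) (nat_lit 0) (nat_lit 224) (nat_lit 221) (nat_lit 125))) (PT.nd (nat_lit 78) (PT.lf (nat_lit 5320) (nat_lit 6) (nat_lit 70) (nat_lit 0) (nat_lit 225) (nat_lit 221) (nat_lit 124)) (PT.lf (nat_lit 5016) (nat_lit 6) (nat_lit 66) (nat_lit 0) (nat_lit 226) (nat_lit 221) (nat_lit 123))))) (PT.nd (nat_lit 51324) (PT.nd (nat_lit 51168) (PT.nd (nat_lit 51090) (PT.lf (nat_lit 4712) (nat_lit 6) (nat_lit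 62) (nat_lit 0) (nat_lit 227) (nat_lit 221) (nat_lit 122)) (PT.lf (nat_lit 4484) (nat_lit 6) (nat_lit 59) (nat_lit 5) (nat_lit 121) (nat_lit 222) (nat_lit 227))) (PT.nd (nat_lit 78) (PT.lf (nat_lit 4788) (nat_lit 6) (nat_lit 63) (nat_lit 5) (nat_lit 122) (nat_lit 222) (nat_lit 226)) (PT.lf (nat_lit 5092) (nat_lit 6) (nat_lit 67) (nat_lit 5) (nat_lit 123) (nat_lit 222) (nat_lit 225)))) (PT.nd (nat_lit 156) (PT.nd (nat_lit 78) (PT.lf (nat_lit 5396) (nat_lit 6) (nat_lit 71) (nat_lit 5) (nat_lit 124) (nat_lit 222) (nat_lit 224)) (PT.lf (nat_lit 5776) (nat_lit 6) (nat_lit 76) (nat_lit 5) (nat_lit 125) (nat_lit 222) (nat_lit 223))) (PT.nd (nat_lit 78) (PT.lf (nat_lit 6080) (nat_lit 3) (nat_lit 80) (nat_lit 4) (nat_lit 126) (nat_lit 222) (nat_lit 222)) (PT.lf (nat_lit 6384) (nat_lit 6) (nat_lit 84) (nat_lit 4) (nat_lit 127) (nat_lit 222) (nat_lit 221))))))) (PT.nd (nat_lit 7176) (PT.nd (nat_lit 546) (PT.nd (nat_lit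 234) (PT.nd (nat_lit 78) (PT.lf (nat_lit 6612) (nat_lit 6) (nat_lit 87) (nat_lit 4) (nat_lit 128) (nat_lit 222) (nat_lit 220)) (PT.nd (nat_lit 78) (PT.lf (nat_lit 6916) (nat_lit 6) (nat_lit 91) (nat_lit 4) (nat_lit 129) (nat_lit 222) (nat_lit 219)) (PT.lf (nat_lit 7220) (nat_lit 6) (nat_lit 95) (nat_lit 4) (nat_lit 130) (nat_lit 222) (nat_lit 218)))) (PT.nd (nat_lit 156) (PT.nd (nat_lit 78) (PT.lf (nat_lit 7524) (nat_lit 6) (nat_lit 99) (nat_lit 4) (nat_lit 131) (nat_lit 222) (nat_lit 217)) (PT.lf (nat_lit 7828) (nat_lit 6) (nat_lit 103) (nat_lit 4) (nat_lit 132) (nat_lit 222) (nat_lit 216))) (PT.nd (nat_lit 78) (PT.lf (nat_lit 8208) (nat_lit 6) (nat_lit 108) (nat_lit 4) (nat_lit 133) (nat_lit 222) (nat_lit 215)) (PT.lf (nat_lit 8512) (nat_lit 6) (nat_lit 112) (nat_lit 4) (nat_lit 134) (nat_lit 222) (nat_lit 214))))) (PT.nd (nat_lit 6318) (PT.nd (nat_lit 6162) (PT.nd (nat_lit 6084) (PT.lf (nat_lit 8892) (nat_lit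 6) (nat_lit 117) (nat_lit 4) (nat_lit 135) (nat_lit 222) (nat_lit 213)) (PT.lf (nat_lit 8892) (nat_lit 6) (nat_lit 117) (nat_lit 2) (nat_lit 213) (nat_lit 222) (nat_lit 135))) (PT.nd (nat_lit 78) (PT.lf (nat_lit 8512) (nat_lit 6) (nat_lit 112) (nat_lit 2) (nat_lit 214) (nat_lit 222) (nat_lit 134)) (PT.lf (nat_lit 8208) (nat_lit 6) (nat_lit 108) (nat_lit 2) (nat_lit 215) (nat_lit 222) (nat_lit 133)))) (PT.nd (nat_lit 156) (PT.nd (nat_lit 78) (PT.lf (nat_lit 7828) (nat_lit 6) (nat_lit 103) (nat_lit 2) (nat_lit 216) (nat_lit 222) (nat_lit 132)) (PT.lf (nat_lit 7524) (nat_lit 6) (nat_lit 99) (nat_lit 2) (nat_lit 217) (nat_lit 222) (nat_lit 131))) (PT.nd (nat_lit 78) (PT.lf (nat_lit 7220) (nat_lit 6) (nat_lit 95) (nat_lit 2) (nat_lit 218) (nat_lit 222) (nat_lit 130)) (PT.lf (nat_lit 6916) (nat_lit 6) (nat_lit 91) (nat_lit 2) (nat_lit 219) (nat_lit 222) (nat_lit 129)))))) (PT.nd (nat_lit 546) (PT.nd (nat_lit 234)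 (PT.nd (nat_lit 78) (PT.lf (nat_lit 6612) (nat_lit 6) (nat_lit 87) (nat_lit 2) (nat_lit 220) (nat_lit 222) (nat_lit 128)) (PT.nd (nat_lit 78) (PT.lf (nat_lit 6384) (nat_lit 6) (nat_lit 84) (nat_lit 2) (nat_lit 221) (nat_lit 222) (nat_lit 127)) (PT.lf (nat_lit 6080) (nat_lit 3) (nat_lit 80) (nat_lit 0) (nat_lit 222) (nat_lit 222) (nat_lit 126)))) (PT.nd (nat_lit 156) (PT.nd (nat_lit 78) (PT.lf (nat_lit 5776) (nat_lit 6) (nat_lit 76) (nat_lit 0) (nat_lit 223) (nat_lit 222) (nat_lit 125)) (PT.lf (nat_lit 5396) (nat_lit 6) (nat_lit 71) (nat_lit 0) (nat_lit 224) (nat_lit 222) (nat_lit 124))) (PT.nd (nat_lit 78) (PT.lf (nat_lit 5092) (nat_lit 6) (nat_lit 67) (nat_lit 0) (nat_lit 225) (nat_lit 222) (nat_lit 123)) (PT.lf (nat_lit 4788) (nat_lit 6) (nat_lit 63) (nat_lit 0) (nat_lit 226) (nat_lit 222) (nat_lit 122))))) (PT.nd (nat_lit 51168) (PT.nd (nat_lit 51012) (PT.nd (nat_lit 50934) (PT.lf (nat_lit 4484) (nat_lit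 6) (nat_lit 59) (nat_lit 0) (nat_lit 227) (nat_lit 222) (nat_lit 121)) (PT.lf (nat_lit 3952) (nat_lit 6) (nat_lit 52) (nat_lit 5) (nat_lit 119) (nat_lit 223) (nat_lit 228))) (PT.nd (nat_lit 78) (PT.lf (nat_lit 4256) (nat_lit 6) (nat_lit 56) (nat_lit 5) (nat_lit 120) (nat_lit 223) (nat_lit 227)) (PT.lf (nat_lit 4560) (nat_lit 6) (nat_lit 60) (nat_lit 5) (nat_lit 121) (nat_lit 223) (nat_lit 226)))) (PT.nd (nat_lit 156) (PT.nd (nat_lit 78) (PT.lf (nat_lit 4864) (nat_lit 6) (nat_lit 64) (nat_lit 5) (nat_lit 122) (nat_lit 223) (nat_lit 225)) (PT.lf (nat_lit 5168) (nat_lit 6) (nat_lit 68) (nat_lit 5) (nat_lit 123) (nat_lit 223) (nat_lit 224))) (PT.nd (nat_lit 78) (PT.lf (nat_lit 5472) (nat_lit 3) (nat_lit 72) (nat_lit 4) (nat_lit 124) (nat_lit 223) (nat_lit 223)) (PT.lf (nat_lit 5776) (nat_lit 6) (nat_lit 76) (nat_lit 4) (nat_lit 125) (nat_lit 223) (nat_lit 222))))))))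
noncomputable def pc60 : PT := (PT.nd (nat_lit 59280) (PT.nd (nat_lit 7488) (PT.nd (nat_lit 6942) (PT.nd (nat_lit 234) (PT.nd (nat_lit 78) (PT.lf (nat_lit 6004) (nat_lit 6) (nat_lit 79) (nat_lit 4) (nat_lit 126) (nat_lit 223) (nat_lit 221)) (PT.nd (nat_lit 78) (PT.lf (nat_lit 6308) (nat_lit 6) (nat_lit 83) (nat_lit 4) (nat_lit 127) (nat_lit 223) (nat_lit 220)) (PT.lf (nat_lit 6536) (nat_lit 6) (nat_lit 86) (nat_lit 4) (nat_lit 128) (nat_lit 223) (nat_lit 219)))) (PT.nd (nat_lit 156) (PT.nd (nat_lit 78) (PT.lf (nat_lit 6840) (nat_lit 6) (nat_lit 90) (nat_lit 4) (nat_lit 129) (nat_lit 223) (nat_lit 218)) (PT.lf (nat_lit 7144) (nat_lit 6) (nat_lit 94) (nat_lit 4) (nat_lit 130) (nat_lit 223) (nat_lit 217))) (PT.nd (nat_lit 78) (PT.lf (nat_lit 7448) (nat_lit 6) (nat_lit 98) (nat_lit 4) (nat_lit 131) (nat_lit 223) (nat_lit 216)) (PT.lf (nat_lit 7752) (nat_lit 6) (nat_lit 102) (nat_lit 4) (nat_lit 132) (nat_lit 223)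 (nat_lit 215))))) (PT.nd (nat_lit 234) (PT.nd (nat_lit 78) (PT.lf (nat_lit 7752) (nat_lit 6) (nat_lit 102) (nat_lit 2) (nat_lit 215) (nat_lit 223) (nat_lit 132)) (PT.nd (nat_lit 78) (PT.lf (nat_lit 7448) (nat_lit 6) (nat_lit 98) (nat_lit 2) (nat_lit 216) (nat_lit 223) (nat_lit 131)) (PT.lf (nat_lit 7144) (nat_lit 6) (nat_lit 94) (nat_lit 2) (nat_lit 217) (nat_lit 223) (nat_lit 130)))) (PT.nd (nat_lit 156) (PT.nd (nat_lit 78) (PT.lf (nat_lit 6840) (nat_lit 6) (nat_lit 90) (nat_lit 2) (nat_lit 218) (nat_lit 223) (nat_lit 129)) (PT.lf (nat_lit 6536) (nat_lit 6) (nat_lit 86) (nat_lit 2) (nat_lit 219) (nat_lit 223) (nat_lit 128))) (PT.nd (nat_lit 78) (PT.lf (nat_lit 6308) (nat_lit 6) (nat_lit 83) (nat_lit 2) (nat_lit 220) (nat_lit 223) (nat_lit 127)) (PT.lf (nat_lit 6004) (nat_lit 6) (nat_lit 79) (nat_lit 2) (nat_lit 221) (nat_lit 223) (nat_lit 126)))))) (PT.nd (nat_lit 51168) (PT.nd (nat_lit 234) (PT.nd (nat_lit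 78) (PT.lf (nat_lit 5776) (nat_lit 6) (nat_lit 76) (nat_lit 2) (nat_lit 222) (nat_lit 223) (nat_lit 125)) (PT.nd (nat_lit 78) (PT.lf (nat_lit 5472) (nat_lit 3) (nat_lit 72) (nat_lit 0) (nat_lit 223) (nat_lit 223) (nat_lit 124)) (PT.lf (nat_lit 5168) (nat_lit 6) (nat_lit 68) (nat_lit 0) (nat_lit 224) (nat_lit 223) (nat_lit 123)))) (PT.nd (nat_lit 156) (PT.nd (nat_lit 78) (PT.lf (nat_lit 4864) (nat_lit 6) (nat_lit 64) (nat_lit 0) (nat_lit 225) (nat_lit 223) (nat_lit 122)) (PT.lf (nat_lit 4560) (nat_lit 6) (nat_lit 60) (nat_lit 0) (nat_lit 226) (nat_lit 223) (nat_lit 121))) (PT.nd (nat_lit 78) (PT.lf (nat_lit 4256) (nat_lit 6) (nat_lit 56) (nat_lit 0) (nat_lit 227) (nat_lit 223) (nat_lit 120)) (PT.lf (nat_lit 3952) (nat_lit 6) (nat_lit 52) (nat_lit 0) (nat_lit 228) (nat_lit 223) (nat_lit 119))))) (PT.nd (nat_lit 312) (PT.nd (nat_lit 156) (PT.nd (nat_lit 78) (PT.lf (nat_lit 3496) (nat_lit 6) (nat_lit 46) (nat_lit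 5) (nat_lit 117) (nat_lit 224) (nat_lit 229)) (PT.lf (nat_lit 3724) (nat_lit 6) (nat_lit 49) (nat_lit 5) (nat_lit 118) (nat_lit 224) (nat_lit 228))) (PT.nd (nat_lit 78) (PT.lf (nat_lit 4028) (nat_lit 6) (nat_lit 53) (nat_lit 5) (nat_lit 119) (nat_lit 224) (nat_lit 227)) (PT.lf (nat_lit 4332) (nat_lit 6) (nat_lit 57) (nat_lit 5) (nat_lit 120) (nat_lit 224) (nat_lit 226)))) (PT.nd (nat_lit 156) (PT.nd (nat_lit 78) (PT.lf (nat_lit 4636) (nat_lit 6) (nat_lit 61) (nat_lit 5) (nat_lit 121) (nat_lit 224) (nat_lit 225)) (PT.lf (nat_lit 4940) (nat_lit 3) (nat_lit 65) (nat_lit 4) (nat_lit 122) (nat_lit 224) (nat_lit 224))) (PT.nd (nat_lit 78) (PT.lf (nat_lit 5168) (nat_lit 6) (nat_lit 68) (nat_lit 4) (nat_lit 123) (nat_lit 224) (nat_lit 223)) (PT.lf (nat_lit 5396) (nat_lit 6) (nat_lit 71) (nat_lit 4) (nat_lit 124) (nat_lit 224) (nat_lit 222))))))) (PT.nd (nat_lit 7722) (PT.nd (nat_lit 7176) (PT.nd (nat_lit 234) (PT.nd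 (nat_lit 78) (PT.lf (nat_lit 5700) (nat_lit 6) (nat_lit 75) (nat_lit 4) (nat_lit 125) (nat_lit 224) (nat_lit 221)) (PT.nd (nat_lit 78) (PT.lf (nat_lit 5928) (nat_lit 6) (nat_lit 78) (nat_lit 4) (nat_lit 126) (nat_lit 224) (nat_lit 220)) (PT.lf (nat_lit 6232) (nat_lit 6) (nat_lit 82) (nat_lit 4) (nat_lit 127) (nat_lit 224) (nat_lit 219)))) (PT.nd (nat_lit 156) (PT.nd (nat_lit 78) (PT.lf (nat_lit 6460) (nat_lit 6) (nat_lit 85) (nat_lit 4) (nat_lit 128) (nat_lit 224) (nat_lit 218)) (PT.lf (nat_lit 6764) (nat_lit 6) (nat_lit 89) (nat_lit 4) (nat_lit 129) (nat_lit 224) (nat_lit 217))) (PT.nd (nat_lit 6708) (PT.lf (nat_lit 7068) (nat_lit 6) (nat_lit 93) (nat_lit 4) (nat_lit 130) (nat_lit 224) (nat_lit 216)) (PT.lf (nat_lit 7068) (nat_lit 6) (nat_lit 93) (nat_lit 2) (nat_lit 216) (nat_lit 224) (nat_lit 130))))) (PT.nd (nat_lit 234) (PT.nd (nat_lit 78) (PT.lf (nat_lit 6764) (nat_lit 6) (nat_lit 89) (nat_lit 2) (nat_lit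 217) (nat_lit 224) (nat_lit 129)) (PT.nd (nat_lit 78) (PT.lf (nat_lit 6460) (nat_lit 6) (nat_lit 85) (nat_lit 2) (nat_lit 218) (nat_lit 224) (nat_lit 128)) (PT.lf (nat_lit 6232) (nat_lit 6) (nat_lit 82) (nat_lit 2) (nat_lit 219) (nat_lit 224) (nat_lit 127)))) (PT.nd (nat_lit 156) (PT.nd (nat_lit 78) (PT.lf (nat_lit 5928) (nat_lit 6) (nat_lit 78) (nat_lit 2) (nat_lit 220) (nat_lit 224) (nat_lit 126)) (PT.lf (nat_lit 5700) (nat_lit 6) (nat_lit 75) (nat_lit 2) (nat_lit 221) (nat_lit 224) (nat_lit 125))) (PT.nd (nat_lit 78) (PT.lf (nat_lit 5396) (nat_lit 6) (nat_lit 71) (nat_lit 2) (nat_lit 222) (nat_lit 224) (nat_lit 124)) (PT.lf (nat_lit 5168) (nat_lit 6) (nat_lit 68) (nat_lit 2) (nat_lit 223) (nat_lit 224) (nat_lit 123)))))) (PT.nd (nat_lit 51012) (PT.nd (nat_lit 234) (PT.nd (nat_lit 78) (PT.lf (nat_lit 4940) (nat_lit 3) (nat_lit 65) (nat_lit 0) (nat_lit 224) (nat_lit 224) (nat_lit 122)) (PT.nd (nat_lit 78) (PT.lf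 (nat_lit 4636) (nat_lit 6) (nat_lit 61) (nat_lit 0) (nat_lit 225) (nat_lit 224) (nat_lit 121)) (PT.lf (nat_lit 4332) (nat_lit 6) (nat_lit 57) (nat_lit 0) (nat_lit 226) (nat_lit 224) (nat_lit 120)))) (PT.nd (nat_lit 156) (PT.nd (nat_lit 78) (PT.lf (nat_lit 4028) (nat_lit 6) (nat_lit 53) (nat_lit 0) (nat_lit 227) (nat_lit 224) (nat_lit 119)) (PT.lf (nat_lit 3724) (nat_lit 6) (nat_lit 49) (nat_lit 0) (nat_lit 228) (nat_lit 224) (nat_lit 118))) (PT.nd (nat_lit 50544) (PT.lf (nat_lit 3496) (nat_lit 6) (nat_lit 46) (nat_lit 0) (nat_lit 229) (nat_lit 224) (nat_lit 117)) (PT.lf (nat_lit 3268) (nat_lit 6) (nat_lit 43) (nat_lit 5) (nat_lit 116) (nat_lit 225) (nat_lit 229))))) (PT.nd (nat_lit 312) (PT.nd (nat_lit 156) (PT.nd (nat_lit 78) (PT.lf (nat_lit 3572) (nat_lit 6) (nat_lit 47) (nat_lit 5) (nat_lit 117) (nat_lit 225) (nat_lit 228)) (PT.lf (nat_lit 3800) (nat_lit 6) (nat_lit 50) (nat_lit 5) (nat_lit 118) (nat_lit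 225) (nat_lit 227))) (PT.nd (nat_lit 78) (PT.lf (nat_lit 4104) (nat_lit 6) (nat_lit 54) (nat_lit 5) (nat_lit 119) (nat_lit 225) (nat_lit 226)) (PT.lf (nat_lit 4408) (nat_lit 3) (nat_lit 58) (nat_lit 4) (nat_lit 120) (nat_lit 225) (nat_lit 225)))) (PT.nd (nat_lit 156) (PT.nd (nat_lit 78) (PT.lf (nat_lit 4636) (nat_lit 6) (nat_lit 61) (nat_lit 4) (nat_lit 121) (nat_lit 225) (nat_lit 224)) (PT.lf (nat_lit 4864) (nat_lit 6) (nat_lit 64) (nat_lit 4) (nat_lit 122) (nat_lit 225) (nat_lit 223))) (PT.nd (nat_lit 78) (PT.lf (nat_lit 5092) (nat_lit 6) (nat_lit 67) (nat_lit 4) (nat_lit 123) (nat_lit 225) (nat_lit 222)) (PT.lf (nat_lit 5320) (nat_lit 6) (nat_lit 70) (nat_lit 4) (nat_lit 124) (nat_lit 225) (nat_lit 221))))))))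
noncomputable def pc61 : PT := (PT.nd (nat_lit 67002) (PT.nd (nat_lit 8112) (PT.nd (nat_lit 7566) (PT.nd (nat_lit 7254) (PT.nd (nat_lit 78) (PT.lf (nat_lit 5624) (nat_lit 6) (nat_lit 74) (nat_lit 4) (nat_lit 125) (nat_lit 225) (nat_lit 220)) (PT.nd (nat_lit 78) (PT.lf (nat_lit 5852) (nat_lit 6) (nat_lit 77) (nat_lit 4) (nat_lit 126) (nat_lit 225) (nat_lit 219)) (PT.lf (nat_lit 6156) (nat_lit 6) (nat_lit 81) (nat_lit 4) (nat_lit 127) (nat_lit 225) (nat_lit 218)))) (PT.nd (nat_lit 156) (PT.nd (nat_lit 78) (PT.lf (nat_lit 6156) (nat_lit 6) (nat_lit 81) (nat_lit 2) (nat_lit 218) (nat_lit 225) (nat_lit 127)) (PT.lf (nat_lit 5852) (nat_lit 6) (nat_lit 77) (nat_lit 2) (nat_lit 219) (nat_lit 225) (nat_lit 126))) (PT.nd (nat_lit 78) (PT.lf (nat_lit 5624) (nat_lit 6) (nat_lit 74) (nat_lit 2) (nat_lit 220) (nat_lit 225) (nat_lit 125)) (PT.lf (nat_lit 5320) (nat_lit 6) (nat_lit 70) (nat_lit 2) (nat_lit 221) (nat_lit 225)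 (nat_lit 124))))) (PT.nd (nat_lit 234) (PT.nd (nat_lit 78) (PT.lf (nat_lit 5092) (nat_lit 6) (nat_lit 67) (nat_lit 2) (nat_lit 222) (nat_lit 225) (nat_lit 123)) (PT.nd (nat_lit 78) (PT.lf (nat_lit 4864) (nat_lit 6) (nat_lit 64) (nat_lit 2) (nat_lit 223) (nat_lit 225) (nat_lit 122)) (PT.lf (nat_lit 4636) (nat_lit 6) (nat_lit 61) (nat_lit 2) (nat_lit 224) (nat_lit 225) (nat_lit 121)))) (PT.nd (nat_lit 156) (PT.nd (nat_lit 78) (PT.lf (nat_lit 4408) (nat_lit 3) (nat_lit 58) (nat_lit 0) (nat_lit 225) (nat_lit 225) (nat_lit 120)) (PT.lf (nat_lit 4104) (nat_lit 6) (nat_lit 54) (nat_lit 0) (nat_lit 226) (nat_lit 225) (nat_lit 119))) (PT.nd (nat_lit 78) (PT.lf (nat_lit 3800) (nat_lit 6) (nat_lit 50) (nat_lit 0) (nat_lit 227) (nat_lit 225) (nat_lit 118)) (PT.lf (nat_lit 3572) (nat_lit 6) (nat_lit 47) (nat_lit 0) (nat_lit 228) (nat_lit 225) (nat_lit 117)))))) (PT.nd (nat_lit 50856) (PT.nd (nat_lit 50544) (PT.nd (nat_lit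 50388) (PT.lf (nat_lit 3268) (nat_lit 6) (nat_lit 43) (nat_lit 0) (nat_lit 229) (nat_lit 225) (nat_lit 116)) (PT.nd (nat_lit 78) (PT.lf (nat_lit 2812) (nat_lit 6) (nat_lit 37) (nat_lit 5) (nat_lit 114) (nat_lit 226) (nat_lit 230)) (PT.lf (nat_lit 3116) (nat_lit 6) (nat_lit 41) (nat_lit 5) (nat_lit 115) (nat_lit 226) (nat_lit 229)))) (PT.nd (nat_lit 156) (PT.nd (nat_lit 78) (PT.lf (nat_lit 3344) (nat_lit 6) (nat_lit 44) (nat_lit 5) (nat_lit 116) (nat_lit 226) (nat_lit 228)) (PT.lf (nat_lit 3648) (nat_lit 6) (nat_lit 48) (nat_lit 5) (nat_lit 117) (nat_lit 226) (nat_lit 227))) (PT.nd (nat_lit 78) (PT.lf (nat_lit 3876) (nat_lit 3) (nat_lit 51) (nat_lit 4) (nat_lit 118) (nat_lit 226) (nat_lit 226)) (PT.lf (nat_lit 4104) (nat_lit 6) (nat_lit 54) (nat_lit 4) (nat_lit 119) (nat_lit 226) (nat_lit 225))))) (PT.nd (nat_lit 312) (PT.nd (nat_lit 156) (PT.nd (nat_lit 78) (PT.lf (nat_lit 4332) (nat_lit 6) (nat_lit 57) (nat_lit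 4) (nat_lit 120) (nat_lit 226) (nat_lit 224)) (PT.lf (nat_lit 4560) (nat_lit 6) (nat_lit 60) (nat_lit 4) (nat_lit 121) (nat_lit 226) (nat_lit 223))) (PT.nd (nat_lit 78) (PT.lf (nat_lit 4788) (nat_lit 6) (nat_lit 63) (nat_lit 4) (nat_lit 122) (nat_lit 226) (nat_lit 222)) (PT.lf (nat_lit 5016) (nat_lit 6) (nat_lit 66) (nat_lit 4) (nat_lit 123) (nat_lit 226) (nat_lit 221)))) (PT.nd (nat_lit 7566) (PT.nd (nat_lit 7488) (PT.lf (nat_lit 5244) (nat_lit 6) (nat_lit 69) (nat_lit 4) (nat_lit 124) (nat_lit 226) (nat_lit 220)) (PT.lf (nat_lit 5244) (nat_lit 6) (nat_lit 69) (nat_lit 2) (nat_lit 220) (nat_lit 226) (nat_lit 124))) (PT.nd (nat_lit 78) (PT.lf (nat_lit 5016) (nat_lit 6) (nat_lit 66) (nat_lit 2) (nat_lit 221) (nat_lit 226) (nat_lit 123)) (PT.lf (nat_lit 4788) (nat_lit 6) (nat_lit 63) (nat_lit 2) (nat_lit 222) (nat_lit 226) (nat_lit 122))))))) (PT.nd (nat_lit 51246) (PT.nd (nat_lit 546) (PT.nd (nat_lit 234) (PT.nd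 (nat_lit 78) (PT.lf (nat_lit 4560) (nat_lit 6) (nat_lit 60) (nat_lit 2) (nat_lit 223) (nat_lit 226) (nat_lit 121)) (PT.nd (nat_lit 78) (PT.lf (nat_lit 4332) (nat_lit 6) (nat_lit 57) (nat_lit 2) (nat_lit 224) (nat_lit 226) (nat_lit 120)) (PT.lf (nat_lit 4104) (nat_lit 6) (nat_lit 54) (nat_lit 2) (nat_lit 225) (nat_lit 226) (nat_lit 119)))) (PT.nd (nat_lit 156) (PT.nd (nat_lit 78) (PT.lf (nat_lit 3876) (nat_lit 3) (nat_lit 51) (nat_lit 0) (nat_lit 226) (nat_lit 226) (nat_lit 118)) (PT.lf (nat_lit 3648) (nat_lit 6) (nat_lit 48) (nat_lit 0) (nat_lit 227) (nat_lit 226) (nat_lit 117))) (PT.nd (nat_lit 78) (PT.lf (nat_lit 3344) (nat_lit 6) (nat_lit 44) (nat_lit 0) (nat_lit 228) (nat_lit 226) (nat_lit 116)) (PT.lf (nat_lit 3116) (nat_lit 6) (nat_lit 41) (nat_lit 0) (nat_lit 229) (nat_lit 226) (nat_lit 115))))) (PT.nd (nat_lit 50388) (PT.nd (nat_lit 50232) (PT.nd (nat_lit 50154) (PT.lf (nat_lit 2812) (nat_lit 6) (nat_lit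 37) (nat_lit 0) (nat_lit 230) (nat_lit 226) (nat_lit 114)) (PT.lf (nat_lit 2432) (nat_lit 6) (nat_lit 32) (nat_lit 5) (nat_lit 112) (nat_lit 227) (nat_lit 231))) (PT.nd (nat_lit 78) (PT.lf (nat_lit 2660) (nat_lit 6) (nat_lit 35) (nat_lit 5) (nat_lit 113) (nat_lit 227) (nat_lit 230)) (PT.lf (nat_lit 2888) (nat_lit 6) (nat_lit 38) (nat_lit 5) (nat_lit 114) (nat_lit 227) (nat_lit 229)))) (PT.nd (nat_lit 156) (PT.nd (nat_lit 78) (PT.lf (nat_lit 3192) (nat_lit 6) (nat_lit 42) (nat_lit 5) (nat_lit 115) (nat_lit 227) (nat_lit 228)) (PT.lf (nat_lit 3420) (nat_lit 3) (nat_lit 45) (nat_lit 4) (nat_lit 116) (nat_lit 227) (nat_lit 227))) (PT.nd (nat_lit 78) (PT.lf (nat_lit 3648) (nat_lit 6) (nat_lit 48) (nat_lit 4) (nat_lit 117) (nat_lit 227) (nat_lit 226)) (PT.lf (nat_lit 3800) (nat_lit 6) (nat_lit 50) (nat_lit 4) (nat_lit 118) (nat_lit 227) (nat_lit 225)))))) (PT.nd (nat_lit 8190) (PT.nd (nat_lit 234) (PT.nd (nat_lit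 78) (PT.lf (nat_lit 4028) (nat_lit 6) (nat_lit 53) (nat_lit 4) (nat_lit 119) (nat_lit 227) (nat_lit 224)) (PT.nd (nat_lit 78) (PT.lf (nat_lit 4256) (nat_lit 6) (nat_lit 56) (nat_lit 4) (nat_lit 120) (nat_lit 227) (nat_lit 223)) (PT.lf (nat_lit 4484) (nat_lit 6) (nat_lit 59) (nat_lit 4) (nat_lit 121) (nat_lit 227) (nat_lit 222)))) (PT.nd (nat_lit 7800) (PT.nd (nat_lit 7722) (PT.lf (nat_lit 4712) (nat_lit 6) (nat_lit 62) (nat_lit 4) (nat_lit 122) (nat_lit 227) (nat_lit 221)) (PT.lf (nat_lit 4712) (nat_lit 6) (nat_lit 62) (nat_lit 2) (nat_lit 221) (nat_lit 227) (nat_lit 122))) (PT.nd (nat_lit 78) (PT.lf (nat_lit 4484) (nat_lit 6) (nat_lit 59) (nat_lit 2) (nat_lit 222) (nat_lit 227) (nat_lit 121)) (PT.lf (nat_lit 4256) (nat_lit 6) (nat_lit 56) (nat_lit 2) (nat_lit 223) (nat_lit 227) (nat_lit 120))))) (PT.nd (nat_lit 312) (PT.nd (nat_lit 156) (PT.nd (nat_lit 78) (PT.lf (nat_lit 4028) (nat_lit 6) (nat_lit 53) (nat_lit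 2) (nat_lit 224) (nat_lit 227) (nat_lit 119)) (PT.lf (nat_lit 3800) (nat_lit 6) (nat_lit 50) (nat_lit 2) (nat_lit 225) (nat_lit 227) (nat_lit 118))) (PT.nd (nat_lit 78) (PT.lf (nat_lit 3648) (nat_lit 6) (nat_lit 48) (nat_lit 2) (nat_lit 226) (nat_lit 227) (nat_lit 117)) (PT.lf (nat_lit 3420) (nat_lit 3) (nat_lit 45) (nat_lit 0) (nat_lit 227) (nat_lit 227) (nat_lit 116)))) (PT.nd (nat_lit 156) (PT.nd (nat_lit 78) (PT.lf (nat_lit 3192) (nat_lit 6) (nat_lit 42) (nat_lit 0) (nat_lit 228) (nat_lit 227) (nat_lit 115)) (PT.lf (nat_lit 2888) (nat_lit 6) (nat_lit 38) (nat_lit 0) (nat_lit 229) (nat_lit 227) (nat_lit 114))) (PT.nd (nat_lit 78) (PT.lf (nat_lit 2660) (nat_lit 6) (nat_lit 35) (nat_lit 0) (nat_lit 230) (nat_lit 227) (nat_lit 113)) (PT.lf (nat_lit 2432) (nat_lit 6) (nat_lit 32) (nat_lit 0) (nat_lit 231) (nat_lit 227) (nat_lit 112))))))))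
noncomputable def pc62 : PT := (PT.nd (nat_lit 68250) (PT.nd (nat_lit 9126) (PT.nd (nat_lit 546) (PT.nd (nat_lit 234) (PT.nd (nat_lit 78) (PT.lf (nat_lit 2052) (nat_lit 6) (nat_lit 27) (nat_lit 5) (nat_lit 110) (nat_lit 228) (nat_lit 232)) (PT.nd (nat_lit 78) (PT.lf (nat_lit 2280) (nat_lit 6) (nat_lit 30) (nat_lit 5) (nat_lit 111) (nat_lit 228) (nat_lit 231)) (PT.lf (nat_lit 2508) (nat_lit 6) (nat_lit 33) (nat_lit 5) (nat_lit 112) (nat_lit 228) (nat_lit 230)))) (PT.nd (nat_lit 156) (PT.nd (nat_lit 78) (PT.lf (nat_lit 2736) (nat_lit 6) (nat_lit 36) (nat_lit 5) (nat_lit 113) (nat_lit 228) (nat_lit 229)) (PT.lf (nat_lit 2964) (nat_lit 3) (nat_lit 39) (nat_lit 4) (nat_lit 114) (nat_lit 228) (nat_lit 228))) (PT.nd (nat_lit 78) (PT.lf (nat_lit 3192) (nat_lit 6) (nat_lit 42) (nat_lit 4) (nat_lit 115) (nat_lit 228) (nat_lit 227)) (PT.lf (nat_lit 3344) (nat_lit 6) (nat_lit 44) (nat_lit 4) (nat_lit 116) (nat_lit 228)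 (nat_lit 226))))) (PT.nd (nat_lit 8268) (PT.nd (nat_lit 78) (PT.lf (nat_lit 3572) (nat_lit 6) (nat_lit 47) (nat_lit 4) (nat_lit 117) (nat_lit 228) (nat_lit 225)) (PT.nd (nat_lit 78) (PT.lf (nat_lit 3724) (nat_lit 6) (nat_lit 49) (nat_lit 4) (nat_lit 118) (nat_lit 228) (nat_lit 224)) (PT.lf (nat_lit 3952) (nat_lit 6) (nat_lit 52) (nat_lit 4) (nat_lit 119) (nat_lit 228) (nat_lit 223)))) (PT.nd (nat_lit 156) (PT.nd (nat_lit 78) (PT.lf (nat_lit 3952) (nat_lit 6) (nat_lit 52) (nat_lit 2) (nat_lit 223) (nat_lit 228) (nat_lit 119)) (PT.lf (nat_lit 3724) (nat_lit 6) (nat_lit 49) (nat_lit 2) (nat_lit 224) (nat_lit 228) (nat_lit 118))) (PT.nd (nat_lit 78) (PT.lf (nat_lit 3572) (nat_lit 6) (nat_lit 47) (nat_lit 2) (nat_lit 225) (nat_lit 228) (nat_lit 117)) (PT.lf (nat_lit 3344) (nat_lit 6) (nat_lit 44) (nat_lit 2) (nat_lit 226) (nat_lit 228) (nat_lit 116)))))) (PT.nd (nat_lit 50232) (PT.nd (nat_lit 234) (PT.nd (nat_lit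 78) (PT.lf (nat_lit 3192) (nat_lit 6) (nat_lit 42) (nat_lit 2) (nat_lit 227) (nat_lit 228) (nat_lit 115)) (PT.nd (nat_lit 78) (PT.lf (nat_lit 2964) (nat_lit 3) (nat_lit 39) (nat_lit 0) (nat_lit 228) (nat_lit 228) (nat_lit 114)) (PT.lf (nat_lit 2736) (nat_lit 6) (nat_lit 36) (nat_lit 0) (nat_lit 229) (nat_lit 228) (nat_lit 113)))) (PT.nd (nat_lit 156) (PT.nd (nat_lit 78) (PT.lf (nat_lit 2508) (nat_lit 6) (nat_lit 33) (nat_lit 0) (nat_lit 230) (nat_lit 228) (nat_lit 112)) (PT.lf (nat_lit 2280) (nat_lit 6) (nat_lit 30) (nat_lit 0) (nat_lit 231) (nat_lit 228) (nat_lit 111))) (PT.nd (nat_lit 49764) (PT.lf (nat_lit 2052) (nat_lit 6) (nat_lit 27) (nat_lit 0) (nat_lit 232) (nat_lit 228) (nat_lit 110)) (PT.lf (nat_lit 1900) (nat_lit 6) (nat_lit 25) (nat_lit 5) (nat_lit 109) (nat_lit 229) (nat_lit 232))))) (PT.nd (nat_lit 312) (PT.nd (nat_lit 156) (PT.nd (nat_lit 78) (PT.lf (nat_lit 2128) (nat_lit 6) (nat_lit 28) (nat_lit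 5) (nat_lit 110) (nat_lit 229) (nat_lit 231)) (PT.lf (nat_lit 2356) (nat_lit 6) (nat_lit 31) (nat_lit 5) (nat_lit 111) (nat_lit 229) (nat_lit 230))) (PT.nd (nat_lit 78) (PT.lf (nat_lit 2584) (nat_lit 3) (nat_lit 34) (nat_lit 4) (nat_lit 112) (nat_lit 229) (nat_lit 229)) (PT.lf (nat_lit 2736) (nat_lit 6) (nat_lit 36) (nat_lit 4) (nat_lit 113) (nat_lit 229) (nat_lit 228)))) (PT.nd (nat_lit 156) (PT.nd (nat_lit 78) (PT.lf (nat_lit 2888) (nat_lit 6) (nat_lit 38) (nat_lit 4) (nat_lit 114) (nat_lit 229) (nat_lit 227)) (PT.lf (nat_lit 3116) (nat_lit 6) (nat_lit 41) (nat_lit 4) (nat_lit 115) (nat_lit 229) (nat_lit 226))) (PT.nd (nat_lit 78) (PT.lf (nat_lit 3268) (nat_lit 6) (nat_lit 43) (nat_lit 4) (nat_lit 116) (nat_lit 229) (nat_lit 225)) (PT.lf (nat_lit 3496) (nat_lit 6) (nat_lit 46) (nat_lit 4) (nat_lit 117) (nat_lit 229) (nat_lit 224))))))) (PT.nd (nat_lit 50700) (PT.nd (nat_lit 546) (PT.nd (nat_lit 234) (PT.nd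 (nat_lit 78) (PT.lf (nat_lit 3496) (nat_lit 6) (nat_lit 46) (nat_lit 2) (nat_lit 224) (nat_lit 229) (nat_lit 117)) (PT.nd (nat_lit 78) (PT.lf (nat_lit 3268) (nat_lit 6) (nat_lit 43) (nat_lit 2) (nat_lit 225) (nat_lit 229) (nat_lit 116)) (PT.lf (nat_lit 3116) (nat_lit 6) (nat_lit 41) (nat_lit 2) (nat_lit 226) (nat_lit 229) (nat_lit 115)))) (PT.nd (nat_lit 156) (PT.nd (nat_lit 78) (PT.lf (nat_lit 2888) (nat_lit 6) (nat_lit 38) (nat_lit 2) (nat_lit 227) (nat_lit 229) (nat_lit 114)) (PT.lf (nat_lit 2736) (nat_lit 6) (nat_lit 36) (nat_lit 2) (nat_lit 228) (nat_lit 229) (nat_lit 113))) (PT.nd (nat_lit 78) (PT.lf (nat_lit 2584) (nat_lit 3) (nat_lit 34) (nat_lit 0) (nat_lit 229) (nat_lit 229) (nat_lit 112)) (PT.lf (nat_lit 2356) (nat_lit 6) (nat_lit 31) (nat_lit 0) (nat_lit 230) (nat_lit 229) (nat_lit 111))))) (PT.nd (nat_lit 49842) (PT.nd (nat_lit 49686) (PT.nd (nat_lit 78) (PT.lf (nat_lit 2128) (nat_lit 6) (nat_lit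 28) (nat_lit 0) (nat_lit 231) (nat_lit 229) (nat_lit 110)) (PT.lf (nat_lit 1900) (nat_lit 6) (nat_lit 25) (nat_lit 0) (nat_lit 232) (nat_lit 229) (nat_lit 109))) (PT.nd (nat_lit 78) (PT.lf (nat_lit 1520) (nat_lit 6) (nat_lit 20) (nat_lit 5) (nat_lit 107) (nat_lit 230) (nat_lit 233)) (PT.lf (nat_lit 1748) (nat_lit 6) (nat_lit 23) (nat_lit 5) (nat_lit 108) (nat_lit 230) (nat_lit 232)))) (PT.nd (nat_lit 156) (PT.nd (nat_lit 78) (PT.lf (nat_lit 1976) (nat_lit 6) (nat_lit 26) (nat_lit 5) (nat_lit 109) (nat_lit 230) (nat_lit 231)) (PT.lf (nat_lit 2204) (nat_lit 3) (nat_lit 29) (nat_lit 4) (nat_lit 110) (nat_lit 230) (nat_lit 230))) (PT.nd (nat_lit 78) (PT.lf (nat_lit 2356) (nat_lit 6) (nat_lit 31) (nat_lit 4) (nat_lit 111) (nat_lit 230) (nat_lit 229)) (PT.lf (nat_lit 2508) (nat_lit 6) (nat_lit 33) (nat_lit 4) (nat_lit 112) (nat_lit 230) (nat_lit 228)))))) (PT.nd (nat_lit 9204) (PT.nd (nat_lit 8892) (PT.nd (nat_lit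 78) (PT.lf (nat_lit 2660) (nat_lit 6) (nat_lit 35) (nat_lit 4) (nat_lit 113) (nat_lit 230) (nat_lit 227)) (PT.nd (nat_lit 8736) (PT.lf (nat_lit 2812) (nat_lit 6) (nat_lit 37) (nat_lit 4) (nat_lit 114) (nat_lit 230) (nat_lit 226)) (PT.lf (nat_lit 2812) (nat_lit 6) (nat_lit 37) (nat_lit 2) (nat_lit 226) (nat_lit 230) (nat_lit 114)))) (PT.nd (nat_lit 156) (PT.nd (nat_lit 78) (PT.lf (nat_lit 2660) (nat_lit 6) (nat_lit 35) (nat_lit 2) (nat_lit 227) (nat_lit 230) (nat_lit 113)) (PT.lf (nat_lit 2508) (nat_lit 6) (nat_lit 33) (nat_lit 2) (nat_lit 228) (nat_lit 230) (nat_lit 112))) (PT.nd (nat_lit 78) (PT.lf (nat_lit 2356) (nat_lit 6) (nat_lit 31) (nat_lit 2) (nat_lit 229) (nat_lit 230) (nat_lit 111)) (PT.lf (nat_lit 2204) (nat_lit 3) (nat_lit 29) (nat_lit 0) (nat_lit 230) (nat_lit 230) (nat_lit 110))))) (PT.nd (nat_lit 49608) (PT.nd (nat_lit 156) (PT.nd (nat_lit 78) (PT.lf (nat_lit 1976) (nat_lit 6) (nat_lit 26) (nat_lit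 0) (nat_lit 231) (nat_lit 230) (nat_lit 109)) (PT.lf (nat_lit 1748) (nat_lit 6) (nat_lit 23) (nat_lit 0) (nat_lit 232) (nat_lit 230) (nat_lit 108))) (PT.nd (nat_lit 49374) (PT.lf (nat_lit 1520) (nat_lit 6) (nat_lit 20) (nat_lit 0) (nat_lit 233) (nat_lit 230) (nat_lit 107)) (PT.lf (nat_lit 1216) (nat_lit 6) (nat_lit 16) (nat_lit 5) (nat_lit 105) (nat_lit 231) (nat_lit 234)))) (PT.nd (nat_lit 156) (PT.nd (nat_lit 78) (PT.lf (nat_lit 1368) (nat_lit 6) (nat_lit 18) (nat_lit 5) (nat_lit 106) (nat_lit 231) (nat_lit 233)) (PT.lf (nat_lit 1596) (nat_lit 6) (nat_lit 21) (nat_lit 5) (nat_lit 107) (nat_lit 231) (nat_lit 232))) (PT.nd (nat_lit 78) (PT.lf (nat_lit 1824) (nat_lit 3) (nat_lit 24) (nat_lit 4) (nat_lit 108) (nat_lit 231) (nat_lit 231)) (PT.lf (nat_lit 1976) (nat_lit 6) (nat_lit 26) (nat_lit 4) (nat_lit 109) (nat_lit 231) (nat_lit 230))))))))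
noncomputable def pc63 : PT := (PT.nd (nat_lit 118404) (PT.nd (nat_lit 59124) (PT.nd (nat_lit 9438) (PT.nd (nat_lit 9126) (PT.nd (nat_lit 78) (PT.lf (nat_lit 2128) (nat_lit 6) (nat_lit 28) (nat_lit 4) (nat_lit 110) (nat_lit 231) (nat_lit 229)) (PT.nd (nat_lit 78) (PT.lf (nat_lit 2280) (nat_lit 6) (nat_lit 30) (nat_lit 4) (nat_lit 111) (nat_lit 231) (nat_lit 228)) (PT.lf (nat_lit 2432) (nat_lit 6) (nat_lit 32) (nat_lit 4) (nat_lit 112) (nat_lit 231) (nat_lit 227)))) (PT.nd (nat_lit 156) (PT.nd (nat_lit 78) (PT.lf (nat_lit 2432) (nat_lit 6) (nat_lit 32) (nat_lit 2) (nat_lit 227) (nat_lit 231) (nat_lit 112)) (PT.lf (nat_lit 2280) (nat_lit 6) (nat_lit 30) (nat_lit 2) (nat_lit 228) (nat_lit 231) (nat_lit 111))) (PT.nd (nat_lit 78) (PT.lf (nat_lit 2128) (nat_lit 6) (nat_lit 28) (nat_lit 2) (nat_lit 229) (nat_lit 231) (nat_lit 110)) (PT.lf (nat_lit 1976) (nat_lit 6) (nat_lit 26) (nat_lit 2) (nat_lit 230) (nat_lit 231)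 (nat_lit 109))))) (PT.nd (nat_lit 234) (PT.nd (nat_lit 78) (PT.lf (nat_lit 1824) (nat_lit 3) (nat_lit 24) (nat_lit 0) (nat_lit 231) (nat_lit 231) (nat_lit 108)) (PT.nd (nat_lit 78) (PT.lf (nat_lit 1596) (nat_lit 6) (nat_lit 21) (nat_lit 0) (nat_lit 232) (nat_lit 231) (nat_lit 107)) (PT.lf (nat_lit 1368) (nat_lit 6) (nat_lit 18) (nat_lit 0) (nat_lit 233) (nat_lit 231) (nat_lit 106)))) (PT.nd (nat_lit 49296) (PT.nd (nat_lit 49218) (PT.lf (nat_lit 1216) (nat_lit 6) (nat_lit 16) (nat_lit 0) (nat_lit 234) (nat_lit 231) (nat_lit 105)) (PT.lf (nat_lit 1064) (nat_lit 6) (nat_lit 14) (nat_lit 5) (nat_lit 104) (nat_lit 232) (nat_lit 234))) (PT.nd (nat_lit 78) (PT.lf (nat_lit 1292) (nat_lit 6) (nat_lit 17) (nat_lit 5) (nat_lit 105) (nat_lit 232) (nat_lit 233)) (PT.lf (nat_lit 1444) (nat_lit 3) (nat_lit 19) (nat_lit 4) (nat_lit 106) (nat_lit 232) (nat_lit 232)))))) (PT.nd (nat_lit 9672) (PT.nd (nat_lit 234) (PT.nd (nat_lit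 78) (PT.lf (nat_lit 1596) (nat_lit 6) (nat_lit 21) (nat_lit 4) (nat_lit 107) (nat_lit 232) (nat_lit 231)) (PT.nd (nat_lit 78) (PT.lf (nat_lit 1748) (nat_lit 6) (nat_lit 23) (nat_lit 4) (nat_lit 108) (nat_lit 232) (nat_lit 230)) (PT.lf (nat_lit 1900) (nat_lit 6) (nat_lit 25) (nat_lit 4) (nat_lit 109) (nat_lit 232) (nat_lit 229)))) (PT.nd (nat_lit 9282) (PT.nd (nat_lit 9204) (PT.lf (nat_lit 2052) (nat_lit 6) (nat_lit 27) (nat_lit 4) (nat_lit 110) (nat_lit 232) (nat_lit 228)) (PT.lf (nat_lit 2052) (nat_lit 6) (nat_lit 27) (nat_lit 2) (nat_lit 228) (nat_lit 232) (nat_lit 110))) (PT.nd (nat_lit 78) (PT.lf (nat_lit 1900) (nat_lit 6) (nat_lit 25) (nat_lit 2) (nat_lit 229) (nat_lit 232) (nat_lit 109)) (PT.lf (nat_lit 1748) (nat_lit 6) (nat_lit 23) (nat_lit 2) (nat_lit 230) (nat_lit 232) (nat_lit 108))))) (PT.nd (nat_lit 49296) (PT.nd (nat_lit 156) (PT.nd (nat_lit 78) (PT.lf (nat_lit 1596) (nat_lit 6) (nat_lit 21) (nat_lit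 2) (nat_lit 231) (nat_lit 232) (nat_lit 107)) (PT.lf (nat_lit 1444) (nat_lit 3) (nat_lit 19) (nat_lit 0) (nat_lit 232) (nat_lit 232) (nat_lit 106))) (PT.nd (nat_lit 78) (PT.lf (nat_lit 1292) (nat_lit 6) (nat_lit 17) (nat_lit 0) (nat_lit 233) (nat_lit 232) (nat_lit 105)) (PT.lf (nat_lit 1064) (nat_lit 6) (nat_lit 14) (nat_lit 0) (nat_lit 234) (nat_lit 232) (nat_lit 104)))) (PT.nd (nat_lit 156) (PT.nd (nat_lit 78) (PT.lf (nat_lit 760) (nat_lit 6) (nat_lit 10) (nat_lit 5) (nat_lit 102) (nat_lit 233) (nat_lit 235)) (PT.lf (nat_lit 988) (nat_lit 6) (nat_lit 13) (nat_lit 5) (nat_lit 103) (nat_lit 233) (nat_lit 234))) (PT.nd (nat_lit 78) (PT.lf (nat_lit 1140) (nat_lit 3) (nat_lit 15) (nat_lit 4) (nat_lit 104) (nat_lit 233) (nat_lit 233)) (PT.lf (nat_lit 1292) (nat_lit 6) (nat_lit 17) (nat_lit 4) (nat_lit 105) (nat_lit 233) (nat_lit 232))))))) (PT.nd (nat_lit 69264) (PT.nd (nat_lit 10062) (PT.nd (nat_lit 9750) (PT.nd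 (nat_lit 78) (PT.lf (nat_lit 1368) (nat_lit 6) (nat_lit 18) (nat_lit 4) (nat_lit 106) (nat_lit 233) (nat_lit 231)) (PT.nd (nat_lit 9594) (PT.lf (nat_lit 1520) (nat_lit 6) (nat_lit 20) (nat_lit 4) (nat_lit 107) (nat_lit 233) (nat_lit 230)) (PT.lf (nat_lit 1520) (nat_lit 6) (nat_lit 20) (nat_lit 2) (nat_lit 230) (nat_lit 233) (nat_lit 107)))) (PT.nd (nat_lit 156) (PT.nd (nat_lit 78) (PT.lf (nat_lit 1368) (nat_lit 6) (nat_lit 18) (nat_lit 2) (nat_lit 231) (nat_lit 233) (nat_lit 106)) (PT.lf (nat_lit 1292) (nat_lit 6) (nat_lit 17) (nat_lit 2) (nat_lit 232) (nat_lit 233) (nat_lit 105))) (PT.nd (nat_lit 78) (PT.lf (nat_lit 1140) (nat_lit 3) (nat_lit 15) (nat_lit 0) (nat_lit 233) (nat_lit 233) (nat_lit 104)) (PT.lf (nat_lit 988) (nat_lit 6) (nat_lit 13) (nat_lit 0) (nat_lit 234) (nat_lit 233) (nat_lit 103))))) (PT.nd (nat_lit 49140) (PT.nd (nat_lit 48984) (PT.nd (nat_lit 48906) (PT.lf (nat_lit 760) (nat_lit 6) (nat_lit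 10) (nat_lit 0) (nat_lit 235) (nat_lit 233) (nat_lit 102)) (PT.lf (nat_lit 684) (nat_lit 6) (nat_lit 9) (nat_lit 5) (nat_lit 101) (nat_lit 234) (nat_lit 235))) (PT.nd (nat_lit 78) (PT.lf (nat_lit 836) (nat_lit 3) (nat_lit 11) (nat_lit 4) (nat_lit 102) (nat_lit 234) (nat_lit 234)) (PT.lf (nat_lit 988) (nat_lit 6) (nat_lit 13) (nat_lit 4) (nat_lit 103) (nat_lit 234) (nat_lit 233)))) (PT.nd (nat_lit 9906) (PT.nd (nat_lit 78) (PT.lf (nat_lit 1064) (nat_lit 6) (nat_lit 14) (nat_lit 4) (nat_lit 104) (nat_lit 234) (nat_lit 232)) (PT.lf (nat_lit 1216) (nat_lit 6) (nat_lit 16) (nat_lit 4) (nat_lit 105) (nat_lit 234) (nat_lit 231))) (PT.nd (nat_lit 78) (PT.lf (nat_lit 1216) (nat_lit 6) (nat_lit 16) (nat_lit 2) (nat_lit 231) (nat_lit 234) (nat_lit 105)) (PT.lf (nat_lit 1064) (nat_lit 6) (nat_lit 14) (nat_lit 2) (nat_lit 232) (nat_lit 234) (nat_lit 104)))))) (PT.nd (nat_lit 59436) (PT.nd (nat_lit 48984) (PT.nd (nat_lit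 78) (PT.lf (nat_lit 988) (nat_lit 6) (nat_lit 13) (nat_lit 2) (nat_lit 233) (nat_lit 234) (nat_lit 103)) (PT.nd (nat_lit 78) (PT.lf (nat_lit 836) (nat_lit 3) (nat_lit 11) (nat_lit 0) (nat_lit 234) (nat_lit 234) (nat_lit 102)) (PT.lf (nat_lit 684) (nat_lit 6) (nat_lit 9) (nat_lit 0) (nat_lit 235) (nat_lit 234) (nat_lit 101)))) (PT.nd (nat_lit 156) (PT.nd (nat_lit 78) (PT.lf (nat_lit 608) (nat_lit 3) (nat_lit 8) (nat_lit 4) (nat_lit 100) (nat_lit 235) (nat_lit 235)) (PT.lf (nat_lit 684) (nat_lit 6) (nat_lit 9) (nat_lit 4) (nat_lit 101) (nat_lit 235) (nat_lit 234))) (PT.nd (nat_lit 10218) (PT.lf (nat_lit 760) (nat_lit 6) (nat_lit 10) (nat_lit 4) (nat_lit 102) (nat_lit 235) (nat_lit 233)) (PT.lf (nat_lit 760) (nat_lit 6) (nat_lit 10) (nat_lit 2) (nat_lit 233) (nat_lit 235) (nat_lit 102))))) (PT.nd (nat_lit 772746) (PT.nd (nat_lit 759096) (PT.nd (nat_lit 78) (PT.lf (nat_lit 684) (nat_lit 6) (nat_lit 9) (nat_lit 2)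 (nat_lit 234) (nat_lit 235) (nat_lit 101)) (PT.lf (nat_lit 608) (nat_lit 3) (nat_lit 8) (nat_lit 0) (nat_lit 235) (nat_lit 235) (nat_lit 100))) (PT.nd (nat_lit 78) (PT.lf (nat_lit 76) (nat_lit 6) (nat_lit 1) (nat_lit 5) (nat_lit 73) (nat_lit 248) (nat_lit 249)) (PT.lf (nat_lit 152) (nat_lit 3) (nat_lit 2) (nat_lit 4) (nat_lit 74) (nat_lit 248) (nat_lit 248)))) (PT.nd (nat_lit 45708) (PT.nd (nat_lit 78) (PT.lf (nat_lit 152) (nat_lit 3) (nat_lit 2) (nat_lit 0) (nat_lit 248) (nat_lit 248) (nat_lit 74)) (PT.lf (nat_lit 76) (nat_lit 6) (nat_lit 1) (nat_lit 0) (nat_lit 249) (nat_lit 248) (nat_lit 73))) (PT.nd (nat_lit 13650) (PT.lf (nat_lit 76) (nat_lit 6) (nat_lit 1) (nat_lit 4) (nat_lit 73) (nat_lit 249) (nat_lit 248)) (PT.lf (nat_lit 76) (nat_lit 6) (nat_lit 1) (nat_lit 2) (nat_lit 248) (nat_lit 249) (nat_lit 73))))))))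
noncomputable def xc0 : XT := (XT.nd (nat_lit 177996) (nat_lit 0) (nat_lit 0) (XT.nd (nat_lit 118560) (nat_lit 0) (nat_lit 0) (XT.nd (nat_lit 59358) (nat_lit 0) (nat_lit 0) (XT.nd (nat_lit 59124) (nat_lit 0) (nat_lit 152) (XT.nd (nat_lit 78) (nat_lit 152) (nat_lit 0) (XT.lf (nat_lit 0) (nat_lit 6527187254) (nat_lit 152) (nat_lit 4317888691) (nat_lit 0) (nat_lit 6158298303) (nat_lit 13) (nat_lit 5) (nat_lit 15) (nat_lit 4) (nat_lit 13) (nat_lit 4) (nat_lit 507) (nat_lit 317) (nat_lit 316)) (XT.lf (nat_lit 0) (nat_lit 5309151362) (nat_lit 152) (nat_lit 6328491883) (nat_lit 152) (nat_lit 5597947099) (nat_lit 11) (nat_lit 4) (nat_lit 13) (nat_lit 5) (nat_lit 13) (nat_lit 4) (nat_lit 508) (nat_lit 317) (nat_lit 315))) (XT.nd (nat_lit 78) (nat_lit 152) (nat_lit 0) (XT.lf (nat_lit 0) (nat_lit 108614591) (nat_lit 152) (nat_lit 4029460122) (nat_lit 152) (nat_lit 4029460122) (nat_lit 15) (nat_lit 4) (nat_lit 17) (nat_lit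 5) (nat_lit 17) (nat_lit 4) (nat_lit 504) (nat_lit 318) (nat_lit 318)) (XT.nd (nat_lit 78) (nat_lit 152) (nat_lit 0) (XT.lf (nat_lit 0) (nat_lit 9904300354) (nat_lit 152) (nat_lit 3516541410) (nat_lit 152) (nat_lit 3132749346) (nat_lit 15) (nat_lit 4) (nat_lit 17) (nat_lit 5) (nat_lit 17) (nat_lit 4) (nat_lit 505) (nat_lit 318) (nat_lit 317)) (XT.lf (nat_lit 0) (nat_lit 1822650425) (nat_lit 152) (nat_lit 13876991560) (nat_lit 0) (nat_lit 1077494745) (nat_lit 13) (nat_lit 5) (nat_lit 15) (nat_lit 4) (nat_lit 13) (nat_lit 4) (nat_lit 506) (nat_lit 318) (nat_lit 316))))) (XT.nd (nat_lit 58968) (nat_lit 0) (nat_lit 304) (XT.nd (nat_lit 78) (nat_lit 152) (nat_lit 0) (XT.lf (nat_lit 0) (nat_lit 6833202702) (nat_lit 152) (nat_lit 4445194991) (nat_lit 0) (nat_lit 5726391188) (nat_lit 13) (nat_lit 5) (nat_lit 15) (nat_lit 4) (nat_lit 13) (nat_lit 4) (nat_lit 507) (nat_lit 318) (nat_lit 315)) (XT.lf (nat_lit 0) (nat_lit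 5117544931) (nat_lit 152) (nat_lit 6790773783) (nat_lit 152) (nat_lit 5329397726) (nat_lit 11) (nat_lit 4) (nat_lit 13) (nat_lit 5) (nat_lit 13) (nat_lit 4) (nat_lit 508) (nat_lit 318) (nat_lit 314))) (XT.nd (nat_lit 78) (nat_lit 304) (nat_lit 0) (XT.lf (nat_lit 0) (nat_lit 6592308363) (nat_lit 152) (nat_lit 681628322) (nat_lit 152) (nat_lit 681628322) (nat_lit 19) (nat_lit 4) (nat_lit 21) (nat_lit 5) (nat_lit 21) (nat_lit 4) (nat_lit 502) (nat_lit 319) (nat_lit 319)) (XT.nd (nat_lit 78) (nat_lit 152) (nat_lit 0) (XT.lf (nat_lit 0) (nat_lit 3614898187) (nat_lit 152) (nat_lit 9282692554) (nat_lit 0) (nat_lit 3223430281) (nat_lit 17) (nat_lit 5) (nat_lit 19) (nat_lit 4) (nat_lit 17) (nat_lit 4) (nat_lit 503) (nat_lit 319) (nat_lit 318)) (XT.lf (nat_lit 0) (nat_lit 153527034) (nat_lit 152) (nat_lit 8478757158) (nat_lit 152) (nat_lit 7703497189) (nat_lit 15) (nat_lit 4) (nat_lit 17) (nat_lit 5) (nat_lit 17) (nat_lit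 4) (nat_lit 504) (nat_lit 319) (nat_lit 317)))))) (XT.nd (nat_lit 59046) (nat_lit 0) (nat_lit 304) (XT.nd (nat_lit 156) (nat_lit 152) (nat_lit 0) (XT.nd (nat_lit 78) (nat_lit 152) (nat_lit 0) (XT.lf (nat_lit 0) (nat_lit 9778145119) (nat_lit 152) (nat_lit 3964191078) (nat_lit 152) (nat_lit 2812664379) (nat_lit 15) (nat_lit 4) (nat_lit 17) (nat_lit 5) (nat_lit 17) (nat_lit 4) (nat_lit 505) (nat_lit 319) (nat_lit 316)) (XT.lf (nat_lit 0) (nat_lit 2100008321) (nat_lit 152) (nat_lit 14069866907) (nat_lit 0) (nat_lit 609404743) (nat_lit 13) (nat_lit 5) (nat_lit 15) (nat_lit 4) (nat_lit 13) (nat_lit 4) (nat_lit 506) (nat_lit 319) (nat_lit 315))) (XT.nd (nat_lit 78) (nat_lit 152) (nat_lit 0) (XT.lf (nat_lit 0) (nat_lit 7076464654) (nat_lit 152) (nat_lit 4699857516) (nat_lit 0) (nat_lit 5231296533) (nat_lit 13) (nat_lit 5) (nat_lit 15) (nat_lit 4) (nat_lit 13) (nat_lit 4) (nat_lit 507) (nat_lit 319) (nat_lit 314)) (XT.nd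 (nat_lit 58734) (nat_lit 0) (nat_lit 760) (XT.lf (nat_lit 0) (nat_lit 4798117393) (nat_lit 152) (nat_lit 7317961942) (nat_lit 152) (nat_lit 5125181524) (nat_lit 11) (nat_lit 4) (nat_lit 13) (nat_lit 5) (nat_lit 13) (nat_lit 4) (nat_lit 508) (nat_lit 319) (nat_lit 313)) (XT.lf (nat_lit 0) (nat_lit 2391353569) (nat_lit 228) (nat_lit 2968704418) (nat_lit 0) (nat_lit 2391353569) (nat_lit 21) (nat_lit 5) (nat_lit 24) (nat_lit 4) (nat_lit 21) (nat_lit 4) (nat_lit 500) (nat_lit 320) (nat_lit 320))))) (XT.nd (nat_lit 156) (nat_lit 304) (nat_lit 0) (XT.nd (nat_lit 78) (nat_lit 0) (nat_lit 0) (XT.lf (nat_lit 0) (nat_lit 3520549860) (nat_lit 152) (nat_lit 6295864558) (nat_lit 152) (nat_lit 5888581349) (nat_lit 19) (nat_lit 4) (nat_lit 21) (nat_lit 5) (nat_lit 21) (nat_lit 4) (nat_lit 501) (nat_lit 320) (nat_lit 319)) (XT.lf (nat_lit 0) (nat_lit 13122328349) (nat_lit 152) (nat_lit 1798041562) (nat_lit 152) (nat_lit 991461090)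 (nat_lit 19) (nat_lit 4) (nat_lit 21) (nat_lit 5) (nat_lit 21) (nat_lit 4) (nat_lit 502) (nat_lit 320) (nat_lit 318))) (XT.nd (nat_lit 78) (nat_lit 152) (nat_lit 0) (XT.lf (nat_lit 0) (nat_lit 3943657973) (nat_lit 152) (nat_lit 9409683255) (nat_lit 0) (nat_lit 2769100740) (nat_lit 17) (nat_lit 5) (nat_lit 19) (nat_lit 4) (nat_lit 17) (nat_lit 4) (nat_lit 503) (nat_lit 320) (nat_lit 317)) (XT.nd (nat_lit 78) (nat_lit 152) (nat_lit 0) (XT.lf (nat_lit 0) (nat_lit 8925812332) (nat_lit 152) (nat_lit 37111204) (nat_lit 0) (nat_lit 7374988370) (nat_lit 17) (nat_lit 5) (nat_lit 19) (nat_lit 4) (nat_lit 17) (nat_lit 4) (nat_lit 504) (nat_lit 320) (nat_lit 316)) (XT.lf (nat_lit 0) (nat_lit 9525785175) (nat_lit 152) (nat_lit 4475873898) (nat_lit 152) (nat_lit 2556160985) (nat_lit 15) (nat_lit 4) (nat_lit 17) (nat_lit 5) (nat_lit 17) (nat_lit 4) (nat_lit 505) (nat_lit 320) (nat_lit 315))))))) (XT.nd (nat_lit 59280) (nat_lit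 0) (nat_lit 0) (XT.nd (nat_lit 58890) (nat_lit 0) (nat_lit 456) (XT.nd (nat_lit 156) (nat_lit 152) (nat_lit 0) (XT.nd (nat_lit 78) (nat_lit 0) (nat_lit 0) (XT.lf (nat_lit 0) (nat_lit 2314039568) (nat_lit 152) (nat_lit 14391409859) (nat_lit 0) (nat_lit 77403542) (nat_lit 13) (nat_lit 5) (nat_lit 15) (nat_lit 4) (nat_lit 13) (nat_lit 4) (nat_lit 506) (nat_lit 320) (nat_lit 314)) (XT.lf (nat_lit 0) (nat_lit 7257068506) (nat_lit 152) (nat_lit 5081976132) (nat_lit 0) (nat_lit 4672820183) (nat_lit 13) (nat_lit 5) (nat_lit 15) (nat_lit 4) (nat_lit 13) (nat_lit 4) (nat_lit 507) (nat_lit 320) (nat_lit 313))) (XT.nd (nat_lit 58578) (nat_lit 0) (nat_lit 760) (XT.lf (nat_lit 0) (nat_lit 4350743482) (nat_lit 152) (nat_lit 7910263102) (nat_lit 152) (nat_lit 4985218409) (nat_lit 11) (nat_lit 4) (nat_lit 13) (nat_lit 5) (nat_lit 13) (nat_lit 4) (nat_lit 508) (nat_lit 320) (nat_lit 312)) (XT.nd (nat_lit 78) (nat_lit 228) (nat_lit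 0) (XT.lf (nat_lit 0) (nat_lit 2882813180) (nat_lit 152) (nat_lit 2336201516) (nat_lit 152) (nat_lit 2336201516) (nat_lit 24) (nat_lit 4) (nat_lit 26) (nat_lit 5) (nat_lit 26) (nat_lit 4) (nat_lit 498) (nat_lit 321) (nat_lit 321)) (XT.lf (nat_lit 0) (nat_lit 15405992) (nat_lit 152) (nat_lit 201991751) (nat_lit 228) (nat_lit 15088142115) (nat_lit 21) (nat_lit 5) (nat_lit 23) (nat_lit 5) (nat_lit 24) (nat_lit 4) (nat_lit 499) (nat_lit 321) (nat_lit 320))))) (XT.nd (nat_lit 156) (nat_lit 152) (nat_lit 0) (XT.nd (nat_lit 78) (nat_lit 152) (nat_lit 0) (XT.lf (nat_lit 0) (nat_lit 5163066114) (nat_lit 228) (nat_lit 6000109719) (nat_lit 0) (nat_lit 4340354033) (nat_lit 21) (nat_lit 5) (nat_lit 24) (nat_lit 4) (nat_lit 21) (nat_lit 4) (nat_lit 500) (nat_lit 321) (nat_lit 319)) (XT.lf (nat_lit 0) (nat_lit 3394727338) (nat_lit 152) (nat_lit 6766846882) (nat_lit 152) (nat_lit 5544837537) (nat_lit 19) (nat_lit 4) (nat_lit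 21) (nat_lit 5) (nat_lit 21) (nat_lit 4) (nat_lit 501) (nat_lit 321) (nat_lit 318))) (XT.nd (nat_lit 78) (nat_lit 152) (nat_lit 0) (XT.lf (nat_lit 0) (nat_lit 12935438790) (nat_lit 152) (nat_lit 2295986345) (nat_lit 152) (nat_lit 682509095) (nat_lit 19) (nat_lit 4) (nat_lit 21) (nat_lit 5) (nat_lit 21) (nat_lit 4) (nat_lit 502) (nat_lit 321) (nat_lit 317)) (XT.nd (nat_lit 78) (nat_lit 0) (nat_lit 0) (XT.lf (nat_lit 0) (nat_lit 4209838565) (nat_lit 152) (nat_lit 9663714456) (nat_lit 0) (nat_lit 2251731394) (nat_lit 17) (nat_lit 5) (nat_lit 19) (nat_lit 4) (nat_lit 17) (nat_lit 4) (nat_lit 503) (nat_lit 321) (nat_lit 316)) (XT.lf (nat_lit 0) (nat_lit 9158429350) (nat_lit 152) (nat_lit 351567899) (nat_lit 0) (nat_lit 6831433229) (nat_lit 17) (nat_lit 5) (nat_lit 19) (nat_lit 4) (nat_lit 17) (nat_lit 4) (nat_lit 504) (nat_lit 321) (nat_lit 315)))))) (XT.nd (nat_lit 58734) (nat_lit 0) (nat_lit 608) (XT.nd (nat_lit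 156) (nat_lit 152) (nat_lit 0) (XT.nd (nat_lit 78) (nat_lit 152) (nat_lit 0) (XT.lf (nat_lit 0) (nat_lit 9147121559) (nat_lit 152) (nat_lit 5051790531) (nat_lit 152) (nat_lit 2363138576) (nat_lit 15) (nat_lit 4) (nat_lit 17) (nat_lit 5) (nat_lit 17) (nat_lit 4) (nat_lit 505) (nat_lit 321) (nat_lit 314)) (XT.lf (nat_lit 0) (nat_lit 1942629753) (nat_lit 76) (nat_lit 525610965) (nat_lit 152) (nat_lit 14319548161) (nat_lit 13) (nat_lit 5) (nat_lit 14) (nat_lit 5) (nat_lit 15) (nat_lit 4) (nat_lit 506) (nat_lit 321) (nat_lit 313))) (XT.nd (nat_lit 78) (nat_lit 152) (nat_lit 0) (XT.lf (nat_lit 0) (nat_lit 7375085085) (nat_lit 152) (nat_lit 5591700690) (nat_lit 0) (nat_lit 4050743129) (nat_lit 13) (nat_lit 5) (nat_lit 15) (nat_lit 4) (nat_lit 13) (nat_lit 4) (nat_lit 507) (nat_lit 321) (nat_lit 312)) (XT.nd (nat_lit 58422) (nat_lit 0) (nat_lit 1140) (XT.lf (nat_lit 0) (nat_lit 3775247756) (nat_lit 152) (nat_lit 8567909537)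 (nat_lit 152) (nat_lit 4909453493) (nat_lit 11) (nat_lit 4) (nat_lit 13) (nat_lit 5) (nat_lit 13) (nat_lit 4) (nat_lit 508) (nat_lit 321) (nat_lit 311)) (XT.lf (nat_lit 0) (nat_lit 452573855) (nat_lit 228) (nat_lit 6461515661) (nat_lit 0) (nat_lit 452573855) (nat_lit 26) (nat_lit 5) (nat_lit 29) (nat_lit 4) (nat_lit 26) (nat_lit 4) (nat_lit 496) (nat_lit 322) (nat_lit 322))))) (XT.nd (nat_lit 234) (nat_lit 304) (nat_lit 0) (XT.nd (nat_lit 78) (nat_lit 228) (nat_lit 0) (XT.lf (nat_lit 0) (nat_lit 5837271009) (nat_lit 228) (nat_lit 3677701920) (nat_lit 0) (nat_lit 5405058810) (nat_lit 26) (nat_lit 5) (nat_lit 29) (nat_lit 4) (nat_lit 26) (nat_lit 4) (nat_lit 497) (nat_lit 322) (nat_lit 321)) (XT.nd (nat_lit 78) (nat_lit 76) (nat_lit 0) (XT.lf (nat_lit 0) (nat_lit 5703512775) (nat_lit 152) (nat_lit 5131786856) (nat_lit 152) (nat_lit 4275837206) (nat_lit 24) (nat_lit 4) (nat_lit 26) (nat_lit 5) (nat_lit 26) (nat_lit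 4) (nat_lit 498) (nat_lit 322) (nat_lit 320)) (XT.lf (nat_lit 0) (nat_lit 574173428) (nat_lit 228) (nat_lit 111548196) (nat_lit 76) (nat_lit 14621168289) (nat_lit 23) (nat_lit 5) (nat_lit 26) (nat_lit 5) (nat_lit 24) (nat_lit 4) (nat_lit 499) (nat_lit 322) (nat_lit 319)))) (XT.nd (nat_lit 78) (nat_lit 152) (nat_lit 0) (XT.lf (nat_lit 0) (nat_lit 5481580122) (nat_lit 228) (nat_lit 6188236957) (nat_lit 0) (nat_lit 3835833327) (nat_lit 21) (nat_lit 5) (nat_lit 24) (nat_lit 4) (nat_lit 21) (nat_lit 4) (nat_lit 500) (nat_lit 322) (nat_lit 318)) (XT.nd (nat_lit 78) (nat_lit 0) (nat_lit 0) (XT.lf (nat_lit 0) (nat_lit 3143032952) (nat_lit 152) (nat_lit 7301713019) (nat_lit 152) (nat_lit 5264498319) (nat_lit 19) (nat_lit 4) (nat_lit 21) (nat_lit 5) (nat_lit 21) (nat_lit 4) (nat_lit 501) (nat_lit 322) (nat_lit 317)) (XT.lf (nat_lit 0) (nat_lit 12623874760) (nat_lit 152) (nat_lit 2857286267) (nat_lit 152) (nat_lit 436279502)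 (nat_lit 19) (nat_lit 4) (nat_lit 21) (nat_lit 5) (nat_lit 21) (nat_lit 4) (nat_lit 502) (nat_lit 322) (nat_lit 316))))))))
noncomputable def xc1 : XT := (XT.nd (nat_lit 117858) (nat_lit 0) (nat_lit 152) (XT.nd (nat_lit 58968) (nat_lit 0) (nat_lit 0) (XT.nd (nat_lit 390) (nat_lit 152) (nat_lit 0) (XT.nd (nat_lit 156) (nat_lit 304) (nat_lit 0) (XT.nd (nat_lit 78) (nat_lit 0) (nat_lit 0) (XT.lf (nat_lit 0) (nat_lit 4413544348) (nat_lit 152) (nat_lit 10044885779) (nat_lit 0) (nat_lit 1671119354) (nat_lit 17) (nat_lit 5) (nat_lit 19) (nat_lit 4) (nat_lit 17) (nat_lit 4) (nat_lit 503) (nat_lit 322) (nat_lit 315)) (XT.lf (nat_lit 0) (nat_lit 9329229667) (nat_lit 152) (nat_lit 791979902) (nat_lit 0) (nat_lit 6225148839) (nat_lit 17) (nat_lit 5) (nat_lit 19) (nat_lit 4) (nat_lit 17) (nat_lit 4) (nat_lit 504) (nat_lit 322) (nat_lit 314))) (XT.nd (nat_lit 78) (nat_lit 152) (nat_lit 0) (XT.lf (nat_lit 0) (nat_lit 8642005774)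 (nat_lit 152) (nat_lit 5692166826) (nat_lit 152) (nat_lit 2233521455) (nat_lit 15) (nat_lit 4) (nat_lit 17) (nat_lit 5) (nat_lit 17) (nat_lit 4) (nat_lit 505) (nat_lit 322) (nat_lit 313)) (XT.nd (nat_lit 78) (nat_lit 0) (nat_lit 0) (XT.lf (nat_lit 0) (nat_lit 1365327950) (nat_lit 76) (nat_lit 1194862949) (nat_lit 152) (nat_lit 14233948360) (nat_lit 13) (nat_lit 5) (nat_lit 14) (nat_lit 5) (nat_lit 15) (nat_lit 4) (nat_lit 506) (nat_lit 322) (nat_lit 312)) (XT.lf (nat_lit 0) (nat_lit 7430560670) (nat_lit 152) (nat_lit 6229231083) (nat_lit 0) (nat_lit 3364821417) (nat_lit 13) (nat_lit 5) (nat_lit 15) (nat_lit 4) (nat_lit 13) (nat_lit 4) (nat_lit 507) (nat_lit 322) (nat_lit 311))))) (XT.nd (nat_lit 58344) (nat_lit 0) (nat_lit 1140) (XT.nd (nat_lit 58266) (nat_lit 0) (nat_lit 1520) (XT.lf (nat_lit 0) (nat_lit 3071404532) (nat_lit 152) (nat_lit 9291159149) (nat_lit 152) (nat_lit 4897857065) (nat_lit 11) (nat_lit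 4) (nat_lit 13) (nat_lit 5) (nat_lit 13) (nat_lit 4) (nat_lit 508) (nat_lit 322) (nat_lit 310)) (XT.lf (nat_lit 0) (nat_lit 3018461045) (nat_lit 228) (nat_lit 1147898897) (nat_lit 0) (nat_lit 3018461045) (nat_lit 31) (nat_lit 5) (nat_lit 34) (nat_lit 4) (nat_lit 31) (nat_lit 4) (nat_lit 494) (nat_lit 323) (nat_lit 323))) (XT.nd (nat_lit 78) (nat_lit 228) (nat_lit 0) (XT.lf (nat_lit 0) (nat_lit 7040236757) (nat_lit 152) (nat_lit 3979578148) (nat_lit 152) (nat_lit 3529904576) (nat_lit 29) (nat_lit 4) (nat_lit 31) (nat_lit 5) (nat_lit 31) (nat_lit 4) (nat_lit 495) (nat_lit 323) (nat_lit 322)) (XT.nd (nat_lit 78) (nat_lit 0) (nat_lit 0) (XT.lf (nat_lit 0) (nat_lit 1310774700) (nat_lit 228) (nat_lit 12985556256) (nat_lit 0) (nat_lit 437706058) (nat_lit 26) (nat_lit 5) (nat_lit 29) (nat_lit 4) (nat_lit 26) (nat_lit 4) (nat_lit 496) (nat_lit 323) (nat_lit 321)) (XT.lf (nat_lit 0) (nat_lit 6208359321) (nat_lit 228)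 (nat_lit 3801525810) (nat_lit 0) (nat_lit 4911553228) (nat_lit 26) (nat_lit 5) (nat_lit 29) (nat_lit 4) (nat_lit 26) (nat_lit 4) (nat_lit 497) (nat_lit 323) (nat_lit 320)))))) (XT.nd (nat_lit 390) (nat_lit 608) (nat_lit 0) (XT.nd (nat_lit 156) (nat_lit 304) (nat_lit 0) (XT.nd (nat_lit 78) (nat_lit 76) (nat_lit 0) (XT.lf (nat_lit 0) (nat_lit 5517147658) (nat_lit 152) (nat_lit 5654168828) (nat_lit 152) (nat_lit 3941933863) (nat_lit 24) (nat_lit 4) (nat_lit 26) (nat_lit 5) (nat_lit 26) (nat_lit 4) (nat_lit 498) (nat_lit 323) (nat_lit 319)) (XT.lf (nat_lit 0) (nat_lit 869884743) (nat_lit 228) (nat_lit 362350993) (nat_lit 76) (nat_lit 14077405839) (nat_lit 23) (nat_lit 5) (nat_lit 26) (nat_lit 5) (nat_lit 24) (nat_lit 4) (nat_lit 499) (nat_lit 323) (nat_lit 318))) (XT.nd (nat_lit 78) (nat_lit 152) (nat_lit 0) (XT.lf (nat_lit 0) (nat_lit 5738374069) (nat_lit 228) (nat_lit 6501864325) (nat_lit 0) (nat_lit 3268947169)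 (nat_lit 21) (nat_lit 5) (nat_lit 24) (nat_lit 4) (nat_lit 21) (nat_lit 4) (nat_lit 500) (nat_lit 323) (nat_lit 317)) (XT.nd (nat_lit 78) (nat_lit 0) (nat_lit 0) (XT.lf (nat_lit 0) (nat_lit 2765367997) (nat_lit 152) (nat_lit 7900672723) (nat_lit 152) (nat_lit 5047453759) (nat_lit 19) (nat_lit 4) (nat_lit 21) (nat_lit 5) (nat_lit 21) (nat_lit 4) (nat_lit 501) (nat_lit 323) (nat_lit 316)) (XT.lf (nat_lit 0) (nat_lit 12187514076) (nat_lit 152) (nat_lit 3482161444) (nat_lit 152) (nat_lit 252675750) (nat_lit 19) (nat_lit 4) (nat_lit 21) (nat_lit 5) (nat_lit 21) (nat_lit 4) (nat_lit 502) (nat_lit 323) (nat_lit 315))))) (XT.nd (nat_lit 234) (nat_lit 304) (nat_lit 0) (XT.nd (nat_lit 78) (nat_lit 152) (nat_lit 0) (XT.lf (nat_lit 0) (nat_lit 4554855207) (nat_lit 152) (nat_lit 10553346701) (nat_lit 0) (nat_lit 1027036928) (nat_lit 17) (nat_lit 5) (nat_lit 19) (nat_lit 4) (nat_lit 17) (nat_lit 4) (nat_lit 503) (nat_lit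 323) (nat_lit 314)) (XT.nd (nat_lit 78) (nat_lit 152) (nat_lit 0) (XT.lf (nat_lit 0) (nat_lit 9438280266) (nat_lit 152) (nat_lit 1358519922) (nat_lit 0) (nat_lit 5555897444) (nat_lit 17) (nat_lit 5) (nat_lit 19) (nat_lit 4) (nat_lit 17) (nat_lit 4) (nat_lit 504) (nat_lit 323) (nat_lit 313)) (XT.lf (nat_lit 0) (nat_lit 8010239736) (nat_lit 152) (nat_lit 6397253912) (nat_lit 152) (nat_lit 2167258793) (nat_lit 15) (nat_lit 4) (nat_lit 17) (nat_lit 5) (nat_lit 17) (nat_lit 4) (nat_lit 505) (nat_lit 323) (nat_lit 312)))) (XT.nd (nat_lit 78) (nat_lit 152) (nat_lit 0) (XT.lf (nat_lit 0) (nat_lit 659830728) (nat_lit 76) (nat_lit 1929586210) (nat_lit 152) (nat_lit 14212499848) (nat_lit 13) (nat_lit 5) (nat_lit 14) (nat_lit 5) (nat_lit 15) (nat_lit 4) (nat_lit 506) (nat_lit 323) (nat_lit 311)) (XT.nd (nat_lit 78) (nat_lit 152) (nat_lit 0) (XT.lf (nat_lit 0) (nat_lit 7423517017) (nat_lit 152) (nat_lit 6994817322) (nat_lit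 0) (nat_lit 2614786060) (nat_lit 13) (nat_lit 5) (nat_lit 15) (nat_lit 4) (nat_lit 13) (nat_lit 4) (nat_lit 507) (nat_lit 323) (nat_lit 310)) (XT.lf (nat_lit 0) (nat_lit 2238937792) (nat_lit 152) (nat_lit 10080295563) (nat_lit 152) (nat_lit 4950424576) (nat_lit 11) (nat_lit 4) (nat_lit 13) (nat_lit 5) (nat_lit 13) (nat_lit 4) (nat_lit 508) (nat_lit 323) (nat_lit 309))))))) (XT.nd (nat_lit 780) (nat_lit 456) (nat_lit 0) (XT.nd (nat_lit 390) (nat_lit 532) (nat_lit 0) (XT.nd (nat_lit 156) (nat_lit 380) (nat_lit 0) (XT.nd (nat_lit 78) (nat_lit 228) (nat_lit 0) (XT.lf (nat_lit 0) (nat_lit 3770377914) (nat_lit 152) (nat_lit 1619806402) (nat_lit 152) (nat_lit 1619806402) (nat_lit 34) (nat_lit 4) (nat_lit 36) (nat_lit 5) (nat_lit 36) (nat_lit 4) (nat_lit 492) (nat_lit 324) (nat_lit 324)) (XT.lf (nat_lit 0) (nat_lit 1586484837) (nat_lit 228) (nat_lit 11479282790) (nat_lit 0) (nat_lit 1127817793) (nat_lit 31) (nat_lit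 5) (nat_lit 34) (nat_lit 4) (nat_lit 31) (nat_lit 4) (nat_lit 493) (nat_lit 324) (nat_lit 323))) (XT.nd (nat_lit 78) (nat_lit 380) (nat_lit 0) (XT.lf (nat_lit 0) (nat_lit 6460884453) (nat_lit 228) (nat_lit 2356913693) (nat_lit 0) (nat_lit 5552543838) (nat_lit 31) (nat_lit 5) (nat_lit 34) (nat_lit 4) (nat_lit 31) (nat_lit 4) (nat_lit 494) (nat_lit 324) (nat_lit 322)) (XT.nd (nat_lit 78) (nat_lit 228) (nat_lit 0) (XT.lf (nat_lit 0) (nat_lit 6917594840) (nat_lit 152) (nat_lit 4491361957) (nat_lit 152) (nat_lit 3142164898) (nat_lit 29) (nat_lit 4) (nat_lit 31) (nat_lit 5) (nat_lit 31) (nat_lit 4) (nat_lit 495) (nat_lit 324) (nat_lit 321)) (XT.lf (nat_lit 0) (nat_lit 1562396954) (nat_lit 152) (nat_lit 92952656) (nat_lit 228) (nat_lit 13080806433) (nat_lit 26) (nat_lit 5) (nat_lit 28) (nat_lit 5) (nat_lit 29) (nat_lit 4) (nat_lit 496) (nat_lit 324) (nat_lit 320))))) (XT.nd (nat_lit 156) (nat_lit 380) (nat_lit 0) (XT.nd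 (nat_lit 78) (nat_lit 152) (nat_lit 0) (XT.lf (nat_lit 0) (nat_lit 6518469270) (nat_lit 228) (nat_lit 4049222148) (nat_lit 0) (nat_lit 4356560732) (nat_lit 26) (nat_lit 5) (nat_lit 29) (nat_lit 4) (nat_lit 26) (nat_lit 4) (nat_lit 497) (nat_lit 324) (nat_lit 319)) (XT.lf (nat_lit 0) (nat_lit 5206457926) (nat_lit 152) (nat_lit 6239753805) (nat_lit 152) (nat_lit 3670562059) (nat_lit 24) (nat_lit 4) (nat_lit 26) (nat_lit 5) (nat_lit 26) (nat_lit 4) (nat_lit 498) (nat_lit 324) (nat_lit 318))) (XT.nd (nat_lit 78) (nat_lit 304) (nat_lit 0) (XT.lf (nat_lit 0) (nat_lit 1104547626) (nat_lit 228) (nat_lit 737302804) (nat_lit 76) (nat_lit 13471947493) (nat_lit 23) (nat_lit 5) (nat_lit 26) (nat_lit 5) (nat_lit 24) (nat_lit 4) (nat_lit 499) (nat_lit 324) (nat_lit 317)) (XT.nd (nat_lit 78) (nat_lit 152) (nat_lit 0) (XT.lf (nat_lit 0) (nat_lit 5933548659) (nat_lit 228) (nat_lit 6941114815) (nat_lit 0) (nat_lit 2639473252)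 (nat_lit 21) (nat_lit 5) (nat_lit 24) (nat_lit 4) (nat_lit 21) (nat_lit 4) (nat_lit 500) (nat_lit 324) (nat_lit 316)) (XT.lf (nat_lit 0) (nat_lit 2261584371) (nat_lit 152) (nat_lit 8563960878) (nat_lit 152) (nat_lit 4893618741) (nat_lit 19) (nat_lit 4) (nat_lit 21) (nat_lit 5) (nat_lit 21) (nat_lit 4) (nat_lit 501) (nat_lit 324) (nat_lit 315)))))) (XT.nd (nat_lit 390) (nat_lit 76) (nat_lit 0) (XT.nd (nat_lit 156) (nat_lit 228) (nat_lit 0) (XT.nd (nat_lit 78) (nat_lit 152) (nat_lit 0) (XT.lf (nat_lit 0) (nat_lit 11626185618) (nat_lit 152) (nat_lit 4170856926) (nat_lit 152) (nat_lit 131625839) (nat_lit 19) (nat_lit 4) (nat_lit 21) (nat_lit 5) (nat_lit 21) (nat_lit 4) (nat_lit 502) (nat_lit 324) (nat_lit 314)) (XT.lf (nat_lit 0) (nat_lit 4633826556) (nat_lit 152) (nat_lit 11189296620) (nat_lit 0) (nat_lit 319231536) (nat_lit 17) (nat_lit 5) (nat_lit 19) (nat_lit 4) (nat_lit 17) (nat_lit 4) (nat_lit 503) (nat_lit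 324) (nat_lit 313))) (XT.nd (nat_lit 78) (nat_lit 228) (nat_lit 0) (XT.lf (nat_lit 0) (nat_lit 9485623909) (nat_lit 152) (nat_lit 2051410133) (nat_lit 0) (nat_lit 4823416591) (nat_lit 17) (nat_lit 5) (nat_lit 19) (nat_lit 4) (nat_lit 17) (nat_lit 4) (nat_lit 504) (nat_lit 324) (nat_lit 312)) (XT.nd (nat_lit 78) (nat_lit 76) (nat_lit 0) (XT.lf (nat_lit 0) (nat_lit 7251575694) (nat_lit 152) (nat_lit 7167328292) (nat_lit 152) (nat_lit 2164324605) (nat_lit 15) (nat_lit 4) (nat_lit 17) (nat_lit 5) (nat_lit 17) (nat_lit 4) (nat_lit 505) (nat_lit 324) (nat_lit 311)) (XT.lf (nat_lit 0) (nat_lit 2557060919) (nat_lit 228) (nat_lit 171854718) (nat_lit 76) (nat_lit 14082186261) (nat_lit 14) (nat_lit 5) (nat_lit 17) (nat_lit 5) (nat_lit 15) (nat_lit 4) (nat_lit 506) (nat_lit 324) (nat_lit 310))))) (XT.nd (nat_lit 58188) (nat_lit 0) (nat_lit 1368) (XT.nd (nat_lit 58032) (nat_lit 0) (nat_lit 1748) (XT.lf (nat_lit 0) (nat_lit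 7353951363) (nat_lit 152) (nat_lit 7888759637) (nat_lit 0) (nat_lit 1800342926) (nat_lit 13) (nat_lit 5) (nat_lit 15) (nat_lit 4) (nat_lit 13) (nat_lit 4) (nat_lit 507) (nat_lit 324) (nat_lit 309)) (XT.nd (nat_lit 78) (nat_lit 0) (nat_lit 0) (XT.lf (nat_lit 0) (nat_lit 728993589) (nat_lit 228) (nat_lit 5383794807) (nat_lit 0) (nat_lit 728993589) (nat_lit 36) (nat_lit 5) (nat_lit 39) (nat_lit 4) (nat_lit 36) (nat_lit 4) (nat_lit 490) (nat_lit 325) (nat_lit 325)) (XT.lf (nat_lit 0) (nat_lit 6302294061) (nat_lit 228) (nat_lit 1722852628) (nat_lit 0) (nat_lit 5825096868) (nat_lit 36) (nat_lit 5) (nat_lit 39) (nat_lit 4) (nat_lit 36) (nat_lit 4) (nat_lit 491) (nat_lit 325) (nat_lit 324)))) (XT.nd (nat_lit 78) (nat_lit 228) (nat_lit 0) (XT.lf (nat_lit 0) (nat_lit 7480234992) (nat_lit 152) (nat_lit 3742740986) (nat_lit 152) (nat_lit 2797703409) (nat_lit 34) (nat_lit 4) (nat_lit 36) (nat_lit 5) (nat_lit 36) (nat_lit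 4) (nat_lit 492) (nat_lit 325) (nat_lit 323)) (XT.nd (nat_lit 78) (nat_lit 0) (nat_lit 0) (XT.lf (nat_lit 0) (nat_lit 1984221766) (nat_lit 228) (nat_lit 11602736905) (nat_lit 0) (nat_lit 608040765) (nat_lit 31) (nat_lit 5) (nat_lit 34) (nat_lit 4) (nat_lit 31) (nat_lit 4) (nat_lit 493) (nat_lit 325) (nat_lit 322)) (XT.lf (nat_lit 0) (nat_lit 6824597185) (nat_lit 228) (nat_lit 2540285355) (nat_lit 0) (nat_lit 5007559741) (nat_lit 31) (nat_lit 5) (nat_lit 34) (nat_lit 4) (nat_lit 31) (nat_lit 4) (nat_lit 494) (nat_lit 325) (nat_lit 321))))))))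
noncomputable def xc2 : XT := (XT.nd (nat_lit 59358) (nat_lit 0) (nat_lit 0) (XT.nd (nat_lit 780) (nat_lit 304) (nat_lit 0) (XT.nd (nat_lit 390) (nat_lit 456) (nat_lit 0) (XT.nd (nat_lit 156) (nat_lit 228) (nat_lit 0) (XT.nd (nat_lit 78) (nat_lit 228) (nat_lit 0) (XT.lf (nat_lit 0) (nat_lit 6672262913) (nat_lit 152) (nat_lit 5065456703) (nat_lit 152) (nat_lit 2816207060) (nat_lit 29) (nat_lit 4) (nat_lit 31) (nat_lit 5) (nat_lit 31) (nat_lit 4) (nat_lit 495) (nat_lit 325) (nat_lit 320)) (XT.lf (nat_lit 0) (nat_lit 1249232182) (nat_lit 152) (nat_lit 692460528) (nat_lit 228) (nat_lit 12797938244) (nat_lit 26) (nat_lit 5) (nat_lit 28) (nat_lit 5) (nat_lit 29) (nat_lit 4) (nat_lit 496) (nat_lit 325) (nat_lit 319))) (XT.nd (nat_lit 78) (nat_lit 228) (nat_lit 0) (XT.lf (nat_lit 0) (nat_lit 6767722468) (nat_lit 228) (nat_lit 4420888069) (nat_lit 0) (nat_lit 3739863678) (nat_lit 26) (nat_lit 5) (nat_lit 29) (nat_lit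 4) (nat_lit 26) (nat_lit 4) (nat_lit 497) (nat_lit 325) (nat_lit 318)) (XT.nd (nat_lit 78) (nat_lit 76) (nat_lit 0) (XT.lf (nat_lit 0) (nat_lit 4771321741) (nat_lit 152) (nat_lit 6888771428) (nat_lit 152) (nat_lit 3461615374) (nat_lit 24) (nat_lit 4) (nat_lit 26) (nat_lit 5) (nat_lit 26) (nat_lit 4) (nat_lit 498) (nat_lit 325) (nat_lit 317)) (XT.lf (nat_lit 0) (nat_lit 1278254104) (nat_lit 228) (nat_lit 1236550667) (nat_lit 76) (nat_lit 12804555815) (nat_lit 23) (nat_lit 5) (nat_lit 26) (nat_lit 5) (nat_lit 24) (nat_lit 4) (nat_lit 499) (nat_lit 325) (nat_lit 316))))) (XT.nd (nat_lit 156) (nat_lit 152) (nat_lit 0) (XT.nd (nat_lit 78) (nat_lit 152) (nat_lit 0) (XT.lf (nat_lit 0) (nat_lit 6067180430) (nat_lit 228) (nat_lit 7506160680) (nat_lit 0) (nat_lit 1947164721) (nat_lit 21) (nat_lit 5) (nat_lit 24) (nat_lit 4) (nat_lit 21) (nat_lit 4) (nat_lit 500) (nat_lit 325) (nat_lit 315)) (XT.lf (nat_lit 0) (nat_lit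 1631484511) (nat_lit 152) (nat_lit 9291837597) (nat_lit 152) (nat_lit 4802932937) (nat_lit 19) (nat_lit 4) (nat_lit 21) (nat_lit 5) (nat_lit 21) (nat_lit 4) (nat_lit 501) (nat_lit 325) (nat_lit 314))) (XT.nd (nat_lit 78) (nat_lit 152) (nat_lit 0) (XT.lf (nat_lit 0) (nat_lit 10939669255) (nat_lit 152) (nat_lit 4923642790) (nat_lit 152) (nat_lit 73082297) (nat_lit 19) (nat_lit 4) (nat_lit 21) (nat_lit 5) (nat_lit 21) (nat_lit 4) (nat_lit 502) (nat_lit 325) (nat_lit 313)) (XT.nd (nat_lit 78) (nat_lit 0) (nat_lit 0) (XT.lf (nat_lit 0) (nat_lit 4194877960) (nat_lit 76) (nat_lit 458588869) (nat_lit 152) (nat_lit 11497373521) (nat_lit 17) (nat_lit 5) (nat_lit 18) (nat_lit 5) (nat_lit 19) (nat_lit 4) (nat_lit 503) (nat_lit 325) (nat_lit 312)) (XT.lf (nat_lit 0) (nat_lit 9471279164) (nat_lit 152) (nat_lit 2870922256) (nat_lit 0) (nat_lit 4027419034) (nat_lit 17) (nat_lit 5) (nat_lit 19) (nat_lit 4) (nat_lit 17) (nat_lit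 4) (nat_lit 504) (nat_lit 325) (nat_lit 311)))))) (XT.nd (nat_lit 58188) (nat_lit 0) (nat_lit 1368) (XT.nd (nat_lit 156) (nat_lit 76) (nat_lit 0) (XT.nd (nat_lit 78) (nat_lit 76) (nat_lit 0) (XT.lf (nat_lit 0) (nat_lit 6365716133) (nat_lit 152) (nat_lit 8002691957) (nat_lit 152) (nat_lit 2224717739) (nat_lit 15) (nat_lit 4) (nat_lit 17) (nat_lit 5) (nat_lit 17) (nat_lit 4) (nat_lit 505) (nat_lit 325) (nat_lit 310)) (XT.lf (nat_lit 0) (nat_lit 2467099393) (nat_lit 228) (nat_lit 1121996273) (nat_lit 76) (nat_lit 13232522743) (nat_lit 14) (nat_lit 5) (nat_lit 17) (nat_lit 5) (nat_lit 15) (nat_lit 4) (nat_lit 506) (nat_lit 325) (nat_lit 309))) (XT.nd (nat_lit 57876) (nat_lit 0) (nat_lit 1976) (XT.lf (nat_lit 0) (nat_lit 7221836429) (nat_lit 152) (nat_lit 8911408594) (nat_lit 0) (nat_lit 921172625) (nat_lit 13) (nat_lit 5) (nat_lit 15) (nat_lit 4) (nat_lit 13) (nat_lit 4) (nat_lit 507) (nat_lit 325) (nat_lit 308))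 (XT.nd (nat_lit 78) (nat_lit 228) (nat_lit 0) (XT.lf (nat_lit 0) (nat_lit 2894447524) (nat_lit 228) (nat_lit 890703861) (nat_lit 0) (nat_lit 2894447524) (nat_lit 42) (nat_lit 5) (nat_lit 45) (nat_lit 4) (nat_lit 42) (nat_lit 4) (nat_lit 488) (nat_lit 326) (nat_lit 326)) (XT.lf (nat_lit 0) (nat_lit 7326854871) (nat_lit 228) (nat_lit 3344771609) (nat_lit 228) (nat_lit 2848295650) (nat_lit 39) (nat_lit 4) (nat_lit 42) (nat_lit 5) (nat_lit 42) (nat_lit 4) (nat_lit 489) (nat_lit 326) (nat_lit 325))))) (XT.nd (nat_lit 156) (nat_lit 380) (nat_lit 0) (XT.nd (nat_lit 78) (nat_lit 0) (nat_lit 0) (XT.lf (nat_lit 0) (nat_lit 1909847471) (nat_lit 228) (nat_lit 10828511250) (nat_lit 0) (nat_lit 945909142) (nat_lit 36) (nat_lit 5) (nat_lit 39) (nat_lit 4) (nat_lit 36) (nat_lit 4) (nat_lit 490) (nat_lit 326) (nat_lit 324)) (XT.lf (nat_lit 0) (nat_lit 6719957447) (nat_lit 228) (nat_lit 1843501360) (nat_lit 0) (nat_lit 5288178734)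 (nat_lit 36) (nat_lit 5) (nat_lit 39) (nat_lit 4) (nat_lit 36) (nat_lit 4) (nat_lit 491) (nat_lit 326) (nat_lit 323))) (XT.nd (nat_lit 78) (nat_lit 228) (nat_lit 0) (XT.lf (nat_lit 0) (nat_lit 7298648749) (nat_lit 152) (nat_lit 4307285259) (nat_lit 152) (nat_lit 2416839502) (nat_lit 34) (nat_lit 4) (nat_lit 36) (nat_lit 5) (nat_lit 36) (nat_lit 4) (nat_lit 492) (nat_lit 326) (nat_lit 322)) (XT.nd (nat_lit 78) (nat_lit 0) (nat_lit 0) (XT.lf (nat_lit 0) (nat_lit 2321184554) (nat_lit 228) (nat_lit 11849693547) (nat_lit 0) (nat_lit 26949919) (nat_lit 31) (nat_lit 5) (nat_lit 34) (nat_lit 4) (nat_lit 31) (nat_lit 4) (nat_lit 493) (nat_lit 326) (nat_lit 321)) (XT.lf (nat_lit 0) (nat_lit 7128202918) (nat_lit 228) (nat_lit 2845984690) (nat_lit 0) (nat_lit 4401756083) (nat_lit 31) (nat_lit 5) (nat_lit 34) (nat_lit 4) (nat_lit 31) (nat_lit 4) (nat_lit 494) (nat_lit 326) (nat_lit 320))))))) (XT.nd (nat_lit 780) (nat_lit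 304) (nat_lit 0) (XT.nd (nat_lit 390) (nat_lit 456) (nat_lit 0) (XT.nd (nat_lit 156) (nat_lit 228) (nat_lit 0) (XT.nd (nat_lit 78) (nat_lit 228) (nat_lit 0) (XT.lf (nat_lit 0) (nat_lit 6304144765) (nat_lit 152) (nat_lit 5702087520) (nat_lit 152) (nat_lit 2551903234) (nat_lit 29) (nat_lit 4) (nat_lit 31) (nat_lit 5) (nat_lit 31) (nat_lit 4) (nat_lit 495) (nat_lit 326) (nat_lit 319)) (XT.lf (nat_lit 0) (nat_lit 811800873) (nat_lit 152) (nat_lit 1355235775) (nat_lit 228) (nat_lit 12577484055) (nat_lit 26) (nat_lit 5) (nat_lit 28) (nat_lit 5) (nat_lit 29) (nat_lit 4) (nat_lit 496) (nat_lit 326) (nat_lit 318))) (XT.nd (nat_lit 78) (nat_lit 228) (nat_lit 0) (XT.lf (nat_lit 0) (nat_lit 6956216662) (nat_lit 228) (nat_lit 4916669326) (nat_lit 0) (nat_lit 3061220223) (nat_lit 26) (nat_lit 5) (nat_lit 29) (nat_lit 4) (nat_lit 26) (nat_lit 4) (nat_lit 497) (nat_lit 326) (nat_lit 317)) (XT.nd (nat_lit 78) (nat_lit 76) (nat_lit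 0) (XT.lf (nat_lit 0) (nat_lit 4211568460) (nat_lit 152) (nat_lit 7601476212) (nat_lit 152) (nat_lit 3315011869) (nat_lit 24) (nat_lit 4) (nat_lit 26) (nat_lit 5) (nat_lit 26) (nat_lit 4) (nat_lit 498) (nat_lit 326) (nat_lit 316)) (XT.lf (nat_lit 0) (nat_lit 1391072296) (nat_lit 228) (nat_lit 1860290368) (nat_lit 76) (nat_lit 12074969083) (nat_lit 23) (nat_lit 5) (nat_lit 26) (nat_lit 5) (nat_lit 24) (nat_lit 4) (nat_lit 499) (nat_lit 326) (nat_lit 315))))) (XT.nd (nat_lit 156) (nat_lit 152) (nat_lit 0) (XT.nd (nat_lit 78) (nat_lit 152) (nat_lit 0) (XT.lf (nat_lit 0) (nat_lit 6139321788) (nat_lit 228) (nat_lit 8197223509) (nat_lit 0) (nat_lit 1191750084) (nat_lit 21) (nat_lit 5) (nat_lit 24) (nat_lit 4) (nat_lit 21) (nat_lit 4) (nat_lit 500) (nat_lit 326) (nat_lit 314)) (XT.lf (nat_lit 0) (nat_lit 874821319) (nat_lit 152) (nat_lit 10084588323) (nat_lit 152) (nat_lit 4775360786) (nat_lit 19) (nat_lit 4) (nat_lit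 21) (nat_lit 5) (nat_lit 21) (nat_lit 4) (nat_lit 501) (nat_lit 326) (nat_lit 313))) (XT.nd (nat_lit 78) (nat_lit 152) (nat_lit 0) (XT.lf (nat_lit 0) (nat_lit 10127695766) (nat_lit 152) (nat_lit 5740814246) (nat_lit 152) (nat_lit 77022166) (nat_lit 19) (nat_lit 4) (nat_lit 21) (nat_lit 5) (nat_lit 21) (nat_lit 4) (nat_lit 502) (nat_lit 326) (nat_lit 312)) (XT.nd (nat_lit 78) (nat_lit 0) (nat_lit 0) (XT.lf (nat_lit 0) (nat_lit 3307518897) (nat_lit 76) (nat_lit 1305809456) (nat_lit 152) (nat_lit 11547379833) (nat_lit 17) (nat_lit 5) (nat_lit 18) (nat_lit 5) (nat_lit 19) (nat_lit 4) (nat_lit 503) (nat_lit 326) (nat_lit 311)) (XT.lf (nat_lit 0) (nat_lit 9395240406) (nat_lit 152) (nat_lit 3817377668) (nat_lit 0) (nat_lit 3167592615) (nat_lit 17) (nat_lit 5) (nat_lit 19) (nat_lit 4) (nat_lit 17) (nat_lit 4) (nat_lit 504) (nat_lit 326) (nat_lit 310)))))) (XT.nd (nat_lit 58032) (nat_lit 0) (nat_lit 1368) (XT.nd (nat_lit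 156) (nat_lit 76) (nat_lit 0) (XT.nd (nat_lit 78) (nat_lit 76) (nat_lit 0) (XT.lf (nat_lit 0) (nat_lit 5352313655) (nat_lit 152) (nat_lit 8903672501) (nat_lit 152) (nat_lit 2348461879) (nat_lit 15) (nat_lit 4) (nat_lit 17) (nat_lit 5) (nat_lit 17) (nat_lit 4) (nat_lit 505) (nat_lit 326) (nat_lit 309)) (XT.lf (nat_lit 0) (nat_lit 2315213025) (nat_lit 228) (nat_lit 2199620341) (nat_lit 76) (nat_lit 12318722763) (nat_lit 14) (nat_lit 5) (nat_lit 17) (nat_lit 5) (nat_lit 15) (nat_lit 4) (nat_lit 506) (nat_lit 326) (nat_lit 308))) (XT.nd (nat_lit 57720) (nat_lit 0) (nat_lit 2204) (XT.lf (nat_lit 0) (nat_lit 7003895979) (nat_lit 76) (nat_lit 23376198) (nat_lit 152) (nat_lit 10039940807) (nat_lit 13) (nat_lit 5) (nat_lit 14) (nat_lit 5) (nat_lit 15) (nat_lit 4) (nat_lit 507) (nat_lit 326) (nat_lit 307)) (XT.nd (nat_lit 78) (nat_lit 228) (nat_lit 0) (XT.lf (nat_lit 0) (nat_lit 3283287851) (nat_lit 228) (nat_lit 1620108872)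 (nat_lit 228) (nat_lit 1620108872) (nat_lit 45) (nat_lit 4) (nat_lit 48) (nat_lit 5) (nat_lit 48) (nat_lit 4) (nat_lit 486) (nat_lit 327) (nat_lit 327)) (XT.lf (nat_lit 0) (nat_lit 1486860719) (nat_lit 228) (nat_lit 10734750902) (nat_lit 0) (nat_lit 980455241) (nat_lit 42) (nat_lit 5) (nat_lit 45) (nat_lit 4) (nat_lit 42) (nat_lit 4) (nat_lit 487) (nat_lit 327) (nat_lit 326))))) (XT.nd (nat_lit 234) (nat_lit 380) (nat_lit 0) (XT.nd (nat_lit 78) (nat_lit 456) (nat_lit 0) (XT.lf (nat_lit 0) (nat_lit 6260920342) (nat_lit 228) (nat_lit 1840932707) (nat_lit 0) (nat_lit 5258038905) (nat_lit 42) (nat_lit 5) (nat_lit 45) (nat_lit 4) (nat_lit 42) (nat_lit 4) (nat_lit 488) (nat_lit 327) (nat_lit 325)) (XT.nd (nat_lit 78) (nat_lit 228) (nat_lit 0) (XT.lf (nat_lit 0) (nat_lit 7207405457) (nat_lit 228) (nat_lit 3901764707) (nat_lit 228) (nat_lit 2412142134) (nat_lit 39) (nat_lit 4) (nat_lit 42) (nat_lit 5) (nat_lit 42) (nat_lit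 4) (nat_lit 489) (nat_lit 327) (nat_lit 324)) (XT.lf (nat_lit 0) (nat_lit 2301667219) (nat_lit 228) (nat_lit 11011300051) (nat_lit 0) (nat_lit 373412547) (nat_lit 36) (nat_lit 5) (nat_lit 39) (nat_lit 4) (nat_lit 36) (nat_lit 4) (nat_lit 490) (nat_lit 327) (nat_lit 323)))) (XT.nd (nat_lit 78) (nat_lit 380) (nat_lit 0) (XT.lf (nat_lit 0) (nat_lit 7078250817) (nat_lit 228) (nat_lit 2084846136) (nat_lit 0) (nat_lit 4691329102) (nat_lit 36) (nat_lit 5) (nat_lit 39) (nat_lit 4) (nat_lit 36) (nat_lit 4) (nat_lit 491) (nat_lit 327) (nat_lit 322)) (XT.nd (nat_lit 78) (nat_lit 228) (nat_lit 0) (XT.lf (nat_lit 0) (nat_lit 6995925889) (nat_lit 152) (nat_lit 4933467013) (nat_lit 152) (nat_lit 2096871725) (nat_lit 34) (nat_lit 4) (nat_lit 36) (nat_lit 5) (nat_lit 36) (nat_lit 4) (nat_lit 492) (nat_lit 327) (nat_lit 321)) (XT.lf (nat_lit 0) (nat_lit 1977691167) (nat_lit 152) (nat_lit 623864722) (nat_lit 228) (nat_lit 11600435384)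 (nat_lit 31) (nat_lit 5) (nat_lit 33) (nat_lit 5) (nat_lit 34) (nat_lit 4) (nat_lit 493) (nat_lit 327) (nat_lit 320))))))))
noncomputable def xc3 : XT := (XT.nd (nat_lit 59124) (nat_lit 0) (nat_lit 0) (XT.nd (nat_lit 780) (nat_lit 304) (nat_lit 0) (XT.nd (nat_lit 390) (nat_lit 532) (nat_lit 0) (XT.nd (nat_lit 156) (nat_lit 380) (nat_lit 0) (XT.nd (nat_lit 78) (nat_lit 152) (nat_lit 0) (XT.lf (nat_lit 0) (nat_lit 7371820713) (nat_lit 228) (nat_lit 3274131582) (nat_lit 0) (nat_lit 3734895292) (nat_lit 31) (nat_lit 5) (nat_lit 34) (nat_lit 4) (nat_lit 31) (nat_lit 4) (nat_lit 494) (nat_lit 327) (nat_lit 319)) (XT.lf (nat_lit 0) (nat_lit 5813096038) (nat_lit 152) (nat_lit 6401504068) (nat_lit 152) (nat_lit 2349149773) (nat_lit 29) (nat_lit 4) (nat_lit 31) (nat_lit 5) (nat_lit 31) (nat_lit 4) (nat_lit 495) (nat_lit 327) (nat_lit 318))) (XT.nd (nat_lit 78) (nat_lit 152) (nat_lit 0) (XT.lf (nat_lit 0) (nat_lit 249931485)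 (nat_lit 152) (nat_lit 2081538311) (nat_lit 228) (nat_lit 12419357414) (nat_lit 26) (nat_lit 5) (nat_lit 28) (nat_lit 5) (nat_lit 29) (nat_lit 4) (nat_lit 496) (nat_lit 327) (nat_lit 317)) (XT.nd (nat_lit 78) (nat_lit 152) (nat_lit 0) (XT.lf (nat_lit 0) (nat_lit 7084025770) (nat_lit 228) (nat_lit 5536760342) (nat_lit 0) (nat_lit 2320364234) (nat_lit 26) (nat_lit 5) (nat_lit 29) (nat_lit 4) (nat_lit 26) (nat_lit 4) (nat_lit 497) (nat_lit 327) (nat_lit 316)) (XT.lf (nat_lit 0) (nat_lit 3526978571) (nat_lit 152) (nat_lit 8378147651) (nat_lit 152) (nat_lit 3230694051) (nat_lit 24) (nat_lit 4) (nat_lit 26) (nat_lit 5) (nat_lit 26) (nat_lit 4) (nat_lit 498) (nat_lit 327) (nat_lit 315))))) (XT.nd (nat_lit 156) (nat_lit 304) (nat_lit 0) (XT.nd (nat_lit 78) (nat_lit 152) (nat_lit 0) (XT.lf (nat_lit 0) (nat_lit 1443046445) (nat_lit 228) (nat_lit 2608766509) (nat_lit 76) (nat_lit 11282901186) (nat_lit 23) (nat_lit 5) (nat_lit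 26) (nat_lit 5) (nat_lit 24) (nat_lit 4) (nat_lit 499) (nat_lit 327) (nat_lit 314)) (XT.lf (nat_lit 0) (nat_lit 6150001022) (nat_lit 228) (nat_lit 9014574305) (nat_lit 0) (nat_lit 372933100) (nat_lit 21) (nat_lit 5) (nat_lit 24) (nat_lit 4) (nat_lit 21) (nat_lit 4) (nat_lit 500) (nat_lit 327) (nat_lit 313))) (XT.nd (nat_lit 78) (nat_lit 304) (nat_lit 0) (XT.lf (nat_lit 0) (nat_lit 10933878501) (nat_lit 228) (nat_lit 8587808) (nat_lit 0) (nat_lit 4802246036) (nat_lit 21) (nat_lit 5) (nat_lit 24) (nat_lit 4) (nat_lit 21) (nat_lit 4) (nat_lit 501) (nat_lit 327) (nat_lit 312)) (XT.nd (nat_lit 78) (nat_lit 152) (nat_lit 0) (XT.lf (nat_lit 0) (nat_lit 9189946731) (nat_lit 152) (nat_lit 6622691753) (nat_lit 152) (nat_lit 143446992) (nat_lit 19) (nat_lit 4) (nat_lit 21) (nat_lit 5) (nat_lit 21) (nat_lit 4) (nat_lit 502) (nat_lit 327) (nat_lit 311)) (XT.lf (nat_lit 0) (nat_lit 2292775129) (nat_lit 76) (nat_lit 2218520048)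 (nat_lit 152) (nat_lit 11660708915) (nat_lit 17) (nat_lit 5) (nat_lit 18) (nat_lit 5) (nat_lit 19) (nat_lit 4) (nat_lit 503) (nat_lit 327) (nat_lit 310)))))) (XT.nd (nat_lit 57876) (nat_lit 0) (nat_lit 1748) (XT.nd (nat_lit 156) (nat_lit 152) (nat_lit 0) (XT.nd (nat_lit 78) (nat_lit 152) (nat_lit 0) (XT.lf (nat_lit 0) (nat_lit 9257477814) (nat_lit 152) (nat_lit 4891147529) (nat_lit 0) (nat_lit 2243600149) (nat_lit 17) (nat_lit 5) (nat_lit 19) (nat_lit 4) (nat_lit 17) (nat_lit 4) (nat_lit 504) (nat_lit 327) (nat_lit 309)) (XT.lf (nat_lit 0) (nat_lit 4210970850) (nat_lit 152) (nat_lit 9870623249) (nat_lit 152) (nat_lit 2535605553) (nat_lit 15) (nat_lit 4) (nat_lit 17) (nat_lit 5) (nat_lit 17) (nat_lit 4) (nat_lit 505) (nat_lit 327) (nat_lit 308))) (XT.nd (nat_lit 78) (nat_lit 76) (nat_lit 0) (XT.lf (nat_lit 0) (nat_lit 2101342250) (nat_lit 228) (nat_lit 3405149517) (nat_lit 76) (nat_lit 11340427969) (nat_lit 14)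 (nat_lit 5) (nat_lit 17) (nat_lit 5) (nat_lit 15) (nat_lit 4) (nat_lit 506) (nat_lit 327) (nat_lit 307)) (XT.nd (nat_lit 57564) (nat_lit 0) (nat_lit 2660) (XT.lf (nat_lit 0) (nat_lit 5730042519) (nat_lit 76) (nat_lit 1046478844) (nat_lit 152) (nat_lit 10304796809) (nat_lit 13) (nat_lit 5) (nat_lit 14) (nat_lit 5) (nat_lit 15) (nat_lit 4) (nat_lit 507) (nat_lit 327) (nat_lit 306)) (XT.lf (nat_lit 0) (nat_lit 382227083) (nat_lit 228) (nat_lit 5608868194) (nat_lit 0) (nat_lit 382227083) (nat_lit 48) (nat_lit 5) (nat_lit 51) (nat_lit 4) (nat_lit 48) (nat_lit 4) (nat_lit 484) (nat_lit 328) (nat_lit 328))))) (XT.nd (nat_lit 234) (nat_lit 456) (nat_lit 0) (XT.nd (nat_lit 78) (nat_lit 456) (nat_lit 0) (XT.lf (nat_lit 0) (nat_lit 5497693602) (nat_lit 228) (nat_lit 2426894421) (nat_lit 0) (nat_lit 4970829343) (nat_lit 48) (nat_lit 5) (nat_lit 51) (nat_lit 4) (nat_lit 48) (nat_lit 4) (nat_lit 485) (nat_lit 328) (nat_lit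 327)) (XT.nd (nat_lit 78) (nat_lit 228) (nat_lit 0) (XT.lf (nat_lit 0) (nat_lit 6507655399) (nat_lit 228) (nat_lit 3791723010) (nat_lit 228) (nat_lit 2748325163) (nat_lit 45) (nat_lit 4) (nat_lit 48) (nat_lit 5) (nat_lit 48) (nat_lit 4) (nat_lit 486) (nat_lit 328) (nat_lit 326)) (XT.lf (nat_lit 0) (nat_lit 1933946331) (nat_lit 228) (nat_lit 10854991372) (nat_lit 0) (nat_lit 414531307) (nat_lit 42) (nat_lit 5) (nat_lit 45) (nat_lit 4) (nat_lit 42) (nat_lit 4) (nat_lit 487) (nat_lit 328) (nat_lit 325)))) (XT.nd (nat_lit 78) (nat_lit 456) (nat_lit 0) (XT.lf (nat_lit 0) (nat_lit 6674299890) (nat_lit 228) (nat_lit 2019531005) (nat_lit 0) (nat_lit 4668143730) (nat_lit 42) (nat_lit 5) (nat_lit 45) (nat_lit 4) (nat_lit 42) (nat_lit 4) (nat_lit 488) (nat_lit 328) (nat_lit 324)) (XT.nd (nat_lit 78) (nat_lit 228) (nat_lit 0) (XT.lf (nat_lit 0) (nat_lit 6968459786) (nat_lit 228) (nat_lit 4519493371) (nat_lit 228) (nat_lit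 2036140019) (nat_lit 39) (nat_lit 4) (nat_lit 42) (nat_lit 5) (nat_lit 42) (nat_lit 4) (nat_lit 489) (nat_lit 328) (nat_lit 323)) (XT.lf (nat_lit 0) (nat_lit 2372130058) (nat_lit 152) (nat_lit 263178751) (nat_lit 228) (nat_lit 11054557678) (nat_lit 36) (nat_lit 5) (nat_lit 38) (nat_lit 5) (nat_lit 39) (nat_lit 4) (nat_lit 490) (nat_lit 328) (nat_lit 322))))))) (XT.nd (nat_lit 780) (nat_lit 608) (nat_lit 0) (XT.nd (nat_lit 390) (nat_lit 608) (nat_lit 0) (XT.nd (nat_lit 156) (nat_lit 380) (nat_lit 0) (XT.nd (nat_lit 78) (nat_lit 152) (nat_lit 0) (XT.lf (nat_lit 0) (nat_lit 7377314678) (nat_lit 228) (nat_lit 2446981602) (nat_lit 0) (nat_lit 4034313913) (nat_lit 36) (nat_lit 5) (nat_lit 39) (nat_lit 4) (nat_lit 36) (nat_lit 4) (nat_lit 491) (nat_lit 328) (nat_lit 321)) (XT.lf (nat_lit 0) (nat_lit 6571947697) (nat_lit 152) (nat_lit 5621531810) (nat_lit 152) (nat_lit 1837674601) (nat_lit 34) (nat_lit 4) (nat_lit 36)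 (nat_lit 5) (nat_lit 36) (nat_lit 4) (nat_lit 492) (nat_lit 328) (nat_lit 320))) (XT.nd (nat_lit 78) (nat_lit 152) (nat_lit 0) (XT.lf (nat_lit 0) (nat_lit 1484324997) (nat_lit 152) (nat_lit 1337652431) (nat_lit 228) (nat_lit 11385582765) (nat_lit 31) (nat_lit 5) (nat_lit 33) (nat_lit 5) (nat_lit 34) (nat_lit 4) (nat_lit 493) (nat_lit 328) (nat_lit 319)) (XT.nd (nat_lit 78) (nat_lit 152) (nat_lit 0) (XT.lf (nat_lit 0) (nat_lit 7555546107) (nat_lit 228) (nat_lit 3824893931) (nat_lit 0) (nat_lit 3006715854) (nat_lit 31) (nat_lit 5) (nat_lit 34) (nat_lit 4) (nat_lit 31) (nat_lit 4) (nat_lit 494) (nat_lit 328) (nat_lit 318)) (XT.lf (nat_lit 0) (nat_lit 5198924162) (nat_lit 152) (nat_lit 7163980627) (nat_lit 152) (nat_lit 2207867165) (nat_lit 29) (nat_lit 4) (nat_lit 31) (nat_lit 5) (nat_lit 31) (nat_lit 4) (nat_lit 495) (nat_lit 328) (nat_lit 317))))) (XT.nd (nat_lit 156) (nat_lit 380) (nat_lit 0) (XT.nd (nat_lit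 78) (nat_lit 152) (nat_lit 0) (XT.lf (nat_lit 0) (nat_lit 2437891307) (nat_lit 228) (nat_lit 430870284) (nat_lit 76) (nat_lit 11889734660) (nat_lit 28) (nat_lit 5) (nat_lit 31) (nat_lit 5) (nat_lit 29) (nat_lit 4) (nat_lit 496) (nat_lit 328) (nat_lit 316)) (XT.lf (nat_lit 0) (nat_lit 7151199914) (nat_lit 228) (nat_lit 6281404291) (nat_lit 0) (nat_lit 1517005178) (nat_lit 26) (nat_lit 5) (nat_lit 29) (nat_lit 4) (nat_lit 26) (nat_lit 4) (nat_lit 497) (nat_lit 328) (nat_lit 315))) (XT.nd (nat_lit 78) (nat_lit 228) (nat_lit 0) (XT.lf (nat_lit 0) (nat_lit 2717283610) (nat_lit 152) (nat_lit 9219090322) (nat_lit 152) (nat_lit 3208628856) (nat_lit 24) (nat_lit 4) (nat_lit 26) (nat_lit 5) (nat_lit 26) (nat_lit 4) (nat_lit 498) (nat_lit 328) (nat_lit 314)) (XT.nd (nat_lit 78) (nat_lit 152) (nat_lit 0) (XT.lf (nat_lit 0) (nat_lit 1434196932) (nat_lit 228) (nat_lit 3482272611) (nat_lit 76) (nat_lit 10428041507) (nat_lit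 23) (nat_lit 5) (nat_lit 26) (nat_lit 5) (nat_lit 24) (nat_lit 4) (nat_lit 499) (nat_lit 328) (nat_lit 313)) (XT.lf (nat_lit 0) (nat_lit 5586195253) (nat_lit 152) (nat_lit 516379748) (nat_lit 228) (nat_lit 9445506532) (nat_lit 21) (nat_lit 5) (nat_lit 23) (nat_lit 5) (nat_lit 24) (nat_lit 4) (nat_lit 500) (nat_lit 328) (nat_lit 312)))))) (XT.nd (nat_lit 390) (nat_lit 152) (nat_lit 0) (XT.nd (nat_lit 156) (nat_lit 304) (nat_lit 0) (XT.nd (nat_lit 78) (nat_lit 152) (nat_lit 0) (XT.lf (nat_lit 0) (nat_lit 10853167981) (nat_lit 228) (nat_lit 1006061702) (nat_lit 0) (nat_lit 3896726027) (nat_lit 21) (nat_lit 5) (nat_lit 24) (nat_lit 4) (nat_lit 21) (nat_lit 4) (nat_lit 501) (nat_lit 328) (nat_lit 311)) (XT.lf (nat_lit 0) (nat_lit 8126054403) (nat_lit 152) (nat_lit 7569621146) (nat_lit 152) (nat_lit 272382823) (nat_lit 19) (nat_lit 4) (nat_lit 21) (nat_lit 5) (nat_lit 21) (nat_lit 4) (nat_lit 502) (nat_lit 328) (nat_lit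 310))) (XT.nd (nat_lit 78) (nat_lit 152) (nat_lit 0) (XT.lf (nat_lit 0) (nat_lit 1150248719) (nat_lit 76) (nat_lit 3197078572) (nat_lit 152) (nat_lit 11837405209) (nat_lit 17) (nat_lit 5) (nat_lit 18) (nat_lit 5) (nat_lit 19) (nat_lit 4) (nat_lit 503) (nat_lit 328) (nat_lit 309)) (XT.nd (nat_lit 78) (nat_lit 152) (nat_lit 0) (XT.lf (nat_lit 0) (nat_lit 9057937365) (nat_lit 152) (nat_lit 6092652925) (nat_lit 0) (nat_lit 1255079285) (nat_lit 17) (nat_lit 5) (nat_lit 19) (nat_lit 4) (nat_lit 17) (nat_lit 4) (nat_lit 504) (nat_lit 328) (nat_lit 308)) (XT.lf (nat_lit 0) (nat_lit 2941240130) (nat_lit 152) (nat_lit 10903923398) (nat_lit 152) (nat_lit 2786222150) (nat_lit 15) (nat_lit 4) (nat_lit 17) (nat_lit 5) (nat_lit 17) (nat_lit 4) (nat_lit 505) (nat_lit 328) (nat_lit 307))))) (XT.nd (nat_lit 57564) (nat_lit 0) (nat_lit 2660) (XT.nd (nat_lit 78) (nat_lit 76) (nat_lit 0) (XT.lf (nat_lit 0) (nat_lit 1825403197) (nat_lit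 228) (nat_lit 4739056560) (nat_lit 76) (nat_lit 10297254715) (nat_lit 14) (nat_lit 5) (nat_lit 17) (nat_lit 5) (nat_lit 15) (nat_lit 4) (nat_lit 506) (nat_lit 328) (nat_lit 306)) (XT.nd (nat_lit 57408) (nat_lit 0) (nat_lit 3116) (XT.lf (nat_lit 0) (nat_lit 4327130676) (nat_lit 76) (nat_lit 2136294630) (nat_lit 152) (nat_lit 10633434644) (nat_lit 13) (nat_lit 5) (nat_lit 14) (nat_lit 5) (nat_lit 15) (nat_lit 4) (nat_lit 507) (nat_lit 328) (nat_lit 305)) (XT.lf (nat_lit 0) (nat_lit 2237462247) (nat_lit 304) (nat_lit 1753360598) (nat_lit 0) (nat_lit 2237462247) (nat_lit 54) (nat_lit 5) (nat_lit 58) (nat_lit 4) (nat_lit 54) (nat_lit 4) (nat_lit 482) (nat_lit 329) (nat_lit 329)))) (XT.nd (nat_lit 78) (nat_lit 228) (nat_lit 0) (XT.lf (nat_lit 0) (nat_lit 5297127173) (nat_lit 228) (nat_lit 3925639552) (nat_lit 228) (nat_lit 3377489977) (nat_lit 51) (nat_lit 4) (nat_lit 54) (nat_lit 5) (nat_lit 54) (nat_lit 4) (nat_lit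 483) (nat_lit 329) (nat_lit 328)) (XT.nd (nat_lit 78) (nat_lit 0) (nat_lit 0) (XT.lf (nat_lit 0) (nat_lit 1267281027) (nat_lit 228) (nat_lit 11277046894) (nat_lit 0) (nat_lit 203015223) (nat_lit 48) (nat_lit 5) (nat_lit 51) (nat_lit 4) (nat_lit 48) (nat_lit 4) (nat_lit 484) (nat_lit 329) (nat_lit 327)) (XT.lf (nat_lit 0) (nat_lit 5966623714) (nat_lit 228) (nat_lit 2544352479) (nat_lit 0) (nat_lit 4385824323) (nat_lit 48) (nat_lit 5) (nat_lit 51) (nat_lit 4) (nat_lit 48) (nat_lit 4) (nat_lit 485) (nat_lit 329) (nat_lit 326))))))))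
noncomputable def xc4 : XT := (XT.nd (nat_lit 1560) (nat_lit 152) (nat_lit 0) (XT.nd (nat_lit 780) (nat_lit 1064) (nat_lit 0) (XT.nd (nat_lit 390) (nat_lit 532) (nat_lit 0) (XT.nd (nat_lit 156) (nat_lit 456) (nat_lit 0) (XT.nd (nat_lit 78) (nat_lit 228) (nat_lit 0) (XT.lf (nat_lit 0) (nat_lit 6330871382) (nat_lit 228) (nat_lit 4403057235) (nat_lit 228) (nat_lit 2315852365) (nat_lit 45) (nat_lit 4) (nat_lit 48) (nat_lit 5) (nat_lit 48) (nat_lit 4) (nat_lit 486) (nat_lit 329) (nat_lit 325)) (XT.lf (nat_lit 0) (nat_lit 2109337580) (nat_lit 152) (nat_lit 213938859) (nat_lit 228) (nat_lit 10882969638) (nat_lit 42) (nat_lit 5) (nat_lit 44) (nat_lit 5) (nat_lit 45) (nat_lit 4) (nat_lit 487) (nat_lit 329) (nat_lit 324))) (XT.nd (nat_lit 78) (nat_lit 456) (nat_lit 0) (XT.lf (nat_lit 0) (nat_lit 7029195804) (nat_lit 228) (nat_lit 2317272655) (nat_lit 0) (nat_lit 4018978192) (nat_lit 42) (nat_lit 5) (nat_lit 45) (nat_lit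 4) (nat_lit 42) (nat_lit 4) (nat_lit 488) (nat_lit 329) (nat_lit 323)) (XT.nd (nat_lit 78) (nat_lit 228) (nat_lit 0) (XT.lf (nat_lit 0) (nat_lit 6609924153) (nat_lit 228) (nat_lit 5198199850) (nat_lit 228) (nat_lit 1720141853) (nat_lit 39) (nat_lit 4) (nat_lit 42) (nat_lit 5) (nat_lit 42) (nat_lit 4) (nat_lit 489) (nat_lit 329) (nat_lit 322)) (XT.lf (nat_lit 0) (nat_lit 1945617864) (nat_lit 152) (nat_lit 966433078) (nat_lit 228) (nat_lit 10782655339) (nat_lit 36) (nat_lit 5) (nat_lit 38) (nat_lit 5) (nat_lit 39) (nat_lit 4) (nat_lit 490) (nat_lit 329) (nat_lit 321))))) (XT.nd (nat_lit 156) (nat_lit 380) (nat_lit 0) (XT.nd (nat_lit 78) (nat_lit 152) (nat_lit 0) (XT.lf (nat_lit 0) (nat_lit 7617266310) (nat_lit 228) (nat_lit 2930049771) (nat_lit 0) (nat_lit 3316875514) (nat_lit 36) (nat_lit 5) (nat_lit 39) (nat_lit 4) (nat_lit 36) (nat_lit 4) (nat_lit 491) (nat_lit 329) (nat_lit 320)) (XT.lf (nat_lit 0) (nat_lit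 6026547908) (nat_lit 152) (nat_lit 6371749478) (nat_lit 152) (nat_lit 1639146483) (nat_lit 34) (nat_lit 4) (nat_lit 36) (nat_lit 5) (nat_lit 36) (nat_lit 4) (nat_lit 492) (nat_lit 329) (nat_lit 319))) (XT.nd (nat_lit 78) (nat_lit 152) (nat_lit 0) (XT.lf (nat_lit 0) (nat_lit 868023336) (nat_lit 152) (nat_lit 2114334971) (nat_lit 228) (nat_lit 11232182201) (nat_lit 31) (nat_lit 5) (nat_lit 33) (nat_lit 5) (nat_lit 34) (nat_lit 4) (nat_lit 493) (nat_lit 329) (nat_lit 318)) (XT.nd (nat_lit 78) (nat_lit 152) (nat_lit 0) (XT.lf (nat_lit 0) (nat_lit 7679451150) (nat_lit 228) (nat_lit 4498487722) (nat_lit 0) (nat_lit 2216932210) (nat_lit 31) (nat_lit 5) (nat_lit 34) (nat_lit 4) (nat_lit 31) (nat_lit 4) (nat_lit 494) (nat_lit 329) (nat_lit 317)) (XT.lf (nat_lit 0) (nat_lit 4461388287) (nat_lit 152) (nat_lit 7989816209) (nat_lit 152) (nat_lit 2128000005) (nat_lit 29) (nat_lit 4) (nat_lit 31) (nat_lit 5) (nat_lit 31) (nat_lit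 4) (nat_lit 495) (nat_lit 329) (nat_lit 316)))))) (XT.nd (nat_lit 390) (nat_lit 456) (nat_lit 0) (XT.nd (nat_lit 156) (nat_lit 380) (nat_lit 0) (XT.nd (nat_lit 78) (nat_lit 152) (nat_lit 0) (XT.lf (nat_lit 0) (nat_lit 2485940966) (nat_lit 228) (nat_lit 1231683356) (nat_lit 76) (nat_lit 11049914552) (nat_lit 28) (nat_lit 5) (nat_lit 31) (nat_lit 5) (nat_lit 29) (nat_lit 4) (nat_lit 496) (nat_lit 329) (nat_lit 315)) (XT.lf (nat_lit 0) (nat_lit 7157765437) (nat_lit 228) (nat_lit 7150893188) (nat_lit 0) (nat_lit 650828012) (nat_lit 26) (nat_lit 5) (nat_lit 29) (nat_lit 4) (nat_lit 26) (nat_lit 4) (nat_lit 497) (nat_lit 329) (nat_lit 314))) (XT.nd (nat_lit 78) (nat_lit 228) (nat_lit 0) (XT.lf (nat_lit 0) (nat_lit 1782166048) (nat_lit 152) (nat_lit 10124634005) (nat_lit 152) (nat_lit 3248807630) (nat_lit 24) (nat_lit 4) (nat_lit 26) (nat_lit 5) (nat_lit 26) (nat_lit 4) (nat_lit 498) (nat_lit 329) (nat_lit 313)) (XT.nd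 (nat_lit 78) (nat_lit 152) (nat_lit 0) (XT.lf (nat_lit 0) (nat_lit 1364520288) (nat_lit 228) (nat_lit 4481151226) (nat_lit 76) (nat_lit 9510054809) (nat_lit 23) (nat_lit 5) (nat_lit 26) (nat_lit 5) (nat_lit 24) (nat_lit 4) (nat_lit 499) (nat_lit 329) (nat_lit 312)) (XT.lf (nat_lit 0) (nat_lit 4520976471) (nat_lit 152) (nat_lit 1475569678) (nat_lit 228) (nat_lit 9563482270) (nat_lit 21) (nat_lit 5) (nat_lit 23) (nat_lit 5) (nat_lit 24) (nat_lit 4) (nat_lit 500) (nat_lit 329) (nat_lit 311))))) (XT.nd (nat_lit 156) (nat_lit 304) (nat_lit 0) (XT.nd (nat_lit 78) (nat_lit 152) (nat_lit 0) (XT.lf (nat_lit 0) (nat_lit 10711566511) (nat_lit 228) (nat_lit 2129464969) (nat_lit 0) (nat_lit 2927587052) (nat_lit 21) (nat_lit 5) (nat_lit 24) (nat_lit 4) (nat_lit 21) (nat_lit 4) (nat_lit 501) (nat_lit 329) (nat_lit 310)) (XT.lf (nat_lit 0) (nat_lit 6935601571) (nat_lit 152) (nat_lit 8581973769) (nat_lit 152) (nat_lit 463880222)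 (nat_lit 19) (nat_lit 4) (nat_lit 21) (nat_lit 5) (nat_lit 21) (nat_lit 4) (nat_lit 502) (nat_lit 329) (nat_lit 309))) (XT.nd (nat_lit 78) (nat_lit 228) (nat_lit 0) (XT.lf (nat_lit 0) (nat_lit 4122142814) (nat_lit 228) (nat_lit 118927893) (nat_lit 76) (nat_lit 11957812046) (nat_lit 18) (nat_lit 5) (nat_lit 21) (nat_lit 5) (nat_lit 19) (nat_lit 4) (nat_lit 503) (nat_lit 329) (nat_lit 308)) (XT.nd (nat_lit 78) (nat_lit 152) (nat_lit 0) (XT.lf (nat_lit 0) (nat_lit 8796540808) (nat_lit 152) (nat_lit 7422365034) (nat_lit 0) (nat_lit 201642368) (nat_lit 17) (nat_lit 5) (nat_lit 19) (nat_lit 4) (nat_lit 17) (nat_lit 4) (nat_lit 504) (nat_lit 329) (nat_lit 307)) (XT.lf (nat_lit 0) (nat_lit 1542623564) (nat_lit 152) (nat_lit 12003978162) (nat_lit 152) (nat_lit 3100409950) (nat_lit 15) (nat_lit 4) (nat_lit 17) (nat_lit 5) (nat_lit 17) (nat_lit 4) (nat_lit 505) (nat_lit 329) (nat_lit 306))))))) (XT.nd (nat_lit 57954) (nat_lit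 0) (nat_lit 836) (XT.nd (nat_lit 57564) (nat_lit 0) (nat_lit 2204) (XT.nd (nat_lit 57330) (nat_lit 0) (nat_lit 3116) (XT.nd (nat_lit 78) (nat_lit 76) (nat_lit 0) (XT.lf (nat_lit 0) (nat_lit 1487287656) (nat_lit 228) (nat_lit 6201864569) (nat_lit 76) (nat_lit 9188793914) (nat_lit 14) (nat_lit 5) (nat_lit 17) (nat_lit 5) (nat_lit 15) (nat_lit 4) (nat_lit 506) (nat_lit 329) (nat_lit 305)) (XT.lf (nat_lit 0) (nat_lit 2794610289) (nat_lit 76) (nat_lit 3293250935) (nat_lit 152) (nat_lit 11025983189) (nat_lit 13) (nat_lit 5) (nat_lit 14) (nat_lit 5) (nat_lit 15) (nat_lit 4) (nat_lit 507) (nat_lit 329) (nat_lit 304))) (XT.nd (nat_lit 78) (nat_lit 304) (nat_lit 0) (XT.lf (nat_lit 0) (nat_lit 1831654055) (nat_lit 228) (nat_lit 2128527333) (nat_lit 228) (nat_lit 2128527333) (nat_lit 58) (nat_lit 4) (nat_lit 61) (nat_lit 5) (nat_lit 61) (nat_lit 4) (nat_lit 480) (nat_lit 330) (nat_lit 330)) (XT.nd (nat_lit 78) (nat_lit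 0) (nat_lit 0) (XT.lf (nat_lit 0) (nat_lit 130410393) (nat_lit 228) (nat_lit 216473374) (nat_lit 304) (nat_lit 11969479683) (nat_lit 54) (nat_lit 5) (nat_lit 57) (nat_lit 5) (nat_lit 58) (nat_lit 4) (nat_lit 481) (nat_lit 330) (nat_lit 329)) (XT.lf (nat_lit 0) (nat_lit 4999937957) (nat_lit 304) (nat_lit 3564645605) (nat_lit 0) (nat_lit 3892675815) (nat_lit 54) (nat_lit 5) (nat_lit 58) (nat_lit 4) (nat_lit 54) (nat_lit 4) (nat_lit 482) (nat_lit 330) (nat_lit 328))))) (XT.nd (nat_lit 156) (nat_lit 456) (nat_lit 0) (XT.nd (nat_lit 78) (nat_lit 228) (nat_lit 0) (XT.lf (nat_lit 0) (nat_lit 5180889654) (nat_lit 228) (nat_lit 4532705348) (nat_lit 228) (nat_lit 2888041662) (nat_lit 51) (nat_lit 4) (nat_lit 54) (nat_lit 5) (nat_lit 54) (nat_lit 4) (nat_lit 483) (nat_lit 330) (nat_lit 327)) (XT.lf (nat_lit 0) (nat_lit 1291637013) (nat_lit 152) (nat_lit 422801085) (nat_lit 228) (nat_lit 11034945686) (nat_lit 48) (nat_lit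 5) (nat_lit 50) (nat_lit 5) (nat_lit 51) (nat_lit 4) (nat_lit 484) (nat_lit 330) (nat_lit 326))) (XT.nd (nat_lit 78) (nat_lit 456) (nat_lit 0) (XT.lf (nat_lit 0) (nat_lit 6377803574) (nat_lit 228) (nat_lit 2779314657) (nat_lit 0) (nat_lit 3742449129) (nat_lit 48) (nat_lit 5) (nat_lit 51) (nat_lit 4) (nat_lit 48) (nat_lit 4) (nat_lit 485) (nat_lit 330) (nat_lit 325)) (XT.nd (nat_lit 78) (nat_lit 228) (nat_lit 0) (XT.lf (nat_lit 0) (nat_lit 6036154323) (nat_lit 228) (nat_lit 5074460158) (nat_lit 228) (nat_lit 1942629754) (nat_lit 45) (nat_lit 4) (nat_lit 48) (nat_lit 5) (nat_lit 48) (nat_lit 4) (nat_lit 486) (nat_lit 330) (nat_lit 324)) (XT.lf (nat_lit 0) (nat_lit 1748035113) (nat_lit 152) (nat_lit 908700853) (nat_lit 228) (nat_lit 10553628540) (nat_lit 42) (nat_lit 5) (nat_lit 44) (nat_lit 5) (nat_lit 45) (nat_lit 4) (nat_lit 487) (nat_lit 330) (nat_lit 323)))))) (XT.nd (nat_lit 390) (nat_lit 760) (nat_lit 0)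 (XT.nd (nat_lit 156) (nat_lit 380) (nat_lit 0) (XT.nd (nat_lit 78) (nat_lit 228) (nat_lit 0) (XT.lf (nat_lit 0) (nat_lit 7325747258) (nat_lit 228) (nat_lit 2734274418) (nat_lit 0) (nat_lit 3310287718) (nat_lit 42) (nat_lit 5) (nat_lit 45) (nat_lit 4) (nat_lit 42) (nat_lit 4) (nat_lit 488) (nat_lit 330) (nat_lit 322)) (XT.lf (nat_lit 0) (nat_lit 6131657958) (nat_lit 228) (nat_lit 5938150301) (nat_lit 228) (nat_lit 1464023717) (nat_lit 39) (nat_lit 4) (nat_lit 42) (nat_lit 5) (nat_lit 42) (nat_lit 4) (nat_lit 489) (nat_lit 330) (nat_lit 321))) (XT.nd (nat_lit 78) (nat_lit 152) (nat_lit 0) (XT.lf (nat_lit 0) (nat_lit 1397881722) (nat_lit 152) (nat_lit 1731663762) (nat_lit 228) (nat_lit 10571404748) (nat_lit 36) (nat_lit 5) (nat_lit 38) (nat_lit 5) (nat_lit 39) (nat_lit 4) (nat_lit 490) (nat_lit 330) (nat_lit 320)) (XT.nd (nat_lit 78) (nat_lit 152) (nat_lit 0) (XT.lf (nat_lit 0) (nat_lit 7798199811) (nat_lit 228)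 (nat_lit 3534240083) (nat_lit 0) (nat_lit 2538732556) (nat_lit 36) (nat_lit 5) (nat_lit 39) (nat_lit 4) (nat_lit 36) (nat_lit 4) (nat_lit 491) (nat_lit 330) (nat_lit 319)) (XT.lf (nat_lit 0) (nat_lit 5359512639) (nat_lit 152) (nat_lit 7184414222) (nat_lit 152) (nat_lit 1501209517) (nat_lit 34) (nat_lit 4) (nat_lit 36) (nat_lit 5) (nat_lit 36) (nat_lit 4) (nat_lit 492) (nat_lit 330) (nat_lit 318))))) (XT.nd (nat_lit 234) (nat_lit 380) (nat_lit 0) (XT.nd (nat_lit 78) (nat_lit 152) (nat_lit 0) (XT.lf (nat_lit 0) (nat_lit 128544496) (nat_lit 152) (nat_lit 2954216926) (nat_lit 228) (nat_lit 11140173535) (nat_lit 31) (nat_lit 5) (nat_lit 33) (nat_lit 5) (nat_lit 34) (nat_lit 4) (nat_lit 493) (nat_lit 330) (nat_lit 317)) (XT.nd (nat_lit 78) (nat_lit 152) (nat_lit 0) (XT.lf (nat_lit 0) (nat_lit 7743584430) (nat_lit 228) (nat_lit 5295177109) (nat_lit 0) (nat_lit 1365234639) (nat_lit 31) (nat_lit 5) (nat_lit 34) (nat_lit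 4) (nat_lit 31) (nat_lit 4) (nat_lit 494) (nat_lit 330) (nat_lit 316)) (XT.lf (nat_lit 0) (nat_lit 3600199183) (nat_lit 152) (nat_lit 8879334670) (nat_lit 152) (nat_lit 2109516973) (nat_lit 29) (nat_lit 4) (nat_lit 31) (nat_lit 5) (nat_lit 31) (nat_lit 4) (nat_lit 495) (nat_lit 330) (nat_lit 315)))) (XT.nd (nat_lit 78) (nat_lit 304) (nat_lit 0) (XT.lf (nat_lit 0) (nat_lit 2474014895) (nat_lit 228) (nat_lit 2156099672) (nat_lit 76) (nat_lit 10147876515) (nat_lit 28) (nat_lit 5) (nat_lit 31) (nat_lit 5) (nat_lit 29) (nat_lit 4) (nat_lit 496) (nat_lit 330) (nat_lit 314)) (XT.nd (nat_lit 78) (nat_lit 152) (nat_lit 0) (XT.lf (nat_lit 0) (nat_lit 6823349045) (nat_lit 152) (nat_lit 282208150) (nat_lit 228) (nat_lit 7865192144) (nat_lit 26) (nat_lit 5) (nat_lit 28) (nat_lit 5) (nat_lit 29) (nat_lit 4) (nat_lit 497) (nat_lit 330) (nat_lit 313)) (XT.lf (nat_lit 0) (nat_lit 721259172) (nat_lit 152) (nat_lit 11095133815)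 (nat_lit 152) (nat_lit 3351246129) (nat_lit 24) (nat_lit 4) (nat_lit 26) (nat_lit 5) (nat_lit 26) (nat_lit 4) (nat_lit 498) (nat_lit 330) (nat_lit 312))))))))
noncomputable def xc5 : XT := (XT.nd (nat_lit 58656) (nat_lit 0) (nat_lit 0) (XT.nd (nat_lit 57798) (nat_lit 0) (nat_lit 1976) (XT.nd (nat_lit 390) (nat_lit 380) (nat_lit 0) (XT.nd (nat_lit 156) (nat_lit 228) (nat_lit 0) (XT.nd (nat_lit 78) (nat_lit 152) (nat_lit 0) (XT.lf (nat_lit 0) (nat_lit 1233989187) (nat_lit 228) (nat_lit 5605794069) (nat_lit 76) (nat_lit 8528581095) (nat_lit 23) (nat_lit 5) (nat_lit 26) (nat_lit 5) (nat_lit 24) (nat_lit 4) (nat_lit 499) (nat_lit 330) (nat_lit 311)) (XT.lf (nat_lit 0) (nat_lit 3329362620) (nat_lit 152) (nat_lit 2500056758) (nat_lit 228) (nat_lit 9743983466) (nat_lit 21) (nat_lit 5) (nat_lit 23) (nat_lit 5) (nat_lit 24) (nat_lit 4) (nat_lit 500) (nat_lit 330) (nat_lit 310))) (XT.nd (nat_lit 78) (nat_lit 228) (nat_lit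 0) (XT.lf (nat_lit 0) (nat_lit 10509018562) (nat_lit 228) (nat_lit 3379238157) (nat_lit 0) (nat_lit 1894449056) (nat_lit 21) (nat_lit 5) (nat_lit 24) (nat_lit 4) (nat_lit 21) (nat_lit 4) (nat_lit 501) (nat_lit 330) (nat_lit 309)) (XT.nd (nat_lit 78) (nat_lit 76) (nat_lit 0) (XT.lf (nat_lit 0) (nat_lit 5618121390) (nat_lit 152) (nat_lit 9660146624) (nat_lit 152) (nat_lit 718014287) (nat_lit 19) (nat_lit 4) (nat_lit 21) (nat_lit 5) (nat_lit 21) (nat_lit 4) (nat_lit 502) (nat_lit 330) (nat_lit 308)) (XT.lf (nat_lit 0) (nat_lit 3843174681) (nat_lit 228) (nat_lit 1500059512) (nat_lit 76) (nat_lit 10871075782) (nat_lit 18) (nat_lit 5) (nat_lit 21) (nat_lit 5) (nat_lit 19) (nat_lit 4) (nat_lit 503) (nat_lit 330) (nat_lit 307))))) (XT.nd (nat_lit 156) (nat_lit 152) (nat_lit 0) (XT.nd (nat_lit 78) (nat_lit 152) (nat_lit 0) (XT.lf (nat_lit 0) (nat_lit 7549907537) (nat_lit 76) (nat_lit 929311805) (nat_lit 152) (nat_lit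 7957527215) (nat_lit 17) (nat_lit 5) (nat_lit 18) (nat_lit 5) (nat_lit 19) (nat_lit 4) (nat_lit 504) (nat_lit 330) (nat_lit 306)) (XT.lf (nat_lit 0) (nat_lit 14572673) (nat_lit 152) (nat_lit 13171218937) (nat_lit 152) (nat_lit 3478292166) (nat_lit 15) (nat_lit 4) (nat_lit 17) (nat_lit 5) (nat_lit 17) (nat_lit 4) (nat_lit 505) (nat_lit 330) (nat_lit 305))) (XT.nd (nat_lit 78) (nat_lit 76) (nat_lit 0) (XT.lf (nat_lit 0) (nat_lit 1086863031) (nat_lit 228) (nat_lit 7794147195) (nat_lit 76) (nat_lit 8014610874) (nat_lit 14) (nat_lit 5) (nat_lit 17) (nat_lit 5) (nat_lit 15) (nat_lit 4) (nat_lit 506) (nat_lit 330) (nat_lit 304)) (XT.nd (nat_lit 57096) (nat_lit 0) (nat_lit 3952) (XT.lf (nat_lit 0) (nat_lit 1131880369) (nat_lit 76) (nat_lit 4517801466) (nat_lit 152) (nat_lit 11482596385) (nat_lit 13) (nat_lit 5) (nat_lit 14) (nat_lit 5) (nat_lit 15) (nat_lit 4) (nat_lit 507) (nat_lit 330) (nat_lit 303)) (XT.lf (nat_lit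 0) (nat_lit 5167000256) (nat_lit 228) (nat_lit 393680007) (nat_lit 228) (nat_lit 393680007) (nat_lit 65) (nat_lit 4) (nat_lit 68) (nat_lit 5) (nat_lit 68) (nat_lit 4) (nat_lit 478) (nat_lit 331) (nat_lit 331)))))) (XT.nd (nat_lit 390) (nat_lit 912) (nat_lit 0) (XT.nd (nat_lit 156) (nat_lit 532) (nat_lit 0) (XT.nd (nat_lit 78) (nat_lit 228) (nat_lit 0) (XT.lf (nat_lit 0) (nat_lit 3813944013) (nat_lit 304) (nat_lit 4995652035) (nat_lit 0) (nat_lit 3232243298) (nat_lit 61) (nat_lit 5) (nat_lit 65) (nat_lit 4) (nat_lit 61) (nat_lit 4) (nat_lit 479) (nat_lit 331) (nat_lit 330)) (XT.lf (nat_lit 0) (nat_lit 3606000029) (nat_lit 228) (nat_lit 4862050355) (nat_lit 228) (nat_lit 3710054822) (nat_lit 58) (nat_lit 4) (nat_lit 61) (nat_lit 5) (nat_lit 61) (nat_lit 4) (nat_lit 480) (nat_lit 331) (nat_lit 329))) (XT.nd (nat_lit 78) (nat_lit 228) (nat_lit 0) (XT.lf (nat_lit 0) (nat_lit 10654660) (nat_lit 228) (nat_lit 841703141)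 (nat_lit 304) (nat_lit 11465316627) (nat_lit 54) (nat_lit 5) (nat_lit 57) (nat_lit 5) (nat_lit 58) (nat_lit 4) (nat_lit 481) (nat_lit 331) (nat_lit 328)) (XT.nd (nat_lit 78) (nat_lit 228) (nat_lit 0) (XT.lf (nat_lit 0) (nat_lit 5467922090) (nat_lit 304) (nat_lit 3738441545) (nat_lit 0) (nat_lit 3252963586) (nat_lit 54) (nat_lit 5) (nat_lit 58) (nat_lit 4) (nat_lit 54) (nat_lit 4) (nat_lit 482) (nat_lit 331) (nat_lit 327)) (XT.lf (nat_lit 0) (nat_lit 4948369032) (nat_lit 228) (nat_lit 5198925431) (nat_lit 228) (nat_lit 2457102667) (nat_lit 51) (nat_lit 4) (nat_lit 54) (nat_lit 5) (nat_lit 54) (nat_lit 4) (nat_lit 483) (nat_lit 331) (nat_lit 326))))) (XT.nd (nat_lit 234) (nat_lit 456) (nat_lit 0) (XT.nd (nat_lit 78) (nat_lit 228) (nat_lit 0) (XT.lf (nat_lit 0) (nat_lit 993902895) (nat_lit 152) (nat_lit 1111175939) (nat_lit 228) (nat_lit 10647709045) (nat_lit 48) (nat_lit 5) (nat_lit 50) (nat_lit 5) (nat_lit 51)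 (nat_lit 4) (nat_lit 484) (nat_lit 331) (nat_lit 325)) (XT.nd (nat_lit 78) (nat_lit 228) (nat_lit 0) (XT.lf (nat_lit 0) (nat_lit 6731394428) (nat_lit 228) (nat_lit 3131873097) (nat_lit 0) (nat_lit 3040451458) (nat_lit 48) (nat_lit 5) (nat_lit 51) (nat_lit 4) (nat_lit 48) (nat_lit 4) (nat_lit 485) (nat_lit 331) (nat_lit 324)) (XT.lf (nat_lit 0) (nat_lit 5623388648) (nat_lit 228) (nat_lit 5806195074) (nat_lit 228) (nat_lit 1628510968) (nat_lit 45) (nat_lit 4) (nat_lit 48) (nat_lit 5) (nat_lit 48) (nat_lit 4) (nat_lit 486) (nat_lit 331) (nat_lit 323)))) (XT.nd (nat_lit 78) (nat_lit 228) (nat_lit 0) (XT.lf (nat_lit 0) (nat_lit 1267210274) (nat_lit 152) (nat_lit 1664518227) (nat_lit 228) (nat_lit 10284151956) (nat_lit 42) (nat_lit 5) (nat_lit 44) (nat_lit 5) (nat_lit 45) (nat_lit 4) (nat_lit 487) (nat_lit 331) (nat_lit 322)) (XT.nd (nat_lit 78) (nat_lit 228) (nat_lit 0) (XT.lf (nat_lit 0) (nat_lit 7564070548) (nat_lit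 228) (nat_lit 3270699825) (nat_lit 0) (nat_lit 2541794388) (nat_lit 42) (nat_lit 5) (nat_lit 45) (nat_lit 4) (nat_lit 42) (nat_lit 4) (nat_lit 488) (nat_lit 331) (nat_lit 321)) (XT.lf (nat_lit 0) (nat_lit 5533473643) (nat_lit 228) (nat_lit 6739634903) (nat_lit 228) (nat_lit 1267685171) (nat_lit 39) (nat_lit 4) (nat_lit 42) (nat_lit 5) (nat_lit 42) (nat_lit 4) (nat_lit 489) (nat_lit 331) (nat_lit 320))))))) (XT.nd (nat_lit 780) (nat_lit 760) (nat_lit 0) (XT.nd (nat_lit 390) (nat_lit 608) (nat_lit 0) (XT.nd (nat_lit 156) (nat_lit 380) (nat_lit 0) (XT.nd (nat_lit 78) (nat_lit 0) (nat_lit 0) (XT.lf (nat_lit 0) (nat_lit 728706831) (nat_lit 152) (nat_lit 2559170894) (nat_lit 228) (nat_lit 10420723062) (nat_lit 36) (nat_lit 5) (nat_lit 38) (nat_lit 5) (nat_lit 39) (nat_lit 4) (nat_lit 490) (nat_lit 331) (nat_lit 319)) (XT.lf (nat_lit 0) (nat_lit 7920186136) (nat_lit 228) (nat_lit 4259789474) (nat_lit 0) (nat_lit 1699579887)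 (nat_lit 36) (nat_lit 5) (nat_lit 39) (nat_lit 4) (nat_lit 36) (nat_lit 4) (nat_lit 491) (nat_lit 331) (nat_lit 318))) (XT.nd (nat_lit 78) (nat_lit 228) (nat_lit 0) (XT.lf (nat_lit 0) (nat_lit 4570580307) (nat_lit 152) (nat_lit 8059844733) (nat_lit 152) (nat_lit 1423809611) (nat_lit 34) (nat_lit 4) (nat_lit 36) (nat_lit 5) (nat_lit 36) (nat_lit 4) (nat_lit 492) (nat_lit 331) (nat_lit 317)) (XT.nd (nat_lit 78) (nat_lit 152) (nat_lit 0) (XT.lf (nat_lit 0) (nat_lit 3127994368) (nat_lit 228) (nat_lit 724769706) (nat_lit 76) (nat_lit 10379887394) (nat_lit 33) (nat_lit 5) (nat_lit 36) (nat_lit 5) (nat_lit 34) (nat_lit 4) (nat_lit 493) (nat_lit 331) (nat_lit 316)) (XT.lf (nat_lit 0) (nat_lit 7747971099) (nat_lit 228) (nat_lit 6215274521) (nat_lit 0) (nat_lit 451289144) (nat_lit 31) (nat_lit 5) (nat_lit 34) (nat_lit 4) (nat_lit 31) (nat_lit 4) (nat_lit 494) (nat_lit 331) (nat_lit 315))))) (XT.nd (nat_lit 156) (nat_lit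 380) (nat_lit 0) (XT.nd (nat_lit 78) (nat_lit 76) (nat_lit 0) (XT.lf (nat_lit 0) (nat_lit 2615019127) (nat_lit 152) (nat_lit 9832884841) (nat_lit 152) (nat_lit 2152410821) (nat_lit 29) (nat_lit 4) (nat_lit 31) (nat_lit 5) (nat_lit 31) (nat_lit 4) (nat_lit 495) (nat_lit 331) (nat_lit 314)) (XT.lf (nat_lit 0) (nat_lit 2402108417) (nat_lit 228) (nat_lit 3204481746) (nat_lit 76) (nat_lit 9183266807) (nat_lit 28) (nat_lit 5) (nat_lit 31) (nat_lit 5) (nat_lit 29) (nat_lit 4) (nat_lit 496) (nat_lit 331) (nat_lit 313))) (XT.nd (nat_lit 78) (nat_lit 228) (nat_lit 0) (XT.lf (nat_lit 0) (nat_lit 5709161504) (nat_lit 152) (nat_lit 1288259883) (nat_lit 228) (nat_lit 7985923183) (nat_lit 26) (nat_lit 5) (nat_lit 28) (nat_lit 5) (nat_lit 29) (nat_lit 4) (nat_lit 497) (nat_lit 331) (nat_lit 312)) (XT.nd (nat_lit 78) (nat_lit 228) (nat_lit 0) (XT.lf (nat_lit 0) (nat_lit 11668141911) (nat_lit 228) (nat_lit 459743312) (nat_lit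 0) (nat_lit 3053156094) (nat_lit 26) (nat_lit 5) (nat_lit 29) (nat_lit 4) (nat_lit 26) (nat_lit 4) (nat_lit 498) (nat_lit 331) (nat_lit 311)) (XT.lf (nat_lit 0) (nat_lit 1042552442) (nat_lit 228) (nat_lit 6856642179) (nat_lit 76) (nat_lit 7483235475) (nat_lit 23) (nat_lit 5) (nat_lit 26) (nat_lit 5) (nat_lit 24) (nat_lit 4) (nat_lit 499) (nat_lit 331) (nat_lit 310)))))) (XT.nd (nat_lit 390) (nat_lit 304) (nat_lit 0) (XT.nd (nat_lit 156) (nat_lit 304) (nat_lit 0) (XT.nd (nat_lit 78) (nat_lit 0) (nat_lit 0) (XT.lf (nat_lit 0) (nat_lit 2010886403) (nat_lit 152) (nat_lit 3590242748) (nat_lit 228) (nat_lit 9987080902) (nat_lit 21) (nat_lit 5) (nat_lit 23) (nat_lit 5) (nat_lit 24) (nat_lit 4) (nat_lit 500) (nat_lit 331) (nat_lit 309)) (XT.lf (nat_lit 0) (nat_lit 10245444702) (nat_lit 228) (nat_lit 4755871375) (nat_lit 0) (nat_lit 796906887) (nat_lit 21) (nat_lit 5) (nat_lit 24) (nat_lit 4) (nat_lit 21) (nat_lit 4)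 (nat_lit 501) (nat_lit 331) (nat_lit 308))) (XT.nd (nat_lit 78) (nat_lit 152) (nat_lit 0) (XT.lf (nat_lit 0) (nat_lit 4173097201) (nat_lit 152) (nat_lit 10804562523) (nat_lit 152) (nat_lit 1034884677) (nat_lit 19) (nat_lit 4) (nat_lit 21) (nat_lit 5) (nat_lit 21) (nat_lit 4) (nat_lit 502) (nat_lit 331) (nat_lit 307)) (XT.nd (nat_lit 78) (nat_lit 76) (nat_lit 0) (XT.lf (nat_lit 0) (nat_lit 3502845316) (nat_lit 228) (nat_lit 3008773474) (nat_lit 76) (nat_lit 9719550787) (nat_lit 18) (nat_lit 5) (nat_lit 21) (nat_lit 5) (nat_lit 19) (nat_lit 4) (nat_lit 503) (nat_lit 331) (nat_lit 306)) (XT.lf (nat_lit 0) (nat_lit 5971984113) (nat_lit 76) (nat_lit 2129587618) (nat_lit 152) (nat_lit 8352784773) (nat_lit 17) (nat_lit 5) (nat_lit 18) (nat_lit 5) (nat_lit 19) (nat_lit 4) (nat_lit 504) (nat_lit 331) (nat_lit 305))))) (XT.nd (nat_lit 312) (nat_lit 76) (nat_lit 0) (XT.nd (nat_lit 78) (nat_lit 228) (nat_lit 0) (XT.lf (nat_lit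 0) (nat_lit 12773262455) (nat_lit 152) (nat_lit 1621956825) (nat_lit 0) (nat_lit 2287175977) (nat_lit 17) (nat_lit 5) (nat_lit 19) (nat_lit 4) (nat_lit 17) (nat_lit 4) (nat_lit 505) (nat_lit 331) (nat_lit 304)) (XT.nd (nat_lit 78) (nat_lit 0) (nat_lit 0) (XT.lf (nat_lit 0) (nat_lit 623972294) (nat_lit 228) (nat_lit 9516528863) (nat_lit 76) (nat_lit 6774245133) (nat_lit 14) (nat_lit 5) (nat_lit 17) (nat_lit 5) (nat_lit 15) (nat_lit 4) (nat_lit 506) (nat_lit 331) (nat_lit 303)) (XT.lf (nat_lit 0) (nat_lit 5153011575) (nat_lit 228) (nat_lit 653032673) (nat_lit 76) (nat_lit 11346038430) (nat_lit 14) (nat_lit 5) (nat_lit 17) (nat_lit 5) (nat_lit 15) (nat_lit 4) (nat_lit 507) (nat_lit 331) (nat_lit 302)))) (XT.nd (nat_lit 56784) (nat_lit 0) (nat_lit 3952) (XT.lf (nat_lit 0) (nat_lit 14461803570) (nat_lit 152) (nat_lit 105979442) (nat_lit 0) (nat_lit 3073786215) (nat_lit 13) (nat_lit 5) (nat_lit 15) (nat_lit 4) (nat_lit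 13) (nat_lit 4) (nat_lit 509) (nat_lit 331) (nat_lit 300)) (XT.nd (nat_lit 78) (nat_lit 228) (nat_lit 0) (XT.lf (nat_lit 0) (nat_lit 1221909784) (nat_lit 304) (nat_lit 3380755489) (nat_lit 0) (nat_lit 1221909784) (nat_lit 68) (nat_lit 5) (nat_lit 72) (nat_lit 4) (nat_lit 68) (nat_lit 4) (nat_lit 476) (nat_lit 332) (nat_lit 332)) (XT.lf (nat_lit 0) (nat_lit 1684486975) (nat_lit 228) (nat_lit 5349235558) (nat_lit 228) (nat_lit 4744034134) (nat_lit 65) (nat_lit 4) (nat_lit 68) (nat_lit 5) (nat_lit 68) (nat_lit 4) (nat_lit 477) (nat_lit 332) (nat_lit 331))))))))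
noncomputable def xc6 : XT := (XT.nd (nat_lit 1638) (nat_lit 988) (nat_lit 0) (XT.nd (nat_lit 780) (nat_lit 1216) (nat_lit 0) (XT.nd (nat_lit 390) (nat_lit 912) (nat_lit 0) (XT.nd (nat_lit 156) (nat_lit 532) (nat_lit 0) (XT.nd (nat_lit 78) (nat_lit 304) (nat_lit 0) (XT.lf (nat_lit 0) (nat_lit 10278060870) (nat_lit 228) (nat_lit 1414937450) (nat_lit 228) (nat_lit 216401297) (nat_lit 65) (nat_lit 4) (nat_lit 68) (nat_lit 5) (nat_lit 68) (nat_lit 4) (nat_lit 478) (nat_lit 332) (nat_lit 330)) (XT.lf (nat_lit 0) (nat_lit 4339323871) (nat_lit 304) (nat_lit 5109896114) (nat_lit 0) (nat_lit 2593993609) (nat_lit 61) (nat_lit 5) (nat_lit 65) (nat_lit 4) (nat_lit 61) (nat_lit 4) (nat_lit 479) (nat_lit 332) (nat_lit 329))) (XT.nd (nat_lit 78) (nat_lit 304) (nat_lit 0) (XT.lf (nat_lit 0) (nat_lit 3434053314) (nat_lit 228) (nat_lit 5525279139) (nat_lit 228) (nat_lit 3220836310) (nat_lit 58) (nat_lit 4) (nat_lit 61) (nat_lit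 5) (nat_lit 61) (nat_lit 4) (nat_lit 480) (nat_lit 332) (nat_lit 328)) (XT.nd (nat_lit 78) (nat_lit 228) (nat_lit 0) (XT.lf (nat_lit 0) (nat_lit 1302174990) (nat_lit 304) (nat_lit 222198921) (nat_lit 76) (nat_lit 10795967317) (nat_lit 57) (nat_lit 5) (nat_lit 61) (nat_lit 5) (nat_lit 58) (nat_lit 4) (nat_lit 481) (nat_lit 332) (nat_lit 327)) (XT.lf (nat_lit 0) (nat_lit 5879060418) (nat_lit 304) (nat_lit 4028177171) (nat_lit 0) (nat_lit 2555536939) (nat_lit 54) (nat_lit 5) (nat_lit 58) (nat_lit 4) (nat_lit 54) (nat_lit 4) (nat_lit 482) (nat_lit 332) (nat_lit 326))))) (XT.nd (nat_lit 156) (nat_lit 456) (nat_lit 0) (XT.nd (nat_lit 78) (nat_lit 228) (nat_lit 0) (XT.lf (nat_lit 0) (nat_lit 4599474123) (nat_lit 228) (nat_lit 5924561063) (nat_lit 228) (nat_lit 2084503996) (nat_lit 51) (nat_lit 4) (nat_lit 54) (nat_lit 5) (nat_lit 54) (nat_lit 4) (nat_lit 483) (nat_lit 332) (nat_lit 325)) (XT.lf (nat_lit 0) (nat_lit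 578339477) (nat_lit 152) (nat_lit 1859681325) (nat_lit 228) (nat_lit 10319562675) (nat_lit 48) (nat_lit 5) (nat_lit 50) (nat_lit 5) (nat_lit 51) (nat_lit 4) (nat_lit 484) (nat_lit 332) (nat_lit 324))) (XT.nd (nat_lit 78) (nat_lit 456) (nat_lit 0) (XT.lf (nat_lit 0) (nat_lit 7027534939) (nat_lit 228) (nat_lit 3602166058) (nat_lit 0) (nat_lit 2279556015) (nat_lit 48) (nat_lit 5) (nat_lit 51) (nat_lit 4) (nat_lit 48) (nat_lit 4) (nat_lit 485) (nat_lit 332) (nat_lit 323)) (XT.nd (nat_lit 78) (nat_lit 228) (nat_lit 0) (XT.lf (nat_lit 0) (nat_lit 5092412489) (nat_lit 228) (nat_lit 6598548940) (nat_lit 228) (nat_lit 1373372823) (nat_lit 45) (nat_lit 4) (nat_lit 48) (nat_lit 5) (nat_lit 48) (nat_lit 4) (nat_lit 486) (nat_lit 332) (nat_lit 322)) (XT.lf (nat_lit 0) (nat_lit 666674504) (nat_lit 152) (nat_lit 2481687379) (nat_lit 228) (nat_lit 10074434207) (nat_lit 42) (nat_lit 5) (nat_lit 44) (nat_lit 5) (nat_lit 45) (nat_lit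 4) (nat_lit 487) (nat_lit 332) (nat_lit 321)))))) (XT.nd (nat_lit 390) (nat_lit 608) (nat_lit 0) (XT.nd (nat_lit 156) (nat_lit 380) (nat_lit 0) (XT.nd (nat_lit 78) (nat_lit 228) (nat_lit 0) (XT.lf (nat_lit 0) (nat_lit 7744259133) (nat_lit 228) (nat_lit 3926759238) (nat_lit 0) (nat_lit 1713196834) (nat_lit 42) (nat_lit 5) (nat_lit 45) (nat_lit 4) (nat_lit 42) (nat_lit 4) (nat_lit 488) (nat_lit 332) (nat_lit 320)) (XT.lf (nat_lit 0) (nat_lit 4815136628) (nat_lit 228) (nat_lit 7602967962) (nat_lit 228) (nat_lit 1131049219) (nat_lit 39) (nat_lit 4) (nat_lit 42) (nat_lit 5) (nat_lit 42) (nat_lit 4) (nat_lit 489) (nat_lit 332) (nat_lit 319))) (XT.nd (nat_lit 78) (nat_lit 304) (nat_lit 0) (XT.lf (nat_lit 0) (nat_lit 3387513402) (nat_lit 304) (nat_lit 61353868) (nat_lit 76) (nat_lit 10268785606) (nat_lit 38) (nat_lit 5) (nat_lit 42) (nat_lit 5) (nat_lit 39) (nat_lit 4) (nat_lit 490) (nat_lit 332) (nat_lit 318)) (XT.nd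 (nat_lit 78) (nat_lit 152) (nat_lit 0) (XT.lf (nat_lit 0) (nat_lit 7983273123) (nat_lit 228) (nat_lit 5106982474) (nat_lit 0) (nat_lit 799088425) (nat_lit 36) (nat_lit 5) (nat_lit 39) (nat_lit 4) (nat_lit 36) (nat_lit 4) (nat_lit 491) (nat_lit 332) (nat_lit 317)) (XT.lf (nat_lit 0) (nat_lit 3659441528) (nat_lit 152) (nat_lit 8998384318) (nat_lit 152) (nat_lit 1406916411) (nat_lit 34) (nat_lit 4) (nat_lit 36) (nat_lit 5) (nat_lit 36) (nat_lit 4) (nat_lit 492) (nat_lit 332) (nat_lit 316))))) (XT.nd (nat_lit 234) (nat_lit 228) (nat_lit 0) (XT.nd (nat_lit 78) (nat_lit 304) (nat_lit 0) (XT.lf (nat_lit 0) (nat_lit 3114943216) (nat_lit 228) (nat_lit 1698579872) (nat_lit 76) (nat_lit 9430233396) (nat_lit 33) (nat_lit 5) (nat_lit 36) (nat_lit 5) (nat_lit 34) (nat_lit 4) (nat_lit 493) (nat_lit 332) (nat_lit 315)) (XT.nd (nat_lit 78) (nat_lit 152) (nat_lit 0) (XT.lf (nat_lit 0) (nat_lit 7163825402) (nat_lit 152) (nat_lit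 532243150) (nat_lit 228) (nat_lit 6730353303) (nat_lit 31) (nat_lit 5) (nat_lit 33) (nat_lit 5) (nat_lit 34) (nat_lit 4) (nat_lit 494) (nat_lit 332) (nat_lit 314)) (XT.lf (nat_lit 0) (nat_lit 1505461776) (nat_lit 152) (nat_lit 10850840663) (nat_lit 152) (nat_lit 2256698369) (nat_lit 29) (nat_lit 4) (nat_lit 31) (nat_lit 5) (nat_lit 31) (nat_lit 4) (nat_lit 495) (nat_lit 332) (nat_lit 313)))) (XT.nd (nat_lit 78) (nat_lit 152) (nat_lit 0) (XT.lf (nat_lit 0) (nat_lit 2270193333) (nat_lit 228) (nat_lit 4377240709) (nat_lit 76) (nat_lit 8155707150) (nat_lit 28) (nat_lit 5) (nat_lit 31) (nat_lit 5) (nat_lit 29) (nat_lit 4) (nat_lit 496) (nat_lit 332) (nat_lit 312)) (XT.nd (nat_lit 78) (nat_lit 0) (nat_lit 0) (XT.lf (nat_lit 0) (nat_lit 4469961288) (nat_lit 152) (nat_lit 2359072556) (nat_lit 228) (nat_lit 8168329062) (nat_lit 26) (nat_lit 5) (nat_lit 28) (nat_lit 5) (nat_lit 29) (nat_lit 4) (nat_lit 497) (nat_lit 332)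 (nat_lit 311)) (XT.lf (nat_lit 0) (nat_lit 11464468194) (nat_lit 228) (nat_lit 1756295931) (nat_lit 0) (nat_lit 1975005821) (nat_lit 26) (nat_lit 5) (nat_lit 29) (nat_lit 4) (nat_lit 26) (nat_lit 4) (nat_lit 498) (nat_lit 332) (nat_lit 310))))))) (XT.nd (nat_lit 57408) (nat_lit 0) (nat_lit 2660) (XT.nd (nat_lit 390) (nat_lit 380) (nat_lit 0) (XT.nd (nat_lit 156) (nat_lit 228) (nat_lit 0) (XT.nd (nat_lit 78) (nat_lit 152) (nat_lit 0) (XT.lf (nat_lit 0) (nat_lit 790134980) (nat_lit 228) (nat_lit 8234186082) (nat_lit 76) (nat_lit 6373608010) (nat_lit 23) (nat_lit 5) (nat_lit 26) (nat_lit 5) (nat_lit 24) (nat_lit 4) (nat_lit 499) (nat_lit 332) (nat_lit 309)) (XT.lf (nat_lit 0) (nat_lit 565030768) (nat_lit 152) (nat_lit 4746555171) (nat_lit 228) (nat_lit 10292869911) (nat_lit 21) (nat_lit 5) (nat_lit 23) (nat_lit 5) (nat_lit 24) (nat_lit 4) (nat_lit 500) (nat_lit 332) (nat_lit 308))) (XT.nd (nat_lit 78) (nat_lit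 228) (nat_lit 0) (XT.lf (nat_lit 0) (nat_lit 9552819210) (nat_lit 152) (nat_lit 370326765) (nat_lit 228) (nat_lit 5891982120) (nat_lit 21) (nat_lit 5) (nat_lit 23) (nat_lit 5) (nat_lit 24) (nat_lit 4) (nat_lit 501) (nat_lit 332) (nat_lit 307)) (XT.nd (nat_lit 78) (nat_lit 76) (nat_lit 0) (XT.lf (nat_lit 0) (nat_lit 2599962329) (nat_lit 152) (nat_lit 12015670257) (nat_lit 152) (nat_lit 1414615656) (nat_lit 19) (nat_lit 4) (nat_lit 21) (nat_lit 5) (nat_lit 21) (nat_lit 4) (nat_lit 502) (nat_lit 332) (nat_lit 306)) (XT.lf (nat_lit 0) (nat_lit 3101021256) (nat_lit 228) (nat_lit 4645661433) (nat_lit 76) (nat_lit 8502785483) (nat_lit 18) (nat_lit 5) (nat_lit 21) (nat_lit 5) (nat_lit 19) (nat_lit 4) (nat_lit 503) (nat_lit 332) (nat_lit 305))))) (XT.nd (nat_lit 156) (nat_lit 304) (nat_lit 0) (XT.nd (nat_lit 78) (nat_lit 0) (nat_lit 0) (XT.lf (nat_lit 0) (nat_lit 4265147239) (nat_lit 76) (nat_lit 3396976045) (nat_lit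 152) (nat_lit 8811288206) (nat_lit 17) (nat_lit 5) (nat_lit 18) (nat_lit 5) (nat_lit 19) (nat_lit 4) (nat_lit 504) (nat_lit 332) (nat_lit 304)) (XT.lf (nat_lit 0) (nat_lit 12299120632) (nat_lit 152) (nat_lit 3387265048) (nat_lit 0) (nat_lit 1015762255) (nat_lit 17) (nat_lit 5) (nat_lit 19) (nat_lit 4) (nat_lit 17) (nat_lit 4) (nat_lit 505) (nat_lit 332) (nat_lit 303))) (XT.nd (nat_lit 78) (nat_lit 76) (nat_lit 0) (XT.lf (nat_lit 0) (nat_lit 98433919) (nat_lit 228) (nat_lit 11369685016) (nat_lit 76) (nat_lit 5467210273) (nat_lit 14) (nat_lit 5) (nat_lit 17) (nat_lit 5) (nat_lit 15) (nat_lit 4) (nat_lit 506) (nat_lit 332) (nat_lit 302)) (XT.nd (nat_lit 156) (nat_lit 76) (nat_lit 0) (XT.lf (nat_lit 0) (nat_lit 4601560841) (nat_lit 228) (nat_lit 2552940356) (nat_lit 76) (nat_lit 10018686250) (nat_lit 14) (nat_lit 5) (nat_lit 17) (nat_lit 5) (nat_lit 15) (nat_lit 4) (nat_lit 507) (nat_lit 332) (nat_lit 301)) (XT.lf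 (nat_lit 0) (nat_lit 13837841337) (nat_lit 152) (nat_lit 2136388541) (nat_lit 0) (nat_lit 1689901346) (nat_lit 13) (nat_lit 5) (nat_lit 15) (nat_lit 4) (nat_lit 13) (nat_lit 4) (nat_lit 509) (nat_lit 332) (nat_lit 299)))))) (XT.nd (nat_lit 390) (nat_lit 1216) (nat_lit 0) (XT.nd (nat_lit 156) (nat_lit 608) (nat_lit 0) (XT.nd (nat_lit 78) (nat_lit 304) (nat_lit 0) (XT.lf (nat_lit 0) (nat_lit 2723080696) (nat_lit 304) (nat_lit 253443226) (nat_lit 0) (nat_lit 2723080696) (nat_lit 76) (nat_lit 5) (nat_lit 80) (nat_lit 4) (nat_lit 76) (nat_lit 4) (nat_lit 474) (nat_lit 333) (nat_lit 333)) (XT.lf (nat_lit 0) (nat_lit 7939451533) (nat_lit 304) (nat_lit 2106733927) (nat_lit 304) (nat_lit 1477082366) (nat_lit 72) (nat_lit 4) (nat_lit 76) (nat_lit 5) (nat_lit 76) (nat_lit 4) (nat_lit 475) (nat_lit 333) (nat_lit 332))) (XT.nd (nat_lit 78) (nat_lit 304) (nat_lit 0) (XT.lf (nat_lit 0) (nat_lit 3027260578) (nat_lit 304) (nat_lit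 6817821082) (nat_lit 0) (nat_lit 1804753703) (nat_lit 68) (nat_lit 5) (nat_lit 72) (nat_lit 4) (nat_lit 68) (nat_lit 4) (nat_lit 476) (nat_lit 333) (nat_lit 331)) (XT.nd (nat_lit 78) (nat_lit 76) (nat_lit 0) (XT.lf (nat_lit 0) (nat_lit 1571488896) (nat_lit 228) (nat_lit 6011740554) (nat_lit 228) (nat_lit 4195898950) (nat_lit 65) (nat_lit 4) (nat_lit 68) (nat_lit 5) (nat_lit 68) (nat_lit 4) (nat_lit 477) (nat_lit 333) (nat_lit 330)) (XT.lf (nat_lit 0) (nat_lit 294252149) (nat_lit 304) (nat_lit 1803152976) (nat_lit 76) (nat_lit 9813993268) (nat_lit 64) (nat_lit 5) (nat_lit 68) (nat_lit 5) (nat_lit 65) (nat_lit 4) (nat_lit 478) (nat_lit 333) (nat_lit 329))))) (XT.nd (nat_lit 234) (nat_lit 684) (nat_lit 0) (XT.nd (nat_lit 78) (nat_lit 304) (nat_lit 0) (XT.lf (nat_lit 0) (nat_lit 4808588903) (nat_lit 304) (nat_lit 5338429073) (nat_lit 0) (nat_lit 1898944651) (nat_lit 61) (nat_lit 5) (nat_lit 65) (nat_lit 4) (nat_lit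 61) (nat_lit 4) (nat_lit 479) (nat_lit 333) (nat_lit 328)) (XT.nd (nat_lit 78) (nat_lit 76) (nat_lit 0) (XT.lf (nat_lit 0) (nat_lit 3147400534) (nat_lit 228) (nat_lit 6247001108) (nat_lit 228) (nat_lit 2789207281) (nat_lit 58) (nat_lit 4) (nat_lit 61) (nat_lit 5) (nat_lit 61) (nat_lit 4) (nat_lit 480) (nat_lit 333) (nat_lit 327)) (XT.lf (nat_lit 0) (nat_lit 1695872581) (nat_lit 304) (nat_lit 569532756) (nat_lit 76) (nat_lit 10058972343) (nat_lit 57) (nat_lit 5) (nat_lit 61) (nat_lit 5) (nat_lit 58) (nat_lit 4) (nat_lit 481) (nat_lit 333) (nat_lit 326)))) (XT.nd (nat_lit 78) (nat_lit 456) (nat_lit 0) (XT.lf (nat_lit 0) (nat_lit 6233514169) (nat_lit 304) (nat_lit 4433966106) (nat_lit 0) (nat_lit 1800122374) (nat_lit 54) (nat_lit 5) (nat_lit 58) (nat_lit 4) (nat_lit 54) (nat_lit 4) (nat_lit 482) (nat_lit 333) (nat_lit 325)) (XT.nd (nat_lit 78) (nat_lit 228) (nat_lit 0) (XT.lf (nat_lit 0) (nat_lit 4134068105) (nat_lit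 228) (nat_lit 6709896806) (nat_lit 228) (nat_lit 1770099533) (nat_lit 51) (nat_lit 4) (nat_lit 54) (nat_lit 5) (nat_lit 54) (nat_lit 4) (nat_lit 483) (nat_lit 333) (nat_lit 324)) (XT.lf (nat_lit 0) (nat_lit 44783795) (nat_lit 152) (nat_lit 2668610772) (nat_lit 228) (nat_lit 10050377893) (nat_lit 48) (nat_lit 5) (nat_lit 50) (nat_lit 5) (nat_lit 51) (nat_lit 4) (nat_lit 484) (nat_lit 333) (nat_lit 323))))))))
noncomputable def xc7 : XT := (XT.nd (nat_lit 1638) (nat_lit 304) (nat_lit 0) (XT.nd (nat_lit 780) (nat_lit 1064) (nat_lit 0) (XT.nd (nat_lit 390) (nat_lit 608) (nat_lit 0) (XT.nd (nat_lit 156) (nat_lit 456) (nat_lit 0) (XT.nd (nat_lit 78) (nat_lit 228) (nat_lit 0) (XT.lf (nat_lit 0) (nat_lit 7266341241) (nat_lit 228) (nat_lit 4190377967) (nat_lit 0) (nat_lit 1459464410) (nat_lit 48) (nat_lit 5) (nat_lit 51) (nat_lit 4) (nat_lit 48) (nat_lit 4) (nat_lit 485) (nat_lit 333) (nat_lit 322)) (XT.lf (nat_lit 0)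 (nat_lit 4443017618) (nat_lit 228) (nat_lit 7451832481) (nat_lit 228) (nat_lit 1177115265) (nat_lit 45) (nat_lit 4) (nat_lit 48) (nat_lit 5) (nat_lit 48) (nat_lit 4) (nat_lit 486) (nat_lit 333) (nat_lit 321))) (XT.nd (nat_lit 78) (nat_lit 380) (nat_lit 0) (XT.lf (nat_lit 0) (nat_lit 3307070423) (nat_lit 304) (nat_lit 53102003) (nat_lit 76) (nat_lit 9870934707) (nat_lit 44) (nat_lit 5) (nat_lit 48) (nat_lit 5) (nat_lit 45) (nat_lit 4) (nat_lit 487) (nat_lit 333) (nat_lit 320)) (XT.nd (nat_lit 78) (nat_lit 228) (nat_lit 0) (XT.lf (nat_lit 0) (nat_lit 7866383675) (nat_lit 228) (nat_lit 4702709935) (nat_lit 0) (nat_lit 824170115) (nat_lit 42) (nat_lit 5) (nat_lit 45) (nat_lit 4) (nat_lit 42) (nat_lit 4) (nat_lit 488) (nat_lit 333) (nat_lit 319)) (XT.lf (nat_lit 0) (nat_lit 3976365211) (nat_lit 228) (nat_lit 8528488040) (nat_lit 228) (nat_lit 1054062280) (nat_lit 39) (nat_lit 4) (nat_lit 42) (nat_lit 5) (nat_lit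 42) (nat_lit 4) (nat_lit 489) (nat_lit 333) (nat_lit 318))))) (XT.nd (nat_lit 156) (nat_lit 380) (nat_lit 0) (XT.nd (nat_lit 78) (nat_lit 152) (nat_lit 0) (XT.lf (nat_lit 0) (nat_lit 3433611211) (nat_lit 304) (nat_lit 962268563) (nat_lit 76) (nat_lit 9332127879) (nat_lit 38) (nat_lit 5) (nat_lit 42) (nat_lit 5) (nat_lit 39) (nat_lit 4) (nat_lit 490) (nat_lit 333) (nat_lit 317)) (XT.lf (nat_lit 0) (nat_lit 7823296097) (nat_lit 152) (nat_lit 165262407) (nat_lit 228) (nat_lit 5911961901) (nat_lit 36) (nat_lit 5) (nat_lit 38) (nat_lit 5) (nat_lit 39) (nat_lit 4) (nat_lit 491) (nat_lit 333) (nat_lit 316))) (XT.nd (nat_lit 78) (nat_lit 228) (nat_lit 0) (XT.lf (nat_lit 0) (nat_lit 2625738992) (nat_lit 152) (nat_lit 10000401030) (nat_lit 152) (nat_lit 1450523293) (nat_lit 34) (nat_lit 4) (nat_lit 36) (nat_lit 5) (nat_lit 36) (nat_lit 4) (nat_lit 492) (nat_lit 333) (nat_lit 315)) (XT.nd (nat_lit 78) (nat_lit 152) (nat_lit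 0) (XT.lf (nat_lit 0) (nat_lit 3042768252) (nat_lit 228) (nat_lit 2794953772) (nat_lit 76) (nat_lit 8418549028) (nat_lit 33) (nat_lit 5) (nat_lit 36) (nat_lit 5) (nat_lit 34) (nat_lit 4) (nat_lit 493) (nat_lit 333) (nat_lit 314)) (XT.lf (nat_lit 0) (nat_lit 6002183584) (nat_lit 152) (nat_lit 1585599232) (nat_lit 228) (nat_lit 6851880770) (nat_lit 31) (nat_lit 5) (nat_lit 33) (nat_lit 5) (nat_lit 34) (nat_lit 4) (nat_lit 494) (nat_lit 333) (nat_lit 313)))))) (XT.nd (nat_lit 390) (nat_lit 456) (nat_lit 0) (XT.nd (nat_lit 156) (nat_lit 380) (nat_lit 0) (XT.nd (nat_lit 78) (nat_lit 76) (nat_lit 0) (XT.lf (nat_lit 0) (nat_lit 271092008) (nat_lit 152) (nat_lit 11933601335) (nat_lit 152) (nat_lit 2422420516) (nat_lit 29) (nat_lit 4) (nat_lit 31) (nat_lit 5) (nat_lit 31) (nat_lit 4) (nat_lit 495) (nat_lit 333) (nat_lit 312)) (XT.lf (nat_lit 0) (nat_lit 2078217913) (nat_lit 228) (nat_lit 5674836468) (nat_lit 76) (nat_lit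 7064794580) (nat_lit 28) (nat_lit 5) (nat_lit 31) (nat_lit 5) (nat_lit 29) (nat_lit 4) (nat_lit 496) (nat_lit 333) (nat_lit 311))) (XT.nd (nat_lit 78) (nat_lit 228) (nat_lit 0) (XT.lf (nat_lit 0) (nat_lit 3105262436) (nat_lit 152) (nat_lit 3495066094) (nat_lit 228) (nat_lit 8412481313) (nat_lit 26) (nat_lit 5) (nat_lit 28) (nat_lit 5) (nat_lit 29) (nat_lit 4) (nat_lit 497) (nat_lit 333) (nat_lit 310)) (XT.nd (nat_lit 78) (nat_lit 228) (nat_lit 0) (XT.lf (nat_lit 0) (nat_lit 11200609074) (nat_lit 228) (nat_lit 3178366580) (nat_lit 0) (nat_lit 832948787) (nat_lit 26) (nat_lit 5) (nat_lit 29) (nat_lit 4) (nat_lit 26) (nat_lit 4) (nat_lit 498) (nat_lit 333) (nat_lit 309)) (XT.lf (nat_lit 0) (nat_lit 476637812) (nat_lit 228) (nat_lit 9738965994) (nat_lit 76) (nat_lit 5199263550) (nat_lit 23) (nat_lit 5) (nat_lit 26) (nat_lit 5) (nat_lit 24) (nat_lit 4) (nat_lit 499) (nat_lit 333) (nat_lit 308))))) (XT.nd (nat_lit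 234) (nat_lit 152) (nat_lit 0) (XT.nd (nat_lit 78) (nat_lit 304) (nat_lit 0) (XT.lf (nat_lit 0) (nat_lit 4967225811) (nat_lit 228) (nat_lit 995541067) (nat_lit 76) (nat_lit 9659248739) (nat_lit 23) (nat_lit 5) (nat_lit 26) (nat_lit 5) (nat_lit 24) (nat_lit 4) (nat_lit 500) (nat_lit 333) (nat_lit 307)) (XT.nd (nat_lit 78) (nat_lit 152) (nat_lit 0) (XT.lf (nat_lit 0) (nat_lit 7930954010) (nat_lit 152) (nat_lit 1614308983) (nat_lit 228) (nat_lit 6288099467) (nat_lit 21) (nat_lit 5) (nat_lit 23) (nat_lit 5) (nat_lit 24) (nat_lit 4) (nat_lit 501) (nat_lit 333) (nat_lit 306)) (XT.lf (nat_lit 0) (nat_lit 898099857) (nat_lit 152) (nat_lit 13293944769) (nat_lit 152) (nat_lit 1857356138) (nat_lit 19) (nat_lit 4) (nat_lit 21) (nat_lit 5) (nat_lit 21) (nat_lit 4) (nat_lit 502) (nat_lit 333) (nat_lit 305)))) (XT.nd (nat_lit 78) (nat_lit 76) (nat_lit 0) (XT.lf (nat_lit 0) (nat_lit 2637544925) (nat_lit 228) (nat_lit 6411365306)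 (nat_lit 76) (nat_lit 7220302708) (nat_lit 18) (nat_lit 5) (nat_lit 21) (nat_lit 5) (nat_lit 19) (nat_lit 4) (nat_lit 503) (nat_lit 333) (nat_lit 304)) (XT.nd (nat_lit 78) (nat_lit 0) (nat_lit 0) (XT.lf (nat_lit 0) (nat_lit 2428727566) (nat_lit 76) (nat_lit 4731974101) (nat_lit 152) (nat_lit 9333217320) (nat_lit 17) (nat_lit 5) (nat_lit 18) (nat_lit 5) (nat_lit 19) (nat_lit 4) (nat_lit 504) (nat_lit 333) (nat_lit 303)) (XT.lf (nat_lit 0) (nat_lit 11438955469) (nat_lit 76) (nat_lit 326248338) (nat_lit 152) (nat_lit 4958105279) (nat_lit 17) (nat_lit 5) (nat_lit 18) (nat_lit 5) (nat_lit 19) (nat_lit 4) (nat_lit 505) (nat_lit 333) (nat_lit 302))))))) (XT.nd (nat_lit 57252) (nat_lit 0) (nat_lit 1976) (XT.nd (nat_lit 56862) (nat_lit 0) (nat_lit 3876) (XT.nd (nat_lit 234) (nat_lit 76) (nat_lit 0) (XT.nd (nat_lit 78) (nat_lit 76) (nat_lit 0) (XT.lf (nat_lit 0) (nat_lit 3599747664) (nat_lit 152) (nat_lit 12861096317)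 (nat_lit 152) (nat_lit 496469474) (nat_lit 15) (nat_lit 4) (nat_lit 17) (nat_lit 5) (nat_lit 17) (nat_lit 4) (nat_lit 506) (nat_lit 333) (nat_lit 301)) (XT.lf (nat_lit 0) (nat_lit 3987764461) (nat_lit 228) (nat_lit 4583432555) (nat_lit 76) (nat_lit 8624550766) (nat_lit 14) (nat_lit 5) (nat_lit 17) (nat_lit 5) (nat_lit 15) (nat_lit 4) (nat_lit 507) (nat_lit 333) (nat_lit 300))) (XT.nd (nat_lit 56472) (nat_lit 0) (nat_lit 4788) (XT.lf (nat_lit 0) (nat_lit 13151229025) (nat_lit 152) (nat_lit 4298323217) (nat_lit 0) (nat_lit 238602498) (nat_lit 13) (nat_lit 5) (nat_lit 15) (nat_lit 4) (nat_lit 13) (nat_lit 4) (nat_lit 509) (nat_lit 333) (nat_lit 298)) (XT.nd (nat_lit 78) (nat_lit 304) (nat_lit 0) (XT.lf (nat_lit 0) (nat_lit 2690913231) (nat_lit 304) (nat_lit 1444082622) (nat_lit 304) (nat_lit 1444082622) (nat_lit 80) (nat_lit 4) (nat_lit 84) (nat_lit 5) (nat_lit 84) (nat_lit 4) (nat_lit 472) (nat_lit 334) (nat_lit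 334)) (XT.lf (nat_lit 0) (nat_lit 1562905697) (nat_lit 304) (nat_lit 8794346221) (nat_lit 0) (nat_lit 920661105) (nat_lit 76) (nat_lit 5) (nat_lit 80) (nat_lit 4) (nat_lit 76) (nat_lit 4) (nat_lit 473) (nat_lit 334) (nat_lit 333))))) (XT.nd (nat_lit 156) (nat_lit 608) (nat_lit 0) (XT.nd (nat_lit 78) (nat_lit 304) (nat_lit 0) (XT.lf (nat_lit 0) (nat_lit 6054973108) (nat_lit 304) (nat_lit 561836112) (nat_lit 0) (nat_lit 4783076955) (nat_lit 76) (nat_lit 5) (nat_lit 80) (nat_lit 4) (nat_lit 76) (nat_lit 4) (nat_lit 474) (nat_lit 334) (nat_lit 332)) (XT.lf (nat_lit 0) (nat_lit 7829183471) (nat_lit 304) (nat_lit 2792320441) (nat_lit 304) (nat_lit 903118836) (nat_lit 72) (nat_lit 4) (nat_lit 76) (nat_lit 5) (nat_lit 76) (nat_lit 4) (nat_lit 475) (nat_lit 334) (nat_lit 331))) (XT.nd (nat_lit 78) (nat_lit 304) (nat_lit 0) (XT.lf (nat_lit 0) (nat_lit 3555305532) (nat_lit 304) (nat_lit 6986773477) (nat_lit 0) (nat_lit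 1109812367) (nat_lit 68) (nat_lit 5) (nat_lit 72) (nat_lit 4) (nat_lit 68) (nat_lit 4) (nat_lit 476) (nat_lit 334) (nat_lit 330)) (XT.nd (nat_lit 78) (nat_lit 76) (nat_lit 0) (XT.lf (nat_lit 0) (nat_lit 1345448426) (nat_lit 228) (nat_lit 6731808929) (nat_lit 228) (nat_lit 3704615049) (nat_lit 65) (nat_lit 4) (nat_lit 68) (nat_lit 5) (nat_lit 68) (nat_lit 4) (nat_lit 477) (nat_lit 334) (nat_lit 329)) (XT.lf (nat_lit 0) (nat_lit 746611412) (nat_lit 304) (nat_lit 2089333644) (nat_lit 76) (nat_lit 9078790528) (nat_lit 64) (nat_lit 5) (nat_lit 68) (nat_lit 5) (nat_lit 65) (nat_lit 4) (nat_lit 478) (nat_lit 334) (nat_lit 328)))))) (XT.nd (nat_lit 390) (nat_lit 912) (nat_lit 0) (XT.nd (nat_lit 156) (nat_lit 532) (nat_lit 0) (XT.nd (nat_lit 78) (nat_lit 228) (nat_lit 0) (XT.lf (nat_lit 0) (nat_lit 5221923136) (nat_lit 304) (nat_lit 5681340534) (nat_lit 0) (nat_lit 1146823857) (nat_lit 61) (nat_lit 5) (nat_lit 65) (nat_lit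 4) (nat_lit 61) (nat_lit 4) (nat_lit 479) (nat_lit 334) (nat_lit 327)) (XT.lf (nat_lit 0) (nat_lit 2745929276) (nat_lit 228) (nat_lit 7027499292) (nat_lit 228) (nat_lit 2414998469) (nat_lit 58) (nat_lit 4) (nat_lit 61) (nat_lit 5) (nat_lit 61) (nat_lit 4) (nat_lit 480) (nat_lit 334) (nat_lit 326))) (XT.nd (nat_lit 78) (nat_lit 456) (nat_lit 0) (XT.lf (nat_lit 0) (nat_lit 2033535788) (nat_lit 304) (nat_lit 1031622790) (nat_lit 76) (nat_lit 9264628173) (nat_lit 57) (nat_lit 5) (nat_lit 61) (nat_lit 5) (nat_lit 58) (nat_lit 4) (nat_lit 481) (nat_lit 334) (nat_lit 325)) (XT.nd (nat_lit 78) (nat_lit 228) (nat_lit 0) (XT.lf (nat_lit 0) (nat_lit 6531422347) (nat_lit 304) (nat_lit 4955967482) (nat_lit 0) (nat_lit 986423651) (nat_lit 54) (nat_lit 5) (nat_lit 58) (nat_lit 4) (nat_lit 54) (nat_lit 4) (nat_lit 482) (nat_lit 334) (nat_lit 324)) (XT.lf (nat_lit 0) (nat_lit 3551968466) (nat_lit 228) (nat_lit 7555240636) (nat_lit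 228) (nat_lit 1513765981) (nat_lit 51) (nat_lit 4) (nat_lit 54) (nat_lit 5) (nat_lit 54) (nat_lit 4) (nat_lit 483) (nat_lit 334) (nat_lit 323))))) (XT.nd (nat_lit 234) (nat_lit 456) (nat_lit 0) (XT.nd (nat_lit 78) (nat_lit 380) (nat_lit 0) (XT.lf (nat_lit 0) (nat_lit 2935248992) (nat_lit 304) (nat_lit 599012825) (nat_lit 76) (nat_lit 9237016617) (nat_lit 50) (nat_lit 5) (nat_lit 54) (nat_lit 5) (nat_lit 51) (nat_lit 4) (nat_lit 484) (nat_lit 334) (nat_lit 322)) (XT.nd (nat_lit 78) (nat_lit 228) (nat_lit 0) (XT.lf (nat_lit 0) (nat_lit 7447906984) (nat_lit 228) (nat_lit 4896739497) (nat_lit 0) (nat_lit 579855039) (nat_lit 48) (nat_lit 5) (nat_lit 51) (nat_lit 4) (nat_lit 48) (nat_lit 4) (nat_lit 485) (nat_lit 334) (nat_lit 321)) (XT.lf (nat_lit 0) (nat_lit 3674949371) (nat_lit 228) (nat_lit 8366380319) (nat_lit 228) (nat_lit 1039661331) (nat_lit 45) (nat_lit 4) (nat_lit 48) (nat_lit 5) (nat_lit 48) (nat_lit 4)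 (nat_lit 486) (nat_lit 334) (nat_lit 320)))) (XT.nd (nat_lit 78) (nat_lit 380) (nat_lit 0) (XT.lf (nat_lit 0) (nat_lit 3412675966) (nat_lit 304) (nat_lit 882787107) (nat_lit 76) (nat_lit 8945258578) (nat_lit 44) (nat_lit 5) (nat_lit 48) (nat_lit 5) (nat_lit 45) (nat_lit 4) (nat_lit 487) (nat_lit 334) (nat_lit 319)) (XT.nd (nat_lit 78) (nat_lit 228) (nat_lit 0) (XT.lf (nat_lit 0) (nat_lit 7804014588) (nat_lit 152) (nat_lit 127304021) (nat_lit 228) (nat_lit 5472378732) (nat_lit 42) (nat_lit 5) (nat_lit 44) (nat_lit 5) (nat_lit 45) (nat_lit 4) (nat_lit 488) (nat_lit 334) (nat_lit 318)) (XT.lf (nat_lit 0) (nat_lit 3016830463) (nat_lit 228) (nat_lit 9516558087) (nat_lit 228) (nat_lit 1036694163) (nat_lit 39) (nat_lit 4) (nat_lit 42) (nat_lit 5) (nat_lit 42) (nat_lit 4) (nat_lit 489) (nat_lit 334) (nat_lit 317))))))))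
noncomputable def xc8 : XT := (XT.nd (nat_lit 57876) (nat_lit 0) (nat_lit 1748) (XT.nd (nat_lit 780) (nat_lit 760) (nat_lit 0) (XT.nd (nat_lit 390) (nat_lit 608) (nat_lit 0) (XT.nd (nat_lit 156) (nat_lit 380) (nat_lit 0) (XT.nd (nat_lit 78) (nat_lit 152) (nat_lit 0) (XT.lf (nat_lit 0) (nat_lit 3421457981) (nat_lit 304) (nat_lit 1983947675) (nat_lit 76) (nat_lit 8334358151) (nat_lit 38) (nat_lit 5) (nat_lit 42) (nat_lit 5) (nat_lit 39) (nat_lit 4) (nat_lit 490) (nat_lit 334) (nat_lit 316)) (XT.lf (nat_lit 0) (nat_lit 6737509625) (nat_lit 152) (nat_lit 1203126825) (nat_lit 228) (nat_lit 5972360736) (nat_lit 36) (nat_lit 5) (nat_lit 38) (nat_lit 5) (nat_lit 39) (nat_lit 4) (nat_lit 491) (nat_lit 334) (nat_lit 315))) (XT.nd (nat_lit 78) (nat_lit 228) (nat_lit 0) (XT.lf (nat_lit 0) (nat_lit 1469067325) (nat_lit 152) (nat_lit 11066287818) (nat_lit 152) (nat_lit 1554647357) (nat_lit 34) (nat_lit 4) (nat_lit 36) (nat_lit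 5) (nat_lit 36) (nat_lit 4) (nat_lit 492) (nat_lit 334) (nat_lit 314)) (XT.nd (nat_lit 78) (nat_lit 152) (nat_lit 0) (XT.lf (nat_lit 0) (nat_lit 2911441171) (nat_lit 228) (nat_lit 4014321358) (nat_lit 76) (nat_lit 7344437551) (nat_lit 33) (nat_lit 5) (nat_lit 36) (nat_lit 5) (nat_lit 34) (nat_lit 4) (nat_lit 493) (nat_lit 334) (nat_lit 313)) (XT.lf (nat_lit 0) (nat_lit 4716907633) (nat_lit 152) (nat_lit 2703194786) (nat_lit 228) (nat_lit 7034222113) (nat_lit 31) (nat_lit 5) (nat_lit 33) (nat_lit 5) (nat_lit 34) (nat_lit 4) (nat_lit 494) (nat_lit 334) (nat_lit 312))))) (XT.nd (nat_lit 156) (nat_lit 380) (nat_lit 0) (XT.nd (nat_lit 78) (nat_lit 228) (nat_lit 0) (XT.lf (nat_lit 0) (nat_lit 12000084973) (nat_lit 228) (nat_lit 1074297394) (nat_lit 0) (nat_lit 1568135753) (nat_lit 31) (nat_lit 5) (nat_lit 34) (nat_lit 4) (nat_lit 31) (nat_lit 4) (nat_lit 495) (nat_lit 334) (nat_lit 311)) (XT.lf (nat_lit 0) (nat_lit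 1826106871) (nat_lit 228) (nat_lit 7097777882) (nat_lit 76) (nat_lit 5910101288) (nat_lit 28) (nat_lit 5) (nat_lit 31) (nat_lit 5) (nat_lit 29) (nat_lit 4) (nat_lit 496) (nat_lit 334) (nat_lit 310))) (XT.nd (nat_lit 78) (nat_lit 228) (nat_lit 0) (XT.lf (nat_lit 0) (nat_lit 1614529773) (nat_lit 152) (nat_lit 4696685985) (nat_lit 228) (nat_lit 8718475681) (nat_lit 26) (nat_lit 5) (nat_lit 28) (nat_lit 5) (nat_lit 29) (nat_lit 4) (nat_lit 497) (nat_lit 334) (nat_lit 309)) (XT.nd (nat_lit 78) (nat_lit 228) (nat_lit 0) (XT.lf (nat_lit 0) (nat_lit 10500492071) (nat_lit 152) (nat_lit 378425998) (nat_lit 228) (nat_lit 4350543929) (nat_lit 26) (nat_lit 5) (nat_lit 28) (nat_lit 5) (nat_lit 29) (nat_lit 4) (nat_lit 498) (nat_lit 334) (nat_lit 308)) (XT.lf (nat_lit 0) (nat_lit 101937999) (nat_lit 228) (nat_lit 11371572022) (nat_lit 76) (nat_lit 3959741569) (nat_lit 23) (nat_lit 5) (nat_lit 26) (nat_lit 5) (nat_lit 24) (nat_lit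 4) (nat_lit 499) (nat_lit 334) (nat_lit 307)))))) (XT.nd (nat_lit 390) (nat_lit 304) (nat_lit 0) (XT.nd (nat_lit 156) (nat_lit 304) (nat_lit 0) (XT.nd (nat_lit 78) (nat_lit 152) (nat_lit 0) (XT.lf (nat_lit 0) (nat_lit 4565864815) (nat_lit 228) (nat_lit 2675579885) (nat_lit 76) (nat_lit 8399492516) (nat_lit 23) (nat_lit 5) (nat_lit 26) (nat_lit 5) (nat_lit 24) (nat_lit 4) (nat_lit 500) (nat_lit 334) (nat_lit 306)) (XT.lf (nat_lit 0) (nat_lit 6181467629) (nat_lit 152) (nat_lit 2924937127) (nat_lit 228) (nat_lit 6746633307) (nat_lit 21) (nat_lit 5) (nat_lit 23) (nat_lit 5) (nat_lit 24) (nat_lit 4) (nat_lit 501) (nat_lit 334) (nat_lit 305))) (XT.nd (nat_lit 78) (nat_lit 304) (nat_lit 0) (XT.lf (nat_lit 0) (nat_lit 13712788413) (nat_lit 228) (nat_lit 920919080) (nat_lit 0) (nat_lit 1436180814) (nat_lit 21) (nat_lit 5) (nat_lit 24) (nat_lit 4) (nat_lit 21) (nat_lit 4) (nat_lit 502) (nat_lit 334) (nat_lit 304)) (XT.nd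 (nat_lit 78) (nat_lit 76) (nat_lit 0) (XT.lf (nat_lit 0) (nat_lit 2112234565) (nat_lit 228) (nat_lit 8306577525) (nat_lit 76) (nat_lit 5871599526) (nat_lit 18) (nat_lit 5) (nat_lit 21) (nat_lit 5) (nat_lit 19) (nat_lit 4) (nat_lit 503) (nat_lit 334) (nat_lit 303)) (XT.lf (nat_lit 0) (nat_lit 462004929) (nat_lit 76) (nat_lit 6135105316) (nat_lit 152) (nat_lit 9918776791) (nat_lit 17) (nat_lit 5) (nat_lit 18) (nat_lit 5) (nat_lit 19) (nat_lit 4) (nat_lit 504) (nat_lit 334) (nat_lit 302))))) (XT.nd (nat_lit 156) (nat_lit 152) (nat_lit 0) (XT.nd (nat_lit 78) (nat_lit 152) (nat_lit 0) (XT.lf (nat_lit 0) (nat_lit 9426817103) (nat_lit 76) (nat_lit 1749488850) (nat_lit 152) (nat_lit 5569480988) (nat_lit 17) (nat_lit 5) (nat_lit 18) (nat_lit 5) (nat_lit 19) (nat_lit 4) (nat_lit 505) (nat_lit 334) (nat_lit 301)) (XT.lf (nat_lit 0) (nat_lit 1501962199) (nat_lit 152) (nat_lit 14322184862) (nat_lit 152) (nat_lit 1156603835)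 (nat_lit 15) (nat_lit 4) (nat_lit 17) (nat_lit 5) (nat_lit 17) (nat_lit 4) (nat_lit 506) (nat_lit 334) (nat_lit 300))) (XT.nd (nat_lit 156) (nat_lit 76) (nat_lit 0) (XT.lf (nat_lit 0) (nat_lit 3311381730) (nat_lit 228) (nat_lit 6745305542) (nat_lit 76) (nat_lit 7163085259) (nat_lit 14) (nat_lit 5) (nat_lit 17) (nat_lit 5) (nat_lit 15) (nat_lit 4) (nat_lit 507) (nat_lit 334) (nat_lit 299)) (XT.nd (nat_lit 56316) (nat_lit 0) (nat_lit 5700) (XT.lf (nat_lit 0) (nat_lit 11112423877) (nat_lit 76) (nat_lit 1297699018) (nat_lit 152) (nat_lit 5303357789) (nat_lit 13) (nat_lit 5) (nat_lit 14) (nat_lit 5) (nat_lit 15) (nat_lit 4) (nat_lit 509) (nat_lit 334) (nat_lit 297)) (XT.lf (nat_lit 0) (nat_lit 5437054327) (nat_lit 304) (nat_lit 13036832) (nat_lit 304) (nat_lit 13036832) (nat_lit 88) (nat_lit 4) (nat_lit 92) (nat_lit 5) (nat_lit 92) (nat_lit 4) (nat_lit 470) (nat_lit 335) (nat_lit 335))))))) (XT.nd (nat_lit 780) (nat_lit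 1672) (nat_lit 0) (XT.nd (nat_lit 390) (nat_lit 1064) (nat_lit 0) (XT.nd (nat_lit 156) (nat_lit 608) (nat_lit 0) (XT.nd (nat_lit 78) (nat_lit 304) (nat_lit 0) (XT.lf (nat_lit 0) (nat_lit 4410964790) (nat_lit 304) (nat_lit 2887335195) (nat_lit 0) (nat_lit 3742773517) (nat_lit 84) (nat_lit 5) (nat_lit 88) (nat_lit 4) (nat_lit 84) (nat_lit 4) (nat_lit 471) (nat_lit 335) (nat_lit 334)) (XT.lf (nat_lit 0) (nat_lit 5327508537) (nat_lit 304) (nat_lit 3577302612) (nat_lit 304) (nat_lit 2254021855) (nat_lit 80) (nat_lit 4) (nat_lit 84) (nat_lit 5) (nat_lit 84) (nat_lit 4) (nat_lit 472) (nat_lit 335) (nat_lit 333))) (XT.nd (nat_lit 78) (nat_lit 304) (nat_lit 0) (XT.lf (nat_lit 0) (nat_lit 2150460770) (nat_lit 304) (nat_lit 8905344535) (nat_lit 0) (nat_lit 223475133) (nat_lit 76) (nat_lit 5) (nat_lit 80) (nat_lit 4) (nat_lit 76) (nat_lit 4) (nat_lit 473) (nat_lit 335) (nat_lit 332)) (XT.nd (nat_lit 78) (nat_lit 304) (nat_lit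 0) (XT.lf (nat_lit 0) (nat_lit 6609750851) (nat_lit 304) (nat_lit 726706642) (nat_lit 0) (nat_lit 4065459762) (nat_lit 76) (nat_lit 5) (nat_lit 80) (nat_lit 4) (nat_lit 76) (nat_lit 4) (nat_lit 474) (nat_lit 335) (nat_lit 331)) (XT.lf (nat_lit 0) (nat_lit 7608604105) (nat_lit 304) (nat_lit 3534110765) (nat_lit 304) (nat_lit 384618253) (nat_lit 72) (nat_lit 4) (nat_lit 76) (nat_lit 5) (nat_lit 76) (nat_lit 4) (nat_lit 475) (nat_lit 335) (nat_lit 330))))) (XT.nd (nat_lit 156) (nat_lit 532) (nat_lit 0) (XT.nd (nat_lit 78) (nat_lit 228) (nat_lit 0) (XT.lf (nat_lit 0) (nat_lit 4028161507) (nat_lit 304) (nat_lit 7268434418) (nat_lit 0) (nat_lit 358723036) (nat_lit 68) (nat_lit 5) (nat_lit 72) (nat_lit 4) (nat_lit 68) (nat_lit 4) (nat_lit 476) (nat_lit 335) (nat_lit 329)) (XT.lf (nat_lit 0) (nat_lit 1006276921) (nat_lit 228) (nat_lit 7509723062) (nat_lit 228) (nat_lit 3269989773) (nat_lit 65) (nat_lit 4) (nat_lit 68)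 (nat_lit 5) (nat_lit 68) (nat_lit 4) (nat_lit 477) (nat_lit 335) (nat_lit 328))) (XT.nd (nat_lit 78) (nat_lit 456) (nat_lit 0) (XT.lf (nat_lit 0) (nat_lit 1143692029) (nat_lit 304) (nat_lit 2488587956) (nat_lit 76) (nat_lit 8287160610) (nat_lit 64) (nat_lit 5) (nat_lit 68) (nat_lit 5) (nat_lit 65) (nat_lit 4) (nat_lit 478) (nat_lit 335) (nat_lit 327)) (XT.nd (nat_lit 78) (nat_lit 228) (nat_lit 0) (XT.lf (nat_lit 0) (nat_lit 5579488661) (nat_lit 304) (nat_lit 6138764972) (nat_lit 0) (nat_lit 337336277) (nat_lit 61) (nat_lit 5) (nat_lit 65) (nat_lit 4) (nat_lit 61) (nat_lit 4) (nat_lit 479) (nat_lit 335) (nat_lit 326)) (XT.lf (nat_lit 0) (nat_lit 2229482100) (nat_lit 228) (nat_lit 7867079768) (nat_lit 228) (nat_lit 2098063124) (nat_lit 58) (nat_lit 4) (nat_lit 61) (nat_lit 5) (nat_lit 61) (nat_lit 4) (nat_lit 480) (nat_lit 335) (nat_lit 325)))))) (XT.nd (nat_lit 390) (nat_lit 912) (nat_lit 0) (XT.nd (nat_lit 156)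 (nat_lit 456) (nat_lit 0) (XT.nd (nat_lit 78) (nat_lit 228) (nat_lit 0) (XT.lf (nat_lit 0) (nat_lit 2315297027) (nat_lit 304) (nat_lit 1608650235) (nat_lit 76) (nat_lit 8412623298) (nat_lit 57) (nat_lit 5) (nat_lit 61) (nat_lit 5) (nat_lit 58) (nat_lit 4) (nat_lit 481) (nat_lit 335) (nat_lit 324)) (XT.lf (nat_lit 0) (nat_lit 6772901777) (nat_lit 304) (nat_lit 5594386007) (nat_lit 0) (nat_lit 114121670) (nat_lit 54) (nat_lit 5) (nat_lit 58) (nat_lit 4) (nat_lit 54) (nat_lit 4) (nat_lit 482) (nat_lit 335) (nat_lit 323))) (XT.nd (nat_lit 78) (nat_lit 228) (nat_lit 0) (XT.lf (nat_lit 0) (nat_lit 2852946932) (nat_lit 228) (nat_lit 8460924061) (nat_lit 228) (nat_lit 1315402818) (nat_lit 51) (nat_lit 4) (nat_lit 54) (nat_lit 5) (nat_lit 54) (nat_lit 4) (nat_lit 483) (nat_lit 335) (nat_lit 322)) (XT.nd (nat_lit 78) (nat_lit 152) (nat_lit 0) (XT.lf (nat_lit 0) (nat_lit 3100788528) (nat_lit 304) (nat_lit 1359125606) (nat_lit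 76) (nat_lit 8320247862) (nat_lit 50) (nat_lit 5) (nat_lit 54) (nat_lit 5) (nat_lit 51) (nat_lit 4) (nat_lit 484) (nat_lit 335) (nat_lit 321)) (XT.lf (nat_lit 0) (nat_lit 7210273107) (nat_lit 152) (nat_lit 364396163) (nat_lit 228) (nat_lit 5359497390) (nat_lit 48) (nat_lit 5) (nat_lit 50) (nat_lit 5) (nat_lit 51) (nat_lit 4) (nat_lit 485) (nat_lit 335) (nat_lit 320))))) (XT.nd (nat_lit 234) (nat_lit 456) (nat_lit 0) (XT.nd (nat_lit 78) (nat_lit 228) (nat_lit 0) (XT.lf (nat_lit 0) (nat_lit 2787906546) (nat_lit 228) (nat_lit 9342551099) (nat_lit 228) (nat_lit 960957115) (nat_lit 45) (nat_lit 4) (nat_lit 48) (nat_lit 5) (nat_lit 48) (nat_lit 4) (nat_lit 486) (nat_lit 335) (nat_lit 319)) (XT.nd (nat_lit 78) (nat_lit 152) (nat_lit 0) (XT.lf (nat_lit 0) (nat_lit 3460891433) (nat_lit 304) (nat_lit 1831449731) (nat_lit 76) (nat_lit 7959388823) (nat_lit 44) (nat_lit 5) (nat_lit 48) (nat_lit 5) (nat_lit 45) (nat_lit 4)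 (nat_lit 487) (nat_lit 335) (nat_lit 318)) (XT.lf (nat_lit 0) (nat_lit 6792393134) (nat_lit 152) (nat_lit 1151693875) (nat_lit 228) (nat_lit 5471333181) (nat_lit 42) (nat_lit 5) (nat_lit 44) (nat_lit 5) (nat_lit 45) (nat_lit 4) (nat_lit 488) (nat_lit 335) (nat_lit 317)))) (XT.nd (nat_lit 78) (nat_lit 228) (nat_lit 0) (XT.lf (nat_lit 0) (nat_lit 1936156094) (nat_lit 228) (nat_lit 10567565581) (nat_lit 228) (nat_lit 1078938055) (nat_lit 39) (nat_lit 4) (nat_lit 42) (nat_lit 5) (nat_lit 42) (nat_lit 4) (nat_lit 489) (nat_lit 335) (nat_lit 316)) (XT.nd (nat_lit 78) (nat_lit 152) (nat_lit 0) (XT.lf (nat_lit 0) (nat_lit 3351048947) (nat_lit 304) (nat_lit 3126791861) (nat_lit 76) (nat_lit 7275085137) (nat_lit 38) (nat_lit 5) (nat_lit 42) (nat_lit 5) (nat_lit 39) (nat_lit 4) (nat_lit 490) (nat_lit 335) (nat_lit 315)) (XT.lf (nat_lit 0) (nat_lit 5529938638) (nat_lit 152) (nat_lit 2304292369) (nat_lit 228) (nat_lit 6092653394)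 (nat_lit 36) (nat_lit 5) (nat_lit 38) (nat_lit 5) (nat_lit 39) (nat_lit 4) (nat_lit 491) (nat_lit 335) (nat_lit 314))))))))
noncomputable def xc9 : XT := (XT.nd (nat_lit 57798) (nat_lit 0) (nat_lit 1748) (XT.nd (nat_lit 780) (nat_lit 608) (nat_lit 0) (XT.nd (nat_lit 390) (nat_lit 532) (nat_lit 0) (XT.nd (nat_lit 156) (nat_lit 380) (nat_lit 0) (XT.nd (nat_lit 78) (nat_lit 76) (nat_lit 0) (XT.lf (nat_lit 0) (nat_lit 188972931) (nat_lit 152) (nat_lit 12196462676) (nat_lit 152) (nat_lit 1719329437) (nat_lit 34) (nat_lit 4) (nat_lit 36) (nat_lit 5) (nat_lit 36) (nat_lit 4) (nat_lit 492) (nat_lit 335) (nat_lit 313)) (XT.lf (nat_lit 0) (nat_lit 2720910473) (nat_lit 228) (nat_lit 5357160812) (nat_lit 76) (nat_lit 6207477744) (nat_lit 33) (nat_lit 5) (nat_lit 36) (nat_lit 5) (nat_lit 34) (nat_lit 4) (nat_lit 493) (nat_lit 335) (nat_lit 312))) (XT.nd (nat_lit 78) (nat_lit 228) (nat_lit 0) (XT.lf (nat_lit 0) (nat_lit 3307493517)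 (nat_lit 152) (nat_lit 3885468084) (nat_lit 228) (nat_lit 7277448838) (nat_lit 31) (nat_lit 5) (nat_lit 33) (nat_lit 5) (nat_lit 34) (nat_lit 4) (nat_lit 494) (nat_lit 335) (nat_lit 311)) (XT.nd (nat_lit 78) (nat_lit 228) (nat_lit 0) (XT.lf (nat_lit 0) (nat_lit 11737903649) (nat_lit 228) (nat_lit 2540310784) (nat_lit 0) (nat_lit 381095068) (nat_lit 31) (nat_lit 5) (nat_lit 34) (nat_lit 4) (nat_lit 31) (nat_lit 4) (nat_lit 495) (nat_lit 335) (nat_lit 310)) (XT.lf (nat_lit 0) (nat_lit 1513761340) (nat_lit 228) (nat_lit 8646622969) (nat_lit 76) (nat_lit 4691174452) (nat_lit 28) (nat_lit 5) (nat_lit 31) (nat_lit 5) (nat_lit 29) (nat_lit 4) (nat_lit 496) (nat_lit 335) (nat_lit 309))))) (XT.nd (nat_lit 156) (nat_lit 380) (nat_lit 0) (XT.nd (nat_lit 78) (nat_lit 152) (nat_lit 0) (XT.lf (nat_lit 0) (nat_lit 5961600469) (nat_lit 228) (nat_lit 2784299) (nat_lit 76) (nat_lit 9083629182) (nat_lit 28) (nat_lit 5) (nat_lit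 31) (nat_lit 5) (nat_lit 29) (nat_lit 4) (nat_lit 497) (nat_lit 335) (nat_lit 308)) (XT.lf (nat_lit 0) (nat_lit 8836158002) (nat_lit 152) (nat_lit 1666559491) (nat_lit 228) (nat_lit 4745603028) (nat_lit 26) (nat_lit 5) (nat_lit 28) (nat_lit 5) (nat_lit 29) (nat_lit 4) (nat_lit 498) (nat_lit 335) (nat_lit 307))) (XT.nd (nat_lit 78) (nat_lit 228) (nat_lit 0) (XT.lf (nat_lit 0) (nat_lit 2318202516) (nat_lit 152) (nat_lit 12796290943) (nat_lit 152) (nat_lit 338551564) (nat_lit 24) (nat_lit 4) (nat_lit 26) (nat_lit 5) (nat_lit 26) (nat_lit 4) (nat_lit 499) (nat_lit 335) (nat_lit 306)) (XT.nd (nat_lit 78) (nat_lit 152) (nat_lit 0) (XT.lf (nat_lit 0) (nat_lit 4103677000) (nat_lit 228) (nat_lit 4483155004) (nat_lit 76) (nat_lit 7074469435) (nat_lit 23) (nat_lit 5) (nat_lit 26) (nat_lit 5) (nat_lit 24) (nat_lit 4) (nat_lit 500) (nat_lit 335) (nat_lit 305)) (XT.lf (nat_lit 0) (nat_lit 4303673993) (nat_lit 152) (nat_lit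 4302725170) (nat_lit 228) (nat_lit 7267763458) (nat_lit 21) (nat_lit 5) (nat_lit 23) (nat_lit 5) (nat_lit 24) (nat_lit 4) (nat_lit 501) (nat_lit 335) (nat_lit 304)))))) (XT.nd (nat_lit 390) (nat_lit 304) (nat_lit 0) (XT.nd (nat_lit 156) (nat_lit 76) (nat_lit 0) (XT.nd (nat_lit 78) (nat_lit 228) (nat_lit 0) (XT.lf (nat_lit 0) (nat_lit 13178290788) (nat_lit 228) (nat_lit 2856565957) (nat_lit 0) (nat_lit 56849865) (nat_lit 21) (nat_lit 5) (nat_lit 24) (nat_lit 4) (nat_lit 21) (nat_lit 4) (nat_lit 502) (nat_lit 335) (nat_lit 303)) (XT.lf (nat_lit 0) (nat_lit 1524884174) (nat_lit 228) (nat_lit 10332041311) (nat_lit 76) (nat_lit 4456147036) (nat_lit 18) (nat_lit 5) (nat_lit 21) (nat_lit 5) (nat_lit 19) (nat_lit 4) (nat_lit 503) (nat_lit 335) (nat_lit 302))) (XT.nd (nat_lit 78) (nat_lit 76) (nat_lit 0) (XT.lf (nat_lit 0) (nat_lit 5981748649) (nat_lit 228) (nat_lit 1614338228) (nat_lit 76) (nat_lit 8943024964) (nat_lit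 18) (nat_lit 5) (nat_lit 21) (nat_lit 5) (nat_lit 19) (nat_lit 4) (nat_lit 504) (nat_lit 335) (nat_lit 301)) (XT.nd (nat_lit 78) (nat_lit 0) (nat_lit 0) (XT.lf (nat_lit 0) (nat_lit 7284495014) (nat_lit 76) (nat_lit 3241018469) (nat_lit 152) (nat_lit 6244210486) (nat_lit 17) (nat_lit 5) (nat_lit 18) (nat_lit 5) (nat_lit 19) (nat_lit 4) (nat_lit 505) (nat_lit 335) (nat_lit 300)) (XT.lf (nat_lit 0) (nat_lit 15129469610) (nat_lit 152) (nat_lit 718328118) (nat_lit 0) (nat_lit 1157771428) (nat_lit 17) (nat_lit 5) (nat_lit 19) (nat_lit 4) (nat_lit 17) (nat_lit 4) (nat_lit 506) (nat_lit 335) (nat_lit 299))))) (XT.nd (nat_lit 56394) (nat_lit 0) (nat_lit 5396) (XT.nd (nat_lit 156) (nat_lit 76) (nat_lit 0) (XT.lf (nat_lit 0) (nat_lit 2572147400) (nat_lit 228) (nat_lit 9039407111) (nat_lit 76) (nat_lit 5633716605) (nat_lit 14) (nat_lit 5) (nat_lit 17) (nat_lit 5) (nat_lit 15) (nat_lit 4) (nat_lit 507) (nat_lit 335) (nat_lit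 298)) (XT.nd (nat_lit 56160) (nat_lit 0) (nat_lit 6004) (XT.lf (nat_lit 0) (nat_lit 8701162696) (nat_lit 76) (nat_lit 2906661727) (nat_lit 152) (nat_lit 6132422723) (nat_lit 13) (nat_lit 5) (nat_lit 14) (nat_lit 5) (nat_lit 15) (nat_lit 4) (nat_lit 509) (nat_lit 335) (nat_lit 296)) (XT.lf (nat_lit 0) (nat_lit 1332853948) (nat_lit 380) (nat_lit 2685186265) (nat_lit 0) (nat_lit 1332853948) (nat_lit 92) (nat_lit 5) (nat_lit 97) (nat_lit 4) (nat_lit 92) (nat_lit 4) (nat_lit 468) (nat_lit 336) (nat_lit 336)))) (XT.nd (nat_lit 78) (nat_lit 304) (nat_lit 0) (XT.lf (nat_lit 0) (nat_lit 2662159912) (nat_lit 304) (nat_lit 4422978282) (nat_lit 304) (nat_lit 3727792081) (nat_lit 88) (nat_lit 4) (nat_lit 92) (nat_lit 5) (nat_lit 92) (nat_lit 4) (nat_lit 469) (nat_lit 336) (nat_lit 335)) (XT.nd (nat_lit 78) (nat_lit 228) (nat_lit 0) (XT.lf (nat_lit 0) (nat_lit 627142572) (nat_lit 380) (nat_lit 109913303) (nat_lit 76) (nat_lit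 10189785897) (nat_lit 87) (nat_lit 5) (nat_lit 92) (nat_lit 5) (nat_lit 88) (nat_lit 4) (nat_lit 470) (nat_lit 336) (nat_lit 334)) (XT.lf (nat_lit 0) (nat_lit 5025821179) (nat_lit 304) (nat_lit 2995618379) (nat_lit 0) (nat_lit 3020985322) (nat_lit 84) (nat_lit 5) (nat_lit 88) (nat_lit 4) (nat_lit 84) (nat_lit 4) (nat_lit 471) (nat_lit 336) (nat_lit 333))))))) (XT.nd (nat_lit 780) (nat_lit 1596) (nat_lit 0) (XT.nd (nat_lit 390) (nat_lit 836) (nat_lit 0) (XT.nd (nat_lit 156) (nat_lit 608) (nat_lit 0) (XT.nd (nat_lit 78) (nat_lit 304) (nat_lit 0) (XT.lf (nat_lit 0) (nat_lit 5164533458) (nat_lit 304) (nat_lit 4321704208) (nat_lit 304) (nat_lit 1674623759) (nat_lit 80) (nat_lit 4) (nat_lit 84) (nat_lit 5) (nat_lit 84) (nat_lit 4) (nat_lit 472) (nat_lit 336) (nat_lit 332)) (XT.lf (nat_lit 0) (nat_lit 2151081744) (nat_lit 228) (nat_lit 535954767) (nat_lit 304) (nat_lit 8594909699) (nat_lit 76) (nat_lit 5) (nat_lit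 79) (nat_lit 5) (nat_lit 80) (nat_lit 4) (nat_lit 473) (nat_lit 336) (nat_lit 331))) (XT.nd (nat_lit 78) (nat_lit 608) (nat_lit 0) (XT.lf (nat_lit 0) (nat_lit 7110712182) (nat_lit 304) (nat_lit 1001562697) (nat_lit 0) (nat_lit 3293028396) (nat_lit 76) (nat_lit 5) (nat_lit 80) (nat_lit 4) (nat_lit 76) (nat_lit 4) (nat_lit 474) (nat_lit 336) (nat_lit 330)) (XT.nd (nat_lit 78) (nat_lit 228) (nat_lit 0) (XT.lf (nat_lit 0) (nat_lit 77591564) (nat_lit 380) (nat_lit 4254283554) (nat_lit 76) (nat_lit 7199514688) (nat_lit 71) (nat_lit 5) (nat_lit 76) (nat_lit 5) (nat_lit 72) (nat_lit 4) (nat_lit 475) (nat_lit 336) (nat_lit 329)) (XT.lf (nat_lit 0) (nat_lit 3994193357) (nat_lit 228) (nat_lit 454773269) (nat_lit 304) (nat_lit 7211093781) (nat_lit 68) (nat_lit 5) (nat_lit 71) (nat_lit 5) (nat_lit 72) (nat_lit 4) (nat_lit 476) (nat_lit 336) (nat_lit 328))))) (XT.nd (nat_lit 156) (nat_lit 532) (nat_lit 0) (XT.nd (nat_lit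 78) (nat_lit 76) (nat_lit 0) (XT.lf (nat_lit 0) (nat_lit 553841372) (nat_lit 228) (nat_lit 8345788019) (nat_lit 228) (nat_lit 2891852678) (nat_lit 65) (nat_lit 4) (nat_lit 68) (nat_lit 5) (nat_lit 68) (nat_lit 4) (nat_lit 477) (nat_lit 336) (nat_lit 327)) (XT.lf (nat_lit 0) (nat_lit 1485649718) (nat_lit 304) (nat_lit 3001072484) (nat_lit 76) (nat_lit 7438793074) (nat_lit 64) (nat_lit 5) (nat_lit 68) (nat_lit 5) (nat_lit 65) (nat_lit 4) (nat_lit 478) (nat_lit 336) (nat_lit 326))) (XT.nd (nat_lit 78) (nat_lit 304) (nat_lit 0) (XT.lf (nat_lit 0) (nat_lit 5348034689) (nat_lit 228) (nat_lit 536876771) (nat_lit 304) (nat_lit 6177490757) (nat_lit 61) (nat_lit 5) (nat_lit 64) (nat_lit 5) (nat_lit 65) (nat_lit 4) (nat_lit 479) (nat_lit 336) (nat_lit 325)) (XT.nd (nat_lit 78) (nat_lit 76) (nat_lit 0) (XT.lf (nat_lit 0) (nat_lit 1597856479) (nat_lit 228) (nat_lit 8766071782) (nat_lit 228) (nat_lit 1838276959) (nat_lit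 58) (nat_lit 4) (nat_lit 61) (nat_lit 5) (nat_lit 61) (nat_lit 4) (nat_lit 480) (nat_lit 336) (nat_lit 324)) (XT.lf (nat_lit 0) (nat_lit 2541266794) (nat_lit 304) (nat_lit 2300841376) (nat_lit 76) (nat_lit 7502623598) (nat_lit 57) (nat_lit 5) (nat_lit 61) (nat_lit 5) (nat_lit 58) (nat_lit 4) (nat_lit 481) (nat_lit 336) (nat_lit 323)))))) (XT.nd (nat_lit 390) (nat_lit 684) (nat_lit 0) (XT.nd (nat_lit 156) (nat_lit 456) (nat_lit 0) (XT.nd (nat_lit 78) (nat_lit 228) (nat_lit 0) (XT.lf (nat_lit 0) (nat_lit 6135438170) (nat_lit 228) (nat_lit 827984814) (nat_lit 304) (nat_lit 5526863051) (nat_lit 54) (nat_lit 5) (nat_lit 57) (nat_lit 5) (nat_lit 58) (nat_lit 4) (nat_lit 482) (nat_lit 336) (nat_lit 322)) (XT.lf (nat_lit 0) (nat_lit 2036729376) (nat_lit 228) (nat_lit 9427302249) (nat_lit 228) (nat_lit 1174932253) (nat_lit 51) (nat_lit 4) (nat_lit 54) (nat_lit 5) (nat_lit 54) (nat_lit 4) (nat_lit 483) (nat_lit 336) (nat_lit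 321))) (XT.nd (nat_lit 78) (nat_lit 380) (nat_lit 0) (XT.lf (nat_lit 0) (nat_lit 3209787327) (nat_lit 304) (nat_lit 2236439979) (nat_lit 76) (nat_lit 7344205140) (nat_lit 50) (nat_lit 5) (nat_lit 54) (nat_lit 5) (nat_lit 51) (nat_lit 4) (nat_lit 484) (nat_lit 336) (nat_lit 320)) (XT.nd (nat_lit 78) (nat_lit 228) (nat_lit 0) (XT.lf (nat_lit 0) (nat_lit 6271137169) (nat_lit 152) (nat_lit 1377384906) (nat_lit 228) (nat_lit 5296623867) (nat_lit 48) (nat_lit 5) (nat_lit 50) (nat_lit 5) (nat_lit 51) (nat_lit 4) (nat_lit 485) (nat_lit 336) (nat_lit 319)) (XT.lf (nat_lit 0) (nat_lit 1781541282) (nat_lit 228) (nat_lit 10380727635) (nat_lit 228) (nat_lit 940971756) (nat_lit 45) (nat_lit 4) (nat_lit 48) (nat_lit 5) (nat_lit 48) (nat_lit 4) (nat_lit 486) (nat_lit 336) (nat_lit 318))))) (XT.nd (nat_lit 234) (nat_lit 228) (nat_lit 0) (XT.nd (nat_lit 78) (nat_lit 380) (nat_lit 0) (XT.lf (nat_lit 0) (nat_lit 3451735732) (nat_lit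 304) (nat_lit 2899461898) (nat_lit 76) (nat_lit 6912938825) (nat_lit 44) (nat_lit 5) (nat_lit 48) (nat_lit 5) (nat_lit 45) (nat_lit 4) (nat_lit 487) (nat_lit 336) (nat_lit 317)) (XT.nd (nat_lit 78) (nat_lit 228) (nat_lit 0) (XT.lf (nat_lit 0) (nat_lit 5660823329) (nat_lit 152) (nat_lit 2238448382) (nat_lit 228) (nat_lit 5529273602) (nat_lit 42) (nat_lit 5) (nat_lit 44) (nat_lit 5) (nat_lit 45) (nat_lit 4) (nat_lit 488) (nat_lit 336) (nat_lit 316)) (XT.lf (nat_lit 0) (nat_lit 733918312) (nat_lit 228) (nat_lit 11681922682) (nat_lit 228) (nat_lit 1180810524) (nat_lit 39) (nat_lit 4) (nat_lit 42) (nat_lit 5) (nat_lit 42) (nat_lit 4) (nat_lit 489) (nat_lit 336) (nat_lit 315)))) (XT.nd (nat_lit 78) (nat_lit 152) (nat_lit 0) (XT.lf (nat_lit 0) (nat_lit 3222356497) (nat_lit 304) (nat_lit 4391249297) (nat_lit 76) (nat_lit 6153893436) (nat_lit 38) (nat_lit 5) (nat_lit 42) (nat_lit 5) (nat_lit 39) (nat_lit 4) (nat_lit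 490) (nat_lit 336) (nat_lit 314)) (XT.nd (nat_lit 78) (nat_lit 0) (nat_lit 0) (XT.lf (nat_lit 0) (nat_lit 4200109579) (nat_lit 152) (nat_lit 3469190869) (nat_lit 228) (nat_lit 6272887049) (nat_lit 36) (nat_lit 5) (nat_lit 38) (nat_lit 5) (nat_lit 39) (nat_lit 4) (nat_lit 491) (nat_lit 336) (nat_lit 313)) (XT.lf (nat_lit 0) (nat_lit 12184211509) (nat_lit 228) (nat_lit 1199110637) (nat_lit 0) (nat_lit 737476812) (nat_lit 36) (nat_lit 5) (nat_lit 39) (nat_lit 4) (nat_lit 36) (nat_lit 4) (nat_lit 492) (nat_lit 336) (nat_lit 312))))))))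
noncomputable def xc10 : XT := (XT.nd (nat_lit 57564) (nat_lit 0) (nat_lit 1900) (XT.nd (nat_lit 780) (nat_lit 608) (nat_lit 0) (XT.nd (nat_lit 390) (nat_lit 532) (nat_lit 0) (XT.nd (nat_lit 156) (nat_lit 228) (nat_lit 0) (XT.nd (nat_lit 78) (nat_lit 152) (nat_lit 0) (XT.lf (nat_lit 0) (nat_lit 2471101440) (nat_lit 228) (nat_lit 6823998737) (nat_lit 76) (nat_lit 5007223742) (nat_lit 33) (nat_lit 5) (nat_lit 36) (nat_lit 5) (nat_lit 34) (nat_lit 4) (nat_lit 493) (nat_lit 336) (nat_lit 311)) (XT.lf (nat_lit 0) (nat_lit 1773388527) (nat_lit 152) (nat_lit 5132882764) (nat_lit 228) (nat_lit 7581656328) (nat_lit 31) (nat_lit 5) (nat_lit 33) (nat_lit 5) (nat_lit 34) (nat_lit 4) (nat_lit 494) (nat_lit 336) (nat_lit 310))) (XT.nd (nat_lit 78) (nat_lit 228) (nat_lit 0) (XT.lf (nat_lit 0) (nat_lit 10540614251) (nat_lit 152) (nat_lit 881394796) (nat_lit 228) (nat_lit 3255406291) (nat_lit 31) (nat_lit 5) (nat_lit 33) (nat_lit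 5) (nat_lit 34) (nat_lit 4) (nat_lit 495) (nat_lit 336) (nat_lit 309)) (XT.nd (nat_lit 78) (nat_lit 0) (nat_lit 0) (XT.lf (nat_lit 0) (nat_lit 1141058833) (nat_lit 228) (nat_lit 10321979118) (nat_lit 76) (nat_lit 3407536063) (nat_lit 28) (nat_lit 5) (nat_lit 31) (nat_lit 5) (nat_lit 29) (nat_lit 4) (nat_lit 496) (nat_lit 336) (nat_lit 308)) (XT.lf (nat_lit 0) (nat_lit 5562636038) (nat_lit 228) (nat_lit 1724507251) (nat_lit 76) (nat_lit 7780415459) (nat_lit 28) (nat_lit 5) (nat_lit 31) (nat_lit 5) (nat_lit 29) (nat_lit 4) (nat_lit 497) (nat_lit 336) (nat_lit 307))))) (XT.nd (nat_lit 156) (nat_lit 228) (nat_lit 0) (XT.nd (nat_lit 78) (nat_lit 152) (nat_lit 0) (XT.lf (nat_lit 0) (nat_lit 7045492500) (nat_lit 152) (nat_lit 3020887391) (nat_lit 228) (nat_lit 5202237116) (nat_lit 26) (nat_lit 5) (nat_lit 28) (nat_lit 5) (nat_lit 29) (nat_lit 4) (nat_lit 498) (nat_lit 336) (nat_lit 306)) (XT.lf (nat_lit 0) (nat_lit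 445932540) (nat_lit 152) (nat_lit 14185611357) (nat_lit 152) (nat_lit 842733992) (nat_lit 24) (nat_lit 4) (nat_lit 26) (nat_lit 5) (nat_lit 26) (nat_lit 4) (nat_lit 499) (nat_lit 336) (nat_lit 305))) (XT.nd (nat_lit 78) (nat_lit 152) (nat_lit 0) (XT.lf (nat_lit 0) (nat_lit 3580481118) (nat_lit 228) (nat_lit 6418975276) (nat_lit 76) (nat_lit 5683659878) (nat_lit 23) (nat_lit 5) (nat_lit 26) (nat_lit 5) (nat_lit 24) (nat_lit 4) (nat_lit 500) (nat_lit 336) (nat_lit 304)) (XT.nd (nat_lit 78) (nat_lit 0) (nat_lit 0) (XT.lf (nat_lit 0) (nat_lit 2296836713) (nat_lit 152) (nat_lit 5748213421) (nat_lit 228) (nat_lit 7851694285) (nat_lit 21) (nat_lit 5) (nat_lit 23) (nat_lit 5) (nat_lit 24) (nat_lit 4) (nat_lit 501) (nat_lit 336) (nat_lit 303)) (XT.lf (nat_lit 0) (nat_lit 11184281947) (nat_lit 152) (nat_lit 1407366693) (nat_lit 228) (nat_lit 3523149454) (nat_lit 21) (nat_lit 5) (nat_lit 23) (nat_lit 5) (nat_lit 24) (nat_lit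 4) (nat_lit 502) (nat_lit 336) (nat_lit 302)))))) (XT.nd (nat_lit 468) (nat_lit 76) (nat_lit 0) (XT.nd (nat_lit 156) (nat_lit 304) (nat_lit 0) (XT.nd (nat_lit 78) (nat_lit 0) (nat_lit 0) (XT.lf (nat_lit 0) (nat_lit 875263417) (nat_lit 228) (nat_lit 12488550963) (nat_lit 76) (nat_lit 2973390156) (nat_lit 18) (nat_lit 5) (nat_lit 21) (nat_lit 5) (nat_lit 19) (nat_lit 4) (nat_lit 503) (nat_lit 336) (nat_lit 301)) (XT.lf (nat_lit 0) (nat_lit 5307606751) (nat_lit 228) (nat_lit 3814789150) (nat_lit 76) (nat_lit 7441341983) (nat_lit 18) (nat_lit 5) (nat_lit 21) (nat_lit 5) (nat_lit 19) (nat_lit 4) (nat_lit 504) (nat_lit 336) (nat_lit 300))) (XT.nd (nat_lit 78) (nat_lit 228) (nat_lit 0) (XT.lf (nat_lit 0) (nat_lit 5011149076) (nat_lit 76) (nat_lit 4801422106) (nat_lit 152) (nat_lit 6982558372) (nat_lit 17) (nat_lit 5) (nat_lit 18) (nat_lit 5) (nat_lit 19) (nat_lit 4) (nat_lit 505) (nat_lit 336) (nat_lit 299)) (XT.nd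 (nat_lit 78) (nat_lit 228) (nat_lit 0) (XT.lf (nat_lit 0) (nat_lit 13978868100) (nat_lit 76) (nat_lit 406195476) (nat_lit 152) (nat_lit 2646543906) (nat_lit 17) (nat_lit 5) (nat_lit 18) (nat_lit 5) (nat_lit 19) (nat_lit 4) (nat_lit 506) (nat_lit 336) (nat_lit 298)) (XT.lf (nat_lit 0) (nat_lit 1769771576) (nat_lit 228) (nat_lit 11466636908) (nat_lit 76) (nat_lit 4035845051) (nat_lit 14) (nat_lit 5) (nat_lit 17) (nat_lit 5) (nat_lit 15) (nat_lit 4) (nat_lit 507) (nat_lit 336) (nat_lit 297))))) (XT.nd (nat_lit 56082) (nat_lit 0) (nat_lit 5700) (XT.nd (nat_lit 56004) (nat_lit 0) (nat_lit 6688) (XT.lf (nat_lit 0) (nat_lit 6156703538) (nat_lit 76) (nat_lit 4585745690) (nat_lit 152) (nat_lit 7026046791) (nat_lit 13) (nat_lit 5) (nat_lit 14) (nat_lit 5) (nat_lit 15) (nat_lit 4) (nat_lit 509) (nat_lit 336) (nat_lit 295)) (XT.lf (nat_lit 0) (nat_lit 2592853927) (nat_lit 380) (nat_lit 57218620) (nat_lit 0) (nat_lit 2592853927)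 (nat_lit 101) (nat_lit 5) (nat_lit 106) (nat_lit 4) (nat_lit 101) (nat_lit 4) (nat_lit 466) (nat_lit 337) (nat_lit 337))) (XT.nd (nat_lit 78) (nat_lit 684) (nat_lit 0) (XT.lf (nat_lit 0) (nat_lit 7888076449) (nat_lit 304) (nat_lit 1714154266) (nat_lit 304) (nat_lit 990882543) (nat_lit 97) (nat_lit 4) (nat_lit 101) (nat_lit 5) (nat_lit 101) (nat_lit 4) (nat_lit 467) (nat_lit 337) (nat_lit 336)) (XT.nd (nat_lit 78) (nat_lit 304) (nat_lit 0) (XT.lf (nat_lit 0) (nat_lit 3341522021) (nat_lit 380) (nat_lit 5423695064) (nat_lit 0) (nat_lit 1937245895) (nat_lit 92) (nat_lit 5) (nat_lit 97) (nat_lit 4) (nat_lit 92) (nat_lit 4) (nat_lit 468) (nat_lit 337) (nat_lit 335)) (XT.lf (nat_lit 0) (nat_lit 2555157022) (nat_lit 304) (nat_lit 5172477231) (nat_lit 304) (nat_lit 3086646006) (nat_lit 88) (nat_lit 4) (nat_lit 92) (nat_lit 5) (nat_lit 92) (nat_lit 4) (nat_lit 469) (nat_lit 337) (nat_lit 334))))))) (XT.nd (nat_lit 780)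 (nat_lit 1748) (nat_lit 0) (XT.nd (nat_lit 390) (nat_lit 1140) (nat_lit 0) (XT.nd (nat_lit 156) (nat_lit 608) (nat_lit 0) (XT.nd (nat_lit 78) (nat_lit 228) (nat_lit 0) (XT.lf (nat_lit 0) (nat_lit 1227336340) (nat_lit 380) (nat_lit 274803091) (nat_lit 76) (nat_lit 9426628556) (nat_lit 87) (nat_lit 5) (nat_lit 92) (nat_lit 5) (nat_lit 88) (nat_lit 4) (nat_lit 470) (nat_lit 337) (nat_lit 333)) (XT.lf (nat_lit 0) (nat_lit 5587583802) (nat_lit 304) (nat_lit 3212227211) (nat_lit 0) (nat_lit 2245317152) (nat_lit 84) (nat_lit 5) (nat_lit 88) (nat_lit 4) (nat_lit 84) (nat_lit 4) (nat_lit 471) (nat_lit 337) (nat_lit 332))) (XT.nd (nat_lit 78) (nat_lit 304) (nat_lit 0) (XT.lf (nat_lit 0) (nat_lit 4892837314) (nat_lit 304) (nat_lit 5121661954) (nat_lit 304) (nat_lit 1149743743) (nat_lit 80) (nat_lit 4) (nat_lit 84) (nat_lit 5) (nat_lit 84) (nat_lit 4) (nat_lit 472) (nat_lit 337) (nat_lit 331)) (XT.nd (nat_lit 78) (nat_lit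 0) (nat_lit 0) (XT.lf (nat_lit 0) (nat_lit 1816595557) (nat_lit 228) (nat_lit 1354602076) (nat_lit 304) (nat_lit 8114746665) (nat_lit 76) (nat_lit 5) (nat_lit 79) (nat_lit 5) (nat_lit 80) (nat_lit 4) (nat_lit 473) (nat_lit 337) (nat_lit 330)) (XT.lf (nat_lit 0) (nat_lit 7558053555) (nat_lit 304) (nat_lit 1386512063) (nat_lit 0) (nat_lit 2465479941) (nat_lit 76) (nat_lit 5) (nat_lit 80) (nat_lit 4) (nat_lit 76) (nat_lit 4) (nat_lit 474) (nat_lit 337) (nat_lit 329))))) (XT.nd (nat_lit 156) (nat_lit 532) (nat_lit 0) (XT.nd (nat_lit 78) (nat_lit 228) (nat_lit 0) (XT.lf (nat_lit 0) (nat_lit 480401451) (nat_lit 380) (nat_lit 4703863395) (nat_lit 76) (nat_lit 6352496961) (nat_lit 71) (nat_lit 5) (nat_lit 76) (nat_lit 5) (nat_lit 72) (nat_lit 4) (nat_lit 475) (nat_lit 337) (nat_lit 328)) (XT.lf (nat_lit 0) (nat_lit 3487115164) (nat_lit 228) (nat_lit 1330550336) (nat_lit 304) (nat_lit 6848456483) (nat_lit 68) (nat_lit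 5) (nat_lit 71) (nat_lit 5) (nat_lit 72) (nat_lit 4) (nat_lit 476) (nat_lit 337) (nat_lit 327))) (XT.nd (nat_lit 78) (nat_lit 532) (nat_lit 0) (XT.lf (nat_lit 0) (nat_lit 9228374165) (nat_lit 304) (nat_lit 11877795) (nat_lit 0) (nat_lit 2558097976) (nat_lit 68) (nat_lit 5) (nat_lit 72) (nat_lit 4) (nat_lit 68) (nat_lit 4) (nat_lit 477) (nat_lit 337) (nat_lit 326)) (XT.nd (nat_lit 78) (nat_lit 228) (nat_lit 0) (XT.lf (nat_lit 0) (nat_lit 1772618580) (nat_lit 304) (nat_lit 3626988201) (nat_lit 76) (nat_lit 6533355224) (nat_lit 64) (nat_lit 5) (nat_lit 68) (nat_lit 5) (nat_lit 65) (nat_lit 4) (nat_lit 478) (nat_lit 337) (nat_lit 325)) (XT.lf (nat_lit 0) (nat_lit 4663056983) (nat_lit 228) (nat_lit 1474368252) (nat_lit 304) (nat_lit 5933119606) (nat_lit 61) (nat_lit 5) (nat_lit 64) (nat_lit 5) (nat_lit 65) (nat_lit 4) (nat_lit 479) (nat_lit 337) (nat_lit 324)))))) (XT.nd (nat_lit 390) (nat_lit 912) (nat_lit 0) (XT.nd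 (nat_lit 156) (nat_lit 532) (nat_lit 0) (XT.nd (nat_lit 78) (nat_lit 76) (nat_lit 0) (XT.lf (nat_lit 0) (nat_lit 850804716) (nat_lit 228) (nat_lit 9724827882) (nat_lit 228) (nat_lit 1635538096) (nat_lit 58) (nat_lit 4) (nat_lit 61) (nat_lit 5) (nat_lit 61) (nat_lit 4) (nat_lit 480) (nat_lit 337) (nat_lit 323)) (XT.lf (nat_lit 0) (nat_lit 2711533704) (nat_lit 304) (nat_lit 3108467661) (nat_lit 76) (nat_lit 6534272212) (nat_lit 57) (nat_lit 5) (nat_lit 61) (nat_lit 5) (nat_lit 58) (nat_lit 4) (nat_lit 481) (nat_lit 337) (nat_lit 322))) (XT.nd (nat_lit 78) (nat_lit 304) (nat_lit 0) (XT.lf (nat_lit 0) (nat_lit 5267117097) (nat_lit 228) (nat_lit 1831706653) (nat_lit 304) (nat_lit 5401707692) (nat_lit 54) (nat_lit 5) (nat_lit 57) (nat_lit 5) (nat_lit 58) (nat_lit 4) (nat_lit 482) (nat_lit 337) (nat_lit 321)) (XT.nd (nat_lit 78) (nat_lit 76) (nat_lit 0) (XT.lf (nat_lit 0) (nat_lit 1102995714) (nat_lit 228) (nat_lit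 10454754174) (nat_lit 228) (nat_lit 1092299201) (nat_lit 51) (nat_lit 4) (nat_lit 54) (nat_lit 5) (nat_lit 54) (nat_lit 4) (nat_lit 483) (nat_lit 337) (nat_lit 320)) (XT.lf (nat_lit 0) (nat_lit 3262288132) (nat_lit 304) (nat_lit 3231299988) (nat_lit 76) (nat_lit 6308505690) (nat_lit 50) (nat_lit 5) (nat_lit 54) (nat_lit 5) (nat_lit 51) (nat_lit 4) (nat_lit 484) (nat_lit 337) (nat_lit 319))))) (XT.nd (nat_lit 234) (nat_lit 456) (nat_lit 0) (XT.nd (nat_lit 78) (nat_lit 304) (nat_lit 0) (XT.lf (nat_lit 0) (nat_lit 5213877055) (nat_lit 152) (nat_lit 2451802471) (nat_lit 228) (nat_lit 5291840445) (nat_lit 48) (nat_lit 5) (nat_lit 50) (nat_lit 5) (nat_lit 51) (nat_lit 4) (nat_lit 485) (nat_lit 337) (nat_lit 318)) (XT.nd (nat_lit 78) (nat_lit 76) (nat_lit 0) (XT.lf (nat_lit 0) (nat_lit 655458926) (nat_lit 228) (nat_lit 11481317053) (nat_lit 228) (nat_lit 979697414) (nat_lit 45) (nat_lit 4) (nat_lit 48) (nat_lit 5)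 (nat_lit 48) (nat_lit 4) (nat_lit 486) (nat_lit 337) (nat_lit 317)) (XT.lf (nat_lit 0) (nat_lit 3385205272) (nat_lit 304) (nat_lit 4087242438) (nat_lit 76) (nat_lit 5805498211) (nat_lit 44) (nat_lit 5) (nat_lit 48) (nat_lit 5) (nat_lit 45) (nat_lit 4) (nat_lit 487) (nat_lit 337) (nat_lit 316)))) (XT.nd (nat_lit 78) (nat_lit 304) (nat_lit 0) (XT.lf (nat_lit 0) (nat_lit 4408861422) (nat_lit 152) (nat_lit 3387993718) (nat_lit 228) (nat_lit 5646222719) (nat_lit 42) (nat_lit 5) (nat_lit 44) (nat_lit 5) (nat_lit 45) (nat_lit 4) (nat_lit 488) (nat_lit 337) (nat_lit 315)) (XT.nd (nat_lit 78) (nat_lit 304) (nat_lit 0) (XT.lf (nat_lit 0) (nat_lit 12273545016) (nat_lit 228) (nat_lit 582611744) (nat_lit 0) (nat_lit 755830142) (nat_lit 42) (nat_lit 5) (nat_lit 45) (nat_lit 4) (nat_lit 42) (nat_lit 4) (nat_lit 489) (nat_lit 337) (nat_lit 314)) (XT.lf (nat_lit 0) (nat_lit 3035330163) (nat_lit 304) (nat_lit 5777815847) (nat_lit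 76) (nat_lit 4970343367) (nat_lit 38) (nat_lit 5) (nat_lit 42) (nat_lit 5) (nat_lit 39) (nat_lit 4) (nat_lit 490) (nat_lit 337) (nat_lit 313))))))))
noncomputable def xc11 : XT := (XT.nd (nat_lit 57486) (nat_lit 0) (nat_lit 2356) (XT.nd (nat_lit 780) (nat_lit 760) (nat_lit 0) (XT.nd (nat_lit 390) (nat_lit 608) (nat_lit 0) (XT.nd (nat_lit 156) (nat_lit 380) (nat_lit 0) (XT.nd (nat_lit 78) (nat_lit 0) (nat_lit 0) (XT.lf (nat_lit 0) (nat_lit 2747500945) (nat_lit 152) (nat_lit 4698279147) (nat_lit 228) (nat_lit 6513132380) (nat_lit 36) (nat_lit 5) (nat_lit 38) (nat_lit 5) (nat_lit 39) (nat_lit 4) (nat_lit 491) (nat_lit 337) (nat_lit 312)) (XT.lf (nat_lit 0) (nat_lit 11427346838) (nat_lit 152) (nat_lit 501657325) (nat_lit 228) (nat_lit 2209158364) (nat_lit 36) (nat_lit 5) (nat_lit 38) (nat_lit 5) (nat_lit 39) (nat_lit 4) (nat_lit 492) (nat_lit 337) (nat_lit 311))) (XT.nd (nat_lit 78) (nat_lit 152) (nat_lit 0) (XT.lf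 (nat_lit 0) (nat_lit 2161916108) (nat_lit 228) (nat_lit 8415410366) (nat_lit 76) (nat_lit 3743204855) (nat_lit 33) (nat_lit 5) (nat_lit 36) (nat_lit 5) (nat_lit 34) (nat_lit 4) (nat_lit 493) (nat_lit 337) (nat_lit 310)) (XT.nd (nat_lit 78) (nat_lit 0) (nat_lit 0) (XT.lf (nat_lit 0) (nat_lit 113991051) (nat_lit 152) (nat_lit 6445928007) (nat_lit 228) (nat_lit 7946963880) (nat_lit 31) (nat_lit 5) (nat_lit 33) (nat_lit 5) (nat_lit 34) (nat_lit 4) (nat_lit 494) (nat_lit 337) (nat_lit 309)) (XT.lf (nat_lit 0) (nat_lit 8835298320) (nat_lit 152) (nat_lit 2214184880) (nat_lit 228) (nat_lit 3647415411) (nat_lit 31) (nat_lit 5) (nat_lit 33) (nat_lit 5) (nat_lit 34) (nat_lit 4) (nat_lit 495) (nat_lit 337) (nat_lit 308))))) (XT.nd (nat_lit 156) (nat_lit 380) (nat_lit 0) (XT.nd (nat_lit 78) (nat_lit 0) (nat_lit 0) (XT.lf (nat_lit 0) (nat_lit 707853191) (nat_lit 228) (nat_lit 12124503331) (nat_lit 76) (nat_lit 2058682733)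 (nat_lit 28) (nat_lit 5) (nat_lit 31) (nat_lit 5) (nat_lit 29) (nat_lit 4) (nat_lit 496) (nat_lit 337) (nat_lit 307)) (XT.lf (nat_lit 0) (nat_lit 5103683413) (nat_lit 228) (nat_lit 3572489115) (nat_lit 76) (nat_lit 6412370625) (nat_lit 28) (nat_lit 5) (nat_lit 31) (nat_lit 5) (nat_lit 29) (nat_lit 4) (nat_lit 497) (nat_lit 337) (nat_lit 306))) (XT.nd (nat_lit 78) (nat_lit 228) (nat_lit 0) (XT.lf (nat_lit 0) (nat_lit 5127793344) (nat_lit 152) (nat_lit 4441940806) (nat_lit 228) (nat_lit 5720625264) (nat_lit 26) (nat_lit 5) (nat_lit 28) (nat_lit 5) (nat_lit 29) (nat_lit 4) (nat_lit 498) (nat_lit 337) (nat_lit 305)) (XT.nd (nat_lit 78) (nat_lit 228) (nat_lit 0) (XT.lf (nat_lit 0) (nat_lit 13961075772) (nat_lit 152) (nat_lit 137433425) (nat_lit 228) (nat_lit 1398242938) (nat_lit 26) (nat_lit 5) (nat_lit 28) (nat_lit 5) (nat_lit 29) (nat_lit 4) (nat_lit 499) (nat_lit 337) (nat_lit 304)) (XT.lf (nat_lit 0) (nat_lit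 2996071993) (nat_lit 228) (nat_lit 8483799846) (nat_lit 76) (nat_lit 4226518431) (nat_lit 23) (nat_lit 5) (nat_lit 26) (nat_lit 5) (nat_lit 24) (nat_lit 4) (nat_lit 500) (nat_lit 337) (nat_lit 303)))))) (XT.nd (nat_lit 390) (nat_lit 304) (nat_lit 0) (XT.nd (nat_lit 156) (nat_lit 304) (nat_lit 0) (XT.nd (nat_lit 78) (nat_lit 0) (nat_lit 0) (XT.lf (nat_lit 0) (nat_lit 160168793) (nat_lit 152) (nat_lit 7261968739) (nat_lit 228) (nat_lit 8498654781) (nat_lit 21) (nat_lit 5) (nat_lit 23) (nat_lit 5) (nat_lit 24) (nat_lit 4) (nat_lit 501) (nat_lit 337) (nat_lit 302)) (XT.lf (nat_lit 0) (nat_lit 9004081754) (nat_lit 152) (nat_lit 2940223788) (nat_lit 228) (nat_lit 4195032805) (nat_lit 21) (nat_lit 5) (nat_lit 23) (nat_lit 5) (nat_lit 24) (nat_lit 4) (nat_lit 502) (nat_lit 337) (nat_lit 301))) (XT.nd (nat_lit 78) (nat_lit 76) (nat_lit 0) (XT.lf (nat_lit 0) (nat_lit 163117541) (nat_lit 228) (nat_lit 14776952172) (nat_lit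 76) (nat_lit 1422747414) (nat_lit 18) (nat_lit 5) (nat_lit 21) (nat_lit 5) (nat_lit 19) (nat_lit 4) (nat_lit 503) (nat_lit 337) (nat_lit 300)) (XT.nd (nat_lit 78) (nat_lit 76) (nat_lit 0) (XT.lf (nat_lit 0) (nat_lit 4571420542) (nat_lit 228) (nat_lit 6146270034) (nat_lit 76) (nat_lit 5872144240) (nat_lit 18) (nat_lit 5) (nat_lit 21) (nat_lit 5) (nat_lit 19) (nat_lit 4) (nat_lit 504) (nat_lit 337) (nat_lit 299)) (XT.lf (nat_lit 0) (nat_lit 2605887781) (nat_lit 76) (nat_lit 6431311685) (nat_lit 152) (nat_lit 7784814195) (nat_lit 17) (nat_lit 5) (nat_lit 18) (nat_lit 5) (nat_lit 19) (nat_lit 4) (nat_lit 505) (nat_lit 337) (nat_lit 298))))) (XT.nd (nat_lit 56082) (nat_lit 0) (nat_lit 6688) (XT.nd (nat_lit 78) (nat_lit 304) (nat_lit 0) (XT.lf (nat_lit 0) (nat_lit 11531649691) (nat_lit 76) (nat_lit 2054662938) (nat_lit 152) (nat_lit 3472649942) (nat_lit 17) (nat_lit 5) (nat_lit 18) (nat_lit 5) (nat_lit 19) (nat_lit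 4) (nat_lit 506) (nat_lit 337) (nat_lit 297)) (XT.nd (nat_lit 156) (nat_lit 76) (nat_lit 0) (XT.lf (nat_lit 0) (nat_lit 903939600) (nat_lit 228) (nat_lit 14027946789) (nat_lit 76) (nat_lit 2368843982) (nat_lit 14) (nat_lit 5) (nat_lit 17) (nat_lit 5) (nat_lit 15) (nat_lit 4) (nat_lit 507) (nat_lit 337) (nat_lit 296)) (XT.lf (nat_lit 0) (nat_lit 3478048574) (nat_lit 76) (nat_lit 6335609372) (nat_lit 152) (nat_lit 7984580433) (nat_lit 13) (nat_lit 5) (nat_lit 14) (nat_lit 5) (nat_lit 15) (nat_lit 4) (nat_lit 509) (nat_lit 337) (nat_lit 294)))) (XT.nd (nat_lit 78) (nat_lit 380) (nat_lit 0) (XT.lf (nat_lit 0) (nat_lit 2442644271) (nat_lit 380) (nat_lit 1348048345) (nat_lit 380) (nat_lit 1348048345) (nat_lit 106) (nat_lit 4) (nat_lit 111) (nat_lit 5) (nat_lit 111) (nat_lit 4) (nat_lit 464) (nat_lit 338) (nat_lit 338)) (XT.nd (nat_lit 78) (nat_lit 0) (nat_lit 0) (XT.lf (nat_lit 0) (nat_lit 1578595291) (nat_lit 380)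 (nat_lit 7961559708) (nat_lit 0) (nat_lit 840858133) (nat_lit 101) (nat_lit 5) (nat_lit 106) (nat_lit 4) (nat_lit 101) (nat_lit 4) (nat_lit 465) (nat_lit 338) (nat_lit 337)) (XT.lf (nat_lit 0) (nat_lit 5890554676) (nat_lit 380) (nat_lit 166419799) (nat_lit 0) (nat_lit 4429545795) (nat_lit 101) (nat_lit 5) (nat_lit 106) (nat_lit 4) (nat_lit 101) (nat_lit 4) (nat_lit 466) (nat_lit 338) (nat_lit 336))))))) (XT.nd (nat_lit 780) (nat_lit 1824) (nat_lit 0) (XT.nd (nat_lit 390) (nat_lit 1216) (nat_lit 0) (XT.nd (nat_lit 156) (nat_lit 608) (nat_lit 0) (XT.nd (nat_lit 78) (nat_lit 380) (nat_lit 0) (XT.lf (nat_lit 0) (nat_lit 7783762501) (nat_lit 304) (nat_lit 2490392331) (nat_lit 304) (nat_lit 320293524) (nat_lit 97) (nat_lit 4) (nat_lit 101) (nat_lit 5) (nat_lit 101) (nat_lit 4) (nat_lit 467) (nat_lit 338) (nat_lit 335)) (XT.lf (nat_lit 0) (nat_lit 3964953296) (nat_lit 380) (nat_lit 5583683577) (nat_lit 0) (nat_lit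 1155850347) (nat_lit 92) (nat_lit 5) (nat_lit 97) (nat_lit 4) (nat_lit 92) (nat_lit 4) (nat_lit 468) (nat_lit 338) (nat_lit 334))) (XT.nd (nat_lit 78) (nat_lit 304) (nat_lit 0) (XT.lf (nat_lit 0) (nat_lit 2341109279) (nat_lit 304) (nat_lit 5976582849) (nat_lit 304) (nat_lit 2499288627) (nat_lit 88) (nat_lit 4) (nat_lit 92) (nat_lit 5) (nat_lit 92) (nat_lit 4) (nat_lit 469) (nat_lit 338) (nat_lit 333)) (XT.nd (nat_lit 78) (nat_lit 228) (nat_lit 0) (XT.lf (nat_lit 0) (nat_lit 1775084969) (nat_lit 380) (nat_lit 546712069) (nat_lit 76) (nat_lit 8610241731) (nat_lit 87) (nat_lit 5) (nat_lit 92) (nat_lit 5) (nat_lit 88) (nat_lit 4) (nat_lit 470) (nat_lit 338) (nat_lit 332)) (XT.lf (nat_lit 0) (nat_lit 6096472959) (nat_lit 304) (nat_lit 3537246635) (nat_lit 0) (nat_lit 1415464823) (nat_lit 84) (nat_lit 5) (nat_lit 88) (nat_lit 4) (nat_lit 84) (nat_lit 4) (nat_lit 471) (nat_lit 338) (nat_lit 331))))) (XT.nd (nat_lit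 156) (nat_lit 608) (nat_lit 0) (XT.nd (nat_lit 78) (nat_lit 304) (nat_lit 0) (XT.lf (nat_lit 0) (nat_lit 4512313558) (nat_lit 304) (nat_lit 5977489559) (nat_lit 304) (nat_lit 679175971) (nat_lit 80) (nat_lit 4) (nat_lit 84) (nat_lit 5) (nat_lit 84) (nat_lit 4) (nat_lit 472) (nat_lit 338) (nat_lit 330)) (XT.lf (nat_lit 0) (nat_lit 1371845805) (nat_lit 228) (nat_lit 2229817965) (nat_lit 304) (nat_lit 7689641904) (nat_lit 76) (nat_lit 5) (nat_lit 79) (nat_lit 5) (nat_lit 80) (nat_lit 4) (nat_lit 473) (nat_lit 338) (nat_lit 329))) (XT.nd (nat_lit 78) (nat_lit 608) (nat_lit 0) (XT.lf (nat_lit 0) (nat_lit 7951950400) (nat_lit 304) (nat_lit 1881705702) (nat_lit 0) (nat_lit 1582489870) (nat_lit 76) (nat_lit 5) (nat_lit 80) (nat_lit 4) (nat_lit 76) (nat_lit 4) (nat_lit 474) (nat_lit 338) (nat_lit 328)) (XT.nd (nat_lit 78) (nat_lit 228) (nat_lit 0) (XT.lf (nat_lit 0) (nat_lit 829013710) (nat_lit 380) (nat_lit 5265147652)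 (nat_lit 76) (nat_lit 5449339817) (nat_lit 71) (nat_lit 5) (nat_lit 76) (nat_lit 5) (nat_lit 72) (nat_lit 4) (nat_lit 475) (nat_lit 338) (nat_lit 327)) (XT.lf (nat_lit 0) (nat_lit 2867858331) (nat_lit 228) (nat_lit 2264184364) (nat_lit 304) (nat_lit 6541510569) (nat_lit 68) (nat_lit 5) (nat_lit 71) (nat_lit 5) (nat_lit 72) (nat_lit 4) (nat_lit 476) (nat_lit 338) (nat_lit 326)))))) (XT.nd (nat_lit 390) (nat_lit 988) (nat_lit 0) (XT.nd (nat_lit 156) (nat_lit 532) (nat_lit 0) (XT.nd (nat_lit 78) (nat_lit 304) (nat_lit 0) (XT.lf (nat_lit 0) (nat_lit 9506618934) (nat_lit 304) (nat_lit 682505899) (nat_lit 0) (nat_lit 1617386101) (nat_lit 68) (nat_lit 5) (nat_lit 72) (nat_lit 4) (nat_lit 68) (nat_lit 4) (nat_lit 477) (nat_lit 338) (nat_lit 325)) (XT.lf (nat_lit 0) (nat_lit 2004711151) (nat_lit 304) (nat_lit 4366580566) (nat_lit 76) (nat_lit 5570491989) (nat_lit 64) (nat_lit 5) (nat_lit 68) (nat_lit 5) (nat_lit 65)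 (nat_lit 4) (nat_lit 478) (nat_lit 338) (nat_lit 324))) (XT.nd (nat_lit 78) (nat_lit 304) (nat_lit 0) (XT.lf (nat_lit 0) (nat_lit 3863886905) (nat_lit 228) (nat_lit 2471022790) (nat_lit 304) (nat_lit 5745155668) (nat_lit 61) (nat_lit 5) (nat_lit 64) (nat_lit 5) (nat_lit 65) (nat_lit 4) (nat_lit 479) (nat_lit 338) (nat_lit 323)) (XT.nd (nat_lit 78) (nat_lit 304) (nat_lit 0) (XT.lf (nat_lit 0) (nat_lit 10731835590) (nat_lit 304) (nat_lit 11809212) (nat_lit 0) (nat_lit 1477878572) (nat_lit 61) (nat_lit 5) (nat_lit 65) (nat_lit 4) (nat_lit 61) (nat_lit 4) (nat_lit 480) (nat_lit 338) (nat_lit 322)) (XT.lf (nat_lit 0) (nat_lit 2826164527) (nat_lit 304) (nat_lit 4031845807) (nat_lit 76) (nat_lit 5507189393) (nat_lit 57) (nat_lit 5) (nat_lit 61) (nat_lit 5) (nat_lit 58) (nat_lit 4) (nat_lit 481) (nat_lit 338) (nat_lit 321))))) (XT.nd (nat_lit 234) (nat_lit 456) (nat_lit 0) (XT.nd (nat_lit 78) (nat_lit 304) (nat_lit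 0) (XT.lf (nat_lit 0) (nat_lit 4282485526) (nat_lit 228) (nat_lit 2895920845) (nat_lit 304) (nat_lit 5333758338) (nat_lit 54) (nat_lit 5) (nat_lit 57) (nat_lit 5) (nat_lit 58) (nat_lit 4) (nat_lit 482) (nat_lit 338) (nat_lit 320)) (XT.nd (nat_lit 78) (nat_lit 76) (nat_lit 0) (XT.lf (nat_lit 0) (nat_lit 51379775) (nat_lit 228) (nat_lit 11543682756) (nat_lit 228) (nat_lit 1067471256) (nat_lit 51) (nat_lit 4) (nat_lit 54) (nat_lit 5) (nat_lit 54) (nat_lit 4) (nat_lit 483) (nat_lit 338) (nat_lit 319)) (XT.lf (nat_lit 0) (nat_lit 3258311533) (nat_lit 304) (nat_lit 4344095774) (nat_lit 76) (nat_lit 5212743354) (nat_lit 50) (nat_lit 5) (nat_lit 54) (nat_lit 5) (nat_lit 51) (nat_lit 4) (nat_lit 484) (nat_lit 338) (nat_lit 318)))) (XT.nd (nat_lit 78) (nat_lit 304) (nat_lit 0) (XT.lf (nat_lit 0) (nat_lit 4038078151) (nat_lit 152) (nat_lit 3588070198) (nat_lit 228) (nat_lit 5345145249) (nat_lit 48) (nat_lit 5) (nat_lit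 50) (nat_lit 5) (nat_lit 51) (nat_lit 4) (nat_lit 485) (nat_lit 338) (nat_lit 317)) (XT.nd (nat_lit 78) (nat_lit 304) (nat_lit 0) (XT.lf (nat_lit 0) (nat_lit 12057804585) (nat_lit 228) (nat_lit 583033908) (nat_lit 0) (nat_lit 490202904) (nat_lit 48) (nat_lit 5) (nat_lit 51) (nat_lit 4) (nat_lit 48) (nat_lit 4) (nat_lit 486) (nat_lit 338) (nat_lit 316)) (XT.lf (nat_lit 0) (nat_lit 3261273964) (nat_lit 304) (nat_lit 5395257146) (nat_lit 76) (nat_lit 4636632692) (nat_lit 44) (nat_lit 5) (nat_lit 48) (nat_lit 5) (nat_lit 45) (nat_lit 4) (nat_lit 487) (nat_lit 338) (nat_lit 315))))))))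
noncomputable def xc12 : XT := (XT.nd (nat_lit 1638) (nat_lit 152) (nat_lit 0) (XT.nd (nat_lit 780) (nat_lit 988) (nat_lit 0) (XT.nd (nat_lit 390) (nat_lit 608) (nat_lit 0) (XT.nd (nat_lit 156) (nat_lit 456) (nat_lit 0) (XT.nd (nat_lit 78) (nat_lit 0) (nat_lit 0) (XT.lf (nat_lit 0) (nat_lit 3036016447) (nat_lit 152) (nat_lit 4600780686) (nat_lit 228) (nat_lit 5822226392) (nat_lit 42) (nat_lit 5) (nat_lit 44) (nat_lit 5) (nat_lit 45) (nat_lit 4) (nat_lit 488) (nat_lit 338) (nat_lit 314)) (XT.lf (nat_lit 0) (nat_lit 11615085103) (nat_lit 152) (nat_lit 466447634) (nat_lit 228) (nat_lit 1547044066) (nat_lit 42) (nat_lit 5) (nat_lit 44) (nat_lit 5) (nat_lit 45) (nat_lit 4) (nat_lit 489) (nat_lit 338) (nat_lit 313))) (XT.nd (nat_lit 78) (nat_lit 152) (nat_lit 0) (XT.lf (nat_lit 0) (nat_lit 2789896603) (nat_lit 304) (nat_lit 7287035264) (nat_lit 76) (nat_lit 3723970791) (nat_lit 38) (nat_lit 5) (nat_lit 42) (nat_lit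 5) (nat_lit 39) (nat_lit 4) (nat_lit 490) (nat_lit 338) (nat_lit 312)) (XT.nd (nat_lit 78) (nat_lit 0) (nat_lit 0) (XT.lf (nat_lit 0) (nat_lit 1171543088) (nat_lit 152) (nat_lit 5992039199) (nat_lit 228) (nat_lit 6813483603) (nat_lit 36) (nat_lit 5) (nat_lit 38) (nat_lit 5) (nat_lit 39) (nat_lit 4) (nat_lit 491) (nat_lit 338) (nat_lit 311)) (XT.lf (nat_lit 0) (nat_lit 9805622599) (nat_lit 152) (nat_lit 1814874768) (nat_lit 228) (nat_lit 2536349513) (nat_lit 36) (nat_lit 5) (nat_lit 38) (nat_lit 5) (nat_lit 39) (nat_lit 4) (nat_lit 492) (nat_lit 338) (nat_lit 310))))) (XT.nd (nat_lit 156) (nat_lit 380) (nat_lit 0) (XT.nd (nat_lit 78) (nat_lit 0) (nat_lit 0) (XT.lf (nat_lit 0) (nat_lit 1793233227) (nat_lit 228) (nat_lit 10132019779) (nat_lit 76) (nat_lit 2414925392) (nat_lit 33) (nat_lit 5) (nat_lit 36) (nat_lit 5) (nat_lit 34) (nat_lit 4) (nat_lit 493) (nat_lit 338) (nat_lit 309)) (XT.lf (nat_lit 0) (nat_lit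 6164620591) (nat_lit 228) (nat_lit 1649429601) (nat_lit 76) (nat_lit 6713016609) (nat_lit 33) (nat_lit 5) (nat_lit 36) (nat_lit 5) (nat_lit 34) (nat_lit 4) (nat_lit 494) (nat_lit 338) (nat_lit 308))) (XT.nd (nat_lit 78) (nat_lit 228) (nat_lit 0) (XT.lf (nat_lit 0) (nat_lit 7004939522) (nat_lit 152) (nat_lit 3612733293) (nat_lit 228) (nat_lit 4100144292) (nat_lit 31) (nat_lit 5) (nat_lit 33) (nat_lit 5) (nat_lit 34) (nat_lit 4) (nat_lit 495) (nat_lit 338) (nat_lit 307)) (XT.nd (nat_lit 78) (nat_lit 0) (nat_lit 0) (XT.lf (nat_lit 0) (nat_lit 213974530) (nat_lit 228) (nat_lit 14054902482) (nat_lit 76) (nat_lit 644085499) (nat_lit 28) (nat_lit 5) (nat_lit 31) (nat_lit 5) (nat_lit 29) (nat_lit 4) (nat_lit 496) (nat_lit 338) (nat_lit 306)) (XT.lf (nat_lit 0) (nat_lit 4584562611) (nat_lit 228) (nat_lit 5547454589) (nat_lit 76) (nat_lit 4978958192) (nat_lit 28) (nat_lit 5) (nat_lit 31) (nat_lit 5) (nat_lit 29) (nat_lit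 4) (nat_lit 497) (nat_lit 338) (nat_lit 305)))))) (XT.nd (nat_lit 390) (nat_lit 456) (nat_lit 0) (XT.nd (nat_lit 156) (nat_lit 380) (nat_lit 0) (XT.nd (nat_lit 78) (nat_lit 0) (nat_lit 0) (XT.lf (nat_lit 0) (nat_lit 3082308494) (nat_lit 152) (nat_lit 5930277013) (nat_lit 228) (nat_lit 6300970763) (nat_lit 26) (nat_lit 5) (nat_lit 28) (nat_lit 5) (nat_lit 29) (nat_lit 4) (nat_lit 498) (nat_lit 338) (nat_lit 304)) (XT.lf (nat_lit 0) (nat_lit 11872185899) (nat_lit 152) (nat_lit 1644630883) (nat_lit 228) (nat_lit 2003627063) (nat_lit 26) (nat_lit 5) (nat_lit 28) (nat_lit 5) (nat_lit 29) (nat_lit 4) (nat_lit 499) (nat_lit 338) (nat_lit 303))) (XT.nd (nat_lit 78) (nat_lit 152) (nat_lit 0) (XT.lf (nat_lit 0) (nat_lit 2350220445) (nat_lit 228) (nat_lit 10678438450) (nat_lit 76) (nat_lit 2702473665) (nat_lit 23) (nat_lit 5) (nat_lit 26) (nat_lit 5) (nat_lit 24) (nat_lit 4) (nat_lit 500) (nat_lit 338) (nat_lit 302)) (XT.nd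 (nat_lit 78) (nat_lit 152) (nat_lit 0) (XT.lf (nat_lit 0) (nat_lit 6751098207) (nat_lit 228) (nat_lit 2079531792) (nat_lit 76) (nat_lit 7115412109) (nat_lit 23) (nat_lit 5) (nat_lit 26) (nat_lit 5) (nat_lit 24) (nat_lit 4) (nat_lit 501) (nat_lit 338) (nat_lit 301)) (XT.lf (nat_lit 0) (nat_lit 6694066588) (nat_lit 152) (nat_lit 4541567033) (nat_lit 228) (nat_lit 4929710851) (nat_lit 21) (nat_lit 5) (nat_lit 23) (nat_lit 5) (nat_lit 24) (nat_lit 4) (nat_lit 502) (nat_lit 338) (nat_lit 300))))) (XT.nd (nat_lit 156) (nat_lit 228) (nat_lit 0) (XT.nd (nat_lit 78) (nat_lit 228) (nat_lit 0) (XT.lf (nat_lit 0) (nat_lit 15586804977) (nat_lit 152) (nat_lit 189576224) (nat_lit 228) (nat_lit 613328534) (nat_lit 21) (nat_lit 5) (nat_lit 23) (nat_lit 5) (nat_lit 24) (nat_lit 4) (nat_lit 503) (nat_lit 338) (nat_lit 299)) (XT.lf (nat_lit 0) (nat_lit 3772901321) (nat_lit 228) (nat_lit 8609695188) (nat_lit 76) (nat_lit 4234816364)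 (nat_lit 18) (nat_lit 5) (nat_lit 21) (nat_lit 5) (nat_lit 19) (nat_lit 4) (nat_lit 504) (nat_lit 338) (nat_lit 298))) (XT.nd (nat_lit 78) (nat_lit 152) (nat_lit 0) (XT.lf (nat_lit 0) (nat_lit 67767889) (nat_lit 76) (nat_lit 8131326380) (nat_lit 152) (nat_lit 8651292564) (nat_lit 17) (nat_lit 5) (nat_lit 18) (nat_lit 5) (nat_lit 19) (nat_lit 4) (nat_lit 505) (nat_lit 338) (nat_lit 297)) (XT.nd (nat_lit 78) (nat_lit 152) (nat_lit 0) (XT.lf (nat_lit 0) (nat_lit 8952395373) (nat_lit 76) (nat_lit 3772891243) (nat_lit 152) (nat_lit 4362510873) (nat_lit 17) (nat_lit 5) (nat_lit 18) (nat_lit 5) (nat_lit 19) (nat_lit 4) (nat_lit 506) (nat_lit 338) (nat_lit 296)) (XT.lf (nat_lit 0) (nat_lit 606199220) (nat_lit 152) (nat_lit 16698480740) (nat_lit 152) (nat_lit 26029450) (nat_lit 15) (nat_lit 4) (nat_lit 17) (nat_lit 5) (nat_lit 17) (nat_lit 4) (nat_lit 507) (nat_lit 338) (nat_lit 295))))))) (XT.nd (nat_lit 56394) (nat_lit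 0) (nat_lit 3344) (XT.nd (nat_lit 56004) (nat_lit 0) (nat_lit 5624) (XT.nd (nat_lit 55770) (nat_lit 0) (nat_lit 6688) (XT.nd (nat_lit 55692) (nat_lit 0) (nat_lit 7828) (XT.lf (nat_lit 0) (nat_lit 664147353) (nat_lit 76) (nat_lit 8156938995) (nat_lit 152) (nat_lit 9008399545) (nat_lit 13) (nat_lit 5) (nat_lit 14) (nat_lit 5) (nat_lit 15) (nat_lit 4) (nat_lit 509) (nat_lit 338) (nat_lit 293)) (XT.lf (nat_lit 0) (nat_lit 4796144257) (nat_lit 380) (nat_lit 121180743) (nat_lit 380) (nat_lit 121180743) (nat_lit 116) (nat_lit 4) (nat_lit 121) (nat_lit 5) (nat_lit 121) (nat_lit 4) (nat_lit 462) (nat_lit 339) (nat_lit 339))) (XT.nd (nat_lit 78) (nat_lit 760) (nat_lit 0) (XT.lf (nat_lit 0) (nat_lit 4010661515) (nat_lit 380) (nat_lit 2922517784) (nat_lit 0) (nat_lit 3243119776) (nat_lit 111) (nat_lit 5) (nat_lit 116) (nat_lit 4) (nat_lit 111) (nat_lit 4) (nat_lit 463) (nat_lit 339) (nat_lit 338)) (XT.nd (nat_lit 78) (nat_lit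 380) (nat_lit 0) (XT.lf (nat_lit 0) (nat_lit 4833958376) (nat_lit 380) (nat_lit 3482112107) (nat_lit 380) (nat_lit 1962078467) (nat_lit 106) (nat_lit 4) (nat_lit 111) (nat_lit 5) (nat_lit 111) (nat_lit 4) (nat_lit 464) (nat_lit 339) (nat_lit 337)) (XT.lf (nat_lit 0) (nat_lit 2264648711) (nat_lit 380) (nat_lit 8066564477) (nat_lit 0) (nat_lit 51147928) (nat_lit 101) (nat_lit 5) (nat_lit 106) (nat_lit 4) (nat_lit 101) (nat_lit 4) (nat_lit 465) (nat_lit 339) (nat_lit 336))))) (XT.nd (nat_lit 156) (nat_lit 684) (nat_lit 0) (XT.nd (nat_lit 78) (nat_lit 380) (nat_lit 0) (XT.lf (nat_lit 0) (nat_lit 6544362668) (nat_lit 380) (nat_lit 322387860) (nat_lit 0) (nat_lit 3621771960) (nat_lit 101) (nat_lit 5) (nat_lit 106) (nat_lit 4) (nat_lit 101) (nat_lit 4) (nat_lit 466) (nat_lit 339) (nat_lit 335)) (XT.lf (nat_lit 0) (nat_lit 293969071) (nat_lit 380) (nat_lit 3023959385) (nat_lit 76) (nat_lit 7279151941) (nat_lit 96) (nat_lit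 5) (nat_lit 101) (nat_lit 5) (nat_lit 97) (nat_lit 4) (nat_lit 467) (nat_lit 339) (nat_lit 334))) (XT.nd (nat_lit 78) (nat_lit 380) (nat_lit 0) (XT.lf (nat_lit 0) (nat_lit 4536246204) (nat_lit 380) (nat_lit 5850400810) (nat_lit 0) (nat_lit 321214823) (nat_lit 92) (nat_lit 5) (nat_lit 97) (nat_lit 4) (nat_lit 92) (nat_lit 4) (nat_lit 468) (nat_lit 339) (nat_lit 333)) (XT.nd (nat_lit 78) (nat_lit 76) (nat_lit 0) (XT.lf (nat_lit 0) (nat_lit 2019932743) (nat_lit 304) (nat_lit 6835610473) (nat_lit 304) (nat_lit 1965489608) (nat_lit 88) (nat_lit 4) (nat_lit 92) (nat_lit 5) (nat_lit 92) (nat_lit 4) (nat_lit 469) (nat_lit 339) (nat_lit 332)) (XT.lf (nat_lit 0) (nat_lit 2270603262) (nat_lit 380) (nat_lit 925746866) (nat_lit 76) (nat_lit 7740305271) (nat_lit 87) (nat_lit 5) (nat_lit 92) (nat_lit 5) (nat_lit 88) (nat_lit 4) (nat_lit 470) (nat_lit 339) (nat_lit 331)))))) (XT.nd (nat_lit 390) (nat_lit 1064) (nat_lit 0) (XT.nd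 (nat_lit 156) (nat_lit 684) (nat_lit 0) (XT.nd (nat_lit 78) (nat_lit 304) (nat_lit 0) (XT.lf (nat_lit 0) (nat_lit 6552688214) (nat_lit 304) (nat_lit 3970804110) (nat_lit 0) (nat_lit 531102902) (nat_lit 84) (nat_lit 5) (nat_lit 88) (nat_lit 4) (nat_lit 84) (nat_lit 4) (nat_lit 471) (nat_lit 339) (nat_lit 330)) (XT.lf (nat_lit 0) (nat_lit 4022812965) (nat_lit 304) (nat_lit 6889522641) (nat_lit 304) (nat_lit 262735906) (nat_lit 80) (nat_lit 4) (nat_lit 84) (nat_lit 5) (nat_lit 84) (nat_lit 4) (nat_lit 472) (nat_lit 339) (nat_lit 329))) (XT.nd (nat_lit 78) (nat_lit 380) (nat_lit 0) (XT.lf (nat_lit 0) (nat_lit 816658077) (nat_lit 228) (nat_lit 3161945655) (nat_lit 304) (nat_lit 7319428708) (nat_lit 76) (nat_lit 5) (nat_lit 79) (nat_lit 5) (nat_lit 80) (nat_lit 4) (nat_lit 473) (nat_lit 339) (nat_lit 328)) (XT.nd (nat_lit 78) (nat_lit 380) (nat_lit 0) (XT.lf (nat_lit 0) (nat_lit 8292557185) (nat_lit 304) (nat_lit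 2487337806) (nat_lit 0) (nat_lit 643711912) (nat_lit 76) (nat_lit 5) (nat_lit 80) (nat_lit 4) (nat_lit 76) (nat_lit 4) (nat_lit 474) (nat_lit 339) (nat_lit 327)) (XT.lf (nat_lit 0) (nat_lit 1123565051) (nat_lit 380) (nat_lit 5938356436) (nat_lit 76) (nat_lit 4489689077) (nat_lit 71) (nat_lit 5) (nat_lit 76) (nat_lit 5) (nat_lit 72) (nat_lit 4) (nat_lit 475) (nat_lit 339) (nat_lit 326))))) (XT.nd (nat_lit 234) (nat_lit 532) (nat_lit 0) (XT.nd (nat_lit 78) (nat_lit 304) (nat_lit 0) (XT.lf (nat_lit 0) (nat_lit 2136180011) (nat_lit 228) (nat_lit 3256041486) (nat_lit 304) (nat_lit 6290135669) (nat_lit 68) (nat_lit 5) (nat_lit 71) (nat_lit 5) (nat_lit 72) (nat_lit 4) (nat_lit 476) (nat_lit 339) (nat_lit 325)) (XT.nd (nat_lit 78) (nat_lit 304) (nat_lit 0) (XT.lf (nat_lit 0) (nat_lit 9730876907) (nat_lit 304) (nat_lit 1465569661) (nat_lit 0) (nat_lit 619593613) (nat_lit 68) (nat_lit 5) (nat_lit 72) (nat_lit 4) (nat_lit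 68) (nat_lit 4) (nat_lit 477) (nat_lit 339) (nat_lit 324)) (XT.lf (nat_lit 0) (nat_lit 2182018448) (nat_lit 304) (nat_lit 5220139614) (nat_lit 76) (nat_lit 4549825773) (nat_lit 64) (nat_lit 5) (nat_lit 68) (nat_lit 5) (nat_lit 65) (nat_lit 4) (nat_lit 478) (nat_lit 339) (nat_lit 323)))) (XT.nd (nat_lit 78) (nat_lit 304) (nat_lit 0) (XT.lf (nat_lit 0) (nat_lit 2950211057) (nat_lit 228) (nat_lit 3527231228) (nat_lit 304) (nat_lit 5613525232) (nat_lit 61) (nat_lit 5) (nat_lit 64) (nat_lit 5) (nat_lit 65) (nat_lit 4) (nat_lit 479) (nat_lit 339) (nat_lit 322)) (XT.nd (nat_lit 78) (nat_lit 304) (nat_lit 0) (XT.lf (nat_lit 0) (nat_lit 10838798282) (nat_lit 304) (nat_lit 977800015) (nat_lit 0) (nat_lit 416545030) (nat_lit 61) (nat_lit 5) (nat_lit 65) (nat_lit 4) (nat_lit 61) (nat_lit 4) (nat_lit 480) (nat_lit 339) (nat_lit 321)) (XT.lf (nat_lit 0) (nat_lit 2885204219) (nat_lit 304) (nat_lit 5071337921) (nat_lit 76)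 (nat_lit 4420972363) (nat_lit 57) (nat_lit 5) (nat_lit 61) (nat_lit 5) (nat_lit 58) (nat_lit 4) (nat_lit 481) (nat_lit 339) (nat_lit 320))))))))
noncomputable def xc13 : XT := (XT.nd (nat_lit 1638) (nat_lit 532) (nat_lit 0) (XT.nd (nat_lit 780) (nat_lit 1292) (nat_lit 0) (XT.nd (nat_lit 390) (nat_lit 760) (nat_lit 0) (XT.nd (nat_lit 156) (nat_lit 456) (nat_lit 0) (XT.nd (nat_lit 78) (nat_lit 0) (nat_lit 0) (XT.lf (nat_lit 0) (nat_lit 3181157328) (nat_lit 228) (nat_lit 4021044729) (nat_lit 304) (nat_lit 5322988341) (nat_lit 54) (nat_lit 5) (nat_lit 57) (nat_lit 5) (nat_lit 58) (nat_lit 4) (nat_lit 482) (nat_lit 339) (nat_lit 319)) (XT.lf (nat_lit 0) (nat_lit 11572343848) (nat_lit 228) (nat_lit 10973835) (nat_lit 304) (nat_lit 1092958518) (nat_lit 54) (nat_lit 5) (nat_lit 57) (nat_lit 5) (nat_lit 58) (nat_lit 4) (nat_lit 483) (nat_lit 339) (nat_lit 318))) (XT.nd (nat_lit 78) (nat_lit 152) (nat_lit 0) (XT.lf (nat_lit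 0) (nat_lit 3197855970) (nat_lit 304) (nat_lit 5575263729) (nat_lit 76) (nat_lit 4056488421) (nat_lit 50) (nat_lit 5) (nat_lit 54) (nat_lit 5) (nat_lit 51) (nat_lit 4) (nat_lit 484) (nat_lit 339) (nat_lit 317)) (XT.nd (nat_lit 78) (nat_lit 0) (nat_lit 0) (XT.lf (nat_lit 0) (nat_lit 2743279361) (nat_lit 152) (nat_lit 4786633683) (nat_lit 228) (nat_lit 5456559181) (nat_lit 48) (nat_lit 5) (nat_lit 50) (nat_lit 5) (nat_lit 51) (nat_lit 4) (nat_lit 485) (nat_lit 339) (nat_lit 316)) (XT.lf (nat_lit 0) (nat_lit 11210155805) (nat_lit 152) (nat_lit 721051246) (nat_lit 228) (nat_lit 1215625681) (nat_lit 48) (nat_lit 5) (nat_lit 50) (nat_lit 5) (nat_lit 51) (nat_lit 4) (nat_lit 486) (nat_lit 339) (nat_lit 315))))) (XT.nd (nat_lit 156) (nat_lit 304) (nat_lit 0) (XT.nd (nat_lit 78) (nat_lit 152) (nat_lit 0) (XT.lf (nat_lit 0) (nat_lit 3079893206) (nat_lit 304) (nat_lit 6824018969) (nat_lit 76) (nat_lit 3405883889) (nat_lit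 44) (nat_lit 5) (nat_lit 48) (nat_lit 5) (nat_lit 45) (nat_lit 4) (nat_lit 487) (nat_lit 339) (nat_lit 314)) (XT.lf (nat_lit 0) (nat_lit 1541750032) (nat_lit 152) (nat_lit 5877284889) (nat_lit 228) (nat_lit 6057353644) (nat_lit 42) (nat_lit 5) (nat_lit 44) (nat_lit 5) (nat_lit 45) (nat_lit 4) (nat_lit 488) (nat_lit 339) (nat_lit 313))) (XT.nd (nat_lit 78) (nat_lit 304) (nat_lit 0) (XT.lf (nat_lit 0) (nat_lit 10075213689) (nat_lit 152) (nat_lit 1762104184) (nat_lit 228) (nat_lit 1809158070) (nat_lit 42) (nat_lit 5) (nat_lit 44) (nat_lit 5) (nat_lit 45) (nat_lit 4) (nat_lit 489) (nat_lit 339) (nat_lit 312)) (XT.nd (nat_lit 78) (nat_lit 0) (nat_lit 0) (XT.lf (nat_lit 0) (nat_lit 2485959567) (nat_lit 304) (nat_lit 8919499398) (nat_lit 76) (nat_lit 2414286935) (nat_lit 38) (nat_lit 5) (nat_lit 42) (nat_lit 5) (nat_lit 39) (nat_lit 4) (nat_lit 490) (nat_lit 339) (nat_lit 311)) (XT.lf (nat_lit 0) (nat_lit 6826026972)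 (nat_lit 304) (nat_lit 521452190) (nat_lit 76) (nat_lit 6649107092) (nat_lit 38) (nat_lit 5) (nat_lit 42) (nat_lit 5) (nat_lit 39) (nat_lit 4) (nat_lit 491) (nat_lit 339) (nat_lit 310)))))) (XT.nd (nat_lit 390) (nat_lit 760) (nat_lit 0) (XT.nd (nat_lit 156) (nat_lit 152) (nat_lit 0) (XT.nd (nat_lit 78) (nat_lit 228) (nat_lit 0) (XT.lf (nat_lit 0) (nat_lit 8060828494) (nat_lit 152) (nat_lit 3192889824) (nat_lit 228) (nat_lit 2923238064) (nat_lit 36) (nat_lit 5) (nat_lit 38) (nat_lit 5) (nat_lit 39) (nat_lit 4) (nat_lit 492) (nat_lit 339) (nat_lit 309)) (XT.lf (nat_lit 0) (nat_lit 1364908216) (nat_lit 228) (nat_lit 11974500159) (nat_lit 76) (nat_lit 1021864457) (nat_lit 33) (nat_lit 5) (nat_lit 36) (nat_lit 5) (nat_lit 34) (nat_lit 4) (nat_lit 493) (nat_lit 339) (nat_lit 308))) (XT.nd (nat_lit 78) (nat_lit 152) (nat_lit 0) (XT.lf (nat_lit 0) (nat_lit 5710927461) (nat_lit 228) (nat_lit 3536337654) (nat_lit 76)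 (nat_lit 5301407877) (nat_lit 33) (nat_lit 5) (nat_lit 36) (nat_lit 5) (nat_lit 34) (nat_lit 4) (nat_lit 494) (nat_lit 339) (nat_lit 307)) (XT.nd (nat_lit 78) (nat_lit 0) (nat_lit 0) (XT.lf (nat_lit 0) (nat_lit 5048820069) (nat_lit 152) (nat_lit 5077588487) (nat_lit 228) (nat_lit 4613770472) (nat_lit 31) (nat_lit 5) (nat_lit 33) (nat_lit 5) (nat_lit 34) (nat_lit 4) (nat_lit 495) (nat_lit 339) (nat_lit 306)) (XT.lf (nat_lit 0) (nat_lit 13766211562) (nat_lit 152) (nat_lit 837897154) (nat_lit 228) (nat_lit 331936810) (nat_lit 31) (nat_lit 5) (nat_lit 33) (nat_lit 5) (nat_lit 34) (nat_lit 4) (nat_lit 496) (nat_lit 339) (nat_lit 305))))) (XT.nd (nat_lit 234) (nat_lit 380) (nat_lit 0) (XT.nd (nat_lit 78) (nat_lit 152) (nat_lit 0) (XT.lf (nat_lit 0) (nat_lit 4005070055) (nat_lit 228) (nat_lit 7650178170) (nat_lit 76) (nat_lit 3479616037) (nat_lit 28) (nat_lit 5) (nat_lit 31) (nat_lit 5) (nat_lit 29) (nat_lit 4) (nat_lit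 497) (nat_lit 339) (nat_lit 304)) (XT.nd (nat_lit 78) (nat_lit 0) (nat_lit 0) (XT.lf (nat_lit 0) (nat_lit 908235800) (nat_lit 152) (nat_lit 7486479672) (nat_lit 228) (nat_lit 6943501198) (nat_lit 26) (nat_lit 5) (nat_lit 28) (nat_lit 5) (nat_lit 29) (nat_lit 4) (nat_lit 498) (nat_lit 339) (nat_lit 303)) (XT.lf (nat_lit 0) (nat_lit 9655559260) (nat_lit 152) (nat_lit 3219324966) (nat_lit 228) (nat_lit 2670705172) (nat_lit 26) (nat_lit 5) (nat_lit 28) (nat_lit 5) (nat_lit 29) (nat_lit 4) (nat_lit 499) (nat_lit 339) (nat_lit 302)))) (XT.nd (nat_lit 78) (nat_lit 152) (nat_lit 0) (XT.lf (nat_lit 0) (nat_lit 1642673199) (nat_lit 228) (nat_lit 13003751731) (nat_lit 76) (nat_lit 1110927915) (nat_lit 23) (nat_lit 5) (nat_lit 26) (nat_lit 5) (nat_lit 24) (nat_lit 4) (nat_lit 500) (nat_lit 339) (nat_lit 301)) (XT.nd (nat_lit 78) (nat_lit 152) (nat_lit 0) (XT.lf (nat_lit 0) (nat_lit 6019876593) (nat_lit 228) (nat_lit 4446964032)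 (nat_lit 76) (nat_lit 5505898932) (nat_lit 23) (nat_lit 5) (nat_lit 26) (nat_lit 5) (nat_lit 24) (nat_lit 4) (nat_lit 501) (nat_lit 339) (nat_lit 300)) (XT.lf (nat_lit 0) (nat_lit 4253330558) (nat_lit 152) (nat_lit 6212024408) (nat_lit 228) (nat_lit 5727471700) (nat_lit 21) (nat_lit 5) (nat_lit 23) (nat_lit 5) (nat_lit 24) (nat_lit 4) (nat_lit 502) (nat_lit 339) (nat_lit 299))))))) (XT.nd (nat_lit 56316) (nat_lit 0) (nat_lit 4712) (XT.nd (nat_lit 468) (nat_lit 228) (nat_lit 0) (XT.nd (nat_lit 156) (nat_lit 76) (nat_lit 0) (XT.nd (nat_lit 78) (nat_lit 228) (nat_lit 0) (XT.lf (nat_lit 0) (nat_lit 13105047515) (nat_lit 152) (nat_lit 1878033629) (nat_lit 228) (nat_lit 1434574747) (nat_lit 21) (nat_lit 5) (nat_lit 23) (nat_lit 5) (nat_lit 24) (nat_lit 4) (nat_lit 503) (nat_lit 339) (nat_lit 298)) (XT.lf (nat_lit 0) (nat_lit 2911735942) (nat_lit 228) (nat_lit 11206030660) (nat_lit 76) (nat_lit 2528716265) (nat_lit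 18) (nat_lit 5) (nat_lit 21) (nat_lit 5) (nat_lit 19) (nat_lit 4) (nat_lit 504) (nat_lit 339) (nat_lit 297))) (XT.nd (nat_lit 78) (nat_lit 76) (nat_lit 0) (XT.lf (nat_lit 0) (nat_lit 7314835153) (nat_lit 228) (nat_lit 2570051310) (nat_lit 76) (nat_lit 6995035568) (nat_lit 18) (nat_lit 5) (nat_lit 21) (nat_lit 5) (nat_lit 19) (nat_lit 4) (nat_lit 505) (nat_lit 339) (nat_lit 296)) (XT.nd (nat_lit 78) (nat_lit 0) (nat_lit 0) (XT.lf (nat_lit 0) (nat_lit 6240093675) (nat_lit 76) (nat_lit 5561554205) (nat_lit 152) (nat_lit 5316475665) (nat_lit 17) (nat_lit 5) (nat_lit 18) (nat_lit 5) (nat_lit 19) (nat_lit 4) (nat_lit 506) (nat_lit 339) (nat_lit 295)) (XT.lf (nat_lit 0) (nat_lit 15181414288) (nat_lit 76) (nat_lit 1169526810) (nat_lit 152) (nat_lit 1010699571) (nat_lit 17) (nat_lit 5) (nat_lit 18) (nat_lit 5) (nat_lit 19) (nat_lit 4) (nat_lit 507) (nat_lit 339) (nat_lit 294))))) (XT.nd (nat_lit 55614) (nat_lit 0) (nat_lit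 7372) (XT.nd (nat_lit 55536) (nat_lit 0) (nat_lit 8132) (XT.lf (nat_lit 0) (nat_lit 7779188088) (nat_lit 228) (nat_lit 2256120956) (nat_lit 76) (nat_lit 7826644908) (nat_lit 14) (nat_lit 5) (nat_lit 17) (nat_lit 5) (nat_lit 15) (nat_lit 4) (nat_lit 509) (nat_lit 339) (nat_lit 292)) (XT.lf (nat_lit 0) (nat_lit 1044131761) (nat_lit 456) (nat_lit 2853270329) (nat_lit 0) (nat_lit 1044131761) (nat_lit 121) (nat_lit 5) (nat_lit 127) (nat_lit 4) (nat_lit 121) (nat_lit 4) (nat_lit 460) (nat_lit 340) (nat_lit 340))) (XT.nd (nat_lit 78) (nat_lit 380) (nat_lit 0) (XT.lf (nat_lit 0) (nat_lit 1854091162) (nat_lit 380) (nat_lit 4461792240) (nat_lit 380) (nat_lit 3663241815) (nat_lit 116) (nat_lit 4) (nat_lit 121) (nat_lit 5) (nat_lit 121) (nat_lit 4) (nat_lit 461) (nat_lit 340) (nat_lit 339)) (XT.nd (nat_lit 78) (nat_lit 304) (nat_lit 0) (XT.lf (nat_lit 0) (nat_lit 516169871) (nat_lit 456) (nat_lit 538779859) (nat_lit 76)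 (nat_lit 9022654121) (nat_lit 115) (nat_lit 5) (nat_lit 121) (nat_lit 5) (nat_lit 116) (nat_lit 4) (nat_lit 462) (nat_lit 340) (nat_lit 338)) (XT.lf (nat_lit 0) (nat_lit 4727857186) (nat_lit 380) (nat_lit 3024844847) (nat_lit 0) (nat_lit 2424930971) (nat_lit 111) (nat_lit 5) (nat_lit 116) (nat_lit 4) (nat_lit 111) (nat_lit 4) (nat_lit 463) (nat_lit 340) (nat_lit 337)))))) (XT.nd (nat_lit 390) (nat_lit 1216) (nat_lit 0) (XT.nd (nat_lit 156) (nat_lit 684) (nat_lit 0) (XT.nd (nat_lit 78) (nat_lit 380) (nat_lit 0) (XT.lf (nat_lit 0) (nat_lit 4679947748) (nat_lit 380) (nat_lit 4320432957) (nat_lit 380) (nat_lit 1279769584) (nat_lit 106) (nat_lit 4) (nat_lit 111) (nat_lit 5) (nat_lit 111) (nat_lit 4) (nat_lit 464) (nat_lit 340) (nat_lit 336)) (XT.lf (nat_lit 0) (nat_lit 2103135436) (nat_lit 304) (nat_lit 801354926) (nat_lit 380) (nat_lit 7480463193) (nat_lit 101) (nat_lit 5) (nat_lit 105) (nat_lit 5) (nat_lit 106)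 (nat_lit 4) (nat_lit 465) (nat_lit 340) (nat_lit 335))) (XT.nd (nat_lit 78) (nat_lit 684) (nat_lit 0) (XT.lf (nat_lit 0) (nat_lit 7147388226) (nat_lit 380) (nat_lit 582402587) (nat_lit 0) (nat_lit 2762069578) (nat_lit 101) (nat_lit 5) (nat_lit 106) (nat_lit 4) (nat_lit 101) (nat_lit 4) (nat_lit 466) (nat_lit 340) (nat_lit 334)) (XT.nd (nat_lit 78) (nat_lit 304) (nat_lit 0) (XT.lf (nat_lit 0) (nat_lit 852537964) (nat_lit 380) (nat_lit 3344747058) (nat_lit 76) (nat_lit 6403729268) (nat_lit 96) (nat_lit 5) (nat_lit 101) (nat_lit 5) (nat_lit 97) (nat_lit 4) (nat_lit 467) (nat_lit 340) (nat_lit 333)) (XT.lf (nat_lit 0) (nat_lit 4484832008) (nat_lit 304) (nat_lit 574522956) (nat_lit 380) (nat_lit 5653158585) (nat_lit 92) (nat_lit 5) (nat_lit 96) (nat_lit 5) (nat_lit 97) (nat_lit 4) (nat_lit 468) (nat_lit 340) (nat_lit 332))))) (XT.nd (nat_lit 234) (nat_lit 608) (nat_lit 0) (XT.nd (nat_lit 78) (nat_lit 304) (nat_lit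 0) (XT.lf (nat_lit 0) (nat_lit 1591501463) (nat_lit 304) (nat_lit 7749896974) (nat_lit 304) (nat_lit 1485039616) (nat_lit 88) (nat_lit 4) (nat_lit 92) (nat_lit 5) (nat_lit 92) (nat_lit 4) (nat_lit 469) (nat_lit 340) (nat_lit 331)) (XT.nd (nat_lit 78) (nat_lit 228) (nat_lit 0) (XT.lf (nat_lit 0) (nat_lit 2714085541) (nat_lit 380) (nat_lit 1412056124) (nat_lit 76) (nat_lit 6816478024) (nat_lit 87) (nat_lit 5) (nat_lit 92) (nat_lit 5) (nat_lit 88) (nat_lit 4) (nat_lit 470) (nat_lit 340) (nat_lit 330)) (XT.lf (nat_lit 0) (nat_lit 6545554388) (nat_lit 228) (nat_lit 413539056) (nat_lit 304) (nat_lit 4102215572) (nat_lit 84) (nat_lit 5) (nat_lit 87) (nat_lit 5) (nat_lit 88) (nat_lit 4) (nat_lit 471) (nat_lit 340) (nat_lit 329)))) (XT.nd (nat_lit 78) (nat_lit 228) (nat_lit 0) (XT.lf (nat_lit 0) (nat_lit 98431655) (nat_lit 380) (nat_lit 7759026678) (nat_lit 76) (nat_lit 3325051390) (nat_lit 79) (nat_lit 5) (nat_lit 84)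 (nat_lit 5) (nat_lit 80) (nat_lit 4) (nat_lit 472) (nat_lit 340) (nat_lit 328)) (XT.nd (nat_lit 78) (nat_lit 0) (nat_lit 0) (XT.lf (nat_lit 0) (nat_lit 150814652) (nat_lit 228) (nat_lit 4151350688) (nat_lit 304) (nat_lit 7003961896) (nat_lit 76) (nat_lit 5) (nat_lit 79) (nat_lit 5) (nat_lit 80) (nat_lit 4) (nat_lit 473) (nat_lit 340) (nat_lit 327)) (XT.lf (nat_lit 0) (nat_lit 8226428515) (nat_lit 228) (nat_lit 355889637) (nat_lit 304) (nat_lit 2850066912) (nat_lit 76) (nat_lit 5) (nat_lit 79) (nat_lit 5) (nat_lit 80) (nat_lit 4) (nat_lit 474) (nat_lit 340) (nat_lit 326))))))))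
noncomputable def xc14 : XT := (XT.nd (nat_lit 1638) (nat_lit 1292) (nat_lit 0) (XT.nd (nat_lit 780) (nat_lit 1444) (nat_lit 0) (XT.nd (nat_lit 390) (nat_lit 836) (nat_lit 0) (XT.nd (nat_lit 156) (nat_lit 532) (nat_lit 0) (XT.nd (nat_lit 78) (nat_lit 228) (nat_lit 0) (XT.lf (nat_lit 0) (nat_lit 1364170984) (nat_lit 380) (nat_lit 6723753750) (nat_lit 76) (nat_lit 3473168407) (nat_lit 71) (nat_lit 5) (nat_lit 76) (nat_lit 5) (nat_lit 72) (nat_lit 4) (nat_lit 475) (nat_lit 340) (nat_lit 325)) (XT.lf (nat_lit 0) (nat_lit 1291793273) (nat_lit 228) (nat_lit 4306510665) (nat_lit 304) (nat_lit 6094233205) (nat_lit 68) (nat_lit 5) (nat_lit 71) (nat_lit 5) (nat_lit 72) (nat_lit 4) (nat_lit 476) (nat_lit 340) (nat_lit 324))) (XT.nd (nat_lit 78) (nat_lit 532) (nat_lit 0) (XT.lf (nat_lit 0) (nat_lit 9462641673) (nat_lit 228) (nat_lit 441460611) (nat_lit 304) (nat_lit 1922781808) (nat_lit 68) (nat_lit 5) (nat_lit 71) (nat_lit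 5) (nat_lit 72) (nat_lit 4) (nat_lit 477) (nat_lit 340) (nat_lit 323)) (XT.nd (nat_lit 78) (nat_lit 228) (nat_lit 0) (XT.lf (nat_lit 0) (nat_lit 2304610004) (nat_lit 304) (nat_lit 6188000074) (nat_lit 76) (nat_lit 3470956316) (nat_lit 64) (nat_lit 5) (nat_lit 68) (nat_lit 5) (nat_lit 65) (nat_lit 4) (nat_lit 478) (nat_lit 340) (nat_lit 322)) (XT.lf (nat_lit 0) (nat_lit 1921671132) (nat_lit 228) (nat_lit 4643407766) (nat_lit 304) (nat_lit 5538176677) (nat_lit 61) (nat_lit 5) (nat_lit 64) (nat_lit 5) (nat_lit 65) (nat_lit 4) (nat_lit 479) (nat_lit 340) (nat_lit 321))))) (XT.nd (nat_lit 156) (nat_lit 532) (nat_lit 0) (XT.nd (nat_lit 78) (nat_lit 304) (nat_lit 0) (XT.lf (nat_lit 0) (nat_lit 10182719107) (nat_lit 228) (nat_lit 712948460) (nat_lit 304) (nat_lit 1350385443) (nat_lit 61) (nat_lit 5) (nat_lit 64) (nat_lit 5) (nat_lit 65) (nat_lit 4) (nat_lit 480) (nat_lit 340) (nat_lit 320)) (XT.lf (nat_lit 0) (nat_lit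 2888675931) (nat_lit 304) (nat_lit 6227351649) (nat_lit 76) (nat_lit 3275195157) (nat_lit 57) (nat_lit 5) (nat_lit 61) (nat_lit 5) (nat_lit 58) (nat_lit 4) (nat_lit 481) (nat_lit 340) (nat_lit 319))) (XT.nd (nat_lit 78) (nat_lit 304) (nat_lit 0) (XT.lf (nat_lit 0) (nat_lit 1962700610) (nat_lit 228) (nat_lit 5207519530) (nat_lit 304) (nat_lit 5369393478) (nat_lit 54) (nat_lit 5) (nat_lit 57) (nat_lit 5) (nat_lit 58) (nat_lit 4) (nat_lit 482) (nat_lit 340) (nat_lit 318)) (XT.nd (nat_lit 78) (nat_lit 304) (nat_lit 0) (XT.lf (nat_lit 0) (nat_lit 10307730094) (nat_lit 228) (nat_lit 1216303440) (nat_lit 304) (nat_lit 1167217729) (nat_lit 54) (nat_lit 5) (nat_lit 57) (nat_lit 5) (nat_lit 58) (nat_lit 4) (nat_lit 483) (nat_lit 340) (nat_lit 317)) (XT.lf (nat_lit 0) (nat_lit 3080897735) (nat_lit 304) (nat_lit 6925286662) (nat_lit 76) (nat_lit 2839287459) (nat_lit 50) (nat_lit 5) (nat_lit 54) (nat_lit 5) (nat_lit 51)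 (nat_lit 4) (nat_lit 484) (nat_lit 340) (nat_lit 316)))))) (XT.nd (nat_lit 390) (nat_lit 836) (nat_lit 0) (XT.nd (nat_lit 156) (nat_lit 456) (nat_lit 0) (XT.nd (nat_lit 78) (nat_lit 0) (nat_lit 0) (XT.lf (nat_lit 0) (nat_lit 1328972920) (nat_lit 152) (nat_lit 6047962950) (nat_lit 228) (nat_lit 5626125933) (nat_lit 48) (nat_lit 5) (nat_lit 50) (nat_lit 5) (nat_lit 51) (nat_lit 4) (nat_lit 485) (nat_lit 340) (nat_lit 315)) (XT.lf (nat_lit 0) (nat_lit 9750415626) (nat_lit 152) (nat_lit 2001209144) (nat_lit 228) (nat_lit 1412334999) (nat_lit 48) (nat_lit 5) (nat_lit 50) (nat_lit 5) (nat_lit 51) (nat_lit 4) (nat_lit 486) (nat_lit 340) (nat_lit 314))) (XT.nd (nat_lit 78) (nat_lit 152) (nat_lit 0) (XT.lf (nat_lit 0) (nat_lit 2840991870) (nat_lit 304) (nat_lit 8374088206) (nat_lit 76) (nat_lit 2112769156) (nat_lit 44) (nat_lit 5) (nat_lit 48) (nat_lit 5) (nat_lit 45) (nat_lit 4) (nat_lit 487) (nat_lit 340) (nat_lit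 313)) (XT.nd (nat_lit 78) (nat_lit 152) (nat_lit 0) (XT.lf (nat_lit 0) (nat_lit 7143966967) (nat_lit 304) (nat_lit 73546415) (nat_lit 76) (nat_lit 6277656730) (nat_lit 44) (nat_lit 5) (nat_lit 48) (nat_lit 5) (nat_lit 45) (nat_lit 4) (nat_lit 488) (nat_lit 340) (nat_lit 312)) (XT.lf (nat_lit 0) (nat_lit 8414229065) (nat_lit 152) (nat_lit 3121603023) (nat_lit 228) (nat_lit 2129958707) (nat_lit 42) (nat_lit 5) (nat_lit 44) (nat_lit 5) (nat_lit 45) (nat_lit 4) (nat_lit 489) (nat_lit 340) (nat_lit 311))))) (XT.nd (nat_lit 234) (nat_lit 380) (nat_lit 0) (XT.nd (nat_lit 78) (nat_lit 152) (nat_lit 0) (XT.lf (nat_lit 0) (nat_lit 2123399865) (nat_lit 304) (nat_lit 10675848432) (nat_lit 76) (nat_lit 1040778198) (nat_lit 38) (nat_lit 5) (nat_lit 42) (nat_lit 5) (nat_lit 39) (nat_lit 4) (nat_lit 490) (nat_lit 340) (nat_lit 310)) (XT.nd (nat_lit 78) (nat_lit 152) (nat_lit 0) (XT.lf (nat_lit 0) (nat_lit 6437965462) (nat_lit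 304) (nat_lit 2322081759) (nat_lit 76) (nat_lit 5257334325) (nat_lit 38) (nat_lit 5) (nat_lit 42) (nat_lit 5) (nat_lit 39) (nat_lit 4) (nat_lit 491) (nat_lit 340) (nat_lit 309)) (XT.lf (nat_lit 0) (nat_lit 6192280289) (nat_lit 152) (nat_lit 4636242892) (nat_lit 228) (nat_lit 3369975739) (nat_lit 36) (nat_lit 5) (nat_lit 38) (nat_lit 5) (nat_lit 39) (nat_lit 4) (nat_lit 492) (nat_lit 340) (nat_lit 308)))) (XT.nd (nat_lit 78) (nat_lit 152) (nat_lit 0) (XT.lf (nat_lit 0) (nat_lit 437319551) (nat_lit 152) (nat_lit 442325424) (nat_lit 228) (nat_lit 13504120491) (nat_lit 33) (nat_lit 5) (nat_lit 35) (nat_lit 5) (nat_lit 36) (nat_lit 5) (nat_lit 493) (nat_lit 340) (nat_lit 307)) (XT.nd (nat_lit 78) (nat_lit 152) (nat_lit 0) (XT.lf (nat_lit 0) (nat_lit 5197921645) (nat_lit 228) (nat_lit 5548968083) (nat_lit 76) (nat_lit 3824835057) (nat_lit 33) (nat_lit 5) (nat_lit 36) (nat_lit 5) (nat_lit 34) (nat_lit 4) (nat_lit 494)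 (nat_lit 340) (nat_lit 306)) (XT.lf (nat_lit 0) (nat_lit 2966172855) (nat_lit 152) (nat_lit 6609324913) (nat_lit 228) (nat_lit 5188495375) (nat_lit 31) (nat_lit 5) (nat_lit 33) (nat_lit 5) (nat_lit 34) (nat_lit 4) (nat_lit 495) (nat_lit 340) (nat_lit 305))))))) (XT.nd (nat_lit 780) (nat_lit 304) (nat_lit 0) (XT.nd (nat_lit 390) (nat_lit 380) (nat_lit 0) (XT.nd (nat_lit 156) (nat_lit 380) (nat_lit 0) (XT.nd (nat_lit 78) (nat_lit 228) (nat_lit 0) (XT.lf (nat_lit 0) (nat_lit 11641142794) (nat_lit 152) (nat_lit 2387874761) (nat_lit 228) (nat_lit 931329835) (nat_lit 31) (nat_lit 5) (nat_lit 33) (nat_lit 5) (nat_lit 34) (nat_lit 4) (nat_lit 496) (nat_lit 340) (nat_lit 304)) (XT.lf (nat_lit 0) (nat_lit 3364978495) (nat_lit 228) (nat_lit 9881484455) (nat_lit 76) (nat_lit 1913756183) (nat_lit 28) (nat_lit 5) (nat_lit 31) (nat_lit 5) (nat_lit 29) (nat_lit 4) (nat_lit 497) (nat_lit 340) (nat_lit 303))) (XT.nd (nat_lit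 78) (nat_lit 380) (nat_lit 0) (XT.lf (nat_lit 0) (nat_lit 7724940810) (nat_lit 228) (nat_lit 1376978002) (nat_lit 76) (nat_lit 6262250292) (nat_lit 28) (nat_lit 5) (nat_lit 31) (nat_lit 5) (nat_lit 29) (nat_lit 4) (nat_lit 498) (nat_lit 340) (nat_lit 302)) (XT.nd (nat_lit 78) (nat_lit 228) (nat_lit 0) (XT.lf (nat_lit 0) (nat_lit 7310326591) (nat_lit 152) (nat_lit 4862133200) (nat_lit 228) (nat_lit 3399738863) (nat_lit 26) (nat_lit 5) (nat_lit 28) (nat_lit 5) (nat_lit 29) (nat_lit 4) (nat_lit 499) (nat_lit 340) (nat_lit 301)) (XT.lf (nat_lit 0) (nat_lit 320727478) (nat_lit 152) (nat_lit 556035458) (nat_lit 228) (nat_lit 14908226268) (nat_lit 23) (nat_lit 5) (nat_lit 25) (nat_lit 5) (nat_lit 26) (nat_lit 5) (nat_lit 500) (nat_lit 340) (nat_lit 300))))) (XT.nd (nat_lit 156) (nat_lit 228) (nat_lit 0) (XT.nd (nat_lit 78) (nat_lit 152) (nat_lit 0) (XT.lf (nat_lit 0) (nat_lit 5227146015) (nat_lit 228) (nat_lit 6945156974)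 (nat_lit 76) (nat_lit 3828612938) (nat_lit 23) (nat_lit 5) (nat_lit 26) (nat_lit 5) (nat_lit 24) (nat_lit 4) (nat_lit 501) (nat_lit 340) (nat_lit 299)) (XT.lf (nat_lit 0) (nat_lit 1680916514) (nat_lit 152) (nat_lit 7952250992) (nat_lit 228) (nat_lit 6588628201) (nat_lit 21) (nat_lit 5) (nat_lit 23) (nat_lit 5) (nat_lit 24) (nat_lit 4) (nat_lit 502) (nat_lit 340) (nat_lit 298))) (XT.nd (nat_lit 78) (nat_lit 228) (nat_lit 0) (XT.lf (nat_lit 0) (nat_lit 10492416381) (nat_lit 152) (nat_lit 3635907303) (nat_lit 228) (nat_lit 2318756114) (nat_lit 21) (nat_lit 5) (nat_lit 23) (nat_lit 5) (nat_lit 24) (nat_lit 4) (nat_lit 503) (nat_lit 340) (nat_lit 297)) (XT.nd (nat_lit 78) (nat_lit 0) (nat_lit 0) (XT.lf (nat_lit 0) (nat_lit 1987586694) (nat_lit 228) (nat_lit 13936294621) (nat_lit 76) (nat_lit 753174883) (nat_lit 18) (nat_lit 5) (nat_lit 21) (nat_lit 5) (nat_lit 19) (nat_lit 4) (nat_lit 504) (nat_lit 340) (nat_lit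 296)) (XT.lf (nat_lit 0) (nat_lit 6368476353) (nat_lit 228) (nat_lit 5340114232) (nat_lit 76) (nat_lit 5202352234) (nat_lit 18) (nat_lit 5) (nat_lit 21) (nat_lit 5) (nat_lit 19) (nat_lit 4) (nat_lit 505) (nat_lit 340) (nat_lit 295)))))) (XT.nd (nat_lit 55770) (nat_lit 0) (nat_lit 6612) (XT.nd (nat_lit 234) (nat_lit 228) (nat_lit 0) (XT.nd (nat_lit 78) (nat_lit 0) (nat_lit 0) (XT.lf (nat_lit 0) (nat_lit 3393680948) (nat_lit 76) (nat_lit 7421353261) (nat_lit 152) (nat_lit 6334918421) (nat_lit 17) (nat_lit 5) (nat_lit 18) (nat_lit 5) (nat_lit 19) (nat_lit 4) (nat_lit 506) (nat_lit 340) (nat_lit 294)) (XT.lf (nat_lit 0) (nat_lit 12296239674) (nat_lit 76) (nat_lit 3046488958) (nat_lit 152) (nat_lit 2051176237) (nat_lit 17) (nat_lit 5) (nat_lit 18) (nat_lit 5) (nat_lit 19) (nat_lit 4) (nat_lit 507) (nat_lit 340) (nat_lit 293))) (XT.nd (nat_lit 55380) (nat_lit 0) (nat_lit 8588) (XT.lf (nat_lit 0) (nat_lit 6677910729)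 (nat_lit 228) (nat_lit 5303382139) (nat_lit 76) (nat_lit 5914555302) (nat_lit 14) (nat_lit 5) (nat_lit 17) (nat_lit 5) (nat_lit 15) (nat_lit 4) (nat_lit 509) (nat_lit 340) (nat_lit 291)) (XT.nd (nat_lit 78) (nat_lit 380) (nat_lit 0) (XT.lf (nat_lit 0) (nat_lit 2148034444) (nat_lit 456) (nat_lit 552130493) (nat_lit 0) (nat_lit 2148034444) (nat_lit 132) (nat_lit 5) (nat_lit 138) (nat_lit 4) (nat_lit 132) (nat_lit 4) (nat_lit 458) (nat_lit 341) (nat_lit 341)) (XT.lf (nat_lit 0) (nat_lit 6406707522) (nat_lit 380) (nat_lit 2106597704) (nat_lit 380) (nat_lit 1275785842) (nat_lit 127) (nat_lit 4) (nat_lit 132) (nat_lit 5) (nat_lit 132) (nat_lit 4) (nat_lit 459) (nat_lit 341) (nat_lit 340))))) (XT.nd (nat_lit 234) (nat_lit 1064) (nat_lit 0) (XT.nd (nat_lit 78) (nat_lit 456) (nat_lit 0) (XT.lf (nat_lit 0) (nat_lit 2869966943) (nat_lit 456) (nat_lit 5756872539) (nat_lit 0) (nat_lit 1256895083) (nat_lit 121) (nat_lit 5)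 (nat_lit 127) (nat_lit 4) (nat_lit 121) (nat_lit 4) (nat_lit 460) (nat_lit 341) (nat_lit 339)) (XT.nd (nat_lit 78) (nat_lit 76) (nat_lit 0) (XT.lf (nat_lit 0) (nat_lit 1753089647) (nat_lit 380) (nat_lit 5311666884) (nat_lit 380) (nat_lit 2915702451) (nat_lit 116) (nat_lit 4) (nat_lit 121) (nat_lit 5) (nat_lit 121) (nat_lit 4) (nat_lit 461) (nat_lit 341) (nat_lit 338)) (XT.lf (nat_lit 0) (nat_lit 1221822231) (nat_lit 456) (nat_lit 695425264) (nat_lit 76) (nat_lit 8162244604) (nat_lit 115) (nat_lit 5) (nat_lit 121) (nat_lit 5) (nat_lit 116) (nat_lit 4) (nat_lit 462) (nat_lit 341) (nat_lit 337)))) (XT.nd (nat_lit 78) (nat_lit 760) (nat_lit 0) (XT.lf (nat_lit 0) (nat_lit 5394988041) (nat_lit 380) (nat_lit 3229539100) (nat_lit 0) (nat_lit 1555774243) (nat_lit 111) (nat_lit 5) (nat_lit 116) (nat_lit 4) (nat_lit 111) (nat_lit 4) (nat_lit 463) (nat_lit 341) (nat_lit 336)) (XT.nd (nat_lit 78) (nat_lit 380) (nat_lit 0)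 (XT.lf (nat_lit 0) (nat_lit 4423196262) (nat_lit 380) (nat_lit 5211387994) (nat_lit 380) (nat_lit 648902472) (nat_lit 106) (nat_lit 4) (nat_lit 111) (nat_lit 5) (nat_lit 111) (nat_lit 4) (nat_lit 464) (nat_lit 341) (nat_lit 335)) (XT.lf (nat_lit 0) (nat_lit 1785999192) (nat_lit 304) (nat_lit 1707849638) (nat_lit 380) (nat_lit 6895033079) (nat_lit 101) (nat_lit 5) (nat_lit 105) (nat_lit 5) (nat_lit 106) (nat_lit 4) (nat_lit 465) (nat_lit 341) (nat_lit 334))))))))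
noncomputable def xc15 : XT := (XT.nd (nat_lit 1638) (nat_lit 2356) (nat_lit 0) (XT.nd (nat_lit 780) (nat_lit 1748) (nat_lit 0) (XT.nd (nat_lit 390) (nat_lit 1216) (nat_lit 0) (XT.nd (nat_lit 156) (nat_lit 684) (nat_lit 0) (XT.nd (nat_lit 78) (nat_lit 380) (nat_lit 0) (XT.lf (nat_lit 0) (nat_lit 7699867831) (nat_lit 380) (nat_lit 946565947) (nat_lit 0) (nat_lit 1850101509) (nat_lit 101) (nat_lit 5) (nat_lit 106) (nat_lit 4) (nat_lit 101) (nat_lit 4) (nat_lit 466) (nat_lit 341) (nat_lit 333)) (XT.lf (nat_lit 0) (nat_lit 1359832910) (nat_lit 380) (nat_lit 3771095116) (nat_lit 76) (nat_lit 5475365146) (nat_lit 96) (nat_lit 5) (nat_lit 101) (nat_lit 5) (nat_lit 97) (nat_lit 4) (nat_lit 467) (nat_lit 341) (nat_lit 332))) (XT.nd (nat_lit 78) (nat_lit 380) (nat_lit 0) (XT.lf (nat_lit 0) (nat_lit 4004059414) (nat_lit 304) (nat_lit 1529161622) (nat_lit 380) (nat_lit 5185248419) (nat_lit 92) (nat_lit 5) (nat_lit 96) (nat_lit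 5) (nat_lit 97) (nat_lit 4) (nat_lit 468) (nat_lit 341) (nat_lit 331)) (XT.nd (nat_lit 78) (nat_lit 76) (nat_lit 0) (XT.lf (nat_lit 0) (nat_lit 1055647426) (nat_lit 304) (nat_lit 8719800897) (nat_lit 304) (nat_lit 1057750239) (nat_lit 88) (nat_lit 4) (nat_lit 92) (nat_lit 5) (nat_lit 92) (nat_lit 4) (nat_lit 469) (nat_lit 341) (nat_lit 330)) (XT.lf (nat_lit 0) (nat_lit 3105705721) (nat_lit 380) (nat_lit 2005830553) (nat_lit 76) (nat_lit 5838397704) (nat_lit 87) (nat_lit 5) (nat_lit 92) (nat_lit 5) (nat_lit 88) (nat_lit 4) (nat_lit 470) (nat_lit 341) (nat_lit 329))))) (XT.nd (nat_lit 156) (nat_lit 608) (nat_lit 0) (XT.nd (nat_lit 78) (nat_lit 380) (nat_lit 0) (XT.lf (nat_lit 0) (nat_lit 5895821700) (nat_lit 228) (nat_lit 1421197722) (nat_lit 304) (nat_lit 3752285571) (nat_lit 84) (nat_lit 5) (nat_lit 87) (nat_lit 5) (nat_lit 88) (nat_lit 4) (nat_lit 471) (nat_lit 341) (nat_lit 328)) (XT.lf (nat_lit 0) (nat_lit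 403037026) (nat_lit 380) (nat_lit 8477916444) (nat_lit 76) (nat_lit 2310328994) (nat_lit 79) (nat_lit 5) (nat_lit 84) (nat_lit 5) (nat_lit 80) (nat_lit 4) (nat_lit 472) (nat_lit 341) (nat_lit 327))) (XT.nd (nat_lit 78) (nat_lit 608) (nat_lit 0) (XT.lf (nat_lit 0) (nat_lit 4576539535) (nat_lit 380) (nat_lit 617736194) (nat_lit 76) (nat_lit 6121236225) (nat_lit 79) (nat_lit 5) (nat_lit 84) (nat_lit 5) (nat_lit 80) (nat_lit 4) (nat_lit 473) (nat_lit 341) (nat_lit 326)) (XT.nd (nat_lit 78) (nat_lit 380) (nat_lit 0) (XT.lf (nat_lit 0) (nat_lit 7402298864) (nat_lit 228) (nat_lit 1421343455) (nat_lit 304) (nat_lit 2618795672) (nat_lit 76) (nat_lit 5) (nat_lit 79) (nat_lit 5) (nat_lit 80) (nat_lit 4) (nat_lit 474) (nat_lit 341) (nat_lit 325)) (XT.lf (nat_lit 0) (nat_lit 1550925865) (nat_lit 380) (nat_lit 7621647593) (nat_lit 76) (nat_lit 2399379172) (nat_lit 71) (nat_lit 5) (nat_lit 76) (nat_lit 5) (nat_lit 72) (nat_lit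 4) (nat_lit 475) (nat_lit 341) (nat_lit 324)))))) (XT.nd (nat_lit 390) (nat_lit 988) (nat_lit 0) (XT.nd (nat_lit 156) (nat_lit 532) (nat_lit 0) (XT.nd (nat_lit 78) (nat_lit 0) (nat_lit 0) (XT.lf (nat_lit 0) (nat_lit 334366985) (nat_lit 228) (nat_lit 5416003849) (nat_lit 304) (nat_lit 5953726352) (nat_lit 68) (nat_lit 5) (nat_lit 71) (nat_lit 5) (nat_lit 72) (nat_lit 4) (nat_lit 476) (nat_lit 341) (nat_lit 323)) (XT.lf (nat_lit 0) (nat_lit 8458548807) (nat_lit 228) (nat_lit 1569403912) (nat_lit 304) (nat_lit 1811062404) (nat_lit 68) (nat_lit 5) (nat_lit 71) (nat_lit 5) (nat_lit 72) (nat_lit 4) (nat_lit 477) (nat_lit 341) (nat_lit 322))) (XT.nd (nat_lit 78) (nat_lit 228) (nat_lit 0) (XT.lf (nat_lit 0) (nat_lit 2372533894) (nat_lit 304) (nat_lit 7270541499) (nat_lit 76) (nat_lit 2333460532) (nat_lit 64) (nat_lit 5) (nat_lit 68) (nat_lit 5) (nat_lit 65) (nat_lit 4) (nat_lit 478) (nat_lit 341) (nat_lit 321)) (XT.nd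 (nat_lit 78) (nat_lit 0) (nat_lit 0) (XT.lf (nat_lit 0) (nat_lit 777863783) (nat_lit 228) (nat_lit 5819990120) (nat_lit 304) (nat_lit 5519080457) (nat_lit 61) (nat_lit 5) (nat_lit 64) (nat_lit 5) (nat_lit 65) (nat_lit 4) (nat_lit 479) (nat_lit 341) (nat_lit 320)) (XT.lf (nat_lit 0) (nat_lit 8992951446) (nat_lit 228) (nat_lit 1908013771) (nat_lit 304) (nat_lit 1359322276) (nat_lit 61) (nat_lit 5) (nat_lit 64) (nat_lit 5) (nat_lit 65) (nat_lit 4) (nat_lit 480) (nat_lit 341) (nat_lit 319))))) (XT.nd (nat_lit 234) (nat_lit 456) (nat_lit 0) (XT.nd (nat_lit 78) (nat_lit 228) (nat_lit 0) (XT.lf (nat_lit 0) (nat_lit 2836581024) (nat_lit 304) (nat_lit 7500340329) (nat_lit 76) (nat_lit 2069408448) (nat_lit 57) (nat_lit 5) (nat_lit 61) (nat_lit 5) (nat_lit 58) (nat_lit 4) (nat_lit 481) (nat_lit 341) (nat_lit 318)) (XT.nd (nat_lit 78) (nat_lit 0) (nat_lit 0) (XT.lf (nat_lit 0) (nat_lit 626637545) (nat_lit 228) (nat_lit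 6455810532) (nat_lit 304) (nat_lit 5472991947) (nat_lit 54) (nat_lit 5) (nat_lit 57) (nat_lit 5) (nat_lit 58) (nat_lit 4) (nat_lit 482) (nat_lit 341) (nat_lit 317)) (XT.lf (nat_lit 0) (nat_lit 8926415033) (nat_lit 228) (nat_lit 2483079544) (nat_lit 304) (nat_lit 1298124113) (nat_lit 54) (nat_lit 5) (nat_lit 57) (nat_lit 5) (nat_lit 58) (nat_lit 4) (nat_lit 483) (nat_lit 341) (nat_lit 316)))) (XT.nd (nat_lit 78) (nat_lit 152) (nat_lit 0) (XT.lf (nat_lit 0) (nat_lit 2907390962) (nat_lit 304) (nat_lit 8394693995) (nat_lit 76) (nat_lit 1560663134) (nat_lit 50) (nat_lit 5) (nat_lit 54) (nat_lit 5) (nat_lit 51) (nat_lit 4) (nat_lit 484) (nat_lit 341) (nat_lit 315)) (XT.nd (nat_lit 78) (nat_lit 152) (nat_lit 0) (XT.lf (nat_lit 0) (nat_lit 7168490403) (nat_lit 304) (nat_lit 202701998) (nat_lit 76) (nat_lit 5649849768) (nat_lit 50) (nat_lit 5) (nat_lit 54) (nat_lit 5) (nat_lit 51) (nat_lit 4) (nat_lit 485) (nat_lit 341)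 (nat_lit 314)) (XT.lf (nat_lit 0) (nat_lit 8171504023) (nat_lit 152) (nat_lit 3344258275) (nat_lit 228) (nat_lit 1666731427) (nat_lit 48) (nat_lit 5) (nat_lit 50) (nat_lit 5) (nat_lit 51) (nat_lit 4) (nat_lit 486) (nat_lit 341) (nat_lit 313))))))) (XT.nd (nat_lit 780) (nat_lit 1064) (nat_lit 0) (XT.nd (nat_lit 390) (nat_lit 532) (nat_lit 0) (XT.nd (nat_lit 156) (nat_lit 456) (nat_lit 0) (XT.nd (nat_lit 78) (nat_lit 0) (nat_lit 0) (XT.lf (nat_lit 0) (nat_lit 2544476267) (nat_lit 304) (nat_lit 10046072728) (nat_lit 76) (nat_lit 756781387) (nat_lit 44) (nat_lit 5) (nat_lit 48) (nat_lit 5) (nat_lit 45) (nat_lit 4) (nat_lit 487) (nat_lit 341) (nat_lit 312)) (XT.lf (nat_lit 0) (nat_lit 6821807684) (nat_lit 304) (nat_lit 1789655330) (nat_lit 76) (nat_lit 4903706071) (nat_lit 44) (nat_lit 5) (nat_lit 48) (nat_lit 5) (nat_lit 45) (nat_lit 4) (nat_lit 488) (nat_lit 341) (nat_lit 311))) (XT.nd (nat_lit 78) (nat_lit 304)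 (nat_lit 0) (XT.lf (nat_lit 0) (nat_lit 6631479865) (nat_lit 152) (nat_lit 4545477286) (nat_lit 228) (nat_lit 2509571780) (nat_lit 42) (nat_lit 5) (nat_lit 44) (nat_lit 5) (nat_lit 45) (nat_lit 4) (nat_lit 489) (nat_lit 341) (nat_lit 310)) (XT.nd (nat_lit 78) (nat_lit 0) (nat_lit 0) (XT.lf (nat_lit 0) (nat_lit 1302316554) (nat_lit 228) (nat_lit 402371222) (nat_lit 304) (nat_lit 12157012367) (nat_lit 38) (nat_lit 5) (nat_lit 41) (nat_lit 5) (nat_lit 42) (nat_lit 5) (nat_lit 490) (nat_lit 341) (nat_lit 309)) (XT.lf (nat_lit 0) (nat_lit 5991639140) (nat_lit 304) (nat_lit 4246416746) (nat_lit 76) (nat_lit 3801556165) (nat_lit 38) (nat_lit 5) (nat_lit 42) (nat_lit 5) (nat_lit 39) (nat_lit 4) (nat_lit 491) (nat_lit 341) (nat_lit 308))))) (XT.nd (nat_lit 156) (nat_lit 304) (nat_lit 0) (XT.nd (nat_lit 78) (nat_lit 76) (nat_lit 0) (XT.lf (nat_lit 0) (nat_lit 4199245219) (nat_lit 152) (nat_lit 6145499991) (nat_lit 228)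 (nat_lit 3876737728) (nat_lit 36) (nat_lit 5) (nat_lit 38) (nat_lit 5) (nat_lit 39) (nat_lit 4) (nat_lit 492) (nat_lit 341) (nat_lit 307)) (XT.lf (nat_lit 0) (nat_lit 352219152) (nat_lit 228) (nat_lit 1623755400) (nat_lit 76) (nat_lit 12431391249) (nat_lit 35) (nat_lit 5) (nat_lit 38) (nat_lit 5) (nat_lit 36) (nat_lit 5) (nat_lit 493) (nat_lit 341) (nat_lit 306))) (XT.nd (nat_lit 78) (nat_lit 152) (nat_lit 0) (XT.lf (nat_lit 0) (nat_lit 4625401964) (nat_lit 228) (nat_lit 7688110154) (nat_lit 76) (nat_lit 2282719102) (nat_lit 33) (nat_lit 5) (nat_lit 36) (nat_lit 5) (nat_lit 34) (nat_lit 4) (nat_lit 494) (nat_lit 341) (nat_lit 305)) (XT.nd (nat_lit 78) (nat_lit 0) (nat_lit 0) (XT.lf (nat_lit 0) (nat_lit 756181156) (nat_lit 152) (nat_lit 8208543254) (nat_lit 228) (nat_lit 5824544383) (nat_lit 31) (nat_lit 5) (nat_lit 33) (nat_lit 5) (nat_lit 34) (nat_lit 4) (nat_lit 495) (nat_lit 341) (nat_lit 304)) (XT.lf (nat_lit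 0) (nat_lit 9389561335) (nat_lit 152) (nat_lit 4004976612) (nat_lit 228) (nat_lit 1591563277) (nat_lit 31) (nat_lit 5) (nat_lit 33) (nat_lit 5) (nat_lit 34) (nat_lit 4) (nat_lit 496) (nat_lit 341) (nat_lit 303)))))) (XT.nd (nat_lit 390) (nat_lit 456) (nat_lit 0) (XT.nd (nat_lit 156) (nat_lit 380) (nat_lit 0) (XT.nd (nat_lit 78) (nat_lit 0) (nat_lit 0) (XT.lf (nat_lit 0) (nat_lit 2664036912) (nat_lit 228) (nat_lit 12242248467) (nat_lit 76) (nat_lit 280764567) (nat_lit 28) (nat_lit 5) (nat_lit 31) (nat_lit 5) (nat_lit 29) (nat_lit 4) (nat_lit 497) (nat_lit 341) (nat_lit 302)) (XT.lf (nat_lit 0) (nat_lit 7000679391) (nat_lit 228) (nat_lit 3778914408) (nat_lit 76) (nat_lit 4611876340) (nat_lit 28) (nat_lit 5) (nat_lit 31) (nat_lit 5) (nat_lit 29) (nat_lit 4) (nat_lit 498) (nat_lit 341) (nat_lit 301))) (XT.nd (nat_lit 78) (nat_lit 228) (nat_lit 0) (XT.lf (nat_lit 0) (nat_lit 4835568191) (nat_lit 152) (nat_lit 6573699823)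 (nat_lit 228) (nat_lit 4191014031) (nat_lit 26) (nat_lit 5) (nat_lit 28) (nat_lit 5) (nat_lit 29) (nat_lit 4) (nat_lit 499) (nat_lit 341) (nat_lit 300)) (XT.nd (nat_lit 78) (nat_lit 152) (nat_lit 0) (XT.lf (nat_lit 0) (nat_lit 70954665) (nat_lit 228) (nat_lit 2221589743) (nat_lit 76) (nat_lit 13521132759) (nat_lit 25) (nat_lit 5) (nat_lit 28) (nat_lit 5) (nat_lit 26) (nat_lit 5) (nat_lit 500) (nat_lit 341) (nat_lit 299)) (XT.lf (nat_lit 0) (nat_lit 4372595598) (nat_lit 228) (nat_lit 9575090301) (nat_lit 76) (nat_lit 2082896368) (nat_lit 23) (nat_lit 5) (nat_lit 26) (nat_lit 5) (nat_lit 24) (nat_lit 4) (nat_lit 501) (nat_lit 341) (nat_lit 298))))) (XT.nd (nat_lit 234) (nat_lit 228) (nat_lit 0) (XT.nd (nat_lit 78) (nat_lit 228) (nat_lit 0) (XT.lf (nat_lit 0) (nat_lit 8745394579) (nat_lit 228) (nat_lit 1010751971) (nat_lit 76) (nat_lit 6495983413) (nat_lit 23) (nat_lit 5) (nat_lit 26) (nat_lit 5) (nat_lit 24) (nat_lit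 4) (nat_lit 502) (nat_lit 341) (nat_lit 297)) (XT.nd (nat_lit 78) (nat_lit 76) (nat_lit 0) (XT.lf (nat_lit 0) (nat_lit 7747887013) (nat_lit 152) (nat_lit 5463886607) (nat_lit 228) (nat_lit 3266219373) (nat_lit 21) (nat_lit 5) (nat_lit 23) (nat_lit 5) (nat_lit 24) (nat_lit 4) (nat_lit 503) (nat_lit 341) (nat_lit 296)) (XT.lf (nat_lit 0) (nat_lit 1007926298) (nat_lit 228) (nat_lit 98436018) (nat_lit 76) (nat_lit 15602625839) (nat_lit 20) (nat_lit 5) (nat_lit 23) (nat_lit 5) (nat_lit 21) (nat_lit 5) (nat_lit 504) (nat_lit 341) (nat_lit 295)))) (XT.nd (nat_lit 78) (nat_lit 76) (nat_lit 0) (XT.lf (nat_lit 0) (nat_lit 5359206754) (nat_lit 228) (nat_lit 8244395964) (nat_lit 76) (nat_lit 3339867444) (nat_lit 18) (nat_lit 5) (nat_lit 21) (nat_lit 5) (nat_lit 19) (nat_lit 4) (nat_lit 505) (nat_lit 341) (nat_lit 294)) (XT.nd (nat_lit 78) (nat_lit 0) (nat_lit 0) (XT.lf (nat_lit 0) (nat_lit 412040953) (nat_lit 76) (nat_lit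 9353017744) (nat_lit 152) (nat_lit 7418238532) (nat_lit 17) (nat_lit 5) (nat_lit 18) (nat_lit 5) (nat_lit 19) (nat_lit 4) (nat_lit 506) (nat_lit 341) (nat_lit 293)) (XT.lf (nat_lit 0) (nat_lit 9276597827) (nat_lit 76) (nat_lit 4994980002) (nat_lit 152) (nat_lit 3156098220) (nat_lit 17) (nat_lit 5) (nat_lit 18) (nat_lit 5) (nat_lit 19) (nat_lit 4) (nat_lit 507) (nat_lit 341) (nat_lit 292))))))))
noncomputable def xc16 : XT := (XT.nd (nat_lit 56706) (nat_lit 0) (nat_lit 1444) (XT.nd (nat_lit 55926) (nat_lit 0) (nat_lit 4712) (XT.nd (nat_lit 55536) (nat_lit 0) (nat_lit 6992) (XT.nd (nat_lit 55302) (nat_lit 0) (nat_lit 8588) (XT.nd (nat_lit 55224) (nat_lit 0) (nat_lit 9424) (XT.lf (nat_lit 0) (nat_lit 5512510310) (nat_lit 228) (nat_lit 8487541611) (nat_lit 76) (nat_lit 3931216157) (nat_lit 14) (nat_lit 5) (nat_lit 17) (nat_lit 5) (nat_lit 15) (nat_lit 4) (nat_lit 509) (nat_lit 341) (nat_lit 290)) (XT.lf (nat_lit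 0) (nat_lit 1655136645) (nat_lit 456) (nat_lit 1551541442) (nat_lit 456) (nat_lit 1551541442) (nat_lit 138) (nat_lit 4) (nat_lit 144) (nat_lit 5) (nat_lit 144) (nat_lit 4) (nat_lit 456) (nat_lit 342) (nat_lit 342))) (XT.nd (nat_lit 78) (nat_lit 380) (nat_lit 0) (XT.lf (nat_lit 0) (nat_lit 985406967) (nat_lit 456) (nat_lit 8482630652) (nat_lit 0) (nat_lit 137978867) (nat_lit 132) (nat_lit 5) (nat_lit 138) (nat_lit 4) (nat_lit 132) (nat_lit 4) (nat_lit 457) (nat_lit 342) (nat_lit 341)) (XT.nd (nat_lit 78) (nat_lit 380) (nat_lit 0) (XT.lf (nat_lit 0) (nat_lit 5111015761) (nat_lit 456) (nat_lit 1153267754) (nat_lit 0) (nat_lit 3432775799) (nat_lit 132) (nat_lit 5) (nat_lit 138) (nat_lit 4) (nat_lit 132) (nat_lit 4) (nat_lit 458) (nat_lit 342) (nat_lit 340)) (XT.lf (nat_lit 0) (nat_lit 6308365126) (nat_lit 380) (nat_lit 2987404129) (nat_lit 380) (nat_lit 494642732) (nat_lit 127) (nat_lit 4) (nat_lit 132) (nat_lit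 5) (nat_lit 132) (nat_lit 4) (nat_lit 459) (nat_lit 342) (nat_lit 339))))) (XT.nd (nat_lit 156) (nat_lit 760) (nat_lit 0) (XT.nd (nat_lit 78) (nat_lit 380) (nat_lit 0) (XT.lf (nat_lit 0) (nat_lit 3602311895) (nat_lit 456) (nat_lit 5907887919) (nat_lit 0) (nat_lit 375535599) (nat_lit 121) (nat_lit 5) (nat_lit 127) (nat_lit 4) (nat_lit 121) (nat_lit 4) (nat_lit 460) (nat_lit 342) (nat_lit 338)) (XT.lf (nat_lit 0) (nat_lit 1551047008) (nat_lit 380) (nat_lit 6213199031) (nat_lit 380) (nat_lit 2218880995) (nat_lit 116) (nat_lit 4) (nat_lit 121) (nat_lit 5) (nat_lit 121) (nat_lit 4) (nat_lit 461) (nat_lit 342) (nat_lit 337))) (XT.nd (nat_lit 78) (nat_lit 684) (nat_lit 0) (XT.lf (nat_lit 0) (nat_lit 1878050934) (nat_lit 456) (nat_lit 953147049) (nat_lit 76) (nat_lit 7251510462) (nat_lit 115) (nat_lit 5) (nat_lit 121) (nat_lit 5) (nat_lit 116) (nat_lit 4) (nat_lit 462) (nat_lit 342) (nat_lit 336)) (XT.nd (nat_lit 78)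 (nat_lit 380) (nat_lit 0) (XT.lf (nat_lit 0) (nat_lit 6012315701) (nat_lit 380) (nat_lit 3536680817) (nat_lit 0) (nat_lit 635308745) (nat_lit 111) (nat_lit 5) (nat_lit 116) (nat_lit 4) (nat_lit 111) (nat_lit 4) (nat_lit 463) (nat_lit 342) (nat_lit 335)) (XT.lf (nat_lit 0) (nat_lit 4063603232) (nat_lit 380) (nat_lit 6155326612) (nat_lit 380) (nat_lit 69229730) (nat_lit 106) (nat_lit 4) (nat_lit 111) (nat_lit 5) (nat_lit 111) (nat_lit 4) (nat_lit 464) (nat_lit 342) (nat_lit 334)))))) (XT.nd (nat_lit 390) (nat_lit 912) (nat_lit 0) (XT.nd (nat_lit 156) (nat_lit 988) (nat_lit 0) (XT.nd (nat_lit 78) (nat_lit 0) (nat_lit 0) (XT.lf (nat_lit 0) (nat_lit 1364606772) (nat_lit 304) (nat_lit 2668011967) (nat_lit 380) (nat_lit 6361535714) (nat_lit 101) (nat_lit 5) (nat_lit 105) (nat_lit 5) (nat_lit 106) (nat_lit 4) (nat_lit 465) (nat_lit 342) (nat_lit 333)) (XT.lf (nat_lit 0) (nat_lit 8202018141) (nat_lit 380) (nat_lit 1415020749)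 (nat_lit 0) (nat_lit 885510120) (nat_lit 101) (nat_lit 5) (nat_lit 106) (nat_lit 4) (nat_lit 101) (nat_lit 4) (nat_lit 466) (nat_lit 342) (nat_lit 332))) (XT.nd (nat_lit 78) (nat_lit 608) (nat_lit 0) (XT.lf (nat_lit 0) (nat_lit 1816052847) (nat_lit 380) (nat_lit 4303170753) (nat_lit 76) (nat_lit 4493695511) (nat_lit 96) (nat_lit 5) (nat_lit 101) (nat_lit 5) (nat_lit 97) (nat_lit 4) (nat_lit 467) (nat_lit 342) (nat_lit 331)) (XT.nd (nat_lit 78) (nat_lit 304) (nat_lit 0) (XT.lf (nat_lit 0) (nat_lit 3417110226) (nat_lit 304) (nat_lit 2538806765) (nat_lit 380) (nat_lit 4769857163) (nat_lit 92) (nat_lit 5) (nat_lit 96) (nat_lit 5) (nat_lit 97) (nat_lit 4) (nat_lit 468) (nat_lit 342) (nat_lit 330)) (XT.lf (nat_lit 0) (nat_lit 412160494) (nat_lit 304) (nat_lit 9745702597) (nat_lit 304) (nat_lit 683453913) (nat_lit 88) (nat_lit 4) (nat_lit 92) (nat_lit 5) (nat_lit 92) (nat_lit 4) (nat_lit 469) (nat_lit 342) (nat_lit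 329))))) (XT.nd (nat_lit 156) (nat_lit 608) (nat_lit 0) (XT.nd (nat_lit 78) (nat_lit 228) (nat_lit 0) (XT.lf (nat_lit 0) (nat_lit 3445617377) (nat_lit 380) (nat_lit 2707303005) (nat_lit 76) (nat_lit 4805680752) (nat_lit 87) (nat_lit 5) (nat_lit 92) (nat_lit 5) (nat_lit 88) (nat_lit 4) (nat_lit 470) (nat_lit 342) (nat_lit 328)) (XT.lf (nat_lit 0) (nat_lit 5137902234) (nat_lit 228) (nat_lit 2485210176) (nat_lit 304) (nat_lit 3455543761) (nat_lit 84) (nat_lit 5) (nat_lit 87) (nat_lit 5) (nat_lit 88) (nat_lit 4) (nat_lit 471) (nat_lit 342) (nat_lit 327))) (XT.nd (nat_lit 78) (nat_lit 228) (nat_lit 0) (XT.lf (nat_lit 0) (nat_lit 654645488) (nat_lit 380) (nat_lit 9307503907) (nat_lit 76) (nat_lit 1239277898) (nat_lit 79) (nat_lit 5) (nat_lit 84) (nat_lit 5) (nat_lit 80) (nat_lit 4) (nat_lit 472) (nat_lit 342) (nat_lit 326)) (XT.nd (nat_lit 78) (nat_lit 228) (nat_lit 0) (XT.lf (nat_lit 0) (nat_lit 4799469577) (nat_lit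 380) (nat_lit 1494071814) (nat_lit 76) (nat_lit 5032696170) (nat_lit 79) (nat_lit 5) (nat_lit 84) (nat_lit 5) (nat_lit 80) (nat_lit 4) (nat_lit 473) (nat_lit 342) (nat_lit 325)) (XT.lf (nat_lit 0) (nat_lit 6467876601) (nat_lit 228) (nat_lit 2544512773) (nat_lit 304) (nat_lit 2441464951) (nat_lit 76) (nat_lit 5) (nat_lit 79) (nat_lit 5) (nat_lit 80) (nat_lit 4) (nat_lit 474) (nat_lit 342) (nat_lit 324))))))) (XT.nd (nat_lit 780) (nat_lit 1292) (nat_lit 0) (XT.nd (nat_lit 390) (nat_lit 1064) (nat_lit 0) (XT.nd (nat_lit 156) (nat_lit 532) (nat_lit 0) (XT.nd (nat_lit 78) (nat_lit 0) (nat_lit 0) (XT.lf (nat_lit 0) (nat_lit 1683902930) (nat_lit 380) (nat_lit 8632390081) (nat_lit 76) (nat_lit 1267900278) (nat_lit 71) (nat_lit 5) (nat_lit 76) (nat_lit 5) (nat_lit 72) (nat_lit 4) (nat_lit 475) (nat_lit 342) (nat_lit 323)) (XT.lf (nat_lit 0) (nat_lit 5853263498) (nat_lit 380) (nat_lit 726815322) (nat_lit 76) (nat_lit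 5136867372) (nat_lit 71) (nat_lit 5) (nat_lit 76) (nat_lit 5) (nat_lit 72) (nat_lit 4) (nat_lit 476) (nat_lit 342) (nat_lit 322))) (XT.nd (nat_lit 78) (nat_lit 304) (nat_lit 0) (XT.lf (nat_lit 0) (nat_lit 7341955960) (nat_lit 228) (nat_lit 2756444548) (nat_lit 304) (nat_lit 1754119050) (nat_lit 68) (nat_lit 5) (nat_lit 71) (nat_lit 5) (nat_lit 72) (nat_lit 4) (nat_lit 477) (nat_lit 342) (nat_lit 321)) (XT.nd (nat_lit 78) (nat_lit 0) (nat_lit 0) (XT.lf (nat_lit 0) (nat_lit 2385816754) (nat_lit 304) (nat_lit 8468188416) (nat_lit 76) (nat_lit 1136892345) (nat_lit 64) (nat_lit 5) (nat_lit 68) (nat_lit 5) (nat_lit 65) (nat_lit 4) (nat_lit 478) (nat_lit 342) (nat_lit 320)) (XT.lf (nat_lit 0) (nat_lit 6578907407) (nat_lit 304) (nat_lit 475342490) (nat_lit 76) (nat_lit 5077696792) (nat_lit 64) (nat_lit 5) (nat_lit 68) (nat_lit 5) (nat_lit 65) (nat_lit 4) (nat_lit 479) (nat_lit 342) (nat_lit 319))))) (XT.nd (nat_lit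 156) (nat_lit 532) (nat_lit 0) (XT.nd (nat_lit 78) (nat_lit 304) (nat_lit 0) (XT.lf (nat_lit 0) (nat_lit 7688368991) (nat_lit 228) (nat_lit 3163583893) (nat_lit 304) (nat_lit 1423954287) (nat_lit 61) (nat_lit 5) (nat_lit 64) (nat_lit 5) (nat_lit 65) (nat_lit 4) (nat_lit 480) (nat_lit 342) (nat_lit 318)) (XT.lf (nat_lit 0) (nat_lit 2728899071) (nat_lit 304) (nat_lit 8890803171) (nat_lit 76) (nat_lit 803139380) (nat_lit 57) (nat_lit 5) (nat_lit 61) (nat_lit 5) (nat_lit 58) (nat_lit 4) (nat_lit 481) (nat_lit 342) (nat_lit 317))) (XT.nd (nat_lit 78) (nat_lit 532) (nat_lit 0) (XT.lf (nat_lit 0) (nat_lit 6944224490) (nat_lit 304) (nat_lit 816702268) (nat_lit 76) (nat_lit 4811641603) (nat_lit 57) (nat_lit 5) (nat_lit 61) (nat_lit 5) (nat_lit 58) (nat_lit 4) (nat_lit 482) (nat_lit 342) (nat_lit 316)) (XT.nd (nat_lit 78) (nat_lit 304) (nat_lit 0) (XT.lf (nat_lit 0) (nat_lit 7427856973) (nat_lit 228) (nat_lit 3811798923)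 (nat_lit 304) (nat_lit 1485729007) (nat_lit 54) (nat_lit 5) (nat_lit 57) (nat_lit 5) (nat_lit 58) (nat_lit 4) (nat_lit 483) (nat_lit 342) (nat_lit 315)) (XT.lf (nat_lit 0) (nat_lit 2677267609) (nat_lit 304) (nat_lit 9984061966) (nat_lit 76) (nat_lit 220114024) (nat_lit 50) (nat_lit 5) (nat_lit 54) (nat_lit 5) (nat_lit 51) (nat_lit 4) (nat_lit 484) (nat_lit 342) (nat_lit 314)))))) (XT.nd (nat_lit 390) (nat_lit 684) (nat_lit 0) (XT.nd (nat_lit 156) (nat_lit 456) (nat_lit 0) (XT.nd (nat_lit 78) (nat_lit 152) (nat_lit 0) (XT.lf (nat_lit 0) (nat_lit 6912572813) (nat_lit 304) (nat_lit 1836028662) (nat_lit 76) (nat_lit 4291657337) (nat_lit 50) (nat_lit 5) (nat_lit 54) (nat_lit 5) (nat_lit 51) (nat_lit 4) (nat_lit 485) (nat_lit 342) (nat_lit 313)) (XT.lf (nat_lit 0) (nat_lit 6472801817) (nat_lit 152) (nat_lit 4750725324) (nat_lit 228) (nat_lit 1978914728) (nat_lit 48) (nat_lit 5) (nat_lit 50) (nat_lit 5) (nat_lit 51)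 (nat_lit 4) (nat_lit 486) (nat_lit 342) (nat_lit 312))) (XT.nd (nat_lit 78) (nat_lit 152) (nat_lit 0) (XT.lf (nat_lit 0) (nat_lit 1523172472) (nat_lit 228) (nat_lit 671416929) (nat_lit 304) (nat_lit 11173570569) (nat_lit 44) (nat_lit 5) (nat_lit 47) (nat_lit 5) (nat_lit 48) (nat_lit 5) (nat_lit 487) (nat_lit 342) (nat_lit 311)) (XT.nd (nat_lit 78) (nat_lit 152) (nat_lit 0) (XT.lf (nat_lit 0) (nat_lit 6442420672) (nat_lit 304) (nat_lit 3627470025) (nat_lit 76) (nat_lit 3466702830) (nat_lit 44) (nat_lit 5) (nat_lit 48) (nat_lit 5) (nat_lit 45) (nat_lit 4) (nat_lit 488) (nat_lit 342) (nat_lit 310)) (XT.lf (nat_lit 0) (nat_lit 4726266971) (nat_lit 152) (nat_lit 6034285358) (nat_lit 228) (nat_lit 2948146159) (nat_lit 42) (nat_lit 5) (nat_lit 44) (nat_lit 5) (nat_lit 45) (nat_lit 4) (nat_lit 489) (nat_lit 342) (nat_lit 309))))) (XT.nd (nat_lit 234) (nat_lit 228) (nat_lit 0) (XT.nd (nat_lit 78) (nat_lit 380) (nat_lit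 0) (XT.lf (nat_lit 0) (nat_lit 1238805271) (nat_lit 228) (nat_lit 681762018) (nat_lit 76) (nat_lit 11964025132) (nat_lit 41) (nat_lit 5) (nat_lit 44) (nat_lit 5) (nat_lit 42) (nat_lit 5) (nat_lit 490) (nat_lit 342) (nat_lit 308)) (XT.nd (nat_lit 78) (nat_lit 152) (nat_lit 0) (XT.lf (nat_lit 0) (nat_lit 5486872977) (nat_lit 304) (nat_lit 6295211792) (nat_lit 76) (nat_lit 2281201717) (nat_lit 38) (nat_lit 5) (nat_lit 42) (nat_lit 5) (nat_lit 39) (nat_lit 4) (nat_lit 491) (nat_lit 342) (nat_lit 307)) (XT.lf (nat_lit 0) (nat_lit 2080941704) (nat_lit 152) (nat_lit 7721252988) (nat_lit 228) (nat_lit 4443722762) (nat_lit 36) (nat_lit 5) (nat_lit 38) (nat_lit 5) (nat_lit 39) (nat_lit 4) (nat_lit 492) (nat_lit 342) (nat_lit 306)))) (XT.nd (nat_lit 78) (nat_lit 228) (nat_lit 0) (XT.lf (nat_lit 0) (nat_lit 10626218440) (nat_lit 152) (nat_lit 3571714284) (nat_lit 228) (nat_lit 234394822) (nat_lit 36) (nat_lit 5) (nat_lit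 38) (nat_lit 5) (nat_lit 39) (nat_lit 4) (nat_lit 493) (nat_lit 342) (nat_lit 305)) (XT.nd (nat_lit 78) (nat_lit 0) (nat_lit 0) (XT.lf (nat_lit 0) (nat_lit 3993143899) (nat_lit 228) (nat_lit 9954602748) (nat_lit 76) (nat_lit 674455260) (nat_lit 33) (nat_lit 5) (nat_lit 36) (nat_lit 5) (nat_lit 34) (nat_lit 4) (nat_lit 494) (nat_lit 342) (nat_lit 304)) (XT.lf (nat_lit 0) (nat_lit 8304120495) (nat_lit 228) (nat_lit 1561273192) (nat_lit 76) (nat_lit 4950416770) (nat_lit 33) (nat_lit 5) (nat_lit 36) (nat_lit 5) (nat_lit 34) (nat_lit 4) (nat_lit 495) (nat_lit 342) (nat_lit 303))))))))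
noncomputable def xc17 : XT := (XT.nd (nat_lit 56784) (nat_lit 0) (nat_lit 2812) (XT.nd (nat_lit 780) (nat_lit 76) (nat_lit 0) (XT.nd (nat_lit 390) (nat_lit 608) (nat_lit 0) (XT.nd (nat_lit 156) (nat_lit 152) (nat_lit 0) (XT.nd (nat_lit 78) (nat_lit 228) (nat_lit 0) (XT.lf (nat_lit 0) (nat_lit 7010584214) (nat_lit 152) (nat_lit 5689836864) (nat_lit 228) (nat_lit 2312896049) (nat_lit 31) (nat_lit 5) (nat_lit 33) (nat_lit 5) (nat_lit 34) (nat_lit 4) (nat_lit 496) (nat_lit 342) (nat_lit 302)) (XT.lf (nat_lit 0) (nat_lit 472442288) (nat_lit 152) (nat_lit 1438870241) (nat_lit 228) (nat_lit 13303867854) (nat_lit 28) (nat_lit 5) (nat_lit 30) (nat_lit 5) (nat_lit 31) (nat_lit 5) (nat_lit 497) (nat_lit 342) (nat_lit 301))) (XT.nd (nat_lit 78) (nat_lit 152) (nat_lit 0) (XT.lf (nat_lit 0) (nat_lit 6215750324) (nat_lit 228) (nat_lit 6310427028) (nat_lit 76) (nat_lit 2894071068) (nat_lit 28) (nat_lit 5) (nat_lit 31) (nat_lit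 5) (nat_lit 29) (nat_lit 4) (nat_lit 498) (nat_lit 342) (nat_lit 300)) (XT.nd (nat_lit 78) (nat_lit 0) (nat_lit 0) (XT.lf (nat_lit 0) (nat_lit 2230313569) (nat_lit 152) (nat_lit 8354696039) (nat_lit 228) (nat_lit 5044840982) (nat_lit 26) (nat_lit 5) (nat_lit 28) (nat_lit 5) (nat_lit 29) (nat_lit 4) (nat_lit 499) (nat_lit 342) (nat_lit 299)) (XT.lf (nat_lit 0) (nat_lit 10947995678) (nat_lit 152) (nat_lit 4091099985) (nat_lit 228) (nat_lit 804607590) (nat_lit 26) (nat_lit 5) (nat_lit 28) (nat_lit 5) (nat_lit 29) (nat_lit 4) (nat_lit 500) (nat_lit 342) (nat_lit 298))))) (XT.nd (nat_lit 156) (nat_lit 380) (nat_lit 0) (XT.nd (nat_lit 78) (nat_lit 0) (nat_lit 0) (XT.lf (nat_lit 0) (nat_lit 3455890224) (nat_lit 228) (nat_lit 12337795360) (nat_lit 76) (nat_lit 268064628) (nat_lit 23) (nat_lit 5) (nat_lit 26) (nat_lit 5) (nat_lit 24) (nat_lit 4) (nat_lit 501) (nat_lit 342) (nat_lit 297)) (XT.lf (nat_lit 0) (nat_lit 7806817749)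 (nat_lit 228) (nat_lit 3812368438) (nat_lit 76) (nat_lit 4664552547) (nat_lit 23) (nat_lit 5) (nat_lit 26) (nat_lit 5) (nat_lit 24) (nat_lit 4) (nat_lit 502) (nat_lit 342) (nat_lit 296))) (XT.nd (nat_lit 78) (nat_lit 228) (nat_lit 0) (XT.lf (nat_lit 0) (nat_lit 4870383125) (nat_lit 152) (nat_lit 7362688396) (nat_lit 228) (nat_lit 4277336078) (nat_lit 21) (nat_lit 5) (nat_lit 23) (nat_lit 5) (nat_lit 24) (nat_lit 4) (nat_lit 503) (nat_lit 342) (nat_lit 295)) (XT.nd (nat_lit 78) (nat_lit 228) (nat_lit 0) (XT.lf (nat_lit 0) (nat_lit 13701914503) (nat_lit 152) (nat_lit 3028557068) (nat_lit 228) (nat_lit 11492441) (nat_lit 21) (nat_lit 5) (nat_lit 23) (nat_lit 5) (nat_lit 24) (nat_lit 4) (nat_lit 504) (nat_lit 342) (nat_lit 294)) (XT.lf (nat_lit 0) (nat_lit 4286630563) (nat_lit 228) (nat_lit 11284035438) (nat_lit 76) (nat_lit 1406850811) (nat_lit 18) (nat_lit 5) (nat_lit 21) (nat_lit 5) (nat_lit 19) (nat_lit 4) (nat_lit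 505) (nat_lit 342) (nat_lit 293)))))) (XT.nd (nat_lit 55536) (nat_lit 0) (nat_lit 7448) (XT.nd (nat_lit 55302) (nat_lit 0) (nat_lit 9196) (XT.nd (nat_lit 78) (nat_lit 76) (nat_lit 0) (XT.lf (nat_lit 0) (nat_lit 8668878707) (nat_lit 228) (nat_lit 2670505961) (nat_lit 76) (nat_lit 5878434365) (nat_lit 18) (nat_lit 5) (nat_lit 21) (nat_lit 5) (nat_lit 19) (nat_lit 4) (nat_lit 506) (nat_lit 342) (nat_lit 292)) (XT.lf (nat_lit 0) (nat_lit 6121304576) (nat_lit 76) (nat_lit 7015764055) (nat_lit 152) (nat_lit 4325898822) (nat_lit 17) (nat_lit 5) (nat_lit 18) (nat_lit 5) (nat_lit 19) (nat_lit 4) (nat_lit 507) (nat_lit 342) (nat_lit 291))) (XT.nd (nat_lit 78) (nat_lit 912) (nat_lit 0) (XT.lf (nat_lit 0) (nat_lit 3764473792) (nat_lit 456) (nat_lit 453577607) (nat_lit 456) (nat_lit 453577607) (nat_lit 150) (nat_lit 4) (nat_lit 156) (nat_lit 5) (nat_lit 156) (nat_lit 4) (nat_lit 454) (nat_lit 343) (nat_lit 343)) (XT.nd (nat_lit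 78) (nat_lit 456) (nat_lit 0) (XT.lf (nat_lit 0) (nat_lit 3155895278) (nat_lit 456) (nat_lit 3998987388) (nat_lit 0) (nat_lit 2274231083) (nat_lit 144) (nat_lit 5) (nat_lit 150) (nat_lit 4) (nat_lit 144) (nat_lit 4) (nat_lit 455) (nat_lit 343) (nat_lit 342)) (XT.lf (nat_lit 0) (nat_lit 3261945491) (nat_lit 456) (nat_lit 4000597670) (nat_lit 456) (nat_lit 2254556812) (nat_lit 138) (nat_lit 4) (nat_lit 144) (nat_lit 5) (nat_lit 144) (nat_lit 4) (nat_lit 456) (nat_lit 343) (nat_lit 341))))) (XT.nd (nat_lit 234) (nat_lit 836) (nat_lit 0) (XT.nd (nat_lit 78) (nat_lit 456) (nat_lit 0) (XT.lf (nat_lit 0) (nat_lit 1020636912) (nat_lit 380) (nat_lit 768524409) (nat_lit 456) (nat_lit 7818089683) (nat_lit 132) (nat_lit 5) (nat_lit 137) (nat_lit 5) (nat_lit 138) (nat_lit 4) (nat_lit 457) (nat_lit 343) (nat_lit 340)) (XT.nd (nat_lit 78) (nat_lit 456) (nat_lit 0) (XT.lf (nat_lit 0) (nat_lit 5877936005) (nat_lit 456) (nat_lit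 1300307274) (nat_lit 0) (nat_lit 2520797947) (nat_lit 132) (nat_lit 5) (nat_lit 138) (nat_lit 4) (nat_lit 132) (nat_lit 4) (nat_lit 458) (nat_lit 343) (nat_lit 339)) (XT.lf (nat_lit 0) (nat_lit 234027846) (nat_lit 456) (nat_lit 3682952233) (nat_lit 76) (nat_lit 5876043472) (nat_lit 126) (nat_lit 5) (nat_lit 132) (nat_lit 5) (nat_lit 127) (nat_lit 4) (nat_lit 459) (nat_lit 343) (nat_lit 338)))) (XT.nd (nat_lit 78) (nat_lit 456) (nat_lit 0) (XT.lf (nat_lit 0) (nat_lit 3725692882) (nat_lit 380) (nat_lit 563551642) (nat_lit 456) (nat_lit 5599753330) (nat_lit 121) (nat_lit 5) (nat_lit 126) (nat_lit 5) (nat_lit 127) (nat_lit 4) (nat_lit 460) (nat_lit 343) (nat_lit 337)) (XT.nd (nat_lit 78) (nat_lit 76) (nat_lit 0) (XT.lf (nat_lit 0) (nat_lit 1247884013) (nat_lit 380) (nat_lit 7166742221) (nat_lit 380) (nat_lit 1572504184) (nat_lit 116) (nat_lit 4) (nat_lit 121) (nat_lit 5) (nat_lit 121) (nat_lit 4) (nat_lit 461) (nat_lit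 343) (nat_lit 336)) (XT.lf (nat_lit 0) (nat_lit 2485113323) (nat_lit 456) (nat_lit 1312046280) (nat_lit 76) (nat_lit 6290094546) (nat_lit 115) (nat_lit 5) (nat_lit 121) (nat_lit 5) (nat_lit 116) (nat_lit 4) (nat_lit 462) (nat_lit 343) (nat_lit 335))))))) (XT.nd (nat_lit 780) (nat_lit 1900) (nat_lit 0) (XT.nd (nat_lit 390) (nat_lit 1292) (nat_lit 0) (XT.nd (nat_lit 156) (nat_lit 684) (nat_lit 0) (XT.nd (nat_lit 78) (nat_lit 456) (nat_lit 0) (XT.lf (nat_lit 0) (nat_lit 6240995483) (nat_lit 304) (nat_lit 341302735) (nat_lit 380) (nat_lit 3607303673) (nat_lit 111) (nat_lit 5) (nat_lit 115) (nat_lit 5) (nat_lit 116) (nat_lit 4) (nat_lit 463) (nat_lit 343) (nat_lit 334)) (XT.lf (nat_lit 0) (nat_lit 453449852) (nat_lit 456) (nat_lit 6696126243) (nat_lit 76) (nat_lit 3144534900) (nat_lit 105) (nat_lit 5) (nat_lit 111) (nat_lit 5) (nat_lit 106) (nat_lit 4) (nat_lit 464) (nat_lit 343) (nat_lit 333))) (XT.nd (nat_lit 78)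 (nat_lit 380) (nat_lit 0) (XT.lf (nat_lit 0) (nat_lit 838792922) (nat_lit 304) (nat_lit 3682218446) (nat_lit 380) (nat_lit 5879761883) (nat_lit 101) (nat_lit 5) (nat_lit 105) (nat_lit 5) (nat_lit 106) (nat_lit 4) (nat_lit 465) (nat_lit 343) (nat_lit 332)) (XT.nd (nat_lit 78) (nat_lit 380) (nat_lit 0) (XT.lf (nat_lit 0) (nat_lit 8521066872) (nat_lit 304) (nat_lit 133838172) (nat_lit 380) (nat_lit 1854981495) (nat_lit 101) (nat_lit 5) (nat_lit 105) (nat_lit 5) (nat_lit 106) (nat_lit 4) (nat_lit 466) (nat_lit 343) (nat_lit 331)) (XT.lf (nat_lit 0) (nat_lit 2221376685) (nat_lit 380) (nat_lit 4941182627) (nat_lit 76) (nat_lit 3458335395) (nat_lit 96) (nat_lit 5) (nat_lit 101) (nat_lit 5) (nat_lit 97) (nat_lit 4) (nat_lit 467) (nat_lit 343) (nat_lit 330))))) (XT.nd (nat_lit 156) (nat_lit 988) (nat_lit 0) (XT.nd (nat_lit 78) (nat_lit 0) (nat_lit 0) (XT.lf (nat_lit 0) (nat_lit 2723754270) (nat_lit 304) (nat_lit 3603854324)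 (nat_lit 380) (nat_lit 4406821918) (nat_lit 92) (nat_lit 5) (nat_lit 96) (nat_lit 5) (nat_lit 97) (nat_lit 4) (nat_lit 468) (nat_lit 343) (nat_lit 329)) (XT.lf (nat_lit 0) (nat_lit 10490995094) (nat_lit 380) (nat_lit 334762858) (nat_lit 0) (nat_lit 24994561) (nat_lit 92) (nat_lit 5) (nat_lit 97) (nat_lit 4) (nat_lit 92) (nat_lit 4) (nat_lit 469) (nat_lit 343) (nat_lit 328))) (XT.nd (nat_lit 78) (nat_lit 608) (nat_lit 0) (XT.lf (nat_lit 0) (nat_lit 3733953808) (nat_lit 380) (nat_lit 3516748568) (nat_lit 76) (nat_lit 3717922179) (nat_lit 87) (nat_lit 5) (nat_lit 92) (nat_lit 5) (nat_lit 88) (nat_lit 4) (nat_lit 470) (nat_lit 343) (nat_lit 327)) (XT.nd (nat_lit 78) (nat_lit 380) (nat_lit 0) (XT.lf (nat_lit 0) (nat_lit 4271498769) (nat_lit 228) (nat_lit 3605993679) (nat_lit 304) (nat_lit 3211873773) (nat_lit 84) (nat_lit 5) (nat_lit 87) (nat_lit 5) (nat_lit 88) (nat_lit 4) (nat_lit 471) (nat_lit 343) (nat_lit 326))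 (XT.lf (nat_lit 0) (nat_lit 853355712) (nat_lit 380) (nat_lit 10248114397) (nat_lit 76) (nat_lit 111478081) (nat_lit 79) (nat_lit 5) (nat_lit 84) (nat_lit 5) (nat_lit 80) (nat_lit 4) (nat_lit 472) (nat_lit 343) (nat_lit 325)))))) (XT.nd (nat_lit 390) (nat_lit 1064) (nat_lit 0) (XT.nd (nat_lit 156) (nat_lit 608) (nat_lit 0) (XT.nd (nat_lit 78) (nat_lit 228) (nat_lit 0) (XT.lf (nat_lit 0) (nat_lit 4970063703) (nat_lit 380) (nat_lit 2480513830) (nat_lit 76) (nat_lit 3887750314) (nat_lit 79) (nat_lit 5) (nat_lit 84) (nat_lit 5) (nat_lit 80) (nat_lit 4) (nat_lit 473) (nat_lit 343) (nat_lit 324)) (XT.lf (nat_lit 0) (nat_lit 5422795287) (nat_lit 228) (nat_lit 3725838050) (nat_lit 304) (nat_lit 2318005207) (nat_lit 76) (nat_lit 5) (nat_lit 79) (nat_lit 5) (nat_lit 80) (nat_lit 4) (nat_lit 474) (nat_lit 343) (nat_lit 323))) (XT.nd (nat_lit 78) (nat_lit 228) (nat_lit 0) (XT.lf (nat_lit 0) (nat_lit 1763154329) (nat_lit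 380) (nat_lit 9756377583) (nat_lit 76) (nat_lit 78288008) (nat_lit 71) (nat_lit 5) (nat_lit 76) (nat_lit 5) (nat_lit 72) (nat_lit 4) (nat_lit 475) (nat_lit 343) (nat_lit 322)) (XT.nd (nat_lit 78) (nat_lit 228) (nat_lit 0) (XT.lf (nat_lit 0) (nat_lit 5905148750) (nat_lit 380) (nat_lit 1895954331) (nat_lit 76) (nat_lit 3930023594) (nat_lit 71) (nat_lit 5) (nat_lit 76) (nat_lit 5) (nat_lit 72) (nat_lit 4) (nat_lit 476) (nat_lit 343) (nat_lit 321)) (XT.lf (nat_lit 0) (nat_lit 6112425252) (nat_lit 228) (nat_lit 4003048023) (nat_lit 304) (nat_lit 1751929416) (nat_lit 68) (nat_lit 5) (nat_lit 71) (nat_lit 5) (nat_lit 72) (nat_lit 4) (nat_lit 477) (nat_lit 343) (nat_lit 320))))) (XT.nd (nat_lit 234) (nat_lit 532) (nat_lit 0) (XT.nd (nat_lit 78) (nat_lit 228) (nat_lit 0) (XT.lf (nat_lit 0) (nat_lit 2224446293) (nat_lit 228) (nat_lit 120801826) (nat_lit 304) (nat_lit 9661392988) (nat_lit 64) (nat_lit 5) (nat_lit 67) (nat_lit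 5) (nat_lit 68) (nat_lit 5) (nat_lit 478) (nat_lit 343) (nat_lit 319)) (XT.nd (nat_lit 78) (nat_lit 228) (nat_lit 0) (XT.lf (nat_lit 0) (nat_lit 6510908418) (nat_lit 304) (nat_lit 1833032734) (nat_lit 76) (nat_lit 3804303769) (nat_lit 64) (nat_lit 5) (nat_lit 68) (nat_lit 5) (nat_lit 65) (nat_lit 4) (nat_lit 479) (nat_lit 343) (nat_lit 318)) (XT.lf (nat_lit 0) (nat_lit 6268460142) (nat_lit 228) (nat_lit 4480151206) (nat_lit 304) (nat_lit 1544306820) (nat_lit 61) (nat_lit 5) (nat_lit 64) (nat_lit 5) (nat_lit 65) (nat_lit 4) (nat_lit 480) (nat_lit 343) (nat_lit 317)))) (XT.nd (nat_lit 78) (nat_lit 228) (nat_lit 0) (XT.lf (nat_lit 0) (nat_lit 2037962173) (nat_lit 228) (nat_lit 531073751) (nat_lit 304) (nat_lit 9871659788) (nat_lit 57) (nat_lit 5) (nat_lit 60) (nat_lit 5) (nat_lit 61) (nat_lit 5) (nat_lit 481) (nat_lit 343) (nat_lit 316)) (XT.nd (nat_lit 78) (nat_lit 228) (nat_lit 0) (XT.lf (nat_lit 0) (nat_lit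 6754959253) (nat_lit 304) (nat_lit 2368967404) (nat_lit 76) (nat_lit 3467089409) (nat_lit 57) (nat_lit 5) (nat_lit 61) (nat_lit 5) (nat_lit 58) (nat_lit 4) (nat_lit 482) (nat_lit 343) (nat_lit 315)) (XT.lf (nat_lit 0) (nat_lit 5811468245) (nat_lit 228) (nat_lit 5202982641) (nat_lit 304) (nat_lit 1730105981) (nat_lit 54) (nat_lit 5) (nat_lit 57) (nat_lit 5) (nat_lit 58) (nat_lit 4) (nat_lit 483) (nat_lit 343) (nat_lit 314))))))))
noncomputable def xc18 : XT := (XT.nd (nat_lit 1560) (nat_lit 304) (nat_lit 0) (XT.nd (nat_lit 780) (nat_lit 1140) (nat_lit 0) (XT.nd (nat_lit 390) (nat_lit 608) (nat_lit 0) (XT.nd (nat_lit 156) (nat_lit 456) (nat_lit 0) (XT.nd (nat_lit 78) (nat_lit 0) (nat_lit 0) (XT.lf (nat_lit 0) (nat_lit 1199614072) (nat_lit 228) (nat_lit 1198605501) (nat_lit 304) (nat_lit 10503190496) (nat_lit 50) (nat_lit 5) (nat_lit 53) (nat_lit 5) (nat_lit 54) (nat_lit 5) (nat_lit 484) (nat_lit 343) (nat_lit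 313)) (XT.lf (nat_lit 0) (nat_lit 6600454169) (nat_lit 304) (nat_lit 3589077310) (nat_lit 76) (nat_lit 2871360364) (nat_lit 50) (nat_lit 5) (nat_lit 54) (nat_lit 5) (nat_lit 51) (nat_lit 4) (nat_lit 485) (nat_lit 343) (nat_lit 312))) (XT.nd (nat_lit 78) (nat_lit 304) (nat_lit 0) (XT.lf (nat_lit 0) (nat_lit 4653642848) (nat_lit 152) (nat_lit 6221161848) (nat_lit 228) (nat_lit 2349007328) (nat_lit 48) (nat_lit 5) (nat_lit 50) (nat_lit 5) (nat_lit 51) (nat_lit 4) (nat_lit 486) (nat_lit 343) (nat_lit 311)) (XT.nd (nat_lit 78) (nat_lit 228) (nat_lit 0) (XT.lf (nat_lit 0) (nat_lit 1794714522) (nat_lit 228) (nat_lit 377237917) (nat_lit 76) (nat_lit 11218323317) (nat_lit 47) (nat_lit 5) (nat_lit 50) (nat_lit 5) (nat_lit 48) (nat_lit 5) (nat_lit 487) (nat_lit 343) (nat_lit 310)) (XT.lf (nat_lit 0) (nat_lit 6005657151) (nat_lit 304) (nat_lit 5587711212) (nat_lit 76) (nat_lit 1966083479) (nat_lit 44) (nat_lit 5) (nat_lit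 48) (nat_lit 5) (nat_lit 45) (nat_lit 4) (nat_lit 488) (nat_lit 343) (nat_lit 309))))) (XT.nd (nat_lit 156) (nat_lit 380) (nat_lit 0) (XT.nd (nat_lit 78) (nat_lit 76) (nat_lit 0) (XT.lf (nat_lit 0) (nat_lit 2697843240) (nat_lit 152) (nat_lit 7588611082) (nat_lit 228) (nat_lit 3445853832) (nat_lit 42) (nat_lit 5) (nat_lit 44) (nat_lit 5) (nat_lit 45) (nat_lit 4) (nat_lit 489) (nat_lit 343) (nat_lit 308)) (XT.lf (nat_lit 0) (nat_lit 723502961) (nat_lit 228) (nat_lit 2772194874) (nat_lit 76) (nat_lit 10413055809) (nat_lit 41) (nat_lit 5) (nat_lit 44) (nat_lit 5) (nat_lit 42) (nat_lit 5) (nat_lit 490) (nat_lit 343) (nat_lit 307))) (XT.nd (nat_lit 78) (nat_lit 152) (nat_lit 0) (XT.lf (nat_lit 0) (nat_lit 4923469025) (nat_lit 304) (nat_lit 8469270346) (nat_lit 76) (nat_lit 695674764) (nat_lit 38) (nat_lit 5) (nat_lit 42) (nat_lit 5) (nat_lit 39) (nat_lit 4) (nat_lit 491) (nat_lit 343) (nat_lit 306)) (XT.nd (nat_lit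 78) (nat_lit 152) (nat_lit 0) (XT.lf (nat_lit 0) (nat_lit 9201720158) (nat_lit 304) (nat_lit 161317144) (nat_lit 76) (nat_lit 4908753520) (nat_lit 38) (nat_lit 5) (nat_lit 42) (nat_lit 5) (nat_lit 39) (nat_lit 4) (nat_lit 492) (nat_lit 343) (nat_lit 305)) (XT.lf (nat_lit 0) (nat_lit 8341176534) (nat_lit 152) (nat_lit 5231858728) (nat_lit 228) (nat_lit 885658334) (nat_lit 36) (nat_lit 5) (nat_lit 38) (nat_lit 5) (nat_lit 39) (nat_lit 4) (nat_lit 493) (nat_lit 343) (nat_lit 304)))))) (XT.nd (nat_lit 390) (nat_lit 532) (nat_lit 0) (XT.nd (nat_lit 156) (nat_lit 380) (nat_lit 0) (XT.nd (nat_lit 78) (nat_lit 0) (nat_lit 0) (XT.lf (nat_lit 0) (nat_lit 2293597881) (nat_lit 152) (nat_lit 1013884437) (nat_lit 228) (nat_lit 11342033058) (nat_lit 33) (nat_lit 5) (nat_lit 35) (nat_lit 5) (nat_lit 36) (nat_lit 5) (nat_lit 494) (nat_lit 343) (nat_lit 303)) (XT.lf (nat_lit 0) (nat_lit 7588899417) (nat_lit 228) (nat_lit 3996244641)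 (nat_lit 76) (nat_lit 3258575037) (nat_lit 33) (nat_lit 5) (nat_lit 36) (nat_lit 5) (nat_lit 34) (nat_lit 4) (nat_lit 495) (nat_lit 343) (nat_lit 302))) (XT.nd (nat_lit 78) (nat_lit 228) (nat_lit 0) (XT.lf (nat_lit 0) (nat_lit 4503278497) (nat_lit 152) (nat_lit 7443116247) (nat_lit 228) (nat_lit 3095611028) (nat_lit 31) (nat_lit 5) (nat_lit 33) (nat_lit 5) (nat_lit 34) (nat_lit 4) (nat_lit 496) (nat_lit 343) (nat_lit 301)) (XT.nd (nat_lit 78) (nat_lit 152) (nat_lit 0) (XT.lf (nat_lit 0) (nat_lit 1113304946) (nat_lit 228) (nat_lit 2104159932) (nat_lit 76) (nat_lit 12027020699) (nat_lit 30) (nat_lit 5) (nat_lit 33) (nat_lit 5) (nat_lit 31) (nat_lit 5) (nat_lit 497) (nat_lit 343) (nat_lit 300)) (XT.lf (nat_lit 0) (nat_lit 5369845792) (nat_lit 228) (nat_lit 8972508613) (nat_lit 76) (nat_lit 1108160825) (nat_lit 28) (nat_lit 5) (nat_lit 31) (nat_lit 5) (nat_lit 29) (nat_lit 4) (nat_lit 498) (nat_lit 343) (nat_lit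 299))))) (XT.nd (nat_lit 156) (nat_lit 380) (nat_lit 0) (XT.nd (nat_lit 78) (nat_lit 152) (nat_lit 0) (XT.lf (nat_lit 0) (nat_lit 9702649599) (nat_lit 228) (nat_lit 499816645) (nat_lit 76) (nat_lit 5458383870) (nat_lit 28) (nat_lit 5) (nat_lit 31) (nat_lit 5) (nat_lit 29) (nat_lit 4) (nat_lit 499) (nat_lit 343) (nat_lit 298)) (XT.lf (nat_lit 0) (nat_lit 8172680744) (nat_lit 152) (nat_lit 5958972475) (nat_lit 228) (nat_lit 1743554741) (nat_lit 26) (nat_lit 5) (nat_lit 28) (nat_lit 5) (nat_lit 29) (nat_lit 4) (nat_lit 500) (nat_lit 343) (nat_lit 297))) (XT.nd (nat_lit 78) (nat_lit 152) (nat_lit 0) (XT.lf (nat_lit 0) (nat_lit 849228223) (nat_lit 152) (nat_lit 1638077664) (nat_lit 228) (nat_lit 13606913387) (nat_lit 23) (nat_lit 5) (nat_lit 25) (nat_lit 5) (nat_lit 26) (nat_lit 5) (nat_lit 501) (nat_lit 343) (nat_lit 296)) (XT.nd (nat_lit 78) (nat_lit 152) (nat_lit 0) (XT.lf (nat_lit 0) (nat_lit 6806155322) (nat_lit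 228) (nat_lit 6747077082) (nat_lit 76) (nat_lit 2763620284) (nat_lit 23) (nat_lit 5) (nat_lit 26) (nat_lit 5) (nat_lit 24) (nat_lit 4) (nat_lit 502) (nat_lit 343) (nat_lit 295)) (XT.lf (nat_lit 0) (nat_lit 1858776285) (nat_lit 152) (nat_lit 9333057299) (nat_lit 228) (nat_lit 5352502745) (nat_lit 21) (nat_lit 5) (nat_lit 23) (nat_lit 5) (nat_lit 24) (nat_lit 4) (nat_lit 503) (nat_lit 343) (nat_lit 294))))))) (XT.nd (nat_lit 55770) (nat_lit 0) (nat_lit 5700) (XT.nd (nat_lit 55380) (nat_lit 0) (nat_lit 8740) (XT.nd (nat_lit 156) (nat_lit 76) (nat_lit 0) (XT.nd (nat_lit 78) (nat_lit 228) (nat_lit 0) (XT.lf (nat_lit 0) (nat_lit 10653153288) (nat_lit 152) (nat_lit 5015229153) (nat_lit 228) (nat_lit 1107930526) (nat_lit 21) (nat_lit 5) (nat_lit 23) (nat_lit 5) (nat_lit 24) (nat_lit 4) (nat_lit 504) (nat_lit 343) (nat_lit 293)) (XT.lf (nat_lit 0) (nat_lit 2548862213) (nat_lit 152) (nat_lit 605395580) (nat_lit 228) (nat_lit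 13858759720) (nat_lit 18) (nat_lit 5) (nat_lit 20) (nat_lit 5) (nat_lit 21) (nat_lit 5) (nat_lit 505) (nat_lit 343) (nat_lit 292))) (XT.nd (nat_lit 78) (nat_lit 76) (nat_lit 0) (XT.lf (nat_lit 0) (nat_lit 7512057114) (nat_lit 228) (nat_lit 5883463282) (nat_lit 76) (nat_lit 3858291330) (nat_lit 18) (nat_lit 5) (nat_lit 21) (nat_lit 5) (nat_lit 19) (nat_lit 4) (nat_lit 506) (nat_lit 343) (nat_lit 291)) (XT.nd (nat_lit 55068) (nat_lit 0) (nat_lit 10564) (XT.lf (nat_lit 0) (nat_lit 2829122551) (nat_lit 76) (nat_lit 9109633583) (nat_lit 152) (nat_lit 5561036789) (nat_lit 17) (nat_lit 5) (nat_lit 18) (nat_lit 5) (nat_lit 19) (nat_lit 4) (nat_lit 507) (nat_lit 343) (nat_lit 290)) (XT.lf (nat_lit 0) (nat_lit 599549981) (nat_lit 532) (nat_lit 3388974927) (nat_lit 0) (nat_lit 599549981) (nat_lit 156) (nat_lit 5) (nat_lit 163) (nat_lit 4) (nat_lit 156) (nat_lit 4) (nat_lit 452) (nat_lit 344) (nat_lit 344))))) (XT.nd (nat_lit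 156) (nat_lit 1368) (nat_lit 0) (XT.nd (nat_lit 78) (nat_lit 0) (nat_lit 0) (XT.lf (nat_lit 0) (nat_lit 282926367) (nat_lit 456) (nat_lit 4946676582) (nat_lit 456) (nat_lit 4029393154) (nat_lit 150) (nat_lit 4) (nat_lit 156) (nat_lit 5) (nat_lit 156) (nat_lit 4) (nat_lit 453) (nat_lit 344) (nat_lit 343)) (XT.lf (nat_lit 0) (nat_lit 7481938347) (nat_lit 456) (nat_lit 1839277900) (nat_lit 456) (nat_lit 22696992) (nat_lit 150) (nat_lit 4) (nat_lit 156) (nat_lit 5) (nat_lit 156) (nat_lit 4) (nat_lit 454) (nat_lit 344) (nat_lit 342))) (XT.nd (nat_lit 78) (nat_lit 912) (nat_lit 0) (XT.lf (nat_lit 0) (nat_lit 3990222620) (nat_lit 456) (nat_lit 4095329212) (nat_lit 0) (nat_lit 1344884283) (nat_lit 144) (nat_lit 5) (nat_lit 150) (nat_lit 4) (nat_lit 144) (nat_lit 4) (nat_lit 455) (nat_lit 344) (nat_lit 341)) (XT.nd (nat_lit 78) (nat_lit 456) (nat_lit 0) (XT.lf (nat_lit 0) (nat_lit 3116943139) (nat_lit 456) (nat_lit 4947453133)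 (nat_lit 456) (nat_lit 1454686696) (nat_lit 138) (nat_lit 4) (nat_lit 144) (nat_lit 5) (nat_lit 144) (nat_lit 4) (nat_lit 456) (nat_lit 344) (nat_lit 340)) (XT.lf (nat_lit 0) (nat_lit 818933278) (nat_lit 380) (nat_lit 1726864532) (nat_lit 456) (nat_lit 7063997899) (nat_lit 132) (nat_lit 5) (nat_lit 137) (nat_lit 5) (nat_lit 138) (nat_lit 4) (nat_lit 457) (nat_lit 344) (nat_lit 339)))))) (XT.nd (nat_lit 390) (nat_lit 1748) (nat_lit 0) (XT.nd (nat_lit 156) (nat_lit 836) (nat_lit 0) (XT.nd (nat_lit 78) (nat_lit 456) (nat_lit 0) (XT.lf (nat_lit 0) (nat_lit 6597130373) (nat_lit 456) (nat_lit 1545437209) (nat_lit 0) (nat_lit 1559777694) (nat_lit 132) (nat_lit 5) (nat_lit 138) (nat_lit 4) (nat_lit 132) (nat_lit 4) (nat_lit 458) (nat_lit 344) (nat_lit 338)) (XT.lf (nat_lit 0) (nat_lit 907779281) (nat_lit 456) (nat_lit 3986531105) (nat_lit 76) (nat_lit 4902589347) (nat_lit 126) (nat_lit 5) (nat_lit 132) (nat_lit 5) (nat_lit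 127) (nat_lit 4) (nat_lit 459) (nat_lit 344) (nat_lit 337))) (XT.nd (nat_lit 78) (nat_lit 456) (nat_lit 0) (XT.lf (nat_lit 0) (nat_lit 3371172619) (nat_lit 380) (nat_lit 1559005406) (nat_lit 456) (nat_lit 4963362265) (nat_lit 121) (nat_lit 5) (nat_lit 126) (nat_lit 5) (nat_lit 127) (nat_lit 4) (nat_lit 460) (nat_lit 344) (nat_lit 336)) (XT.nd (nat_lit 78) (nat_lit 76) (nat_lit 0) (XT.lf (nat_lit 0) (nat_lit 843481775) (nat_lit 380) (nat_lit 8172670395) (nat_lit 380) (nat_lit 976318538) (nat_lit 116) (nat_lit 4) (nat_lit 121) (nat_lit 5) (nat_lit 121) (nat_lit 4) (nat_lit 461) (nat_lit 344) (nat_lit 335)) (XT.lf (nat_lit 0) (nat_lit 3043247463) (nat_lit 456) (nat_lit 1772263703) (nat_lit 76) (nat_lit 5277619830) (nat_lit 115) (nat_lit 5) (nat_lit 121) (nat_lit 5) (nat_lit 116) (nat_lit 4) (nat_lit 462) (nat_lit 344) (nat_lit 334))))) (XT.nd (nat_lit 234) (nat_lit 684) (nat_lit 0) (XT.nd (nat_lit 78) (nat_lit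 760) (nat_lit 0) (XT.lf (nat_lit 0) (nat_lit 5728364556) (nat_lit 304) (nat_lit 1379099831) (nat_lit 380) (nat_lit 3088682854) (nat_lit 111) (nat_lit 5) (nat_lit 115) (nat_lit 5) (nat_lit 116) (nat_lit 4) (nat_lit 463) (nat_lit 344) (nat_lit 333)) (XT.nd (nat_lit 78) (nat_lit 304) (nat_lit 0) (XT.lf (nat_lit 0) (nat_lit 925127485) (nat_lit 456) (nat_lit 7272320624) (nat_lit 76) (nat_lit 2103952506) (nat_lit 105) (nat_lit 5) (nat_lit 111) (nat_lit 5) (nat_lit 106) (nat_lit 4) (nat_lit 464) (nat_lit 344) (nat_lit 332)) (XT.lf (nat_lit 0) (nat_lit 208351443) (nat_lit 304) (nat_lit 4750866804) (nat_lit 380) (nat_lit 5449522655) (nat_lit 101) (nat_lit 5) (nat_lit 105) (nat_lit 5) (nat_lit 106) (nat_lit 4) (nat_lit 465) (nat_lit 344) (nat_lit 331)))) (XT.nd (nat_lit 78) (nat_lit 684) (nat_lit 0) (XT.lf (nat_lit 0) (nat_lit 7844949139) (nat_lit 304) (nat_lit 1219064742) (nat_lit 380) (nat_lit 1454430715) (nat_lit 101)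 (nat_lit 5) (nat_lit 105) (nat_lit 5) (nat_lit 106) (nat_lit 4) (nat_lit 466) (nat_lit 344) (nat_lit 330)) (XT.nd (nat_lit 78) (nat_lit 304) (nat_lit 0) (XT.lf (nat_lit 0) (nat_lit 2575963374) (nat_lit 380) (nat_lit 5685380938) (nat_lit 76) (nat_lit 2368878773) (nat_lit 96) (nat_lit 5) (nat_lit 101) (nat_lit 5) (nat_lit 97) (nat_lit 4) (nat_lit 467) (nat_lit 344) (nat_lit 329)) (XT.lf (nat_lit 0) (nat_lit 1923719641) (nat_lit 304) (nat_lit 4724721966) (nat_lit 380) (nat_lit 4096000317) (nat_lit 92) (nat_lit 5) (nat_lit 96) (nat_lit 5) (nat_lit 97) (nat_lit 4) (nat_lit 468) (nat_lit 344) (nat_lit 328))))))))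
noncomputable def xc19 : XT := (XT.nd (nat_lit 1638) (nat_lit 1824) (nat_lit 0) (XT.nd (nat_lit 780) (nat_lit 1672) (nat_lit 0) (XT.nd (nat_lit 390) (nat_lit 1140) (nat_lit 0) (XT.nd (nat_lit 156) (nat_lit 608) (nat_lit 0) (XT.nd (nat_lit 78) (nat_lit 380) (nat_lit 0) (XT.lf (nat_lit 0) (nat_lit 9671077348) (nat_lit 304) (nat_lit 1112294522) (nat_lit 380) (nat_lit 77968983) (nat_lit 92) (nat_lit 5) (nat_lit 96) (nat_lit 5) (nat_lit 97) (nat_lit 4) (nat_lit 469) (nat_lit 344) (nat_lit 327)) (XT.lf (nat_lit 0) (nat_lit 3970828089) (nat_lit 380) (nat_lit 4434484670) (nat_lit 76) (nat_lit 2574695413) (nat_lit 87) (nat_lit 5) (nat_lit 92) (nat_lit 5) (nat_lit 88) (nat_lit 4) (nat_lit 470) (nat_lit 344) (nat_lit 326))) (XT.nd (nat_lit 78) (nat_lit 380) (nat_lit 0) (XT.lf (nat_lit 0) (nat_lit 3296271537) (nat_lit 228) (nat_lit 4783987752) (nat_lit 304) (nat_lit 3021180051) (nat_lit 84) (nat_lit 5) (nat_lit 87) (nat_lit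 5) (nat_lit 88) (nat_lit 4) (nat_lit 471) (nat_lit 344) (nat_lit 325)) (XT.nd (nat_lit 78) (nat_lit 304) (nat_lit 0) (XT.lf (nat_lit 0) (nat_lit 1006837169) (nat_lit 304) (nat_lit 80402436) (nat_lit 76) (nat_lit 10138458235) (nat_lit 83) (nat_lit 5) (nat_lit 87) (nat_lit 5) (nat_lit 84) (nat_lit 5) (nat_lit 472) (nat_lit 344) (nat_lit 324)) (XT.lf (nat_lit 0) (nat_lit 5088388811) (nat_lit 380) (nat_lit 3577449082) (nat_lit 76) (nat_lit 2685949661) (nat_lit 79) (nat_lit 5) (nat_lit 84) (nat_lit 5) (nat_lit 80) (nat_lit 4) (nat_lit 473) (nat_lit 344) (nat_lit 323))))) (XT.nd (nat_lit 156) (nat_lit 532) (nat_lit 0) (XT.nd (nat_lit 78) (nat_lit 380) (nat_lit 0) (XT.lf (nat_lit 0) (nat_lit 4266645086) (nat_lit 228) (nat_lit 4965782550) (nat_lit 304) (nat_lit 2248368025) (nat_lit 76) (nat_lit 5) (nat_lit 79) (nat_lit 5) (nat_lit 80) (nat_lit 4) (nat_lit 474) (nat_lit 344) (nat_lit 322)) (XT.lf (nat_lit 0) (nat_lit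 610936179) (nat_lit 304) (nat_lit 1185471829) (nat_lit 380) (nat_lit 9816275918) (nat_lit 71) (nat_lit 5) (nat_lit 75) (nat_lit 5) (nat_lit 76) (nat_lit 5) (nat_lit 475) (nat_lit 344) (nat_lit 321))) (XT.nd (nat_lit 78) (nat_lit 532) (nat_lit 0) (XT.lf (nat_lit 0) (nat_lit 5903876004) (nat_lit 380) (nat_lit 3177893809) (nat_lit 76) (nat_lit 2664917797) (nat_lit 71) (nat_lit 5) (nat_lit 76) (nat_lit 5) (nat_lit 72) (nat_lit 4) (nat_lit 476) (nat_lit 344) (nat_lit 320)) (XT.nd (nat_lit 78) (nat_lit 304) (nat_lit 0) (XT.lf (nat_lit 0) (nat_lit 4769474515) (nat_lit 228) (nat_lit 5309703203) (nat_lit 304) (nat_lit 1804492643) (nat_lit 68) (nat_lit 5) (nat_lit 71) (nat_lit 5) (nat_lit 72) (nat_lit 4) (nat_lit 477) (nat_lit 344) (nat_lit 319)) (XT.lf (nat_lit 0) (nat_lit 803465203) (nat_lit 228) (nat_lit 1454436760) (nat_lit 304) (nat_lit 9765729116) (nat_lit 64) (nat_lit 5) (nat_lit 67) (nat_lit 5) (nat_lit 68) (nat_lit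 5) (nat_lit 478) (nat_lit 344) (nat_lit 318)))))) (XT.nd (nat_lit 390) (nat_lit 912) (nat_lit 0) (XT.nd (nat_lit 156) (nat_lit 532) (nat_lit 0) (XT.nd (nat_lit 78) (nat_lit 228) (nat_lit 0) (XT.lf (nat_lit 0) (nat_lit 6388779862) (nat_lit 304) (nat_lit 3305941199) (nat_lit 76) (nat_lit 2471215394) (nat_lit 64) (nat_lit 5) (nat_lit 68) (nat_lit 5) (nat_lit 65) (nat_lit 4) (nat_lit 479) (nat_lit 344) (nat_lit 317)) (XT.lf (nat_lit 0) (nat_lit 4732668070) (nat_lit 228) (nat_lit 5858232010) (nat_lit 304) (nat_lit 1720427074) (nat_lit 61) (nat_lit 5) (nat_lit 64) (nat_lit 5) (nat_lit 65) (nat_lit 4) (nat_lit 480) (nat_lit 344) (nat_lit 316))) (XT.nd (nat_lit 78) (nat_lit 228) (nat_lit 0) (XT.lf (nat_lit 0) (nat_lit 420890969) (nat_lit 228) (nat_lit 1938276902) (nat_lit 304) (nat_lit 10100686423) (nat_lit 57) (nat_lit 5) (nat_lit 60) (nat_lit 5) (nat_lit 61) (nat_lit 5) (nat_lit 481) (nat_lit 344) (nat_lit 315)) (XT.nd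 (nat_lit 78) (nat_lit 228) (nat_lit 0) (XT.lf (nat_lit 0) (nat_lit 6510509598) (nat_lit 304) (nat_lit 4038985058) (nat_lit 76) (nat_lit 2061377087) (nat_lit 57) (nat_lit 5) (nat_lit 61) (nat_lit 5) (nat_lit 58) (nat_lit 4) (nat_lit 482) (nat_lit 344) (nat_lit 314)) (XT.lf (nat_lit 0) (nat_lit 4076614969) (nat_lit 228) (nat_lit 6657176263) (nat_lit 304) (nat_lit 2031350868) (nat_lit 54) (nat_lit 5) (nat_lit 57) (nat_lit 5) (nat_lit 58) (nat_lit 4) (nat_lit 483) (nat_lit 344) (nat_lit 313))))) (XT.nd (nat_lit 234) (nat_lit 456) (nat_lit 0) (XT.nd (nat_lit 78) (nat_lit 380) (nat_lit 0) (XT.lf (nat_lit 0) (nat_lit 2068239458) (nat_lit 304) (nat_lit 611743580) (nat_lit 76) (nat_lit 10242710254) (nat_lit 53) (nat_lit 5) (nat_lit 57) (nat_lit 5) (nat_lit 54) (nat_lit 5) (nat_lit 484) (nat_lit 344) (nat_lit 312)) (XT.nd (nat_lit 78) (nat_lit 152) (nat_lit 0) (XT.lf (nat_lit 0) (nat_lit 6232012071) (nat_lit 304) (nat_lit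 5462535412) (nat_lit 76) (nat_lit 1388401869) (nat_lit 50) (nat_lit 5) (nat_lit 54) (nat_lit 5) (nat_lit 51) (nat_lit 4) (nat_lit 485) (nat_lit 344) (nat_lit 311)) (XT.lf (nat_lit 0) (nat_lit 2713313722) (nat_lit 152) (nat_lit 7756144487) (nat_lit 228) (nat_lit 2777154360) (nat_lit 48) (nat_lit 5) (nat_lit 50) (nat_lit 5) (nat_lit 51) (nat_lit 4) (nat_lit 486) (nat_lit 344) (nat_lit 310)))) (XT.nd (nat_lit 78) (nat_lit 380) (nat_lit 0) (XT.lf (nat_lit 0) (nat_lit 1347921279) (nat_lit 228) (nat_lit 2379065689) (nat_lit 76) (nat_lit 9686634915) (nat_lit 47) (nat_lit 5) (nat_lit 50) (nat_lit 5) (nat_lit 48) (nat_lit 5) (nat_lit 487) (nat_lit 344) (nat_lit 309)) (XT.nd (nat_lit 78) (nat_lit 152) (nat_lit 0) (XT.lf (nat_lit 0) (nat_lit 5511345842) (nat_lit 304) (nat_lit 7671147614) (nat_lit 76) (nat_lit 401259537) (nat_lit 44) (nat_lit 5) (nat_lit 48) (nat_lit 5) (nat_lit 45) (nat_lit 4) (nat_lit 488) (nat_lit 344)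 (nat_lit 308)) (XT.lf (nat_lit 0) (nat_lit 545413213) (nat_lit 152) (nat_lit 9209064000) (nat_lit 228) (nat_lit 4002889980) (nat_lit 42) (nat_lit 5) (nat_lit 44) (nat_lit 5) (nat_lit 45) (nat_lit 4) (nat_lit 489) (nat_lit 344) (nat_lit 307))))))) (XT.nd (nat_lit 780) (nat_lit 760) (nat_lit 0) (XT.nd (nat_lit 390) (nat_lit 532) (nat_lit 0) (XT.nd (nat_lit 156) (nat_lit 228) (nat_lit 0) (XT.nd (nat_lit 78) (nat_lit 228) (nat_lit 0) (XT.lf (nat_lit 0) (nat_lit 150123264) (nat_lit 228) (nat_lit 4986881904) (nat_lit 76) (nat_lit 8797357225) (nat_lit 41) (nat_lit 5) (nat_lit 44) (nat_lit 5) (nat_lit 42) (nat_lit 5) (nat_lit 490) (nat_lit 344) (nat_lit 306)) (XT.lf (nat_lit 0) (nat_lit 3339146981) (nat_lit 228) (nat_lit 968346507) (nat_lit 304) (nat_lit 9807385620) (nat_lit 38) (nat_lit 5) (nat_lit 41) (nat_lit 5) (nat_lit 42) (nat_lit 5) (nat_lit 491) (nat_lit 344) (nat_lit 305))) (XT.nd (nat_lit 78) (nat_lit 228)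 (nat_lit 0) (XT.lf (nat_lit 0) (nat_lit 8556359701) (nat_lit 304) (nat_lit 2501598024) (nat_lit 76) (nat_lit 3240889993) (nat_lit 38) (nat_lit 5) (nat_lit 42) (nat_lit 5) (nat_lit 39) (nat_lit 4) (nat_lit 492) (nat_lit 344) (nat_lit 304)) (XT.nd (nat_lit 78) (nat_lit 76) (nat_lit 0) (XT.lf (nat_lit 0) (nat_lit 5929952165) (nat_lit 152) (nat_lit 6959422496) (nat_lit 228) (nat_lit 1597145974) (nat_lit 36) (nat_lit 5) (nat_lit 38) (nat_lit 5) (nat_lit 39) (nat_lit 4) (nat_lit 493) (nat_lit 344) (nat_lit 303)) (XT.lf (nat_lit 0) (nat_lit 2567827227) (nat_lit 228) (nat_lit 210280609) (nat_lit 76) (nat_lit 11900080924) (nat_lit 35) (nat_lit 5) (nat_lit 38) (nat_lit 5) (nat_lit 36) (nat_lit 5) (nat_lit 494) (nat_lit 344) (nat_lit 302))))) (XT.nd (nat_lit 156) (nat_lit 228) (nat_lit 0) (XT.nd (nat_lit 78) (nat_lit 152) (nat_lit 0) (XT.lf (nat_lit 0) (nat_lit 6813871067) (nat_lit 228) (nat_lit 6559605533) (nat_lit 76)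 (nat_lit 1499627245) (nat_lit 33) (nat_lit 5) (nat_lit 36) (nat_lit 5) (nat_lit 34) (nat_lit 4) (nat_lit 495) (nat_lit 344) (nat_lit 301)) (XT.lf (nat_lit 0) (nat_lit 1866660928) (nat_lit 152) (nat_lit 9265502322) (nat_lit 228) (nat_lit 3940015161) (nat_lit 31) (nat_lit 5) (nat_lit 33) (nat_lit 5) (nat_lit 34) (nat_lit 4) (nat_lit 496) (nat_lit 344) (nat_lit 300))) (XT.nd (nat_lit 78) (nat_lit 152) (nat_lit 0) (XT.lf (nat_lit 0) (nat_lit 257925675) (nat_lit 228) (nat_lit 4804186922) (nat_lit 76) (nat_lit 10213099936) (nat_lit 30) (nat_lit 5) (nat_lit 33) (nat_lit 5) (nat_lit 31) (nat_lit 5) (nat_lit 497) (nat_lit 344) (nat_lit 299)) (XT.nd (nat_lit 78) (nat_lit 0) (nat_lit 0) (XT.lf (nat_lit 0) (nat_lit 3711069550) (nat_lit 152) (nat_lit 756476062) (nat_lit 228) (nat_lit 11014638597) (nat_lit 28) (nat_lit 5) (nat_lit 30) (nat_lit 5) (nat_lit 31) (nat_lit 5) (nat_lit 498) (nat_lit 344) (nat_lit 298)) (XT.lf (nat_lit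 0) (nat_lit 8773893952) (nat_lit 228) (nat_lit 3331548075) (nat_lit 76) (nat_lit 3587609710) (nat_lit 28) (nat_lit 5) (nat_lit 31) (nat_lit 5) (nat_lit 29) (nat_lit 4) (nat_lit 499) (nat_lit 344) (nat_lit 297)))))) (XT.nd (nat_lit 390) (nat_lit 228) (nat_lit 0) (XT.nd (nat_lit 156) (nat_lit 304) (nat_lit 0) (XT.nd (nat_lit 78) (nat_lit 76) (nat_lit 0) (XT.lf (nat_lit 0) (nat_lit 5265530409) (nat_lit 152) (nat_lit 7897370521) (nat_lit 228) (nat_lit 2745312051) (nat_lit 26) (nat_lit 5) (nat_lit 28) (nat_lit 5) (nat_lit 29) (nat_lit 4) (nat_lit 500) (nat_lit 344) (nat_lit 296)) (XT.lf (nat_lit 0) (nat_lit 1472083100) (nat_lit 228) (nat_lit 2132890214) (nat_lit 76) (nat_lit 12522916467) (nat_lit 25) (nat_lit 5) (nat_lit 28) (nat_lit 5) (nat_lit 26) (nat_lit 5) (nat_lit 501) (nat_lit 344) (nat_lit 295))) (XT.nd (nat_lit 78) (nat_lit 152) (nat_lit 0) (XT.lf (nat_lit 0) (nat_lit 5743014881) (nat_lit 228) (nat_lit 9816028769)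 (nat_lit 76) (nat_lit 792441162) (nat_lit 23) (nat_lit 5) (nat_lit 26) (nat_lit 5) (nat_lit 24) (nat_lit 4) (nat_lit 502) (nat_lit 344) (nat_lit 294)) (XT.nd (nat_lit 78) (nat_lit 152) (nat_lit 0) (XT.lf (nat_lit 0) (nat_lit 10096014773) (nat_lit 228) (nat_lit 1271220675) (nat_lit 76) (nat_lit 5212389772) (nat_lit 23) (nat_lit 5) (nat_lit 26) (nat_lit 5) (nat_lit 24) (nat_lit 4) (nat_lit 503) (nat_lit 344) (nat_lit 293)) (XT.lf (nat_lit 0) (nat_lit 7469836615) (nat_lit 152) (nat_lit 7073921376) (nat_lit 228) (nat_lit 2268423119) (nat_lit 21) (nat_lit 5) (nat_lit 23) (nat_lit 5) (nat_lit 24) (nat_lit 4) (nat_lit 504) (nat_lit 344) (nat_lit 292))))) (XT.nd (nat_lit 55068) (nat_lit 0) (nat_lit 10488) (XT.nd (nat_lit 78) (nat_lit 152) (nat_lit 0) (XT.lf (nat_lit 0) (nat_lit 1972259087) (nat_lit 228) (nat_lit 732199488) (nat_lit 76) (nat_lit 14345315314) (nat_lit 20) (nat_lit 5) (nat_lit 23) (nat_lit 5) (nat_lit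 21) (nat_lit 5) (nat_lit 505) (nat_lit 344) (nat_lit 291)) (XT.nd (nat_lit 78) (nat_lit 0) (nat_lit 0) (XT.lf (nat_lit 0) (nat_lit 6291465020) (nat_lit 228) (nat_lit 9233494983) (nat_lit 76) (nat_lit 1766382924) (nat_lit 18) (nat_lit 5) (nat_lit 21) (nat_lit 5) (nat_lit 19) (nat_lit 4) (nat_lit 506) (nat_lit 344) (nat_lit 290)) (XT.lf (nat_lit 0) (nat_lit 10680074053) (nat_lit 228) (nat_lit 593353939) (nat_lit 76) (nat_lit 6264660830) (nat_lit 18) (nat_lit 5) (nat_lit 21) (nat_lit 5) (nat_lit 19) (nat_lit 4) (nat_lit 507) (nat_lit 344) (nat_lit 289)))) (XT.nd (nat_lit 78) (nat_lit 988) (nat_lit 0) (XT.lf (nat_lit 0) (nat_lit 1611827539) (nat_lit 532) (nat_lit 1283895404) (nat_lit 0) (nat_lit 1611827539) (nat_lit 169) (nat_lit 5) (nat_lit 176) (nat_lit 4) (nat_lit 169) (nat_lit 4) (nat_lit 450) (nat_lit 345) (nat_lit 345)) (XT.nd (nat_lit 78) (nat_lit 532) (nat_lit 0) (XT.lf (nat_lit 0) (nat_lit 4431613295) (nat_lit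 456) (nat_lit 2808854132) (nat_lit 456) (nat_lit 1854512453) (nat_lit 163) (nat_lit 4) (nat_lit 169) (nat_lit 5) (nat_lit 169) (nat_lit 4) (nat_lit 451) (nat_lit 345) (nat_lit 344)) (XT.lf (nat_lit 0) (nat_lit 2102226999) (nat_lit 532) (nat_lit 6825270410) (nat_lit 0) (nat_lit 249314473) (nat_lit 156) (nat_lit 5) (nat_lit 163) (nat_lit 4) (nat_lit 156) (nat_lit 4) (nat_lit 452) (nat_lit 345) (nat_lit 343))))))))
noncomputable def xc20 : XT := (XT.nd (nat_lit 1560) (nat_lit 3572) (nat_lit 0) (XT.nd (nat_lit 780) (nat_lit 2432) (nat_lit 0) (XT.nd (nat_lit 390) (nat_lit 1292) (nat_lit 0) (XT.nd (nat_lit 156) (nat_lit 1292) (nat_lit 0) (XT.nd (nat_lit 78) (nat_lit 76) (nat_lit 0) (XT.lf (nat_lit 0) (nat_lit 187967708) (nat_lit 456) (nat_lit 5912280979) (nat_lit 456) (nat_lit 3160070974) (nat_lit 150) (nat_lit 4) (nat_lit 156) (nat_lit 5) (nat_lit 156) (nat_lit 4) (nat_lit 453) (nat_lit 345) (nat_lit 342)) (XT.lf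 (nat_lit 0) (nat_lit 803762037) (nat_lit 532) (nat_lit 2010274884) (nat_lit 76) (nat_lit 6531736498) (nat_lit 149) (nat_lit 5) (nat_lit 156) (nat_lit 5) (nat_lit 150) (nat_lit 4) (nat_lit 454) (nat_lit 345) (nat_lit 341))) (XT.nd (nat_lit 78) (nat_lit 912) (nat_lit 0) (XT.lf (nat_lit 0) (nat_lit 4777540295) (nat_lit 456) (nat_lit 4288050641) (nat_lit 0) (nat_lit 367490430) (nat_lit 144) (nat_lit 5) (nat_lit 150) (nat_lit 4) (nat_lit 144) (nat_lit 4) (nat_lit 455) (nat_lit 345) (nat_lit 340)) (XT.nd (nat_lit 78) (nat_lit 456) (nat_lit 0) (XT.lf (nat_lit 0) (nat_lit 2875209371) (nat_lit 456) (nat_lit 5944020591) (nat_lit 456) (nat_lit 703158863) (nat_lit 138) (nat_lit 4) (nat_lit 144) (nat_lit 5) (nat_lit 144) (nat_lit 4) (nat_lit 456) (nat_lit 345) (nat_lit 339)) (XT.lf (nat_lit 0) (nat_lit 519121742) (nat_lit 380) (nat_lit 2735583655) (nat_lit 456) (nat_lit 6358964358) (nat_lit 132) (nat_lit 5) (nat_lit 137)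 (nat_lit 5) (nat_lit 138) (nat_lit 4) (nat_lit 457) (nat_lit 345) (nat_lit 338))))) (XT.nd (nat_lit 156) (nat_lit 836) (nat_lit 0) (XT.nd (nat_lit 78) (nat_lit 456) (nat_lit 0) (XT.lf (nat_lit 0) (nat_lit 7268880902) (nat_lit 456) (nat_lit 1888753689) (nat_lit 0) (nat_lit 549338169) (nat_lit 132) (nat_lit 5) (nat_lit 138) (nat_lit 4) (nat_lit 132) (nat_lit 4) (nat_lit 458) (nat_lit 345) (nat_lit 337)) (XT.lf (nat_lit 0) (nat_lit 1533363115) (nat_lit 456) (nat_lit 4389690978) (nat_lit 76) (nat_lit 3879052187) (nat_lit 126) (nat_lit 5) (nat_lit 132) (nat_lit 5) (nat_lit 127) (nat_lit 4) (nat_lit 459) (nat_lit 345) (nat_lit 336))) (XT.nd (nat_lit 78) (nat_lit 456) (nat_lit 0) (XT.lf (nat_lit 0) (nat_lit 2916667720) (nat_lit 380) (nat_lit 2606225395) (nat_lit 456) (nat_lit 4376520799) (nat_lit 121) (nat_lit 5) (nat_lit 126) (nat_lit 5) (nat_lit 127) (nat_lit 4) (nat_lit 460) (nat_lit 345) (nat_lit 335)) (XT.nd (nat_lit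 78) (nat_lit 76) (nat_lit 0) (XT.lf (nat_lit 0) (nat_lit 337681704) (nat_lit 380) (nat_lit 9231378034) (nat_lit 380) (nat_lit 430090258) (nat_lit 116) (nat_lit 4) (nat_lit 121) (nat_lit 5) (nat_lit 121) (nat_lit 4) (nat_lit 461) (nat_lit 345) (nat_lit 334)) (XT.lf (nat_lit 0) (nat_lit 3552672230) (nat_lit 456) (nat_lit 2333979795) (nat_lit 76) (nat_lit 4213689264) (nat_lit 115) (nat_lit 5) (nat_lit 121) (nat_lit 5) (nat_lit 116) (nat_lit 4) (nat_lit 462) (nat_lit 345) (nat_lit 333)))))) (XT.nd (nat_lit 390) (nat_lit 988) (nat_lit 0) (XT.nd (nat_lit 156) (nat_lit 684) (nat_lit 0) (XT.nd (nat_lit 78) (nat_lit 456) (nat_lit 0) (XT.lf (nat_lit 0) (nat_lit 5113793888) (nat_lit 304) (nat_lit 2470046601) (nat_lit 380) (nat_lit 2620186980) (nat_lit 111) (nat_lit 5) (nat_lit 115) (nat_lit 5) (nat_lit 116) (nat_lit 4) (nat_lit 463) (nat_lit 345) (nat_lit 332)) (XT.lf (nat_lit 0) (nat_lit 1346896099) (nat_lit 456) (nat_lit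 7952915958) (nat_lit 76) (nat_lit 1010228223) (nat_lit 105) (nat_lit 5) (nat_lit 111) (nat_lit 5) (nat_lit 106) (nat_lit 4) (nat_lit 464) (nat_lit 345) (nat_lit 331))) (XT.nd (nat_lit 78) (nat_lit 684) (nat_lit 0) (XT.lf (nat_lit 0) (nat_lit 5350832625) (nat_lit 456) (nat_lit 520053659) (nat_lit 76) (nat_lit 4547105815) (nat_lit 105) (nat_lit 5) (nat_lit 111) (nat_lit 5) (nat_lit 106) (nat_lit 4) (nat_lit 465) (nat_lit 345) (nat_lit 330)) (XT.nd (nat_lit 78) (nat_lit 380) (nat_lit 0) (XT.lf (nat_lit 0) (nat_lit 7064852156) (nat_lit 304) (nat_lit 2358827206) (nat_lit 380) (nat_lit 1104663691) (nat_lit 101) (nat_lit 5) (nat_lit 105) (nat_lit 5) (nat_lit 106) (nat_lit 4) (nat_lit 466) (nat_lit 345) (nat_lit 329)) (XT.lf (nat_lit 0) (nat_lit 2879951968) (nat_lit 380) (nat_lit 6536057530) (nat_lit 76) (nat_lit 1224898407) (nat_lit 96) (nat_lit 5) (nat_lit 101) (nat_lit 5) (nat_lit 97) (nat_lit 4) (nat_lit 467) (nat_lit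 345) (nat_lit 328))))) (XT.nd (nat_lit 156) (nat_lit 608) (nat_lit 0) (XT.nd (nat_lit 78) (nat_lit 76) (nat_lit 0) (XT.lf (nat_lit 0) (nat_lit 1016692599) (nat_lit 304) (nat_lit 5901849246) (nat_lit 380) (nat_lit 3837270469) (nat_lit 92) (nat_lit 5) (nat_lit 96) (nat_lit 5) (nat_lit 97) (nat_lit 4) (nat_lit 468) (nat_lit 345) (nat_lit 327)) (XT.lf (nat_lit 0) (nat_lit 150461855) (nat_lit 380) (nat_lit 2154375373) (nat_lit 76) (nat_lit 8568416610) (nat_lit 91) (nat_lit 5) (nat_lit 96) (nat_lit 5) (nat_lit 92) (nat_lit 5) (nat_lit 469) (nat_lit 345) (nat_lit 326))) (XT.nd (nat_lit 78) (nat_lit 304) (nat_lit 0) (XT.lf (nat_lit 0) (nat_lit 4156333109) (nat_lit 380) (nat_lit 5460871210) (nat_lit 76) (nat_lit 1375552131) (nat_lit 87) (nat_lit 5) (nat_lit 92) (nat_lit 5) (nat_lit 88) (nat_lit 4) (nat_lit 470) (nat_lit 345) (nat_lit 325)) (XT.nd (nat_lit 78) (nat_lit 76) (nat_lit 0) (XT.lf (nat_lit 0) (nat_lit 2211838096)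 (nat_lit 228) (nat_lit 6019654356) (nat_lit 304) (nat_lit 2883387812) (nat_lit 84) (nat_lit 5) (nat_lit 87) (nat_lit 5) (nat_lit 88) (nat_lit 4) (nat_lit 471) (nat_lit 345) (nat_lit 324)) (XT.lf (nat_lit 0) (nat_lit 1115656869) (nat_lit 304) (nat_lit 1223075425) (nat_lit 76) (nat_lit 8900938814) (nat_lit 83) (nat_lit 5) (nat_lit 87) (nat_lit 5) (nat_lit 84) (nat_lit 5) (nat_lit 472) (nat_lit 345) (nat_lit 323))))))) (XT.nd (nat_lit 780) (nat_lit 1596) (nat_lit 0) (XT.nd (nat_lit 390) (nat_lit 836) (nat_lit 0) (XT.nd (nat_lit 156) (nat_lit 608) (nat_lit 0) (XT.nd (nat_lit 78) (nat_lit 228) (nat_lit 0) (XT.lf (nat_lit 0) (nat_lit 5154491304) (nat_lit 380) (nat_lit 4785307739) (nat_lit 76) (nat_lit 1426822916) (nat_lit 79) (nat_lit 5) (nat_lit 84) (nat_lit 5) (nat_lit 80) (nat_lit 4) (nat_lit 473) (nat_lit 345) (nat_lit 322)) (XT.lf (nat_lit 0) (nat_lit 2998972604) (nat_lit 228) (nat_lit 6264832527) (nat_lit 304)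 (nat_lit 2232526094) (nat_lit 76) (nat_lit 5) (nat_lit 79) (nat_lit 5) (nat_lit 80) (nat_lit 4) (nat_lit 474) (nat_lit 345) (nat_lit 321))) (XT.nd (nat_lit 78) (nat_lit 532) (nat_lit 0) (XT.lf (nat_lit 0) (nat_lit 1781641769) (nat_lit 304) (nat_lit 723648892) (nat_lit 76) (nat_lit 9123541182) (nat_lit 75) (nat_lit 5) (nat_lit 79) (nat_lit 5) (nat_lit 76) (nat_lit 5) (nat_lit 475) (nat_lit 345) (nat_lit 320)) (XT.nd (nat_lit 78) (nat_lit 228) (nat_lit 0) (XT.lf (nat_lit 0) (nat_lit 5849444763) (nat_lit 380) (nat_lit 4573136479) (nat_lit 76) (nat_lit 1341053862) (nat_lit 71) (nat_lit 5) (nat_lit 76) (nat_lit 5) (nat_lit 72) (nat_lit 4) (nat_lit 476) (nat_lit 345) (nat_lit 319)) (XT.lf (nat_lit 0) (nat_lit 3312577100) (nat_lit 228) (nat_lit 6676922500) (nat_lit 304) (nat_lit 1911829343) (nat_lit 68) (nat_lit 5) (nat_lit 71) (nat_lit 5) (nat_lit 72) (nat_lit 4) (nat_lit 477) (nat_lit 345) (nat_lit 318))))) (XT.nd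 (nat_lit 156) (nat_lit 532) (nat_lit 0) (XT.nd (nat_lit 78) (nat_lit 228) (nat_lit 0) (XT.lf (nat_lit 0) (nat_lit 2121024656) (nat_lit 304) (nat_lit 723546715) (nat_lit 76) (nat_lit 9197357111) (nat_lit 67) (nat_lit 5) (nat_lit 71) (nat_lit 5) (nat_lit 68) (nat_lit 5) (nat_lit 478) (nat_lit 345) (nat_lit 317)) (XT.lf (nat_lit 0) (nat_lit 6212473847) (nat_lit 304) (nat_lit 4894645496) (nat_lit 76) (nat_lit 1077908887) (nat_lit 64) (nat_lit 5) (nat_lit 68) (nat_lit 5) (nat_lit 65) (nat_lit 4) (nat_lit 479) (nat_lit 345) (nat_lit 316))) (XT.nd (nat_lit 78) (nat_lit 304) (nat_lit 0) (XT.lf (nat_lit 0) (nat_lit 3080390506) (nat_lit 228) (nat_lit 7298366730) (nat_lit 304) (nat_lit 1952384114) (nat_lit 61) (nat_lit 5) (nat_lit 64) (nat_lit 5) (nat_lit 65) (nat_lit 4) (nat_lit 480) (nat_lit 345) (nat_lit 315)) (XT.nd (nat_lit 78) (nat_lit 228) (nat_lit 0) (XT.lf (nat_lit 0) (nat_lit 2102462885) (nat_lit 304) (nat_lit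 1297180966) (nat_lit 76) (nat_lit 9080616024) (nat_lit 60) (nat_lit 5) (nat_lit 64) (nat_lit 5) (nat_lit 61) (nat_lit 5) (nat_lit 481) (nat_lit 345) (nat_lit 314)) (XT.lf (nat_lit 0) (nat_lit 6210779664) (nat_lit 304) (nat_lit 5827410137) (nat_lit 76) (nat_lit 593953379) (nat_lit 57) (nat_lit 5) (nat_lit 61) (nat_lit 5) (nat_lit 58) (nat_lit 4) (nat_lit 482) (nat_lit 345) (nat_lit 313)))))) (XT.nd (nat_lit 390) (nat_lit 836) (nat_lit 0) (XT.nd (nat_lit 156) (nat_lit 456) (nat_lit 0) (XT.nd (nat_lit 78) (nat_lit 76) (nat_lit 0) (XT.lf (nat_lit 0) (nat_lit 2222616813) (nat_lit 228) (nat_lit 8174950058) (nat_lit 304) (nat_lit 2389581805) (nat_lit 54) (nat_lit 5) (nat_lit 57) (nat_lit 5) (nat_lit 58) (nat_lit 4) (nat_lit 483) (nat_lit 345) (nat_lit 312)) (XT.lf (nat_lit 0) (nat_lit 1690297549) (nat_lit 304) (nat_lit 2526738000) (nat_lit 76) (nat_lit 8728204068) (nat_lit 53) (nat_lit 5) (nat_lit 57) (nat_lit 5) (nat_lit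 54) (nat_lit 5) (nat_lit 484) (nat_lit 345) (nat_lit 311))) (XT.nd (nat_lit 78) (nat_lit 228) (nat_lit 0) (XT.lf (nat_lit 0) (nat_lit 5648243412) (nat_lit 228) (nat_lit 159896774) (nat_lit 304) (nat_lit 7298279040) (nat_lit 50) (nat_lit 5) (nat_lit 53) (nat_lit 5) (nat_lit 54) (nat_lit 5) (nat_lit 485) (nat_lit 345) (nat_lit 310)) (XT.nd (nat_lit 78) (nat_lit 76) (nat_lit 0) (XT.lf (nat_lit 0) (nat_lit 651053525) (nat_lit 152) (nat_lit 9356275195) (nat_lit 228) (nat_lit 3263523726) (nat_lit 48) (nat_lit 5) (nat_lit 50) (nat_lit 5) (nat_lit 51) (nat_lit 4) (nat_lit 486) (nat_lit 345) (nat_lit 309)) (XT.lf (nat_lit 0) (nat_lit 844145014) (nat_lit 228) (nat_lit 4503072553) (nat_lit 76) (nat_lit 8091187728) (nat_lit 47) (nat_lit 5) (nat_lit 50) (nat_lit 5) (nat_lit 48) (nat_lit 5) (nat_lit 487) (nat_lit 345) (nat_lit 308))))) (XT.nd (nat_lit 234) (nat_lit 456) (nat_lit 0) (XT.nd (nat_lit 78) (nat_lit 152) (nat_lit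 0) (XT.lf (nat_lit 0) (nat_lit 3722667152) (nat_lit 228) (nat_lit 1244707209) (nat_lit 304) (nat_lit 8641970519) (nat_lit 44) (nat_lit 5) (nat_lit 47) (nat_lit 5) (nat_lit 48) (nat_lit 5) (nat_lit 488) (nat_lit 345) (nat_lit 307)) (XT.nd (nat_lit 78) (nat_lit 152) (nat_lit 0) (XT.lf (nat_lit 0) (nat_lit 9175656813) (nat_lit 304) (nat_lit 1709153451) (nat_lit 76) (nat_lit 2898850277) (nat_lit 44) (nat_lit 5) (nat_lit 48) (nat_lit 5) (nat_lit 45) (nat_lit 4) (nat_lit 489) (nat_lit 345) (nat_lit 306)) (XT.lf (nat_lit 0) (nat_lit 6631505585) (nat_lit 152) (nat_lit 6841901428) (nat_lit 228) (nat_lit 487958335) (nat_lit 42) (nat_lit 5) (nat_lit 44) (nat_lit 5) (nat_lit 45) (nat_lit 4) (nat_lit 490) (nat_lit 345) (nat_lit 305)))) (XT.nd (nat_lit 78) (nat_lit 152) (nat_lit 0) (XT.lf (nat_lit 0) (nat_lit 928491357) (nat_lit 228) (nat_lit 2708937765) (nat_lit 304) (nat_lit 10505288178) (nat_lit 38) (nat_lit 5) (nat_lit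 41) (nat_lit 5) (nat_lit 42) (nat_lit 5) (nat_lit 491) (nat_lit 345) (nat_lit 304)) (XT.nd (nat_lit 78) (nat_lit 152) (nat_lit 0) (XT.lf (nat_lit 0) (nat_lit 7852349385) (nat_lit 304) (nat_lit 4968110615) (nat_lit 76) (nat_lit 1506908968) (nat_lit 38) (nat_lit 5) (nat_lit 42) (nat_lit 5) (nat_lit 39) (nat_lit 4) (nat_lit 492) (nat_lit 345) (nat_lit 303)) (XT.lf (nat_lit 0) (nat_lit 3391599753) (nat_lit 152) (nat_lit 8755083066) (nat_lit 228) (nat_lit 2369136757) (nat_lit 36) (nat_lit 5) (nat_lit 38) (nat_lit 5) (nat_lit 39) (nat_lit 4) (nat_lit 493) (nat_lit 345) (nat_lit 302))))))))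
noncomputable def xc21 : XT := (XT.nd (nat_lit 56316) (nat_lit 0) (nat_lit 4332) (XT.nd (nat_lit 780) (nat_lit 380) (nat_lit 0) (XT.nd (nat_lit 390) (nat_lit 380) (nat_lit 0) (XT.nd (nat_lit 156) (nat_lit 380) (nat_lit 0) (XT.nd (nat_lit 78) (nat_lit 152) (nat_lit 0) (XT.lf (nat_lit 0) (nat_lit 1783797339) (nat_lit 228) (nat_lit 2811513393) (nat_lit 76) (nat_lit 10112724393) (nat_lit 35) (nat_lit 5) (nat_lit 38) (nat_lit 5) (nat_lit 36) (nat_lit 5) (nat_lit 494) (nat_lit 345) (nat_lit 301)) (XT.lf (nat_lit 0) (nat_lit 5649419998) (nat_lit 152) (nat_lit 331463594) (nat_lit 228) (nat_lit 8923049596) (nat_lit 33) (nat_lit 5) (nat_lit 35) (nat_lit 5) (nat_lit 36) (nat_lit 5) (nat_lit 495) (nat_lit 345) (nat_lit 300))) (XT.nd (nat_lit 78) (nat_lit 380) (nat_lit 0) (XT.lf (nat_lit 0) (nat_lit 10263252648) (nat_lit 228) (nat_lit 888494832) (nat_lit 76) (nat_lit 3951982486) (nat_lit 33) (nat_lit 5) (nat_lit 36) (nat_lit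 5) (nat_lit 34) (nat_lit 4) (nat_lit 496) (nat_lit 345) (nat_lit 299)) (XT.nd (nat_lit 78) (nat_lit 228) (nat_lit 0) (XT.lf (nat_lit 0) (nat_lit 7668123914) (nat_lit 152) (nat_lit 6972248488) (nat_lit 228) (nat_lit 666975639) (nat_lit 31) (nat_lit 5) (nat_lit 33) (nat_lit 5) (nat_lit 34) (nat_lit 4) (nat_lit 497) (nat_lit 345) (nat_lit 298)) (XT.lf (nat_lit 0) (nat_lit 805033913) (nat_lit 152) (nat_lit 2706296544) (nat_lit 228) (nat_lit 12003880630) (nat_lit 28) (nat_lit 5) (nat_lit 30) (nat_lit 5) (nat_lit 31) (nat_lit 5) (nat_lit 498) (nat_lit 345) (nat_lit 297))))) (XT.nd (nat_lit 156) (nat_lit 228) (nat_lit 0) (XT.nd (nat_lit 78) (nat_lit 152) (nat_lit 0) (XT.lf (nat_lit 0) (nat_lit 7783897774) (nat_lit 228) (nat_lit 6295242168) (nat_lit 76) (nat_lit 1647617757) (nat_lit 28) (nat_lit 5) (nat_lit 31) (nat_lit 5) (nat_lit 29) (nat_lit 4) (nat_lit 499) (nat_lit 345) (nat_lit 296)) (XT.lf (nat_lit 0) (nat_lit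 2225404612) (nat_lit 152) (nat_lit 9907054280) (nat_lit 228) (nat_lit 3810272365) (nat_lit 26) (nat_lit 5) (nat_lit 28) (nat_lit 5) (nat_lit 29) (nat_lit 4) (nat_lit 500) (nat_lit 345) (nat_lit 295))) (XT.nd (nat_lit 78) (nat_lit 152) (nat_lit 0) (XT.lf (nat_lit 0) (nat_lit 400413507) (nat_lit 228) (nat_lit 5237217284) (nat_lit 76) (nat_lit 10525332348) (nat_lit 25) (nat_lit 5) (nat_lit 28) (nat_lit 5) (nat_lit 26) (nat_lit 5) (nat_lit 501) (nat_lit 345) (nat_lit 294)) (XT.nd (nat_lit 78) (nat_lit 0) (nat_lit 0) (XT.lf (nat_lit 0) (nat_lit 3358835145) (nat_lit 152) (nat_lit 1266366454) (nat_lit 228) (nat_lit 11762282646) (nat_lit 23) (nat_lit 5) (nat_lit 25) (nat_lit 5) (nat_lit 26) (nat_lit 5) (nat_lit 502) (nat_lit 345) (nat_lit 293)) (XT.lf (nat_lit 0) (nat_lit 8949773556) (nat_lit 228) (nat_lit 4511567042) (nat_lit 76) (nat_lit 3154855752) (nat_lit 23) (nat_lit 5) (nat_lit 26) (nat_lit 5) (nat_lit 24) (nat_lit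 4) (nat_lit 503) (nat_lit 345) (nat_lit 292)))))) (XT.nd (nat_lit 55068) (nat_lit 0) (nat_lit 9956) (XT.nd (nat_lit 156) (nat_lit 152) (nat_lit 0) (XT.nd (nat_lit 78) (nat_lit 76) (nat_lit 0) (XT.lf (nat_lit 0) (nat_lit 4150716125) (nat_lit 152) (nat_lit 9205441065) (nat_lit 228) (nat_lit 3493425318) (nat_lit 21) (nat_lit 5) (nat_lit 23) (nat_lit 5) (nat_lit 24) (nat_lit 4) (nat_lit 504) (nat_lit 345) (nat_lit 291)) (XT.lf (nat_lit 0) (nat_lit 743541369) (nat_lit 228) (nat_lit 4116045091) (nat_lit 76) (nat_lit 12228146487) (nat_lit 20) (nat_lit 5) (nat_lit 23) (nat_lit 5) (nat_lit 21) (nat_lit 5) (nat_lit 505) (nat_lit 345) (nat_lit 290))) (XT.nd (nat_lit 78) (nat_lit 0) (nat_lit 0) (XT.lf (nat_lit 0) (nat_lit 4605841018) (nat_lit 152) (nat_lit 403401896) (nat_lit 228) (nat_lit 12321132059) (nat_lit 18) (nat_lit 5) (nat_lit 20) (nat_lit 5) (nat_lit 21) (nat_lit 5) (nat_lit 506) (nat_lit 345) (nat_lit 289)) (XT.nd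 (nat_lit 54756) (nat_lit 0) (nat_lit 12008) (XT.lf (nat_lit 0) (nat_lit 9375898043) (nat_lit 228) (nat_lit 4116421149) (nat_lit 76) (nat_lit 4085243596) (nat_lit 18) (nat_lit 5) (nat_lit 21) (nat_lit 5) (nat_lit 19) (nat_lit 4) (nat_lit 507) (nat_lit 345) (nat_lit 288)) (XT.lf (nat_lit 0) (nat_lit 749961205) (nat_lit 532) (nat_lit 1840068512) (nat_lit 532) (nat_lit 1840068512) (nat_lit 176) (nat_lit 4) (nat_lit 183) (nat_lit 5) (nat_lit 183) (nat_lit 4) (nat_lit 448) (nat_lit 346) (nat_lit 346))))) (XT.nd (nat_lit 234) (nat_lit 1064) (nat_lit 0) (XT.nd (nat_lit 78) (nat_lit 912) (nat_lit 0) (XT.lf (nat_lit 0) (nat_lit 231824171) (nat_lit 608) (nat_lit 524612257) (nat_lit 76) (nat_lit 8180920893) (nat_lit 175) (nat_lit 5) (nat_lit 183) (nat_lit 5) (nat_lit 176) (nat_lit 4) (nat_lit 449) (nat_lit 346) (nat_lit 345)) (XT.nd (nat_lit 78) (nat_lit 456) (nat_lit 0) (XT.lf (nat_lit 0) (nat_lit 4164866520) (nat_lit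 532) (nat_lit 2613795009) (nat_lit 0) (nat_lit 2237096328) (nat_lit 169) (nat_lit 5) (nat_lit 176) (nat_lit 4) (nat_lit 169) (nat_lit 4) (nat_lit 450) (nat_lit 346) (nat_lit 344)) (XT.lf (nat_lit 0) (nat_lit 4339296181) (nat_lit 456) (nat_lit 3810197940) (nat_lit 456) (nat_lit 946798651) (nat_lit 163) (nat_lit 4) (nat_lit 169) (nat_lit 5) (nat_lit 169) (nat_lit 4) (nat_lit 451) (nat_lit 346) (nat_lit 343)))) (XT.nd (nat_lit 78) (nat_lit 532) (nat_lit 0) (XT.lf (nat_lit 0) (nat_lit 2206531688) (nat_lit 456) (nat_lit 757435839) (nat_lit 532) (nat_lit 6214732573) (nat_lit 156) (nat_lit 5) (nat_lit 162) (nat_lit 5) (nat_lit 163) (nat_lit 4) (nat_lit 452) (nat_lit 346) (nat_lit 342)) (XT.nd (nat_lit 78) (nat_lit 532) (nat_lit 0) (XT.lf (nat_lit 0) (nat_lit 6924611064) (nat_lit 532) (nat_lit 1960790) (nat_lit 0) (nat_lit 2336395184) (nat_lit 156) (nat_lit 5) (nat_lit 163) (nat_lit 4) (nat_lit 156) (nat_lit 4) (nat_lit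 453) (nat_lit 346) (nat_lit 341)) (XT.lf (nat_lit 0) (nat_lit 1583550339) (nat_lit 532) (nat_lit 2253820856) (nat_lit 76) (nat_lit 5511577038) (nat_lit 149) (nat_lit 5) (nat_lit 156) (nat_lit 5) (nat_lit 150) (nat_lit 4) (nat_lit 454) (nat_lit 346) (nat_lit 340))))))) (XT.nd (nat_lit 780) (nat_lit 2280) (nat_lit 0) (XT.nd (nat_lit 390) (nat_lit 1596) (nat_lit 0) (XT.nd (nat_lit 156) (nat_lit 836) (nat_lit 0) (XT.nd (nat_lit 78) (nat_lit 532) (nat_lit 0) (XT.lf (nat_lit 0) (nat_lit 4855405520) (nat_lit 380) (nat_lit 667082678) (nat_lit 456) (nat_lit 3914475716) (nat_lit 144) (nat_lit 5) (nat_lit 149) (nat_lit 5) (nat_lit 150) (nat_lit 4) (nat_lit 455) (nat_lit 346) (nat_lit 339)) (XT.lf (nat_lit 0) (nat_lit 317190) (nat_lit 532) (nat_lit 6990371535) (nat_lit 76) (nat_lit 2536330072) (nat_lit 137) (nat_lit 5) (nat_lit 144) (nat_lit 5) (nat_lit 138) (nat_lit 4) (nat_lit 456) (nat_lit 346) (nat_lit 338))) (XT.nd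 (nat_lit 78) (nat_lit 456) (nat_lit 0) (XT.lf (nat_lit 0) (nat_lit 121084732) (nat_lit 380) (nat_lit 3795077355) (nat_lit 456) (nat_lit 5702712575) (nat_lit 132) (nat_lit 5) (nat_lit 137) (nat_lit 5) (nat_lit 138) (nat_lit 4) (nat_lit 457) (nat_lit 346) (nat_lit 337)) (XT.nd (nat_lit 78) (nat_lit 456) (nat_lit 0) (XT.lf (nat_lit 0) (nat_lit 7379105624) (nat_lit 380) (nat_lit 517706693) (nat_lit 456) (nat_lit 1816045948) (nat_lit 132) (nat_lit 5) (nat_lit 137) (nat_lit 5) (nat_lit 138) (nat_lit 4) (nat_lit 458) (nat_lit 346) (nat_lit 336)) (XT.lf (nat_lit 0) (nat_lit 2111024676) (nat_lit 456) (nat_lit 4892589956) (nat_lit 76) (nat_lit 2805030605) (nat_lit 126) (nat_lit 5) (nat_lit 132) (nat_lit 5) (nat_lit 127) (nat_lit 4) (nat_lit 459) (nat_lit 346) (nat_lit 335))))) (XT.nd (nat_lit 156) (nat_lit 1140) (nat_lit 0) (XT.nd (nat_lit 78) (nat_lit 76) (nat_lit 0) (XT.lf (nat_lit 0) (nat_lit 2361999948) (nat_lit 380)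 (nat_lit 3705622283) (nat_lit 456) (nat_lit 3838998800) (nat_lit 121) (nat_lit 5) (nat_lit 126) (nat_lit 5) (nat_lit 127) (nat_lit 4) (nat_lit 460) (nat_lit 346) (nat_lit 334)) (XT.lf (nat_lit 0) (nat_lit 69501139) (nat_lit 456) (nat_lit 268834167) (nat_lit 76) (nat_lit 9668747432) (nat_lit 120) (nat_lit 5) (nat_lit 126) (nat_lit 5) (nat_lit 121) (nat_lit 5) (nat_lit 461) (nat_lit 346) (nat_lit 333))) (XT.nd (nat_lit 78) (nat_lit 760) (nat_lit 0) (XT.lf (nat_lit 0) (nat_lit 4013587397) (nat_lit 456) (nat_lit 2997414837) (nat_lit 76) (nat_lit 3097885622) (nat_lit 115) (nat_lit 5) (nat_lit 121) (nat_lit 5) (nat_lit 116) (nat_lit 4) (nat_lit 462) (nat_lit 346) (nat_lit 332)) (XT.nd (nat_lit 78) (nat_lit 456) (nat_lit 0) (XT.lf (nat_lit 0) (nat_lit 4397042474) (nat_lit 304) (nat_lit 3614570869) (nat_lit 380) (nat_lit 2201632328) (nat_lit 111) (nat_lit 5) (nat_lit 115) (nat_lit 5) (nat_lit 116) (nat_lit 4) (nat_lit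 463) (nat_lit 346) (nat_lit 331)) (XT.lf (nat_lit 0) (nat_lit 1580934445) (nat_lit 380) (nat_lit 138888404) (nat_lit 456) (nat_lit 8600192497) (nat_lit 105) (nat_lit 5) (nat_lit 110) (nat_lit 5) (nat_lit 111) (nat_lit 5) (nat_lit 464) (nat_lit 346) (nat_lit 330)))))) (XT.nd (nat_lit 390) (nat_lit 1216) (nat_lit 0) (XT.nd (nat_lit 156) (nat_lit 760) (nat_lit 0) (XT.nd (nat_lit 78) (nat_lit 304) (nat_lit 0) (XT.lf (nat_lit 0) (nat_lit 5694620875) (nat_lit 456) (nat_lit 1349510182) (nat_lit 76) (nat_lit 3384427159) (nat_lit 105) (nat_lit 5) (nat_lit 111) (nat_lit 5) (nat_lit 106) (nat_lit 4) (nat_lit 465) (nat_lit 346) (nat_lit 329)) (XT.lf (nat_lit 0) (nat_lit 6180470003) (nat_lit 304) (nat_lit 3553572529) (nat_lit 380) (nat_lit 805543258) (nat_lit 101) (nat_lit 5) (nat_lit 105) (nat_lit 5) (nat_lit 106) (nat_lit 4) (nat_lit 466) (nat_lit 346) (nat_lit 328))) (XT.nd (nat_lit 78) (nat_lit 380) (nat_lit 0) (XT.lf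 (nat_lit 0) (nat_lit 3133461678) (nat_lit 380) (nat_lit 7493546001) (nat_lit 76) (nat_lit 25945679) (nat_lit 96) (nat_lit 5) (nat_lit 101) (nat_lit 5) (nat_lit 97) (nat_lit 4) (nat_lit 467) (nat_lit 346) (nat_lit 327)) (XT.nd (nat_lit 78) (nat_lit 76) (nat_lit 0) (XT.lf (nat_lit 0) (nat_lit 2317448) (nat_lit 304) (nat_lit 7135697783) (nat_lit 380) (nat_lit 3630530913) (nat_lit 92) (nat_lit 5) (nat_lit 96) (nat_lit 5) (nat_lit 97) (nat_lit 4) (nat_lit 468) (nat_lit 346) (nat_lit 326)) (XT.lf (nat_lit 0) (nat_lit 327109302) (nat_lit 380) (nat_lit 3226494109) (nat_lit 76) (nat_lit 7332912377) (nat_lit 91) (nat_lit 5) (nat_lit 96) (nat_lit 5) (nat_lit 92) (nat_lit 5) (nat_lit 469) (nat_lit 346) (nat_lit 325))))) (XT.nd (nat_lit 234) (nat_lit 608) (nat_lit 0) (XT.nd (nat_lit 78) (nat_lit 304) (nat_lit 0) (XT.lf (nat_lit 0) (nat_lit 4290541617) (nat_lit 380) (nat_lit 6596310690) (nat_lit 76) (nat_lit 120022081) (nat_lit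 87) (nat_lit 5) (nat_lit 92) (nat_lit 5) (nat_lit 88) (nat_lit 4) (nat_lit 470) (nat_lit 346) (nat_lit 324)) (XT.nd (nat_lit 78) (nat_lit 76) (nat_lit 0) (XT.lf (nat_lit 0) (nat_lit 1017773179) (nat_lit 228) (nat_lit 7313478064) (nat_lit 304) (nat_lit 2798443021) (nat_lit 84) (nat_lit 5) (nat_lit 87) (nat_lit 5) (nat_lit 88) (nat_lit 4) (nat_lit 471) (nat_lit 346) (nat_lit 323)) (XT.lf (nat_lit 0) (nat_lit 1172854879) (nat_lit 304) (nat_lit 2475548983) (nat_lit 76) (nat_lit 7606609662) (nat_lit 83) (nat_lit 5) (nat_lit 87) (nat_lit 5) (nat_lit 84) (nat_lit 5) (nat_lit 472) (nat_lit 346) (nat_lit 322)))) (XT.nd (nat_lit 78) (nat_lit 304) (nat_lit 0) (XT.lf (nat_lit 0) (nat_lit 5168397104) (nat_lit 380) (nat_lit 6104563473) (nat_lit 76) (nat_lit 109876303) (nat_lit 79) (nat_lit 5) (nat_lit 84) (nat_lit 5) (nat_lit 80) (nat_lit 4) (nat_lit 473) (nat_lit 346) (nat_lit 321)) (XT.nd (nat_lit 78) (nat_lit 76) (nat_lit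 0) (XT.lf (nat_lit 0) (nat_lit 1619280717) (nat_lit 228) (nat_lit 7623497411) (nat_lit 304) (nat_lit 2270473204) (nat_lit 76) (nat_lit 5) (nat_lit 79) (nat_lit 5) (nat_lit 80) (nat_lit 4) (nat_lit 474) (nat_lit 346) (nat_lit 320)) (XT.lf (nat_lit 0) (nat_lit 1718276855) (nat_lit 304) (nat_lit 2162427872) (nat_lit 76) (nat_lit 7765576736) (nat_lit 75) (nat_lit 5) (nat_lit 79) (nat_lit 5) (nat_lit 76) (nat_lit 5) (nat_lit 475) (nat_lit 346) (nat_lit 319))))))))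
noncomputable def xc22 : XT := (XT.nd (nat_lit 1638) (nat_lit 1140) (nat_lit 0) (XT.nd (nat_lit 780) (nat_lit 1292) (nat_lit 0) (XT.nd (nat_lit 390) (nat_lit 836) (nat_lit 0) (XT.nd (nat_lit 156) (nat_lit 532) (nat_lit 0) (XT.nd (nat_lit 78) (nat_lit 228) (nat_lit 0) (XT.lf (nat_lit 0) (nat_lit 5699463878) (nat_lit 304) (nat_lit 42646691) (nat_lit 380) (nat_lit 6039859693) (nat_lit 71) (nat_lit 5) (nat_lit 75) (nat_lit 5) (nat_lit 76) (nat_lit 5) (nat_lit 476) (nat_lit 346) (nat_lit 318)) (XT.lf (nat_lit 0) (nat_lit 1741161676) (nat_lit 228) (nat_lit 8105242079) (nat_lit 304) (nat_lit 2073981611) (nat_lit 68) (nat_lit 5) (nat_lit 71) (nat_lit 5) (nat_lit 72) (nat_lit 4) (nat_lit 477) (nat_lit 346) (nat_lit 317))) (XT.nd (nat_lit 78) (nat_lit 456) (nat_lit 0) (XT.lf (nat_lit 0) (nat_lit 1935771870) (nat_lit 304) (nat_lit 2354745401) (nat_lit 76) (nat_lit 7770999032) (nat_lit 67) (nat_lit 5) (nat_lit 71) (nat_lit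 5) (nat_lit 68) (nat_lit 5) (nat_lit 478) (nat_lit 346) (nat_lit 316)) (XT.nd (nat_lit 78) (nat_lit 228) (nat_lit 0) (XT.lf (nat_lit 0) (nat_lit 5603234839) (nat_lit 228) (nat_lit 381161144) (nat_lit 304) (nat_lit 6221082253) (nat_lit 64) (nat_lit 5) (nat_lit 67) (nat_lit 5) (nat_lit 68) (nat_lit 5) (nat_lit 479) (nat_lit 346) (nat_lit 315)) (XT.lf (nat_lit 0) (nat_lit 1310979495) (nat_lit 228) (nat_lit 8801120123) (nat_lit 304) (nat_lit 2240268905) (nat_lit 61) (nat_lit 5) (nat_lit 64) (nat_lit 5) (nat_lit 65) (nat_lit 4) (nat_lit 480) (nat_lit 346) (nat_lit 314))))) (XT.nd (nat_lit 156) (nat_lit 532) (nat_lit 0) (XT.nd (nat_lit 78) (nat_lit 228) (nat_lit 0) (XT.lf (nat_lit 0) (nat_lit 1793787675) (nat_lit 304) (nat_lit 3127093279) (nat_lit 76) (nat_lit 7581140155) (nat_lit 60) (nat_lit 5) (nat_lit 64) (nat_lit 5) (nat_lit 61) (nat_lit 5) (nat_lit 481) (nat_lit 346) (nat_lit 313)) (XT.lf (nat_lit 0) (nat_lit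 4913615309) (nat_lit 228) (nat_lit 948192896) (nat_lit 304) (nat_lit 6792907385) (nat_lit 57) (nat_lit 5) (nat_lit 60) (nat_lit 5) (nat_lit 61) (nat_lit 5) (nat_lit 482) (nat_lit 346) (nat_lit 312))) (XT.nd (nat_lit 78) (nat_lit 304) (nat_lit 0) (XT.lf (nat_lit 0) (nat_lit 248746717) (nat_lit 228) (nat_lit 9756899234) (nat_lit 304) (nat_lit 2804939274) (nat_lit 54) (nat_lit 5) (nat_lit 57) (nat_lit 5) (nat_lit 58) (nat_lit 4) (nat_lit 483) (nat_lit 346) (nat_lit 311)) (XT.nd (nat_lit 78) (nat_lit 228) (nat_lit 0) (XT.lf (nat_lit 0) (nat_lit 1256456946) (nat_lit 304) (nat_lit 4561853320) (nat_lit 76) (nat_lit 7150903397) (nat_lit 53) (nat_lit 5) (nat_lit 57) (nat_lit 5) (nat_lit 54) (nat_lit 5) (nat_lit 484) (nat_lit 346) (nat_lit 310)) (XT.lf (nat_lit 0) (nat_lit 3545843513) (nat_lit 228) (nat_lit 1791344501) (nat_lit 304) (nat_lit 7793952340) (nat_lit 50) (nat_lit 5) (nat_lit 53) (nat_lit 5) (nat_lit 54) (nat_lit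 5) (nat_lit 485) (nat_lit 346) (nat_lit 309)))))) (XT.nd (nat_lit 390) (nat_lit 684) (nat_lit 0) (XT.nd (nat_lit 156) (nat_lit 380) (nat_lit 0) (XT.nd (nat_lit 78) (nat_lit 228) (nat_lit 0) (XT.lf (nat_lit 0) (nat_lit 9498194402) (nat_lit 304) (nat_lit 1513828488) (nat_lit 76) (nat_lit 2284319084) (nat_lit 50) (nat_lit 5) (nat_lit 54) (nat_lit 5) (nat_lit 51) (nat_lit 4) (nat_lit 486) (nat_lit 346) (nat_lit 308)) (XT.lf (nat_lit 0) (nat_lit 283188166) (nat_lit 228) (nat_lit 6750091454) (nat_lit 76) (nat_lit 6431356090) (nat_lit 47) (nat_lit 5) (nat_lit 50) (nat_lit 5) (nat_lit 48) (nat_lit 5) (nat_lit 487) (nat_lit 346) (nat_lit 307))) (XT.nd (nat_lit 78) (nat_lit 152) (nat_lit 0) (XT.lf (nat_lit 0) (nat_lit 1406181561) (nat_lit 228) (nat_lit 2962333699) (nat_lit 304) (nat_lit 9267822563) (nat_lit 44) (nat_lit 5) (nat_lit 47) (nat_lit 5) (nat_lit 48) (nat_lit 5) (nat_lit 488) (nat_lit 346) (nat_lit 306)) (XT.nd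 (nat_lit 78) (nat_lit 152) (nat_lit 0) (XT.lf (nat_lit 0) (nat_lit 8542874887) (nat_lit 304) (nat_lit 4080661213) (nat_lit 76) (nat_lit 1187800235) (nat_lit 44) (nat_lit 5) (nat_lit 48) (nat_lit 5) (nat_lit 45) (nat_lit 4) (nat_lit 489) (nat_lit 346) (nat_lit 305)) (XT.lf (nat_lit 0) (nat_lit 4189558306) (nat_lit 152) (nat_lit 8612887673) (nat_lit 228) (nat_lit 1187363053) (nat_lit 42) (nat_lit 5) (nat_lit 44) (nat_lit 5) (nat_lit 45) (nat_lit 4) (nat_lit 490) (nat_lit 346) (nat_lit 304))))) (XT.nd (nat_lit 234) (nat_lit 228) (nat_lit 0) (XT.nd (nat_lit 78) (nat_lit 380) (nat_lit 0) (XT.lf (nat_lit 0) (nat_lit 2918883692) (nat_lit 228) (nat_lit 1587996458) (nat_lit 76) (nat_lit 9664942064) (nat_lit 41) (nat_lit 5) (nat_lit 44) (nat_lit 5) (nat_lit 42) (nat_lit 5) (nat_lit 491) (nat_lit 346) (nat_lit 303)) (XT.nd (nat_lit 78) (nat_lit 152) (nat_lit 0) (XT.lf (nat_lit 0) (nat_lit 6793571561) (nat_lit 228) (nat_lit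 297774919) (nat_lit 304) (nat_lit 7265980612) (nat_lit 38) (nat_lit 5) (nat_lit 41) (nat_lit 5) (nat_lit 42) (nat_lit 5) (nat_lit 492) (nat_lit 346) (nat_lit 302)) (XT.lf (nat_lit 0) (nat_lit 725123868) (nat_lit 152) (nat_lit 10619544617) (nat_lit 228) (nat_lit 3201933423) (nat_lit 36) (nat_lit 5) (nat_lit 38) (nat_lit 5) (nat_lit 39) (nat_lit 4) (nat_lit 493) (nat_lit 346) (nat_lit 301)))) (XT.nd (nat_lit 78) (nat_lit 152) (nat_lit 0) (XT.lf (nat_lit 0) (nat_lit 940193634) (nat_lit 228) (nat_lit 5541201512) (nat_lit 76) (nat_lit 8257968864) (nat_lit 35) (nat_lit 5) (nat_lit 38) (nat_lit 5) (nat_lit 36) (nat_lit 5) (nat_lit 494) (nat_lit 346) (nat_lit 300)) (XT.nd (nat_lit 78) (nat_lit 0) (nat_lit 0) (XT.lf (nat_lit 0) (nat_lit 2845867719) (nat_lit 152) (nat_lit 2251906395) (nat_lit 228) (nat_lit 9838281824) (nat_lit 33) (nat_lit 5) (nat_lit 35) (nat_lit 5) (nat_lit 36) (nat_lit 5) (nat_lit 495) (nat_lit 346)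 (nat_lit 299)) (XT.lf (nat_lit 0) (nat_lit 9346447475) (nat_lit 228) (nat_lit 3748876162) (nat_lit 76) (nat_lit 2041206670) (nat_lit 33) (nat_lit 5) (nat_lit 36) (nat_lit 5) (nat_lit 34) (nat_lit 4) (nat_lit 496) (nat_lit 346) (nat_lit 298))))))) (XT.nd (nat_lit 780) (nat_lit 0) (nat_lit 0) (XT.nd (nat_lit 390) (nat_lit 608) (nat_lit 0) (XT.nd (nat_lit 156) (nat_lit 304) (nat_lit 0) (XT.nd (nat_lit 78) (nat_lit 76) (nat_lit 0) (XT.lf (nat_lit 0) (nat_lit 4732799104) (nat_lit 152) (nat_lit 8950899355) (nat_lit 228) (nat_lit 1657250903) (nat_lit 31) (nat_lit 5) (nat_lit 33) (nat_lit 5) (nat_lit 34) (nat_lit 4) (nat_lit 497) (nat_lit 346) (nat_lit 297)) (XT.lf (nat_lit 0) (nat_lit 2508038140) (nat_lit 228) (nat_lit 2204506838) (nat_lit 76) (nat_lit 10836919579) (nat_lit 30) (nat_lit 5) (nat_lit 33) (nat_lit 5) (nat_lit 31) (nat_lit 5) (nat_lit 498) (nat_lit 346) (nat_lit 296))) (XT.nd (nat_lit 78) (nat_lit 152)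 (nat_lit 0) (XT.lf (nat_lit 0) (nat_lit 6367488486) (nat_lit 152) (nat_lit 367168244) (nat_lit 228) (nat_lit 9027276811) (nat_lit 28) (nat_lit 5) (nat_lit 30) (nat_lit 5) (nat_lit 31) (nat_lit 5) (nat_lit 499) (nat_lit 346) (nat_lit 295)) (XT.nd (nat_lit 78) (nat_lit 152) (nat_lit 0) (XT.lf (nat_lit 0) (nat_lit 11046083826) (nat_lit 228) (nat_lit 936444004) (nat_lit 76) (nat_lit 3996125280) (nat_lit 28) (nat_lit 5) (nat_lit 31) (nat_lit 5) (nat_lit 29) (nat_lit 4) (nat_lit 500) (nat_lit 346) (nat_lit 294)) (XT.lf (nat_lit 0) (nat_lit 7718532139) (nat_lit 152) (nat_lit 7737548154) (nat_lit 228) (nat_lit 743386553) (nat_lit 26) (nat_lit 5) (nat_lit 28) (nat_lit 5) (nat_lit 29) (nat_lit 4) (nat_lit 501) (nat_lit 346) (nat_lit 293))))) (XT.nd (nat_lit 156) (nat_lit 380) (nat_lit 0) (XT.nd (nat_lit 78) (nat_lit 0) (nat_lit 0) (XT.lf (nat_lit 0) (nat_lit 41257347) (nat_lit 152) (nat_lit 3408480390) (nat_lit 228) (nat_lit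 12975178155) (nat_lit 23) (nat_lit 5) (nat_lit 25) (nat_lit 5) (nat_lit 26) (nat_lit 5) (nat_lit 502) (nat_lit 346) (nat_lit 292)) (XT.lf (nat_lit 0) (nat_lit 7740592018) (nat_lit 228) (nat_lit 7887911724) (nat_lit 76) (nat_lit 1025801686) (nat_lit 23) (nat_lit 5) (nat_lit 26) (nat_lit 5) (nat_lit 24) (nat_lit 4) (nat_lit 503) (nat_lit 346) (nat_lit 291))) (XT.nd (nat_lit 78) (nat_lit 228) (nat_lit 0) (XT.lf (nat_lit 0) (nat_lit 694490202) (nat_lit 152) (nat_lit 11410624111) (nat_lit 228) (nat_lit 4783417515) (nat_lit 21) (nat_lit 5) (nat_lit 23) (nat_lit 5) (nat_lit 24) (nat_lit 4) (nat_lit 504) (nat_lit 346) (nat_lit 290)) (XT.nd (nat_lit 78) (nat_lit 228) (nat_lit 0) (XT.lf (nat_lit 0) (nat_lit 9486126588) (nat_lit 152) (nat_lit 7084820682) (nat_lit 228) (nat_lit 556221055) (nat_lit 21) (nat_lit 5) (nat_lit 23) (nat_lit 5) (nat_lit 24) (nat_lit 4) (nat_lit 505) (nat_lit 346) (nat_lit 289)) (XT.lf (nat_lit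 0) (nat_lit 1003300376) (nat_lit 152) (nat_lit 2671071470) (nat_lit 228) (nat_lit 13696361644) (nat_lit 18) (nat_lit 5) (nat_lit 20) (nat_lit 5) (nat_lit 21) (nat_lit 5) (nat_lit 506) (nat_lit 346) (nat_lit 288)))))) (XT.nd (nat_lit 54912) (nat_lit 0) (nat_lit 9576) (XT.nd (nat_lit 54678) (nat_lit 0) (nat_lit 11932) (XT.nd (nat_lit 54600) (nat_lit 0) (nat_lit 13072) (XT.lf (nat_lit 0) (nat_lit 8007348121) (nat_lit 228) (nat_lit 7778565124) (nat_lit 76) (nat_lit 1832684424) (nat_lit 18) (nat_lit 5) (nat_lit 21) (nat_lit 5) (nat_lit 19) (nat_lit 4) (nat_lit 507) (nat_lit 346) (nat_lit 287)) (XT.lf (nat_lit 0) (nat_lit 2728151410) (nat_lit 532) (nat_lit 813707317) (nat_lit 532) (nat_lit 813707317) (nat_lit 190) (nat_lit 4) (nat_lit 197) (nat_lit 5) (nat_lit 197) (nat_lit 4) (nat_lit 446) (nat_lit 347) (nat_lit 347))) (XT.nd (nat_lit 78) (nat_lit 608) (nat_lit 0) (XT.lf (nat_lit 0) (nat_lit 2249856857) (nat_lit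 532) (nat_lit 5298165890) (nat_lit 0) (nat_lit 1237101832) (nat_lit 183) (nat_lit 5) (nat_lit 190) (nat_lit 4) (nat_lit 183) (nat_lit 4) (nat_lit 447) (nat_lit 347) (nat_lit 346)) (XT.nd (nat_lit 78) (nat_lit 76) (nat_lit 0) (XT.lf (nat_lit 0) (nat_lit 1454630438) (nat_lit 532) (nat_lit 4705938054) (nat_lit 532) (nat_lit 2700285946) (nat_lit 176) (nat_lit 4) (nat_lit 183) (nat_lit 5) (nat_lit 183) (nat_lit 4) (nat_lit 448) (nat_lit 347) (nat_lit 345)) (XT.lf (nat_lit 0) (nat_lit 1166988635) (nat_lit 608) (nat_lit 621763576) (nat_lit 76) (nat_lit 7149785115) (nat_lit 175) (nat_lit 5) (nat_lit 183) (nat_lit 5) (nat_lit 176) (nat_lit 4) (nat_lit 449) (nat_lit 347) (nat_lit 344))))) (XT.nd (nat_lit 234) (nat_lit 912) (nat_lit 0) (XT.nd (nat_lit 78) (nat_lit 988) (nat_lit 0) (XT.lf (nat_lit 0) (nat_lit 5061099756) (nat_lit 532) (nat_lit 2751825652) (nat_lit 0) (nat_lit 1204803384) (nat_lit 169) (nat_lit 5) (nat_lit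 176) (nat_lit 4) (nat_lit 169) (nat_lit 4) (nat_lit 450) (nat_lit 347) (nat_lit 343)) (XT.nd (nat_lit 78) (nat_lit 532) (nat_lit 0) (XT.lf (nat_lit 0) (nat_lit 4154625750) (nat_lit 456) (nat_lit 4858936561) (nat_lit 456) (nat_lit 85356760) (nat_lit 163) (nat_lit 4) (nat_lit 169) (nat_lit 5) (nat_lit 169) (nat_lit 4) (nat_lit 451) (nat_lit 347) (nat_lit 342)) (XT.lf (nat_lit 0) (nat_lit 1966140547) (nat_lit 456) (nat_lit 1815551446) (nat_lit 532) (nat_lit 5400182530) (nat_lit 156) (nat_lit 5) (nat_lit 162) (nat_lit 5) (nat_lit 163) (nat_lit 4) (nat_lit 452) (nat_lit 347) (nat_lit 341)))) (XT.nd (nat_lit 78) (nat_lit 912) (nat_lit 0) (XT.lf (nat_lit 0) (nat_lit 7704838124) (nat_lit 532) (nat_lit 283247582) (nat_lit 0) (nat_lit 1278817069) (nat_lit 156) (nat_lit 5) (nat_lit 163) (nat_lit 4) (nat_lit 156) (nat_lit 4) (nat_lit 453) (nat_lit 347) (nat_lit 340)) (XT.nd (nat_lit 78) (nat_lit 380) (nat_lit 0) (XT.lf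 (nat_lit 0) (nat_lit 2317271386) (nat_lit 532) (nat_lit 2592560953) (nat_lit 76) (nat_lit 4443609537) (nat_lit 149) (nat_lit 5) (nat_lit 156) (nat_lit 5) (nat_lit 150) (nat_lit 4) (nat_lit 454) (nat_lit 347) (nat_lit 339)) (XT.lf (nat_lit 0) (nat_lit 4467743461) (nat_lit 380) (nat_lit 1756021131) (nat_lit 456) (nat_lit 3218352569) (nat_lit 144) (nat_lit 5) (nat_lit 149) (nat_lit 5) (nat_lit 150) (nat_lit 4) (nat_lit 455) (nat_lit 347) (nat_lit 338))))))))
noncomputable def xc23 : XT := (XT.nd (nat_lit 1638) (nat_lit 3040) (nat_lit 0) (XT.nd (nat_lit 780) (nat_lit 2584) (nat_lit 0) (XT.nd (nat_lit 390) (nat_lit 1216) (nat_lit 0) (XT.nd (nat_lit 156) (nat_lit 1216) (nat_lit 0) (XT.nd (nat_lit 78) (nat_lit 0) (nat_lit 0) (XT.lf (nat_lit 0) (nat_lit 647426031) (nat_lit 532) (nat_lit 7436103779) (nat_lit 76) (nat_lit 1449359826) (nat_lit 137) (nat_lit 5) (nat_lit 144) (nat_lit 5) (nat_lit 138) (nat_lit 4) (nat_lit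 456) (nat_lit 347) (nat_lit 337)) (XT.lf (nat_lit 0) (nat_lit 4532864190) (nat_lit 532) (nat_lit 370411273) (nat_lit 76) (nat_lit 4722088268) (nat_lit 137) (nat_lit 5) (nat_lit 144) (nat_lit 5) (nat_lit 138) (nat_lit 4) (nat_lit 457) (nat_lit 347) (nat_lit 336))) (XT.nd (nat_lit 78) (nat_lit 836) (nat_lit 0) (XT.lf (nat_lit 0) (nat_lit 6838801964) (nat_lit 380) (nat_lit 1642950828) (nat_lit 456) (nat_lit 1238239673) (nat_lit 132) (nat_lit 5) (nat_lit 137) (nat_lit 5) (nat_lit 138) (nat_lit 4) (nat_lit 458) (nat_lit 347) (nat_lit 335)) (XT.nd (nat_lit 78) (nat_lit 380) (nat_lit 0) (XT.lf (nat_lit 0) (nat_lit 2640990497) (nat_lit 456) (nat_lit 5495425252) (nat_lit 76) (nat_lit 1680103416) (nat_lit 126) (nat_lit 5) (nat_lit 132) (nat_lit 5) (nat_lit 127) (nat_lit 4) (nat_lit 459) (nat_lit 347) (nat_lit 334)) (XT.lf (nat_lit 0) (nat_lit 1706951785) (nat_lit 380) (nat_lit 4857627207) (nat_lit 456) (nat_lit 3350585474)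 (nat_lit 121) (nat_lit 5) (nat_lit 126) (nat_lit 5) (nat_lit 127) (nat_lit 4) (nat_lit 460) (nat_lit 347) (nat_lit 333))))) (XT.nd (nat_lit 156) (nat_lit 760) (nat_lit 0) (XT.nd (nat_lit 78) (nat_lit 380) (nat_lit 0) (XT.lf (nat_lit 0) (nat_lit 522837680) (nat_lit 456) (nat_lit 979321662) (nat_lit 76) (nat_lit 8513985795) (nat_lit 120) (nat_lit 5) (nat_lit 126) (nat_lit 5) (nat_lit 121) (nat_lit 5) (nat_lit 461) (nat_lit 347) (nat_lit 332)) (XT.lf (nat_lit 0) (nat_lit 4426173717) (nat_lit 456) (nat_lit 3762829000) (nat_lit 76) (nat_lit 1929771332) (nat_lit 115) (nat_lit 5) (nat_lit 121) (nat_lit 5) (nat_lit 116) (nat_lit 4) (nat_lit 462) (nat_lit 347) (nat_lit 331))) (XT.nd (nat_lit 78) (nat_lit 456) (nat_lit 0) (XT.lf (nat_lit 0) (nat_lit 3577829232) (nat_lit 304) (nat_lit 4813121468) (nat_lit 380) (nat_lit 1832854758) (nat_lit 111) (nat_lit 5) (nat_lit 115) (nat_lit 5) (nat_lit 116) (nat_lit 4) (nat_lit 463)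 (nat_lit 347) (nat_lit 330)) (XT.nd (nat_lit 78) (nat_lit 0) (nat_lit 0) (XT.lf (nat_lit 0) (nat_lit 693984451) (nat_lit 380) (nat_lit 1356169061) (nat_lit 456) (nat_lit 8281054222) (nat_lit 105) (nat_lit 5) (nat_lit 110) (nat_lit 5) (nat_lit 111) (nat_lit 5) (nat_lit 464) (nat_lit 347) (nat_lit 329)) (XT.lf (nat_lit 0) (nat_lit 5989365060) (nat_lit 456) (nat_lit 2283075969) (nat_lit 76) (nat_lit 2168029423) (nat_lit 105) (nat_lit 5) (nat_lit 111) (nat_lit 5) (nat_lit 106) (nat_lit 4) (nat_lit 465) (nat_lit 347) (nat_lit 328)))))) (XT.nd (nat_lit 390) (nat_lit 1216) (nat_lit 0) (XT.nd (nat_lit 156) (nat_lit 684) (nat_lit 0) (XT.nd (nat_lit 78) (nat_lit 380) (nat_lit 0) (XT.lf (nat_lit 0) (nat_lit 5191455864) (nat_lit 304) (nat_lit 4803769238) (nat_lit 380) (nat_lit 556952114) (nat_lit 101) (nat_lit 5) (nat_lit 105) (nat_lit 5) (nat_lit 106) (nat_lit 4) (nat_lit 466) (nat_lit 347) (nat_lit 327)) (XT.lf (nat_lit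 0) (nat_lit 2099898788) (nat_lit 304) (nat_lit 1244775037) (nat_lit 380) (nat_lit 7321528703) (nat_lit 96) (nat_lit 5) (nat_lit 100) (nat_lit 5) (nat_lit 101) (nat_lit 5) (nat_lit 467) (nat_lit 347) (nat_lit 326))) (XT.nd (nat_lit 78) (nat_lit 684) (nat_lit 0) (XT.lf (nat_lit 0) (nat_lit 7314218342) (nat_lit 380) (nat_lit 1105117179) (nat_lit 76) (nat_lit 2363167474) (nat_lit 96) (nat_lit 5) (nat_lit 101) (nat_lit 5) (nat_lit 97) (nat_lit 4) (nat_lit 468) (nat_lit 347) (nat_lit 325)) (XT.nd (nat_lit 78) (nat_lit 304) (nat_lit 0) (XT.lf (nat_lit 0) (nat_lit 453065207) (nat_lit 380) (nat_lit 4406533927) (nat_lit 76) (nat_lit 6041542895) (nat_lit 91) (nat_lit 5) (nat_lit 96) (nat_lit 5) (nat_lit 92) (nat_lit 5) (nat_lit 469) (nat_lit 347) (nat_lit 324)) (XT.lf (nat_lit 0) (nat_lit 3173117596) (nat_lit 304) (nat_lit 1208233299) (nat_lit 380) (nat_lit 6640859735) (nat_lit 87) (nat_lit 5) (nat_lit 91) (nat_lit 5)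 (nat_lit 92) (nat_lit 5) (nat_lit 470) (nat_lit 347) (nat_lit 323))))) (XT.nd (nat_lit 234) (nat_lit 608) (nat_lit 0) (XT.nd (nat_lit 78) (nat_lit 608) (nat_lit 0) (XT.lf (nat_lit 0) (nat_lit 8381434228) (nat_lit 380) (nat_lit 282635398) (nat_lit 76) (nat_lit 2481780334) (nat_lit 87) (nat_lit 5) (nat_lit 92) (nat_lit 5) (nat_lit 88) (nat_lit 4) (nat_lit 471) (nat_lit 347) (nat_lit 322)) (XT.nd (nat_lit 78) (nat_lit 304) (nat_lit 0) (XT.lf (nat_lit 0) (nat_lit 1178453631) (nat_lit 304) (nat_lit 3838314277) (nat_lit 76) (nat_lit 6254963200) (nat_lit 83) (nat_lit 5) (nat_lit 87) (nat_lit 5) (nat_lit 84) (nat_lit 5) (nat_lit 472) (nat_lit 347) (nat_lit 321)) (XT.lf (nat_lit 0) (nat_lit 3856213494) (nat_lit 304) (nat_lit 1282223214) (nat_lit 380) (nat_lit 6261835468) (nat_lit 79) (nat_lit 5) (nat_lit 83) (nat_lit 5) (nat_lit 84) (nat_lit 5) (nat_lit 473) (nat_lit 347) (nat_lit 320)))) (XT.nd (nat_lit 78) (nat_lit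 380) (nat_lit 0) (XT.lf (nat_lit 0) (nat_lit 127028368) (nat_lit 228) (nat_lit 9042310012) (nat_lit 304) (nat_lit 2362224236) (nat_lit 76) (nat_lit 5) (nat_lit 79) (nat_lit 5) (nat_lit 80) (nat_lit 4) (nat_lit 474) (nat_lit 347) (nat_lit 319)) (XT.nd (nat_lit 78) (nat_lit 304) (nat_lit 0) (XT.lf (nat_lit 0) (nat_lit 1602321814) (nat_lit 304) (nat_lit 3713977526) (nat_lit 76) (nat_lit 6348819620) (nat_lit 75) (nat_lit 5) (nat_lit 79) (nat_lit 5) (nat_lit 76) (nat_lit 5) (nat_lit 475) (nat_lit 347) (nat_lit 318)) (XT.lf (nat_lit 0) (nat_lit 4085986781) (nat_lit 304) (nat_lit 1504783827) (nat_lit 380) (nat_lit 6210750883) (nat_lit 71) (nat_lit 5) (nat_lit 75) (nat_lit 5) (nat_lit 76) (nat_lit 5) (nat_lit 476) (nat_lit 347) (nat_lit 317))))))) (XT.nd (nat_lit 780) (nat_lit 1444) (nat_lit 0) (XT.nd (nat_lit 390) (nat_lit 760) (nat_lit 0) (XT.nd (nat_lit 156) (nat_lit 532) (nat_lit 0) (XT.nd (nat_lit 78) (nat_lit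 76) (nat_lit 0) (XT.lf (nat_lit 0) (nat_lit 54612002) (nat_lit 228) (nat_lit 9595222067) (nat_lit 304) (nat_lit 2291013034) (nat_lit 68) (nat_lit 5) (nat_lit 71) (nat_lit 5) (nat_lit 72) (nat_lit 4) (nat_lit 477) (nat_lit 347) (nat_lit 316)) (XT.lf (nat_lit 0) (nat_lit 1696854328) (nat_lit 304) (nat_lit 4101308130) (nat_lit 76) (nat_lit 6284344098) (nat_lit 67) (nat_lit 5) (nat_lit 71) (nat_lit 5) (nat_lit 68) (nat_lit 5) (nat_lit 478) (nat_lit 347) (nat_lit 315))) (XT.nd (nat_lit 78) (nat_lit 304) (nat_lit 0) (XT.lf (nat_lit 0) (nat_lit 3792770257) (nat_lit 228) (nat_lit 1916705874) (nat_lit 304) (nat_lit 6517717978) (nat_lit 64) (nat_lit 5) (nat_lit 67) (nat_lit 5) (nat_lit 68) (nat_lit 5) (nat_lit 479) (nat_lit 347) (nat_lit 314)) (XT.nd (nat_lit 78) (nat_lit 304) (nat_lit 0) (XT.lf (nat_lit 0) (nat_lit 9794564115) (nat_lit 304) (nat_lit 568701107) (nat_lit 76) (nat_lit 2011676951) (nat_lit 64) (nat_lit 5)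 (nat_lit 68) (nat_lit 5) (nat_lit 65) (nat_lit 4) (nat_lit 480) (nat_lit 347) (nat_lit 313)) (XT.lf (nat_lit 0) (nat_lit 1430288490) (nat_lit 304) (nat_lit 5075083645) (nat_lit 76) (nat_lit 6019829052) (nat_lit 60) (nat_lit 5) (nat_lit 64) (nat_lit 5) (nat_lit 61) (nat_lit 5) (nat_lit 481) (nat_lit 347) (nat_lit 312))))) (XT.nd (nat_lit 156) (nat_lit 532) (nat_lit 0) (XT.nd (nat_lit 78) (nat_lit 0) (nat_lit 0) (XT.lf (nat_lit 0) (nat_lit 2899666012) (nat_lit 228) (nat_lit 2561954965) (nat_lit 304) (nat_lit 7217013600) (nat_lit 57) (nat_lit 5) (nat_lit 60) (nat_lit 5) (nat_lit 61) (nat_lit 5) (nat_lit 482) (nat_lit 347) (nat_lit 311)) (XT.lf (nat_lit 0) (nat_lit 9569858737) (nat_lit 304) (nat_lit 1821561787) (nat_lit 76) (nat_lit 1443800735) (nat_lit 57) (nat_lit 5) (nat_lit 61) (nat_lit 5) (nat_lit 58) (nat_lit 4) (nat_lit 483) (nat_lit 347) (nat_lit 310))) (XT.nd (nat_lit 78) (nat_lit 228) (nat_lit 0) (XT.lf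 (nat_lit 0) (nat_lit 766547514) (nat_lit 304) (nat_lit 6717887624) (nat_lit 76) (nat_lit 5510189691) (nat_lit 53) (nat_lit 5) (nat_lit 57) (nat_lit 5) (nat_lit 54) (nat_lit 5) (nat_lit 484) (nat_lit 347) (nat_lit 309)) (XT.nd (nat_lit 78) (nat_lit 0) (nat_lit 0) (XT.lf (nat_lit 0) (nat_lit 1321706679) (nat_lit 228) (nat_lit 3488129965) (nat_lit 304) (nat_lit 8347468472) (nat_lit 50) (nat_lit 5) (nat_lit 53) (nat_lit 5) (nat_lit 54) (nat_lit 5) (nat_lit 485) (nat_lit 347) (nat_lit 308)) (XT.lf (nat_lit 0) (nat_lit 8936921831) (nat_lit 304) (nat_lit 3792147488) (nat_lit 76) (nat_lit 594120503) (nat_lit 50) (nat_lit 5) (nat_lit 54) (nat_lit 5) (nat_lit 51) (nat_lit 4) (nat_lit 486) (nat_lit 347) (nat_lit 307)))))) (XT.nd (nat_lit 390) (nat_lit 760) (nat_lit 0) (XT.nd (nat_lit 156) (nat_lit 456) (nat_lit 0) (XT.nd (nat_lit 78) (nat_lit 76) (nat_lit 0) (XT.lf (nat_lit 0) (nat_lit 4369070679) (nat_lit 152) (nat_lit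 8783585167) (nat_lit 228) (nat_lit 339623468) (nat_lit 48) (nat_lit 5) (nat_lit 50) (nat_lit 5) (nat_lit 51) (nat_lit 4) (nat_lit 487) (nat_lit 347) (nat_lit 306)) (XT.lf (nat_lit 0) (nat_lit 3718614168) (nat_lit 228) (nat_lit 1021492066) (nat_lit 76) (nat_lit 8924554563) (nat_lit 47) (nat_lit 5) (nat_lit 50) (nat_lit 5) (nat_lit 48) (nat_lit 5) (nat_lit 488) (nat_lit 347) (nat_lit 305))) (XT.nd (nat_lit 78) (nat_lit 228) (nat_lit 0) (XT.lf (nat_lit 0) (nat_lit 7259330085) (nat_lit 228) (nat_lit 596887404) (nat_lit 304) (nat_lit 5984181253) (nat_lit 44) (nat_lit 5) (nat_lit 47) (nat_lit 5) (nat_lit 48) (nat_lit 5) (nat_lit 489) (nat_lit 347) (nat_lit 304)) (XT.nd (nat_lit 78) (nat_lit 76) (nat_lit 0) (XT.lf (nat_lit 0) (nat_lit 1621688431) (nat_lit 152) (nat_lit 10451665813) (nat_lit 228) (nat_lit 1946370106) (nat_lit 42) (nat_lit 5) (nat_lit 44) (nat_lit 5) (nat_lit 45) (nat_lit 4) (nat_lit 490) (nat_lit 347)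 (nat_lit 303)) (XT.lf (nat_lit 0) (nat_lit 2147982967) (nat_lit 228) (nat_lit 4218560068) (nat_lit 76) (nat_lit 7835734080) (nat_lit 41) (nat_lit 5) (nat_lit 44) (nat_lit 5) (nat_lit 42) (nat_lit 5) (nat_lit 491) (nat_lit 347) (nat_lit 302))))) (XT.nd (nat_lit 234) (nat_lit 304) (nat_lit 0) (XT.nd (nat_lit 78) (nat_lit 228) (nat_lit 0) (XT.lf (nat_lit 0) (nat_lit 4090590821) (nat_lit 228) (nat_lit 2190885602) (nat_lit 304) (nat_lit 8107088937) (nat_lit 38) (nat_lit 5) (nat_lit 41) (nat_lit 5) (nat_lit 42) (nat_lit 5) (nat_lit 492) (nat_lit 347) (nat_lit 301)) (XT.nd (nat_lit 78) (nat_lit 228) (nat_lit 0) (XT.lf (nat_lit 0) (nat_lit 10496460339) (nat_lit 304) (nat_lit 2043365910) (nat_lit 76) (nat_lit 2038784589) (nat_lit 38) (nat_lit 5) (nat_lit 42) (nat_lit 5) (nat_lit 39) (nat_lit 4) (nat_lit 493) (nat_lit 347) (nat_lit 300)) (XT.lf (nat_lit 0) (nat_lit 36685287) (nat_lit 228) (nat_lit 8400415430) (nat_lit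 76) (nat_lit 6335086983) (nat_lit 35) (nat_lit 5) (nat_lit 38) (nat_lit 5) (nat_lit 36) (nat_lit 5) (nat_lit 494) (nat_lit 347) (nat_lit 299)))) (XT.nd (nat_lit 78) (nat_lit 304) (nat_lit 0) (XT.lf (nat_lit 0) (nat_lit 4154902966) (nat_lit 228) (nat_lit 87037979) (nat_lit 76) (nat_lit 10727729616) (nat_lit 35) (nat_lit 5) (nat_lit 38) (nat_lit 5) (nat_lit 36) (nat_lit 5) (nat_lit 495) (nat_lit 347) (nat_lit 298)) (XT.nd (nat_lit 78) (nat_lit 152) (nat_lit 0) (XT.lf (nat_lit 0) (nat_lit 8369268598) (nat_lit 228) (nat_lit 6740086375) (nat_lit 76) (nat_lit 61479717) (nat_lit 33) (nat_lit 5) (nat_lit 36) (nat_lit 5) (nat_lit 34) (nat_lit 4) (nat_lit 496) (nat_lit 347) (nat_lit 297)) (XT.lf (nat_lit 0) (nat_lit 1665630894) (nat_lit 152) (nat_lit 11000571958) (nat_lit 228) (nat_lit 2709860761) (nat_lit 31) (nat_lit 5) (nat_lit 33) (nat_lit 5) (nat_lit 34) (nat_lit 4) (nat_lit 497) (nat_lit 347) (nat_lit 296))))))))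
noncomputable def xc24 : XT := (XT.nd (nat_lit 55926) (nat_lit 0) (nat_lit 4636) (XT.nd (nat_lit 55146) (nat_lit 0) (nat_lit 10488) (XT.nd (nat_lit 390) (nat_lit 532) (nat_lit 0) (XT.nd (nat_lit 156) (nat_lit 228) (nat_lit 0) (XT.nd (nat_lit 78) (nat_lit 152) (nat_lit 0) (XT.lf (nat_lit 0) (nat_lit 1448862981) (nat_lit 228) (nat_lit 5335725626) (nat_lit 76) (nat_lit 8800537691) (nat_lit 30) (nat_lit 5) (nat_lit 33) (nat_lit 5) (nat_lit 31) (nat_lit 5) (nat_lit 498) (nat_lit 347) (nat_lit 295)) (XT.lf (nat_lit 0) (nat_lit 3159122211) (nat_lit 152) (nat_lit 2475557470) (nat_lit 228) (nat_lit 10163734968) (nat_lit 28) (nat_lit 5) (nat_lit 30) (nat_lit 5) (nat_lit 31) (nat_lit 5) (nat_lit 499) (nat_lit 347) (nat_lit 294))) (XT.nd (nat_lit 78) (nat_lit 228) (nat_lit 0) (XT.lf (nat_lit 0) (nat_lit 9912514460) (nat_lit 228) (nat_lit 4202742568) (nat_lit 76) (nat_lit 1900552302) (nat_lit 28) (nat_lit 5) (nat_lit 31)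 (nat_lit 5) (nat_lit 29) (nat_lit 4) (nat_lit 500) (nat_lit 347) (nat_lit 293)) (XT.nd (nat_lit 78) (nat_lit 76) (nat_lit 0) (XT.lf (nat_lit 0) (nat_lit 4373917131) (nat_lit 152) (nat_lit 9907365343) (nat_lit 228) (nat_lit 1956168364) (nat_lit 26) (nat_lit 5) (nat_lit 28) (nat_lit 5) (nat_lit 29) (nat_lit 4) (nat_lit 501) (nat_lit 347) (nat_lit 292)) (XT.lf (nat_lit 0) (nat_lit 2233110052) (nat_lit 228) (nat_lit 3368495137) (nat_lit 76) (nat_lit 10861850288) (nat_lit 25) (nat_lit 5) (nat_lit 28) (nat_lit 5) (nat_lit 26) (nat_lit 5) (nat_lit 502) (nat_lit 347) (nat_lit 291))))) (XT.nd (nat_lit 156) (nat_lit 380) (nat_lit 0) (XT.nd (nat_lit 78) (nat_lit 0) (nat_lit 0) (XT.lf (nat_lit 0) (nat_lit 5284499675) (nat_lit 152) (nat_lit 1191230553) (nat_lit 228) (nat_lit 10218082483) (nat_lit 23) (nat_lit 5) (nat_lit 25) (nat_lit 5) (nat_lit 26) (nat_lit 5) (nat_lit 503) (nat_lit 347) (nat_lit 290)) (XT.lf (nat_lit 0)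 (nat_lit 10808968755) (nat_lit 228) (nat_lit 2862159937) (nat_lit 76) (nat_lit 3257539051) (nat_lit 23) (nat_lit 5) (nat_lit 26) (nat_lit 5) (nat_lit 24) (nat_lit 4) (nat_lit 504) (nat_lit 347) (nat_lit 289))) (XT.nd (nat_lit 78) (nat_lit 228) (nat_lit 0) (XT.lf (nat_lit 0) (nat_lit 5857787987) (nat_lit 152) (nat_lit 9379298158) (nat_lit 228) (nat_lit 1930975306) (nat_lit 21) (nat_lit 5) (nat_lit 23) (nat_lit 5) (nat_lit 24) (nat_lit 4) (nat_lit 505) (nat_lit 347) (nat_lit 288)) (XT.nd (nat_lit 78) (nat_lit 152) (nat_lit 0) (XT.lf (nat_lit 0) (nat_lit 2292492968) (nat_lit 228) (nat_lit 2703406532) (nat_lit 76) (nat_lit 12416411515) (nat_lit 20) (nat_lit 5) (nat_lit 23) (nat_lit 5) (nat_lit 21) (nat_lit 5) (nat_lit 506) (nat_lit 347) (nat_lit 287)) (XT.lf (nat_lit 0) (nat_lit 6076673231) (nat_lit 152) (nat_lit 500463713) (nat_lit 228) (nat_lit 11084007628) (nat_lit 18) (nat_lit 5) (nat_lit 20) (nat_lit 5) (nat_lit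 21) (nat_lit 5) (nat_lit 507) (nat_lit 347) (nat_lit 286)))))) (XT.nd (nat_lit 390) (nat_lit 1520) (nat_lit 0) (XT.nd (nat_lit 156) (nat_lit 1596) (nat_lit 0) (XT.nd (nat_lit 78) (nat_lit 0) (nat_lit 0) (XT.lf (nat_lit 0) (nat_lit 180383533) (nat_lit 608) (nat_lit 3923178309) (nat_lit 0) (nat_lit 180383533) (nat_lit 197) (nat_lit 5) (nat_lit 205) (nat_lit 4) (nat_lit 197) (nat_lit 4) (nat_lit 444) (nat_lit 348) (nat_lit 348)) (XT.lf (nat_lit 0) (nat_lit 4209052045) (nat_lit 608) (nat_lit 1274392227) (nat_lit 0) (nat_lit 3155381717) (nat_lit 197) (nat_lit 5) (nat_lit 205) (nat_lit 4) (nat_lit 197) (nat_lit 4) (nat_lit 445) (nat_lit 348) (nat_lit 347))) (XT.nd (nat_lit 78) (nat_lit 1064) (nat_lit 0) (XT.lf (nat_lit 0) (nat_lit 5412325041) (nat_lit 532) (nat_lit 2693070466) (nat_lit 532) (nat_lit 606390013) (nat_lit 190) (nat_lit 4) (nat_lit 197) (nat_lit 5) (nat_lit 197) (nat_lit 4) (nat_lit 446) (nat_lit 348)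 (nat_lit 346)) (XT.nd (nat_lit 78) (nat_lit 532) (nat_lit 0) (XT.lf (nat_lit 0) (nat_lit 3218324138) (nat_lit 532) (nat_lit 5388455770) (nat_lit 0) (nat_lit 179661905) (nat_lit 183) (nat_lit 5) (nat_lit 190) (nat_lit 4) (nat_lit 183) (nat_lit 4) (nat_lit 447) (nat_lit 348) (nat_lit 345)) (XT.lf (nat_lit 0) (nat_lit 1318736758) (nat_lit 532) (nat_lit 5778091308) (nat_lit 532) (nat_lit 1766000562) (nat_lit 176) (nat_lit 4) (nat_lit 183) (nat_lit 5) (nat_lit 183) (nat_lit 4) (nat_lit 448) (nat_lit 348) (nat_lit 344))))) (XT.nd (nat_lit 156) (nat_lit 988) (nat_lit 0) (XT.nd (nat_lit 78) (nat_lit 456) (nat_lit 0) (XT.lf (nat_lit 0) (nat_lit 2057809237) (nat_lit 608) (nat_lit 809657765) (nat_lit 76) (nat_lit 6073559728) (nat_lit 175) (nat_lit 5) (nat_lit 183) (nat_lit 5) (nat_lit 176) (nat_lit 4) (nat_lit 449) (nat_lit 348) (nat_lit 343)) (XT.lf (nat_lit 0) (nat_lit 5912706250) (nat_lit 532) (nat_lit 2981936868) (nat_lit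 0) (nat_lit 126371424) (nat_lit 169) (nat_lit 5) (nat_lit 176) (nat_lit 4) (nat_lit 169) (nat_lit 4) (nat_lit 450) (nat_lit 348) (nat_lit 342))) (XT.nd (nat_lit 78) (nat_lit 456) (nat_lit 0) (XT.lf (nat_lit 0) (nat_lit 720574977) (nat_lit 532) (nat_lit 5230070850) (nat_lit 76) (nat_lit 3152119169) (nat_lit 162) (nat_lit 5) (nat_lit 169) (nat_lit 5) (nat_lit 163) (nat_lit 4) (nat_lit 451) (nat_lit 348) (nat_lit 341)) (XT.nd (nat_lit 78) (nat_lit 0) (nat_lit 0) (XT.lf (nat_lit 0) (nat_lit 1631946810) (nat_lit 456) (nat_lit 2922134036) (nat_lit 532) (nat_lit 4632288353) (nat_lit 156) (nat_lit 5) (nat_lit 162) (nat_lit 5) (nat_lit 163) (nat_lit 4) (nat_lit 452) (nat_lit 348) (nat_lit 340)) (XT.lf (nat_lit 0) (nat_lit 8440015429) (nat_lit 532) (nat_lit 658468208) (nat_lit 0) (nat_lit 173669191) (nat_lit 156) (nat_lit 5) (nat_lit 163) (nat_lit 4) (nat_lit 156) (nat_lit 4) (nat_lit 453) (nat_lit 348) (nat_lit 339)))))))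 (XT.nd (nat_lit 780) (nat_lit 2432) (nat_lit 0) (XT.nd (nat_lit 390) (nat_lit 1596) (nat_lit 0) (XT.nd (nat_lit 156) (nat_lit 912) (nat_lit 0) (XT.nd (nat_lit 78) (nat_lit 380) (nat_lit 0) (XT.lf (nat_lit 0) (nat_lit 3005212913) (nat_lit 532) (nat_lit 3026628014) (nat_lit 76) (nat_lit 3327415181) (nat_lit 149) (nat_lit 5) (nat_lit 156) (nat_lit 5) (nat_lit 150) (nat_lit 4) (nat_lit 454) (nat_lit 348) (nat_lit 338)) (XT.lf (nat_lit 0) (nat_lit 3984358579) (nat_lit 380) (nat_lit 2894868209) (nat_lit 456) (nat_lit 2569364695) (nat_lit 144) (nat_lit 5) (nat_lit 149) (nat_lit 5) (nat_lit 150) (nat_lit 4) (nat_lit 455) (nat_lit 348) (nat_lit 337))) (XT.nd (nat_lit 78) (nat_lit 380) (nat_lit 0) (XT.lf (nat_lit 0) (nat_lit 1247643485) (nat_lit 532) (nat_lit 7979985610) (nat_lit 76) (nat_lit 312465861) (nat_lit 137) (nat_lit 5) (nat_lit 144) (nat_lit 5) (nat_lit 138) (nat_lit 4) (nat_lit 456) (nat_lit 348) (nat_lit 336))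 (XT.nd (nat_lit 78) (nat_lit 380) (nat_lit 0) (XT.lf (nat_lit 0) (nat_lit 5104041862) (nat_lit 532) (nat_lit 957602627) (nat_lit 76) (nat_lit 3571515253) (nat_lit 137) (nat_lit 5) (nat_lit 144) (nat_lit 5) (nat_lit 138) (nat_lit 4) (nat_lit 457) (nat_lit 348) (nat_lit 335)) (XT.lf (nat_lit 0) (nat_lit 6200782554) (nat_lit 380) (nat_lit 2819535092) (nat_lit 456) (nat_lit 708132789) (nat_lit 132) (nat_lit 5) (nat_lit 137) (nat_lit 5) (nat_lit 138) (nat_lit 4) (nat_lit 458) (nat_lit 348) (nat_lit 334))))) (XT.nd (nat_lit 156) (nat_lit 760) (nat_lit 0) (XT.nd (nat_lit 78) (nat_lit 380) (nat_lit 0) (XT.lf (nat_lit 0) (nat_lit 3123468409) (nat_lit 456) (nat_lit 6198433273) (nat_lit 76) (nat_lit 503829473) (nat_lit 126) (nat_lit 5) (nat_lit 132) (nat_lit 5) (nat_lit 127) (nat_lit 4) (nat_lit 459) (nat_lit 348) (nat_lit 333)) (XT.lf (nat_lit 0) (nat_lit 951266351) (nat_lit 380) (nat_lit 6062691934) (nat_lit 456) (nat_lit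 2911089287) (nat_lit 121) (nat_lit 5) (nat_lit 126) (nat_lit 5) (nat_lit 127) (nat_lit 4) (nat_lit 460) (nat_lit 348) (nat_lit 332))) (XT.nd (nat_lit 78) (nat_lit 684) (nat_lit 0) (XT.lf (nat_lit 0) (nat_lit 928460819) (nat_lit 456) (nat_lit 1790611147) (nat_lit 76) (nat_lit 7307470173) (nat_lit 120) (nat_lit 5) (nat_lit 126) (nat_lit 5) (nat_lit 121) (nat_lit 5) (nat_lit 461) (nat_lit 348) (nat_lit 331)) (XT.nd (nat_lit 78) (nat_lit 304) (nat_lit 0) (XT.lf (nat_lit 0) (nat_lit 4790592987) (nat_lit 456) (nat_lit 4630522445) (nat_lit 76) (nat_lit 708888312) (nat_lit 115) (nat_lit 5) (nat_lit 121) (nat_lit 5) (nat_lit 116) (nat_lit 4) (nat_lit 462) (nat_lit 348) (nat_lit 330)) (XT.lf (nat_lit 0) (nat_lit 2655832904) (nat_lit 304) (nat_lit 6066168416) (nat_lit 380) (nat_lit 1513709651) (nat_lit 111) (nat_lit 5) (nat_lit 115) (nat_lit 5) (nat_lit 116) (nat_lit 4) (nat_lit 463) (nat_lit 348) (nat_lit 329)))))) (XT.nd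 (nat_lit 390) (nat_lit 1292) (nat_lit 0) (XT.nd (nat_lit 156) (nat_lit 684) (nat_lit 0) (XT.nd (nat_lit 78) (nat_lit 380) (nat_lit 0) (XT.lf (nat_lit 0) (nat_lit 2333301621) (nat_lit 380) (nat_lit 293395251) (nat_lit 76) (nat_lit 7717019280) (nat_lit 110) (nat_lit 5) (nat_lit 115) (nat_lit 5) (nat_lit 111) (nat_lit 5) (nat_lit 464) (nat_lit 348) (nat_lit 328)) (XT.lf (nat_lit 0) (nat_lit 6235180765) (nat_lit 456) (nat_lit 3321117124) (nat_lit 76) (nat_lit 897435587) (nat_lit 105) (nat_lit 5) (nat_lit 111) (nat_lit 5) (nat_lit 106) (nat_lit 4) (nat_lit 465) (nat_lit 348) (nat_lit 327))) (XT.nd (nat_lit 78) (nat_lit 380) (nat_lit 0) (XT.lf (nat_lit 0) (nat_lit 4097421889) (nat_lit 304) (nat_lit 6109907607) (nat_lit 380) (nat_lit 358792774) (nat_lit 101) (nat_lit 5) (nat_lit 105) (nat_lit 5) (nat_lit 106) (nat_lit 4) (nat_lit 466) (nat_lit 348) (nat_lit 326)) (XT.nd (nat_lit 78) (nat_lit 0) (nat_lit 0) (XT.lf (nat_lit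 0) (nat_lit 933606490) (nat_lit 304) (nat_lit 2572518358) (nat_lit 380) (nat_lit 7174686691) (nat_lit 96) (nat_lit 5) (nat_lit 100) (nat_lit 5) (nat_lit 101) (nat_lit 5) (nat_lit 467) (nat_lit 348) (nat_lit 325)) (XT.lf (nat_lit 0) (nat_lit 7440664376) (nat_lit 380) (nat_lit 2319288487) (nat_lit 76) (nat_lit 1037866597) (nat_lit 96) (nat_lit 5) (nat_lit 101) (nat_lit 5) (nat_lit 97) (nat_lit 4) (nat_lit 468) (nat_lit 348) (nat_lit 324))))) (XT.nd (nat_lit 234) (nat_lit 608) (nat_lit 0) (XT.nd (nat_lit 78) (nat_lit 304) (nat_lit 0) (XT.lf (nat_lit 0) (nat_lit 528378966) (nat_lit 380) (nat_lit 5694957587) (nat_lit 76) (nat_lit 4693801744) (nat_lit 91) (nat_lit 5) (nat_lit 96) (nat_lit 5) (nat_lit 92) (nat_lit 5) (nat_lit 469) (nat_lit 348) (nat_lit 323)) (XT.nd (nat_lit 78) (nat_lit 0) (nat_lit 0) (XT.lf (nat_lit 0) (nat_lit 1825875789) (nat_lit 304) (nat_lit 2596240247) (nat_lit 380) (nat_lit 6616788762) (nat_lit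 87) (nat_lit 5) (nat_lit 91) (nat_lit 5) (nat_lit 92) (nat_lit 5) (nat_lit 470) (nat_lit 348) (nat_lit 322)) (XT.lf (nat_lit 0) (nat_lit 8387527132) (nat_lit 380) (nat_lit 1678856187) (nat_lit 76) (nat_lit 1096861049) (nat_lit 87) (nat_lit 5) (nat_lit 92) (nat_lit 5) (nat_lit 88) (nat_lit 4) (nat_lit 471) (nat_lit 348) (nat_lit 321)))) (XT.nd (nat_lit 78) (nat_lit 304) (nat_lit 0) (XT.lf (nat_lit 0) (nat_lit 1132455320) (nat_lit 304) (nat_lit 5311905723) (nat_lit 76) (nat_lit 4845469370) (nat_lit 83) (nat_lit 5) (nat_lit 87) (nat_lit 5) (nat_lit 84) (nat_lit 5) (nat_lit 472) (nat_lit 348) (nat_lit 320)) (XT.nd (nat_lit 78) (nat_lit 0) (nat_lit 0) (XT.lf (nat_lit 0) (nat_lit 2321939268) (nat_lit 304) (nat_lit 2735441001) (nat_lit 380) (nat_lit 6361698775) (nat_lit 79) (nat_lit 5) (nat_lit 83) (nat_lit 5) (nat_lit 84) (nat_lit 5) (nat_lit 473) (nat_lit 348) (nat_lit 319)) (XT.lf (nat_lit 0) (nat_lit 9053055646)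 (nat_lit 380) (nat_lit 1458980554) (nat_lit 76) (nat_lit 1039044087) (nat_lit 79) (nat_lit 5) (nat_lit 84) (nat_lit 5) (nat_lit 80) (nat_lit 4) (nat_lit 474) (nat_lit 348) (nat_lit 318))))))))
noncomputable def xc25 : XT := (XT.nd (nat_lit 1638) (nat_lit 1140) (nat_lit 0) (XT.nd (nat_lit 780) (nat_lit 1368) (nat_lit 0) (XT.nd (nat_lit 390) (nat_lit 836) (nat_lit 0) (XT.nd (nat_lit 156) (nat_lit 532) (nat_lit 0) (XT.nd (nat_lit 78) (nat_lit 304) (nat_lit 0) (XT.lf (nat_lit 0) (nat_lit 1433731174) (nat_lit 304) (nat_lit 5378906304) (nat_lit 76) (nat_lit 4872714245) (nat_lit 75) (nat_lit 5) (nat_lit 79) (nat_lit 5) (nat_lit 76) (nat_lit 5) (nat_lit 475) (nat_lit 348) (nat_lit 317)) (XT.lf (nat_lit 0) (nat_lit 2358433775) (nat_lit 304) (nat_lit 3028109031) (nat_lit 380) (nat_lit 6435930104) (nat_lit 71) (nat_lit 5) (nat_lit 75) (nat_lit 5) (nat_lit 76) (nat_lit 5) (nat_lit 476) (nat_lit 348) (nat_lit 316))) (XT.nd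 (nat_lit 78) (nat_lit 532) (nat_lit 0) (XT.lf (nat_lit 0) (nat_lit 9411060897) (nat_lit 380) (nat_lit 1724811477) (nat_lit 76) (nat_lit 826622854) (nat_lit 71) (nat_lit 5) (nat_lit 76) (nat_lit 5) (nat_lit 72) (nat_lit 4) (nat_lit 477) (nat_lit 348) (nat_lit 315)) (XT.nd (nat_lit 78) (nat_lit 228) (nat_lit 0) (XT.lf (nat_lit 0) (nat_lit 1404178337) (nat_lit 304) (nat_lit 5963919829) (nat_lit 76) (nat_lit 4736809307) (nat_lit 67) (nat_lit 5) (nat_lit 71) (nat_lit 5) (nat_lit 68) (nat_lit 5) (nat_lit 478) (nat_lit 348) (nat_lit 314)) (XT.lf (nat_lit 0) (nat_lit 1865512337) (nat_lit 228) (nat_lit 3515002636) (nat_lit 304) (nat_lit 6869811220) (nat_lit 64) (nat_lit 5) (nat_lit 67) (nat_lit 5) (nat_lit 68) (nat_lit 5) (nat_lit 479) (nat_lit 348) (nat_lit 313))))) (XT.nd (nat_lit 156) (nat_lit 532) (nat_lit 0) (XT.nd (nat_lit 78) (nat_lit 304) (nat_lit 0) (XT.lf (nat_lit 0) (nat_lit 9431564843) (nat_lit 304) (nat_lit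 2548200371) (nat_lit 76) (nat_lit 418995161) (nat_lit 64) (nat_lit 5) (nat_lit 68) (nat_lit 5) (nat_lit 65) (nat_lit 4) (nat_lit 480) (nat_lit 348) (nat_lit 312)) (XT.lf (nat_lit 0) (nat_lit 1011822781) (nat_lit 304) (nat_lit 7141915980) (nat_lit 76) (nat_lit 4396070435) (nat_lit 60) (nat_lit 5) (nat_lit 64) (nat_lit 5) (nat_lit 61) (nat_lit 5) (nat_lit 481) (nat_lit 348) (nat_lit 311))) (XT.nd (nat_lit 78) (nat_lit 304) (nat_lit 0) (XT.lf (nat_lit 0) (nat_lit 766081107) (nat_lit 228) (nat_lit 4240072348) (nat_lit 304) (nat_lit 7697834215) (nat_lit 57) (nat_lit 5) (nat_lit 60) (nat_lit 5) (nat_lit 61) (nat_lit 5) (nat_lit 482) (nat_lit 348) (nat_lit 310)) (XT.nd (nat_lit 78) (nat_lit 304) (nat_lit 0) (XT.lf (nat_lit 0) (nat_lit 8851248077) (nat_lit 228) (nat_lit 230699121) (nat_lit 304) (nat_lit 3779280982) (nat_lit 57) (nat_lit 5) (nat_lit 60) (nat_lit 5) (nat_lit 61) (nat_lit 5) (nat_lit 483) (nat_lit 348)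 (nat_lit 309)) (XT.lf (nat_lit 0) (nat_lit 220377133) (nat_lit 304) (nat_lit 8995686416) (nat_lit 76) (nat_lit 3805419533) (nat_lit 53) (nat_lit 5) (nat_lit 57) (nat_lit 5) (nat_lit 54) (nat_lit 5) (nat_lit 484) (nat_lit 348) (nat_lit 308)))))) (XT.nd (nat_lit 390) (nat_lit 684) (nat_lit 0) (XT.nd (nat_lit 156) (nat_lit 456) (nat_lit 0) (XT.nd (nat_lit 78) (nat_lit 228) (nat_lit 0) (XT.lf (nat_lit 0) (nat_lit 4232534507) (nat_lit 304) (nat_lit 1011595724) (nat_lit 76) (nat_lit 7940660436) (nat_lit 53) (nat_lit 5) (nat_lit 57) (nat_lit 5) (nat_lit 54) (nat_lit 5) (nat_lit 485) (nat_lit 348) (nat_lit 307)) (XT.lf (nat_lit 0) (nat_lit 7150365139) (nat_lit 228) (nat_lit 1176336247) (nat_lit 304) (nat_lit 5024636925) (nat_lit 50) (nat_lit 5) (nat_lit 53) (nat_lit 5) (nat_lit 54) (nat_lit 5) (nat_lit 486) (nat_lit 348) (nat_lit 306))) (XT.nd (nat_lit 78) (nat_lit 304) (nat_lit 0) (XT.lf (nat_lit 0) (nat_lit 1897955103)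 (nat_lit 152) (nat_lit 10598783489) (nat_lit 228) (nat_lit 1024607629) (nat_lit 48) (nat_lit 5) (nat_lit 50) (nat_lit 5) (nat_lit 51) (nat_lit 4) (nat_lit 487) (nat_lit 348) (nat_lit 305)) (XT.nd (nat_lit 78) (nat_lit 228) (nat_lit 0) (XT.lf (nat_lit 0) (nat_lit 3020639367) (nat_lit 228) (nat_lit 3554795002) (nat_lit 76) (nat_lit 7118826076) (nat_lit 47) (nat_lit 5) (nat_lit 50) (nat_lit 5) (nat_lit 48) (nat_lit 5) (nat_lit 488) (nat_lit 348) (nat_lit 304)) (XT.lf (nat_lit 0) (nat_lit 4655040217) (nat_lit 228) (nat_lit 2464750233) (nat_lit 304) (nat_lit 6750981209) (nat_lit 44) (nat_lit 5) (nat_lit 47) (nat_lit 5) (nat_lit 48) (nat_lit 5) (nat_lit 489) (nat_lit 348) (nat_lit 303))))) (XT.nd (nat_lit 234) (nat_lit 228) (nat_lit 0) (XT.nd (nat_lit 78) (nat_lit 456) (nat_lit 0) (XT.lf (nat_lit 0) (nat_lit 11292813240) (nat_lit 304) (nat_lit 1059037003) (nat_lit 76) (nat_lit 1699133445) (nat_lit 44) (nat_lit 5)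 (nat_lit 48) (nat_lit 5) (nat_lit 45) (nat_lit 4) (nat_lit 490) (nat_lit 348) (nat_lit 302)) (XT.nd (nat_lit 78) (nat_lit 228) (nat_lit 0) (XT.lf (nat_lit 0) (nat_lit 1318396253) (nat_lit 228) (nat_lit 6976408395) (nat_lit 76) (nat_lit 5939409864) (nat_lit 41) (nat_lit 5) (nat_lit 44) (nat_lit 5) (nat_lit 42) (nat_lit 5) (nat_lit 491) (nat_lit 348) (nat_lit 301)) (XT.lf (nat_lit 0) (nat_lit 1259368292) (nat_lit 228) (nat_lit 4153139448) (nat_lit 304) (nat_lit 9008786558) (nat_lit 38) (nat_lit 5) (nat_lit 41) (nat_lit 5) (nat_lit 42) (nat_lit 5) (nat_lit 492) (nat_lit 348) (nat_lit 300)))) (XT.nd (nat_lit 78) (nat_lit 228) (nat_lit 0) (XT.lf (nat_lit 0) (nat_lit 9593831038) (nat_lit 304) (nat_lit 4930902587) (nat_lit 76) (nat_lit 87283190) (nat_lit 38) (nat_lit 5) (nat_lit 42) (nat_lit 5) (nat_lit 39) (nat_lit 4) (nat_lit 493) (nat_lit 348) (nat_lit 299)) (XT.nd (nat_lit 78) (nat_lit 76) (nat_lit 0) (XT.lf (nat_lit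 0) (nat_lit 3410021449) (nat_lit 152) (nat_lit 10456973181) (nat_lit 228) (nat_lit 939402451) (nat_lit 36) (nat_lit 5) (nat_lit 38) (nat_lit 5) (nat_lit 39) (nat_lit 4) (nat_lit 494) (nat_lit 348) (nat_lit 298)) (XT.lf (nat_lit 0) (nat_lit 3170659639) (nat_lit 228) (nat_lit 3112553579) (nat_lit 76) (nat_lit 8721201835) (nat_lit 35) (nat_lit 5) (nat_lit 38) (nat_lit 5) (nat_lit 36) (nat_lit 5) (nat_lit 495) (nat_lit 348) (nat_lit 297))))))) (XT.nd (nat_lit 780) (nat_lit 76) (nat_lit 0) (XT.nd (nat_lit 390) (nat_lit 532) (nat_lit 0) (XT.nd (nat_lit 156) (nat_lit 380) (nat_lit 0) (XT.nd (nat_lit 78) (nat_lit 0) (nat_lit 0) (XT.lf (nat_lit 0) (nat_lit 5330017715) (nat_lit 152) (nat_lit 2014393875) (nat_lit 228) (nat_lit 7861983398) (nat_lit 33) (nat_lit 5) (nat_lit 35) (nat_lit 5) (nat_lit 36) (nat_lit 5) (nat_lit 496) (nat_lit 348) (nat_lit 296)) (XT.lf (nat_lit 0) (nat_lit 11597450094) (nat_lit 228) (nat_lit 1514457189)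 (nat_lit 76) (nat_lit 2300598008) (nat_lit 33) (nat_lit 5) (nat_lit 36) (nat_lit 5) (nat_lit 34) (nat_lit 4) (nat_lit 497) (nat_lit 348) (nat_lit 295))) (XT.nd (nat_lit 78) (nat_lit 152) (nat_lit 0) (XT.lf (nat_lit 0) (nat_lit 328162803) (nat_lit 228) (nat_lit 8600408545) (nat_lit 76) (nat_lit 6693743484) (nat_lit 30) (nat_lit 5) (nat_lit 33) (nat_lit 5) (nat_lit 31) (nat_lit 5) (nat_lit 498) (nat_lit 348) (nat_lit 294)) (XT.nd (nat_lit 78) (nat_lit 152) (nat_lit 0) (XT.lf (nat_lit 0) (nat_lit 4473888929) (nat_lit 228) (nat_lit 181374716) (nat_lit 76) (nat_lit 11181144614) (nat_lit 30) (nat_lit 5) (nat_lit 33) (nat_lit 5) (nat_lit 31) (nat_lit 5) (nat_lit 499) (nat_lit 348) (nat_lit 293)) (XT.lf (nat_lit 0) (nat_lit 8448757806) (nat_lit 152) (nat_lit 269851706) (nat_lit 228) (nat_lit 7335858912) (nat_lit 28) (nat_lit 5) (nat_lit 30) (nat_lit 5) (nat_lit 31) (nat_lit 5) (nat_lit 500) (nat_lit 348) (nat_lit 292)))))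 (XT.nd (nat_lit 156) (nat_lit 304) (nat_lit 0) (XT.nd (nat_lit 78) (nat_lit 76) (nat_lit 0) (XT.lf (nat_lit 0) (nat_lit 893276201) (nat_lit 152) (nat_lit 12150620252) (nat_lit 228) (nat_lit 3233086239) (nat_lit 26) (nat_lit 5) (nat_lit 28) (nat_lit 5) (nat_lit 29) (nat_lit 4) (nat_lit 501) (nat_lit 348) (nat_lit 291)) (XT.lf (nat_lit 0) (nat_lit 953837364) (nat_lit 228) (nat_lit 6914187687) (nat_lit 76) (nat_lit 8635513144) (nat_lit 25) (nat_lit 5) (nat_lit 28) (nat_lit 5) (nat_lit 26) (nat_lit 5) (nat_lit 502) (nat_lit 348) (nat_lit 290))) (XT.nd (nat_lit 78) (nat_lit 152) (nat_lit 0) (XT.lf (nat_lit 0) (nat_lit 1658098809) (nat_lit 152) (nat_lit 3496086457) (nat_lit 228) (nat_lit 11580558566) (nat_lit 23) (nat_lit 5) (nat_lit 25) (nat_lit 5) (nat_lit 26) (nat_lit 5) (nat_lit 503) (nat_lit 348) (nat_lit 289)) (XT.nd (nat_lit 78) (nat_lit 152) (nat_lit 0) (XT.lf (nat_lit 0) (nat_lit 9453792062) (nat_lit 228)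 (nat_lit 6547737783) (nat_lit 76) (nat_lit 968744553) (nat_lit 23) (nat_lit 5) (nat_lit 26) (nat_lit 5) (nat_lit 24) (nat_lit 4) (nat_lit 504) (nat_lit 348) (nat_lit 288)) (XT.lf (nat_lit 0) (nat_lit 2090238729) (nat_lit 152) (nat_lit 11748908238) (nat_lit 228) (nat_lit 3371379231) (nat_lit 21) (nat_lit 5) (nat_lit 23) (nat_lit 5) (nat_lit 24) (nat_lit 4) (nat_lit 505) (nat_lit 348) (nat_lit 287)))))) (XT.nd (nat_lit 54678) (nat_lit 0) (nat_lit 10792) (XT.nd (nat_lit 54444) (nat_lit 0) (nat_lit 13452) (XT.nd (nat_lit 54366) (nat_lit 0) (nat_lit 14592) (XT.lf (nat_lit 0) (nat_lit 852705018) (nat_lit 228) (nat_lit 6536659198) (nat_lit 76) (nat_lit 10065966822) (nat_lit 20) (nat_lit 5) (nat_lit 23) (nat_lit 5) (nat_lit 21) (nat_lit 5) (nat_lit 506) (nat_lit 348) (nat_lit 286)) (XT.lf (nat_lit 0) (nat_lit 1150391661) (nat_lit 608) (nat_lit 1914059193) (nat_lit 0) (nat_lit 1150391661) (nat_lit 212) (nat_lit 5) (nat_lit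 220) (nat_lit 4) (nat_lit 212) (nat_lit 4) (nat_lit 442) (nat_lit 349) (nat_lit 349))) (XT.nd (nat_lit 78) (nat_lit 608) (nat_lit 0) (XT.lf (nat_lit 0) (nat_lit 2659316654) (nat_lit 532) (nat_lit 3467522604) (nat_lit 532) (nat_lit 2371283995) (nat_lit 205) (nat_lit 4) (nat_lit 212) (nat_lit 5) (nat_lit 212) (nat_lit 4) (nat_lit 443) (nat_lit 349) (nat_lit 348)) (XT.nd (nat_lit 78) (nat_lit 0) (nat_lit 0) (XT.lf (nat_lit 0) (nat_lit 673059014) (nat_lit 532) (nat_lit 734882251) (nat_lit 608) (nat_lit 7160514733) (nat_lit 197) (nat_lit 5) (nat_lit 204) (nat_lit 5) (nat_lit 205) (nat_lit 4) (nat_lit 444) (nat_lit 349) (nat_lit 347)) (XT.lf (nat_lit 0) (nat_lit 5219748159) (nat_lit 608) (nat_lit 1362062253) (nat_lit 0) (nat_lit 2058323972) (nat_lit 197) (nat_lit 5) (nat_lit 205) (nat_lit 4) (nat_lit 197) (nat_lit 4) (nat_lit 445) (nat_lit 349) (nat_lit 346))))) (XT.nd (nat_lit 234) (nat_lit 1064) (nat_lit 0) (XT.nd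 (nat_lit 78) (nat_lit 988) (nat_lit 0) (XT.lf (nat_lit 0) (nat_lit 365545886) (nat_lit 608) (nat_lit 3435776520) (nat_lit 76) (nat_lit 4912375564) (nat_lit 189) (nat_lit 5) (nat_lit 197) (nat_lit 5) (nat_lit 190) (nat_lit 4) (nat_lit 446) (nat_lit 349) (nat_lit 345)) (XT.nd (nat_lit 78) (nat_lit 532) (nat_lit 0) (XT.lf (nat_lit 0) (nat_lit 3213812866) (nat_lit 456) (nat_lit 935142163) (nat_lit 532) (nat_lit 4640000338) (nat_lit 183) (nat_lit 5) (nat_lit 189) (nat_lit 5) (nat_lit 190) (nat_lit 4) (nat_lit 447) (nat_lit 349) (nat_lit 344)) (XT.lf (nat_lit 0) (nat_lit 1092188079) (nat_lit 532) (nat_lit 6897017240) (nat_lit 532) (nat_lit 876914487) (nat_lit 176) (nat_lit 4) (nat_lit 183) (nat_lit 5) (nat_lit 183) (nat_lit 4) (nat_lit 448) (nat_lit 349) (nat_lit 343)))) (XT.nd (nat_lit 78) (nat_lit 988) (nat_lit 0) (XT.lf (nat_lit 0) (nat_lit 2904635316) (nat_lit 608) (nat_lit 1088368510) (nat_lit 76) (nat_lit 4951822684)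 (nat_lit 175) (nat_lit 5) (nat_lit 183) (nat_lit 5) (nat_lit 176) (nat_lit 4) (nat_lit 449) (nat_lit 349) (nat_lit 342)) (XT.nd (nat_lit 78) (nat_lit 532) (nat_lit 0) (XT.lf (nat_lit 0) (nat_lit 5714696220) (nat_lit 456) (nat_lit 1011893630) (nat_lit 532) (nat_lit 2298895148) (nat_lit 169) (nat_lit 5) (nat_lit 175) (nat_lit 5) (nat_lit 176) (nat_lit 4) (nat_lit 450) (nat_lit 349) (nat_lit 341)) (XT.lf (nat_lit 0) (nat_lit 1480371202) (nat_lit 532) (nat_lit 5609956797) (nat_lit 76) (nat_lit 2017593743) (nat_lit 162) (nat_lit 5) (nat_lit 169) (nat_lit 5) (nat_lit 163) (nat_lit 4) (nat_lit 451) (nat_lit 349) (nat_lit 340))))))))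
noncomputable def xc26 : XT := (XT.nd (nat_lit 1638) (nat_lit 3420) (nat_lit 0) (XT.nd (nat_lit 780) (nat_lit 2812) (nat_lit 0) (XT.nd (nat_lit 390) (nat_lit 1292) (nat_lit 0) (XT.nd (nat_lit 156) (nat_lit 1444) (nat_lit 0) (XT.nd (nat_lit 78) (nat_lit 0) (nat_lit 0) (XT.lf (nat_lit 0) (nat_lit 1203819419) (nat_lit 456) (nat_lit 4077617564) (nat_lit 532) (nat_lit 3910748909) (nat_lit 156) (nat_lit 5) (nat_lit 162) (nat_lit 5) (nat_lit 163) (nat_lit 4) (nat_lit 452) (nat_lit 349) (nat_lit 339)) (XT.lf (nat_lit 0) (nat_lit 8144376603) (nat_lit 456) (nat_lit 992498639) (nat_lit 532) (nat_lit 141715131) (nat_lit 156) (nat_lit 5) (nat_lit 162) (nat_lit 5) (nat_lit 163) (nat_lit 4) (nat_lit 453) (nat_lit 349) (nat_lit 338))) (XT.nd (nat_lit 78) (nat_lit 912) (nat_lit 0) (XT.lf (nat_lit 0) (nat_lit 3647644701) (nat_lit 532) (nat_lit 3556192261) (nat_lit 76) (nat_lit 2162556249) (nat_lit 149) (nat_lit 5) (nat_lit 156)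 (nat_lit 5) (nat_lit 150) (nat_lit 4) (nat_lit 454) (nat_lit 349) (nat_lit 337)) (XT.nd (nat_lit 78) (nat_lit 532) (nat_lit 0) (XT.lf (nat_lit 0) (nat_lit 3405061311) (nat_lit 380) (nat_lit 4084070518) (nat_lit 456) (nat_lit 1967257588) (nat_lit 144) (nat_lit 5) (nat_lit 149) (nat_lit 5) (nat_lit 150) (nat_lit 4) (nat_lit 455) (nat_lit 349) (nat_lit 336)) (XT.lf (nat_lit 0) (nat_lit 920536913) (nat_lit 456) (nat_lit 886423264) (nat_lit 532) (nat_lit 7741562297) (nat_lit 137) (nat_lit 5) (nat_lit 143) (nat_lit 5) (nat_lit 144) (nat_lit 5) (nat_lit 456) (nat_lit 349) (nat_lit 335))))) (XT.nd (nat_lit 156) (nat_lit 912) (nat_lit 0) (XT.nd (nat_lit 78) (nat_lit 380) (nat_lit 0) (XT.lf (nat_lit 0) (nat_lit 5629132934) (nat_lit 532) (nat_lit 1642307647) (nat_lit 76) (nat_lit 2370840894) (nat_lit 137) (nat_lit 5) (nat_lit 144) (nat_lit 5) (nat_lit 138) (nat_lit 4) (nat_lit 457) (nat_lit 349) (nat_lit 334)) (XT.lf (nat_lit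 0) (nat_lit 5464797191) (nat_lit 380) (nat_lit 4047920889) (nat_lit 456) (nat_lit 225517412) (nat_lit 132) (nat_lit 5) (nat_lit 137) (nat_lit 5) (nat_lit 138) (nat_lit 4) (nat_lit 458) (nat_lit 349) (nat_lit 333))) (XT.nd (nat_lit 78) (nat_lit 456) (nat_lit 0) (XT.lf (nat_lit 0) (nat_lit 2829534993) (nat_lit 380) (nat_lit 733877443) (nat_lit 456) (nat_lit 6272777085) (nat_lit 126) (nat_lit 5) (nat_lit 131) (nat_lit 5) (nat_lit 132) (nat_lit 5) (nat_lit 459) (nat_lit 349) (nat_lit 332)) (XT.nd (nat_lit 78) (nat_lit 76) (nat_lit 0) (XT.lf (nat_lit 0) (nat_lit 94647298) (nat_lit 380) (nat_lit 7321289037) (nat_lit 456) (nat_lit 2520337887) (nat_lit 121) (nat_lit 5) (nat_lit 126) (nat_lit 5) (nat_lit 127) (nat_lit 4) (nat_lit 460) (nat_lit 349) (nat_lit 331)) (XT.lf (nat_lit 0) (nat_lit 1286529624) (nat_lit 456) (nat_lit 2703020774) (nat_lit 76) (nat_lit 6048727421) (nat_lit 120) (nat_lit 5) (nat_lit 126) (nat_lit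 5) (nat_lit 121) (nat_lit 5) (nat_lit 461) (nat_lit 349) (nat_lit 330)))))) (XT.nd (nat_lit 390) (nat_lit 1368) (nat_lit 0) (XT.nd (nat_lit 156) (nat_lit 760) (nat_lit 0) (XT.nd (nat_lit 78) (nat_lit 304) (nat_lit 0) (XT.lf (nat_lit 0) (nat_lit 4537952828) (nat_lit 380) (nat_lit 572753988) (nat_lit 456) (nat_lit 5031800154) (nat_lit 115) (nat_lit 5) (nat_lit 120) (nat_lit 5) (nat_lit 121) (nat_lit 5) (nat_lit 462) (nat_lit 349) (nat_lit 329)) (XT.lf (nat_lit 0) (nat_lit 1630691922) (nat_lit 304) (nat_lit 7374203106) (nat_lit 380) (nat_lit 1244071854) (nat_lit 111) (nat_lit 5) (nat_lit 115) (nat_lit 5) (nat_lit 116) (nat_lit 4) (nat_lit 463) (nat_lit 349) (nat_lit 328))) (XT.nd (nat_lit 78) (nat_lit 684) (nat_lit 0) (XT.lf (nat_lit 0) (nat_lit 2572632928) (nat_lit 380) (nat_lit 1375017348) (nat_lit 76) (nat_lit 6409830134) (nat_lit 110) (nat_lit 5) (nat_lit 115) (nat_lit 5) (nat_lit 111) (nat_lit 5) (nat_lit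 464) (nat_lit 349) (nat_lit 327)) (XT.nd (nat_lit 78) (nat_lit 304) (nat_lit 0) (XT.lf (nat_lit 0) (nat_lit 6001440653) (nat_lit 380) (nat_lit 433538556) (nat_lit 456) (nat_lit 4033316987) (nat_lit 105) (nat_lit 5) (nat_lit 110) (nat_lit 5) (nat_lit 111) (nat_lit 5) (nat_lit 465) (nat_lit 349) (nat_lit 326)) (XT.lf (nat_lit 0) (nat_lit 2897939047) (nat_lit 304) (nat_lit 7472499847) (nat_lit 380) (nat_lit 210987526) (nat_lit 101) (nat_lit 5) (nat_lit 105) (nat_lit 5) (nat_lit 106) (nat_lit 4) (nat_lit 466) (nat_lit 349) (nat_lit 325))))) (XT.nd (nat_lit 234) (nat_lit 608) (nat_lit 0) (XT.nd (nat_lit 78) (nat_lit 684) (nat_lit 0) (XT.lf (nat_lit 0) (nat_lit 3619913267) (nat_lit 380) (nat_lit 335296877) (nat_lit 76) (nat_lit 6741535273) (nat_lit 100) (nat_lit 5) (nat_lit 105) (nat_lit 5) (nat_lit 101) (nat_lit 5) (nat_lit 467) (nat_lit 349) (nat_lit 324)) (XT.nd (nat_lit 78) (nat_lit 380) (nat_lit 0) (XT.lf (nat_lit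 0) (nat_lit 7171493170) (nat_lit 304) (nat_lit 348155160) (nat_lit 380) (nat_lit 3294808305) (nat_lit 96) (nat_lit 5) (nat_lit 100) (nat_lit 5) (nat_lit 101) (nat_lit 5) (nat_lit 468) (nat_lit 349) (nat_lit 323)) (XT.lf (nat_lit 0) (nat_lit 553080112) (nat_lit 380) (nat_lit 7092270353) (nat_lit 76) (nat_lit 3289160399) (nat_lit 91) (nat_lit 5) (nat_lit 96) (nat_lit 5) (nat_lit 92) (nat_lit 5) (nat_lit 469) (nat_lit 349) (nat_lit 322)))) (XT.nd (nat_lit 78) (nat_lit 304) (nat_lit 0) (XT.lf (nat_lit 0) (nat_lit 369115360) (nat_lit 304) (nat_lit 4042948049) (nat_lit 380) (nat_lit 6644915826) (nat_lit 87) (nat_lit 5) (nat_lit 91) (nat_lit 5) (nat_lit 92) (nat_lit 5) (nat_lit 470) (nat_lit 349) (nat_lit 321)) (XT.nd (nat_lit 78) (nat_lit 304) (nat_lit 0) (XT.lf (nat_lit 0) (nat_lit 7994911686) (nat_lit 304) (nat_lit 350286895) (nat_lit 380) (nat_lit 2836772402) (nat_lit 87) (nat_lit 5) (nat_lit 91) (nat_lit 5) (nat_lit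 92) (nat_lit 5) (nat_lit 471) (nat_lit 349) (nat_lit 320)) (XT.lf (nat_lit 0) (nat_lit 1034841907) (nat_lit 304) (nat_lit 6896901202) (nat_lit 76) (nat_lit 3377575429) (nat_lit 83) (nat_lit 5) (nat_lit 87) (nat_lit 5) (nat_lit 84) (nat_lit 5) (nat_lit 472) (nat_lit 349) (nat_lit 319))))))) (XT.nd (nat_lit 780) (nat_lit 1672) (nat_lit 0) (XT.nd (nat_lit 390) (nat_lit 836) (nat_lit 0) (XT.nd (nat_lit 156) (nat_lit 608) (nat_lit 0) (XT.nd (nat_lit 78) (nat_lit 0) (nat_lit 0) (XT.lf (nat_lit 0) (nat_lit 675586383) (nat_lit 304) (nat_lit 4248886746) (nat_lit 380) (nat_lit 6514806189) (nat_lit 79) (nat_lit 5) (nat_lit 83) (nat_lit 5) (nat_lit 84) (nat_lit 5) (nat_lit 473) (nat_lit 349) (nat_lit 318)) (XT.lf (nat_lit 0) (nat_lit 8413215801) (nat_lit 304) (nat_lit 475718335) (nat_lit 380) (nat_lit 2682976866) (nat_lit 79) (nat_lit 5) (nat_lit 83) (nat_lit 5) (nat_lit 84) (nat_lit 5) (nat_lit 474) (nat_lit 349) (nat_lit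 317))) (XT.nd (nat_lit 78) (nat_lit 304) (nat_lit 0) (XT.lf (nat_lit 0) (nat_lit 1212438822) (nat_lit 304) (nat_lit 7157867119) (nat_lit 76) (nat_lit 3336681744) (nat_lit 75) (nat_lit 5) (nat_lit 79) (nat_lit 5) (nat_lit 76) (nat_lit 5) (nat_lit 475) (nat_lit 349) (nat_lit 316)) (XT.nd (nat_lit 78) (nat_lit 0) (nat_lit 0) (XT.lf (nat_lit 0) (nat_lit 516127388) (nat_lit 304) (nat_lit 4613219686) (nat_lit 380) (nat_lit 6715485663) (nat_lit 71) (nat_lit 5) (nat_lit 75) (nat_lit 5) (nat_lit 76) (nat_lit 5) (nat_lit 476) (nat_lit 349) (nat_lit 315)) (XT.lf (nat_lit 0) (nat_lit 8361998831) (nat_lit 304) (nat_lit 762702838) (nat_lit 380) (nat_lit 2860742339) (nat_lit 71) (nat_lit 5) (nat_lit 75) (nat_lit 5) (nat_lit 76) (nat_lit 5) (nat_lit 477) (nat_lit 349) (nat_lit 314))))) (XT.nd (nat_lit 156) (nat_lit 532) (nat_lit 0) (XT.nd (nat_lit 78) (nat_lit 0) (nat_lit 0) (XT.lf (nat_lit 0) (nat_lit 1057629123) (nat_lit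 304) (nat_lit 7943310933) (nat_lit 76) (nat_lit 3127787783) (nat_lit 67) (nat_lit 5) (nat_lit 71) (nat_lit 5) (nat_lit 68) (nat_lit 5) (nat_lit 478) (nat_lit 349) (nat_lit 313)) (XT.lf (nat_lit 0) (nat_lit 4998547605) (nat_lit 304) (nat_lit 176943225) (nat_lit 76) (nat_lit 7099369448) (nat_lit 67) (nat_lit 5) (nat_lit 71) (nat_lit 5) (nat_lit 68) (nat_lit 5) (nat_lit 479) (nat_lit 349) (nat_lit 312))) (XT.nd (nat_lit 78) (nat_lit 304) (nat_lit 0) (XT.lf (nat_lit 0) (nat_lit 7770220643) (nat_lit 228) (nat_lit 1252358200) (nat_lit 304) (nat_lit 3401261242) (nat_lit 64) (nat_lit 5) (nat_lit 67) (nat_lit 5) (nat_lit 68) (nat_lit 5) (nat_lit 480) (nat_lit 349) (nat_lit 311)) (XT.nd (nat_lit 78) (nat_lit 0) (nat_lit 0) (XT.lf (nat_lit 0) (nat_lit 538226444) (nat_lit 304) (nat_lit 9328400806) (nat_lit 76) (nat_lit 2709227537) (nat_lit 60) (nat_lit 5) (nat_lit 64) (nat_lit 5) (nat_lit 61) (nat_lit 5) (nat_lit 481) (nat_lit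 349) (nat_lit 310)) (XT.lf (nat_lit 0) (nat_lit 4504887951) (nat_lit 304) (nat_lit 1468461031) (nat_lit 76) (nat_lit 6757242611) (nat_lit 60) (nat_lit 5) (nat_lit 64) (nat_lit 5) (nat_lit 61) (nat_lit 5) (nat_lit 482) (nat_lit 349) (nat_lit 309)))))) (XT.nd (nat_lit 390) (nat_lit 912) (nat_lit 0) (XT.nd (nat_lit 156) (nat_lit 304) (nat_lit 0) (XT.nd (nat_lit 78) (nat_lit 228) (nat_lit 0) (XT.lf (nat_lit 0) (nat_lit 6559430910) (nat_lit 228) (nat_lit 1989094438) (nat_lit 304) (nat_lit 4339954733) (nat_lit 57) (nat_lit 5) (nat_lit 60) (nat_lit 5) (nat_lit 61) (nat_lit 5) (nat_lit 483) (nat_lit 349) (nat_lit 308)) (XT.lf (nat_lit 0) (nat_lit 1651090782) (nat_lit 228) (nat_lit 11011309346) (nat_lit 304) (nat_lit 387348528) (nat_lit 54) (nat_lit 5) (nat_lit 57) (nat_lit 5) (nat_lit 58) (nat_lit 4) (nat_lit 484) (nat_lit 349) (nat_lit 307))) (XT.nd (nat_lit 78) (nat_lit 228) (nat_lit 0) (XT.lf (nat_lit 0) (nat_lit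 3607780795) (nat_lit 304) (nat_lit 3449473034) (nat_lit 76) (nat_lit 6156299445) (nat_lit 53) (nat_lit 5) (nat_lit 57) (nat_lit 5) (nat_lit 54) (nat_lit 5) (nat_lit 485) (nat_lit 349) (nat_lit 306)) (XT.nd (nat_lit 78) (nat_lit 0) (nat_lit 0) (XT.lf (nat_lit 0) (nat_lit 4642915136) (nat_lit 228) (nat_lit 3021077808) (nat_lit 304) (nat_lit 5716871551) (nat_lit 50) (nat_lit 5) (nat_lit 53) (nat_lit 5) (nat_lit 54) (nat_lit 5) (nat_lit 486) (nat_lit 349) (nat_lit 305)) (XT.lf (nat_lit 0) (nat_lit 11788146619) (nat_lit 304) (nat_lit 688718487) (nat_lit 76) (nat_lit 1074929364) (nat_lit 50) (nat_lit 5) (nat_lit 54) (nat_lit 5) (nat_lit 51) (nat_lit 4) (nat_lit 487) (nat_lit 349) (nat_lit 304))))) (XT.nd (nat_lit 234) (nat_lit 456) (nat_lit 0) (XT.nd (nat_lit 78) (nat_lit 228) (nat_lit 0) (XT.lf (nat_lit 0) (nat_lit 2265187279) (nat_lit 228) (nat_lit 6213163025) (nat_lit 76) (nat_lit 5246980670) (nat_lit 47) (nat_lit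 5) (nat_lit 50) (nat_lit 5) (nat_lit 48) (nat_lit 5) (nat_lit 488) (nat_lit 349) (nat_lit 303)) (XT.nd (nat_lit 78) (nat_lit 0) (nat_lit 0) (XT.lf (nat_lit 0) (nat_lit 1924754992) (nat_lit 228) (nat_lit 4400735507) (nat_lit 304) (nat_lit 7577132786) (nat_lit 44) (nat_lit 5) (nat_lit 47) (nat_lit 5) (nat_lit 48) (nat_lit 5) (nat_lit 489) (nat_lit 349) (nat_lit 302)) (XT.lf (nat_lit 0) (nat_lit 10237192078) (nat_lit 228) (nat_lit 229202898) (nat_lit 304) (nat_lit 3617086764) (nat_lit 44) (nat_lit 5) (nat_lit 47) (nat_lit 5) (nat_lit 48) (nat_lit 5) (nat_lit 490) (nat_lit 349) (nat_lit 301)))) (XT.nd (nat_lit 78) (nat_lit 228) (nat_lit 0) (XT.lf (nat_lit 0) (nat_lit 429798221) (nat_lit 228) (nat_lit 9862622951) (nat_lit 76) (nat_lit 3975225759) (nat_lit 41) (nat_lit 5) (nat_lit 44) (nat_lit 5) (nat_lit 42) (nat_lit 5) (nat_lit 491) (nat_lit 349) (nat_lit 300)) (XT.nd (nat_lit 78) (nat_lit 228) (nat_lit 0) (XT.lf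 (nat_lit 0) (nat_lit 4495145021) (nat_lit 228) (nat_lit 1678894680) (nat_lit 76) (nat_lit 8281266135) (nat_lit 41) (nat_lit 5) (nat_lit 44) (nat_lit 5) (nat_lit 42) (nat_lit 5) (nat_lit 492) (nat_lit 349) (nat_lit 299)) (XT.lf (nat_lit 0) (nat_lit 6685827528) (nat_lit 228) (nat_lit 1958607675) (nat_lit 304) (nat_lit 6002237562) (nat_lit 38) (nat_lit 5) (nat_lit 41) (nat_lit 5) (nat_lit 42) (nat_lit 5) (nat_lit 493) (nat_lit 349) (nat_lit 298))))))))
noncomputable def xc27 : XT := (XT.nd (nat_lit 55770) (nat_lit 0) (nat_lit 5700) (XT.nd (nat_lit 780) (nat_lit 304) (nat_lit 0) (XT.nd (nat_lit 390) (nat_lit 456) (nat_lit 0) (XT.nd (nat_lit 156) (nat_lit 304) (nat_lit 0) (XT.nd (nat_lit 78) (nat_lit 76) (nat_lit 0) (XT.lf (nat_lit 0) (nat_lit 317319131) (nat_lit 152) (nat_lit 12547375208) (nat_lit 228) (nat_lit 1977420458) (nat_lit 36) (nat_lit 5) (nat_lit 38) (nat_lit 5) (nat_lit 39) (nat_lit 4) (nat_lit 494) (nat_lit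 349) (nat_lit 297)) (XT.lf (nat_lit 0) (nat_lit 2126180894) (nat_lit 228) (nat_lit 6269189623) (nat_lit 76) (nat_lit 6645302066) (nat_lit 35) (nat_lit 5) (nat_lit 38) (nat_lit 5) (nat_lit 36) (nat_lit 5) (nat_lit 495) (nat_lit 349) (nat_lit 296))) (XT.nd (nat_lit 78) (nat_lit 152) (nat_lit 0) (XT.lf (nat_lit 0) (nat_lit 2096706098) (nat_lit 152) (nat_lit 4162553032) (nat_lit 228) (nat_lit 8984210328) (nat_lit 33) (nat_lit 5) (nat_lit 35) (nat_lit 5) (nat_lit 36) (nat_lit 5) (nat_lit 496) (nat_lit 349) (nat_lit 295)) (XT.nd (nat_lit 78) (nat_lit 152) (nat_lit 0) (XT.lf (nat_lit 0) (nat_lit 10478739980) (nat_lit 228) (nat_lit 4805240038) (nat_lit 76) (nat_lit 166274294) (nat_lit 33) (nat_lit 5) (nat_lit 36) (nat_lit 5) (nat_lit 34) (nat_lit 4) (nat_lit 497) (nat_lit 349) (nat_lit 294)) (XT.lf (nat_lit 0) (nat_lit 3655474723) (nat_lit 152) (nat_lit 11139599820) (nat_lit 228) (nat_lit 865857763) (nat_lit 31) (nat_lit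 5) (nat_lit 33) (nat_lit 5) (nat_lit 34) (nat_lit 4) (nat_lit 498) (nat_lit 349) (nat_lit 293))))) (XT.nd (nat_lit 156) (nat_lit 228) (nat_lit 0) (XT.nd (nat_lit 78) (nat_lit 152) (nat_lit 0) (XT.lf (nat_lit 0) (nat_lit 3272028695) (nat_lit 228) (nat_lit 3614509438) (nat_lit 76) (nat_lit 8988987147) (nat_lit 30) (nat_lit 5) (nat_lit 33) (nat_lit 5) (nat_lit 31) (nat_lit 5) (nat_lit 499) (nat_lit 349) (nat_lit 292)) (XT.lf (nat_lit 0) (nat_lit 4936512883) (nat_lit 152) (nat_lit 2538613407) (nat_lit 228) (nat_lit 8619294752) (nat_lit 28) (nat_lit 5) (nat_lit 30) (nat_lit 5) (nat_lit 31) (nat_lit 5) (nat_lit 500) (nat_lit 349) (nat_lit 291))) (XT.nd (nat_lit 78) (nat_lit 228) (nat_lit 0) (XT.lf (nat_lit 0) (nat_lit 11761127901) (nat_lit 228) (nat_lit 2689019947) (nat_lit 76) (nat_lit 1867576245) (nat_lit 28) (nat_lit 5) (nat_lit 31) (nat_lit 5) (nat_lit 29) (nat_lit 4) (nat_lit 501) (nat_lit 349) (nat_lit 290))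 (XT.nd (nat_lit 78) (nat_lit 76) (nat_lit 0) (XT.lf (nat_lit 0) (nat_lit 5944823868) (nat_lit 152) (nat_lit 10206292610) (nat_lit 228) (nat_lit 394017481) (nat_lit 26) (nat_lit 5) (nat_lit 28) (nat_lit 5) (nat_lit 29) (nat_lit 4) (nat_lit 502) (nat_lit 349) (nat_lit 289)) (XT.lf (nat_lit 0) (nat_lit 3782372480) (nat_lit 228) (nat_lit 2079709102) (nat_lit 76) (nat_lit 10914894588) (nat_lit 25) (nat_lit 5) (nat_lit 28) (nat_lit 5) (nat_lit 26) (nat_lit 5) (nat_lit 503) (nat_lit 349) (nat_lit 288)))))) (XT.nd (nat_lit 54522) (nat_lit 0) (nat_lit 12312) (XT.nd (nat_lit 156) (nat_lit 152) (nat_lit 0) (XT.nd (nat_lit 78) (nat_lit 0) (nat_lit 0) (XT.lf (nat_lit 0) (nat_lit 6631307582) (nat_lit 152) (nat_lit 1412406399) (nat_lit 228) (nat_lit 8969560903) (nat_lit 23) (nat_lit 5) (nat_lit 25) (nat_lit 5) (nat_lit 26) (nat_lit 5) (nat_lit 504) (nat_lit 349) (nat_lit 287)) (XT.lf (nat_lit 0) (nat_lit 12388385179) (nat_lit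 228) (nat_lit 1794155274) (nat_lit 76) (nat_lit 3071802691) (nat_lit 23) (nat_lit 5) (nat_lit 26) (nat_lit 5) (nat_lit 24) (nat_lit 4) (nat_lit 505) (nat_lit 349) (nat_lit 286))) (XT.nd (nat_lit 54210) (nat_lit 0) (nat_lit 15124) (XT.lf (nat_lit 0) (nat_lit 6984445655) (nat_lit 152) (nat_lit 9854672869) (nat_lit 228) (nat_lit 660736391) (nat_lit 21) (nat_lit 5) (nat_lit 23) (nat_lit 5) (nat_lit 24) (nat_lit 4) (nat_lit 506) (nat_lit 349) (nat_lit 285)) (XT.nd (nat_lit 78) (nat_lit 0) (nat_lit 0) (XT.lf (nat_lit 0) (nat_lit 41703639) (nat_lit 608) (nat_lit 2053451944) (nat_lit 608) (nat_lit 2053451944) (nat_lit 220) (nat_lit 4) (nat_lit 228) (nat_lit 5) (nat_lit 228) (nat_lit 4) (nat_lit 440) (nat_lit 350) (nat_lit 350)) (XT.lf (nat_lit 0) (nat_lit 6499729888) (nat_lit 608) (nat_lit 1501929300) (nat_lit 608) (nat_lit 361402651) (nat_lit 220) (nat_lit 4) (nat_lit 228) (nat_lit 5) (nat_lit 228) (nat_lit 4) (nat_lit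 441) (nat_lit 350) (nat_lit 349))))) (XT.nd (nat_lit 234) (nat_lit 1064) (nat_lit 0) (XT.nd (nat_lit 78) (nat_lit 1140) (nat_lit 0) (XT.lf (nat_lit 0) (nat_lit 3386835271) (nat_lit 608) (nat_lit 3871073123) (nat_lit 0) (nat_lit 1172433281) (nat_lit 212) (nat_lit 5) (nat_lit 220) (nat_lit 4) (nat_lit 212) (nat_lit 4) (nat_lit 442) (nat_lit 350) (nat_lit 348)) (XT.nd (nat_lit 78) (nat_lit 608) (nat_lit 0) (XT.lf (nat_lit 0) (nat_lit 2573118931) (nat_lit 532) (nat_lit 4607730828) (nat_lit 532) (nat_lit 1318585104) (nat_lit 205) (nat_lit 4) (nat_lit 212) (nat_lit 5) (nat_lit 212) (nat_lit 4) (nat_lit 443) (nat_lit 350) (nat_lit 347)) (XT.lf (nat_lit 0) (nat_lit 534633668) (nat_lit 532) (nat_lit 1879945401) (nat_lit 608) (nat_lit 6155710523) (nat_lit 197) (nat_lit 5) (nat_lit 204) (nat_lit 5) (nat_lit 205) (nat_lit 4) (nat_lit 444) (nat_lit 350) (nat_lit 346)))) (XT.nd (nat_lit 78) (nat_lit 1064) (nat_lit 0) (XT.lf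 (nat_lit 0) (nat_lit 6187866411) (nat_lit 608) (nat_lit 1537436686) (nat_lit 0) (nat_lit 917448590) (nat_lit 197) (nat_lit 5) (nat_lit 205) (nat_lit 4) (nat_lit 197) (nat_lit 4) (nat_lit 445) (nat_lit 350) (nat_lit 345)) (XT.nd (nat_lit 78) (nat_lit 456) (nat_lit 0) (XT.lf (nat_lit 0) (nat_lit 1286256191) (nat_lit 608) (nat_lit 3665077398) (nat_lit 76) (nat_lit 3765511674) (nat_lit 189) (nat_lit 5) (nat_lit 197) (nat_lit 5) (nat_lit 190) (nat_lit 4) (nat_lit 446) (nat_lit 350) (nat_lit 344)) (XT.lf (nat_lit 0) (nat_lit 2939051186) (nat_lit 456) (nat_lit 2098470894) (nat_lit 532) (nat_lit 3755235994) (nat_lit 183) (nat_lit 5) (nat_lit 189) (nat_lit 5) (nat_lit 190) (nat_lit 4) (nat_lit 447) (nat_lit 350) (nat_lit 343))))))) (XT.nd (nat_lit 780) (nat_lit 3116) (nat_lit 0) (XT.nd (nat_lit 390) (nat_lit 1444) (nat_lit 0) (XT.nd (nat_lit 156) (nat_lit 1444) (nat_lit 0) (XT.nd (nat_lit 78) (nat_lit 76) (nat_lit 0)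 (XT.lf (nat_lit 0) (nat_lit 774895559) (nat_lit 532) (nat_lit 8063154643) (nat_lit 532) (nat_lit 32679059) (nat_lit 176) (nat_lit 4) (nat_lit 183) (nat_lit 5) (nat_lit 183) (nat_lit 4) (nat_lit 448) (nat_lit 350) (nat_lit 342)) (XT.lf (nat_lit 0) (nat_lit 3707798962) (nat_lit 608) (nat_lit 1458005108) (nat_lit 76) (nat_lit 3784134085) (nat_lit 175) (nat_lit 5) (nat_lit 183) (nat_lit 5) (nat_lit 176) (nat_lit 4) (nat_lit 449) (nat_lit 350) (nat_lit 341))) (XT.nd (nat_lit 78) (nat_lit 988) (nat_lit 0) (XT.lf (nat_lit 0) (nat_lit 5298172042) (nat_lit 456) (nat_lit 2199465846) (nat_lit 532) (nat_lit 1533612663) (nat_lit 169) (nat_lit 5) (nat_lit 175) (nat_lit 5) (nat_lit 176) (nat_lit 4) (nat_lit 450) (nat_lit 350) (nat_lit 340)) (XT.nd (nat_lit 78) (nat_lit 456) (nat_lit 0) (XT.lf (nat_lit 0) (nat_lit 2195449341) (nat_lit 532) (nat_lit 6083545945) (nat_lit 76) (nat_lit 835407129) (nat_lit 162) (nat_lit 5) (nat_lit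 169) (nat_lit 5) (nat_lit 163) (nat_lit 4) (nat_lit 451) (nat_lit 350) (nat_lit 339)) (XT.lf (nat_lit 0) (nat_lit 681590482) (nat_lit 456) (nat_lit 5282455160) (nat_lit 532) (nat_lit 3235281239) (nat_lit 156) (nat_lit 5) (nat_lit 162) (nat_lit 5) (nat_lit 163) (nat_lit 4) (nat_lit 452) (nat_lit 350) (nat_lit 338))))) (XT.nd (nat_lit 156) (nat_lit 912) (nat_lit 0) (XT.nd (nat_lit 78) (nat_lit 456) (nat_lit 0) (XT.lf (nat_lit 0) (nat_lit 497772923) (nat_lit 532) (nat_lit 1708960519) (nat_lit 76) (nat_lit 7079518700) (nat_lit 155) (nat_lit 5) (nat_lit 162) (nat_lit 5) (nat_lit 156) (nat_lit 5) (nat_lit 453) (nat_lit 350) (nat_lit 337)) (XT.lf (nat_lit 0) (nat_lit 4244818684) (nat_lit 532) (nat_lit 4181461367) (nat_lit 76) (nat_lit 948575932) (nat_lit 149) (nat_lit 5) (nat_lit 156) (nat_lit 5) (nat_lit 150) (nat_lit 4) (nat_lit 454) (nat_lit 350) (nat_lit 336))) (XT.nd (nat_lit 78) (nat_lit 532) (nat_lit 0) (XT.lf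 (nat_lit 0) (nat_lit 2729624482) (nat_lit 380) (nat_lit 5324094411) (nat_lit 456) (nat_lit 1411795128) (nat_lit 144) (nat_lit 5) (nat_lit 149) (nat_lit 5) (nat_lit 150) (nat_lit 4) (nat_lit 455) (nat_lit 350) (nat_lit 335)) (XT.nd (nat_lit 78) (nat_lit 0) (nat_lit 0) (XT.lf (nat_lit 0) (nat_lit 181252458) (nat_lit 456) (nat_lit 2140975623) (nat_lit 532) (nat_lit 7236014762) (nat_lit 137) (nat_lit 5) (nat_lit 143) (nat_lit 5) (nat_lit 144) (nat_lit 5) (nat_lit 456) (nat_lit 350) (nat_lit 334)) (XT.lf (nat_lit 0) (nat_lit 6108343321) (nat_lit 532) (nat_lit 2424794847) (nat_lit 76) (nat_lit 1119594339) (nat_lit 137) (nat_lit 5) (nat_lit 144) (nat_lit 5) (nat_lit 138) (nat_lit 4) (nat_lit 457) (nat_lit 350) (nat_lit 333)))))) (XT.nd (nat_lit 390) (nat_lit 1444) (nat_lit 0) (XT.nd (nat_lit 156) (nat_lit 836) (nat_lit 0) (XT.nd (nat_lit 78) (nat_lit 380) (nat_lit 0) (XT.lf (nat_lit 0) (nat_lit 207044210) (nat_lit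 456) (nat_lit 5120156355) (nat_lit 76) (nat_lit 4422123668) (nat_lit 131) (nat_lit 5) (nat_lit 137) (nat_lit 5) (nat_lit 132) (nat_lit 5) (nat_lit 458) (nat_lit 350) (nat_lit 332)) (XT.lf (nat_lit 0) (nat_lit 1928622569) (nat_lit 380) (nat_lit 2031264529) (nat_lit 456) (nat_lit 5888033428) (nat_lit 126) (nat_lit 5) (nat_lit 131) (nat_lit 5) (nat_lit 132) (nat_lit 5) (nat_lit 459) (nat_lit 350) (nat_lit 331))) (XT.nd (nat_lit 78) (nat_lit 836) (nat_lit 0) (XT.lf (nat_lit 0) (nat_lit 7776275516) (nat_lit 456) (nat_lit 851919738) (nat_lit 76) (nat_lit 1320541470) (nat_lit 126) (nat_lit 5) (nat_lit 132) (nat_lit 5) (nat_lit 127) (nat_lit 4) (nat_lit 460) (nat_lit 350) (nat_lit 330)) (XT.nd (nat_lit 78) (nat_lit 380) (nat_lit 0) (XT.lf (nat_lit 0) (nat_lit 1597184514) (nat_lit 456) (nat_lit 3716908352) (nat_lit 76) (nat_lit 4737263916) (nat_lit 120) (nat_lit 5) (nat_lit 126) (nat_lit 5) (nat_lit 121) (nat_lit 5)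 (nat_lit 461) (nat_lit 350) (nat_lit 329)) (XT.lf (nat_lit 0) (nat_lit 3469659440) (nat_lit 380) (nat_lit 1918278481) (nat_lit 456) (nat_lit 4768324769) (nat_lit 115) (nat_lit 5) (nat_lit 120) (nat_lit 5) (nat_lit 121) (nat_lit 5) (nat_lit 462) (nat_lit 350) (nat_lit 328))))) (XT.nd (nat_lit 234) (nat_lit 684) (nat_lit 0) (XT.nd (nat_lit 78) (nat_lit 456) (nat_lit 0) (XT.lf (nat_lit 0) (nat_lit 502004269) (nat_lit 304) (nat_lit 8737738492) (nat_lit 380) (nat_lit 1023835625) (nat_lit 111) (nat_lit 5) (nat_lit 115) (nat_lit 5) (nat_lit 116) (nat_lit 4) (nat_lit 463) (nat_lit 350) (nat_lit 327)) (XT.nd (nat_lit 78) (nat_lit 380) (nat_lit 0) (XT.lf (nat_lit 0) (nat_lit 2763735481) (nat_lit 380) (nat_lit 2560407736) (nat_lit 76) (nat_lit 5048452807) (nat_lit 110) (nat_lit 5) (nat_lit 115) (nat_lit 5) (nat_lit 111) (nat_lit 5) (nat_lit 464) (nat_lit 350) (nat_lit 326)) (XT.lf (nat_lit 0) (nat_lit 4759903249) (nat_lit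 380) (nat_lit 1832387005) (nat_lit 456) (nat_lit 3891805037) (nat_lit 105) (nat_lit 5) (nat_lit 110) (nat_lit 5) (nat_lit 111) (nat_lit 5) (nat_lit 465) (nat_lit 350) (nat_lit 325)))) (XT.nd (nat_lit 78) (nat_lit 380) (nat_lit 0) (XT.lf (nat_lit 0) (nat_lit 1592536951) (nat_lit 304) (nat_lit 8892080309) (nat_lit 380) (nat_lit 113478409) (nat_lit 101) (nat_lit 5) (nat_lit 105) (nat_lit 5) (nat_lit 106) (nat_lit 4) (nat_lit 466) (nat_lit 350) (nat_lit 324)) (XT.nd (nat_lit 78) (nat_lit 304) (nat_lit 0) (XT.lf (nat_lit 0) (nat_lit 3690636923) (nat_lit 380) (nat_lit 1698111421) (nat_lit 76) (nat_lit 5325171001) (nat_lit 100) (nat_lit 5) (nat_lit 105) (nat_lit 5) (nat_lit 101) (nat_lit 5) (nat_lit 467) (nat_lit 350) (nat_lit 323)) (XT.lf (nat_lit 0) (nat_lit 5750721314) (nat_lit 304) (nat_lit 1805419597) (nat_lit 380) (nat_lit 3276181342) (nat_lit 96) (nat_lit 5) (nat_lit 100) (nat_lit 5) (nat_lit 101) (nat_lit 5)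 (nat_lit 468) (nat_lit 350) (nat_lit 322))))))))
noncomputable def xc28 : XT := (XT.nd (nat_lit 1560) (nat_lit 1976) (nat_lit 0) (XT.nd (nat_lit 780) (nat_lit 1520) (nat_lit 0) (XT.nd (nat_lit 390) (nat_lit 1216) (nat_lit 0) (XT.nd (nat_lit 156) (nat_lit 608) (nat_lit 0) (XT.nd (nat_lit 78) (nat_lit 0) (nat_lit 0) (XT.lf (nat_lit 0) (nat_lit 527178333) (nat_lit 380) (nat_lit 8599020192) (nat_lit 76) (nat_lit 1827068021) (nat_lit 91) (nat_lit 5) (nat_lit 96) (nat_lit 5) (nat_lit 92) (nat_lit 5) (nat_lit 469) (nat_lit 350) (nat_lit 321)) (XT.lf (nat_lit 0) (nat_lit 4358965560) (nat_lit 380) (nat_lit 1182026461) (nat_lit 76) (nat_lit 5535293476) (nat_lit 91) (nat_lit 5) (nat_lit 96) (nat_lit 5) (nat_lit 92) (nat_lit 5) (nat_lit 470) (nat_lit 350) (nat_lit 320))) (XT.nd (nat_lit 78) (nat_lit 304) (nat_lit 0) (XT.lf (nat_lit 0) (nat_lit 6388770589) (nat_lit 304) (nat_lit 1870985287) (nat_lit 380) (nat_lit 2942174795)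 (nat_lit 87) (nat_lit 5) (nat_lit 91) (nat_lit 5) (nat_lit 92) (nat_lit 5) (nat_lit 471) (nat_lit 350) (nat_lit 319)) (XT.nd (nat_lit 78) (nat_lit 0) (nat_lit 0) (XT.lf (nat_lit 0) (nat_lit 885575112) (nat_lit 304) (nat_lit 8593922279) (nat_lit 76) (nat_lit 1850705732) (nat_lit 83) (nat_lit 5) (nat_lit 87) (nat_lit 5) (nat_lit 84) (nat_lit 5) (nat_lit 472) (nat_lit 350) (nat_lit 318)) (XT.lf (nat_lit 0) (nat_lit 4746697910) (nat_lit 304) (nat_lit 1069280613) (nat_lit 76) (nat_lit 5644761703) (nat_lit 83) (nat_lit 5) (nat_lit 87) (nat_lit 5) (nat_lit 84) (nat_lit 5) (nat_lit 473) (nat_lit 350) (nat_lit 317))))) (XT.nd (nat_lit 156) (nat_lit 608) (nat_lit 0) (XT.nd (nat_lit 78) (nat_lit 304) (nat_lit 0) (XT.lf (nat_lit 0) (nat_lit 6615409627) (nat_lit 304) (nat_lit 2064814005) (nat_lit 380) (nat_lit 2913773014) (nat_lit 79) (nat_lit 5) (nat_lit 83) (nat_lit 5) (nat_lit 84) (nat_lit 5) (nat_lit 474) (nat_lit 350)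 (nat_lit 316)) (XT.lf (nat_lit 0) (nat_lit 938357975) (nat_lit 304) (nat_lit 9051557603) (nat_lit 76) (nat_lit 1740119752) (nat_lit 75) (nat_lit 5) (nat_lit 79) (nat_lit 5) (nat_lit 76) (nat_lit 5) (nat_lit 475) (nat_lit 350) (nat_lit 315))) (XT.nd (nat_lit 78) (nat_lit 608) (nat_lit 0) (XT.lf (nat_lit 0) (nat_lit 4828442730) (nat_lit 304) (nat_lit 1422747290) (nat_lit 76) (nat_lit 5617232516) (nat_lit 75) (nat_lit 5) (nat_lit 79) (nat_lit 5) (nat_lit 76) (nat_lit 5) (nat_lit 476) (nat_lit 350) (nat_lit 314)) (XT.nd (nat_lit 78) (nat_lit 304) (nat_lit 0) (XT.lf (nat_lit 0) (nat_lit 6366054231) (nat_lit 304) (nat_lit 2425122930) (nat_lit 380) (nat_lit 3218514624) (nat_lit 71) (nat_lit 5) (nat_lit 75) (nat_lit 5) (nat_lit 76) (nat_lit 5) (nat_lit 477) (nat_lit 350) (nat_lit 313)) (XT.lf (nat_lit 0) (nat_lit 657070784) (nat_lit 304) (nat_lit 10040257675) (nat_lit 76) (nat_lit 1456648537) (nat_lit 67) (nat_lit 5)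 (nat_lit 71) (nat_lit 5) (nat_lit 68) (nat_lit 5) (nat_lit 478) (nat_lit 350) (nat_lit 312)))))) (XT.nd (nat_lit 390) (nat_lit 760) (nat_lit 0) (XT.nd (nat_lit 156) (nat_lit 532) (nat_lit 0) (XT.nd (nat_lit 78) (nat_lit 228) (nat_lit 0) (XT.lf (nat_lit 0) (nat_lit 4575140237) (nat_lit 304) (nat_lit 2311731073) (nat_lit 76) (nat_lit 5413700356) (nat_lit 67) (nat_lit 5) (nat_lit 71) (nat_lit 5) (nat_lit 68) (nat_lit 5) (nat_lit 479) (nat_lit 350) (nat_lit 311)) (XT.lf (nat_lit 0) (nat_lit 5569470437) (nat_lit 228) (nat_lit 2993011298) (nat_lit 304) (nat_lit 3887808681) (nat_lit 64) (nat_lit 5) (nat_lit 67) (nat_lit 5) (nat_lit 68) (nat_lit 5) (nat_lit 480) (nat_lit 350) (nat_lit 310))) (XT.nd (nat_lit 78) (nat_lit 228) (nat_lit 0) (XT.lf (nat_lit 0) (nat_lit 9313754) (nat_lit 304) (nat_lit 11635395570) (nat_lit 76) (nat_lit 958638850) (nat_lit 60) (nat_lit 5) (nat_lit 64) (nat_lit 5) (nat_lit 61) (nat_lit 5) (nat_lit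 481) (nat_lit 350) (nat_lit 309)) (XT.nd (nat_lit 78) (nat_lit 228) (nat_lit 0) (XT.lf (nat_lit 0) (nat_lit 3953725006) (nat_lit 304) (nat_lit 3812720520) (nat_lit 76) (nat_lit 4992089311) (nat_lit 60) (nat_lit 5) (nat_lit 64) (nat_lit 5) (nat_lit 61) (nat_lit 5) (nat_lit 482) (nat_lit 350) (nat_lit 308)) (XT.lf (nat_lit 0) (nat_lit 4146997883) (nat_lit 228) (nat_lit 3812887430) (nat_lit 304) (nat_lit 4957292311) (nat_lit 57) (nat_lit 5) (nat_lit 60) (nat_lit 5) (nat_lit 61) (nat_lit 5) (nat_lit 483) (nat_lit 350) (nat_lit 307))))) (XT.nd (nat_lit 156) (nat_lit 456) (nat_lit 0) (XT.nd (nat_lit 78) (nat_lit 304) (nat_lit 0) (XT.lf (nat_lit 0) (nat_lit 12029481690) (nat_lit 304) (nat_lit 836488396) (nat_lit 76) (nat_lit 213366342) (nat_lit 57) (nat_lit 5) (nat_lit 61) (nat_lit 5) (nat_lit 58) (nat_lit 4) (nat_lit 484) (nat_lit 350) (nat_lit 306)) (XT.lf (nat_lit 0) (nat_lit 2926749112) (nat_lit 304) (nat_lit 6010215701)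 (nat_lit 76) (nat_lit 4306811032) (nat_lit 53) (nat_lit 5) (nat_lit 57) (nat_lit 5) (nat_lit 54) (nat_lit 5) (nat_lit 485) (nat_lit 350) (nat_lit 305))) (XT.nd (nat_lit 78) (nat_lit 228) (nat_lit 0) (XT.lf (nat_lit 0) (nat_lit 2011695873) (nat_lit 228) (nat_lit 4932932059) (nat_lit 304) (nat_lit 6467230194) (nat_lit 50) (nat_lit 5) (nat_lit 53) (nat_lit 5) (nat_lit 54) (nat_lit 5) (nat_lit 486) (nat_lit 350) (nat_lit 304)) (XT.nd (nat_lit 78) (nat_lit 228) (nat_lit 0) (XT.lf (nat_lit 0) (nat_lit 10203339011) (nat_lit 228) (nat_lit 837305656) (nat_lit 304) (nat_lit 2542710482) (nat_lit 50) (nat_lit 5) (nat_lit 53) (nat_lit 5) (nat_lit 54) (nat_lit 5) (nat_lit 487) (nat_lit 350) (nat_lit 303)) (XT.lf (nat_lit 0) (nat_lit 1451961649) (nat_lit 228) (nat_lit 8997638630) (nat_lit 76) (nat_lit 3308284290) (nat_lit 47) (nat_lit 5) (nat_lit 50) (nat_lit 5) (nat_lit 48) (nat_lit 5) (nat_lit 488) (nat_lit 350) (nat_lit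 302))))))) (XT.nd (nat_lit 780) (nat_lit 760) (nat_lit 0) (XT.nd (nat_lit 390) (nat_lit 532) (nat_lit 0) (XT.nd (nat_lit 156) (nat_lit 456) (nat_lit 0) (XT.nd (nat_lit 78) (nat_lit 228) (nat_lit 0) (XT.lf (nat_lit 0) (nat_lit 5479061181) (nat_lit 228) (nat_lit 920365120) (nat_lit 76) (nat_lit 7536418711) (nat_lit 47) (nat_lit 5) (nat_lit 50) (nat_lit 5) (nat_lit 48) (nat_lit 5) (nat_lit 489) (nat_lit 350) (nat_lit 301)) (XT.lf (nat_lit 0) (nat_lit 7344672697) (nat_lit 228) (nat_lit 2248708708) (nat_lit 304) (nat_lit 4523857728) (nat_lit 44) (nat_lit 5) (nat_lit 47) (nat_lit 5) (nat_lit 48) (nat_lit 5) (nat_lit 490) (nat_lit 350) (nat_lit 300))) (XT.nd (nat_lit 78) (nat_lit 304) (nat_lit 0) (XT.lf (nat_lit 0) (nat_lit 1420774777) (nat_lit 152) (nat_lit 12356698860) (nat_lit 228) (nat_lit 525045666) (nat_lit 42) (nat_lit 5) (nat_lit 44) (nat_lit 5) (nat_lit 45) (nat_lit 4) (nat_lit 491) (nat_lit 350) (nat_lit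 299)) (XT.nd (nat_lit 78) (nat_lit 228) (nat_lit 0) (XT.lf (nat_lit 0) (nat_lit 3527002855) (nat_lit 228) (nat_lit 4729442191) (nat_lit 76) (nat_lit 6234208778) (nat_lit 41) (nat_lit 5) (nat_lit 44) (nat_lit 5) (nat_lit 42) (nat_lit 5) (nat_lit 492) (nat_lit 350) (nat_lit 298)) (XT.lf (nat_lit 0) (nat_lit 3560134145) (nat_lit 228) (nat_lit 4076076243) (nat_lit 304) (nat_lit 7046615695) (nat_lit 38) (nat_lit 5) (nat_lit 41) (nat_lit 5) (nat_lit 42) (nat_lit 5) (nat_lit 493) (nat_lit 350) (nat_lit 297))))) (XT.nd (nat_lit 156) (nat_lit 304) (nat_lit 0) (XT.nd (nat_lit 78) (nat_lit 228) (nat_lit 0) (XT.lf (nat_lit 0) (nat_lit 11820947540) (nat_lit 304) (nat_lit 2869171551) (nat_lit 76) (nat_lit 188863069) (nat_lit 38) (nat_lit 5) (nat_lit 42) (nat_lit 5) (nat_lit 39) (nat_lit 4) (nat_lit 494) (nat_lit 350) (nat_lit 296)) (XT.lf (nat_lit 0) (nat_lit 1021057134) (nat_lit 228) (nat_lit 9558184009) (nat_lit 76) (nat_lit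 4499216230) (nat_lit 35) (nat_lit 5) (nat_lit 38) (nat_lit 5) (nat_lit 36) (nat_lit 5) (nat_lit 495) (nat_lit 350) (nat_lit 295))) (XT.nd (nat_lit 78) (nat_lit 304) (nat_lit 0) (XT.lf (nat_lit 0) (nat_lit 5121227153) (nat_lit 228) (nat_lit 1253385110) (nat_lit 76) (nat_lit 8907303546) (nat_lit 35) (nat_lit 5) (nat_lit 38) (nat_lit 5) (nat_lit 36) (nat_lit 5) (nat_lit 496) (nat_lit 350) (nat_lit 294)) (XT.nd (nat_lit 78) (nat_lit 152) (nat_lit 0) (XT.lf (nat_lit 0) (nat_lit 7246004919) (nat_lit 152) (nat_lit 2066229833) (nat_lit 228) (nat_lit 6177038704) (nat_lit 33) (nat_lit 5) (nat_lit 35) (nat_lit 5) (nat_lit 36) (nat_lit 5) (nat_lit 497) (nat_lit 350) (nat_lit 293)) (XT.lf (nat_lit 0) (nat_lit 151901144) (nat_lit 152) (nat_lit 13421656427) (nat_lit 228) (nat_lit 2127497380) (nat_lit 31) (nat_lit 5) (nat_lit 33) (nat_lit 5) (nat_lit 34) (nat_lit 4) (nat_lit 498) (nat_lit 350) (nat_lit 292)))))) (XT.nd (nat_lit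 390) (nat_lit 304) (nat_lit 0) (XT.nd (nat_lit 156) (nat_lit 228) (nat_lit 0) (XT.nd (nat_lit 78) (nat_lit 152) (nat_lit 0) (XT.lf (nat_lit 0) (nat_lit 2008116545) (nat_lit 228) (nat_lit 7183060738) (nat_lit 76) (nat_lit 6725013992) (nat_lit 30) (nat_lit 5) (nat_lit 33) (nat_lit 5) (nat_lit 31) (nat_lit 5) (nat_lit 499) (nat_lit 350) (nat_lit 291)) (XT.lf (nat_lit 0) (nat_lit 1287708350) (nat_lit 152) (nat_lit 4881365171) (nat_lit 228) (nat_lit 9966859406) (nat_lit 28) (nat_lit 5) (nat_lit 30) (nat_lit 5) (nat_lit 31) (nat_lit 5) (nat_lit 500) (nat_lit 350) (nat_lit 290))) (XT.nd (nat_lit 78) (nat_lit 228) (nat_lit 0) (XT.lf (nat_lit 0) (nat_lit 9960246675) (nat_lit 152) (nat_lit 464244408) (nat_lit 228) (nat_lit 5935359591) (nat_lit 28) (nat_lit 5) (nat_lit 30) (nat_lit 5) (nat_lit 31) (nat_lit 5) (nat_lit 501) (nat_lit 350) (nat_lit 289)) (XT.nd (nat_lit 78) (nat_lit 76) (nat_lit 0) (XT.lf (nat_lit 0) (nat_lit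 2155731774) (nat_lit 152) (nat_lit 12613105413) (nat_lit 228) (nat_lit 1819339159) (nat_lit 26) (nat_lit 5) (nat_lit 28) (nat_lit 5) (nat_lit 29) (nat_lit 4) (nat_lit 502) (nat_lit 350) (nat_lit 288)) (XT.lf (nat_lit 0) (nat_lit 2357744081) (nat_lit 228) (nat_lit 5934449711) (nat_lit 76) (nat_lit 8528372692) (nat_lit 25) (nat_lit 5) (nat_lit 28) (nat_lit 5) (nat_lit 26) (nat_lit 5) (nat_lit 503) (nat_lit 350) (nat_lit 287))))) (XT.nd (nat_lit 54210) (nat_lit 0) (nat_lit 15124) (XT.nd (nat_lit 78) (nat_lit 152) (nat_lit 0) (XT.lf (nat_lit 0) (nat_lit 2693688845) (nat_lit 152) (nat_lit 3882183975) (nat_lit 228) (nat_lit 10481859420) (nat_lit 23) (nat_lit 5) (nat_lit 25) (nat_lit 5) (nat_lit 26) (nat_lit 5) (nat_lit 504) (nat_lit 350) (nat_lit 286)) (XT.nd (nat_lit 78) (nat_lit 152) (nat_lit 0) (XT.lf (nat_lit 0) (nat_lit 10886918180) (nat_lit 228) (nat_lit 5791490940) (nat_lit 76) (nat_lit 621066629) (nat_lit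 23) (nat_lit 5) (nat_lit 26) (nat_lit 5) (nat_lit 24) (nat_lit 4) (nat_lit 505) (nat_lit 350) (nat_lit 285)) (XT.lf (nat_lit 0) (nat_lit 2902898383) (nat_lit 152) (nat_lit 12391007535) (nat_lit 228) (nat_lit 2251959191) (nat_lit 21) (nat_lit 5) (nat_lit 23) (nat_lit 5) (nat_lit 24) (nat_lit 4) (nat_lit 506) (nat_lit 350) (nat_lit 284)))) (XT.nd (nat_lit 78) (nat_lit 1292) (nat_lit 0) (XT.lf (nat_lit 0) (nat_lit 1975904027) (nat_lit 608) (nat_lit 1054515628) (nat_lit 608) (nat_lit 1054515628) (nat_lit 237) (nat_lit 4) (nat_lit 245) (nat_lit 5) (nat_lit 245) (nat_lit 4) (nat_lit 438) (nat_lit 351) (nat_lit 351)) (XT.nd (nat_lit 78) (nat_lit 608) (nat_lit 0) (XT.lf (nat_lit 0) (nat_lit 1594153161) (nat_lit 684) (nat_lit 6208177537) (nat_lit 0) (nat_lit 430815979) (nat_lit 228) (nat_lit 5) (nat_lit 237) (nat_lit 4) (nat_lit 228) (nat_lit 4) (nat_lit 439) (nat_lit 351) (nat_lit 350)) (XT.lf (nat_lit 0) (nat_lit 41205604)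 (nat_lit 608) (nat_lit 5280265908) (nat_lit 608) (nat_lit 2976402078) (nat_lit 220) (nat_lit 4) (nat_lit 228) (nat_lit 5) (nat_lit 228) (nat_lit 4) (nat_lit 440) (nat_lit 351) (nat_lit 349))))))))
noncomputable def xc29 : XT := (XT.nd (nat_lit 1638) (nat_lit 4560) (nat_lit 0) (XT.nd (nat_lit 780) (nat_lit 3724) (nat_lit 0) (XT.nd (nat_lit 390) (nat_lit 2128) (nat_lit 0) (XT.nd (nat_lit 156) (nat_lit 1140) (nat_lit 0) (XT.nd (nat_lit 78) (nat_lit 532) (nat_lit 0) (XT.lf (nat_lit 0) (nat_lit 727242941) (nat_lit 684) (nat_lit 1952996469) (nat_lit 76) (nat_lit 5684030899) (nat_lit 219) (nat_lit 5) (nat_lit 228) (nat_lit 5) (nat_lit 220) (nat_lit 4) (nat_lit 441) (nat_lit 351) (nat_lit 348)) (XT.lf (nat_lit 0) (nat_lit 4431015032) (nat_lit 608) (nat_lit 3999954179) (nat_lit 0) (nat_lit 1342659) (nat_lit 212) (nat_lit 5) (nat_lit 220) (nat_lit 4) (nat_lit 212) (nat_lit 4) (nat_lit 442) (nat_lit 351) (nat_lit 347)))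 (XT.nd (nat_lit 78) (nat_lit 608) (nat_lit 0) (XT.lf (nat_lit 0) (nat_lit 2400689683) (nat_lit 532) (nat_lit 5792355807) (nat_lit 532) (nat_lit 309013106) (nat_lit 205) (nat_lit 4) (nat_lit 212) (nat_lit 5) (nat_lit 212) (nat_lit 4) (nat_lit 443) (nat_lit 351) (nat_lit 346)) (XT.nd (nat_lit 78) (nat_lit 0) (nat_lit 0) (XT.lf (nat_lit 0) (nat_lit 308624747) (nat_lit 532) (nat_lit 3070077021) (nat_lit 608) (nat_lit 5194737950) (nat_lit 197) (nat_lit 5) (nat_lit 204) (nat_lit 5) (nat_lit 205) (nat_lit 4) (nat_lit 444) (nat_lit 351) (nat_lit 345)) (XT.lf (nat_lit 0) (nat_lit 6844298274) (nat_lit 532) (nat_lit 271249312) (nat_lit 608) (nat_lit 1531096118) (nat_lit 197) (nat_lit 5) (nat_lit 204) (nat_lit 5) (nat_lit 205) (nat_lit 4) (nat_lit 445) (nat_lit 351) (nat_lit 344))))) (XT.nd (nat_lit 156) (nat_lit 1064) (nat_lit 0) (XT.nd (nat_lit 78) (nat_lit 456) (nat_lit 0) (XT.lf (nat_lit 0) (nat_lit 2164054877) (nat_lit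 608) (nat_lit 3983515946) (nat_lit 76) (nat_lit 2573736545) (nat_lit 189) (nat_lit 5) (nat_lit 197) (nat_lit 5) (nat_lit 190) (nat_lit 4) (nat_lit 446) (nat_lit 351) (nat_lit 343)) (XT.lf (nat_lit 0) (nat_lit 2574798879) (nat_lit 456) (nat_lit 3308392881) (nat_lit 532) (nat_lit 2914683305) (nat_lit 183) (nat_lit 5) (nat_lit 189) (nat_lit 5) (nat_lit 190) (nat_lit 4) (nat_lit 447) (nat_lit 351) (nat_lit 342))) (XT.nd (nat_lit 78) (nat_lit 456) (nat_lit 0) (XT.lf (nat_lit 0) (nat_lit 359002237) (nat_lit 532) (nat_lit 400575533) (nat_lit 608) (nat_lit 8116929413) (nat_lit 175) (nat_lit 5) (nat_lit 182) (nat_lit 5) (nat_lit 183) (nat_lit 5) (nat_lit 448) (nat_lit 351) (nat_lit 341)) (XT.nd (nat_lit 78) (nat_lit 456) (nat_lit 0) (XT.lf (nat_lit 0) (nat_lit 4467615141) (nat_lit 608) (nat_lit 1918712515) (nat_lit 76) (nat_lit 2570036014) (nat_lit 175) (nat_lit 5) (nat_lit 183) (nat_lit 5) (nat_lit 176) (nat_lit 4)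 (nat_lit 449) (nat_lit 351) (nat_lit 340)) (XT.lf (nat_lit 0) (nat_lit 4790189817) (nat_lit 456) (nat_lit 3435131526) (nat_lit 532) (nat_lit 813008745) (nat_lit 169) (nat_lit 5) (nat_lit 175) (nat_lit 5) (nat_lit 176) (nat_lit 4) (nat_lit 450) (nat_lit 351) (nat_lit 339)))))) (XT.nd (nat_lit 390) (nat_lit 1824) (nat_lit 0) (XT.nd (nat_lit 156) (nat_lit 912) (nat_lit 0) (XT.nd (nat_lit 78) (nat_lit 456) (nat_lit 0) (XT.lf (nat_lit 0) (nat_lit 2468535528) (nat_lit 456) (nat_lit 400152345) (nat_lit 532) (nat_lit 6253469723) (nat_lit 162) (nat_lit 5) (nat_lit 168) (nat_lit 5) (nat_lit 169) (nat_lit 5) (nat_lit 451) (nat_lit 351) (nat_lit 338)) (XT.lf (nat_lit 0) (nat_lit 65055203) (nat_lit 456) (nat_lit 6537119309) (nat_lit 532) (nat_lit 2605620456) (nat_lit 156) (nat_lit 5) (nat_lit 162) (nat_lit 5) (nat_lit 163) (nat_lit 4) (nat_lit 452) (nat_lit 351) (nat_lit 337))) (XT.nd (nat_lit 78) (nat_lit 836) (nat_lit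 0) (XT.lf (nat_lit 0) (nat_lit 1090764460) (nat_lit 532) (nat_lit 2379141616) (nat_lit 76) (nat_lit 5825310908) (nat_lit 155) (nat_lit 5) (nat_lit 162) (nat_lit 5) (nat_lit 156) (nat_lit 5) (nat_lit 453) (nat_lit 351) (nat_lit 336)) (XT.nd (nat_lit 78) (nat_lit 380) (nat_lit 0) (XT.lf (nat_lit 0) (nat_lit 4479853380) (nat_lit 456) (nat_lit 319188047) (nat_lit 532) (nat_lit 4585564869) (nat_lit 149) (nat_lit 5) (nat_lit 155) (nat_lit 5) (nat_lit 156) (nat_lit 5) (nat_lit 454) (nat_lit 351) (nat_lit 335)) (XT.lf (nat_lit 0) (nat_lit 1957783214) (nat_lit 380) (nat_lit 6615426174) (nat_lit 456) (nat_lit 902759487) (nat_lit 144) (nat_lit 5) (nat_lit 149) (nat_lit 5) (nat_lit 150) (nat_lit 4) (nat_lit 455) (nat_lit 351) (nat_lit 334))))) (XT.nd (nat_lit 234) (nat_lit 836) (nat_lit 0) (XT.nd (nat_lit 78) (nat_lit 912) (nat_lit 0) (XT.lf (nat_lit 0) (nat_lit 2795852348) (nat_lit 456) (nat_lit 647334387) (nat_lit 76)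 (nat_lit 6126029080) (nat_lit 143) (nat_lit 5) (nat_lit 149) (nat_lit 5) (nat_lit 144) (nat_lit 5) (nat_lit 456) (nat_lit 351) (nat_lit 333)) (XT.nd (nat_lit 78) (nat_lit 456) (nat_lit 0) (XT.lf (nat_lit 0) (nat_lit 6357919740) (nat_lit 456) (nat_lit 185143284) (nat_lit 532) (nat_lit 3121429872) (nat_lit 137) (nat_lit 5) (nat_lit 143) (nat_lit 5) (nat_lit 144) (nat_lit 5) (nat_lit 457) (nat_lit 351) (nat_lit 332)) (XT.lf (nat_lit 0) (nat_lit 590134735) (nat_lit 456) (nat_lit 6067949620) (nat_lit 76) (nat_lit 3103640739) (nat_lit 131) (nat_lit 5) (nat_lit 137) (nat_lit 5) (nat_lit 132) (nat_lit 5) (nat_lit 458) (nat_lit 351) (nat_lit 331)))) (XT.nd (nat_lit 78) (nat_lit 456) (nat_lit 0) (XT.lf (nat_lit 0) (nat_lit 927588272) (nat_lit 380) (nat_lit 3382144936) (nat_lit 456) (nat_lit 5551261856) (nat_lit 126) (nat_lit 5) (nat_lit 131) (nat_lit 5) (nat_lit 132) (nat_lit 5) (nat_lit 459) (nat_lit 351) (nat_lit 330))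 (XT.nd (nat_lit 78) (nat_lit 456) (nat_lit 0) (XT.lf (nat_lit 0) (nat_lit 8064795826) (nat_lit 380) (nat_lit 26158679) (nat_lit 456) (nat_lit 1871568713) (nat_lit 126) (nat_lit 5) (nat_lit 131) (nat_lit 5) (nat_lit 132) (nat_lit 5) (nat_lit 460) (nat_lit 351) (nat_lit 329)) (XT.lf (nat_lit 0) (nat_lit 1860547315) (nat_lit 456) (nat_lit 4832671482) (nat_lit 76) (nat_lit 3372565358) (nat_lit 120) (nat_lit 5) (nat_lit 126) (nat_lit 5) (nat_lit 121) (nat_lit 5) (nat_lit 461) (nat_lit 351) (nat_lit 328))))))) (XT.nd (nat_lit 780) (nat_lit 2052) (nat_lit 0) (XT.nd (nat_lit 390) (nat_lit 1064) (nat_lit 0) (XT.nd (nat_lit 156) (nat_lit 1064) (nat_lit 0) (XT.nd (nat_lit 78) (nat_lit 0) (nat_lit 0) (XT.lf (nat_lit 0) (nat_lit 2298939210) (nat_lit 380) (nat_lit 3318792070) (nat_lit 456) (nat_lit 4553638289) (nat_lit 115) (nat_lit 5) (nat_lit 120) (nat_lit 5) (nat_lit 121) (nat_lit 5) (nat_lit 462) (nat_lit 351) (nat_lit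 327)) (XT.lf (nat_lit 0) (nat_lit 9431380630) (nat_lit 456) (nat_lit 721089771) (nat_lit 76) (nat_lit 126985935) (nat_lit 115) (nat_lit 5) (nat_lit 121) (nat_lit 5) (nat_lit 116) (nat_lit 4) (nat_lit 463) (nat_lit 351) (nat_lit 326))) (XT.nd (nat_lit 78) (nat_lit 684) (nat_lit 0) (XT.lf (nat_lit 0) (nat_lit 2906684224) (nat_lit 380) (nat_lit 3850031274) (nat_lit 76) (nat_lit 3632353425) (nat_lit 110) (nat_lit 5) (nat_lit 115) (nat_lit 5) (nat_lit 111) (nat_lit 5) (nat_lit 464) (nat_lit 351) (nat_lit 325)) (XT.nd (nat_lit 78) (nat_lit 304) (nat_lit 0) (XT.lf (nat_lit 0) (nat_lit 3413539526) (nat_lit 380) (nat_lit 3287731881) (nat_lit 456) (nat_lit 3799983633) (nat_lit 105) (nat_lit 5) (nat_lit 110) (nat_lit 5) (nat_lit 111) (nat_lit 5) (nat_lit 465) (nat_lit 351) (nat_lit 324)) (XT.lf (nat_lit 0) (nat_lit 180703680) (nat_lit 304) (nat_lit 10369205689) (nat_lit 380) (nat_lit 66227184) (nat_lit 101) (nat_lit 5)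 (nat_lit 105) (nat_lit 5) (nat_lit 106) (nat_lit 4) (nat_lit 466) (nat_lit 351) (nat_lit 323))))) (XT.nd (nat_lit 156) (nat_lit 684) (nat_lit 0) (XT.nd (nat_lit 78) (nat_lit 304) (nat_lit 0) (XT.lf (nat_lit 0) (nat_lit 3712261958) (nat_lit 380) (nat_lit 3167615995) (nat_lit 76) (nat_lit 3852583336) (nat_lit 100) (nat_lit 5) (nat_lit 105) (nat_lit 5) (nat_lit 101) (nat_lit 5) (nat_lit 467) (nat_lit 351) (nat_lit 322)) (XT.lf (nat_lit 0) (nat_lit 4222622872) (nat_lit 304) (nat_lit 3320705486) (nat_lit 380) (nat_lit 3308231520) (nat_lit 96) (nat_lit 5) (nat_lit 100) (nat_lit 5) (nat_lit 101) (nat_lit 5) (nat_lit 468) (nat_lit 351) (nat_lit 321))) (XT.nd (nat_lit 78) (nat_lit 304) (nat_lit 0) (XT.lf (nat_lit 0) (nat_lit 450663470) (nat_lit 380) (nat_lit 10215797984) (nat_lit 76) (nat_lit 306951238) (nat_lit 91) (nat_lit 5) (nat_lit 96) (nat_lit 5) (nat_lit 92) (nat_lit 5) (nat_lit 469) (nat_lit 351) (nat_lit 320))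 (XT.nd (nat_lit 78) (nat_lit 304) (nat_lit 0) (XT.lf (nat_lit 0) (nat_lit 4258137434) (nat_lit 380) (nat_lit 2837579714) (nat_lit 76) (nat_lit 4001207291) (nat_lit 91) (nat_lit 5) (nat_lit 96) (nat_lit 5) (nat_lit 92) (nat_lit 5) (nat_lit 470) (nat_lit 351) (nat_lit 319)) (XT.lf (nat_lit 0) (nat_lit 4672695546) (nat_lit 304) (nat_lit 3451253774) (nat_lit 380) (nat_lit 3099326263) (nat_lit 87) (nat_lit 5) (nat_lit 91) (nat_lit 5) (nat_lit 92) (nat_lit 5) (nat_lit 471) (nat_lit 351) (nat_lit 318)))))) (XT.nd (nat_lit 390) (nat_lit 1140) (nat_lit 0) (XT.nd (nat_lit 156) (nat_lit 608) (nat_lit 0) (XT.nd (nat_lit 78) (nat_lit 0) (nat_lit 0) (XT.lf (nat_lit 0) (nat_lit 684596400) (nat_lit 304) (nat_lit 10403634453) (nat_lit 76) (nat_lit 264261508) (nat_lit 83) (nat_lit 5) (nat_lit 87) (nat_lit 5) (nat_lit 84) (nat_lit 5) (nat_lit 472) (nat_lit 351) (nat_lit 317)) (XT.lf (nat_lit 0) (nat_lit 4522070110) (nat_lit 304)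 (nat_lit 2917213849) (nat_lit 76) (nat_lit 4044224519) (nat_lit 83) (nat_lit 5) (nat_lit 87) (nat_lit 5) (nat_lit 84) (nat_lit 5) (nat_lit 473) (nat_lit 351) (nat_lit 316))) (XT.nd (nat_lit 78) (nat_lit 304) (nat_lit 0) (XT.lf (nat_lit 0) (nat_lit 4704948724) (nat_lit 304) (nat_lit 3715057749) (nat_lit 380) (nat_lit 3197476128) (nat_lit 79) (nat_lit 5) (nat_lit 83) (nat_lit 5) (nat_lit 84) (nat_lit 5) (nat_lit 474) (nat_lit 351) (nat_lit 315)) (XT.nd (nat_lit 78) (nat_lit 0) (nat_lit 0) (XT.lf (nat_lit 0) (nat_lit 611381151) (nat_lit 304) (nat_lit 11060720380) (nat_lit 76) (nat_lit 82402166) (nat_lit 75) (nat_lit 5) (nat_lit 79) (nat_lit 5) (nat_lit 76) (nat_lit 5) (nat_lit 475) (nat_lit 351) (nat_lit 314)) (XT.lf (nat_lit 0) (nat_lit 4478453695) (nat_lit 304) (nat_lit 3469571920) (nat_lit 76) (nat_lit 3945331105) (nat_lit 75) (nat_lit 5) (nat_lit 79) (nat_lit 5) (nat_lit 76) (nat_lit 5) (nat_lit 476) (nat_lit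 351) (nat_lit 313))))) (XT.nd (nat_lit 234) (nat_lit 532) (nat_lit 0) (XT.nd (nat_lit 78) (nat_lit 304) (nat_lit 0) (XT.lf (nat_lit 0) (nat_lit 4254614300) (nat_lit 304) (nat_lit 4150303966) (nat_lit 380) (nat_lit 3630438564) (nat_lit 71) (nat_lit 5) (nat_lit 75) (nat_lit 5) (nat_lit 76) (nat_lit 5) (nat_lit 477) (nat_lit 351) (nat_lit 312)) (XT.nd (nat_lit 78) (nat_lit 228) (nat_lit 0) (XT.lf (nat_lit 0) (nat_lit 204668836) (nat_lit 380) (nat_lit 75771169) (nat_lit 76) (nat_lit 11900178386) (nat_lit 70) (nat_lit 5) (nat_lit 75) (nat_lit 5) (nat_lit 71) (nat_lit 5) (nat_lit 478) (nat_lit 351) (nat_lit 311)) (XT.lf (nat_lit 0) (nat_lit 4098014681) (nat_lit 304) (nat_lit 4564154908) (nat_lit 76) (nat_lit 3665543093) (nat_lit 67) (nat_lit 5) (nat_lit 71) (nat_lit 5) (nat_lit 68) (nat_lit 5) (nat_lit 479) (nat_lit 351) (nat_lit 310)))) (XT.nd (nat_lit 78) (nat_lit 304) (nat_lit 0) (XT.lf (nat_lit 0) (nat_lit 3250258024)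 (nat_lit 228) (nat_lit 4798078516) (nat_lit 304) (nat_lit 4429840333) (nat_lit 64) (nat_lit 5) (nat_lit 67) (nat_lit 5) (nat_lit 68) (nat_lit 5) (nat_lit 480) (nat_lit 351) (nat_lit 309)) (XT.nd (nat_lit 78) (nat_lit 304) (nat_lit 0) (XT.lf (nat_lit 0) (nat_lit 11209840083) (nat_lit 228) (nat_lit 854485827) (nat_lit 304) (nat_lit 567601211) (nat_lit 64) (nat_lit 5) (nat_lit 67) (nat_lit 5) (nat_lit 68) (nat_lit 5) (nat_lit 481) (nat_lit 351) (nat_lit 308)) (XT.lf (nat_lit 0) (nat_lit 3347474572) (nat_lit 304) (nat_lit 6277663969) (nat_lit 76) (nat_lit 3162789297) (nat_lit 60) (nat_lit 5) (nat_lit 64) (nat_lit 5) (nat_lit 61) (nat_lit 5) (nat_lit 482) (nat_lit 351) (nat_lit 307))))))))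
noncomputable def xc30 : XT := (XT.nd (nat_lit 1638) (nat_lit 152) (nat_lit 0) (XT.nd (nat_lit 780) (nat_lit 1216) (nat_lit 0) (XT.nd (nat_lit 390) (nat_lit 684) (nat_lit 0) (XT.nd (nat_lit 156) (nat_lit 532) (nat_lit 0) (XT.nd (nat_lit 78) (nat_lit 0) (nat_lit 0) (XT.lf (nat_lit 0) (nat_lit 1613002944) (nat_lit 228) (nat_lit 5702793309) (nat_lit 304) (nat_lit 5631535808) (nat_lit 57) (nat_lit 5) (nat_lit 60) (nat_lit 5) (nat_lit 61) (nat_lit 5) (nat_lit 483) (nat_lit 351) (nat_lit 306)) (XT.lf (nat_lit 0) (nat_lit 9674702846) (nat_lit 228) (nat_lit 1688088123) (nat_lit 304) (nat_lit 1747156502) (nat_lit 57) (nat_lit 5) (nat_lit 60) (nat_lit 5) (nat_lit 61) (nat_lit 5) (nat_lit 484) (nat_lit 351) (nat_lit 305))) (XT.nd (nat_lit 78) (nat_lit 228) (nat_lit 0) (XT.lf (nat_lit 0) (nat_lit 2189172386) (nat_lit 304) (nat_lit 8694827938) (nat_lit 76) (nat_lit 2391469908) (nat_lit 53) (nat_lit 5) (nat_lit 57) (nat_lit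 5) (nat_lit 54) (nat_lit 5) (nat_lit 485) (nat_lit 351) (nat_lit 304)) (XT.nd (nat_lit 78) (nat_lit 228) (nat_lit 0) (XT.lf (nat_lit 0) (nat_lit 6173156896) (nat_lit 304) (nat_lit 734562549) (nat_lit 76) (nat_lit 6536515263) (nat_lit 53) (nat_lit 5) (nat_lit 57) (nat_lit 5) (nat_lit 54) (nat_lit 5) (nat_lit 486) (nat_lit 351) (nat_lit 303)) (XT.lf (nat_lit 0) (nat_lit 7412288195) (nat_lit 228) (nat_lit 2831400790) (nat_lit 304) (nat_lit 3372556661) (nat_lit 50) (nat_lit 5) (nat_lit 53) (nat_lit 5) (nat_lit 54) (nat_lit 5) (nat_lit 487) (nat_lit 351) (nat_lit 302))))) (XT.nd (nat_lit 156) (nat_lit 456) (nat_lit 0) (XT.nd (nat_lit 78) (nat_lit 0) (nat_lit 0) (XT.lf (nat_lit 0) (nat_lit 580643563) (nat_lit 228) (nat_lit 11909313769) (nat_lit 76) (nat_lit 1301976661) (nat_lit 47) (nat_lit 5) (nat_lit 50) (nat_lit 5) (nat_lit 48) (nat_lit 5) (nat_lit 488) (nat_lit 351) (nat_lit 301)) (XT.lf (nat_lit 0) (nat_lit 4587442211)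 (nat_lit 228) (nat_lit 3866747123) (nat_lit 76) (nat_lit 5516115100) (nat_lit 47) (nat_lit 5) (nat_lit 50) (nat_lit 5) (nat_lit 48) (nat_lit 5) (nat_lit 489) (nat_lit 351) (nat_lit 300))) (XT.nd (nat_lit 78) (nat_lit 228) (nat_lit 0) (XT.lf (nat_lit 0) (nat_lit 4324656299) (nat_lit 228) (nat_lit 4337595358) (nat_lit 304) (nat_lit 5490241014) (nat_lit 44) (nat_lit 5) (nat_lit 47) (nat_lit 5) (nat_lit 48) (nat_lit 5) (nat_lit 490) (nat_lit 351) (nat_lit 299)) (XT.nd (nat_lit 78) (nat_lit 228) (nat_lit 0) (XT.lf (nat_lit 0) (nat_lit 12664021556) (nat_lit 228) (nat_lit 140624914) (nat_lit 304) (nat_lit 1533964146) (nat_lit 44) (nat_lit 5) (nat_lit 47) (nat_lit 5) (nat_lit 48) (nat_lit 5) (nat_lit 491) (nat_lit 351) (nat_lit 298)) (XT.lf (nat_lit 0) (nat_lit 2499524924) (nat_lit 228) (nat_lit 7909987374) (nat_lit 76) (nat_lit 4118003360) (nat_lit 41) (nat_lit 5) (nat_lit 44) (nat_lit 5) (nat_lit 42) (nat_lit 5) (nat_lit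 492) (nat_lit 351) (nat_lit 297)))))) (XT.nd (nat_lit 390) (nat_lit 608) (nat_lit 0) (XT.nd (nat_lit 156) (nat_lit 380) (nat_lit 0) (XT.nd (nat_lit 78) (nat_lit 0) (nat_lit 0) (XT.lf (nat_lit 0) (nat_lit 303394031) (nat_lit 228) (nat_lit 6264792945) (nat_lit 304) (nat_lit 8152315454) (nat_lit 38) (nat_lit 5) (nat_lit 41) (nat_lit 5) (nat_lit 42) (nat_lit 5) (nat_lit 493) (nat_lit 351) (nat_lit 296)) (XT.lf (nat_lit 0) (nat_lit 8721075946) (nat_lit 228) (nat_lit 2011369544) (nat_lit 304) (nat_lit 4184626125) (nat_lit 38) (nat_lit 5) (nat_lit 41) (nat_lit 5) (nat_lit 42) (nat_lit 5) (nat_lit 494) (nat_lit 351) (nat_lit 295))) (XT.nd (nat_lit 78) (nat_lit 228) (nat_lit 0) (XT.lf (nat_lit 0) (nat_lit 2135983702) (nat_lit 152) (nat_lit 12834707513) (nat_lit 228) (nat_lit 147073925) (nat_lit 36) (nat_lit 5) (nat_lit 38) (nat_lit 5) (nat_lit 39) (nat_lit 4) (nat_lit 495) (nat_lit 351) (nat_lit 294)) (XT.nd (nat_lit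 78) (nat_lit 152) (nat_lit 0) (XT.lf (nat_lit 0) (nat_lit 3936108316) (nat_lit 228) (nat_lit 4708966997) (nat_lit 76) (nat_lit 6676549024) (nat_lit 35) (nat_lit 5) (nat_lit 38) (nat_lit 5) (nat_lit 36) (nat_lit 5) (nat_lit 496) (nat_lit 351) (nat_lit 293)) (XT.lf (nat_lit 0) (nat_lit 3711777515) (nat_lit 152) (nat_lit 4373846090) (nat_lit 228) (nat_lit 7444191492) (nat_lit 33) (nat_lit 5) (nat_lit 35) (nat_lit 5) (nat_lit 36) (nat_lit 5) (nat_lit 497) (nat_lit 351) (nat_lit 292))))) (XT.nd (nat_lit 234) (nat_lit 380) (nat_lit 0) (XT.nd (nat_lit 78) (nat_lit 228) (nat_lit 0) (XT.lf (nat_lit 0) (nat_lit 12299964520) (nat_lit 152) (nat_lit 12615695) (nat_lit 228) (nat_lit 3429706901) (nat_lit 33) (nat_lit 5) (nat_lit 35) (nat_lit 5) (nat_lit 36) (nat_lit 5) (nat_lit 498) (nat_lit 351) (nat_lit 291)) (XT.nd (nat_lit 78) (nat_lit 0) (nat_lit 0) (XT.lf (nat_lit 0) (nat_lit 681656828) (nat_lit 228) (nat_lit 10888428046)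 (nat_lit 76) (nat_lit 4388337317) (nat_lit 30) (nat_lit 5) (nat_lit 33) (nat_lit 5) (nat_lit 31) (nat_lit 5) (nat_lit 499) (nat_lit 351) (nat_lit 290)) (XT.lf (nat_lit 0) (nat_lit 4816164754) (nat_lit 228) (nat_lit 2466310725) (nat_lit 76) (nat_lit 8896220360) (nat_lit 30) (nat_lit 5) (nat_lit 33) (nat_lit 5) (nat_lit 31) (nat_lit 5) (nat_lit 500) (nat_lit 351) (nat_lit 289)))) (XT.nd (nat_lit 78) (nat_lit 228) (nat_lit 0) (XT.lf (nat_lit 0) (nat_lit 6141897354) (nat_lit 152) (nat_lit 2895520644) (nat_lit 228) (nat_lit 7365881832) (nat_lit 28) (nat_lit 5) (nat_lit 30) (nat_lit 5) (nat_lit 31) (nat_lit 5) (nat_lit 501) (nat_lit 351) (nat_lit 288)) (XT.nd (nat_lit 78) (nat_lit 228) (nat_lit 0) (XT.lf (nat_lit 0) (nat_lit 13334308682) (nat_lit 228) (nat_lit 1749757583) (nat_lit 76) (nat_lit 1548511244) (nat_lit 28) (nat_lit 5) (nat_lit 31) (nat_lit 5) (nat_lit 29) (nat_lit 4) (nat_lit 502) (nat_lit 351) (nat_lit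 287)) (XT.lf (nat_lit 0) (nat_lit 868975912) (nat_lit 228) (nat_lit 9929380944) (nat_lit 76) (nat_lit 6067390320) (nat_lit 25) (nat_lit 5) (nat_lit 28) (nat_lit 5) (nat_lit 26) (nat_lit 5) (nat_lit 503) (nat_lit 351) (nat_lit 286))))))) (XT.nd (nat_lit 54600) (nat_lit 0) (nat_lit 10032) (XT.nd (nat_lit 54210) (nat_lit 0) (nat_lit 14364) (XT.nd (nat_lit 156) (nat_lit 0) (nat_lit 0) (XT.nd (nat_lit 78) (nat_lit 152) (nat_lit 0) (XT.lf (nat_lit 0) (nat_lit 5052314331) (nat_lit 228) (nat_lit 1367193689) (nat_lit 76) (nat_lit 10684103451) (nat_lit 25) (nat_lit 5) (nat_lit 28) (nat_lit 5) (nat_lit 26) (nat_lit 5) (nat_lit 504) (nat_lit 351) (nat_lit 285)) (XT.lf (nat_lit 0) (nat_lit 7402679052) (nat_lit 152) (nat_lit 1930440591) (nat_lit 228) (nat_lit 8012842816) (nat_lit 23) (nat_lit 5) (nat_lit 25) (nat_lit 5) (nat_lit 26) (nat_lit 5) (nat_lit 505) (nat_lit 351) (nat_lit 284))) (XT.nd (nat_lit 53898) (nat_lit 0)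 (nat_lit 16872) (XT.lf (nat_lit 0) (nat_lit 13691818793) (nat_lit 228) (nat_lit 1304512201) (nat_lit 76) (nat_lit 2596989223) (nat_lit 23) (nat_lit 5) (nat_lit 26) (nat_lit 5) (nat_lit 24) (nat_lit 4) (nat_lit 506) (nat_lit 351) (nat_lit 283)) (XT.nd (nat_lit 78) (nat_lit 684) (nat_lit 0) (XT.lf (nat_lit 0) (nat_lit 3870296612) (nat_lit 684) (nat_lit 76860768) (nat_lit 684) (nat_lit 76860768) (nat_lit 254) (nat_lit 4) (nat_lit 263) (nat_lit 5) (nat_lit 263) (nat_lit 4) (nat_lit 436) (nat_lit 352) (nat_lit 352)) (XT.lf (nat_lit 0) (nat_lit 3524768736) (nat_lit 684) (nat_lit 2269115408) (nat_lit 0) (nat_lit 2314432732) (nat_lit 245) (nat_lit 5) (nat_lit 254) (nat_lit 4) (nat_lit 245) (nat_lit 4) (nat_lit 437) (nat_lit 352) (nat_lit 351))))) (XT.nd (nat_lit 156) (nat_lit 1216) (nat_lit 0) (XT.nd (nat_lit 78) (nat_lit 684) (nat_lit 0) (XT.lf (nat_lit 0) (nat_lit 3910923337) (nat_lit 608) (nat_lit 3328271190) (nat_lit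 608) (nat_lit 931331261) (nat_lit 237) (nat_lit 4) (nat_lit 245) (nat_lit 5) (nat_lit 245) (nat_lit 4) (nat_lit 438) (nat_lit 352) (nat_lit 350)) (XT.lf (nat_lit 0) (nat_lit 1936963984) (nat_lit 608) (nat_lit 784442498) (nat_lit 684) (nat_lit 5512957506) (nat_lit 228) (nat_lit 5) (nat_lit 236) (nat_lit 5) (nat_lit 237) (nat_lit 4) (nat_lit 439) (nat_lit 352) (nat_lit 349))) (XT.nd (nat_lit 78) (nat_lit 1216) (nat_lit 0) (XT.lf (nat_lit 0) (nat_lit 6412086891) (nat_lit 684) (nat_lit 84295722) (nat_lit 0) (nat_lit 1803455753) (nat_lit 228) (nat_lit 5) (nat_lit 237) (nat_lit 4) (nat_lit 228) (nat_lit 4) (nat_lit 440) (nat_lit 352) (nat_lit 348)) (XT.nd (nat_lit 78) (nat_lit 532) (nat_lit 0) (XT.lf (nat_lit 0) (nat_lit 1769911031) (nat_lit 684) (nat_lit 2129649463) (nat_lit 76) (nat_lit 4467181454) (nat_lit 219) (nat_lit 5) (nat_lit 228) (nat_lit 5) (nat_lit 220) (nat_lit 4) (nat_lit 441) (nat_lit 352) (nat_lit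 347)) (XT.lf (nat_lit 0) (nat_lit 4212644775) (nat_lit 532) (nat_lit 1229067232) (nat_lit 608) (nat_lit 2993724781) (nat_lit 212) (nat_lit 5) (nat_lit 219) (nat_lit 5) (nat_lit 220) (nat_lit 4) (nat_lit 442) (nat_lit 352) (nat_lit 346)))))) (XT.nd (nat_lit 390) (nat_lit 2128) (nat_lit 0) (XT.nd (nat_lit 156) (nat_lit 1596) (nat_lit 0) (XT.nd (nat_lit 78) (nat_lit 0) (nat_lit 0) (XT.lf (nat_lit 0) (nat_lit 649200377) (nat_lit 608) (nat_lit 6368305246) (nat_lit 76) (nat_lit 1488404437) (nat_lit 204) (nat_lit 5) (nat_lit 212) (nat_lit 5) (nat_lit 205) (nat_lit 4) (nat_lit 443) (nat_lit 352) (nat_lit 345)) (XT.lf (nat_lit 0) (nat_lit 4300720281) (nat_lit 608) (nat_lit 4990064) (nat_lit 76) (nat_lit 4272196613) (nat_lit 204) (nat_lit 5) (nat_lit 212) (nat_lit 5) (nat_lit 205) (nat_lit 4) (nat_lit 444) (nat_lit 352) (nat_lit 344))) (XT.nd (nat_lit 78) (nat_lit 1064) (nat_lit 0) (XT.lf (nat_lit 0) (nat_lit 6490259920)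 (nat_lit 532) (nat_lit 1517463859) (nat_lit 608) (nat_lit 643996812) (nat_lit 197) (nat_lit 5) (nat_lit 204) (nat_lit 5) (nat_lit 205) (nat_lit 4) (nat_lit 445) (nat_lit 352) (nat_lit 343)) (XT.nd (nat_lit 78) (nat_lit 456) (nat_lit 0) (XT.lf (nat_lit 0) (nat_lit 2999286179) (nat_lit 608) (nat_lit 4391217043) (nat_lit 76) (nat_lit 1336582817) (nat_lit 189) (nat_lit 5) (nat_lit 197) (nat_lit 5) (nat_lit 190) (nat_lit 4) (nat_lit 446) (nat_lit 352) (nat_lit 342)) (XT.lf (nat_lit 0) (nat_lit 2120913102) (nat_lit 456) (nat_lit 4565382603) (nat_lit 532) (nat_lit 2118012642) (nat_lit 183) (nat_lit 5) (nat_lit 189) (nat_lit 5) (nat_lit 190) (nat_lit 4) (nat_lit 447) (nat_lit 352) (nat_lit 341))))) (XT.nd (nat_lit 234) (nat_lit 1064) (nat_lit 0) (XT.nd (nat_lit 78) (nat_lit 988) (nat_lit 0) (XT.lf (nat_lit 0) (nat_lit 1514398467) (nat_lit 532) (nat_lit 151562846) (nat_lit 76) (nat_lit 7217515327) (nat_lit 182) (nat_lit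 5) (nat_lit 189) (nat_lit 5) (nat_lit 183) (nat_lit 5) (nat_lit 448) (nat_lit 352) (nat_lit 340)) (XT.nd (nat_lit 78) (nat_lit 456) (nat_lit 0) (XT.lf (nat_lit 0) (nat_lit 5184381820) (nat_lit 608) (nat_lit 2470671400) (nat_lit 76) (nat_lit 1309052354) (nat_lit 175) (nat_lit 5) (nat_lit 183) (nat_lit 5) (nat_lit 176) (nat_lit 4) (nat_lit 449) (nat_lit 352) (nat_lit 339)) (XT.lf (nat_lit 0) (nat_lit 4190550337) (nat_lit 456) (nat_lit 4719375245) (nat_lit 532) (nat_lit 136800804) (nat_lit 169) (nat_lit 5) (nat_lit 175) (nat_lit 5) (nat_lit 176) (nat_lit 4) (nat_lit 450) (nat_lit 352) (nat_lit 338)))) (XT.nd (nat_lit 78) (nat_lit 532) (nat_lit 0) (XT.lf (nat_lit 0) (nat_lit 1807500452) (nat_lit 456) (nat_lit 1696067171) (nat_lit 532) (nat_lit 5627558368) (nat_lit 162) (nat_lit 5) (nat_lit 168) (nat_lit 5) (nat_lit 169) (nat_lit 5) (nat_lit 451) (nat_lit 352) (nat_lit 337)) (XT.nd (nat_lit 78) (nat_lit 532) (nat_lit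 0) (XT.lf (nat_lit 0) (nat_lit 7200268285) (nat_lit 532) (nat_lit 637555419) (nat_lit 76) (nat_lit 1379685880) (nat_lit 162) (nat_lit 5) (nat_lit 169) (nat_lit 5) (nat_lit 163) (nat_lit 4) (nat_lit 452) (nat_lit 352) (nat_lit 336)) (XT.lf (nat_lit 0) (nat_lit 1639350645) (nat_lit 532) (nat_lit 3144099768) (nat_lit 76) (nat_lit 4522056404) (nat_lit 155) (nat_lit 5) (nat_lit 162) (nat_lit 5) (nat_lit 156) (nat_lit 5) (nat_lit 453) (nat_lit 352) (nat_lit 335))))))))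
noncomputable def xc31 : XT := (XT.nd (nat_lit 1638) (nat_lit 3116) (nat_lit 0) (XT.nd (nat_lit 780) (nat_lit 2736) (nat_lit 0) (XT.nd (nat_lit 390) (nat_lit 1216) (nat_lit 0) (XT.nd (nat_lit 156) (nat_lit 988) (nat_lit 0) (XT.nd (nat_lit 78) (nat_lit 380) (nat_lit 0) (XT.lf (nat_lit 0) (nat_lit 3664710483) (nat_lit 456) (nat_lit 1650316787) (nat_lit 532) (nat_lit 4080530762) (nat_lit 149) (nat_lit 5) (nat_lit 155) (nat_lit 5) (nat_lit 156) (nat_lit 5) (nat_lit 454) (nat_lit 352) (nat_lit 334)) (XT.lf (nat_lit 0) (nat_lit 1089234825) (nat_lit 380) (nat_lit 7958572210) (nat_lit 456) (nat_lit 439951043) (nat_lit 144) (nat_lit 5) (nat_lit 149) (nat_lit 5) (nat_lit 150) (nat_lit 4) (nat_lit 455) (nat_lit 352) (nat_lit 333))) (XT.nd (nat_lit 78) (nat_lit 912) (nat_lit 0) (XT.lf (nat_lit 0) (nat_lit 3225572868) (nat_lit 456) (nat_lit 1570489162) (nat_lit 76) (nat_lit 4785432579) (nat_lit 143) (nat_lit 5) (nat_lit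 149) (nat_lit 5) (nat_lit 144) (nat_lit 5) (nat_lit 456) (nat_lit 352) (nat_lit 332)) (XT.nd (nat_lit 78) (nat_lit 456) (nat_lit 0) (XT.lf (nat_lit 0) (nat_lit 5382946325) (nat_lit 456) (nat_lit 1557018704) (nat_lit 532) (nat_lit 2737472173) (nat_lit 137) (nat_lit 5) (nat_lit 143) (nat_lit 5) (nat_lit 144) (nat_lit 5) (nat_lit 457) (nat_lit 352) (nat_lit 331)) (XT.lf (nat_lit 0) (nat_lit 926862095) (nat_lit 456) (nat_lit 7115725571) (nat_lit 76) (nat_lit 1732884556) (nat_lit 131) (nat_lit 5) (nat_lit 137) (nat_lit 5) (nat_lit 132) (nat_lit 5) (nat_lit 458) (nat_lit 352) (nat_lit 330))))) (XT.nd (nat_lit 156) (nat_lit 836) (nat_lit 0) (XT.nd (nat_lit 78) (nat_lit 380) (nat_lit 0) (XT.lf (nat_lit 0) (nat_lit 4614217425) (nat_lit 456) (nat_lit 171678938) (nat_lit 76) (nat_lit 5089499307) (nat_lit 131) (nat_lit 5) (nat_lit 137) (nat_lit 5) (nat_lit 132) (nat_lit 5) (nat_lit 459) (nat_lit 352) (nat_lit 329)) (XT.lf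 (nat_lit 0) (nat_lit 6924180043) (nat_lit 380) (nat_lit 1444169069) (nat_lit 456) (nat_lit 1609124953) (nat_lit 126) (nat_lit 5) (nat_lit 131) (nat_lit 5) (nat_lit 132) (nat_lit 5) (nat_lit 460) (nat_lit 352) (nat_lit 328))) (XT.nd (nat_lit 78) (nat_lit 380) (nat_lit 0) (XT.lf (nat_lit 0) (nat_lit 2076721306) (nat_lit 456) (nat_lit 6050747718) (nat_lit 76) (nat_lit 1954096570) (nat_lit 120) (nat_lit 5) (nat_lit 126) (nat_lit 5) (nat_lit 121) (nat_lit 5) (nat_lit 461) (nat_lit 352) (nat_lit 327)) (XT.nd (nat_lit 78) (nat_lit 0) (nat_lit 0) (XT.lf (nat_lit 0) (nat_lit 1025333033) (nat_lit 380) (nat_lit 4774843975) (nat_lit 456) (nat_lit 4387656526) (nat_lit 115) (nat_lit 5) (nat_lit 120) (nat_lit 5) (nat_lit 121) (nat_lit 5) (nat_lit 462) (nat_lit 352) (nat_lit 326)) (XT.lf (nat_lit 0) (nat_lit 8247041601) (nat_lit 380) (nat_lit 1340738928) (nat_lit 456) (nat_lit 708668491) (nat_lit 115) (nat_lit 5) (nat_lit 120)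 (nat_lit 5) (nat_lit 121) (nat_lit 5) (nat_lit 463) (nat_lit 352) (nat_lit 325)))))) (XT.nd (nat_lit 390) (nat_lit 1292) (nat_lit 0) (XT.nd (nat_lit 156) (nat_lit 684) (nat_lit 0) (XT.nd (nat_lit 78) (nat_lit 380) (nat_lit 0) (XT.lf (nat_lit 0) (nat_lit 3001535213) (nat_lit 380) (nat_lit 5244393695) (nat_lit 76) (nat_lit 2160976654) (nat_lit 110) (nat_lit 5) (nat_lit 115) (nat_lit 5) (nat_lit 111) (nat_lit 5) (nat_lit 464) (nat_lit 352) (nat_lit 324)) (XT.lf (nat_lit 0) (nat_lit 1961821500) (nat_lit 380) (nat_lit 4800143907) (nat_lit 456) (nat_lit 3757816766) (nat_lit 105) (nat_lit 5) (nat_lit 110) (nat_lit 5) (nat_lit 111) (nat_lit 5) (nat_lit 465) (nat_lit 352) (nat_lit 323))) (XT.nd (nat_lit 78) (nat_lit 684) (nat_lit 0) (XT.lf (nat_lit 0) (nat_lit 9306360892) (nat_lit 380) (nat_lit 1276958723) (nat_lit 456) (nat_lit 51896955) (nat_lit 105) (nat_lit 5) (nat_lit 110) (nat_lit 5) (nat_lit 111) (nat_lit 5) (nat_lit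 466) (nat_lit 352) (nat_lit 322)) (XT.nd (nat_lit 78) (nat_lit 304) (nat_lit 0) (XT.lf (nat_lit 0) (nat_lit 3684796853) (nat_lit 380) (nat_lit 4744386876) (nat_lit 76) (nat_lit 2323194793) (nat_lit 100) (nat_lit 5) (nat_lit 105) (nat_lit 5) (nat_lit 101) (nat_lit 5) (nat_lit 467) (nat_lit 352) (nat_lit 321)) (XT.lf (nat_lit 0) (nat_lit 2586598589) (nat_lit 304) (nat_lit 4894607059) (nat_lit 380) (nat_lit 3390971408) (nat_lit 96) (nat_lit 5) (nat_lit 100) (nat_lit 5) (nat_lit 101) (nat_lit 5) (nat_lit 468) (nat_lit 352) (nat_lit 320))))) (XT.nd (nat_lit 234) (nat_lit 608) (nat_lit 0) (XT.nd (nat_lit 78) (nat_lit 608) (nat_lit 0) (XT.lf (nat_lit 0) (nat_lit 338084810) (nat_lit 380) (nat_lit 944266106) (nat_lit 76) (nat_lit 9712314707) (nat_lit 95) (nat_lit 5) (nat_lit 100) (nat_lit 5) (nat_lit 96) (nat_lit 5) (nat_lit 469) (nat_lit 352) (nat_lit 319)) (XT.nd (nat_lit 78) (nat_lit 304) (nat_lit 0) (XT.lf (nat_lit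 0) (nat_lit 4107142951) (nat_lit 380) (nat_lit 4603034649) (nat_lit 76) (nat_lit 2408774488) (nat_lit 91) (nat_lit 5) (nat_lit 96) (nat_lit 5) (nat_lit 92) (nat_lit 5) (nat_lit 470) (nat_lit 352) (nat_lit 318)) (XT.lf (nat_lit 0) (nat_lit 2846013588) (nat_lit 304) (nat_lit 5091712068) (nat_lit 380) (nat_lit 3308288434) (nat_lit 87) (nat_lit 5) (nat_lit 91) (nat_lit 5) (nat_lit 92) (nat_lit 5) (nat_lit 471) (nat_lit 352) (nat_lit 317)))) (XT.nd (nat_lit 78) (nat_lit 532) (nat_lit 0) (XT.lf (nat_lit 0) (nat_lit 447153403) (nat_lit 380) (nat_lit 947240586) (nat_lit 76) (nat_lit 9981494475) (nat_lit 86) (nat_lit 5) (nat_lit 91) (nat_lit 5) (nat_lit 87) (nat_lit 5) (nat_lit 472) (nat_lit 352) (nat_lit 316)) (XT.nd (nat_lit 78) (nat_lit 304) (nat_lit 0) (XT.lf (nat_lit 0) (nat_lit 4246115285) (nat_lit 304) (nat_lit 4877798441) (nat_lit 76) (nat_lit 2383767005) (nat_lit 83) (nat_lit 5) (nat_lit 87) (nat_lit 5) (nat_lit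 84) (nat_lit 5) (nat_lit 473) (nat_lit 352) (nat_lit 315)) (XT.lf (nat_lit 0) (nat_lit 2681083889) (nat_lit 304) (nat_lit 5427096719) (nat_lit 380) (nat_lit 3534197463) (nat_lit 79) (nat_lit 5) (nat_lit 83) (nat_lit 5) (nat_lit 84) (nat_lit 5) (nat_lit 474) (nat_lit 352) (nat_lit 314))))))) (XT.nd (nat_lit 780) (nat_lit 1444) (nat_lit 0) (XT.nd (nat_lit 390) (nat_lit 760) (nat_lit 0) (XT.nd (nat_lit 156) (nat_lit 608) (nat_lit 0) (XT.nd (nat_lit 78) (nat_lit 228) (nat_lit 0) (XT.lf (nat_lit 0) (nat_lit 251348989) (nat_lit 380) (nat_lit 1398146288) (nat_lit 76) (nat_lit 10130507728) (nat_lit 78) (nat_lit 5) (nat_lit 83) (nat_lit 5) (nat_lit 79) (nat_lit 5) (nat_lit 475) (nat_lit 352) (nat_lit 313)) (XT.lf (nat_lit 0) (nat_lit 4075891677) (nat_lit 304) (nat_lit 5631918283) (nat_lit 76) (nat_lit 2211902129) (nat_lit 75) (nat_lit 5) (nat_lit 79) (nat_lit 5) (nat_lit 76) (nat_lit 5) (nat_lit 476) (nat_lit 352) (nat_lit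 312))) (XT.nd (nat_lit 78) (nat_lit 304) (nat_lit 0) (XT.lf (nat_lit 0) (nat_lit 2026851023) (nat_lit 304) (nat_lit 5938922488) (nat_lit 380) (nat_lit 4096675698) (nat_lit 71) (nat_lit 5) (nat_lit 75) (nat_lit 5) (nat_lit 76) (nat_lit 5) (nat_lit 477) (nat_lit 352) (nat_lit 311)) (XT.nd (nat_lit 78) (nat_lit 304) (nat_lit 0) (XT.lf (nat_lit 0) (nat_lit 9842496138) (nat_lit 304) (nat_lit 2084474802) (nat_lit 380) (nat_lit 281210380) (nat_lit 71) (nat_lit 5) (nat_lit 75) (nat_lit 5) (nat_lit 76) (nat_lit 5) (nat_lit 478) (nat_lit 352) (nat_lit 310)) (XT.lf (nat_lit 0) (nat_lit 3566983831) (nat_lit 304) (nat_lit 6935098033) (nat_lit 76) (nat_lit 1854212106) (nat_lit 67) (nat_lit 5) (nat_lit 71) (nat_lit 5) (nat_lit 68) (nat_lit 5) (nat_lit 479) (nat_lit 352) (nat_lit 309))))) (XT.nd (nat_lit 156) (nat_lit 532) (nat_lit 0) (XT.nd (nat_lit 78) (nat_lit 0) (nat_lit 0) (XT.lf (nat_lit 0) (nat_lit 811673910) (nat_lit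 228) (nat_lit 6668267723) (nat_lit 304) (nat_lit 5027568757) (nat_lit 64) (nat_lit 5) (nat_lit 67) (nat_lit 5) (nat_lit 68) (nat_lit 5) (nat_lit 480) (nat_lit 352) (nat_lit 308)) (XT.lf (nat_lit 0) (nat_lit 8735832045) (nat_lit 228) (nat_lit 2738759991) (nat_lit 304) (nat_lit 1187100234) (nat_lit 64) (nat_lit 5) (nat_lit 67) (nat_lit 5) (nat_lit 68) (nat_lit 5) (nat_lit 481) (nat_lit 352) (nat_lit 307))) (XT.nd (nat_lit 78) (nat_lit 228) (nat_lit 0) (XT.lf (nat_lit 0) (nat_lit 2685898903) (nat_lit 304) (nat_lit 8864258023) (nat_lit 76) (nat_lit 1268625197) (nat_lit 60) (nat_lit 5) (nat_lit 64) (nat_lit 5) (nat_lit 61) (nat_lit 5) (nat_lit 482) (nat_lit 352) (nat_lit 306)) (XT.nd (nat_lit 78) (nat_lit 228) (nat_lit 0) (XT.lf (nat_lit 0) (nat_lit 6622780987) (nat_lit 304) (nat_lit 1029861316) (nat_lit 76) (nat_lit 5326177406) (nat_lit 60) (nat_lit 5) (nat_lit 64) (nat_lit 5) (nat_lit 61) (nat_lit 5) (nat_lit 483)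 (nat_lit 352) (nat_lit 305)) (XT.lf (nat_lit 0) (nat_lit 6983267909) (nat_lit 228) (nat_lit 3658950101) (nat_lit 304) (nat_lit 2499772745) (nat_lit 57) (nat_lit 5) (nat_lit 60) (nat_lit 5) (nat_lit 61) (nat_lit 5) (nat_lit 484) (nat_lit 352) (nat_lit 304)))))) (XT.nd (nat_lit 390) (nat_lit 684) (nat_lit 0) (XT.nd (nat_lit 156) (nat_lit 456) (nat_lit 0) (XT.nd (nat_lit 78) (nat_lit 0) (nat_lit 0) (XT.lf (nat_lit 0) (nat_lit 1394761371) (nat_lit 304) (nat_lit 11504362534) (nat_lit 76) (nat_lit 409524958) (nat_lit 53) (nat_lit 5) (nat_lit 57) (nat_lit 5) (nat_lit 54) (nat_lit 5) (nat_lit 485) (nat_lit 352) (nat_lit 303)) (XT.lf (nat_lit 0) (nat_lit 5358321325) (nat_lit 304) (nat_lit 3578668157) (nat_lit 76) (nat_lit 4540836571) (nat_lit 53) (nat_lit 5) (nat_lit 57) (nat_lit 5) (nat_lit 54) (nat_lit 5) (nat_lit 486) (nat_lit 352) (nat_lit 302))) (XT.nd (nat_lit 78) (nat_lit 228) (nat_lit 0) (XT.lf (nat_lit 0) (nat_lit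 4496042348) (nat_lit 228) (nat_lit 4893852789) (nat_lit 304) (nat_lit 4260725160) (nat_lit 50) (nat_lit 5) (nat_lit 53) (nat_lit 5) (nat_lit 54) (nat_lit 5) (nat_lit 487) (nat_lit 352) (nat_lit 301)) (XT.nd (nat_lit 78) (nat_lit 228) (nat_lit 0) (XT.lf (nat_lit 0) (nat_lit 12712743114) (nat_lit 228) (nat_lit 773274951) (nat_lit 304) (nat_lit 341182210) (nat_lit 50) (nat_lit 5) (nat_lit 53) (nat_lit 5) (nat_lit 54) (nat_lit 5) (nat_lit 488) (nat_lit 352) (nat_lit 300)) (XT.lf (nat_lit 0) (nat_lit 3637787150) (nat_lit 228) (nat_lit 6940789966) (nat_lit 76) (nat_lit 3427687885) (nat_lit 47) (nat_lit 5) (nat_lit 50) (nat_lit 5) (nat_lit 48) (nat_lit 5) (nat_lit 489) (nat_lit 352) (nat_lit 299))))) (XT.nd (nat_lit 234) (nat_lit 228) (nat_lit 0) (XT.nd (nat_lit 78) (nat_lit 228) (nat_lit 0) (XT.lf (nat_lit 0) (nat_lit 1175958564) (nat_lit 228) (nat_lit 6496682021) (nat_lit 304) (nat_lit 6516615598) (nat_lit 44) (nat_lit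 5) (nat_lit 47) (nat_lit 5) (nat_lit 48) (nat_lit 5) (nat_lit 490) (nat_lit 352) (nat_lit 298)) (XT.nd (nat_lit 78) (nat_lit 228) (nat_lit 0) (XT.lf (nat_lit 0) (nat_lit 9482184136) (nat_lit 228) (nat_lit 2313506121) (nat_lit 304) (nat_lit 2580074524) (nat_lit 44) (nat_lit 5) (nat_lit 47) (nat_lit 5) (nat_lit 48) (nat_lit 5) (nat_lit 491) (nat_lit 352) (nat_lit 297)) (XT.lf (nat_lit 0) (nat_lit 1412308296) (nat_lit 228) (nat_lit 11221777500) (nat_lit 76) (nat_lit 1931819995) (nat_lit 41) (nat_lit 5) (nat_lit 44) (nat_lit 5) (nat_lit 42) (nat_lit 5) (nat_lit 492) (nat_lit 352) (nat_lit 296)))) (XT.nd (nat_lit 78) (nat_lit 228) (nat_lit 0) (XT.lf (nat_lit 0) (nat_lit 5459980354) (nat_lit 228) (nat_lit 3045200846) (nat_lit 76) (nat_lit 6254134698) (nat_lit 41) (nat_lit 5) (nat_lit 44) (nat_lit 5) (nat_lit 42) (nat_lit 5) (nat_lit 493) (nat_lit 352) (nat_lit 295)) (XT.nd (nat_lit 78) (nat_lit 0) (nat_lit 0) (XT.lf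 (nat_lit 0) (nat_lit 5299402224) (nat_lit 228) (nat_lit 4285943486) (nat_lit 304) (nat_lit 5371320700) (nat_lit 38) (nat_lit 5) (nat_lit 41) (nat_lit 5) (nat_lit 42) (nat_lit 5) (nat_lit 494) (nat_lit 352) (nat_lit 294)) (XT.lf (nat_lit 0) (nat_lit 13776378485) (nat_lit 304) (nat_lit 1370786554) (nat_lit 76) (nat_lit 11142553) (nat_lit 38) (nat_lit 5) (nat_lit 42) (nat_lit 5) (nat_lit 39) (nat_lit 4) (nat_lit 495) (nat_lit 352) (nat_lit 293))))))))
noncomputable def xc32 : XT := (XT.nd (nat_lit 55224) (nat_lit 0) (nat_lit 6992) (XT.nd (nat_lit 780) (nat_lit 0) (nat_lit 0) (XT.nd (nat_lit 390) (nat_lit 532) (nat_lit 0) (XT.nd (nat_lit 156) (nat_lit 228) (nat_lit 0) (XT.nd (nat_lit 78) (nat_lit 152) (nat_lit 0) (XT.lf (nat_lit 0) (nat_lit 2689824663) (nat_lit 228) (nat_lit 8298893369) (nat_lit 76) (nat_lit 4374164848) (nat_lit 35) (nat_lit 5) (nat_lit 38) (nat_lit 5) (nat_lit 36) (nat_lit 5) (nat_lit 496) (nat_lit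 352) (nat_lit 292)) (XT.lf (nat_lit 0) (nat_lit 42061878) (nat_lit 152) (nat_lit 6755269724) (nat_lit 228) (nat_lit 8774585404) (nat_lit 33) (nat_lit 5) (nat_lit 35) (nat_lit 5) (nat_lit 36) (nat_lit 5) (nat_lit 497) (nat_lit 352) (nat_lit 291))) (XT.nd (nat_lit 78) (nat_lit 228) (nat_lit 0) (XT.lf (nat_lit 0) (nat_lit 8598796892) (nat_lit 152) (nat_lit 2407461506) (nat_lit 228) (nat_lit 4778494363) (nat_lit 33) (nat_lit 5) (nat_lit 35) (nat_lit 5) (nat_lit 36) (nat_lit 5) (nat_lit 498) (nat_lit 352) (nat_lit 290)) (XT.nd (nat_lit 78) (nat_lit 76) (nat_lit 0) (XT.lf (nat_lit 0) (nat_lit 1265419956) (nat_lit 152) (nat_lit 14019443626) (nat_lit 228) (nat_lit 717277865) (nat_lit 31) (nat_lit 5) (nat_lit 33) (nat_lit 5) (nat_lit 34) (nat_lit 4) (nat_lit 499) (nat_lit 352) (nat_lit 289)) (XT.lf (nat_lit 0) (nat_lit 3408903570) (nat_lit 228) (nat_lit 6341087561) (nat_lit 76) (nat_lit 6472874738) (nat_lit 30) (nat_lit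 5) (nat_lit 33) (nat_lit 5) (nat_lit 31) (nat_lit 5) (nat_lit 500) (nat_lit 352) (nat_lit 288))))) (XT.nd (nat_lit 156) (nat_lit 380) (nat_lit 0) (XT.nd (nat_lit 78) (nat_lit 0) (nat_lit 0) (XT.lf (nat_lit 0) (nat_lit 2184691212) (nat_lit 152) (nat_lit 5402386796) (nat_lit 228) (nat_lit 8861256326) (nat_lit 28) (nat_lit 5) (nat_lit 30) (nat_lit 5) (nat_lit 31) (nat_lit 5) (nat_lit 501) (nat_lit 352) (nat_lit 287)) (XT.lf (nat_lit 0) (nat_lit 10905676129) (nat_lit 152) (nat_lit 950862977) (nat_lit 228) (nat_lit 4821624342) (nat_lit 28) (nat_lit 5) (nat_lit 30) (nat_lit 5) (nat_lit 31) (nat_lit 5) (nat_lit 502) (nat_lit 352) (nat_lit 286))) (XT.nd (nat_lit 78) (nat_lit 228) (nat_lit 0) (XT.lf (nat_lit 0) (nat_lit 2841873064) (nat_lit 152) (nat_lit 13376960125) (nat_lit 228) (nat_lit 693612709) (nat_lit 26) (nat_lit 5) (nat_lit 28) (nat_lit 5) (nat_lit 29) (nat_lit 4) (nat_lit 503) (nat_lit 352) (nat_lit 285))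 (XT.nd (nat_lit 78) (nat_lit 152) (nat_lit 0) (XT.lf (nat_lit 0) (nat_lit 3481860694) (nat_lit 228) (nat_lit 5533904822) (nat_lit 76) (nat_lit 8134976661) (nat_lit 25) (nat_lit 5) (nat_lit 28) (nat_lit 5) (nat_lit 26) (nat_lit 5) (nat_lit 504) (nat_lit 352) (nat_lit 284)) (XT.lf (nat_lit 0) (nat_lit 3150769404) (nat_lit 152) (nat_lit 4567661101) (nat_lit 228) (nat_lit 9675549995) (nat_lit 23) (nat_lit 5) (nat_lit 25) (nat_lit 5) (nat_lit 26) (nat_lit 5) (nat_lit 505) (nat_lit 352) (nat_lit 283)))))) (XT.nd (nat_lit 54054) (nat_lit 0) (nat_lit 14364) (XT.nd (nat_lit 53820) (nat_lit 0) (nat_lit 16872) (XT.nd (nat_lit 53742) (nat_lit 0) (nat_lit 18240) (XT.lf (nat_lit 0) (nat_lit 12025085220) (nat_lit 152) (nat_lit 18465912) (nat_lit 228) (nat_lit 5598461271) (nat_lit 23) (nat_lit 5) (nat_lit 25) (nat_lit 5) (nat_lit 26) (nat_lit 5) (nat_lit 506) (nat_lit 352) (nat_lit 282)) (XT.lf (nat_lit 0) (nat_lit 888787282)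 (nat_lit 760) (nat_lit 2187764844) (nat_lit 0) (nat_lit 888787282) (nat_lit 263) (nat_lit 5) (nat_lit 273) (nat_lit 4) (nat_lit 263) (nat_lit 4) (nat_lit 434) (nat_lit 353) (nat_lit 353))) (XT.nd (nat_lit 78) (nat_lit 684) (nat_lit 0) (XT.lf (nat_lit 0) (nat_lit 1613171668) (nat_lit 684) (nat_lit 3817399898) (nat_lit 684) (nat_lit 2558166319) (nat_lit 254) (nat_lit 4) (nat_lit 263) (nat_lit 5) (nat_lit 263) (nat_lit 4) (nat_lit 435) (nat_lit 353) (nat_lit 352)) (XT.nd (nat_lit 78) (nat_lit 608) (nat_lit 0) (XT.lf (nat_lit 0) (nat_lit 1058980239) (nat_lit 760) (nat_lit 354636218) (nat_lit 76) (nat_lit 6634932860) (nat_lit 253) (nat_lit 5) (nat_lit 263) (nat_lit 5) (nat_lit 254) (nat_lit 4) (nat_lit 436) (nat_lit 353) (nat_lit 351)) (XT.lf (nat_lit 0) (nat_lit 4695246480) (nat_lit 684) (nat_lit 2350619393) (nat_lit 0) (nat_lit 1063763827) (nat_lit 245) (nat_lit 5) (nat_lit 254) (nat_lit 4) (nat_lit 245) (nat_lit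 4) (nat_lit 437) (nat_lit 353) (nat_lit 350))))) (XT.nd (nat_lit 156) (nat_lit 1216) (nat_lit 0) (XT.nd (nat_lit 78) (nat_lit 608) (nat_lit 0) (XT.lf (nat_lit 0) (nat_lit 202598214) (nat_lit 684) (nat_lit 4385571442) (nat_lit 76) (nat_lit 3584295396) (nat_lit 236) (nat_lit 5) (nat_lit 245) (nat_lit 5) (nat_lit 237) (nat_lit 4) (nat_lit 438) (nat_lit 353) (nat_lit 349)) (XT.lf (nat_lit 0) (nat_lit 1762942626) (nat_lit 608) (nat_lit 2048091586) (nat_lit 684) (nat_lit 4425804552) (nat_lit 228) (nat_lit 5) (nat_lit 236) (nat_lit 5) (nat_lit 237) (nat_lit 4) (nat_lit 439) (nat_lit 353) (nat_lit 348))) (XT.nd (nat_lit 78) (nat_lit 1216) (nat_lit 0) (XT.lf (nat_lit 0) (nat_lit 7462846164) (nat_lit 684) (nat_lit 292618349) (nat_lit 0) (nat_lit 547640414) (nat_lit 228) (nat_lit 5) (nat_lit 237) (nat_lit 4) (nat_lit 228) (nat_lit 4) (nat_lit 440) (nat_lit 353) (nat_lit 347)) (XT.nd (nat_lit 78) (nat_lit 532) (nat_lit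 0) (XT.lf (nat_lit 0) (nat_lit 2771750366) (nat_lit 684) (nat_lit 2391013743) (nat_lit 76) (nat_lit 3207760544) (nat_lit 219) (nat_lit 5) (nat_lit 228) (nat_lit 5) (nat_lit 220) (nat_lit 4) (nat_lit 441) (nat_lit 353) (nat_lit 346)) (XT.lf (nat_lit 0) (nat_lit 3907884250) (nat_lit 532) (nat_lit 2503751424) (nat_lit 608) (nat_lit 2028235719) (nat_lit 212) (nat_lit 5) (nat_lit 219) (nat_lit 5) (nat_lit 220) (nat_lit 4) (nat_lit 442) (nat_lit 353) (nat_lit 345))))))) (XT.nd (nat_lit 780) (nat_lit 3572) (nat_lit 0) (XT.nd (nat_lit 390) (nat_lit 1596) (nat_lit 0) (XT.nd (nat_lit 156) (nat_lit 1596) (nat_lit 0) (XT.nd (nat_lit 78) (nat_lit 0) (nat_lit 0) (XT.lf (nat_lit 0) (nat_lit 1561564719) (nat_lit 608) (nat_lit 6724688224) (nat_lit 76) (nat_lit 224788650) (nat_lit 204) (nat_lit 5) (nat_lit 212) (nat_lit 5) (nat_lit 205) (nat_lit 4) (nat_lit 443) (nat_lit 353) (nat_lit 344)) (XT.lf (nat_lit 0) (nat_lit 5183537160)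 (nat_lit 608) (nat_lit 401200976) (nat_lit 76) (nat_lit 2998904107) (nat_lit 204) (nat_lit 5) (nat_lit 212) (nat_lit 5) (nat_lit 205) (nat_lit 4) (nat_lit 444) (nat_lit 353) (nat_lit 343))) (XT.nd (nat_lit 78) (nat_lit 988) (nat_lit 0) (XT.lf (nat_lit 0) (nat_lit 197973001) (nat_lit 608) (nat_lit 2610189848) (nat_lit 76) (nat_lit 5849916162) (nat_lit 196) (nat_lit 5) (nat_lit 204) (nat_lit 5) (nat_lit 197) (nat_lit 5) (nat_lit 445) (nat_lit 353) (nat_lit 342)) (XT.nd (nat_lit 78) (nat_lit 456) (nat_lit 0) (XT.lf (nat_lit 0) (nat_lit 3792277639) (nat_lit 608) (nat_lit 4888340573) (nat_lit 76) (nat_lit 53565329) (nat_lit 189) (nat_lit 5) (nat_lit 197) (nat_lit 5) (nat_lit 190) (nat_lit 4) (nat_lit 446) (nat_lit 353) (nat_lit 341)) (XT.lf (nat_lit 0) (nat_lit 1577215860) (nat_lit 456) (nat_lit 5869932998) (nat_lit 532) (nat_lit 1364911585) (nat_lit 183) (nat_lit 5) (nat_lit 189) (nat_lit 5) (nat_lit 190) (nat_lit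 4) (nat_lit 447) (nat_lit 353) (nat_lit 340))))) (XT.nd (nat_lit 156) (nat_lit 988) (nat_lit 0) (XT.nd (nat_lit 78) (nat_lit 532) (nat_lit 0) (XT.lf (nat_lit 0) (nat_lit 2229121873) (nat_lit 532) (nat_lit 747475473) (nat_lit 76) (nat_lit 5915114976) (nat_lit 182) (nat_lit 5) (nat_lit 189) (nat_lit 5) (nat_lit 183) (nat_lit 5) (nat_lit 448) (nat_lit 353) (nat_lit 339)) (XT.lf (nat_lit 0) (nat_lit 5858380084) (nat_lit 608) (nat_lit 3114098218) (nat_lit 76) (nat_lit 688603) (nat_lit 175) (nat_lit 5) (nat_lit 183) (nat_lit 5) (nat_lit 176) (nat_lit 4) (nat_lit 449) (nat_lit 353) (nat_lit 338))) (XT.nd (nat_lit 78) (nat_lit 456) (nat_lit 0) (XT.lf (nat_lit 0) (nat_lit 488780699) (nat_lit 532) (nat_lit 5560639953) (nat_lit 76) (nat_lit 3006957773) (nat_lit 168) (nat_lit 5) (nat_lit 175) (nat_lit 5) (nat_lit 169) (nat_lit 5) (nat_lit 450) (nat_lit 353) (nat_lit 337)) (XT.nd (nat_lit 78) (nat_lit 0) (nat_lit 0) (XT.lf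 (nat_lit 0) (nat_lit 1053098035) (nat_lit 456) (nat_lit 3041743430) (nat_lit 532) (nat_lit 5046579573) (nat_lit 162) (nat_lit 5) (nat_lit 168) (nat_lit 5) (nat_lit 169) (nat_lit 5) (nat_lit 451) (nat_lit 353) (nat_lit 336)) (XT.lf (nat_lit 0) (nat_lit 7755403478) (nat_lit 532) (nat_lit 1432896135) (nat_lit 76) (nat_lit 40238087) (nat_lit 162) (nat_lit 5) (nat_lit 169) (nat_lit 5) (nat_lit 163) (nat_lit 4) (nat_lit 452) (nat_lit 353) (nat_lit 335)))))) (XT.nd (nat_lit 390) (nat_lit 1672) (nat_lit 0) (XT.nd (nat_lit 156) (nat_lit 912) (nat_lit 0) (XT.nd (nat_lit 78) (nat_lit 456) (nat_lit 0) (XT.lf (nat_lit 0) (nat_lit 2143746610) (nat_lit 532) (nat_lit 4004134960) (nat_lit 76) (nat_lit 3169244106) (nat_lit 155) (nat_lit 5) (nat_lit 162) (nat_lit 5) (nat_lit 156) (nat_lit 5) (nat_lit 453) (nat_lit 353) (nat_lit 334)) (XT.lf (nat_lit 0) (nat_lit 2754011707) (nat_lit 456) (nat_lit 3032726224) (nat_lit 532) (nat_lit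 3621102369) (nat_lit 149) (nat_lit 5) (nat_lit 155) (nat_lit 5) (nat_lit 156) (nat_lit 5) (nat_lit 454) (nat_lit 353) (nat_lit 333))) (XT.nd (nat_lit 78) (nat_lit 532) (nat_lit 0) (XT.lf (nat_lit 0) (nat_lit 123638706) (nat_lit 380) (nat_lit 9354059244) (nat_lit 456) (nat_lit 23188303) (nat_lit 144) (nat_lit 5) (nat_lit 149) (nat_lit 5) (nat_lit 150) (nat_lit 4) (nat_lit 455) (nat_lit 353) (nat_lit 332)) (XT.nd (nat_lit 78) (nat_lit 456) (nat_lit 0) (XT.lf (nat_lit 0) (nat_lit 3610381349) (nat_lit 456) (nat_lit 2590951044) (nat_lit 76) (nat_lit 3393775181) (nat_lit 143) (nat_lit 5) (nat_lit 149) (nat_lit 5) (nat_lit 144) (nat_lit 5) (nat_lit 456) (nat_lit 353) (nat_lit 331)) (XT.lf (nat_lit 0) (nat_lit 4310148139) (nat_lit 456) (nat_lit 2981691091) (nat_lit 532) (nat_lit 2399878587) (nat_lit 137) (nat_lit 5) (nat_lit 143) (nat_lit 5) (nat_lit 144) (nat_lit 5) (nat_lit 457) (nat_lit 353) (nat_lit 330))))) (XT.nd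 (nat_lit 234) (nat_lit 836) (nat_lit 0) (XT.nd (nat_lit 78) (nat_lit 380) (nat_lit 0) (XT.lf (nat_lit 0) (nat_lit 1217358341) (nat_lit 456) (nat_lit 8263895102) (nat_lit 76) (nat_lit 309317568) (nat_lit 131) (nat_lit 5) (nat_lit 137) (nat_lit 5) (nat_lit 132) (nat_lit 5) (nat_lit 458) (nat_lit 353) (nat_lit 329)) (XT.nd (nat_lit 78) (nat_lit 380) (nat_lit 0) (XT.lf (nat_lit 0) (nat_lit 4879007176) (nat_lit 456) (nat_lit 1358403147) (nat_lit 76) (nat_lit 3653606711) (nat_lit 131) (nat_lit 5) (nat_lit 137) (nat_lit 5) (nat_lit 132) (nat_lit 5) (nat_lit 459) (nat_lit 353) (nat_lit 328)) (XT.lf (nat_lit 0) (nat_lit 5683383864) (nat_lit 380) (nat_lit 2916496481) (nat_lit 456) (nat_lit 1393888535) (nat_lit 126) (nat_lit 5) (nat_lit 131) (nat_lit 5) (nat_lit 132) (nat_lit 5) (nat_lit 460) (nat_lit 353) (nat_lit 327)))) (XT.nd (nat_lit 78) (nat_lit 380) (nat_lit 0) (XT.lf (nat_lit 0) (nat_lit 2245791261) (nat_lit 456)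 (nat_lit 7371614739) (nat_lit 76) (nat_lit 481301292) (nat_lit 120) (nat_lit 5) (nat_lit 126) (nat_lit 5) (nat_lit 121) (nat_lit 5) (nat_lit 461) (nat_lit 353) (nat_lit 326)) (XT.nd (nat_lit 78) (nat_lit 380) (nat_lit 0) (XT.lf (nat_lit 0) (nat_lit 5937629855) (nat_lit 456) (nat_lit 347046479) (nat_lit 76) (nat_lit 3920939043) (nat_lit 120) (nat_lit 5) (nat_lit 126) (nat_lit 5) (nat_lit 121) (nat_lit 5) (nat_lit 462) (nat_lit 353) (nat_lit 325)) (XT.lf (nat_lit 0) (nat_lit 6832235386) (nat_lit 380) (nat_lit 2865998715) (nat_lit 456) (nat_lit 616544398) (nat_lit 115) (nat_lit 5) (nat_lit 120) (nat_lit 5) (nat_lit 121) (nat_lit 5) (nat_lit 463) (nat_lit 353) (nat_lit 324))))))))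
noncomputable def xc33 : XT := (XT.nd (nat_lit 1638) (nat_lit 2432) (nat_lit 0) (XT.nd (nat_lit 780) (nat_lit 1976) (nat_lit 0) (XT.nd (nat_lit 390) (nat_lit 988) (nat_lit 0) (XT.nd (nat_lit 156) (nat_lit 684) (nat_lit 0) (XT.nd (nat_lit 78) (nat_lit 380) (nat_lit 0) (XT.lf (nat_lit 0) (nat_lit 3048325647) (nat_lit 380) (nat_lit 6744041810) (nat_lit 76) (nat_lit 633745484) (nat_lit 110) (nat_lit 5) (nat_lit 115) (nat_lit 5) (nat_lit 111) (nat_lit 5) (nat_lit 464) (nat_lit 353) (nat_lit 323)) (XT.lf (nat_lit 0) (nat_lit 404179869) (nat_lit 380) (nat_lit 6370216186) (nat_lit 456) (nat_lit 3765287901) (nat_lit 105) (nat_lit 5) (nat_lit 110) (nat_lit 5) (nat_lit 111) (nat_lit 5) (nat_lit 465) (nat_lit 353) (nat_lit 322))) (XT.nd (nat_lit 78) (nat_lit 684) (nat_lit 0) (XT.lf (nat_lit 0) (nat_lit 7711401631) (nat_lit 380) (nat_lit 2860335221) (nat_lit 456) (nat_lit 83868836) (nat_lit 105) (nat_lit 5) (nat_lit 110)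 (nat_lit 5) (nat_lit 111) (nat_lit 5) (nat_lit 466) (nat_lit 353) (nat_lit 321)) (XT.nd (nat_lit 78) (nat_lit 304) (nat_lit 0) (XT.lf (nat_lit 0) (nat_lit 3608230837) (nat_lit 380) (nat_lit 6429042406) (nat_lit 76) (nat_lit 736405612) (nat_lit 100) (nat_lit 5) (nat_lit 105) (nat_lit 5) (nat_lit 101) (nat_lit 5) (nat_lit 467) (nat_lit 353) (nat_lit 320)) (XT.lf (nat_lit 0) (nat_lit 842006888) (nat_lit 304) (nat_lit 6527741532) (nat_lit 380) (nat_lit 3524433453) (nat_lit 96) (nat_lit 5) (nat_lit 100) (nat_lit 5) (nat_lit 101) (nat_lit 5) (nat_lit 468) (nat_lit 353) (nat_lit 319))))) (XT.nd (nat_lit 156) (nat_lit 608) (nat_lit 0) (XT.nd (nat_lit 78) (nat_lit 304) (nat_lit 0) (XT.lf (nat_lit 0) (nat_lit 182870992) (nat_lit 380) (nat_lit 2747126584) (nat_lit 76) (nat_lit 8087166638) (nat_lit 95) (nat_lit 5) (nat_lit 100) (nat_lit 5) (nat_lit 96) (nat_lit 5) (nat_lit 469) (nat_lit 353) (nat_lit 318)) (XT.lf (nat_lit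 0) (nat_lit 3905922895) (nat_lit 380) (nat_lit 6479083601) (nat_lit 76) (nat_lit 757370584) (nat_lit 91) (nat_lit 5) (nat_lit 96) (nat_lit 5) (nat_lit 92) (nat_lit 5) (nat_lit 470) (nat_lit 353) (nat_lit 317))) (XT.nd (nat_lit 78) (nat_lit 304) (nat_lit 0) (XT.lf (nat_lit 0) (nat_lit 908008367) (nat_lit 304) (nat_lit 6793003487) (nat_lit 380) (nat_lit 3569143256) (nat_lit 87) (nat_lit 5) (nat_lit 91) (nat_lit 5) (nat_lit 92) (nat_lit 5) (nat_lit 471) (nat_lit 353) (nat_lit 316)) (XT.nd (nat_lit 78) (nat_lit 228) (nat_lit 0) (XT.lf (nat_lit 0) (nat_lit 166866101) (nat_lit 380) (nat_lit 2944301404) (nat_lit 76) (nat_lit 8289358837) (nat_lit 86) (nat_lit 5) (nat_lit 91) (nat_lit 5) (nat_lit 87) (nat_lit 5) (nat_lit 472) (nat_lit 353) (nat_lit 315)) (XT.lf (nat_lit 0) (nat_lit 3918725217) (nat_lit 304) (nat_lit 6951803245) (nat_lit 76) (nat_lit 662738001) (nat_lit 83) (nat_lit 5) (nat_lit 87) (nat_lit 5) (nat_lit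 84) (nat_lit 5) (nat_lit 473) (nat_lit 353) (nat_lit 314)))))) (XT.nd (nat_lit 390) (nat_lit 1064) (nat_lit 0) (XT.nd (nat_lit 156) (nat_lit 608) (nat_lit 0) (XT.nd (nat_lit 78) (nat_lit 0) (nat_lit 0) (XT.lf (nat_lit 0) (nat_lit 543021451) (nat_lit 304) (nat_lit 7201602306) (nat_lit 380) (nat_lit 3924069066) (nat_lit 79) (nat_lit 5) (nat_lit 83) (nat_lit 5) (nat_lit 84) (nat_lit 5) (nat_lit 474) (nat_lit 353) (nat_lit 313)) (XT.lf (nat_lit 0) (nat_lit 8209701355) (nat_lit 304) (nat_lit 3439386750) (nat_lit 380) (nat_lit 157709906) (nat_lit 79) (nat_lit 5) (nat_lit 83) (nat_lit 5) (nat_lit 84) (nat_lit 5) (nat_lit 475) (nat_lit 353) (nat_lit 312))) (XT.nd (nat_lit 78) (nat_lit 304) (nat_lit 0) (XT.lf (nat_lit 0) (nat_lit 3620598808) (nat_lit 304) (nat_lit 7910634356) (nat_lit 76) (nat_lit 416265813) (nat_lit 75) (nat_lit 5) (nat_lit 79) (nat_lit 5) (nat_lit 76) (nat_lit 5) (nat_lit 476) (nat_lit 353) (nat_lit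 311)) (XT.nd (nat_lit 78) (nat_lit 304) (nat_lit 0) (XT.lf (nat_lit 0) (nat_lit 7475636061) (nat_lit 304) (nat_lit 313937171) (nat_lit 76) (nat_lit 4301365009) (nat_lit 75) (nat_lit 5) (nat_lit 79) (nat_lit 5) (nat_lit 76) (nat_lit 5) (nat_lit 477) (nat_lit 353) (nat_lit 310)) (XT.lf (nat_lit 0) (nat_lit 7462279762) (nat_lit 304) (nat_lit 3950999720) (nat_lit 380) (nat_lit 823867099) (nat_lit 71) (nat_lit 5) (nat_lit 75) (nat_lit 5) (nat_lit 76) (nat_lit 5) (nat_lit 478) (nat_lit 353) (nat_lit 309))))) (XT.nd (nat_lit 234) (nat_lit 532) (nat_lit 0) (XT.nd (nat_lit 78) (nat_lit 228) (nat_lit 0) (XT.lf (nat_lit 0) (nat_lit 2960695567) (nat_lit 228) (nat_lit 21282048) (nat_lit 304) (nat_lit 9404346360) (nat_lit 67) (nat_lit 5) (nat_lit 70) (nat_lit 5) (nat_lit 71) (nat_lit 5) (nat_lit 479) (nat_lit 353) (nat_lit 308)) (XT.nd (nat_lit 78) (nat_lit 228) (nat_lit 0) (XT.lf (nat_lit 0) (nat_lit 6868418344) (nat_lit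 304) (nat_lit 1724322869) (nat_lit 76) (nat_lit 3945334374) (nat_lit 67) (nat_lit 5) (nat_lit 71) (nat_lit 5) (nat_lit 68) (nat_lit 5) (nat_lit 480) (nat_lit 353) (nat_lit 307)) (XT.lf (nat_lit 0) (nat_lit 6142190584) (nat_lit 228) (nat_lit 4688613377) (nat_lit 304) (nat_lit 1862103558) (nat_lit 64) (nat_lit 5) (nat_lit 67) (nat_lit 5) (nat_lit 68) (nat_lit 5) (nat_lit 481) (nat_lit 353) (nat_lit 306)))) (XT.nd (nat_lit 78) (nat_lit 228) (nat_lit 0) (XT.lf (nat_lit 0) (nat_lit 1272954808) (nat_lit 228) (nat_lit 700330761) (nat_lit 304) (nat_lit 10877733283) (nat_lit 60) (nat_lit 5) (nat_lit 63) (nat_lit 5) (nat_lit 64) (nat_lit 5) (nat_lit 482) (nat_lit 353) (nat_lit 305)) (XT.nd (nat_lit 78) (nat_lit 228) (nat_lit 0) (XT.lf (nat_lit 0) (nat_lit 5885064845) (nat_lit 304) (nat_lit 3773547171) (nat_lit 76) (nat_lit 3352950959) (nat_lit 60) (nat_lit 5) (nat_lit 64) (nat_lit 5) (nat_lit 61) (nat_lit 5) (nat_lit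 483) (nat_lit 353) (nat_lit 304)) (XT.lf (nat_lit 0) (nat_lit 4168919559) (nat_lit 228) (nat_lit 5697156951) (nat_lit 304) (nat_lit 3309430412) (nat_lit 57) (nat_lit 5) (nat_lit 60) (nat_lit 5) (nat_lit 61) (nat_lit 5) (nat_lit 484) (nat_lit 353) (nat_lit 303))))))) (XT.nd (nat_lit 780) (nat_lit 988) (nat_lit 0) (XT.nd (nat_lit 390) (nat_lit 684) (nat_lit 0) (XT.nd (nat_lit 156) (nat_lit 456) (nat_lit 0) (XT.nd (nat_lit 78) (nat_lit 228) (nat_lit 0) (XT.lf (nat_lit 0) (nat_lit 561183974) (nat_lit 304) (nat_lit 1093074064) (nat_lit 76) (nat_lit 11688707123) (nat_lit 56) (nat_lit 5) (nat_lit 60) (nat_lit 5) (nat_lit 57) (nat_lit 5) (nat_lit 485) (nat_lit 353) (nat_lit 302)) (XT.lf (nat_lit 0) (nat_lit 4486740413) (nat_lit 304) (nat_lit 6548120040) (nat_lit 76) (nat_lit 2478046109) (nat_lit 53) (nat_lit 5) (nat_lit 57) (nat_lit 5) (nat_lit 54) (nat_lit 5) (nat_lit 486) (nat_lit 353) (nat_lit 301))) (XT.nd (nat_lit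 78) (nat_lit 228) (nat_lit 0) (XT.lf (nat_lit 0) (nat_lit 1453457844) (nat_lit 228) (nat_lit 7025470460) (nat_lit 304) (nat_lit 5207564281) (nat_lit 50) (nat_lit 5) (nat_lit 53) (nat_lit 5) (nat_lit 54) (nat_lit 5) (nat_lit 487) (nat_lit 353) (nat_lit 300)) (XT.nd (nat_lit 78) (nat_lit 228) (nat_lit 0) (XT.lf (nat_lit 0) (nat_lit 9637148641) (nat_lit 228) (nat_lit 2918441752) (nat_lit 304) (nat_lit 1307875366) (nat_lit 50) (nat_lit 5) (nat_lit 53) (nat_lit 5) (nat_lit 54) (nat_lit 5) (nat_lit 488) (nat_lit 353) (nat_lit 299)) (XT.lf (nat_lit 0) (nat_lit 2629723583) (nat_lit 228) (nat_lit 10143699157) (nat_lit 76) (nat_lit 1270318074) (nat_lit 47) (nat_lit 5) (nat_lit 50) (nat_lit 5) (nat_lit 48) (nat_lit 5) (nat_lit 489) (nat_lit 353) (nat_lit 298))))) (XT.nd (nat_lit 156) (nat_lit 456) (nat_lit 0) (XT.nd (nat_lit 78) (nat_lit 228) (nat_lit 0) (XT.lf (nat_lit 0) (nat_lit 6637811939) (nat_lit 228) (nat_lit 2075078586)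 (nat_lit 76) (nat_lit 5514380523) (nat_lit 47) (nat_lit 5) (nat_lit 50) (nat_lit 5) (nat_lit 48) (nat_lit 5) (nat_lit 490) (nat_lit 353) (nat_lit 297)) (XT.lf (nat_lit 0) (nat_lit 6171080394) (nat_lit 228) (nat_lit 4557163558) (nat_lit 304) (nat_lit 3686191724) (nat_lit 44) (nat_lit 5) (nat_lit 47) (nat_lit 5) (nat_lit 48) (nat_lit 5) (nat_lit 491) (nat_lit 353) (nat_lit 296))) (XT.nd (nat_lit 78) (nat_lit 380) (nat_lit 0) (XT.lf (nat_lit 0) (nat_lit 267471572) (nat_lit 304) (nat_lit 61635185) (nat_lit 76) (nat_lit 14276681625) (nat_lit 43) (nat_lit 5) (nat_lit 47) (nat_lit 5) (nat_lit 44) (nat_lit 5) (nat_lit 492) (nat_lit 353) (nat_lit 295)) (XT.nd (nat_lit 78) (nat_lit 228) (nat_lit 0) (XT.lf (nat_lit 0) (nat_lit 4293951454) (nat_lit 228) (nat_lit 6521716703) (nat_lit 76) (nat_lit 3983957641) (nat_lit 41) (nat_lit 5) (nat_lit 44) (nat_lit 5) (nat_lit 42) (nat_lit 5) (nat_lit 493) (nat_lit 353) (nat_lit 294))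 (XT.lf (nat_lit 0) (nat_lit 1744714982) (nat_lit 228) (nat_lit 6633240857) (nat_lit 304) (nat_lit 6619851087) (nat_lit 38) (nat_lit 5) (nat_lit 41) (nat_lit 5) (nat_lit 42) (nat_lit 5) (nat_lit 494) (nat_lit 353) (nat_lit 293)))))) (XT.nd (nat_lit 390) (nat_lit 608) (nat_lit 0) (XT.nd (nat_lit 156) (nat_lit 152) (nat_lit 0) (XT.nd (nat_lit 78) (nat_lit 228) (nat_lit 0) (XT.lf (nat_lit 0) (nat_lit 10201565117) (nat_lit 228) (nat_lit 2349223565) (nat_lit 304) (nat_lit 2649026753) (nat_lit 38) (nat_lit 5) (nat_lit 41) (nat_lit 5) (nat_lit 42) (nat_lit 5) (nat_lit 495) (nat_lit 353) (nat_lit 292)) (XT.lf (nat_lit 0) (nat_lit 1381887453) (nat_lit 228) (nat_lit 12024572042) (nat_lit 76) (nat_lit 1999248122) (nat_lit 35) (nat_lit 5) (nat_lit 38) (nat_lit 5) (nat_lit 36) (nat_lit 5) (nat_lit 496) (nat_lit 353) (nat_lit 291))) (XT.nd (nat_lit 78) (nat_lit 152) (nat_lit 0) (XT.lf (nat_lit 0) (nat_lit 5471295692) (nat_lit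 228) (nat_lit 3715207936) (nat_lit 76) (nat_lit 6428603228) (nat_lit 35) (nat_lit 5) (nat_lit 38) (nat_lit 5) (nat_lit 36) (nat_lit 5) (nat_lit 497) (nat_lit 353) (nat_lit 290)) (XT.nd (nat_lit 78) (nat_lit 0) (nat_lit 0) (XT.lf (nat_lit 0) (nat_lit 4761318632) (nat_lit 152) (nat_lit 4876785408) (nat_lit 228) (nat_lit 6190684016) (nat_lit 33) (nat_lit 5) (nat_lit 35) (nat_lit 5) (nat_lit 36) (nat_lit 5) (nat_lit 498) (nat_lit 353) (nat_lit 289)) (XT.lf (nat_lit 0) (nat_lit 13396670394) (nat_lit 152) (nat_lit 481503177) (nat_lit 228) (nat_lit 2168776901) (nat_lit 33) (nat_lit 5) (nat_lit 35) (nat_lit 5) (nat_lit 36) (nat_lit 5) (nat_lit 499) (nat_lit 353) (nat_lit 288))))) (XT.nd (nat_lit 234) (nat_lit 228) (nat_lit 0) (XT.nd (nat_lit 78) (nat_lit 152) (nat_lit 0) (XT.lf (nat_lit 0) (nat_lit 1938377445) (nat_lit 228) (nat_lit 10355030202) (nat_lit 76) (nat_lit 3975219902) (nat_lit 30) (nat_lit 5) (nat_lit 33)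 (nat_lit 5) (nat_lit 31) (nat_lit 5) (nat_lit 500) (nat_lit 353) (nat_lit 287)) (XT.nd (nat_lit 78) (nat_lit 152) (nat_lit 0) (XT.lf (nat_lit 0) (nat_lit 6085322323) (nat_lit 228) (nat_lit 1887835258) (nat_lit 76) (nat_lit 8521565868) (nat_lit 30) (nat_lit 5) (nat_lit 33) (nat_lit 5) (nat_lit 31) (nat_lit 5) (nat_lit 501) (nat_lit 353) (nat_lit 286)) (XT.lf (nat_lit 0) (nat_lit 6778327025) (nat_lit 152) (nat_lit 3547132493) (nat_lit 228) (nat_lit 6399682309) (nat_lit 28) (nat_lit 5) (nat_lit 30) (nat_lit 5) (nat_lit 31) (nat_lit 5) (nat_lit 502) (nat_lit 353) (nat_lit 285)))) (XT.nd (nat_lit 78) (nat_lit 228) (nat_lit 0) (XT.lf (nat_lit 0) (nat_lit 14635791418) (nat_lit 228) (nat_lit 1382273173) (nat_lit 76) (nat_lit 942401661) (nat_lit 28) (nat_lit 5) (nat_lit 31) (nat_lit 5) (nat_lit 29) (nat_lit 4) (nat_lit 503) (nat_lit 353) (nat_lit 284)) (XT.nd (nat_lit 78) (nat_lit 0) (nat_lit 0) (XT.lf (nat_lit 0) (nat_lit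 1846406831) (nat_lit 228) (nat_lit 9843406769) (nat_lit 76) (nat_lit 5509679022) (nat_lit 25) (nat_lit 5) (nat_lit 28) (nat_lit 5) (nat_lit 26) (nat_lit 5) (nat_lit 504) (nat_lit 353) (nat_lit 283)) (XT.lf (nat_lit 0) (nat_lit 6046216539) (nat_lit 228) (nat_lit 1228912271) (nat_lit 76) (nat_lit 10168339914) (nat_lit 25) (nat_lit 5) (nat_lit 28) (nat_lit 5) (nat_lit 26) (nat_lit 5) (nat_lit 505) (nat_lit 353) (nat_lit 282))))))))
noncomputable def xc34 : XT := (XT.nd (nat_lit 55068) (nat_lit 0) (nat_lit 5168) (XT.nd (nat_lit 54288) (nat_lit 0) (nat_lit 11020) (XT.nd (nat_lit 53898) (nat_lit 0) (nat_lit 15504) (XT.nd (nat_lit 53664) (nat_lit 0) (nat_lit 17556) (XT.nd (nat_lit 53586) (nat_lit 0) (nat_lit 19684) (XT.lf (nat_lit 0) (nat_lit 7600404974) (nat_lit 152) (nat_lit 2746677568) (nat_lit 228) (nat_lit 7344905700) (nat_lit 23) (nat_lit 5) (nat_lit 25) (nat_lit 5) (nat_lit 26) (nat_lit 5) (nat_lit 506) (nat_lit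 353) (nat_lit 281)) (XT.lf (nat_lit 0) (nat_lit 1840240841) (nat_lit 760) (nat_lit 228800067) (nat_lit 0) (nat_lit 1840240841) (nat_lit 282) (nat_lit 5) (nat_lit 292) (nat_lit 4) (nat_lit 282) (nat_lit 4) (nat_lit 432) (nat_lit 354) (nat_lit 354))) (XT.nd (nat_lit 78) (nat_lit 1444) (nat_lit 0) (XT.lf (nat_lit 0) (nat_lit 5460120577) (nat_lit 684) (nat_lit 1862106495) (nat_lit 684) (nat_lit 551999880) (nat_lit 273) (nat_lit 4) (nat_lit 282) (nat_lit 5) (nat_lit 282) (nat_lit 4) (nat_lit 433) (nat_lit 354) (nat_lit 353)) (XT.nd (nat_lit 78) (nat_lit 684) (nat_lit 0) (XT.lf (nat_lit 0) (nat_lit 3029812618) (nat_lit 760) (nat_lit 4415365576) (nat_lit 0) (nat_lit 486160789) (nat_lit 263) (nat_lit 5) (nat_lit 273) (nat_lit 4) (nat_lit 263) (nat_lit 4) (nat_lit 434) (nat_lit 354) (nat_lit 352)) (XT.lf (nat_lit 0) (nat_lit 1533232573) (nat_lit 684) (nat_lit 5117508815) (nat_lit 684) (nat_lit 1339314262) (nat_lit 254)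 (nat_lit 4) (nat_lit 263) (nat_lit 5) (nat_lit 263) (nat_lit 4) (nat_lit 435) (nat_lit 354) (nat_lit 351))))) (XT.nd (nat_lit 156) (nat_lit 1368) (nat_lit 0) (XT.nd (nat_lit 78) (nat_lit 608) (nat_lit 0) (XT.lf (nat_lit 0) (nat_lit 2230442114) (nat_lit 760) (nat_lit 483037484) (nat_lit 76) (nat_lit 5336872912) (nat_lit 253) (nat_lit 5) (nat_lit 263) (nat_lit 5) (nat_lit 254) (nat_lit 4) (nat_lit 436) (nat_lit 354) (nat_lit 350)) (XT.lf (nat_lit 0) (nat_lit 5597068358) (nat_lit 608) (nat_lit 230754829) (nat_lit 684) (nat_lit 2284402709) (nat_lit 245) (nat_lit 5) (nat_lit 253) (nat_lit 5) (nat_lit 254) (nat_lit 4) (nat_lit 437) (nat_lit 354) (nat_lit 349))) (XT.nd (nat_lit 78) (nat_lit 684) (nat_lit 0) (XT.lf (nat_lit 0) (nat_lit 1284213651) (nat_lit 684) (nat_lit 4600468486) (nat_lit 76) (nat_lit 2290917989) (nat_lit 236) (nat_lit 5) (nat_lit 245) (nat_lit 5) (nat_lit 237) (nat_lit 4) (nat_lit 438) (nat_lit 354)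 (nat_lit 348)) (XT.nd (nat_lit 78) (nat_lit 76) (nat_lit 0) (XT.lf (nat_lit 0) (nat_lit 1505727824) (nat_lit 608) (nat_lit 3354901516) (nat_lit 684) (nat_lit 3379999321) (nat_lit 228) (nat_lit 5) (nat_lit 236) (nat_lit 5) (nat_lit 237) (nat_lit 4) (nat_lit 439) (nat_lit 354) (nat_lit 347)) (XT.lf (nat_lit 0) (nat_lit 169004877) (nat_lit 684) (nat_lit 590434413) (nat_lit 76) (nat_lit 7548119617) (nat_lit 227) (nat_lit 5) (nat_lit 236) (nat_lit 5) (nat_lit 228) (nat_lit 5) (nat_lit 440) (nat_lit 354) (nat_lit 346)))))) (XT.nd (nat_lit 390) (nat_lit 2128) (nat_lit 0) (XT.nd (nat_lit 156) (nat_lit 1216) (nat_lit 0) (XT.nd (nat_lit 78) (nat_lit 532) (nat_lit 0) (XT.lf (nat_lit 0) (nat_lit 3733153827) (nat_lit 684) (nat_lit 2737191805) (nat_lit 76) (nat_lit 1905274277) (nat_lit 219) (nat_lit 5) (nat_lit 228) (nat_lit 5) (nat_lit 220) (nat_lit 4) (nat_lit 441) (nat_lit 354) (nat_lit 345)) (XT.lf (nat_lit 0) (nat_lit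 3517965614) (nat_lit 532) (nat_lit 3823191947) (nat_lit 608) (nat_lit 1104460037) (nat_lit 212) (nat_lit 5) (nat_lit 219) (nat_lit 5) (nat_lit 220) (nat_lit 4) (nat_lit 442) (nat_lit 354) (nat_lit 344))) (XT.nd (nat_lit 78) (nat_lit 608) (nat_lit 0) (XT.lf (nat_lit 0) (nat_lit 1341572210) (nat_lit 532) (nat_lit 1098047516) (nat_lit 608) (nat_lit 6077733024) (nat_lit 204) (nat_lit 5) (nat_lit 211) (nat_lit 5) (nat_lit 212) (nat_lit 5) (nat_lit 443) (nat_lit 354) (nat_lit 343)) (XT.nd (nat_lit 78) (nat_lit 608) (nat_lit 0) (XT.lf (nat_lit 0) (nat_lit 6025494814) (nat_lit 608) (nat_lit 884211033) (nat_lit 76) (nat_lit 1680982051) (nat_lit 204) (nat_lit 5) (nat_lit 212) (nat_lit 5) (nat_lit 205) (nat_lit 4) (nat_lit 444) (nat_lit 354) (nat_lit 342)) (XT.lf (nat_lit 0) (nat_lit 989882395) (nat_lit 608) (nat_lit 3151313443) (nat_lit 76) (nat_lit 4524473527) (nat_lit 196) (nat_lit 5) (nat_lit 204) (nat_lit 5) (nat_lit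 197) (nat_lit 5) (nat_lit 445) (nat_lit 354) (nat_lit 341))))) (XT.nd (nat_lit 156) (nat_lit 1140) (nat_lit 0) (XT.nd (nat_lit 78) (nat_lit 456) (nat_lit 0) (XT.lf (nat_lit 0) (nat_lit 3258959757) (nat_lit 532) (nat_lit 1292774024) (nat_lit 608) (nat_lit 4190701007) (nat_lit 189) (nat_lit 5) (nat_lit 196) (nat_lit 5) (nat_lit 197) (nat_lit 5) (nat_lit 446) (nat_lit 354) (nat_lit 340)) (XT.lf (nat_lit 0) (nat_lit 943493938) (nat_lit 456) (nat_lit 7222555654) (nat_lit 532) (nat_lit 655084800) (nat_lit 183) (nat_lit 5) (nat_lit 189) (nat_lit 5) (nat_lit 190) (nat_lit 4) (nat_lit 447) (nat_lit 354) (nat_lit 339))) (XT.nd (nat_lit 78) (nat_lit 1064) (nat_lit 0) (XT.lf (nat_lit 0) (nat_lit 2901697392) (nat_lit 532) (nat_lit 1433677714) (nat_lit 76) (nat_lit 4565888973) (nat_lit 182) (nat_lit 5) (nat_lit 189) (nat_lit 5) (nat_lit 183) (nat_lit 5) (nat_lit 448) (nat_lit 354) (nat_lit 338)) (XT.nd (nat_lit 78) (nat_lit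 532) (nat_lit 0) (XT.lf (nat_lit 0) (nat_lit 5125209345) (nat_lit 532) (nat_lit 1373583112) (nat_lit 608) (nat_lit 2484580393) (nat_lit 175) (nat_lit 5) (nat_lit 182) (nat_lit 5) (nat_lit 183) (nat_lit 5) (nat_lit 449) (nat_lit 354) (nat_lit 337)) (XT.lf (nat_lit 0) (nat_lit 1069260645) (nat_lit 532) (nat_lit 6359194602) (nat_lit 76) (nat_lit 1638887016) (nat_lit 168) (nat_lit 5) (nat_lit 175) (nat_lit 5) (nat_lit 169) (nat_lit 5) (nat_lit 450) (nat_lit 354) (nat_lit 336))))))) (XT.nd (nat_lit 780) (nat_lit 2660) (nat_lit 0) (XT.nd (nat_lit 390) (nat_lit 1672) (nat_lit 0) (XT.nd (nat_lit 156) (nat_lit 1064) (nat_lit 0) (XT.nd (nat_lit 78) (nat_lit 0) (nat_lit 0) (XT.lf (nat_lit 0) (nat_lit 205032432) (nat_lit 456) (nat_lit 4437708837) (nat_lit 532) (nat_lit 4510305504) (nat_lit 162) (nat_lit 5) (nat_lit 168) (nat_lit 5) (nat_lit 169) (nat_lit 5) (nat_lit 451) (nat_lit 354) (nat_lit 335)) (XT.lf (nat_lit 0) (nat_lit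 6909710116) (nat_lit 456) (nat_lit 1366537764) (nat_lit 532) (nat_lit 964466759) (nat_lit 162) (nat_lit 5) (nat_lit 168) (nat_lit 5) (nat_lit 169) (nat_lit 5) (nat_lit 452) (nat_lit 354) (nat_lit 334))) (XT.nd (nat_lit 78) (nat_lit 532) (nat_lit 0) (XT.lf (nat_lit 0) (nat_lit 2604150157) (nat_lit 532) (nat_lit 4959584460) (nat_lit 76) (nat_lit 1766343501) (nat_lit 155) (nat_lit 5) (nat_lit 162) (nat_lit 5) (nat_lit 156) (nat_lit 5) (nat_lit 453) (nat_lit 354) (nat_lit 333)) (XT.nd (nat_lit 78) (nat_lit 76) (nat_lit 0) (XT.lf (nat_lit 0) (nat_lit 1747399915) (nat_lit 456) (nat_lit 4466958477) (nat_lit 532) (nat_lit 3207099523) (nat_lit 149) (nat_lit 5) (nat_lit 155) (nat_lit 5) (nat_lit 156) (nat_lit 5) (nat_lit 454) (nat_lit 354) (nat_lit 332)) (XT.lf (nat_lit 0) (nat_lit 357754909) (nat_lit 532) (nat_lit 937844747) (nat_lit 76) (nat_lit 8219421287) (nat_lit 148) (nat_lit 5) (nat_lit 155) (nat_lit 5) (nat_lit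 149) (nat_lit 5) (nat_lit 455) (nat_lit 354) (nat_lit 331))))) (XT.nd (nat_lit 156) (nat_lit 836) (nat_lit 0) (XT.nd (nat_lit 78) (nat_lit 456) (nat_lit 0) (XT.lf (nat_lit 0) (nat_lit 3950428696) (nat_lit 456) (nat_lit 3709120216) (nat_lit 76) (nat_lit 1950511140) (nat_lit 143) (nat_lit 5) (nat_lit 149) (nat_lit 5) (nat_lit 144) (nat_lit 5) (nat_lit 456) (nat_lit 354) (nat_lit 330)) (XT.lf (nat_lit 0) (nat_lit 3139104478) (nat_lit 456) (nat_lit 4459719141) (nat_lit 532) (nat_lit 2108516723) (nat_lit 137) (nat_lit 5) (nat_lit 143) (nat_lit 5) (nat_lit 144) (nat_lit 5) (nat_lit 457) (nat_lit 354) (nat_lit 329))) (XT.nd (nat_lit 78) (nat_lit 380) (nat_lit 0) (XT.lf (nat_lit 0) (nat_lit 286283571) (nat_lit 380) (nat_lit 1183135521) (nat_lit 456) (nat_lit 8337454652) (nat_lit 131) (nat_lit 5) (nat_lit 136) (nat_lit 5) (nat_lit 137) (nat_lit 5) (nat_lit 458) (nat_lit 354) (nat_lit 328)) (XT.nd (nat_lit 78) (nat_lit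 380) (nat_lit 0) (XT.lf (nat_lit 0) (nat_lit 5098183781) (nat_lit 456) (nat_lit 2645215224) (nat_lit 76) (nat_lit 2164586727) (nat_lit 131) (nat_lit 5) (nat_lit 137) (nat_lit 5) (nat_lit 132) (nat_lit 5) (nat_lit 459) (nat_lit 354) (nat_lit 327)) (XT.lf (nat_lit 0) (nat_lit 4341920703) (nat_lit 380) (nat_lit 4443718298) (nat_lit 456) (nat_lit 1225775054) (nat_lit 126) (nat_lit 5) (nat_lit 131) (nat_lit 5) (nat_lit 132) (nat_lit 5) (nat_lit 460) (nat_lit 354) (nat_lit 326)))))) (XT.nd (nat_lit 390) (nat_lit 1444) (nat_lit 0) (XT.nd (nat_lit 156) (nat_lit 760) (nat_lit 0) (XT.nd (nat_lit 78) (nat_lit 0) (nat_lit 0) (XT.lf (nat_lit 0) (nat_lit 1314403557) (nat_lit 380) (nat_lit 1060304123) (nat_lit 456) (nat_lit 7742370606) (nat_lit 120) (nat_lit 5) (nat_lit 125) (nat_lit 5) (nat_lit 126) (nat_lit 5) (nat_lit 461) (nat_lit 354) (nat_lit 325)) (XT.lf (nat_lit 0) (nat_lit 6035191520) (nat_lit 456) (nat_lit 1808540962)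 (nat_lit 76) (nat_lit 2380888633) (nat_lit 120) (nat_lit 5) (nat_lit 126) (nat_lit 5) (nat_lit 121) (nat_lit 5) (nat_lit 462) (nat_lit 354) (nat_lit 324))) (XT.nd (nat_lit 78) (nat_lit 380) (nat_lit 0) (XT.lf (nat_lit 0) (nat_lit 5314245238) (nat_lit 380) (nat_lit 4447703989) (nat_lit 456) (nat_lit 572519441) (nat_lit 115) (nat_lit 5) (nat_lit 120) (nat_lit 5) (nat_lit 121) (nat_lit 5) (nat_lit 463) (nat_lit 354) (nat_lit 323)) (XT.nd (nat_lit 78) (nat_lit 0) (nat_lit 0) (XT.lf (nat_lit 0) (nat_lit 2090760283) (nat_lit 304) (nat_lit 962563188) (nat_lit 380) (nat_lit 7393250125) (nat_lit 110) (nat_lit 5) (nat_lit 114) (nat_lit 5) (nat_lit 115) (nat_lit 5) (nat_lit 464) (nat_lit 354) (nat_lit 322)) (XT.lf (nat_lit 0) (nat_lit 6746748957) (nat_lit 380) (nat_lit 1243471129) (nat_lit 76) (nat_lit 2570584491) (nat_lit 110) (nat_lit 5) (nat_lit 115) (nat_lit 5) (nat_lit 111) (nat_lit 5) (nat_lit 465) (nat_lit 354)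 (nat_lit 321))))) (XT.nd (nat_lit 234) (nat_lit 684) (nat_lit 0) (XT.nd (nat_lit 78) (nat_lit 380) (nat_lit 0) (XT.lf (nat_lit 0) (nat_lit 6010639644) (nat_lit 380) (nat_lit 4501726819) (nat_lit 456) (nat_lit 165001242) (nat_lit 105) (nat_lit 5) (nat_lit 110) (nat_lit 5) (nat_lit 111) (nat_lit 5) (nat_lit 466) (nat_lit 354) (nat_lit 320)) (XT.nd (nat_lit 78) (nat_lit 0) (nat_lit 0) (XT.lf (nat_lit 0) (nat_lit 2568031522) (nat_lit 304) (nat_lit 920478721) (nat_lit 380) (nat_lit 7307740870) (nat_lit 100) (nat_lit 5) (nat_lit 104) (nat_lit 5) (nat_lit 105) (nat_lit 5) (nat_lit 467) (nat_lit 354) (nat_lit 319)) (XT.lf (nat_lit 0) (nat_lit 7215482476) (nat_lit 380) (nat_lit 998565969) (nat_lit 76) (nat_lit 2703403121) (nat_lit 100) (nat_lit 5) (nat_lit 105) (nat_lit 5) (nat_lit 101) (nat_lit 5) (nat_lit 468) (nat_lit 354) (nat_lit 318)))) (XT.nd (nat_lit 78) (nat_lit 380) (nat_lit 0) (XT.lf (nat_lit 0) (nat_lit 6381331565)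 (nat_lit 304) (nat_lit 4637439045) (nat_lit 380) (nat_lit 22282820) (nat_lit 96) (nat_lit 5) (nat_lit 100) (nat_lit 5) (nat_lit 101) (nat_lit 5) (nat_lit 469) (nat_lit 354) (nat_lit 317)) (XT.nd (nat_lit 78) (nat_lit 0) (nat_lit 0) (XT.lf (nat_lit 0) (nat_lit 2694346820) (nat_lit 304) (nat_lit 966325564) (nat_lit 380) (nat_lit 7506410737) (nat_lit 91) (nat_lit 5) (nat_lit 95) (nat_lit 5) (nat_lit 96) (nat_lit 5) (nat_lit 470) (nat_lit 354) (nat_lit 316)) (XT.lf (nat_lit 0) (nat_lit 7421130228) (nat_lit 380) (nat_lit 1127101531) (nat_lit 76) (nat_lit 2747328047) (nat_lit 91) (nat_lit 5) (nat_lit 96) (nat_lit 5) (nat_lit 92) (nat_lit 5) (nat_lit 471) (nat_lit 354) (nat_lit 315))))))))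
noncomputable def xc35 : XT := (XT.nd (nat_lit 1638) (nat_lit 1596) (nat_lit 0) (XT.nd (nat_lit 780) (nat_lit 1520) (nat_lit 0) (XT.nd (nat_lit 390) (nat_lit 836) (nat_lit 0) (XT.nd (nat_lit 156) (nat_lit 608) (nat_lit 0) (XT.nd (nat_lit 78) (nat_lit 304) (nat_lit 0) (XT.lf (nat_lit 0) (nat_lit 6371669357) (nat_lit 304) (nat_lit 4888413513) (nat_lit 380) (nat_lit 166469388) (nat_lit 87) (nat_lit 5) (nat_lit 91) (nat_lit 5) (nat_lit 92) (nat_lit 5) (nat_lit 472) (nat_lit 354) (nat_lit 314)) (XT.lf (nat_lit 0) (nat_lit 2412721427) (nat_lit 228) (nat_lit 1134415468) (nat_lit 304) (nat_lit 8012991506) (nat_lit 83) (nat_lit 5) (nat_lit 86) (nat_lit 5) (nat_lit 87) (nat_lit 5) (nat_lit 473) (nat_lit 354) (nat_lit 313))) (XT.nd (nat_lit 78) (nat_lit 608) (nat_lit 0) (XT.lf (nat_lit 0) (nat_lit 7340296301) (nat_lit 304) (nat_lit 1687649077) (nat_lit 76) (nat_lit 2668269739) (nat_lit 83) (nat_lit 5) (nat_lit 87) (nat_lit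 5) (nat_lit 84) (nat_lit 5) (nat_lit 474) (nat_lit 354) (nat_lit 312)) (XT.nd (nat_lit 78) (nat_lit 304) (nat_lit 0) (XT.lf (nat_lit 0) (nat_lit 5921524809) (nat_lit 304) (nat_lit 5290485427) (nat_lit 380) (nat_lit 622970540) (nat_lit 79) (nat_lit 5) (nat_lit 83) (nat_lit 5) (nat_lit 84) (nat_lit 5) (nat_lit 475) (nat_lit 354) (nat_lit 311)) (XT.lf (nat_lit 0) (nat_lit 1660436056) (nat_lit 228) (nat_lit 1461449183) (nat_lit 304) (nat_lit 8854653269) (nat_lit 75) (nat_lit 5) (nat_lit 78) (nat_lit 5) (nat_lit 79) (nat_lit 5) (nat_lit 476) (nat_lit 354) (nat_lit 310))))) (XT.nd (nat_lit 156) (nat_lit 532) (nat_lit 0) (XT.nd (nat_lit 78) (nat_lit 304) (nat_lit 0) (XT.lf (nat_lit 0) (nat_lit 6946174069) (nat_lit 304) (nat_lit 2744710301) (nat_lit 76) (nat_lit 2429713518) (nat_lit 75) (nat_lit 5) (nat_lit 79) (nat_lit 5) (nat_lit 76) (nat_lit 5) (nat_lit 477) (nat_lit 354) (nat_lit 309)) (XT.lf (nat_lit 0) (nat_lit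 4964638111) (nat_lit 304) (nat_lit 5882120163) (nat_lit 380) (nat_lit 1420794185) (nat_lit 71) (nat_lit 5) (nat_lit 75) (nat_lit 5) (nat_lit 76) (nat_lit 5) (nat_lit 478) (nat_lit 354) (nat_lit 308))) (XT.nd (nat_lit 78) (nat_lit 228) (nat_lit 0) (XT.lf (nat_lit 0) (nat_lit 368356389) (nat_lit 228) (nat_lit 1986895892) (nat_lit 304) (nat_lit 10062312478) (nat_lit 67) (nat_lit 5) (nat_lit 70) (nat_lit 5) (nat_lit 71) (nat_lit 5) (nat_lit 479) (nat_lit 354) (nat_lit 307)) (XT.nd (nat_lit 78) (nat_lit 228) (nat_lit 0) (XT.lf (nat_lit 0) (nat_lit 6208235871) (nat_lit 304) (nat_lit 4369414619) (nat_lit 76) (nat_lit 1992339781) (nat_lit 67) (nat_lit 5) (nat_lit 71) (nat_lit 5) (nat_lit 68) (nat_lit 5) (nat_lit 480) (nat_lit 354) (nat_lit 306)) (XT.lf (nat_lit 0) (nat_lit 3427898587) (nat_lit 228) (nat_lit 6704810632) (nat_lit 304) (nat_lit 2592875892) (nat_lit 64) (nat_lit 5) (nat_lit 67) (nat_lit 5) (nat_lit 68)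 (nat_lit 5) (nat_lit 481) (nat_lit 354) (nat_lit 305)))))) (XT.nd (nat_lit 390) (nat_lit 684) (nat_lit 0) (XT.nd (nat_lit 156) (nat_lit 532) (nat_lit 0) (XT.nd (nat_lit 78) (nat_lit 228) (nat_lit 0) (XT.lf (nat_lit 0) (nat_lit 1223586716) (nat_lit 304) (nat_lit 1519619446) (nat_lit 76) (nat_lit 10141159872) (nat_lit 63) (nat_lit 5) (nat_lit 67) (nat_lit 5) (nat_lit 64) (nat_lit 5) (nat_lit 482) (nat_lit 354) (nat_lit 304)) (XT.lf (nat_lit 0) (nat_lit 5091885843) (nat_lit 304) (nat_lit 6640285400) (nat_lit 76) (nat_lit 1313612912) (nat_lit 60) (nat_lit 5) (nat_lit 64) (nat_lit 5) (nat_lit 61) (nat_lit 5) (nat_lit 483) (nat_lit 354) (nat_lit 303))) (XT.nd (nat_lit 78) (nat_lit 304) (nat_lit 0) (XT.lf (nat_lit 0) (nat_lit 1230554130) (nat_lit 228) (nat_lit 7803507971) (nat_lit 304) (nat_lit 4176447017) (nat_lit 57) (nat_lit 5) (nat_lit 60) (nat_lit 5) (nat_lit 61) (nat_lit 5) (nat_lit 484) (nat_lit 354) (nat_lit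 302)) (XT.nd (nat_lit 78) (nat_lit 304) (nat_lit 0) (XT.lf (nat_lit 0) (nat_lit 9282419196) (nat_lit 228) (nat_lit 3777663597) (nat_lit 304) (nat_lit 318354300) (nat_lit 57) (nat_lit 5) (nat_lit 60) (nat_lit 5) (nat_lit 61) (nat_lit 5) (nat_lit 485) (nat_lit 354) (nat_lit 301)) (XT.lf (nat_lit 0) (nat_lit 3558072364) (nat_lit 304) (nat_lit 9644082688) (nat_lit 76) (nat_lit 347334941) (nat_lit 53) (nat_lit 5) (nat_lit 57) (nat_lit 5) (nat_lit 54) (nat_lit 5) (nat_lit 486) (nat_lit 354) (nat_lit 300))))) (XT.nd (nat_lit 234) (nat_lit 228) (nat_lit 0) (XT.nd (nat_lit 78) (nat_lit 456) (nat_lit 0) (XT.lf (nat_lit 0) (nat_lit 7521576928) (nat_lit 304) (nat_lit 1694144201) (nat_lit 76) (nat_lit 4507932533) (nat_lit 53) (nat_lit 5) (nat_lit 57) (nat_lit 5) (nat_lit 54) (nat_lit 5) (nat_lit 487) (nat_lit 354) (nat_lit 299)) (XT.nd (nat_lit 78) (nat_lit 228) (nat_lit 0) (XT.lf (nat_lit 0) (nat_lit 6434669595) (nat_lit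 228) (nat_lit 5133344484) (nat_lit 304) (nat_lit 2333221157) (nat_lit 50) (nat_lit 5) (nat_lit 53) (nat_lit 5) (nat_lit 54) (nat_lit 5) (nat_lit 488) (nat_lit 354) (nat_lit 298)) (XT.lf (nat_lit 0) (nat_lit 599594930) (nat_lit 152) (nat_lit 969556264) (nat_lit 228) (nat_lit 12513469477) (nat_lit 47) (nat_lit 5) (nat_lit 49) (nat_lit 5) (nat_lit 50) (nat_lit 5) (nat_lit 489) (nat_lit 354) (nat_lit 297)))) (XT.nd (nat_lit 78) (nat_lit 228) (nat_lit 0) (XT.lf (nat_lit 0) (nat_lit 5552189669) (nat_lit 228) (nat_lit 5440173945) (nat_lit 76) (nat_lit 3274291965) (nat_lit 47) (nat_lit 5) (nat_lit 50) (nat_lit 5) (nat_lit 48) (nat_lit 5) (nat_lit 490) (nat_lit 354) (nat_lit 296)) (XT.nd (nat_lit 78) (nat_lit 0) (nat_lit 0) (XT.lf (nat_lit 0) (nat_lit 2729411858) (nat_lit 228) (nat_lit 6872477093) (nat_lit 304) (nat_lit 4852749515) (nat_lit 44) (nat_lit 5) (nat_lit 47) (nat_lit 5) (nat_lit 48) (nat_lit 5) (nat_lit 491)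 (nat_lit 354) (nat_lit 295)) (XT.lf (nat_lit 0) (nat_lit 11073051270) (nat_lit 228) (nat_lit 2659214074) (nat_lit 304) (nat_lit 914129142) (nat_lit 44) (nat_lit 5) (nat_lit 47) (nat_lit 5) (nat_lit 48) (nat_lit 5) (nat_lit 492) (nat_lit 354) (nat_lit 294))))))) (XT.nd (nat_lit 780) (nat_lit 380) (nat_lit 0) (XT.nd (nat_lit 390) (nat_lit 532) (nat_lit 0) (XT.nd (nat_lit 156) (nat_lit 456) (nat_lit 0) (XT.nd (nat_lit 78) (nat_lit 0) (nat_lit 0) (XT.lf (nat_lit 0) (nat_lit 3067673176) (nat_lit 228) (nat_lit 10131495943) (nat_lit 76) (nat_lit 1642318213) (nat_lit 41) (nat_lit 5) (nat_lit 44) (nat_lit 5) (nat_lit 42) (nat_lit 5) (nat_lit 493) (nat_lit 354) (nat_lit 293)) (XT.lf (nat_lit 0) (nat_lit 7122426592) (nat_lit 228) (nat_lit 1918878884) (nat_lit 76) (nat_lit 5998951333) (nat_lit 41) (nat_lit 5) (nat_lit 44) (nat_lit 5) (nat_lit 42) (nat_lit 5) (nat_lit 494) (nat_lit 354) (nat_lit 292))) (XT.nd (nat_lit 78)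 (nat_lit 228) (nat_lit 0) (XT.lf (nat_lit 0) (nat_lit 6481741486) (nat_lit 228) (nat_lit 4783122545) (nat_lit 304) (nat_lit 3978012461) (nat_lit 38) (nat_lit 5) (nat_lit 41) (nat_lit 5) (nat_lit 42) (nat_lit 5) (nat_lit 495) (nat_lit 354) (nat_lit 291)) (XT.nd (nat_lit 78) (nat_lit 152) (nat_lit 0) (XT.lf (nat_lit 0) (nat_lit 17597717) (nat_lit 304) (nat_lit 434587201) (nat_lit 76) (nat_lit 14997814146) (nat_lit 37) (nat_lit 5) (nat_lit 41) (nat_lit 5) (nat_lit 38) (nat_lit 5) (nat_lit 496) (nat_lit 354) (nat_lit 290)) (XT.lf (nat_lit 0) (nat_lit 4083715924) (nat_lit 228) (nat_lit 7608530835) (nat_lit 76) (nat_lit 3967620421) (nat_lit 35) (nat_lit 5) (nat_lit 38) (nat_lit 5) (nat_lit 36) (nat_lit 5) (nat_lit 497) (nat_lit 354) (nat_lit 289))))) (XT.nd (nat_lit 156) (nat_lit 380) (nat_lit 0) (XT.nd (nat_lit 78) (nat_lit 0) (nat_lit 0) (XT.lf (nat_lit 0) (nat_lit 786024848) (nat_lit 152) (nat_lit 7421555762) (nat_lit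 228) (nat_lit 7666829659) (nat_lit 33) (nat_lit 5) (nat_lit 35) (nat_lit 5) (nat_lit 36) (nat_lit 5) (nat_lit 498) (nat_lit 354) (nat_lit 288)) (XT.lf (nat_lit 0) (nat_lit 9391738695) (nat_lit 152) (nat_lit 3038921548) (nat_lit 228) (nat_lit 3662255196) (nat_lit 33) (nat_lit 5) (nat_lit 35) (nat_lit 5) (nat_lit 36) (nat_lit 5) (nat_lit 499) (nat_lit 354) (nat_lit 287))) (XT.nd (nat_lit 78) (nat_lit 152) (nat_lit 0) (XT.lf (nat_lit 0) (nat_lit 404009702) (nat_lit 228) (nat_lit 14509712744) (nat_lit 76) (nat_lit 1402276379) (nat_lit 30) (nat_lit 5) (nat_lit 33) (nat_lit 5) (nat_lit 31) (nat_lit 5) (nat_lit 500) (nat_lit 354) (nat_lit 286)) (XT.nd (nat_lit 78) (nat_lit 152) (nat_lit 0) (XT.lf (nat_lit 0) (nat_lit 4534243701) (nat_lit 228) (nat_lit 6071862125) (nat_lit 76) (nat_lit 5936325903) (nat_lit 30) (nat_lit 5) (nat_lit 33) (nat_lit 5) (nat_lit 31) (nat_lit 5) (nat_lit 501) (nat_lit 354) (nat_lit 285)) (XT.lf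 (nat_lit 0) (nat_lit 2509545371) (nat_lit 152) (nat_lit 6220736548) (nat_lit 228) (nat_lit 8043452900) (nat_lit 28) (nat_lit 5) (nat_lit 30) (nat_lit 5) (nat_lit 31) (nat_lit 5) (nat_lit 502) (nat_lit 354) (nat_lit 284)))))) (XT.nd (nat_lit 53742) (nat_lit 0) (nat_lit 17480) (XT.nd (nat_lit 156) (nat_lit 152) (nat_lit 0) (XT.nd (nat_lit 78) (nat_lit 228) (nat_lit 0) (XT.lf (nat_lit 0) (nat_lit 11287155760) (nat_lit 152) (nat_lit 1731010515) (nat_lit 228) (nat_lit 3991344599) (nat_lit 28) (nat_lit 5) (nat_lit 30) (nat_lit 5) (nat_lit 31) (nat_lit 5) (nat_lit 503) (nat_lit 354) (nat_lit 283)) (XT.lf (nat_lit 0) (nat_lit 145311388) (nat_lit 228) (nat_lit 14297389533) (nat_lit 76) (nat_lit 2807181007) (nat_lit 25) (nat_lit 5) (nat_lit 28) (nat_lit 5) (nat_lit 26) (nat_lit 5) (nat_lit 504) (nat_lit 354) (nat_lit 282))) (XT.nd (nat_lit 78) (nat_lit 152) (nat_lit 0) (XT.lf (nat_lit 0) (nat_lit 4329137547) (nat_lit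 228) (nat_lit 5711186035) (nat_lit 76) (nat_lit 7453856642) (nat_lit 25) (nat_lit 5) (nat_lit 28) (nat_lit 5) (nat_lit 26) (nat_lit 5) (nat_lit 505) (nat_lit 354) (nat_lit 281)) (XT.nd (nat_lit 53430) (nat_lit 0) (nat_lit 20444) (XT.lf (nat_lit 0) (nat_lit 3030459275) (nat_lit 152) (nat_lit 5554203011) (nat_lit 228) (nat_lit 9158946756) (nat_lit 23) (nat_lit 5) (nat_lit 25) (nat_lit 5) (nat_lit 26) (nat_lit 5) (nat_lit 506) (nat_lit 354) (nat_lit 280)) (XT.lf (nat_lit 0) (nat_lit 1726999345) (nat_lit 760) (nat_lit 1064308909) (nat_lit 760) (nat_lit 1064308909) (nat_lit 292) (nat_lit 4) (nat_lit 302) (nat_lit 5) (nat_lit 302) (nat_lit 4) (nat_lit 430) (nat_lit 355) (nat_lit 355))))) (XT.nd (nat_lit 234) (nat_lit 1444) (nat_lit 0) (XT.nd (nat_lit 78) (nat_lit 760) (nat_lit 0) (XT.lf (nat_lit 0) (nat_lit 1417769813) (nat_lit 760) (nat_lit 6265368374) (nat_lit 0) (nat_lit 81461066) (nat_lit 282) (nat_lit 5) (nat_lit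 292) (nat_lit 4) (nat_lit 282) (nat_lit 4) (nat_lit 431) (nat_lit 355) (nat_lit 354)) (XT.nd (nat_lit 78) (nat_lit 760) (nat_lit 0) (XT.lf (nat_lit 0) (nat_lit 4984757577) (nat_lit 760) (nat_lit 496121597) (nat_lit 0) (nat_lit 2338342214) (nat_lit 282) (nat_lit 5) (nat_lit 292) (nat_lit 4) (nat_lit 282) (nat_lit 4) (nat_lit 432) (nat_lit 355) (nat_lit 353)) (XT.lf (nat_lit 0) (nat_lit 709625896) (nat_lit 760) (nat_lit 2497389302) (nat_lit 76) (nat_lit 4668431294) (nat_lit 272) (nat_lit 5) (nat_lit 282) (nat_lit 5) (nat_lit 273) (nat_lit 4) (nat_lit 433) (nat_lit 355) (nat_lit 352)))) (XT.nd (nat_lit 78) (nat_lit 760) (nat_lit 0) (XT.lf (nat_lit 0) (nat_lit 3392760916) (nat_lit 684) (nat_lit 856163889) (nat_lit 760) (nat_lit 3684283755) (nat_lit 263) (nat_lit 5) (nat_lit 272) (nat_lit 5) (nat_lit 273) (nat_lit 4) (nat_lit 434) (nat_lit 355) (nat_lit 351)) (XT.nd (nat_lit 78) (nat_lit 76) (nat_lit 0) (XT.lf (nat_lit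 0) (nat_lit 1373323035) (nat_lit 684) (nat_lit 6459002917) (nat_lit 684) (nat_lit 160365746) (nat_lit 254) (nat_lit 4) (nat_lit 263) (nat_lit 5) (nat_lit 263) (nat_lit 4) (nat_lit 435) (nat_lit 355) (nat_lit 350)) (XT.lf (nat_lit 0) (nat_lit 3363139570) (nat_lit 760) (nat_lit 691699165) (nat_lit 76) (nat_lit 3998627812) (nat_lit 253) (nat_lit 5) (nat_lit 263) (nat_lit 5) (nat_lit 254) (nat_lit 4) (nat_lit 436) (nat_lit 355) (nat_lit 349))))))))
noncomputable def xc36 : XT := (XT.nd (nat_lit 1560) (nat_lit 5168) (nat_lit 0) (XT.nd (nat_lit 780) (nat_lit 3496) (nat_lit 0) (XT.nd (nat_lit 390) (nat_lit 2280) (nat_lit 0) (XT.nd (nat_lit 156) (nat_lit 1292) (nat_lit 0) (XT.nd (nat_lit 78) (nat_lit 684) (nat_lit 0) (XT.lf (nat_lit 0) (nat_lit 5347425132) (nat_lit 608) (nat_lit 1581289427) (nat_lit 684) (nat_lit 1187276494) (nat_lit 245) (nat_lit 5) (nat_lit 253) (nat_lit 5) (nat_lit 254) (nat_lit 4) (nat_lit 437)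 (nat_lit 355) (nat_lit 348)) (XT.lf (nat_lit 0) (nat_lit 2326153790) (nat_lit 684) (nat_lit 4898331036) (nat_lit 76) (nat_lit 955568349) (nat_lit 236) (nat_lit 5) (nat_lit 245) (nat_lit 5) (nat_lit 237) (nat_lit 4) (nat_lit 438) (nat_lit 355) (nat_lit 347))) (XT.nd (nat_lit 78) (nat_lit 684) (nat_lit 0) (XT.lf (nat_lit 0) (nat_lit 1165218711) (nat_lit 608) (nat_lit 4705384760) (nat_lit 684) (nat_lit 2375131693) (nat_lit 228) (nat_lit 5) (nat_lit 236) (nat_lit 5) (nat_lit 237) (nat_lit 4) (nat_lit 439) (nat_lit 355) (nat_lit 346)) (XT.nd (nat_lit 78) (nat_lit 608) (nat_lit 0) (XT.lf (nat_lit 0) (nat_lit 1131066963) (nat_lit 684) (nat_lit 980911140) (nat_lit 76) (nat_lit 6201162940) (nat_lit 227) (nat_lit 5) (nat_lit 236) (nat_lit 5) (nat_lit 228) (nat_lit 5) (nat_lit 440) (nat_lit 355) (nat_lit 345)) (XT.lf (nat_lit 0) (nat_lit 4654498433) (nat_lit 684) (nat_lit 3168319405) (nat_lit 76) (nat_lit 559211875) (nat_lit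 219) (nat_lit 5) (nat_lit 228) (nat_lit 5) (nat_lit 220) (nat_lit 4) (nat_lit 441) (nat_lit 355) (nat_lit 344))))) (XT.nd (nat_lit 156) (nat_lit 1140) (nat_lit 0) (XT.nd (nat_lit 78) (nat_lit 608) (nat_lit 0) (XT.lf (nat_lit 0) (nat_lit 3042735957) (nat_lit 532) (nat_lit 5187906231) (nat_lit 608) (nat_lit 222035472) (nat_lit 212) (nat_lit 5) (nat_lit 219) (nat_lit 5) (nat_lit 220) (nat_lit 4) (nat_lit 442) (nat_lit 355) (nat_lit 343)) (XT.lf (nat_lit 0) (nat_lit 808548947) (nat_lit 532) (nat_lit 2469805849) (nat_lit 608) (nat_lit 5246598307) (nat_lit 204) (nat_lit 5) (nat_lit 211) (nat_lit 5) (nat_lit 212) (nat_lit 5) (nat_lit 443) (nat_lit 355) (nat_lit 342))) (XT.nd (nat_lit 78) (nat_lit 1140) (nat_lit 0) (XT.lf (nat_lit 0) (nat_lit 6826923420) (nat_lit 608) (nat_lit 1454209651) (nat_lit 76) (nat_lit 317913615) (nat_lit 204) (nat_lit 5) (nat_lit 212) (nat_lit 5) (nat_lit 205) (nat_lit 4) (nat_lit 444) (nat_lit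 355) (nat_lit 341)) (XT.nd (nat_lit 78) (nat_lit 532) (nat_lit 0) (XT.lf (nat_lit 0) (nat_lit 1740488056) (nat_lit 608) (nat_lit 3780862406) (nat_lit 76) (nat_lit 3153227793) (nat_lit 196) (nat_lit 5) (nat_lit 204) (nat_lit 5) (nat_lit 197) (nat_lit 5) (nat_lit 445) (nat_lit 355) (nat_lit 340)) (XT.lf (nat_lit 0) (nat_lit 2582879888) (nat_lit 532) (nat_lit 2687336582) (nat_lit 608) (nat_lit 3481781262) (nat_lit 189) (nat_lit 5) (nat_lit 196) (nat_lit 5) (nat_lit 197) (nat_lit 5) (nat_lit 446) (nat_lit 355) (nat_lit 339)))))) (XT.nd (nat_lit 390) (nat_lit 1900) (nat_lit 0) (XT.nd (nat_lit 156) (nat_lit 1064) (nat_lit 0) (XT.nd (nat_lit 78) (nat_lit 0) (nat_lit 0) (XT.lf (nat_lit 0) (nat_lit 11592023) (nat_lit 532) (nat_lit 8612111199) (nat_lit 76) (nat_lit 207829007) (nat_lit 182) (nat_lit 5) (nat_lit 189) (nat_lit 5) (nat_lit 183) (nat_lit 5) (nat_lit 447) (nat_lit 355) (nat_lit 338)) (XT.lf (nat_lit 0) (nat_lit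 3532388778) (nat_lit 532) (nat_lit 2210438667) (nat_lit 76) (nat_lit 3169308208) (nat_lit 182) (nat_lit 5) (nat_lit 189) (nat_lit 5) (nat_lit 183) (nat_lit 5) (nat_lit 448) (nat_lit 355) (nat_lit 337))) (XT.nd (nat_lit 78) (nat_lit 532) (nat_lit 0) (XT.lf (nat_lit 0) (nat_lit 4300338926) (nat_lit 532) (nat_lit 2796932565) (nat_lit 608) (nat_lit 1897627894) (nat_lit 175) (nat_lit 5) (nat_lit 182) (nat_lit 5) (nat_lit 183) (nat_lit 5) (nat_lit 449) (nat_lit 355) (nat_lit 336)) (XT.nd (nat_lit 78) (nat_lit 0) (nat_lit 0) (XT.lf (nat_lit 0) (nat_lit 1606660838) (nat_lit 532) (nat_lit 7251264954) (nat_lit 76) (nat_lit 221714170) (nat_lit 168) (nat_lit 5) (nat_lit 175) (nat_lit 5) (nat_lit 169) (nat_lit 5) (nat_lit 450) (nat_lit 355) (nat_lit 335)) (XT.lf (nat_lit 0) (nat_lit 5152267182) (nat_lit 532) (nat_lit 727362662) (nat_lit 76) (nat_lit 3286282209) (nat_lit 168) (nat_lit 5) (nat_lit 175) (nat_lit 5) (nat_lit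 169) (nat_lit 5) (nat_lit 451) (nat_lit 355) (nat_lit 334))))) (XT.nd (nat_lit 156) (nat_lit 912) (nat_lit 0) (XT.nd (nat_lit 78) (nat_lit 532) (nat_lit 0) (XT.lf (nat_lit 0) (nat_lit 5930260650) (nat_lit 456) (nat_lit 2824462490) (nat_lit 532) (nat_lit 499487687) (nat_lit 162) (nat_lit 5) (nat_lit 168) (nat_lit 5) (nat_lit 169) (nat_lit 5) (nat_lit 452) (nat_lit 355) (nat_lit 333)) (XT.lf (nat_lit 0) (nat_lit 3020741837) (nat_lit 532) (nat_lit 6010822954) (nat_lit 76) (nat_lit 312804432) (nat_lit 155) (nat_lit 5) (nat_lit 162) (nat_lit 5) (nat_lit 156) (nat_lit 5) (nat_lit 453) (nat_lit 355) (nat_lit 332))) (XT.nd (nat_lit 78) (nat_lit 456) (nat_lit 0) (XT.lf (nat_lit 0) (nat_lit 644480356) (nat_lit 456) (nat_lit 5953575993) (nat_lit 532) (nat_lit 2838359870) (nat_lit 149) (nat_lit 5) (nat_lit 155) (nat_lit 5) (nat_lit 156) (nat_lit 5) (nat_lit 454) (nat_lit 355) (nat_lit 331)) (XT.nd (nat_lit 78) (nat_lit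 380) (nat_lit 0) (XT.lf (nat_lit 0) (nat_lit 696012474) (nat_lit 532) (nat_lit 2095437732) (nat_lit 76) (nat_lit 6739003043) (nat_lit 148) (nat_lit 5) (nat_lit 155) (nat_lit 5) (nat_lit 149) (nat_lit 5) (nat_lit 455) (nat_lit 355) (nat_lit 330)) (XT.lf (nat_lit 0) (nat_lit 4245848262) (nat_lit 456) (nat_lit 4925435174) (nat_lit 76) (nat_lit 455074470) (nat_lit 143) (nat_lit 5) (nat_lit 149) (nat_lit 5) (nat_lit 144) (nat_lit 5) (nat_lit 456) (nat_lit 355) (nat_lit 329))))))) (XT.nd (nat_lit 780) (nat_lit 2280) (nat_lit 0) (XT.nd (nat_lit 390) (nat_lit 1520) (nat_lit 0) (XT.nd (nat_lit 156) (nat_lit 836) (nat_lit 0) (XT.nd (nat_lit 78) (nat_lit 76) (nat_lit 0) (XT.lf (nat_lit 0) (nat_lit 1869356110) (nat_lit 456) (nat_lit 5991682471) (nat_lit 532) (nat_lit 1863272322) (nat_lit 137) (nat_lit 5) (nat_lit 143) (nat_lit 5) (nat_lit 144) (nat_lit 5) (nat_lit 457) (nat_lit 355) (nat_lit 328)) (XT.lf (nat_lit 0) (nat_lit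 1684707994) (nat_lit 532) (nat_lit 1042659691) (nat_lit 76) (nat_lit 7096987836) (nat_lit 136) (nat_lit 5) (nat_lit 143) (nat_lit 5) (nat_lit 137) (nat_lit 5) (nat_lit 458) (nat_lit 355) (nat_lit 327))) (XT.nd (nat_lit 78) (nat_lit 456) (nat_lit 0) (XT.lf (nat_lit 0) (nat_lit 5271833192) (nat_lit 456) (nat_lit 4032619800) (nat_lit 76) (nat_lit 621855426) (nat_lit 131) (nat_lit 5) (nat_lit 137) (nat_lit 5) (nat_lit 132) (nat_lit 5) (nat_lit 459) (nat_lit 355) (nat_lit 326)) (XT.nd (nat_lit 78) (nat_lit 76) (nat_lit 0) (XT.lf (nat_lit 0) (nat_lit 2899264496) (nat_lit 380) (nat_lit 6026433430) (nat_lit 456) (nat_lit 1104718583) (nat_lit 126) (nat_lit 5) (nat_lit 131) (nat_lit 5) (nat_lit 132) (nat_lit 5) (nat_lit 460) (nat_lit 355) (nat_lit 325)) (XT.lf (nat_lit 0) (nat_lit 2461492804) (nat_lit 456) (nat_lit 201700224) (nat_lit 76) (nat_lit 7473533316) (nat_lit 125) (nat_lit 5) (nat_lit 131) (nat_lit 5) (nat_lit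 126) (nat_lit 5) (nat_lit 461) (nat_lit 355) (nat_lit 324))))) (XT.nd (nat_lit 156) (nat_lit 760) (nat_lit 0) (XT.nd (nat_lit 78) (nat_lit 380) (nat_lit 0) (XT.lf (nat_lit 0) (nat_lit 6086243123) (nat_lit 456) (nat_lit 3373170977) (nat_lit 76) (nat_lit 785577245) (nat_lit 120) (nat_lit 5) (nat_lit 126) (nat_lit 5) (nat_lit 121) (nat_lit 5) (nat_lit 462) (nat_lit 355) (nat_lit 323)) (XT.lf (nat_lit 0) (nat_lit 3692475865) (nat_lit 380) (nat_lit 6086475027) (nat_lit 456) (nat_lit 576576356) (nat_lit 115) (nat_lit 5) (nat_lit 120) (nat_lit 5) (nat_lit 121) (nat_lit 5) (nat_lit 463) (nat_lit 355) (nat_lit 322))) (XT.nd (nat_lit 78) (nat_lit 380) (nat_lit 0) (XT.lf (nat_lit 0) (nat_lit 389696606) (nat_lit 304) (nat_lit 2625126858) (nat_lit 380) (nat_lit 7453506233) (nat_lit 110) (nat_lit 5) (nat_lit 114) (nat_lit 5) (nat_lit 115) (nat_lit 5) (nat_lit 464) (nat_lit 355) (nat_lit 321)) (XT.nd (nat_lit 78) (nat_lit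 380) (nat_lit 0) (XT.lf (nat_lit 0) (nat_lit 6674149466) (nat_lit 380) (nat_lit 2991602522) (nat_lit 76) (nat_lit 917497610) (nat_lit 110) (nat_lit 5) (nat_lit 115) (nat_lit 5) (nat_lit 111) (nat_lit 5) (nat_lit 465) (nat_lit 355) (nat_lit 320)) (XT.lf (nat_lit 0) (nat_lit 4203407965) (nat_lit 380) (nat_lit 6201777201) (nat_lit 456) (nat_lit 295325988) (nat_lit 105) (nat_lit 5) (nat_lit 110) (nat_lit 5) (nat_lit 111) (nat_lit 5) (nat_lit 466) (nat_lit 355) (nat_lit 319)))))) (XT.nd (nat_lit 390) (nat_lit 1216) (nat_lit 0) (XT.nd (nat_lit 156) (nat_lit 684) (nat_lit 0) (XT.nd (nat_lit 78) (nat_lit 0) (nat_lit 0) (XT.lf (nat_lit 0) (nat_lit 678243069) (nat_lit 304) (nat_lit 2646597096) (nat_lit 380) (nat_lit 7495278940) (nat_lit 100) (nat_lit 5) (nat_lit 104) (nat_lit 5) (nat_lit 105) (nat_lit 5) (nat_lit 467) (nat_lit 355) (nat_lit 318)) (XT.lf (nat_lit 0) (nat_lit 7017956152) (nat_lit 380) (nat_lit 2936631935)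 (nat_lit 76) (nat_lit 987414998) (nat_lit 100) (nat_lit 5) (nat_lit 105) (nat_lit 5) (nat_lit 101) (nat_lit 5) (nat_lit 468) (nat_lit 355) (nat_lit 317))) (XT.nd (nat_lit 78) (nat_lit 380) (nat_lit 0) (XT.lf (nat_lit 0) (nat_lit 4382127416) (nat_lit 304) (nat_lit 6403931672) (nat_lit 380) (nat_lit 280255842) (nat_lit 96) (nat_lit 5) (nat_lit 100) (nat_lit 5) (nat_lit 101) (nat_lit 5) (nat_lit 469) (nat_lit 355) (nat_lit 316)) (XT.nd (nat_lit 78) (nat_lit 0) (nat_lit 0) (XT.lf (nat_lit 0) (nat_lit 609220411) (nat_lit 304) (nat_lit 2761177688) (nat_lit 380) (nat_lit 7822699745) (nat_lit 91) (nat_lit 5) (nat_lit 95) (nat_lit 5) (nat_lit 96) (nat_lit 5) (nat_lit 470) (nat_lit 355) (nat_lit 315)) (XT.lf (nat_lit 0) (nat_lit 7097181300) (nat_lit 380) (nat_lit 3261709420) (nat_lit 76) (nat_lit 963363214) (nat_lit 91) (nat_lit 5) (nat_lit 96) (nat_lit 5) (nat_lit 92) (nat_lit 5) (nat_lit 471) (nat_lit 355) (nat_lit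 314))))) (XT.nd (nat_lit 234) (nat_lit 608) (nat_lit 0) (XT.nd (nat_lit 78) (nat_lit 304) (nat_lit 0) (XT.lf (nat_lit 0) (nat_lit 4173804576) (nat_lit 304) (nat_lit 6726469888) (nat_lit 380) (nat_lit 553694910) (nat_lit 87) (nat_lit 5) (nat_lit 91) (nat_lit 5) (nat_lit 92) (nat_lit 5) (nat_lit 472) (nat_lit 355) (nat_lit 313)) (XT.nd (nat_lit 78) (nat_lit 0) (nat_lit 0) (XT.lf (nat_lit 0) (nat_lit 125459053) (nat_lit 228) (nat_lit 3003144934) (nat_lit 304) (nat_lit 8459725104) (nat_lit 83) (nat_lit 5) (nat_lit 86) (nat_lit 5) (nat_lit 87) (nat_lit 5) (nat_lit 473) (nat_lit 355) (nat_lit 312)) (XT.lf (nat_lit 0) (nat_lit 6888210654) (nat_lit 304) (nat_lit 4025597102) (nat_lit 76) (nat_lit 811284569) (nat_lit 83) (nat_lit 5) (nat_lit 87) (nat_lit 5) (nat_lit 84) (nat_lit 5) (nat_lit 474) (nat_lit 355) (nat_lit 311)))) (XT.nd (nat_lit 78) (nat_lit 304) (nat_lit 0) (XT.lf (nat_lit 0) (nat_lit 3518116442) (nat_lit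 304) (nat_lit 7205203912) (nat_lit 380) (nat_lit 1141275071) (nat_lit 79) (nat_lit 5) (nat_lit 83) (nat_lit 5) (nat_lit 84) (nat_lit 5) (nat_lit 475) (nat_lit 355) (nat_lit 310)) (XT.nd (nat_lit 78) (nat_lit 228) (nat_lit 0) (XT.lf (nat_lit 0) (nat_lit 2578647876) (nat_lit 380) (nat_lit 824998186) (nat_lit 76) (nat_lit 8603214157) (nat_lit 78) (nat_lit 5) (nat_lit 83) (nat_lit 5) (nat_lit 79) (nat_lit 5) (nat_lit 476) (nat_lit 355) (nat_lit 309)) (XT.lf (nat_lit 0) (nat_lit 6364020242) (nat_lit 304) (nat_lit 5293004126) (nat_lit 76) (nat_lit 494678608) (nat_lit 75) (nat_lit 5) (nat_lit 79) (nat_lit 5) (nat_lit 76) (nat_lit 5) (nat_lit 477) (nat_lit 355) (nat_lit 308))))))))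
noncomputable def xc37 : XT := (XT.nd (nat_lit 1638) (nat_lit 760) (nat_lit 0) (XT.nd (nat_lit 780) (nat_lit 1368) (nat_lit 0) (XT.nd (nat_lit 390) (nat_lit 760) (nat_lit 0) (XT.nd (nat_lit 156) (nat_lit 532) (nat_lit 0) (XT.nd (nat_lit 78) (nat_lit 76) (nat_lit 0) (XT.lf (nat_lit 0) (nat_lit 2348591719) (nat_lit 304) (nat_lit 7878593435) (nat_lit 380) (nat_lit 2072225727) (nat_lit 71) (nat_lit 5) (nat_lit 75) (nat_lit 5) (nat_lit 76) (nat_lit 5) (nat_lit 478) (nat_lit 355) (nat_lit 307)) (XT.lf (nat_lit 0) (nat_lit 1689584660) (nat_lit 380) (nat_lit 2313648293) (nat_lit 76) (nat_lit 8446735169) (nat_lit 70) (nat_lit 5) (nat_lit 75) (nat_lit 5) (nat_lit 71) (nat_lit 5) (nat_lit 479) (nat_lit 355) (nat_lit 306))) (XT.nd (nat_lit 78) (nat_lit 304) (nat_lit 0) (XT.lf (nat_lit 0) (nat_lit 5467915499) (nat_lit 228) (nat_lit 26119478) (nat_lit 304) (nat_lit 7109333985) (nat_lit 67) (nat_lit 5) (nat_lit 70) (nat_lit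 5) (nat_lit 71) (nat_lit 5) (nat_lit 480) (nat_lit 355) (nat_lit 305)) (XT.nd (nat_lit 78) (nat_lit 76) (nat_lit 0) (XT.lf (nat_lit 0) (nat_lit 591891626) (nat_lit 228) (nat_lit 8788142422) (nat_lit 304) (nat_lit 3379703812) (nat_lit 64) (nat_lit 5) (nat_lit 67) (nat_lit 5) (nat_lit 68) (nat_lit 5) (nat_lit 481) (nat_lit 355) (nat_lit 304)) (XT.lf (nat_lit 0) (nat_lit 427229299) (nat_lit 304) (nat_lit 4417664953) (nat_lit 76) (nat_lit 8074128074) (nat_lit 63) (nat_lit 5) (nat_lit 67) (nat_lit 5) (nat_lit 64) (nat_lit 5) (nat_lit 482) (nat_lit 355) (nat_lit 303))))) (XT.nd (nat_lit 156) (nat_lit 532) (nat_lit 0) (XT.nd (nat_lit 78) (nat_lit 0) (nat_lit 0) (XT.lf (nat_lit 0) (nat_lit 3444977445) (nat_lit 228) (nat_lit 803170197) (nat_lit 304) (nat_lit 8833244729) (nat_lit 60) (nat_lit 5) (nat_lit 63) (nat_lit 5) (nat_lit 64) (nat_lit 5) (nat_lit 483) (nat_lit 355) (nat_lit 302)) (XT.lf (nat_lit 0) (nat_lit 8157749428)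 (nat_lit 304) (nat_lit 1808940807) (nat_lit 76) (nat_lit 3280082812) (nat_lit 60) (nat_lit 5) (nat_lit 64) (nat_lit 5) (nat_lit 61) (nat_lit 5) (nat_lit 484) (nat_lit 355) (nat_lit 301))) (XT.nd (nat_lit 78) (nat_lit 304) (nat_lit 0) (XT.lf (nat_lit 0) (nat_lit 6186656629) (nat_lit 228) (nat_lit 5966012941) (nat_lit 304) (nat_lit 1262657603) (nat_lit 57) (nat_lit 5) (nat_lit 60) (nat_lit 5) (nat_lit 61) (nat_lit 5) (nat_lit 485) (nat_lit 355) (nat_lit 300)) (XT.nd (nat_lit 78) (nat_lit 0) (nat_lit 0) (XT.lf (nat_lit 0) (nat_lit 707391703) (nat_lit 228) (nat_lit 1876746373) (nat_lit 304) (nat_lit 11003208913) (nat_lit 53) (nat_lit 5) (nat_lit 56) (nat_lit 5) (nat_lit 57) (nat_lit 5) (nat_lit 486) (nat_lit 355) (nat_lit 299)) (XT.lf (nat_lit 0) (nat_lit 6516588426) (nat_lit 304) (nat_lit 4949769989) (nat_lit 76) (nat_lit 2295777229) (nat_lit 53) (nat_lit 5) (nat_lit 57) (nat_lit 5) (nat_lit 54) (nat_lit 5) (nat_lit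 487) (nat_lit 355) (nat_lit 298)))))) (XT.nd (nat_lit 390) (nat_lit 684) (nat_lit 0) (XT.nd (nat_lit 156) (nat_lit 380) (nat_lit 0) (XT.nd (nat_lit 78) (nat_lit 76) (nat_lit 0) (XT.lf (nat_lit 0) (nat_lit 3104050102) (nat_lit 228) (nat_lit 7418851734) (nat_lit 304) (nat_lit 3417621682) (nat_lit 50) (nat_lit 5) (nat_lit 53) (nat_lit 5) (nat_lit 54) (nat_lit 5) (nat_lit 488) (nat_lit 355) (nat_lit 297)) (XT.lf (nat_lit 0) (nat_lit 476616280) (nat_lit 304) (nat_lit 2802491070) (nat_lit 76) (nat_lit 10843393221) (nat_lit 49) (nat_lit 5) (nat_lit 53) (nat_lit 5) (nat_lit 50) (nat_lit 5) (nat_lit 489) (nat_lit 355) (nat_lit 296))) (XT.nd (nat_lit 78) (nat_lit 228) (nat_lit 0) (XT.lf (nat_lit 0) (nat_lit 4407712937) (nat_lit 228) (nat_lit 8936070064) (nat_lit 76) (nat_lit 963794920) (nat_lit 47) (nat_lit 5) (nat_lit 50) (nat_lit 5) (nat_lit 48) (nat_lit 5) (nat_lit 490) (nat_lit 355) (nat_lit 295)) (XT.nd (nat_lit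 78) (nat_lit 228) (nat_lit 0) (XT.lf (nat_lit 0) (nat_lit 8421664463) (nat_lit 228) (nat_lit 833099689) (nat_lit 76) (nat_lit 5241515145) (nat_lit 47) (nat_lit 5) (nat_lit 50) (nat_lit 5) (nat_lit 48) (nat_lit 5) (nat_lit 491) (nat_lit 355) (nat_lit 294)) (XT.lf (nat_lit 0) (nat_lit 7468852319) (nat_lit 228) (nat_lit 5059835698) (nat_lit 304) (nat_lit 2159817823) (nat_lit 44) (nat_lit 5) (nat_lit 47) (nat_lit 5) (nat_lit 48) (nat_lit 5) (nat_lit 492) (nat_lit 355) (nat_lit 293))))) (XT.nd (nat_lit 234) (nat_lit 228) (nat_lit 0) (XT.nd (nat_lit 78) (nat_lit 228) (nat_lit 0) (XT.lf (nat_lit 0) (nat_lit 1003784225) (nat_lit 152) (nat_lit 781957386) (nat_lit 228) (nat_lit 13099073768) (nat_lit 41) (nat_lit 5) (nat_lit 43) (nat_lit 5) (nat_lit 44) (nat_lit 5) (nat_lit 493) (nat_lit 355) (nat_lit 292)) (XT.nd (nat_lit 78) (nat_lit 228) (nat_lit 0) (XT.lf (nat_lit 0) (nat_lit 5817846354) (nat_lit 228) (nat_lit 5693662968)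 (nat_lit 76) (nat_lit 3572531773) (nat_lit 41) (nat_lit 5) (nat_lit 44) (nat_lit 5) (nat_lit 42) (nat_lit 5) (nat_lit 494) (nat_lit 355) (nat_lit 291)) (XT.lf (nat_lit 0) (nat_lit 2626666162) (nat_lit 228) (nat_lit 7291360780) (nat_lit 304) (nat_lit 5369482173) (nat_lit 38) (nat_lit 5) (nat_lit 41) (nat_lit 5) (nat_lit 42) (nat_lit 5) (nat_lit 495) (nat_lit 355) (nat_lit 290)))) (XT.nd (nat_lit 78) (nat_lit 228) (nat_lit 0) (XT.lf (nat_lit 0) (nat_lit 11130918996) (nat_lit 228) (nat_lit 2972995753) (nat_lit 304) (nat_lit 1391064013) (nat_lit 38) (nat_lit 5) (nat_lit 41) (nat_lit 5) (nat_lit 42) (nat_lit 5) (nat_lit 496) (nat_lit 355) (nat_lit 289)) (XT.nd (nat_lit 78) (nat_lit 0) (nat_lit 0) (XT.lf (nat_lit 0) (nat_lit 2633775057) (nat_lit 228) (nat_lit 11639985260) (nat_lit 76) (nat_lit 1432460676) (nat_lit 35) (nat_lit 5) (nat_lit 38) (nat_lit 5) (nat_lit 36) (nat_lit 5) (nat_lit 497) (nat_lit 355) (nat_lit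 288)) (XT.lf (nat_lit 0) (nat_lit 6735738880) (nat_lit 228) (nat_lit 3284987642) (nat_lit 76) (nat_lit 5900478535) (nat_lit 35) (nat_lit 5) (nat_lit 38) (nat_lit 5) (nat_lit 36) (nat_lit 5) (nat_lit 498) (nat_lit 355) (nat_lit 287))))))) (XT.nd (nat_lit 53976) (nat_lit 0) (nat_lit 15352) (XT.nd (nat_lit 390) (nat_lit 228) (nat_lit 0) (XT.nd (nat_lit 156) (nat_lit 380) (nat_lit 0) (XT.nd (nat_lit 78) (nat_lit 0) (nat_lit 0) (XT.lf (nat_lit 0) (nat_lit 5248013669) (nat_lit 152) (nat_lit 5672536321) (nat_lit 228) (nat_lit 5219928507) (nat_lit 33) (nat_lit 5) (nat_lit 35) (nat_lit 5) (nat_lit 36) (nat_lit 5) (nat_lit 499) (nat_lit 355) (nat_lit 286)) (XT.lf (nat_lit 0) (nat_lit 13938660062) (nat_lit 152) (nat_lit 1239454335) (nat_lit 228) (nat_lit 1186247609) (nat_lit 33) (nat_lit 5) (nat_lit 35) (nat_lit 5) (nat_lit 36) (nat_lit 5) (nat_lit 500) (nat_lit 355) (nat_lit 285))) (XT.nd (nat_lit 78) (nat_lit 152) (nat_lit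 0) (XT.lf (nat_lit 0) (nat_lit 2919049414) (nat_lit 228) (nat_lit 10397682802) (nat_lit 76) (nat_lit 3275029361) (nat_lit 30) (nat_lit 5) (nat_lit 33) (nat_lit 5) (nat_lit 31) (nat_lit 5) (nat_lit 501) (nat_lit 355) (nat_lit 284)) (XT.nd (nat_lit 78) (nat_lit 152) (nat_lit 0) (XT.lf (nat_lit 0) (nat_lit 7082732024) (nat_lit 228) (nat_lit 1877393293) (nat_lit 76) (nat_lit 7863589141) (nat_lit 30) (nat_lit 5) (nat_lit 33) (nat_lit 5) (nat_lit 31) (nat_lit 5) (nat_lit 502) (nat_lit 355) (nat_lit 283)) (XT.lf (nat_lit 0) (nat_lit 6847248235) (nat_lit 152) (nat_lit 4495087918) (nat_lit 228) (nat_lit 5717722589) (nat_lit 28) (nat_lit 5) (nat_lit 30) (nat_lit 5) (nat_lit 31) (nat_lit 5) (nat_lit 503) (nat_lit 355) (nat_lit 282))))) (XT.nd (nat_lit 156) (nat_lit 0) (nat_lit 0) (XT.nd (nat_lit 78) (nat_lit 228) (nat_lit 0) (XT.lf (nat_lit 0) (nat_lit 15668497753) (nat_lit 228) (nat_lit 1585484755) (nat_lit 76) (nat_lit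 47525297) (nat_lit 28) (nat_lit 5) (nat_lit 31) (nat_lit 5) (nat_lit 29) (nat_lit 4) (nat_lit 504) (nat_lit 355) (nat_lit 281)) (XT.lf (nat_lit 0) (nat_lit 2546063282) (nat_lit 228) (nat_lit 10339132549) (nat_lit 76) (nat_lit 4661348196) (nat_lit 25) (nat_lit 5) (nat_lit 28) (nat_lit 5) (nat_lit 26) (nat_lit 5) (nat_lit 505) (nat_lit 355) (nat_lit 280))) (XT.nd (nat_lit 53274) (nat_lit 0) (nat_lit 21052) (XT.lf (nat_lit 0) (nat_lit 6766549382) (nat_lit 228) (nat_lit 1664424683) (nat_lit 76) (nat_lit 9365701979) (nat_lit 25) (nat_lit 5) (nat_lit 28) (nat_lit 5) (nat_lit 26) (nat_lit 5) (nat_lit 506) (nat_lit 355) (nat_lit 279)) (XT.nd (nat_lit 78) (nat_lit 836) (nat_lit 0) (XT.lf (nat_lit 0) (nat_lit 3665711017) (nat_lit 760) (nat_lit 69396269) (nat_lit 760) (nat_lit 69396269) (nat_lit 313) (nat_lit 4) (nat_lit 323) (nat_lit 5) (nat_lit 323) (nat_lit 4) (nat_lit 428) (nat_lit 356) (nat_lit 356)) (XT.lf (nat_lit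 0) (nat_lit 3386399330) (nat_lit 836) (nat_lit 2277039116) (nat_lit 0) (nat_lit 1996103710) (nat_lit 302) (nat_lit 5) (nat_lit 313) (nat_lit 4) (nat_lit 302) (nat_lit 4) (nat_lit 429) (nat_lit 356) (nat_lit 355)))))) (XT.nd (nat_lit 390) (nat_lit 2736) (nat_lit 0) (XT.nd (nat_lit 156) (nat_lit 1444) (nat_lit 0) (XT.nd (nat_lit 78) (nat_lit 760) (nat_lit 0) (XT.lf (nat_lit 0) (nat_lit 3416292909) (nat_lit 760) (nat_lit 3524466471) (nat_lit 760) (nat_lit 771135928) (nat_lit 292) (nat_lit 4) (nat_lit 302) (nat_lit 5) (nat_lit 302) (nat_lit 4) (nat_lit 430) (nat_lit 356) (nat_lit 354)) (XT.lf (nat_lit 0) (nat_lit 1414067386) (nat_lit 684) (nat_lit 1310539879) (nat_lit 760) (nat_lit 5041150743) (nat_lit 282) (nat_lit 5) (nat_lit 291) (nat_lit 5) (nat_lit 292) (nat_lit 4) (nat_lit 431) (nat_lit 356) (nat_lit 353))) (XT.nd (nat_lit 78) (nat_lit 1444) (nat_lit 0) (XT.lf (nat_lit 0) (nat_lit 6251681376) (nat_lit 760)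 (nat_lit 611701090) (nat_lit 0) (nat_lit 957812841) (nat_lit 282) (nat_lit 5) (nat_lit 292) (nat_lit 4) (nat_lit 282) (nat_lit 4) (nat_lit 432) (nat_lit 356) (nat_lit 352)) (XT.nd (nat_lit 78) (nat_lit 684) (nat_lit 0) (XT.lf (nat_lit 0) (nat_lit 1925965878) (nat_lit 760) (nat_lit 2662651038) (nat_lit 76) (nat_lit 3289295869) (nat_lit 272) (nat_lit 5) (nat_lit 282) (nat_lit 5) (nat_lit 273) (nat_lit 4) (nat_lit 433) (nat_lit 356) (nat_lit 351)) (XT.lf (nat_lit 0) (nat_lit 3187603335) (nat_lit 684) (nat_lit 2245687839) (nat_lit 760) (nat_lit 2503039070) (nat_lit 263) (nat_lit 5) (nat_lit 272) (nat_lit 5) (nat_lit 273) (nat_lit 4) (nat_lit 434) (nat_lit 356) (nat_lit 350))))) (XT.nd (nat_lit 234) (nat_lit 1368) (nat_lit 0) (XT.nd (nat_lit 78) (nat_lit 608) (nat_lit 0) (XT.lf (nat_lit 0) (nat_lit 966299944) (nat_lit 760) (nat_lit 6869623955) (nat_lit 76) (nat_lit 160596017) (nat_lit 253) (nat_lit 5) (nat_lit 263)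 (nat_lit 5) (nat_lit 254) (nat_lit 4) (nat_lit 435) (nat_lit 356) (nat_lit 349)) (XT.nd (nat_lit 78) (nat_lit 608) (nat_lit 0) (XT.lf (nat_lit 0) (nat_lit 4457516801) (nat_lit 760) (nat_lit 980703087) (nat_lit 76) (nat_lit 2619672757) (nat_lit 253) (nat_lit 5) (nat_lit 263) (nat_lit 5) (nat_lit 254) (nat_lit 4) (nat_lit 436) (nat_lit 356) (nat_lit 348)) (XT.lf (nat_lit 0) (nat_lit 5017121145) (nat_lit 608) (nat_lit 2974232725) (nat_lit 684) (nat_lit 129712745) (nat_lit 245) (nat_lit 5) (nat_lit 253) (nat_lit 5) (nat_lit 254) (nat_lit 4) (nat_lit 437) (nat_lit 356) (nat_lit 347)))) (XT.nd (nat_lit 78) (nat_lit 684) (nat_lit 0) (XT.lf (nat_lit 0) (nat_lit 2903716345) (nat_lit 608) (nat_lit 427889029) (nat_lit 684) (nat_lit 4854165010) (nat_lit 236) (nat_lit 5) (nat_lit 244) (nat_lit 5) (nat_lit 245) (nat_lit 5) (nat_lit 438) (nat_lit 356) (nat_lit 346)) (XT.nd (nat_lit 78) (nat_lit 76) (nat_lit 0) (XT.lf (nat_lit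 0) (nat_lit 741281753) (nat_lit 608) (nat_lit 6100070922) (nat_lit 684) (nat_lit 1410807604) (nat_lit 228) (nat_lit 5) (nat_lit 236) (nat_lit 5) (nat_lit 237) (nat_lit 4) (nat_lit 439) (nat_lit 356) (nat_lit 345)) (XT.lf (nat_lit 0) (nat_lit 2053698159) (nat_lit 684) (nat_lit 1455119383) (nat_lit 76) (nat_lit 4811217626) (nat_lit 227) (nat_lit 5) (nat_lit 236) (nat_lit 5) (nat_lit 228) (nat_lit 5) (nat_lit 440) (nat_lit 356) (nat_lit 344))))))))
noncomputable def xc38 : XT := (XT.nd (nat_lit 1638) (nat_lit 4636) (nat_lit 0) (XT.nd (nat_lit 780) (nat_lit 3268) (nat_lit 0) (XT.nd (nat_lit 390) (nat_lit 2128) (nat_lit 0) (XT.nd (nat_lit 156) (nat_lit 1140) (nat_lit 0) (XT.nd (nat_lit 78) (nat_lit 608) (nat_lit 0) (XT.lf (nat_lit 0) (nat_lit 4699614824) (nat_lit 608) (nat_lit 841997477) (nat_lit 684) (nat_lit 2848034941) (nat_lit 219) (nat_lit 5) (nat_lit 227) (nat_lit 5) (nat_lit 228) (nat_lit 5) (nat_lit 441)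 (nat_lit 356) (nat_lit 343)) (XT.lf (nat_lit 0) (nat_lit 611260692) (nat_lit 608) (nat_lit 5983066883) (nat_lit 76) (nat_lit 1866646341) (nat_lit 211) (nat_lit 5) (nat_lit 219) (nat_lit 5) (nat_lit 212) (nat_lit 5) (nat_lit 442) (nat_lit 356) (nat_lit 342))) (XT.nd (nat_lit 78) (nat_lit 608) (nat_lit 0) (XT.lf (nat_lit 0) (nat_lit 188583002) (nat_lit 532) (nat_lit 3888036972) (nat_lit 608) (nat_lit 4457255238) (nat_lit 204) (nat_lit 5) (nat_lit 211) (nat_lit 5) (nat_lit 212) (nat_lit 5) (nat_lit 443) (nat_lit 356) (nat_lit 341)) (XT.nd (nat_lit 78) (nat_lit 608) (nat_lit 0) (XT.lf (nat_lit 0) (nat_lit 6489981445) (nat_lit 532) (nat_lit 1105332372) (nat_lit 608) (nat_lit 1013264537) (nat_lit 204) (nat_lit 5) (nat_lit 211) (nat_lit 5) (nat_lit 212) (nat_lit 5) (nat_lit 444) (nat_lit 356) (nat_lit 340)) (XT.lf (nat_lit 0) (nat_lit 2450084338) (nat_lit 608) (nat_lit 4499083621) (nat_lit 76) (nat_lit 1735641216)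 (nat_lit 196) (nat_lit 5) (nat_lit 204) (nat_lit 5) (nat_lit 197) (nat_lit 5) (nat_lit 445) (nat_lit 356) (nat_lit 339))))) (XT.nd (nat_lit 156) (nat_lit 1520) (nat_lit 0) (XT.nd (nat_lit 78) (nat_lit 76) (nat_lit 0) (XT.lf (nat_lit 0) (nat_lit 1817697685) (nat_lit 532) (nat_lit 4129957378) (nat_lit 608) (nat_lit 2815228111) (nat_lit 189) (nat_lit 5) (nat_lit 196) (nat_lit 5) (nat_lit 197) (nat_lit 5) (nat_lit 446) (nat_lit 356) (nat_lit 338)) (XT.lf (nat_lit 0) (nat_lit 639518465) (nat_lit 608) (nat_lit 599529125) (nat_lit 76) (nat_lit 7603892147) (nat_lit 188) (nat_lit 5) (nat_lit 196) (nat_lit 5) (nat_lit 189) (nat_lit 5) (nat_lit 447) (nat_lit 356) (nat_lit 337))) (XT.nd (nat_lit 78) (nat_lit 1064) (nat_lit 0) (XT.lf (nat_lit 0) (nat_lit 4121443363) (nat_lit 532) (nat_lit 3078062946) (nat_lit 76) (nat_lit 1724825003) (nat_lit 182) (nat_lit 5) (nat_lit 189) (nat_lit 5) (nat_lit 183) (nat_lit 5) (nat_lit 448)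 (nat_lit 356) (nat_lit 336)) (XT.nd (nat_lit 78) (nat_lit 532) (nat_lit 0) (XT.lf (nat_lit 0) (nat_lit 3384138572) (nat_lit 532) (nat_lit 4269908778) (nat_lit 608) (nat_lit 1353703769) (nat_lit 175) (nat_lit 5) (nat_lit 182) (nat_lit 5) (nat_lit 183) (nat_lit 5) (nat_lit 449) (nat_lit 356) (nat_lit 335)) (XT.lf (nat_lit 0) (nat_lit 847720120) (nat_lit 456) (nat_lit 1261663460) (nat_lit 532) (nat_lit 6983728936) (nat_lit 168) (nat_lit 5) (nat_lit 174) (nat_lit 5) (nat_lit 175) (nat_lit 5) (nat_lit 450) (nat_lit 356) (nat_lit 334)))))) (XT.nd (nat_lit 390) (nat_lit 1748) (nat_lit 0) (XT.nd (nat_lit 156) (nat_lit 1064) (nat_lit 0) (XT.nd (nat_lit 78) (nat_lit 456) (nat_lit 0) (XT.lf (nat_lit 0) (nat_lit 5620775745) (nat_lit 532) (nat_lit 1750196300) (nat_lit 76) (nat_lit 1809106741) (nat_lit 168) (nat_lit 5) (nat_lit 175) (nat_lit 5) (nat_lit 169) (nat_lit 5) (nat_lit 451) (nat_lit 356) (nat_lit 333)) (XT.lf (nat_lit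 0) (nat_lit 4857179089) (nat_lit 456) (nat_lit 4333573083) (nat_lit 532) (nat_lit 78284682) (nat_lit 162) (nat_lit 5) (nat_lit 168) (nat_lit 5) (nat_lit 169) (nat_lit 5) (nat_lit 452) (nat_lit 356) (nat_lit 332))) (XT.nd (nat_lit 78) (nat_lit 532) (nat_lit 0) (XT.lf (nat_lit 0) (nat_lit 2193743336) (nat_lit 456) (nat_lit 1207783413) (nat_lit 532) (nat_lit 5958321009) (nat_lit 155) (nat_lit 5) (nat_lit 161) (nat_lit 5) (nat_lit 162) (nat_lit 5) (nat_lit 453) (nat_lit 356) (nat_lit 331)) (XT.nd (nat_lit 78) (nat_lit 532) (nat_lit 0) (XT.lf (nat_lit 0) (nat_lit 6941586865) (nat_lit 532) (nat_lit 547898207) (nat_lit 76) (nat_lit 1963163914) (nat_lit 155) (nat_lit 5) (nat_lit 162) (nat_lit 5) (nat_lit 156) (nat_lit 5) (nat_lit 454) (nat_lit 356) (nat_lit 330)) (XT.lf (nat_lit 0) (nat_lit 990246051) (nat_lit 532) (nat_lit 3350092829) (nat_lit 76) (nat_lit 5206888853) (nat_lit 148) (nat_lit 5) (nat_lit 155) (nat_lit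 5) (nat_lit 149) (nat_lit 5) (nat_lit 455) (nat_lit 356) (nat_lit 329))))) (XT.nd (nat_lit 234) (nat_lit 836) (nat_lit 0) (XT.nd (nat_lit 78) (nat_lit 532) (nat_lit 0) (XT.lf (nat_lit 0) (nat_lit 3396299202) (nat_lit 380) (nat_lit 1107648282) (nat_lit 456) (nat_lit 5139916210) (nat_lit 143) (nat_lit 5) (nat_lit 148) (nat_lit 5) (nat_lit 149) (nat_lit 5) (nat_lit 456) (nat_lit 356) (nat_lit 328)) (XT.nd (nat_lit 78) (nat_lit 76) (nat_lit 0) (XT.lf (nat_lit 0) (nat_lit 500405092) (nat_lit 456) (nat_lit 7578181852) (nat_lit 532) (nat_lit 1664049209) (nat_lit 137) (nat_lit 5) (nat_lit 143) (nat_lit 5) (nat_lit 144) (nat_lit 5) (nat_lit 457) (nat_lit 356) (nat_lit 327)) (XT.lf (nat_lit 0) (nat_lit 1856925777) (nat_lit 532) (nat_lit 2467383746) (nat_lit 76) (nat_lit 5518841348) (nat_lit 136) (nat_lit 5) (nat_lit 143) (nat_lit 5) (nat_lit 137) (nat_lit 5) (nat_lit 458) (nat_lit 356) (nat_lit 326)))) (XT.nd (nat_lit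 78) (nat_lit 456) (nat_lit 0) (XT.lf (nat_lit 0) (nat_lit 4418287267) (nat_lit 380) (nat_lit 988151977) (nat_lit 456) (nat_lit 4539424717) (nat_lit 131) (nat_lit 5) (nat_lit 136) (nat_lit 5) (nat_lit 137) (nat_lit 5) (nat_lit 459) (nat_lit 356) (nat_lit 325)) (XT.nd (nat_lit 78) (nat_lit 76) (nat_lit 0) (XT.lf (nat_lit 0) (nat_lit 1354849496) (nat_lit 380) (nat_lit 7665262551) (nat_lit 456) (nat_lit 1030671648) (nat_lit 126) (nat_lit 5) (nat_lit 131) (nat_lit 5) (nat_lit 132) (nat_lit 5) (nat_lit 460) (nat_lit 356) (nat_lit 324)) (XT.lf (nat_lit 0) (nat_lit 2510892433) (nat_lit 456) (nat_lit 1802669546) (nat_lit 76) (nat_lit 5844002958) (nat_lit 125) (nat_lit 5) (nat_lit 131) (nat_lit 5) (nat_lit 126) (nat_lit 5) (nat_lit 461) (nat_lit 356) (nat_lit 323))))))) (XT.nd (nat_lit 780) (nat_lit 2052) (nat_lit 0) (XT.nd (nat_lit 390) (nat_lit 1064) (nat_lit 0) (XT.nd (nat_lit 156) (nat_lit 760) (nat_lit 0) (XT.nd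 (nat_lit 78) (nat_lit 380) (nat_lit 0) (XT.lf (nat_lit 0) (nat_lit 5219375178) (nat_lit 380) (nat_lit 877124377) (nat_lit 456) (nat_lit 4170120600) (nat_lit 120) (nat_lit 5) (nat_lit 125) (nat_lit 5) (nat_lit 126) (nat_lit 5) (nat_lit 462) (nat_lit 356) (nat_lit 322)) (XT.lf (nat_lit 0) (nat_lit 1966291280) (nat_lit 380) (nat_lit 7782954485) (nat_lit 456) (nat_lit 628716734) (nat_lit 115) (nat_lit 5) (nat_lit 120) (nat_lit 5) (nat_lit 121) (nat_lit 5) (nat_lit 463) (nat_lit 356) (nat_lit 321))) (XT.nd (nat_lit 78) (nat_lit 684) (nat_lit 0) (XT.lf (nat_lit 0) (nat_lit 2937844725) (nat_lit 456) (nat_lit 1398943000) (nat_lit 76) (nat_lit 6154501367) (nat_lit 114) (nat_lit 5) (nat_lit 120) (nat_lit 5) (nat_lit 115) (nat_lit 5) (nat_lit 464) (nat_lit 356) (nat_lit 320)) (XT.nd (nat_lit 78) (nat_lit 380) (nat_lit 0) (XT.lf (nat_lit 0) (nat_lit 5755557675) (nat_lit 304) (nat_lit 803604765) (nat_lit 380) (nat_lit 4047813510)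 (nat_lit 110) (nat_lit 5) (nat_lit 114) (nat_lit 5) (nat_lit 115) (nat_lit 5) (nat_lit 465) (nat_lit 356) (nat_lit 319)) (XT.lf (nat_lit 0) (nat_lit 2288997875) (nat_lit 380) (nat_lit 7961153053) (nat_lit 456) (nat_lit 474894183) (nat_lit 105) (nat_lit 5) (nat_lit 110) (nat_lit 5) (nat_lit 111) (nat_lit 5) (nat_lit 466) (nat_lit 356) (nat_lit 318))))) (XT.nd (nat_lit 156) (nat_lit 684) (nat_lit 0) (XT.nd (nat_lit 78) (nat_lit 304) (nat_lit 0) (XT.lf (nat_lit 0) (nat_lit 3120885394) (nat_lit 456) (nat_lit 1303209365) (nat_lit 76) (nat_lit 6421122855) (nat_lit 104) (nat_lit 5) (nat_lit 110) (nat_lit 5) (nat_lit 105) (nat_lit 5) (nat_lit 467) (nat_lit 356) (nat_lit 317)) (XT.lf (nat_lit 0) (nat_lit 5978675649) (nat_lit 304) (nat_lit 798131470) (nat_lit 380) (nat_lit 4191044637) (nat_lit 100) (nat_lit 5) (nat_lit 104) (nat_lit 5) (nat_lit 105) (nat_lit 5) (nat_lit 468) (nat_lit 356) (nat_lit 316))) (XT.nd (nat_lit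 78) (nat_lit 380) (nat_lit 0) (XT.lf (nat_lit 0) (nat_lit 2272868341) (nat_lit 304) (nat_lit 8231395358) (nat_lit 380) (nat_lit 588718981) (nat_lit 96) (nat_lit 5) (nat_lit 100) (nat_lit 5) (nat_lit 101) (nat_lit 5) (nat_lit 469) (nat_lit 356) (nat_lit 315)) (XT.nd (nat_lit 78) (nat_lit 304) (nat_lit 0) (XT.lf (nat_lit 0) (nat_lit 3040312692) (nat_lit 380) (nat_lit 1566996529) (nat_lit 76) (nat_lit 6613015697) (nat_lit 95) (nat_lit 5) (nat_lit 100) (nat_lit 5) (nat_lit 96) (nat_lit 5) (nat_lit 470) (nat_lit 356) (nat_lit 314)) (XT.lf (nat_lit 0) (nat_lit 5835890537) (nat_lit 304) (nat_lit 893050378) (nat_lit 380) (nat_lit 4621308992) (nat_lit 91) (nat_lit 5) (nat_lit 95) (nat_lit 5) (nat_lit 96) (nat_lit 5) (nat_lit 471) (nat_lit 356) (nat_lit 313)))))) (XT.nd (nat_lit 390) (nat_lit 1064) (nat_lit 0) (XT.nd (nat_lit 156) (nat_lit 608) (nat_lit 0) (XT.nd (nat_lit 78) (nat_lit 76) (nat_lit 0) (XT.lf (nat_lit 0)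 (nat_lit 1862888449) (nat_lit 304) (nat_lit 8627177197) (nat_lit 380) (nat_lit 992744754) (nat_lit 87) (nat_lit 5) (nat_lit 91) (nat_lit 5) (nat_lit 92) (nat_lit 5) (nat_lit 472) (nat_lit 356) (nat_lit 312)) (XT.lf (nat_lit 0) (nat_lit 2673384568) (nat_lit 380) (nat_lit 2246913251) (nat_lit 76) (nat_lit 6697373329) (nat_lit 86) (nat_lit 5) (nat_lit 91) (nat_lit 5) (nat_lit 87) (nat_lit 5) (nat_lit 473) (nat_lit 356) (nat_lit 311))) (XT.nd (nat_lit 78) (nat_lit 380) (nat_lit 0) (XT.lf (nat_lit 0) (nat_lit 5269108935) (nat_lit 228) (nat_lit 1122845193) (nat_lit 304) (nat_lit 5363306353) (nat_lit 83) (nat_lit 5) (nat_lit 86) (nat_lit 5) (nat_lit 87) (nat_lit 5) (nat_lit 474) (nat_lit 356) (nat_lit 310)) (XT.nd (nat_lit 78) (nat_lit 76) (nat_lit 0) (XT.lf (nat_lit 0) (nat_lit 998533739) (nat_lit 304) (nat_lit 9184293077) (nat_lit 380) (nat_lit 1712826757) (nat_lit 79) (nat_lit 5) (nat_lit 83) (nat_lit 5) (nat_lit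 84) (nat_lit 5) (nat_lit 475) (nat_lit 356) (nat_lit 309)) (XT.lf (nat_lit 0) (nat_lit 1994053138) (nat_lit 380) (nat_lit 3405260973) (nat_lit 76) (nat_lit 6639094302) (nat_lit 78) (nat_lit 5) (nat_lit 83) (nat_lit 5) (nat_lit 79) (nat_lit 5) (nat_lit 476) (nat_lit 356) (nat_lit 308))))) (XT.nd (nat_lit 234) (nat_lit 456) (nat_lit 0) (XT.nd (nat_lit 78) (nat_lit 380) (nat_lit 0) (XT.lf (nat_lit 0) (nat_lit 4214351749) (nat_lit 228) (nat_lit 1524492552) (nat_lit 304) (nat_lit 6445223440) (nat_lit 75) (nat_lit 5) (nat_lit 78) (nat_lit 5) (nat_lit 79) (nat_lit 5) (nat_lit 477) (nat_lit 356) (nat_lit 307)) (XT.nd (nat_lit 78) (nat_lit 380) (nat_lit 0) (XT.lf (nat_lit 0) (nat_lit 9556829068) (nat_lit 304) (nat_lit 381811243) (nat_lit 76) (nat_lit 2394043791) (nat_lit 75) (nat_lit 5) (nat_lit 79) (nat_lit 5) (nat_lit 76) (nat_lit 5) (nat_lit 478) (nat_lit 356) (nat_lit 306)) (XT.lf (nat_lit 0) (nat_lit 972666686)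 (nat_lit 380) (nat_lit 5110705227) (nat_lit 76) (nat_lit 6400415799) (nat_lit 70) (nat_lit 5) (nat_lit 75) (nat_lit 5) (nat_lit 71) (nat_lit 5) (nat_lit 479) (nat_lit 356) (nat_lit 305)))) (XT.nd (nat_lit 78) (nat_lit 228) (nat_lit 0) (XT.lf (nat_lit 0) (nat_lit 2601061710) (nat_lit 228) (nat_lit 2137845366) (nat_lit 304) (nat_lit 7899050247) (nat_lit 67) (nat_lit 5) (nat_lit 70) (nat_lit 5) (nat_lit 71) (nat_lit 5) (nat_lit 480) (nat_lit 356) (nat_lit 304)) (XT.nd (nat_lit 78) (nat_lit 228) (nat_lit 0) (XT.lf (nat_lit 0) (nat_lit 8587851042) (nat_lit 304) (nat_lit 2335899583) (nat_lit 76) (nat_lit 1871321179) (nat_lit 67) (nat_lit 5) (nat_lit 71) (nat_lit 5) (nat_lit 68) (nat_lit 5) (nat_lit 481) (nat_lit 356) (nat_lit 303)) (XT.lf (nat_lit 0) (nat_lit 5513305682) (nat_lit 228) (nat_lit 7011801685) (nat_lit 304) (nat_lit 430003415) (nat_lit 64) (nat_lit 5) (nat_lit 67) (nat_lit 5) (nat_lit 68) (nat_lit 5) (nat_lit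 482) (nat_lit 356) (nat_lit 302))))))))
noncomputable def xc39 : XT := (XT.nd (nat_lit 1638) (nat_lit 228) (nat_lit 0) (XT.nd (nat_lit 780) (nat_lit 1216) (nat_lit 0) (XT.nd (nat_lit 390) (nat_lit 684) (nat_lit 0) (XT.nd (nat_lit 156) (nat_lit 532) (nat_lit 0) (XT.nd (nat_lit 78) (nat_lit 0) (nat_lit 0) (XT.lf (nat_lit 0) (nat_lit 351342393) (nat_lit 228) (nat_lit 3006048045) (nat_lit 304) (nat_lit 9760933730) (nat_lit 60) (nat_lit 5) (nat_lit 63) (nat_lit 5) (nat_lit 64) (nat_lit 5) (nat_lit 483) (nat_lit 356) (nat_lit 301)) (XT.lf (nat_lit 0) (nat_lit 7233699301) (nat_lit 304) (nat_lit 4957010197) (nat_lit 76) (nat_lit 1093665345) (nat_lit 60) (nat_lit 5) (nat_lit 64) (nat_lit 5) (nat_lit 61) (nat_lit 5) (nat_lit 484) (nat_lit 356) (nat_lit 300))) (XT.nd (nat_lit 78) (nat_lit 304) (nat_lit 0) (XT.lf (nat_lit 0) (nat_lit 2965155214) (nat_lit 228) (nat_lit 8223930088) (nat_lit 304) (nat_lit 2264638411) (nat_lit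 57) (nat_lit 5) (nat_lit 60) (nat_lit 5) (nat_lit 61) (nat_lit 5) (nat_lit 485) (nat_lit 356) (nat_lit 299)) (XT.nd (nat_lit 78) (nat_lit 228) (nat_lit 0) (XT.lf (nat_lit 0) (nat_lit 1572125354) (nat_lit 304) (nat_lit 2586505433) (nat_lit 76) (nat_lit 9467710215) (nat_lit 56) (nat_lit 5) (nat_lit 60) (nat_lit 5) (nat_lit 57) (nat_lit 5) (nat_lit 486) (nat_lit 356) (nat_lit 298)) (XT.lf (nat_lit 0) (nat_lit 5454131872) (nat_lit 304) (nat_lit 8333758596) (nat_lit 76) (nat_lit 14251891) (nat_lit 53) (nat_lit 5) (nat_lit 57) (nat_lit 5) (nat_lit 54) (nat_lit 5) (nat_lit 487) (nat_lit 356) (nat_lit 297))))) (XT.nd (nat_lit 156) (nat_lit 456) (nat_lit 0) (XT.nd (nat_lit 78) (nat_lit 228) (nat_lit 0) (XT.lf (nat_lit 0) (nat_lit 9422155310) (nat_lit 304) (nat_lit 351346749) (nat_lit 76) (nat_lit 4207797724) (nat_lit 53) (nat_lit 5) (nat_lit 57) (nat_lit 5) (nat_lit 54) (nat_lit 5) (nat_lit 488) (nat_lit 356) (nat_lit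 296)) (XT.lf (nat_lit 0) (nat_lit 7832645674) (nat_lit 228) (nat_lit 5651831047) (nat_lit 304) (nat_lit 679272310) (nat_lit 50) (nat_lit 5) (nat_lit 53) (nat_lit 5) (nat_lit 54) (nat_lit 5) (nat_lit 489) (nat_lit 356) (nat_lit 295))) (XT.nd (nat_lit 78) (nat_lit 228) (nat_lit 0) (XT.lf (nat_lit 0) (nat_lit 1776400604) (nat_lit 152) (nat_lit 1436861383) (nat_lit 228) (nat_lit 11136605556) (nat_lit 47) (nat_lit 5) (nat_lit 49) (nat_lit 5) (nat_lit 50) (nat_lit 5) (nat_lit 490) (nat_lit 356) (nat_lit 294)) (XT.nd (nat_lit 78) (nat_lit 228) (nat_lit 0) (XT.lf (nat_lit 0) (nat_lit 7200211315) (nat_lit 228) (nat_lit 4491381921) (nat_lit 76) (nat_lit 2847519192) (nat_lit 47) (nat_lit 5) (nat_lit 50) (nat_lit 5) (nat_lit 48) (nat_lit 5) (nat_lit 491) (nat_lit 356) (nat_lit 293)) (XT.lf (nat_lit 0) (nat_lit 3731937807) (nat_lit 228) (nat_lit 7533707924) (nat_lit 304) (nat_lit 3466528419) (nat_lit 44) (nat_lit 5) (nat_lit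 47) (nat_lit 5) (nat_lit 48) (nat_lit 5) (nat_lit 492) (nat_lit 356) (nat_lit 292)))))) (XT.nd (nat_lit 390) (nat_lit 684) (nat_lit 0) (XT.nd (nat_lit 156) (nat_lit 304) (nat_lit 0) (XT.nd (nat_lit 78) (nat_lit 152) (nat_lit 0) (XT.lf (nat_lit 0) (nat_lit 472356548) (nat_lit 304) (nat_lit 2811139573) (nat_lit 76) (nat_lit 11645636758) (nat_lit 43) (nat_lit 5) (nat_lit 47) (nat_lit 5) (nat_lit 44) (nat_lit 5) (nat_lit 493) (nat_lit 356) (nat_lit 291)) (XT.lf (nat_lit 0) (nat_lit 4452375678) (nat_lit 228) (nat_lit 9603999825) (nat_lit 76) (nat_lit 1073028004) (nat_lit 41) (nat_lit 5) (nat_lit 44) (nat_lit 5) (nat_lit 42) (nat_lit 5) (nat_lit 494) (nat_lit 356) (nat_lit 290))) (XT.nd (nat_lit 78) (nat_lit 304) (nat_lit 0) (XT.lf (nat_lit 0) (nat_lit 8518612849) (nat_lit 228) (nat_lit 1347268162) (nat_lit 76) (nat_lit 5467672523) (nat_lit 41) (nat_lit 5) (nat_lit 44) (nat_lit 5) (nat_lit 42) (nat_lit 5) (nat_lit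 495) (nat_lit 356) (nat_lit 289)) (XT.nd (nat_lit 78) (nat_lit 76) (nat_lit 0) (XT.lf (nat_lit 0) (nat_lit 7110123682) (nat_lit 228) (nat_lit 5568767169) (nat_lit 304) (nat_lit 2862647604) (nat_lit 38) (nat_lit 5) (nat_lit 41) (nat_lit 5) (nat_lit 42) (nat_lit 5) (nat_lit 496) (nat_lit 356) (nat_lit 288)) (XT.lf (nat_lit 0) (nat_lit 1129074809) (nat_lit 304) (nat_lit 64019048) (nat_lit 76) (nat_lit 14560929209) (nat_lit 37) (nat_lit 5) (nat_lit 41) (nat_lit 5) (nat_lit 38) (nat_lit 5) (nat_lit 497) (nat_lit 356) (nat_lit 287))))) (XT.nd (nat_lit 234) (nat_lit 380) (nat_lit 0) (XT.nd (nat_lit 78) (nat_lit 152) (nat_lit 0) (XT.lf (nat_lit 0) (nat_lit 5206400202) (nat_lit 228) (nat_lit 7484830250) (nat_lit 76) (nat_lit 3278272346) (nat_lit 35) (nat_lit 5) (nat_lit 38) (nat_lit 5) (nat_lit 36) (nat_lit 5) (nat_lit 498) (nat_lit 356) (nat_lit 286)) (XT.nd (nat_lit 78) (nat_lit 0) (nat_lit 0) (XT.lf (nat_lit 0) (nat_lit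 963870325) (nat_lit 152) (nat_lit 8383380284) (nat_lit 228) (nat_lit 6842407686) (nat_lit 33) (nat_lit 5) (nat_lit 35) (nat_lit 5) (nat_lit 36) (nat_lit 5) (nat_lit 499) (nat_lit 356) (nat_lit 285)) (XT.lf (nat_lit 0) (nat_lit 9626588249) (nat_lit 152) (nat_lit 3962216808) (nat_lit 228) (nat_lit 2825059733) (nat_lit 33) (nat_lit 5) (nat_lit 35) (nat_lit 5) (nat_lit 36) (nat_lit 5) (nat_lit 500) (nat_lit 356) (nat_lit 284)))) (XT.nd (nat_lit 78) (nat_lit 152) (nat_lit 0) (XT.lf (nat_lit 0) (nat_lit 1239106050) (nat_lit 228) (nat_lit 14866993689) (nat_lit 76) (nat_lit 536632596) (nat_lit 30) (nat_lit 5) (nat_lit 33) (nat_lit 5) (nat_lit 31) (nat_lit 5) (nat_lit 501) (nat_lit 356) (nat_lit 283)) (XT.nd (nat_lit 78) (nat_lit 152) (nat_lit 0) (XT.lf (nat_lit 0) (nat_lit 5387041626) (nat_lit 228) (nat_lit 6374355993) (nat_lit 76) (nat_lit 5113605163) (nat_lit 30) (nat_lit 5) (nat_lit 33) (nat_lit 5) (nat_lit 31) (nat_lit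 5) (nat_lit 502) (nat_lit 356) (nat_lit 282)) (XT.lf (nat_lit 0) (nat_lit 2263053374) (nat_lit 152) (nat_lit 7338390478) (nat_lit 228) (nat_lit 7510809827) (nat_lit 28) (nat_lit 5) (nat_lit 30) (nat_lit 5) (nat_lit 31) (nat_lit 5) (nat_lit 503) (nat_lit 356) (nat_lit 281))))))) (XT.nd (nat_lit 53820) (nat_lit 0) (nat_lit 14136) (XT.nd (nat_lit 53430) (nat_lit 0) (nat_lit 19532) (XT.nd (nat_lit 156) (nat_lit 0) (nat_lit 0) (XT.nd (nat_lit 78) (nat_lit 228) (nat_lit 0) (XT.lf (nat_lit 0) (nat_lit 11105215841) (nat_lit 152) (nat_lit 2806766531) (nat_lit 228) (nat_lit 3442035355) (nat_lit 28) (nat_lit 5) (nat_lit 30) (nat_lit 5) (nat_lit 31) (nat_lit 5) (nat_lit 504) (nat_lit 356) (nat_lit 280)) (XT.lf (nat_lit 0) (nat_lit 696294498) (nat_lit 228) (nat_lit 15114566695) (nat_lit 76) (nat_lit 1789719473) (nat_lit 25) (nat_lit 5) (nat_lit 28) (nat_lit 5) (nat_lit 26) (nat_lit 5) (nat_lit 505) (nat_lit 356) (nat_lit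 279))) (XT.nd (nat_lit 53118) (nat_lit 0) (nat_lit 21888) (XT.lf (nat_lit 0) (nat_lit 4901718944) (nat_lit 228) (nat_lit 6466518070) (nat_lit 76) (nat_lit 6482779281) (nat_lit 25) (nat_lit 5) (nat_lit 28) (nat_lit 5) (nat_lit 26) (nat_lit 5) (nat_lit 506) (nat_lit 356) (nat_lit 278)) (XT.nd (nat_lit 78) (nat_lit 760) (nat_lit 0) (XT.lf (nat_lit 0) (nat_lit 923129036) (nat_lit 836) (nat_lit 1909197250) (nat_lit 0) (nat_lit 923129036) (nat_lit 323) (nat_lit 5) (nat_lit 334) (nat_lit 4) (nat_lit 323) (nat_lit 4) (nat_lit 426) (nat_lit 357) (nat_lit 357)) (XT.lf (nat_lit 0) (nat_lit 1694064068) (nat_lit 760) (nat_lit 3655896718) (nat_lit 760) (nat_lit 2209433154) (nat_lit 313) (nat_lit 4) (nat_lit 323) (nat_lit 5) (nat_lit 323) (nat_lit 4) (nat_lit 427) (nat_lit 357) (nat_lit 356))))) (XT.nd (nat_lit 156) (nat_lit 1520) (nat_lit 0) (XT.nd (nat_lit 78) (nat_lit 760) (nat_lit 0) (XT.lf (nat_lit 0) (nat_lit 1258248065)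 (nat_lit 836) (nat_lit 322904003) (nat_lit 76) (nat_lit 6028348974) (nat_lit 312) (nat_lit 5) (nat_lit 323) (nat_lit 5) (nat_lit 313) (nat_lit 4) (nat_lit 428) (nat_lit 357) (nat_lit 355)) (XT.lf (nat_lit 0) (nat_lit 4740046828) (nat_lit 836) (nat_lit 2352205868) (nat_lit 0) (nat_lit 568614752) (nat_lit 302) (nat_lit 5) (nat_lit 313) (nat_lit 4) (nat_lit 302) (nat_lit 4) (nat_lit 429) (nat_lit 357) (nat_lit 354))) (XT.nd (nat_lit 78) (nat_lit 684) (nat_lit 0) (XT.lf (nat_lit 0) (nat_lit 541317718) (nat_lit 836) (nat_lit 4414279033) (nat_lit 76) (nat_lit 2758210534) (nat_lit 291) (nat_lit 5) (nat_lit 302) (nat_lit 5) (nat_lit 292) (nat_lit 4) (nat_lit 430) (nat_lit 357) (nat_lit 353)) (XT.nd (nat_lit 78) (nat_lit 0) (nat_lit 0) (XT.lf (nat_lit 0) (nat_lit 1251580827) (nat_lit 684) (nat_lit 2743185640) (nat_lit 760) (nat_lit 3773463890) (nat_lit 282) (nat_lit 5) (nat_lit 291) (nat_lit 5) (nat_lit 292) (nat_lit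 4) (nat_lit 431) (nat_lit 357) (nat_lit 352)) (XT.lf (nat_lit 0) (nat_lit 7017004193) (nat_lit 684) (nat_lit 467782877) (nat_lit 760) (nat_lit 339638219) (nat_lit 282) (nat_lit 5) (nat_lit 291) (nat_lit 5) (nat_lit 292) (nat_lit 4) (nat_lit 432) (nat_lit 357) (nat_lit 351)))))) (XT.nd (nat_lit 390) (nat_lit 2508) (nat_lit 0) (XT.nd (nat_lit 156) (nat_lit 1444) (nat_lit 0) (XT.nd (nat_lit 78) (nat_lit 684) (nat_lit 0) (XT.lf (nat_lit 0) (nat_lit 3104736640) (nat_lit 760) (nat_lit 2906372445) (nat_lit 76) (nat_lit 1870589395) (nat_lit 272) (nat_lit 5) (nat_lit 282) (nat_lit 5) (nat_lit 273) (nat_lit 4) (nat_lit 433) (nat_lit 357) (nat_lit 350)) (XT.lf (nat_lit 0) (nat_lit 2903682605) (nat_lit 684) (nat_lit 3676495150) (nat_lit 760) (nat_lit 1360591472) (nat_lit 263) (nat_lit 5) (nat_lit 272) (nat_lit 5) (nat_lit 273) (nat_lit 4) (nat_lit 434) (nat_lit 357) (nat_lit 349))) (XT.nd (nat_lit 78) (nat_lit 684) (nat_lit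 0) (XT.lf (nat_lit 0) (nat_lit 791130629) (nat_lit 684) (nat_lit 1269491235) (nat_lit 760) (nat_lit 5940866530) (nat_lit 253) (nat_lit 5) (nat_lit 262) (nat_lit 5) (nat_lit 263) (nat_lit 5) (nat_lit 435) (nat_lit 357) (nat_lit 348)) (XT.nd (nat_lit 78) (nat_lit 684) (nat_lit 0) (XT.lf (nat_lit 0) (nat_lit 5514002975) (nat_lit 760) (nat_lit 1350162586) (nat_lit 76) (nat_lit 1199466982) (nat_lit 253) (nat_lit 5) (nat_lit 263) (nat_lit 5) (nat_lit 254) (nat_lit 4) (nat_lit 436) (nat_lit 357) (nat_lit 347)) (XT.lf (nat_lit 0) (nat_lit 877047764) (nat_lit 684) (nat_lit 3527197760) (nat_lit 76) (nat_lit 3723093649) (nat_lit 244) (nat_lit 5) (nat_lit 253) (nat_lit 5) (nat_lit 245) (nat_lit 5) (nat_lit 437) (nat_lit 357) (nat_lit 346))))) (XT.nd (nat_lit 234) (nat_lit 1216) (nat_lit 0) (XT.nd (nat_lit 78) (nat_lit 684) (nat_lit 0) (XT.lf (nat_lit 0) (nat_lit 2437099669) (nat_lit 608) (nat_lit 1867653568) (nat_lit 684)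 (nat_lit 3887924948) (nat_lit 236) (nat_lit 5) (nat_lit 244) (nat_lit 5) (nat_lit 245) (nat_lit 5) (nat_lit 438) (nat_lit 357) (nat_lit 345)) (XT.nd (nat_lit 78) (nat_lit 76) (nat_lit 0) (XT.lf (nat_lit 0) (nat_lit 233750701) (nat_lit 608) (nat_lit 7539506936) (nat_lit 684) (nat_lit 486648886) (nat_lit 228) (nat_lit 5) (nat_lit 236) (nat_lit 5) (nat_lit 237) (nat_lit 4) (nat_lit 439) (nat_lit 357) (nat_lit 344)) (XT.lf (nat_lit 0) (nat_lit 2937260281) (nat_lit 684) (nat_lit 2013245107) (nat_lit 76) (nat_lit 3377738599) (nat_lit 227) (nat_lit 5) (nat_lit 236) (nat_lit 5) (nat_lit 228) (nat_lit 5) (nat_lit 440) (nat_lit 357) (nat_lit 343)))) (XT.nd (nat_lit 78) (nat_lit 608) (nat_lit 0) (XT.lf (nat_lit 0) (nat_lit 4097466149) (nat_lit 608) (nat_lit 2295880992) (nat_lit 684) (nat_lit 2005158268) (nat_lit 219) (nat_lit 5) (nat_lit 227) (nat_lit 5) (nat_lit 228) (nat_lit 5) (nat_lit 441) (nat_lit 357) (nat_lit 342))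 (XT.nd (nat_lit 78) (nat_lit 0) (nat_lit 0) (XT.lf (nat_lit 0) (nat_lit 1401503185) (nat_lit 608) (nat_lit 6644406762) (nat_lit 76) (nat_lit 424656584) (nat_lit 211) (nat_lit 5) (nat_lit 219) (nat_lit 5) (nat_lit 212) (nat_lit 5) (nat_lit 442) (nat_lit 357) (nat_lit 341)) (XT.lf (nat_lit 0) (nat_lit 4838095195) (nat_lit 608) (nat_lit 511767626) (nat_lit 76) (nat_lit 3194192415) (nat_lit 211) (nat_lit 5) (nat_lit 219) (nat_lit 5) (nat_lit 212) (nat_lit 5) (nat_lit 443) (nat_lit 357) (nat_lit 340))))))))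
noncomputable def xc40 : XT := (XT.nd (nat_lit 1560) (nat_lit 4180) (nat_lit 0) (XT.nd (nat_lit 780) (nat_lit 3040) (nat_lit 0) (XT.nd (nat_lit 390) (nat_lit 2052) (nat_lit 0) (XT.nd (nat_lit 156) (nat_lit 1064) (nat_lit 0) (XT.nd (nat_lit 78) (nat_lit 608) (nat_lit 0) (XT.lf (nat_lit 0) (nat_lit 5746532621) (nat_lit 532) (nat_lit 2579651050) (nat_lit 608) (nat_lit 293198641) (nat_lit 204) (nat_lit 5) (nat_lit 211) (nat_lit 5) (nat_lit 212) (nat_lit 5) (nat_lit 444) (nat_lit 357) (nat_lit 339)) (XT.lf (nat_lit 0) (nat_lit 3118949514) (nat_lit 608) (nat_lit 5306258743) (nat_lit 76) (nat_lit 271157880) (nat_lit 196) (nat_lit 5) (nat_lit 204) (nat_lit 5) (nat_lit 197) (nat_lit 5) (nat_lit 445) (nat_lit 357) (nat_lit 338))) (XT.nd (nat_lit 78) (nat_lit 532) (nat_lit 0) (XT.lf (nat_lit 0) (nat_lit 963113075) (nat_lit 532) (nat_lit 5621202144) (nat_lit 608) (nat_lit 2190780161) (nat_lit 189) (nat_lit 5) (nat_lit 196)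 (nat_lit 5) (nat_lit 197) (nat_lit 5) (nat_lit 446) (nat_lit 357) (nat_lit 337)) (XT.nd (nat_lit 78) (nat_lit 456) (nat_lit 0) (XT.lf (nat_lit 0) (nat_lit 1229223956) (nat_lit 608) (nat_lit 1506707145) (nat_lit 76) (nat_lit 6119681523) (nat_lit 188) (nat_lit 5) (nat_lit 196) (nat_lit 5) (nat_lit 189) (nat_lit 5) (nat_lit 447) (nat_lit 357) (nat_lit 336)) (XT.lf (nat_lit 0) (nat_lit 4669092147) (nat_lit 532) (nat_lit 4036890794) (nat_lit 76) (nat_lit 231872894) (nat_lit 182) (nat_lit 5) (nat_lit 189) (nat_lit 5) (nat_lit 183) (nat_lit 5) (nat_lit 448) (nat_lit 357) (nat_lit 335))))) (XT.nd (nat_lit 156) (nat_lit 1444) (nat_lit 0) (XT.nd (nat_lit 78) (nat_lit 76) (nat_lit 0) (XT.lf (nat_lit 0) (nat_lit 2376248990) (nat_lit 532) (nat_lit 5793089390) (nat_lit 608) (nat_lit 852594715) (nat_lit 175) (nat_lit 5) (nat_lit 182) (nat_lit 5) (nat_lit 183) (nat_lit 5) (nat_lit 449) (nat_lit 357) (nat_lit 334)) (XT.lf (nat_lit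 0) (nat_lit 2572698545) (nat_lit 608) (nat_lit 224681917) (nat_lit 76) (nat_lit 6310483292) (nat_lit 174) (nat_lit 5) (nat_lit 182) (nat_lit 5) (nat_lit 175) (nat_lit 5) (nat_lit 450) (nat_lit 357) (nat_lit 333))) (XT.nd (nat_lit 78) (nat_lit 988) (nat_lit 0) (XT.lf (nat_lit 0) (nat_lit 6047119482) (nat_lit 532) (nat_lit 2866558629) (nat_lit 76) (nat_lit 281901042) (nat_lit 168) (nat_lit 5) (nat_lit 175) (nat_lit 5) (nat_lit 169) (nat_lit 5) (nat_lit 451) (nat_lit 357) (nat_lit 332)) (XT.nd (nat_lit 78) (nat_lit 456) (nat_lit 0) (XT.lf (nat_lit 0) (nat_lit 295381962) (nat_lit 532) (nat_lit 5597097219) (nat_lit 76) (nat_lit 3392680483) (nat_lit 161) (nat_lit 5) (nat_lit 168) (nat_lit 5) (nat_lit 162) (nat_lit 5) (nat_lit 452) (nat_lit 357) (nat_lit 331)) (XT.lf (nat_lit 0) (nat_lit 956192901) (nat_lit 456) (nat_lit 2785015219) (nat_lit 532) (nat_lit 5635420598) (nat_lit 155) (nat_lit 5) (nat_lit 161) (nat_lit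 5) (nat_lit 162) (nat_lit 5) (nat_lit 453) (nat_lit 357) (nat_lit 330)))))) (XT.nd (nat_lit 390) (nat_lit 1596) (nat_lit 0) (XT.nd (nat_lit 156) (nat_lit 912) (nat_lit 0) (XT.nd (nat_lit 78) (nat_lit 532) (nat_lit 0) (XT.lf (nat_lit 0) (nat_lit 7246294201) (nat_lit 532) (nat_lit 1827760097) (nat_lit 76) (nat_lit 396084092) (nat_lit 155) (nat_lit 5) (nat_lit 162) (nat_lit 5) (nat_lit 156) (nat_lit 5) (nat_lit 454) (nat_lit 357) (nat_lit 329)) (XT.lf (nat_lit 0) (nat_lit 1240571026) (nat_lit 532) (nat_lit 4702302062) (nat_lit 76) (nat_lit 3622477889) (nat_lit 148) (nat_lit 5) (nat_lit 155) (nat_lit 5) (nat_lit 149) (nat_lit 5) (nat_lit 455) (nat_lit 357) (nat_lit 328))) (XT.nd (nat_lit 78) (nat_lit 532) (nat_lit 0) (XT.lf (nat_lit 0) (nat_lit 1990484020) (nat_lit 380) (nat_lit 2730494154) (nat_lit 456) (nat_lit 4941683095) (nat_lit 143) (nat_lit 5) (nat_lit 148) (nat_lit 5) (nat_lit 149) (nat_lit 5) (nat_lit 456)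 (nat_lit 357) (nat_lit 327)) (XT.nd (nat_lit 78) (nat_lit 532) (nat_lit 0) (XT.lf (nat_lit 0) (nat_lit 8257840775) (nat_lit 456) (nat_lit 955586179) (nat_lit 76) (nat_lit 548770594) (nat_lit 143) (nat_lit 5) (nat_lit 149) (nat_lit 5) (nat_lit 144) (nat_lit 5) (nat_lit 457) (nat_lit 357) (nat_lit 326)) (XT.lf (nat_lit 0) (nat_lit 1984281235) (nat_lit 532) (nat_lit 3992201969) (nat_lit 76) (nat_lit 3886821135) (nat_lit 136) (nat_lit 5) (nat_lit 143) (nat_lit 5) (nat_lit 137) (nat_lit 5) (nat_lit 458) (nat_lit 357) (nat_lit 325))))) (XT.nd (nat_lit 156) (nat_lit 1216) (nat_lit 0) (XT.nd (nat_lit 78) (nat_lit 0) (nat_lit 0) (XT.lf (nat_lit 0) (nat_lit 2837992817) (nat_lit 380) (nat_lit 2662096273) (nat_lit 456) (nat_lit 4466610255) (nat_lit 131) (nat_lit 5) (nat_lit 136) (nat_lit 5) (nat_lit 137) (nat_lit 5) (nat_lit 459) (nat_lit 357) (nat_lit 324)) (XT.lf (nat_lit 0) (nat_lit 9070813790) (nat_lit 456) (nat_lit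 288101236) (nat_lit 76) (nat_lit 713570664) (nat_lit 131) (nat_lit 5) (nat_lit 137) (nat_lit 5) (nat_lit 132) (nat_lit 5) (nat_lit 460) (nat_lit 357) (nat_lit 323))) (XT.nd (nat_lit 78) (nat_lit 760) (nat_lit 0) (XT.lf (nat_lit 0) (nat_lit 2514391960) (nat_lit 456) (nat_lit 3506370880) (nat_lit 76) (nat_lit 4159010078) (nat_lit 125) (nat_lit 5) (nat_lit 131) (nat_lit 5) (nat_lit 126) (nat_lit 5) (nat_lit 461) (nat_lit 357) (nat_lit 322)) (XT.nd (nat_lit 78) (nat_lit 380) (nat_lit 0) (XT.lf (nat_lit 0) (nat_lit 3458256604) (nat_lit 380) (nat_lit 2607551335) (nat_lit 456) (nat_lit 4223711228) (nat_lit 120) (nat_lit 5) (nat_lit 125) (nat_lit 5) (nat_lit 126) (nat_lit 5) (nat_lit 462) (nat_lit 357) (nat_lit 321)) (XT.lf (nat_lit 0) (nat_lit 135014548) (nat_lit 380) (nat_lit 9537807648) (nat_lit 456) (nat_lit 728961023) (nat_lit 115) (nat_lit 5) (nat_lit 120) (nat_lit 5) (nat_lit 121) (nat_lit 5) (nat_lit 463) (nat_lit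 357) (nat_lit 320))))))) (XT.nd (nat_lit 780) (nat_lit 1976) (nat_lit 0) (XT.nd (nat_lit 390) (nat_lit 1064) (nat_lit 0) (XT.nd (nat_lit 156) (nat_lit 760) (nat_lit 0) (XT.nd (nat_lit 78) (nat_lit 304) (nat_lit 0) (XT.lf (nat_lit 0) (nat_lit 2816373958) (nat_lit 456) (nat_lit 3287945835) (nat_lit 76) (nat_lit 4411260653) (nat_lit 114) (nat_lit 5) (nat_lit 120) (nat_lit 5) (nat_lit 115) (nat_lit 5) (nat_lit 464) (nat_lit 357) (nat_lit 319)) (XT.lf (nat_lit 0) (nat_lit 3807122095) (nat_lit 304) (nat_lit 2595819827) (nat_lit 380) (nat_lit 4229027037) (nat_lit 110) (nat_lit 5) (nat_lit 114) (nat_lit 5) (nat_lit 115) (nat_lit 5) (nat_lit 465) (nat_lit 357) (nat_lit 318))) (XT.nd (nat_lit 78) (nat_lit 380) (nat_lit 0) (XT.lf (nat_lit 0) (nat_lit 266658626) (nat_lit 380) (nat_lit 9780544327) (nat_lit 456) (nat_lit 703776246) (nat_lit 105) (nat_lit 5) (nat_lit 110) (nat_lit 5) (nat_lit 111) (nat_lit 5) (nat_lit 466)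 (nat_lit 357) (nat_lit 317)) (XT.nd (nat_lit 78) (nat_lit 304) (nat_lit 0) (XT.lf (nat_lit 0) (nat_lit 2873105120) (nat_lit 456) (nat_lit 3384093690) (nat_lit 76) (nat_lit 4614426890) (nat_lit 104) (nat_lit 5) (nat_lit 110) (nat_lit 5) (nat_lit 105) (nat_lit 5) (nat_lit 467) (nat_lit 357) (nat_lit 316)) (XT.lf (nat_lit 0) (nat_lit 3836264746) (nat_lit 304) (nat_lit 2657381517) (nat_lit 380) (nat_lit 4501327342) (nat_lit 100) (nat_lit 5) (nat_lit 104) (nat_lit 5) (nat_lit 105) (nat_lit 5) (nat_lit 468) (nat_lit 357) (nat_lit 315))))) (XT.nd (nat_lit 156) (nat_lit 684) (nat_lit 0) (XT.nd (nat_lit 78) (nat_lit 76) (nat_lit 0) (XT.lf (nat_lit 0) (nat_lit 52727181) (nat_lit 304) (nat_lit 10120546758) (nat_lit 380) (nat_lit 947793201) (nat_lit 96) (nat_lit 5) (nat_lit 100) (nat_lit 5) (nat_lit 101) (nat_lit 5) (nat_lit 469) (nat_lit 357) (nat_lit 314)) (XT.lf (nat_lit 0) (nat_lit 2664661172) (nat_lit 380) (nat_lit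 3846521025) (nat_lit 76) (nat_lit 4737705339) (nat_lit 95) (nat_lit 5) (nat_lit 100) (nat_lit 5) (nat_lit 96) (nat_lit 5) (nat_lit 470) (nat_lit 357) (nat_lit 313))) (XT.nd (nat_lit 78) (nat_lit 380) (nat_lit 0) (XT.lf (nat_lit 0) (nat_lit 3492663389) (nat_lit 304) (nat_lit 2824542984) (nat_lit 380) (nat_lit 5062333496) (nat_lit 91) (nat_lit 5) (nat_lit 95) (nat_lit 5) (nat_lit 96) (nat_lit 5) (nat_lit 471) (nat_lit 357) (nat_lit 312)) (XT.nd (nat_lit 78) (nat_lit 380) (nat_lit 0) (XT.lf (nat_lit 0) (nat_lit 10032944330) (nat_lit 380) (nat_lit 554614727) (nat_lit 76) (nat_lit 925454613) (nat_lit 91) (nat_lit 5) (nat_lit 96) (nat_lit 5) (nat_lit 92) (nat_lit 5) (nat_lit 472) (nat_lit 357) (nat_lit 311)) (XT.lf (nat_lit 0) (nat_lit 2168079142) (nat_lit 380) (nat_lit 4732032206) (nat_lit 76) (nat_lit 4748319151) (nat_lit 86) (nat_lit 5) (nat_lit 91) (nat_lit 5) (nat_lit 87) (nat_lit 5) (nat_lit 473) (nat_lit 357)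 (nat_lit 310)))))) (XT.nd (nat_lit 390) (nat_lit 1140) (nat_lit 0) (XT.nd (nat_lit 156) (nat_lit 608) (nat_lit 0) (XT.nd (nat_lit 78) (nat_lit 0) (nat_lit 0) (XT.lf (nat_lit 0) (nat_lit 2718025003) (nat_lit 228) (nat_lit 3131766993) (nat_lit 304) (nat_lit 5936970222) (nat_lit 83) (nat_lit 5) (nat_lit 86) (nat_lit 5) (nat_lit 87) (nat_lit 5) (nat_lit 474) (nat_lit 357) (nat_lit 309)) (XT.lf (nat_lit 0) (nat_lit 9600954019) (nat_lit 304) (nat_lit 1616725934) (nat_lit 76) (nat_lit 710274718) (nat_lit 83) (nat_lit 5) (nat_lit 87) (nat_lit 5) (nat_lit 84) (nat_lit 5) (nat_lit 475) (nat_lit 357) (nat_lit 308))) (XT.nd (nat_lit 78) (nat_lit 228) (nat_lit 0) (XT.lf (nat_lit 0) (nat_lit 1357091120) (nat_lit 380) (nat_lit 6103141088) (nat_lit 76) (nat_lit 4611178866) (nat_lit 78) (nat_lit 5) (nat_lit 83) (nat_lit 5) (nat_lit 79) (nat_lit 5) (nat_lit 476) (nat_lit 357) (nat_lit 307)) (XT.nd (nat_lit 78) (nat_lit 0) (nat_lit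 0) (XT.lf (nat_lit 0) (nat_lit 1448153978) (nat_lit 228) (nat_lit 3616026815) (nat_lit 304) (nat_lit 7153648491) (nat_lit 75) (nat_lit 5) (nat_lit 78) (nat_lit 5) (nat_lit 79) (nat_lit 5) (nat_lit 477) (nat_lit 357) (nat_lit 306)) (XT.lf (nat_lit 0) (nat_lit 8848945232) (nat_lit 304) (nat_lit 3200334958) (nat_lit 76) (nat_lit 317834617) (nat_lit 75) (nat_lit 5) (nat_lit 79) (nat_lit 5) (nat_lit 76) (nat_lit 5) (nat_lit 478) (nat_lit 357) (nat_lit 305))))) (XT.nd (nat_lit 234) (nat_lit 532) (nat_lit 0) (XT.nd (nat_lit 78) (nat_lit 228) (nat_lit 0) (XT.lf (nat_lit 0) (nat_lit 201825602) (nat_lit 380) (nat_lit 8028742357) (nat_lit 76) (nat_lit 4288516665) (nat_lit 70) (nat_lit 5) (nat_lit 75) (nat_lit 5) (nat_lit 71) (nat_lit 5) (nat_lit 479) (nat_lit 357) (nat_lit 304)) (XT.nd (nat_lit 78) (nat_lit 228) (nat_lit 0) (XT.lf (nat_lit 0) (nat_lit 3931966006) (nat_lit 380) (nat_lit 382655040) (nat_lit 76) (nat_lit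 8359359671) (nat_lit 70) (nat_lit 5) (nat_lit 75) (nat_lit 5) (nat_lit 71) (nat_lit 5) (nat_lit 480) (nat_lit 357) (nat_lit 303)) (XT.lf (nat_lit 0) (nat_lit 7451569181) (nat_lit 228) (nat_lit 295472939) (nat_lit 304) (nat_lit 5084734829) (nat_lit 67) (nat_lit 5) (nat_lit 70) (nat_lit 5) (nat_lit 71) (nat_lit 5) (nat_lit 481) (nat_lit 357) (nat_lit 302)))) (XT.nd (nat_lit 78) (nat_lit 304) (nat_lit 0) (XT.lf (nat_lit 0) (nat_lit 2399028714) (nat_lit 228) (nat_lit 9244387211) (nat_lit 304) (nat_lit 1349221960) (nat_lit 64) (nat_lit 5) (nat_lit 67) (nat_lit 5) (nat_lit 68) (nat_lit 5) (nat_lit 482) (nat_lit 357) (nat_lit 301)) (XT.nd (nat_lit 78) (nat_lit 228) (nat_lit 0) (XT.lf (nat_lit 0) (nat_lit 2429242414) (nat_lit 304) (nat_lit 2830192784) (nat_lit 76) (nat_lit 7896959281) (nat_lit 63) (nat_lit 5) (nat_lit 67) (nat_lit 5) (nat_lit 64) (nat_lit 5) (nat_lit 483) (nat_lit 357) (nat_lit 300)) (XT.lf (nat_lit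 0) (nat_lit 5084669949) (nat_lit 228) (nat_lit 1176528630) (nat_lit 304) (nat_lit 7062137688) (nat_lit 60) (nat_lit 5) (nat_lit 63) (nat_lit 5) (nat_lit 64) (nat_lit 5) (nat_lit 484) (nat_lit 357) (nat_lit 299))))))))
noncomputable def xc41 : XT := (XT.nd (nat_lit 1638) (nat_lit 228) (nat_lit 0) (XT.nd (nat_lit 780) (nat_lit 988) (nat_lit 0) (XT.nd (nat_lit 390) (nat_lit 684) (nat_lit 0) (XT.nd (nat_lit 156) (nat_lit 456) (nat_lit 0) (XT.nd (nat_lit 78) (nat_lit 304) (nat_lit 0) (XT.lf (nat_lit 0) (nat_lit 10171441063) (nat_lit 304) (nat_lit 378320701) (nat_lit 76) (nat_lit 2943830223) (nat_lit 60) (nat_lit 5) (nat_lit 64) (nat_lit 5) (nat_lit 61) (nat_lit 5) (nat_lit 485) (nat_lit 357) (nat_lit 298)) (XT.lf (nat_lit 0) (nat_lit 507760972) (nat_lit 304) (nat_lit 5998659370) (nat_lit 76) (nat_lit 7160344507) (nat_lit 56) (nat_lit 5) (nat_lit 60) (nat_lit 5) (nat_lit 57) (nat_lit 5) (nat_lit 486) (nat_lit 357)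 (nat_lit 297))) (XT.nd (nat_lit 78) (nat_lit 228) (nat_lit 0) (XT.lf (nat_lit 0) (nat_lit 1980566307) (nat_lit 228) (nat_lit 2368602850) (nat_lit 304) (nat_lit 9494212766) (nat_lit 53) (nat_lit 5) (nat_lit 56) (nat_lit 5) (nat_lit 57) (nat_lit 5) (nat_lit 487) (nat_lit 357) (nat_lit 296)) (XT.nd (nat_lit 78) (nat_lit 228) (nat_lit 0) (XT.lf (nat_lit 0) (nat_lit 8284033250) (nat_lit 304) (nat_lit 3895121376) (nat_lit 76) (nat_lit 1844051585) (nat_lit 53) (nat_lit 5) (nat_lit 57) (nat_lit 5) (nat_lit 54) (nat_lit 5) (nat_lit 488) (nat_lit 357) (nat_lit 295)) (XT.lf (nat_lit 0) (nat_lit 4211878002) (nat_lit 228) (nat_lit 8093536073) (nat_lit 304) (nat_lit 1901063802) (nat_lit 50) (nat_lit 5) (nat_lit 53) (nat_lit 5) (nat_lit 54) (nat_lit 5) (nat_lit 489) (nat_lit 357) (nat_lit 294))))) (XT.nd (nat_lit 156) (nat_lit 456) (nat_lit 0) (XT.nd (nat_lit 78) (nat_lit 152) (nat_lit 0) (XT.lf (nat_lit 0) (nat_lit 1978562344)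 (nat_lit 304) (nat_lit 1932007636) (nat_lit 76) (nat_lit 10482767170) (nat_lit 49) (nat_lit 5) (nat_lit 53) (nat_lit 5) (nat_lit 50) (nat_lit 5) (nat_lit 490) (nat_lit 357) (nat_lit 293)) (XT.lf (nat_lit 0) (nat_lit 5919329352) (nat_lit 228) (nat_lit 8282666185) (nat_lit 76) (nat_lit 381513540) (nat_lit 47) (nat_lit 5) (nat_lit 50) (nat_lit 5) (nat_lit 48) (nat_lit 5) (nat_lit 491) (nat_lit 357) (nat_lit 292))) (XT.nd (nat_lit 78) (nat_lit 456) (nat_lit 0) (XT.lf (nat_lit 0) (nat_lit 9943546682) (nat_lit 228) (nat_lit 137332643) (nat_lit 76) (nat_lit 4696519147) (nat_lit 47) (nat_lit 5) (nat_lit 50) (nat_lit 5) (nat_lit 48) (nat_lit 5) (nat_lit 492) (nat_lit 357) (nat_lit 291)) (XT.nd (nat_lit 78) (nat_lit 228) (nat_lit 0) (XT.lf (nat_lit 0) (nat_lit 8221217447) (nat_lit 228) (nat_lit 5846767839) (nat_lit 304) (nat_lit 906792224) (nat_lit 44) (nat_lit 5) (nat_lit 47) (nat_lit 5) (nat_lit 48) (nat_lit 5) (nat_lit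 493) (nat_lit 357) (nat_lit 290)) (XT.lf (nat_lit 0) (nat_lit 1514869501) (nat_lit 152) (nat_lit 1520481558) (nat_lit 228) (nat_lit 12140813339) (nat_lit 41) (nat_lit 5) (nat_lit 43) (nat_lit 5) (nat_lit 44) (nat_lit 5) (nat_lit 494) (nat_lit 357) (nat_lit 289)))))) (XT.nd (nat_lit 390) (nat_lit 532) (nat_lit 0) (XT.nd (nat_lit 156) (nat_lit 228) (nat_lit 0) (XT.nd (nat_lit 78) (nat_lit 228) (nat_lit 0) (XT.lf (nat_lit 0) (nat_lit 7075158062) (nat_lit 228) (nat_lit 5423267993) (nat_lit 76) (nat_lit 2882420049) (nat_lit 41) (nat_lit 5) (nat_lit 44) (nat_lit 5) (nat_lit 42) (nat_lit 5) (nat_lit 495) (nat_lit 357) (nat_lit 288)) (XT.lf (nat_lit 0) (nat_lit 2951567229) (nat_lit 228) (nat_lit 8240635204) (nat_lit 304) (nat_lit 4397496281) (nat_lit 38) (nat_lit 5) (nat_lit 41) (nat_lit 5) (nat_lit 42) (nat_lit 5) (nat_lit 496) (nat_lit 357) (nat_lit 287))) (XT.nd (nat_lit 78) (nat_lit 228) (nat_lit 0) (XT.lf (nat_lit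 0) (nat_lit 11511192165) (nat_lit 228) (nat_lit 3884274744) (nat_lit 304) (nat_lit 407189856) (nat_lit 38) (nat_lit 5) (nat_lit 41) (nat_lit 5) (nat_lit 42) (nat_lit 5) (nat_lit 497) (nat_lit 357) (nat_lit 286)) (XT.nd (nat_lit 78) (nat_lit 0) (nat_lit 0) (XT.lf (nat_lit 0) (nat_lit 3613861442) (nat_lit 228) (nat_lit 11825458829) (nat_lit 76) (nat_lit 580104231) (nat_lit 35) (nat_lit 5) (nat_lit 38) (nat_lit 5) (nat_lit 36) (nat_lit 5) (nat_lit 498) (nat_lit 357) (nat_lit 285)) (XT.lf (nat_lit 0) (nat_lit 7732625135) (nat_lit 228) (nat_lit 3416961768) (nat_lit 76) (nat_lit 5090437617) (nat_lit 35) (nat_lit 5) (nat_lit 38) (nat_lit 5) (nat_lit 36) (nat_lit 5) (nat_lit 499) (nat_lit 357) (nat_lit 284))))) (XT.nd (nat_lit 234) (nat_lit 152) (nat_lit 0) (XT.nd (nat_lit 78) (nat_lit 228) (nat_lit 0) (XT.lf (nat_lit 0) (nat_lit 5172965679) (nat_lit 152) (nat_lit 6763037851) (nat_lit 228) (nat_lit 4528993737) (nat_lit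 33) (nat_lit 5) (nat_lit 35) (nat_lit 5) (nat_lit 36) (nat_lit 5) (nat_lit 500) (nat_lit 357) (nat_lit 283)) (XT.nd (nat_lit 78) (nat_lit 228) (nat_lit 0) (XT.lf (nat_lit 0) (nat_lit 13926784668) (nat_lit 152) (nat_lit 2288510125) (nat_lit 228) (nat_lit 479343181) (nat_lit 33) (nat_lit 5) (nat_lit 35) (nat_lit 5) (nat_lit 36) (nat_lit 5) (nat_lit 501) (nat_lit 357) (nat_lit 282)) (XT.lf (nat_lit 0) (nat_lit 3626252116) (nat_lit 228) (nat_lit 11016019380) (nat_lit 76) (nat_lit 2285674283) (nat_lit 30) (nat_lit 5) (nat_lit 33) (nat_lit 5) (nat_lit 31) (nat_lit 5) (nat_lit 502) (nat_lit 357) (nat_lit 281)))) (XT.nd (nat_lit 78) (nat_lit 152) (nat_lit 0) (XT.lf (nat_lit 0) (nat_lit 7810825542) (nat_lit 228) (nat_lit 2434868424) (nat_lit 76) (nat_lit 6920101810) (nat_lit 30) (nat_lit 5) (nat_lit 33) (nat_lit 5) (nat_lit 31) (nat_lit 5) (nat_lit 503) (nat_lit 357) (nat_lit 280)) (XT.nd (nat_lit 78) (nat_lit 0) (nat_lit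 0) (XT.lf (nat_lit 0) (nat_lit 6348532718) (nat_lit 152) (nat_lit 5741802262) (nat_lit 228) (nat_lit 5317847900) (nat_lit 28) (nat_lit 5) (nat_lit 30) (nat_lit 5) (nat_lit 31) (nat_lit 5) (nat_lit 504) (nat_lit 357) (nat_lit 279)) (XT.lf (nat_lit 0) (nat_lit 15288318468) (nat_lit 152) (nat_lit 1153729287) (nat_lit 228) (nat_lit 1213642609) (nat_lit 28) (nat_lit 5) (nat_lit 30) (nat_lit 5) (nat_lit 31) (nat_lit 5) (nat_lit 505) (nat_lit 357) (nat_lit 278))))))) (XT.nd (nat_lit 53664) (nat_lit 0) (nat_lit 14136) (XT.nd (nat_lit 53274) (nat_lit 0) (nat_lit 19456) (XT.nd (nat_lit 53040) (nat_lit 0) (nat_lit 21888) (XT.nd (nat_lit 52962) (nat_lit 0) (nat_lit 23484) (XT.lf (nat_lit 0) (nat_lit 2969763914) (nat_lit 228) (nat_lit 11417449078) (nat_lit 76) (nat_lit 3519831629) (nat_lit 25) (nat_lit 5) (nat_lit 28) (nat_lit 5) (nat_lit 26) (nat_lit 5) (nat_lit 506) (nat_lit 357) (nat_lit 277)) (XT.lf (nat_lit 0) (nat_lit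 113363141) (nat_lit 836) (nat_lit 1797756234) (nat_lit 836) (nat_lit 1797756234) (nat_lit 334) (nat_lit 4) (nat_lit 345) (nat_lit 5) (nat_lit 345) (nat_lit 4) (nat_lit 424) (nat_lit 358) (nat_lit 358))) (XT.nd (nat_lit 78) (nat_lit 1596) (nat_lit 0) (XT.lf (nat_lit 0) (nat_lit 5666889918) (nat_lit 836) (nat_lit 1651012173) (nat_lit 836) (nat_lit 146111481) (nat_lit 334) (nat_lit 4) (nat_lit 345) (nat_lit 5) (nat_lit 345) (nat_lit 4) (nat_lit 425) (nat_lit 358) (nat_lit 357)) (XT.nd (nat_lit 78) (nat_lit 760) (nat_lit 0) (XT.lf (nat_lit 0) (nat_lit 3289208990) (nat_lit 836) (nat_lit 3855016926) (nat_lit 0) (nat_lit 367352591) (nat_lit 323) (nat_lit 5) (nat_lit 334) (nat_lit 4) (nat_lit 323) (nat_lit 4) (nat_lit 426) (nat_lit 358) (nat_lit 356)) (XT.lf (nat_lit 0) (nat_lit 1620573463) (nat_lit 760) (nat_lit 5140055290) (nat_lit 760) (nat_lit 800097357) (nat_lit 313) (nat_lit 4) (nat_lit 323) (nat_lit 5) (nat_lit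 323) (nat_lit 4) (nat_lit 427) (nat_lit 358) (nat_lit 355))))) (XT.nd (nat_lit 156) (nat_lit 1596) (nat_lit 0) (XT.nd (nat_lit 78) (nat_lit 760) (nat_lit 0) (XT.lf (nat_lit 0) (nat_lit 2617460348) (nat_lit 836) (nat_lit 442983649) (nat_lit 76) (nat_lit 4550856932) (nat_lit 312) (nat_lit 5) (nat_lit 323) (nat_lit 5) (nat_lit 313) (nat_lit 4) (nat_lit 428) (nat_lit 358) (nat_lit 354)) (XT.lf (nat_lit 0) (nat_lit 5154932859) (nat_lit 760) (nat_lit 908543048) (nat_lit 836) (nat_lit 1599924664) (nat_lit 302) (nat_lit 5) (nat_lit 312) (nat_lit 5) (nat_lit 313) (nat_lit 4) (nat_lit 429) (nat_lit 358) (nat_lit 353))) (XT.nd (nat_lit 78) (nat_lit 760) (nat_lit 0) (XT.lf (nat_lit 0) (nat_lit 1806830288) (nat_lit 836) (nat_lit 4614513820) (nat_lit 76) (nat_lit 1295602862) (nat_lit 291) (nat_lit 5) (nat_lit 302) (nat_lit 5) (nat_lit 292) (nat_lit 4) (nat_lit 430) (nat_lit 358) (nat_lit 352)) (XT.nd (nat_lit 78) (nat_lit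 76) (nat_lit 0) (XT.lf (nat_lit 0) (nat_lit 1012254131) (nat_lit 684) (nat_lit 4215955464) (nat_lit 760) (nat_lit 2543818398) (nat_lit 282) (nat_lit 5) (nat_lit 291) (nat_lit 5) (nat_lit 292) (nat_lit 4) (nat_lit 431) (nat_lit 358) (nat_lit 351)) (XT.lf (nat_lit 0) (nat_lit 847969854) (nat_lit 760) (nat_lit 1092459959) (nat_lit 76) (nat_lit 5888300755) (nat_lit 281) (nat_lit 5) (nat_lit 291) (nat_lit 5) (nat_lit 282) (nat_lit 5) (nat_lit 432) (nat_lit 358) (nat_lit 350)))))) (XT.nd (nat_lit 390) (nat_lit 2508) (nat_lit 0) (XT.nd (nat_lit 156) (nat_lit 1444) (nat_lit 0) (XT.nd (nat_lit 78) (nat_lit 684) (nat_lit 0) (XT.lf (nat_lit 0) (nat_lit 4246400444) (nat_lit 760) (nat_lit 3228649097) (nat_lit 76) (nat_lit 411755517) (nat_lit 272) (nat_lit 5) (nat_lit 282) (nat_lit 5) (nat_lit 273) (nat_lit 4) (nat_lit 433) (nat_lit 358) (nat_lit 349)) (XT.lf (nat_lit 0) (nat_lit 2540887384) (nat_lit 684) (nat_lit 5149146924)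 (nat_lit 760) (nat_lit 256492941) (nat_lit 263) (nat_lit 5) (nat_lit 272) (nat_lit 5) (nat_lit 273) (nat_lit 4) (nat_lit 434) (nat_lit 358) (nat_lit 348))) (XT.nd (nat_lit 78) (nat_lit 684) (nat_lit 0) (XT.lf (nat_lit 0) (nat_lit 374008788) (nat_lit 684) (nat_lit 2744210463) (nat_lit 760) (nat_lit 4889538915) (nat_lit 253) (nat_lit 5) (nat_lit 262) (nat_lit 5) (nat_lit 263) (nat_lit 5) (nat_lit 435) (nat_lit 358) (nat_lit 347)) (XT.nd (nat_lit 78) (nat_lit 684) (nat_lit 0) (XT.lf (nat_lit 0) (nat_lit 6268704118) (nat_lit 684) (nat_lit 266035562) (nat_lit 760) (nat_lit 1535914266) (nat_lit 253) (nat_lit 5) (nat_lit 262) (nat_lit 5) (nat_lit 263) (nat_lit 5) (nat_lit 436) (nat_lit 358) (nat_lit 346)) (XT.lf (nat_lit 0) (nat_lit 1843866904) (nat_lit 684) (nat_lit 4033307058) (nat_lit 76) (nat_lit 2257740860) (nat_lit 244) (nat_lit 5) (nat_lit 253) (nat_lit 5) (nat_lit 245) (nat_lit 5) (nat_lit 437) (nat_lit 358)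 (nat_lit 345))))) (XT.nd (nat_lit 234) (nat_lit 1216) (nat_lit 0) (XT.nd (nat_lit 78) (nat_lit 684) (nat_lit 0) (XT.lf (nat_lit 0) (nat_lit 1888101491) (nat_lit 608) (nat_lit 3351590879) (nat_lit 684) (nat_lit 2961212648) (nat_lit 236) (nat_lit 5) (nat_lit 244) (nat_lit 5) (nat_lit 245) (nat_lit 5) (nat_lit 438) (nat_lit 358) (nat_lit 344)) (XT.nd (nat_lit 78) (nat_lit 608) (nat_lit 0) (XT.lf (nat_lit 0) (nat_lit 399814338) (nat_lit 684) (nat_lit 360467869) (nat_lit 76) (nat_lit 7508496615) (nat_lit 235) (nat_lit 5) (nat_lit 244) (nat_lit 5) (nat_lit 236) (nat_lit 5) (nat_lit 439) (nat_lit 358) (nat_lit 343)) (XT.lf (nat_lit 0) (nat_lit 3782099824) (nat_lit 684) (nat_lit 2655507184) (nat_lit 76) (nat_lit 1900163710) (nat_lit 227) (nat_lit 5) (nat_lit 236) (nat_lit 5) (nat_lit 228) (nat_lit 5) (nat_lit 440) (nat_lit 358) (nat_lit 342)))) (XT.nd (nat_lit 78) (nat_lit 608) (nat_lit 0) (XT.lf (nat_lit 0) (nat_lit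 3410780753) (nat_lit 608) (nat_lit 3795577187) (nat_lit 684) (nat_lit 1202323326) (nat_lit 219) (nat_lit 5) (nat_lit 227) (nat_lit 5) (nat_lit 228) (nat_lit 5) (nat_lit 441) (nat_lit 358) (nat_lit 341)) (XT.nd (nat_lit 78) (nat_lit 0) (nat_lit 0) (XT.lf (nat_lit 0) (nat_lit 1081574347) (nat_lit 532) (nat_lit 1077334360) (nat_lit 608) (nat_lit 6322439497) (nat_lit 211) (nat_lit 5) (nat_lit 218) (nat_lit 5) (nat_lit 219) (nat_lit 5) (nat_lit 442) (nat_lit 358) (nat_lit 340)) (XT.lf (nat_lit 0) (nat_lit 5561503139) (nat_lit 608) (nat_lit 1295960981) (nat_lit 76) (nat_lit 1698064566) (nat_lit 211) (nat_lit 5) (nat_lit 219) (nat_lit 5) (nat_lit 212) (nat_lit 5) (nat_lit 443) (nat_lit 358) (nat_lit 339))))))))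
noncomputable def xc42 : XT := (XT.nd (nat_lit 1638) (nat_lit 4104) (nat_lit 0) (XT.nd (nat_lit 780) (nat_lit 3572) (nat_lit 0) (XT.nd (nat_lit 390) (nat_lit 1596) (nat_lit 0) (XT.nd (nat_lit 156) (nat_lit 1064) (nat_lit 0) (XT.nd (nat_lit 78) (nat_lit 532) (nat_lit 0) (XT.lf (nat_lit 0) (nat_lit 381158043) (nat_lit 608) (nat_lit 3717679863) (nat_lit 76) (nat_lit 4532616571) (nat_lit 203) (nat_lit 5) (nat_lit 211) (nat_lit 5) (nat_lit 204) (nat_lit 5) (nat_lit 444) (nat_lit 358) (nat_lit 338)) (XT.lf (nat_lit 0) (nat_lit 2498222966) (nat_lit 532) (nat_lit 1257286054) (nat_lit 608) (nat_lit 4953581391) (nat_lit 196) (nat_lit 5) (nat_lit 203) (nat_lit 5) (nat_lit 204) (nat_lit 5) (nat_lit 445) (nat_lit 358) (nat_lit 337))) (XT.nd (nat_lit 78) (nat_lit 532) (nat_lit 0) (XT.lf (nat_lit 0) (nat_lit 18790928) (nat_lit 532) (nat_lit 7161655684) (nat_lit 608) (nat_lit 1608192531) (nat_lit 189) (nat_lit 5) (nat_lit 196)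 (nat_lit 5) (nat_lit 197) (nat_lit 5) (nat_lit 446) (nat_lit 358) (nat_lit 336)) (XT.nd (nat_lit 78) (nat_lit 456) (nat_lit 0) (XT.lf (nat_lit 0) (nat_lit 1778138774) (nat_lit 608) (nat_lit 2503970181) (nat_lit 76) (nat_lit 4587502924) (nat_lit 188) (nat_lit 5) (nat_lit 196) (nat_lit 5) (nat_lit 189) (nat_lit 5) (nat_lit 447) (nat_lit 358) (nat_lit 335)) (XT.lf (nat_lit 0) (nat_lit 3856624618) (nat_lit 456) (nat_lit 1327544576) (nat_lit 532) (nat_lit 3768372947) (nat_lit 182) (nat_lit 5) (nat_lit 188) (nat_lit 5) (nat_lit 189) (nat_lit 5) (nat_lit 448) (nat_lit 358) (nat_lit 334))))) (XT.nd (nat_lit 156) (nat_lit 988) (nat_lit 0) (XT.nd (nat_lit 78) (nat_lit 76) (nat_lit 0) (XT.lf (nat_lit 0) (nat_lit 1276274927) (nat_lit 532) (nat_lit 7367071726) (nat_lit 608) (nat_lit 394104217) (nat_lit 175) (nat_lit 5) (nat_lit 182) (nat_lit 5) (nat_lit 183) (nat_lit 5) (nat_lit 449) (nat_lit 358) (nat_lit 333)) (XT.lf (nat_lit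 0) (nat_lit 2999962139) (nat_lit 608) (nat_lit 1378404448) (nat_lit 76) (nat_lit 4745469383) (nat_lit 174) (nat_lit 5) (nat_lit 182) (nat_lit 5) (nat_lit 175) (nat_lit 5) (nat_lit 450) (nat_lit 358) (nat_lit 332))) (XT.nd (nat_lit 78) (nat_lit 532) (nat_lit 0) (XT.lf (nat_lit 0) (nat_lit 5126835396) (nat_lit 456) (nat_lit 1313156070) (nat_lit 532) (nat_lit 2772257247) (nat_lit 168) (nat_lit 5) (nat_lit 174) (nat_lit 5) (nat_lit 175) (nat_lit 5) (nat_lit 451) (nat_lit 358) (nat_lit 331)) (XT.nd (nat_lit 78) (nat_lit 0) (nat_lit 0) (XT.lf (nat_lit 0) (nat_lit 625129100) (nat_lit 532) (nat_lit 6878415361) (nat_lit 76) (nat_lit 1799075483) (nat_lit 161) (nat_lit 5) (nat_lit 168) (nat_lit 5) (nat_lit 162) (nat_lit 5) (nat_lit 452) (nat_lit 358) (nat_lit 330)) (XT.lf (nat_lit 0) (nat_lit 4040312157) (nat_lit 532) (nat_lit 372540400) (nat_lit 76) (nat_lit 4981858265) (nat_lit 161) (nat_lit 5) (nat_lit 168) (nat_lit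 5) (nat_lit 162) (nat_lit 5) (nat_lit 453) (nat_lit 358) (nat_lit 329)))))) (XT.nd (nat_lit 390) (nat_lit 1672) (nat_lit 0) (XT.nd (nat_lit 156) (nat_lit 912) (nat_lit 0) (XT.nd (nat_lit 78) (nat_lit 532) (nat_lit 0) (XT.lf (nat_lit 0) (nat_lit 6276706978) (nat_lit 456) (nat_lit 1239453833) (nat_lit 532) (nat_lit 1972653219) (nat_lit 155) (nat_lit 5) (nat_lit 161) (nat_lit 5) (nat_lit 162) (nat_lit 5) (nat_lit 454) (nat_lit 358) (nat_lit 328)) (XT.lf (nat_lit 0) (nat_lit 1447085566) (nat_lit 532) (nat_lit 6152595708) (nat_lit 76) (nat_lit 1985148813) (nat_lit 148) (nat_lit 5) (nat_lit 155) (nat_lit 5) (nat_lit 149) (nat_lit 5) (nat_lit 455) (nat_lit 358) (nat_lit 327))) (XT.nd (nat_lit 78) (nat_lit 532) (nat_lit 0) (XT.lf (nat_lit 0) (nat_lit 485979676) (nat_lit 380) (nat_lit 4408051857) (nat_lit 456) (nat_lit 4788786349) (nat_lit 143) (nat_lit 5) (nat_lit 148) (nat_lit 5) (nat_lit 149) (nat_lit 5) (nat_lit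 456) (nat_lit 358) (nat_lit 326)) (XT.nd (nat_lit 78) (nat_lit 532) (nat_lit 0) (XT.lf (nat_lit 0) (nat_lit 7271537547) (nat_lit 380) (nat_lit 1132295494) (nat_lit 456) (nat_lit 1379070461) (nat_lit 143) (nat_lit 5) (nat_lit 148) (nat_lit 5) (nat_lit 149) (nat_lit 5) (nat_lit 457) (nat_lit 358) (nat_lit 325)) (XT.lf (nat_lit 0) (nat_lit 2066824311) (nat_lit 532) (nat_lit 5617712328) (nat_lit 76) (nat_lit 2200287190) (nat_lit 136) (nat_lit 5) (nat_lit 143) (nat_lit 5) (nat_lit 137) (nat_lit 5) (nat_lit 458) (nat_lit 358) (nat_lit 324))))) (XT.nd (nat_lit 234) (nat_lit 836) (nat_lit 0) (XT.nd (nat_lit 78) (nat_lit 456) (nat_lit 0) (XT.lf (nat_lit 0) (nat_lit 1156358519) (nat_lit 380) (nat_lit 4392369780) (nat_lit 456) (nat_lit 4440176263) (nat_lit 131) (nat_lit 5) (nat_lit 136) (nat_lit 5) (nat_lit 137) (nat_lit 5) (nat_lit 459) (nat_lit 358) (nat_lit 323)) (XT.nd (nat_lit 78) (nat_lit 456) (nat_lit 0) (XT.lf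 (nat_lit 0) (nat_lit 8073693729) (nat_lit 380) (nat_lit 1018310101) (nat_lit 456) (nat_lit 1003243562) (nat_lit 131) (nat_lit 5) (nat_lit 136) (nat_lit 5) (nat_lit 137) (nat_lit 5) (nat_lit 460) (nat_lit 358) (nat_lit 322)) (XT.lf (nat_lit 0) (nat_lit 2471992757) (nat_lit 456) (nat_lit 5313472344) (nat_lit 76) (nat_lit 2417893895) (nat_lit 125) (nat_lit 5) (nat_lit 131) (nat_lit 5) (nat_lit 126) (nat_lit 5) (nat_lit 461) (nat_lit 358) (nat_lit 321)))) (XT.nd (nat_lit 78) (nat_lit 456) (nat_lit 0) (XT.lf (nat_lit 0) (nat_lit 1593045649) (nat_lit 380) (nat_lit 4395942320) (nat_lit 456) (nat_lit 4324812759) (nat_lit 120) (nat_lit 5) (nat_lit 125) (nat_lit 5) (nat_lit 126) (nat_lit 5) (nat_lit 462) (nat_lit 358) (nat_lit 320)) (XT.nd (nat_lit 78) (nat_lit 456) (nat_lit 0) (XT.lf (nat_lit 0) (nat_lit 8642199901) (nat_lit 380) (nat_lit 925157299) (nat_lit 456) (nat_lit 859287409) (nat_lit 120) (nat_lit 5) (nat_lit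 125) (nat_lit 5) (nat_lit 126) (nat_lit 5) (nat_lit 463) (nat_lit 358) (nat_lit 319)) (XT.lf (nat_lit 0) (nat_lit 2647833361) (nat_lit 456) (nat_lit 5283163623) (nat_lit 76) (nat_lit 2610266903) (nat_lit 114) (nat_lit 5) (nat_lit 120) (nat_lit 5) (nat_lit 115) (nat_lit 5) (nat_lit 464) (nat_lit 358) (nat_lit 318))))))) (XT.nd (nat_lit 780) (nat_lit 1748) (nat_lit 0) (XT.nd (nat_lit 390) (nat_lit 1292) (nat_lit 0) (XT.nd (nat_lit 156) (nat_lit 760) (nat_lit 0) (XT.nd (nat_lit 78) (nat_lit 0) (nat_lit 0) (XT.lf (nat_lit 0) (nat_lit 1751733136) (nat_lit 304) (nat_lit 4447657343) (nat_lit 380) (nat_lit 4458968669) (nat_lit 110) (nat_lit 5) (nat_lit 114) (nat_lit 5) (nat_lit 115) (nat_lit 5) (nat_lit 465) (nat_lit 358) (nat_lit 317)) (XT.lf (nat_lit 0) (nat_lit 8932290870) (nat_lit 304) (nat_lit 881800959) (nat_lit 380) (nat_lit 963875153) (nat_lit 110) (nat_lit 5) (nat_lit 114) (nat_lit 5) (nat_lit 115) (nat_lit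 5) (nat_lit 466) (nat_lit 358) (nat_lit 316))) (XT.nd (nat_lit 78) (nat_lit 304) (nat_lit 0) (XT.lf (nat_lit 0) (nat_lit 2576998570) (nat_lit 456) (nat_lit 5574121217) (nat_lit 76) (nat_lit 2748322001) (nat_lit 104) (nat_lit 5) (nat_lit 110) (nat_lit 5) (nat_lit 105) (nat_lit 5) (nat_lit 467) (nat_lit 358) (nat_lit 315)) (XT.nd (nat_lit 78) (nat_lit 0) (nat_lit 0) (XT.lf (nat_lit 0) (nat_lit 1583924357) (nat_lit 304) (nat_lit 4577942034) (nat_lit 380) (nat_lit 4861642802) (nat_lit 100) (nat_lit 5) (nat_lit 104) (nat_lit 5) (nat_lit 105) (nat_lit 5) (nat_lit 468) (nat_lit 358) (nat_lit 314)) (XT.lf (nat_lit 0) (nat_lit 8894923572) (nat_lit 304) (nat_lit 918799752) (nat_lit 380) (nat_lit 1336440731) (nat_lit 100) (nat_lit 5) (nat_lit 104) (nat_lit 5) (nat_lit 105) (nat_lit 5) (nat_lit 469) (nat_lit 358) (nat_lit 313))))) (XT.nd (nat_lit 156) (nat_lit 608) (nat_lit 0) (XT.nd (nat_lit 78) (nat_lit 304) (nat_lit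 0) (XT.lf (nat_lit 0) (nat_lit 2239340762) (nat_lit 380) (nat_lit 6238237041) (nat_lit 76) (nat_lit 2801298201) (nat_lit 95) (nat_lit 5) (nat_lit 100) (nat_lit 5) (nat_lit 96) (nat_lit 5) (nat_lit 470) (nat_lit 358) (nat_lit 312)) (XT.lf (nat_lit 0) (nat_lit 1036408832) (nat_lit 304) (nat_lit 4819069461) (nat_lit 380) (nat_lit 5554783772) (nat_lit 91) (nat_lit 5) (nat_lit 95) (nat_lit 5) (nat_lit 96) (nat_lit 5) (nat_lit 471) (nat_lit 358) (nat_lit 311))) (XT.nd (nat_lit 78) (nat_lit 608) (nat_lit 0) (XT.lf (nat_lit 0) (nat_lit 8476243013) (nat_lit 304) (nat_lit 1068617368) (nat_lit 380) (nat_lit 1999408065) (nat_lit 91) (nat_lit 5) (nat_lit 95) (nat_lit 5) (nat_lit 96) (nat_lit 5) (nat_lit 472) (nat_lit 358) (nat_lit 310)) (XT.nd (nat_lit 78) (nat_lit 228) (nat_lit 0) (XT.lf (nat_lit 0) (nat_lit 1611674985) (nat_lit 380) (nat_lit 7332517786) (nat_lit 76) (nat_lit 2736442726) (nat_lit 86) (nat_lit 5) (nat_lit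 91) (nat_lit 5) (nat_lit 87) (nat_lit 5) (nat_lit 473) (nat_lit 358) (nat_lit 309)) (XT.lf (nat_lit 0) (nat_lit 50687148) (nat_lit 228) (nat_lit 5205487097) (nat_lit 304) (nat_lit 6563542390) (nat_lit 83) (nat_lit 5) (nat_lit 86) (nat_lit 5) (nat_lit 87) (nat_lit 5) (nat_lit 474) (nat_lit 358) (nat_lit 308)))))) (XT.nd (nat_lit 390) (nat_lit 836) (nat_lit 0) (XT.nd (nat_lit 156) (nat_lit 532) (nat_lit 0) (XT.nd (nat_lit 78) (nat_lit 380) (nat_lit 0) (XT.lf (nat_lit 0) (nat_lit 7616997210) (nat_lit 228) (nat_lit 1365955280) (nat_lit 304) (nat_lit 2978449322) (nat_lit 83) (nat_lit 5) (nat_lit 86) (nat_lit 5) (nat_lit 87) (nat_lit 5) (nat_lit 475) (nat_lit 358) (nat_lit 307)) (XT.lf (nat_lit 0) (nat_lit 667512033) (nat_lit 380) (nat_lit 8919696524) (nat_lit 76) (nat_lit 2518672588) (nat_lit 78) (nat_lit 5) (nat_lit 83) (nat_lit 5) (nat_lit 79) (nat_lit 5) (nat_lit 476) (nat_lit 358) (nat_lit 306))) (XT.nd (nat_lit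 78) (nat_lit 532) (nat_lit 0) (XT.lf (nat_lit 0) (nat_lit 4345844920) (nat_lit 380) (nat_lit 1418804526) (nat_lit 76) (nat_lit 6488229802) (nat_lit 78) (nat_lit 5) (nat_lit 83) (nat_lit 5) (nat_lit 79) (nat_lit 5) (nat_lit 477) (nat_lit 358) (nat_lit 305)) (XT.nd (nat_lit 78) (nat_lit 304) (nat_lit 0) (XT.lf (nat_lit 0) (nat_lit 6251895394) (nat_lit 228) (nat_lit 1848111198) (nat_lit 304) (nat_lit 4302774896) (nat_lit 75) (nat_lit 5) (nat_lit 78) (nat_lit 5) (nat_lit 79) (nat_lit 5) (nat_lit 478) (nat_lit 358) (nat_lit 304)) (XT.lf (nat_lit 0) (nat_lit 1482786414) (nat_lit 304) (nat_lit 10441480852) (nat_lit 380) (nat_lit 631523427) (nat_lit 71) (nat_lit 5) (nat_lit 75) (nat_lit 5) (nat_lit 76) (nat_lit 5) (nat_lit 479) (nat_lit 358) (nat_lit 303))))) (XT.nd (nat_lit 234) (nat_lit 532) (nat_lit 0) (XT.nd (nat_lit 78) (nat_lit 228) (nat_lit 0) (XT.lf (nat_lit 0) (nat_lit 3088064061) (nat_lit 380) (nat_lit 3453763976)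 (nat_lit 76) (nat_lit 6169321858) (nat_lit 70) (nat_lit 5) (nat_lit 75) (nat_lit 5) (nat_lit 71) (nat_lit 5) (nat_lit 480) (nat_lit 358) (nat_lit 302)) (XT.nd (nat_lit 78) (nat_lit 0) (nat_lit 0) (XT.lf (nat_lit 0) (nat_lit 4308903141) (nat_lit 228) (nat_lit 2555366625) (nat_lit 304) (nat_lit 6005458077) (nat_lit 67) (nat_lit 5) (nat_lit 70) (nat_lit 5) (nat_lit 71) (nat_lit 5) (nat_lit 481) (nat_lit 358) (nat_lit 301)) (XT.lf (nat_lit 0) (nat_lit 10712018126) (nat_lit 304) (nat_lit 828813388) (nat_lit 76) (nat_lit 1490733997) (nat_lit 67) (nat_lit 5) (nat_lit 71) (nat_lit 5) (nat_lit 68) (nat_lit 5) (nat_lit 482) (nat_lit 358) (nat_lit 300)))) (XT.nd (nat_lit 78) (nat_lit 228) (nat_lit 0) (XT.lf (nat_lit 0) (nat_lit 1447816848) (nat_lit 304) (nat_lit 6132231685) (nat_lit 76) (nat_lit 5615880155) (nat_lit 63) (nat_lit 5) (nat_lit 67) (nat_lit 5) (nat_lit 64) (nat_lit 5) (nat_lit 483) (nat_lit 358) (nat_lit 299))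 (XT.nd (nat_lit 78) (nat_lit 0) (nat_lit 0) (XT.lf (nat_lit 0) (nat_lit 1708467497) (nat_lit 228) (nat_lit 3531407224) (nat_lit 304) (nat_lit 8123797701) (nat_lit 60) (nat_lit 5) (nat_lit 63) (nat_lit 5) (nat_lit 64) (nat_lit 5) (nat_lit 484) (nat_lit 358) (nat_lit 298)) (XT.lf (nat_lit 0) (nat_lit 9116932713) (nat_lit 304) (nat_lit 3809540515) (nat_lit 76) (nat_lit 608122505) (nat_lit 60) (nat_lit 5) (nat_lit 64) (nat_lit 5) (nat_lit 61) (nat_lit 5) (nat_lit 485) (nat_lit 358) (nat_lit 297))))))))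
noncomputable def xc43 : XT := (XT.nd (nat_lit 54366) (nat_lit 0) (nat_lit 14136) (XT.nd (nat_lit 780) (nat_lit 1216) (nat_lit 0) (XT.nd (nat_lit 390) (nat_lit 608) (nat_lit 0) (XT.nd (nat_lit 156) (nat_lit 532) (nat_lit 0) (XT.nd (nat_lit 78) (nat_lit 76) (nat_lit 0) (XT.lf (nat_lit 0) (nat_lit 4164920437) (nat_lit 228) (nat_lit 8921600423) (nat_lit 304) (nat_lit 622124597) (nat_lit 57) (nat_lit 5) (nat_lit 60) (nat_lit 5) (nat_lit 61) (nat_lit 5) (nat_lit 486) (nat_lit 358) (nat_lit 296)) (XT.lf (nat_lit 0) (nat_lit 3197075159) (nat_lit 304) (nat_lit 1615861610) (nat_lit 76) (nat_lit 9073017579) (nat_lit 56) (nat_lit 5) (nat_lit 60) (nat_lit 5) (nat_lit 57) (nat_lit 5) (nat_lit 487) (nat_lit 358) (nat_lit 295))) (XT.nd (nat_lit 78) (nat_lit 304) (nat_lit 0) (XT.lf (nat_lit 0) (nat_lit 6493325088) (nat_lit 228) (nat_lit 598496531) (nat_lit 304) (nat_lit 6974762974) (nat_lit 53) (nat_lit 5) (nat_lit 56) (nat_lit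 5) (nat_lit 57) (nat_lit 5) (nat_lit 488) (nat_lit 358) (nat_lit 294)) (XT.nd (nat_lit 78) (nat_lit 76) (nat_lit 0) (XT.lf (nat_lit 0) (nat_lit 459484922) (nat_lit 228) (nat_lit 10608378306) (nat_lit 304) (nat_lit 3182903348) (nat_lit 50) (nat_lit 5) (nat_lit 53) (nat_lit 5) (nat_lit 54) (nat_lit 5) (nat_lit 489) (nat_lit 358) (nat_lit 293)) (XT.lf (nat_lit 0) (nat_lit 696476907) (nat_lit 304) (nat_lit 5749334108) (nat_lit 76) (nat_lit 7992325831) (nat_lit 49) (nat_lit 5) (nat_lit 53) (nat_lit 5) (nat_lit 50) (nat_lit 5) (nat_lit 490) (nat_lit 358) (nat_lit 292))))) (XT.nd (nat_lit 156) (nat_lit 456) (nat_lit 0) (XT.nd (nat_lit 78) (nat_lit 0) (nat_lit 0) (XT.lf (nat_lit 0) (nat_lit 2406569646) (nat_lit 152) (nat_lit 2186140497) (nat_lit 228) (nat_lit 10036492636) (nat_lit 47) (nat_lit 5) (nat_lit 49) (nat_lit 5) (nat_lit 50) (nat_lit 5) (nat_lit 491) (nat_lit 358) (nat_lit 291)) (XT.lf (nat_lit 0) (nat_lit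 8586079803) (nat_lit 228) (nat_lit 4091577434) (nat_lit 76) (nat_lit 2146055155) (nat_lit 47) (nat_lit 5) (nat_lit 50) (nat_lit 5) (nat_lit 48) (nat_lit 5) (nat_lit 492) (nat_lit 358) (nat_lit 290))) (XT.nd (nat_lit 78) (nat_lit 228) (nat_lit 0) (XT.lf (nat_lit 0) (nat_lit 4186138422) (nat_lit 228) (nat_lit 8481854325) (nat_lit 304) (nat_lit 2353952397) (nat_lit 44) (nat_lit 5) (nat_lit 47) (nat_lit 5) (nat_lit 48) (nat_lit 5) (nat_lit 493) (nat_lit 358) (nat_lit 289)) (XT.nd (nat_lit 78) (nat_lit 152) (nat_lit 0) (XT.lf (nat_lit 0) (nat_lit 1581037669) (nat_lit 304) (nat_lit 2605798488) (nat_lit 76) (nat_lit 11037209530) (nat_lit 43) (nat_lit 5) (nat_lit 47) (nat_lit 5) (nat_lit 44) (nat_lit 5) (nat_lit 494) (nat_lit 358) (nat_lit 288)) (XT.lf (nat_lit 0) (nat_lit 5570042462) (nat_lit 228) (nat_lit 9637380961) (nat_lit 76) (nat_lit 222323031) (nat_lit 41) (nat_lit 5) (nat_lit 44) (nat_lit 5) (nat_lit 42) (nat_lit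 5) (nat_lit 495) (nat_lit 358) (nat_lit 287)))))) (XT.nd (nat_lit 390) (nat_lit 608) (nat_lit 0) (XT.nd (nat_lit 156) (nat_lit 380) (nat_lit 0) (XT.nd (nat_lit 78) (nat_lit 228) (nat_lit 0) (XT.lf (nat_lit 0) (nat_lit 9652008081) (nat_lit 228) (nat_lit 1328723138) (nat_lit 76) (nat_lit 4658572377) (nat_lit 41) (nat_lit 5) (nat_lit 44) (nat_lit 5) (nat_lit 42) (nat_lit 5) (nat_lit 496) (nat_lit 358) (nat_lit 286)) (XT.lf (nat_lit 0) (nat_lit 7185957406) (nat_lit 228) (nat_lit 6644793233) (nat_lit 304) (nat_lit 2022004344) (nat_lit 38) (nat_lit 5) (nat_lit 41) (nat_lit 5) (nat_lit 42) (nat_lit 5) (nat_lit 497) (nat_lit 358) (nat_lit 285))) (XT.nd (nat_lit 78) (nat_lit 304) (nat_lit 0) (XT.lf (nat_lit 0) (nat_lit 1973577619) (nat_lit 304) (nat_lit 249006840) (nat_lit 76) (nat_lit 13848083696) (nat_lit 37) (nat_lit 5) (nat_lit 41) (nat_lit 5) (nat_lit 38) (nat_lit 5) (nat_lit 498) (nat_lit 358) (nat_lit 284)) (XT.nd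 (nat_lit 78) (nat_lit 152) (nat_lit 0) (XT.lf (nat_lit 0) (nat_lit 6060743503) (nat_lit 228) (nat_lit 7927100274) (nat_lit 76) (nat_lit 2304059083) (nat_lit 35) (nat_lit 5) (nat_lit 38) (nat_lit 5) (nat_lit 36) (nat_lit 5) (nat_lit 499) (nat_lit 358) (nat_lit 283)) (XT.lf (nat_lit 0) (nat_lit 576045834) (nat_lit 152) (nat_lit 9643015827) (nat_lit 228) (nat_lit 6298717831) (nat_lit 33) (nat_lit 5) (nat_lit 35) (nat_lit 5) (nat_lit 36) (nat_lit 5) (nat_lit 500) (nat_lit 358) (nat_lit 282))))) (XT.nd (nat_lit 234) (nat_lit 380) (nat_lit 0) (XT.nd (nat_lit 78) (nat_lit 228) (nat_lit 0) (XT.lf (nat_lit 0) (nat_lit 9303547203) (nat_lit 152) (nat_lit 5179719179) (nat_lit 228) (nat_lit 2264458174) (nat_lit 33) (nat_lit 5) (nat_lit 35) (nat_lit 5) (nat_lit 36) (nat_lit 5) (nat_lit 501) (nat_lit 358) (nat_lit 281)) (XT.nd (nat_lit 78) (nat_lit 0) (nat_lit 0) (XT.lf (nat_lit 0) (nat_lit 1174191162) (nat_lit 152) (nat_lit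 629569410) (nat_lit 228) (nat_lit 15178721889) (nat_lit 30) (nat_lit 5) (nat_lit 32) (nat_lit 5) (nat_lit 33) (nat_lit 5) (nat_lit 502) (nat_lit 358) (nat_lit 280)) (XT.lf (nat_lit 0) (nat_lit 5969407632) (nat_lit 228) (nat_lit 7249109681) (nat_lit 76) (nat_lit 4002196144) (nat_lit 30) (nat_lit 5) (nat_lit 33) (nat_lit 5) (nat_lit 31) (nat_lit 5) (nat_lit 503) (nat_lit 358) (nat_lit 279)))) (XT.nd (nat_lit 78) (nat_lit 228) (nat_lit 0) (XT.lf (nat_lit 0) (nat_lit 1444427234) (nat_lit 152) (nat_lit 8758101305) (nat_lit 228) (nat_lit 7261502220) (nat_lit 28) (nat_lit 5) (nat_lit 30) (nat_lit 5) (nat_lit 31) (nat_lit 5) (nat_lit 504) (nat_lit 358) (nat_lit 278)) (XT.nd (nat_lit 78) (nat_lit 228) (nat_lit 0) (XT.lf (nat_lit 0) (nat_lit 10358835048) (nat_lit 152) (nat_lit 4180978921) (nat_lit 228) (nat_lit 3172015198) (nat_lit 28) (nat_lit 5) (nat_lit 30) (nat_lit 5) (nat_lit 31) (nat_lit 5) (nat_lit 505) (nat_lit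 358) (nat_lit 277)) (XT.lf (nat_lit 0) (nat_lit 969926663) (nat_lit 228) (nat_lit 16519159248) (nat_lit 76) (nat_lit 475697082) (nat_lit 25) (nat_lit 5) (nat_lit 28) (nat_lit 5) (nat_lit 26) (nat_lit 5) (nat_lit 506) (nat_lit 358) (nat_lit 276))))))) (XT.nd (nat_lit 780) (nat_lit 5396) (nat_lit 0) (XT.nd (nat_lit 390) (nat_lit 3116) (nat_lit 0) (XT.nd (nat_lit 156) (nat_lit 1672) (nat_lit 0) (XT.nd (nat_lit 78) (nat_lit 912) (nat_lit 0) (XT.lf (nat_lit 0) (nat_lit 2152571032) (nat_lit 912) (nat_lit 755983926) (nat_lit 912) (nat_lit 755983926) (nat_lit 357) (nat_lit 4) (nat_lit 369) (nat_lit 5) (nat_lit 369) (nat_lit 4) (nat_lit 422) (nat_lit 359) (nat_lit 359)) (XT.lf (nat_lit 0) (nat_lit 1899184889) (nat_lit 912) (nat_lit 5109682729) (nat_lit 0) (nat_lit 364186184) (nat_lit 345) (nat_lit 5) (nat_lit 357) (nat_lit 4) (nat_lit 345) (nat_lit 4) (nat_lit 423) (nat_lit 359) (nat_lit 358))) (XT.nd (nat_lit 78) (nat_lit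 836) (nat_lit 0) (XT.lf (nat_lit 0) (nat_lit 190965564) (nat_lit 836) (nat_lit 5133678358) (nat_lit 836) (nat_lit 2093778961) (nat_lit 334) (nat_lit 4) (nat_lit 345) (nat_lit 5) (nat_lit 345) (nat_lit 4) (nat_lit 424) (nat_lit 359) (nat_lit 357)) (XT.nd (nat_lit 78) (nat_lit 760) (nat_lit 0) (XT.lf (nat_lit 0) (nat_lit 1305657586) (nat_lit 912) (nat_lit 1877863907) (nat_lit 76) (nat_lit 4281650437) (nat_lit 333) (nat_lit 5) (nat_lit 345) (nat_lit 5) (nat_lit 334) (nat_lit 4) (nat_lit 425) (nat_lit 359) (nat_lit 356)) (XT.lf (nat_lit 0) (nat_lit 3540979522) (nat_lit 760) (nat_lit 1163344892) (nat_lit 836) (nat_lit 2809106874) (nat_lit 323) (nat_lit 5) (nat_lit 333) (nat_lit 5) (nat_lit 334) (nat_lit 4) (nat_lit 426) (nat_lit 359) (nat_lit 355))))) (XT.nd (nat_lit 156) (nat_lit 2280) (nat_lit 0) (XT.nd (nat_lit 78) (nat_lit 0) (nat_lit 0) (XT.lf (nat_lit 0) (nat_lit 565152769) (nat_lit 836) (nat_lit 6093545650)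 (nat_lit 76) (nat_lit 904618192) (nat_lit 312) (nat_lit 5) (nat_lit 323) (nat_lit 5) (nat_lit 313) (nat_lit 4) (nat_lit 427) (nat_lit 359) (nat_lit 354)) (XT.lf (nat_lit 0) (nat_lit 3941197621) (nat_lit 836) (nat_lit 636969970) (nat_lit 76) (nat_lit 3036257906) (nat_lit 312) (nat_lit 5) (nat_lit 323) (nat_lit 5) (nat_lit 313) (nat_lit 4) (nat_lit 428) (nat_lit 359) (nat_lit 353))) (XT.nd (nat_lit 78) (nat_lit 1520) (nat_lit 0) (XT.lf (nat_lit 0) (nat_lit 4923202890) (nat_lit 760) (nat_lit 2432094537) (nat_lit 836) (nat_lit 311883258) (nat_lit 302) (nat_lit 5) (nat_lit 312) (nat_lit 5) (nat_lit 313) (nat_lit 4) (nat_lit 429) (nat_lit 359) (nat_lit 352)) (XT.nd (nat_lit 78) (nat_lit 684) (nat_lit 0) (XT.lf (nat_lit 0) (nat_lit 2828654977) (nat_lit 760) (nat_lit 208711766) (nat_lit 836) (nat_lit 4684021886) (nat_lit 291) (nat_lit 5) (nat_lit 301) (nat_lit 5) (nat_lit 302) (nat_lit 5) (nat_lit 430) (nat_lit 359)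 (nat_lit 351)) (XT.lf (nat_lit 0) (nat_lit 695993443) (nat_lit 684) (nat_lit 5729426907) (nat_lit 760) (nat_lit 1351732052) (nat_lit 282) (nat_lit 5) (nat_lit 291) (nat_lit 5) (nat_lit 292) (nat_lit 4) (nat_lit 431) (nat_lit 359) (nat_lit 350)))))) (XT.nd (nat_lit 390) (nat_lit 3192) (nat_lit 0) (XT.nd (nat_lit 156) (nat_lit 1444) (nat_lit 0) (XT.nd (nat_lit 78) (nat_lit 684) (nat_lit 0) (XT.lf (nat_lit 0) (nat_lit 1994652350) (nat_lit 760) (nat_lit 1457012335) (nat_lit 76) (nat_lit 4382646490) (nat_lit 281) (nat_lit 5) (nat_lit 291) (nat_lit 5) (nat_lit 282) (nat_lit 5) (nat_lit 432) (nat_lit 359) (nat_lit 349)) (XT.lf (nat_lit 0) (nat_lit 4256327584) (nat_lit 684) (nat_lit 1102233852) (nat_lit 760) (nat_lit 2534529959) (nat_lit 272) (nat_lit 5) (nat_lit 281) (nat_lit 5) (nat_lit 282) (nat_lit 5) (nat_lit 433) (nat_lit 359) (nat_lit 348))) (XT.nd (nat_lit 78) (nat_lit 684) (nat_lit 0) (XT.lf (nat_lit 0) (nat_lit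 799070277) (nat_lit 760) (nat_lit 5859788212) (nat_lit 76) (nat_lit 1294642941) (nat_lit 262) (nat_lit 5) (nat_lit 272) (nat_lit 5) (nat_lit 263) (nat_lit 5) (nat_lit 434) (nat_lit 359) (nat_lit 347)) (XT.nd (nat_lit 78) (nat_lit 684) (nat_lit 0) (XT.lf (nat_lit 0) (nat_lit 4139252498) (nat_lit 760) (nat_lit 121935004) (nat_lit 76) (nat_lit 3754149276) (nat_lit 262) (nat_lit 5) (nat_lit 272) (nat_lit 5) (nat_lit 263) (nat_lit 5) (nat_lit 435) (nat_lit 359) (nat_lit 346)) (XT.lf (nat_lit 0) (nat_lit 5736146685) (nat_lit 684) (nat_lit 1790422615) (nat_lit 760) (nat_lit 552261464) (nat_lit 253) (nat_lit 5) (nat_lit 262) (nat_lit 5) (nat_lit 263) (nat_lit 5) (nat_lit 436) (nat_lit 359) (nat_lit 345))))) (XT.nd (nat_lit 234) (nat_lit 1824) (nat_lit 0) (XT.nd (nat_lit 78) (nat_lit 684) (nat_lit 0) (XT.lf (nat_lit 0) (nat_lit 2772825023) (nat_lit 684) (nat_lit 4621629656) (nat_lit 76) (nat_lit 749358694) (nat_lit 244)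 (nat_lit 5) (nat_lit 253) (nat_lit 5) (nat_lit 245) (nat_lit 5) (nat_lit 437) (nat_lit 359) (nat_lit 344)) (XT.nd (nat_lit 78) (nat_lit 76) (nat_lit 0) (XT.lf (nat_lit 0) (nat_lit 1256506518) (nat_lit 608) (nat_lit 4880282899) (nat_lit 684) (nat_lit 2073664694) (nat_lit 236) (nat_lit 5) (nat_lit 244) (nat_lit 5) (nat_lit 245) (nat_lit 5) (nat_lit 438) (nat_lit 359) (nat_lit 343)) (XT.lf (nat_lit 0) (nat_lit 1248085626) (nat_lit 684) (nat_lit 1042513261) (nat_lit 76) (nat_lit 5988179304) (nat_lit 235) (nat_lit 5) (nat_lit 244) (nat_lit 5) (nat_lit 236) (nat_lit 5) (nat_lit 439) (nat_lit 359) (nat_lit 342)))) (XT.nd (nat_lit 78) (nat_lit 1216) (nat_lit 0) (XT.lf (nat_lit 0) (nat_lit 4588548098) (nat_lit 684) (nat_lit 3382157481) (nat_lit 76) (nat_lit 377913519) (nat_lit 227) (nat_lit 5) (nat_lit 236) (nat_lit 5) (nat_lit 228) (nat_lit 5) (nat_lit 440) (nat_lit 359) (nat_lit 341)) (XT.nd (nat_lit 78) (nat_lit 608)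 (nat_lit 0) (XT.lf (nat_lit 0) (nat_lit 2639289348) (nat_lit 608) (nat_lit 5341674179) (nat_lit 684) (nat_lit 439215279) (nat_lit 219) (nat_lit 5) (nat_lit 227) (nat_lit 5) (nat_lit 228) (nat_lit 5) (nat_lit 441) (nat_lit 359) (nat_lit 340)) (XT.lf (nat_lit 0) (nat_lit 247834826) (nat_lit 532) (nat_lit 2632041364) (nat_lit 608) (nat_lit 5613524933) (nat_lit 211) (nat_lit 5) (nat_lit 218) (nat_lit 5) (nat_lit 219) (nat_lit 5) (nat_lit 442) (nat_lit 359) (nat_lit 339))))))))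
noncomputable def xc44 : XT := (XT.nd (nat_lit 1560) (nat_lit 4712) (nat_lit 0) (XT.nd (nat_lit 780) (nat_lit 2736) (nat_lit 0) (XT.nd (nat_lit 390) (nat_lit 2052) (nat_lit 0) (XT.nd (nat_lit 156) (nat_lit 1140) (nat_lit 0) (XT.nd (nat_lit 78) (nat_lit 608) (nat_lit 0) (XT.lf (nat_lit 0) (nat_lit 6245903091) (nat_lit 608) (nat_lit 2166777889) (nat_lit 76) (nat_lit 155643573) (nat_lit 211) (nat_lit 5) (nat_lit 219) (nat_lit 5) (nat_lit 212) (nat_lit 5) (nat_lit 443) (nat_lit 359) (nat_lit 338)) (XT.lf (nat_lit 0) (nat_lit 1011821549) (nat_lit 608) (nat_lit 4652551614) (nat_lit 76) (nat_lit 2980443762) (nat_lit 203) (nat_lit 5) (nat_lit 211) (nat_lit 5) (nat_lit 204) (nat_lit 5) (nat_lit 444) (nat_lit 359) (nat_lit 337))) (XT.nd (nat_lit 78) (nat_lit 608) (nat_lit 0) (XT.lf (nat_lit 0) (nat_lit 1515910025) (nat_lit 532) (nat_lit 2838036270) (nat_lit 608) (nat_lit 4369162014) (nat_lit 196) (nat_lit 5) (nat_lit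 203) (nat_lit 5) (nat_lit 204) (nat_lit 5) (nat_lit 445) (nat_lit 359) (nat_lit 336)) (XT.nd (nat_lit 78) (nat_lit 608) (nat_lit 0) (XT.lf (nat_lit 0) (nat_lit 7742877220) (nat_lit 608) (nat_lit 1002318788) (nat_lit 76) (nat_lit 58191880) (nat_lit 196) (nat_lit 5) (nat_lit 204) (nat_lit 5) (nat_lit 197) (nat_lit 5) (nat_lit 446) (nat_lit 359) (nat_lit 335)) (XT.lf (nat_lit 0) (nat_lit 2286478181) (nat_lit 608) (nat_lit 3591709316) (nat_lit 76) (nat_lit 3006755494) (nat_lit 188) (nat_lit 5) (nat_lit 196) (nat_lit 5) (nat_lit 189) (nat_lit 5) (nat_lit 447) (nat_lit 359) (nat_lit 334))))) (XT.nd (nat_lit 156) (nat_lit 988) (nat_lit 0) (XT.nd (nat_lit 78) (nat_lit 608) (nat_lit 0) (XT.lf (nat_lit 0) (nat_lit 2719743458) (nat_lit 456) (nat_lit 2940362543) (nat_lit 532) (nat_lit 3308425399) (nat_lit 182) (nat_lit 5) (nat_lit 188) (nat_lit 5) (nat_lit 189) (nat_lit 5) (nat_lit 448) (nat_lit 359) (nat_lit 333)) (XT.lf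 (nat_lit 0) (nat_lit 21659677) (nat_lit 608) (nat_lit 8970668009) (nat_lit 76) (nat_lit 61979997) (nat_lit 174) (nat_lit 5) (nat_lit 182) (nat_lit 5) (nat_lit 175) (nat_lit 5) (nat_lit 449) (nat_lit 359) (nat_lit 332))) (XT.nd (nat_lit 78) (nat_lit 988) (nat_lit 0) (XT.lf (nat_lit 0) (nat_lit 3385837955) (nat_lit 608) (nat_lit 2625017916) (nat_lit 76) (nat_lit 3130289635) (nat_lit 174) (nat_lit 5) (nat_lit 182) (nat_lit 5) (nat_lit 175) (nat_lit 5) (nat_lit 450) (nat_lit 359) (nat_lit 331)) (XT.nd (nat_lit 78) (nat_lit 532) (nat_lit 0) (XT.lf (nat_lit 0) (nat_lit 3829319861) (nat_lit 456) (nat_lit 2963888451) (nat_lit 532) (nat_lit 2437012442) (nat_lit 168) (nat_lit 5) (nat_lit 174) (nat_lit 5) (nat_lit 175) (nat_lit 5) (nat_lit 451) (nat_lit 359) (nat_lit 330)) (XT.lf (nat_lit 0) (nat_lit 912112759) (nat_lit 532) (nat_lit 8255806392) (nat_lit 76) (nat_lit 153515552) (nat_lit 161) (nat_lit 5) (nat_lit 168) (nat_lit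 5) (nat_lit 162) (nat_lit 5) (nat_lit 452) (nat_lit 359) (nat_lit 329)))))) (XT.nd (nat_lit 390) (nat_lit 1368) (nat_lit 0) (XT.nd (nat_lit 156) (nat_lit 912) (nat_lit 0) (XT.nd (nat_lit 78) (nat_lit 456) (nat_lit 0) (XT.lf (nat_lit 0) (nat_lit 4303340069) (nat_lit 532) (nat_lit 1784122135) (nat_lit 76) (nat_lit 3326551279) (nat_lit 161) (nat_lit 5) (nat_lit 168) (nat_lit 5) (nat_lit 162) (nat_lit 5) (nat_lit 453) (nat_lit 359) (nat_lit 328)) (XT.lf (nat_lit 0) (nat_lit 4812400300) (nat_lit 456) (nat_lit 2933795147) (nat_lit 532) (nat_lit 1762589725) (nat_lit 155) (nat_lit 5) (nat_lit 161) (nat_lit 5) (nat_lit 162) (nat_lit 5) (nat_lit 454) (nat_lit 359) (nat_lit 327))) (XT.nd (nat_lit 78) (nat_lit 380) (nat_lit 0) (XT.lf (nat_lit 0) (nat_lit 1609870656) (nat_lit 532) (nat_lit 7701542510) (nat_lit 76) (nat_lit 294259534) (nat_lit 148) (nat_lit 5) (nat_lit 155) (nat_lit 5) (nat_lit 149) (nat_lit 5) (nat_lit 455)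 (nat_lit 359) (nat_lit 326)) (XT.nd (nat_lit 78) (nat_lit 380) (nat_lit 0) (XT.lf (nat_lit 0) (nat_lit 5030432948) (nat_lit 532) (nat_lit 1103143632) (nat_lit 76) (nat_lit 3570619708) (nat_lit 148) (nat_lit 5) (nat_lit 155) (nat_lit 5) (nat_lit 149) (nat_lit 5) (nat_lit 456) (nat_lit 359) (nat_lit 325)) (XT.lf (nat_lit 0) (nat_lit 5634173629) (nat_lit 380) (nat_lit 2875812361) (nat_lit 456) (nat_lit 1294908845) (nat_lit 143) (nat_lit 5) (nat_lit 148) (nat_lit 5) (nat_lit 149) (nat_lit 5) (nat_lit 457) (nat_lit 359) (nat_lit 324))))) (XT.nd (nat_lit 156) (nat_lit 836) (nat_lit 0) (XT.nd (nat_lit 78) (nat_lit 0) (nat_lit 0) (XT.lf (nat_lit 0) (nat_lit 2104587376) (nat_lit 532) (nat_lit 7344552278) (nat_lit 76) (nat_lit 458578126) (nat_lit 136) (nat_lit 5) (nat_lit 143) (nat_lit 5) (nat_lit 137) (nat_lit 5) (nat_lit 458) (nat_lit 359) (nat_lit 323)) (XT.lf (nat_lit 0) (nat_lit 5556448635) (nat_lit 532) (nat_lit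 619048262) (nat_lit 76) (nat_lit 3836909971) (nat_lit 136) (nat_lit 5) (nat_lit 143) (nat_lit 5) (nat_lit 137) (nat_lit 5) (nat_lit 459) (nat_lit 359) (nat_lit 322))) (XT.nd (nat_lit 78) (nat_lit 456) (nat_lit 0) (XT.lf (nat_lit 0) (nat_lit 6256878882) (nat_lit 380) (nat_lit 2816464139) (nat_lit 456) (nat_lit 1045941652) (nat_lit 131) (nat_lit 5) (nat_lit 136) (nat_lit 5) (nat_lit 137) (nat_lit 5) (nat_lit 460) (nat_lit 359) (nat_lit 321)) (XT.nd (nat_lit 78) (nat_lit 0) (nat_lit 0) (XT.lf (nat_lit 0) (nat_lit 2383678197) (nat_lit 456) (nat_lit 7224682604) (nat_lit 76) (nat_lit 619971618) (nat_lit 125) (nat_lit 5) (nat_lit 131) (nat_lit 5) (nat_lit 126) (nat_lit 5) (nat_lit 461) (nat_lit 359) (nat_lit 320)) (XT.lf (nat_lit 0) (nat_lit 5868457181) (nat_lit 456) (nat_lit 372044861) (nat_lit 76) (nat_lit 4098923361) (nat_lit 125) (nat_lit 5) (nat_lit 131) (nat_lit 5) (nat_lit 126) (nat_lit 5) (nat_lit 462) (nat_lit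 359) (nat_lit 319))))))) (XT.nd (nat_lit 780) (nat_lit 2128) (nat_lit 0) (XT.nd (nat_lit 390) (nat_lit 988) (nat_lit 0) (XT.nd (nat_lit 156) (nat_lit 760) (nat_lit 0) (XT.nd (nat_lit 78) (nat_lit 456) (nat_lit 0) (XT.lf (nat_lit 0) (nat_lit 6639394959) (nat_lit 380) (nat_lit 2783326791) (nat_lit 456) (nat_lit 1030036422) (nat_lit 120) (nat_lit 5) (nat_lit 125) (nat_lit 5) (nat_lit 126) (nat_lit 5) (nat_lit 463) (nat_lit 359) (nat_lit 318)) (XT.lf (nat_lit 0) (nat_lit 2432156839) (nat_lit 456) (nat_lit 7385378804) (nat_lit 76) (nat_lit 750813847) (nat_lit 114) (nat_lit 5) (nat_lit 120) (nat_lit 5) (nat_lit 115) (nat_lit 5) (nat_lit 464) (nat_lit 359) (nat_lit 317))) (XT.nd (nat_lit 78) (nat_lit 760) (nat_lit 0) (XT.lf (nat_lit 0) (nat_lit 5951099469) (nat_lit 456) (nat_lit 406019451) (nat_lit 76) (nat_lit 4328984522) (nat_lit 114) (nat_lit 5) (nat_lit 120) (nat_lit 5) (nat_lit 115) (nat_lit 5) (nat_lit 465) (nat_lit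 359) (nat_lit 316)) (XT.nd (nat_lit 78) (nat_lit 456) (nat_lit 0) (XT.lf (nat_lit 0) (nat_lit 6736793615) (nat_lit 304) (nat_lit 2805301407) (nat_lit 380) (nat_lit 1264096645) (nat_lit 110) (nat_lit 5) (nat_lit 114) (nat_lit 5) (nat_lit 115) (nat_lit 5) (nat_lit 466) (nat_lit 359) (nat_lit 315)) (XT.lf (nat_lit 0) (nat_lit 2232449625) (nat_lit 456) (nat_lit 7874150781) (nat_lit 76) (nat_lit 822076382) (nat_lit 104) (nat_lit 5) (nat_lit 110) (nat_lit 5) (nat_lit 105) (nat_lit 5) (nat_lit 467) (nat_lit 359) (nat_lit 314))))) (XT.nd (nat_lit 156) (nat_lit 684) (nat_lit 0) (XT.nd (nat_lit 78) (nat_lit 304) (nat_lit 0) (XT.lf (nat_lit 0) (nat_lit 5786396660) (nat_lit 456) (nat_lit 769009065) (nat_lit 76) (nat_lit 4497962798) (nat_lit 104) (nat_lit 5) (nat_lit 110) (nat_lit 5) (nat_lit 105) (nat_lit 5) (nat_lit 468) (nat_lit 359) (nat_lit 313)) (XT.lf (nat_lit 0) (nat_lit 6499851404) (nat_lit 304) (nat_lit 2912903428)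 (nat_lit 380) (nat_lit 1767784327) (nat_lit 100) (nat_lit 5) (nat_lit 104) (nat_lit 5) (nat_lit 105) (nat_lit 5) (nat_lit 469) (nat_lit 359) (nat_lit 312))) (XT.nd (nat_lit 78) (nat_lit 304) (nat_lit 0) (XT.lf (nat_lit 0) (nat_lit 1764184669) (nat_lit 380) (nat_lit 8743082506) (nat_lit 76) (nat_lit 803034910) (nat_lit 95) (nat_lit 5) (nat_lit 100) (nat_lit 5) (nat_lit 96) (nat_lit 5) (nat_lit 470) (nat_lit 359) (nat_lit 311)) (XT.nd (nat_lit 78) (nat_lit 304) (nat_lit 0) (XT.lf (nat_lit 0) (nat_lit 5353534287) (nat_lit 380) (nat_lit 1513719831) (nat_lit 76) (nat_lit 4574975249) (nat_lit 95) (nat_lit 5) (nat_lit 100) (nat_lit 5) (nat_lit 96) (nat_lit 5) (nat_lit 471) (nat_lit 359) (nat_lit 310)) (XT.lf (nat_lit 0) (nat_lit 5874515789) (nat_lit 304) (nat_lit 3138571952) (nat_lit 380) (nat_lit 2563749936) (nat_lit 91) (nat_lit 5) (nat_lit 95) (nat_lit 5) (nat_lit 96) (nat_lit 5) (nat_lit 472) (nat_lit 359) (nat_lit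 309)))))) (XT.nd (nat_lit 390) (nat_lit 1140) (nat_lit 0) (XT.nd (nat_lit 156) (nat_lit 608) (nat_lit 0) (XT.nd (nat_lit 78) (nat_lit 0) (nat_lit 0) (XT.lf (nat_lit 0) (nat_lit 1003953902) (nat_lit 380) (nat_lit 10049389789) (nat_lit 76) (nat_lit 660955081) (nat_lit 86) (nat_lit 5) (nat_lit 91) (nat_lit 5) (nat_lit 87) (nat_lit 5) (nat_lit 473) (nat_lit 359) (nat_lit 308)) (XT.lf (nat_lit 0) (nat_lit 4628618707) (nat_lit 380) (nat_lit 2698094389) (nat_lit 76) (nat_lit 4527068550) (nat_lit 86) (nat_lit 5) (nat_lit 91) (nat_lit 5) (nat_lit 87) (nat_lit 5) (nat_lit 474) (nat_lit 359) (nat_lit 307))) (XT.nd (nat_lit 78) (nat_lit 380) (nat_lit 0) (XT.lf (nat_lit 0) (nat_lit 4801320211) (nat_lit 228) (nat_lit 3517001690) (nat_lit 304) (nat_lit 3677891371) (nat_lit 83) (nat_lit 5) (nat_lit 86) (nat_lit 5) (nat_lit 87) (nat_lit 5) (nat_lit 475) (nat_lit 359) (nat_lit 306)) (XT.nd (nat_lit 78) (nat_lit 76) (nat_lit 0)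 (XT.lf (nat_lit 0) (nat_lit 285297347) (nat_lit 304) (nat_lit 11780574283) (nat_lit 380) (nat_lit 75950651) (nat_lit 79) (nat_lit 5) (nat_lit 83) (nat_lit 5) (nat_lit 84) (nat_lit 5) (nat_lit 476) (nat_lit 359) (nat_lit 305)) (XT.lf (nat_lit 0) (nat_lit 3584403428) (nat_lit 380) (nat_lit 4385934196) (nat_lit 76) (nat_lit 4318876783) (nat_lit 78) (nat_lit 5) (nat_lit 83) (nat_lit 5) (nat_lit 79) (nat_lit 5) (nat_lit 477) (nat_lit 359) (nat_lit 304))))) (XT.nd (nat_lit 234) (nat_lit 532) (nat_lit 0) (XT.nd (nat_lit 78) (nat_lit 380) (nat_lit 0) (XT.lf (nat_lit 0) (nat_lit 3214742345) (nat_lit 228) (nat_lit 4085500687) (nat_lit 304) (nat_lit 5139644629) (nat_lit 75) (nat_lit 5) (nat_lit 78) (nat_lit 5) (nat_lit 79) (nat_lit 5) (nat_lit 478) (nat_lit 359) (nat_lit 303)) (XT.nd (nat_lit 78) (nat_lit 380) (nat_lit 0) (XT.lf (nat_lit 0) (nat_lit 10966301175) (nat_lit 228) (nat_lit 116295882) (nat_lit 304) (nat_lit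 1511142424) (nat_lit 75) (nat_lit 5) (nat_lit 78) (nat_lit 5) (nat_lit 79) (nat_lit 5) (nat_lit 479) (nat_lit 359) (nat_lit 302)) (XT.lf (nat_lit 0) (nat_lit 2189982481) (nat_lit 380) (nat_lit 6647582848) (nat_lit 76) (nat_lit 3912251861) (nat_lit 70) (nat_lit 5) (nat_lit 75) (nat_lit 5) (nat_lit 71) (nat_lit 5) (nat_lit 480) (nat_lit 359) (nat_lit 301)))) (XT.nd (nat_lit 78) (nat_lit 304) (nat_lit 0) (XT.lf (nat_lit 0) (nat_lit 1042499232) (nat_lit 228) (nat_lit 4884377238) (nat_lit 304) (nat_lit 6982309126) (nat_lit 67) (nat_lit 5) (nat_lit 70) (nat_lit 5) (nat_lit 71) (nat_lit 5) (nat_lit 481) (nat_lit 359) (nat_lit 300)) (XT.nd (nat_lit 78) (nat_lit 304) (nat_lit 0) (XT.lf (nat_lit 0) (nat_lit 8916801957) (nat_lit 228) (nat_lit 830074481) (nat_lit 304) (nat_lit 3324705934) (nat_lit 67) (nat_lit 5) (nat_lit 70) (nat_lit 5) (nat_lit 71) (nat_lit 5) (nat_lit 482) (nat_lit 359) (nat_lit 299)) (XT.lf (nat_lit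 0) (nat_lit 410447720) (nat_lit 304) (nat_lit 9560677144) (nat_lit 76) (nat_lit 3265863057) (nat_lit 63) (nat_lit 5) (nat_lit 67) (nat_lit 5) (nat_lit 64) (nat_lit 5) (nat_lit 483) (nat_lit 359) (nat_lit 298))))))))
noncomputable def xc45 : XT := (XT.nd (nat_lit 1638) (nat_lit 152) (nat_lit 0) (XT.nd (nat_lit 780) (nat_lit 1064) (nat_lit 0) (XT.nd (nat_lit 390) (nat_lit 684) (nat_lit 0) (XT.nd (nat_lit 156) (nat_lit 532) (nat_lit 0) (XT.nd (nat_lit 78) (nat_lit 228) (nat_lit 0) (XT.lf (nat_lit 0) (nat_lit 4173787846) (nat_lit 304) (nat_lit 1771682908) (nat_lit 76) (nat_lit 7459839158) (nat_lit 63) (nat_lit 5) (nat_lit 67) (nat_lit 5) (nat_lit 64) (nat_lit 5) (nat_lit 484) (nat_lit 359) (nat_lit 297)) (XT.lf (nat_lit 0) (nat_lit 6196335564) (nat_lit 228) (nat_lit 1821385038) (nat_lit 304) (nat_lit 5559178951) (nat_lit 60) (nat_lit 5) (nat_lit 63) (nat_lit 5) (nat_lit 64) (nat_lit 5) (nat_lit 485) (nat_lit 359)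 (nat_lit 296))) (XT.nd (nat_lit 78) (nat_lit 304) (nat_lit 0) (XT.lf (nat_lit 0) (nat_lit 529233064) (nat_lit 228) (nat_lit 11405444581) (nat_lit 304) (nat_lit 1817328004) (nat_lit 57) (nat_lit 5) (nat_lit 60) (nat_lit 5) (nat_lit 61) (nat_lit 5) (nat_lit 486) (nat_lit 359) (nat_lit 295)) (XT.nd (nat_lit 78) (nat_lit 228) (nat_lit 0) (XT.lf (nat_lit 0) (nat_lit 2000381810) (nat_lit 304) (nat_lit 5315998169) (nat_lit 76) (nat_lit 6613436671) (nat_lit 56) (nat_lit 5) (nat_lit 60) (nat_lit 5) (nat_lit 57) (nat_lit 5) (nat_lit 487) (nat_lit 359) (nat_lit 294)) (XT.lf (nat_lit 0) (nat_lit 2715356409) (nat_lit 228) (nat_lit 3138414106) (nat_lit 304) (nat_lit 8257507069) (nat_lit 53) (nat_lit 5) (nat_lit 56) (nat_lit 5) (nat_lit 57) (nat_lit 5) (nat_lit 488) (nat_lit 359) (nat_lit 293))))) (XT.nd (nat_lit 156) (nat_lit 456) (nat_lit 0) (XT.nd (nat_lit 78) (nat_lit 228) (nat_lit 0) (XT.lf (nat_lit 0) (nat_lit 9793582766)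 (nat_lit 304) (nat_lit 3381072417) (nat_lit 76) (nat_lit 1121532438) (nat_lit 53) (nat_lit 5) (nat_lit 57) (nat_lit 5) (nat_lit 54) (nat_lit 5) (nat_lit 489) (nat_lit 359) (nat_lit 292)) (XT.lf (nat_lit 0) (nat_lit 4779812762) (nat_lit 228) (nat_lit 9051014448) (nat_lit 304) (nat_lit 653602790) (nat_lit 50) (nat_lit 5) (nat_lit 53) (nat_lit 5) (nat_lit 54) (nat_lit 5) (nat_lit 490) (nat_lit 359) (nat_lit 291))) (XT.nd (nat_lit 78) (nat_lit 380) (nat_lit 0) (XT.lf (nat_lit 0) (nat_lit 3219182432) (nat_lit 304) (nat_lit 1603874866) (nat_lit 76) (nat_lit 9853167174) (nat_lit 49) (nat_lit 5) (nat_lit 53) (nat_lit 5) (nat_lit 50) (nat_lit 5) (nat_lit 491) (nat_lit 359) (nat_lit 290)) (XT.nd (nat_lit 78) (nat_lit 228) (nat_lit 0) (XT.lf (nat_lit 0) (nat_lit 6687117713) (nat_lit 152) (nat_lit 484510590) (nat_lit 228) (nat_lit 7699927458) (nat_lit 47) (nat_lit 5) (nat_lit 49) (nat_lit 5) (nat_lit 50) (nat_lit 5) (nat_lit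 492) (nat_lit 359) (nat_lit 289)) (XT.lf (nat_lit 0) (nat_lit 14343606) (nat_lit 228) (nat_lit 11192958709) (nat_lit 304) (nat_lit 3863414115) (nat_lit 44) (nat_lit 5) (nat_lit 47) (nat_lit 5) (nat_lit 48) (nat_lit 5) (nat_lit 493) (nat_lit 359) (nat_lit 288)))))) (XT.nd (nat_lit 390) (nat_lit 532) (nat_lit 0) (XT.nd (nat_lit 156) (nat_lit 304) (nat_lit 0) (XT.nd (nat_lit 78) (nat_lit 152) (nat_lit 0) (XT.lf (nat_lit 0) (nat_lit 75394925) (nat_lit 304) (nat_lit 6843965602) (nat_lit 76) (nat_lit 8353975029) (nat_lit 43) (nat_lit 5) (nat_lit 47) (nat_lit 5) (nat_lit 44) (nat_lit 5) (nat_lit 494) (nat_lit 359) (nat_lit 287)) (XT.lf (nat_lit 0) (nat_lit 1472146107) (nat_lit 152) (nat_lit 2547066946) (nat_lit 228) (nat_lit 11460729960) (nat_lit 41) (nat_lit 5) (nat_lit 43) (nat_lit 5) (nat_lit 44) (nat_lit 5) (nat_lit 495) (nat_lit 359) (nat_lit 286))) (XT.nd (nat_lit 78) (nat_lit 304) (nat_lit 0) (XT.lf (nat_lit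 0) (nat_lit 8069038269) (nat_lit 228) (nat_lit 5709530330) (nat_lit 76) (nat_lit 1911577263) (nat_lit 41) (nat_lit 5) (nat_lit 44) (nat_lit 5) (nat_lit 42) (nat_lit 5) (nat_lit 496) (nat_lit 359) (nat_lit 285)) (XT.nd (nat_lit 78) (nat_lit 76) (nat_lit 0) (XT.lf (nat_lit 0) (nat_lit 2720180258) (nat_lit 228) (nat_lit 9483308570) (nat_lit 304) (nat_lit 3700997104) (nat_lit 38) (nat_lit 5) (nat_lit 41) (nat_lit 5) (nat_lit 42) (nat_lit 5) (nat_lit 497) (nat_lit 359) (nat_lit 284)) (XT.lf (nat_lit 0) (nat_lit 301334405) (nat_lit 304) (nat_lit 4782046271) (nat_lit 76) (nat_lit 11039544596) (nat_lit 37) (nat_lit 5) (nat_lit 41) (nat_lit 5) (nat_lit 38) (nat_lit 5) (nat_lit 498) (nat_lit 359) (nat_lit 283))))) (XT.nd (nat_lit 234) (nat_lit 228) (nat_lit 0) (XT.nd (nat_lit 78) (nat_lit 152) (nat_lit 0) (XT.lf (nat_lit 0) (nat_lit 3760724324) (nat_lit 152) (nat_lit 567653245) (nat_lit 228) (nat_lit 12016987542) (nat_lit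 35) (nat_lit 5) (nat_lit 37) (nat_lit 5) (nat_lit 38) (nat_lit 5) (nat_lit 499) (nat_lit 359) (nat_lit 282)) (XT.nd (nat_lit 78) (nat_lit 152) (nat_lit 0) (XT.lf (nat_lit 0) (nat_lit 8464354405) (nat_lit 228) (nat_lit 4111336502) (nat_lit 76) (nat_lit 3996000289) (nat_lit 35) (nat_lit 5) (nat_lit 38) (nat_lit 5) (nat_lit 36) (nat_lit 5) (nat_lit 500) (nat_lit 359) (nat_lit 281)) (XT.lf (nat_lit 0) (nat_lit 4535725780) (nat_lit 152) (nat_lit 8150994350) (nat_lit 228) (nat_lit 4115755483) (nat_lit 33) (nat_lit 5) (nat_lit 35) (nat_lit 5) (nat_lit 36) (nat_lit 5) (nat_lit 501) (nat_lit 359) (nat_lit 280)))) (XT.nd (nat_lit 78) (nat_lit 228) (nat_lit 0) (XT.lf (nat_lit 0) (nat_lit 13360362294) (nat_lit 152) (nat_lit 3631468666) (nat_lit 228) (nat_lit 46083902) (nat_lit 33) (nat_lit 5) (nat_lit 35) (nat_lit 5) (nat_lit 36) (nat_lit 5) (nat_lit 502) (nat_lit 359) (nat_lit 279)) (XT.nd (nat_lit 78) (nat_lit 0) (nat_lit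 0) (XT.lf (nat_lit 0) (nat_lit 4061774757) (nat_lit 228) (nat_lit 12211238686) (nat_lit 76) (nat_lit 1004308683) (nat_lit 30) (nat_lit 5) (nat_lit 33) (nat_lit 5) (nat_lit 31) (nat_lit 5) (nat_lit 503) (nat_lit 359) (nat_lit 278)) (XT.lf (nat_lit 0) (nat_lit 8271254910) (nat_lit 228) (nat_lit 3561690792) (nat_lit 76) (nat_lit 5688168918) (nat_lit 30) (nat_lit 5) (nat_lit 33) (nat_lit 5) (nat_lit 31) (nat_lit 5) (nat_lit 504) (nat_lit 359) (nat_lit 277))))))) (XT.nd (nat_lit 53352) (nat_lit 0) (nat_lit 15808) (XT.nd (nat_lit 52962) (nat_lit 0) (nat_lit 21584) (XT.nd (nat_lit 52728) (nat_lit 0) (nat_lit 24928) (XT.nd (nat_lit 78) (nat_lit 0) (nat_lit 0) (XT.lf (nat_lit 0) (nat_lit 5280503696) (nat_lit 152) (nat_lit 7290460012) (nat_lit 228) (nat_lit 5198703185) (nat_lit 28) (nat_lit 5) (nat_lit 30) (nat_lit 5) (nat_lit 31) (nat_lit 5) (nat_lit 505) (nat_lit 359) (nat_lit 276)) (XT.lf (nat_lit 0) (nat_lit 14298548924)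 (nat_lit 152) (nat_lit 2654007010) (nat_lit 228) (nat_lit 1070721111) (nat_lit 28) (nat_lit 5) (nat_lit 30) (nat_lit 5) (nat_lit 31) (nat_lit 5) (nat_lit 506) (nat_lit 359) (nat_lit 275))) (XT.nd (nat_lit 78) (nat_lit 988) (nat_lit 0) (XT.lf (nat_lit 0) (nat_lit 284678858) (nat_lit 1064) (nat_lit 3053167511) (nat_lit 0) (nat_lit 284678858) (nat_lit 369) (nat_lit 5) (nat_lit 383) (nat_lit 4) (nat_lit 369) (nat_lit 4) (nat_lit 420) (nat_lit 360) (nat_lit 360)) (XT.nd (nat_lit 78) (nat_lit 988) (nat_lit 0) (XT.lf (nat_lit 0) (nat_lit 3960329956) (nat_lit 1064) (nat_lit 962940983) (nat_lit 0) (nat_lit 2363317303) (nat_lit 369) (nat_lit 5) (nat_lit 383) (nat_lit 4) (nat_lit 369) (nat_lit 4) (nat_lit 421) (nat_lit 360) (nat_lit 359)) (XT.lf (nat_lit 0) (nat_lit 51165434) (nat_lit 988) (nat_lit 3059357154) (nat_lit 76) (nat_lit 4219219605) (nat_lit 356) (nat_lit 5) (nat_lit 369) (nat_lit 5) (nat_lit 357) (nat_lit 4)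 (nat_lit 422) (nat_lit 360) (nat_lit 358))))) (XT.nd (nat_lit 156) (nat_lit 1672) (nat_lit 0) (XT.nd (nat_lit 78) (nat_lit 836) (nat_lit 0) (XT.lf (nat_lit 0) (nat_lit 2185335737) (nat_lit 836) (nat_lit 1222112666) (nat_lit 912) (nat_lit 3966794082) (nat_lit 345) (nat_lit 5) (nat_lit 356) (nat_lit 5) (nat_lit 357) (nat_lit 4) (nat_lit 423) (nat_lit 360) (nat_lit 357)) (XT.lf (nat_lit 0) (nat_lit 83669387) (nat_lit 836) (nat_lit 6708879829) (nat_lit 836) (nat_lit 627888917) (nat_lit 334) (nat_lit 4) (nat_lit 345) (nat_lit 5) (nat_lit 345) (nat_lit 4) (nat_lit 424) (nat_lit 360) (nat_lit 356))) (XT.nd (nat_lit 78) (nat_lit 1596) (nat_lit 0) (XT.lf (nat_lit 0) (nat_lit 2720768087) (nat_lit 912) (nat_lit 2031502939) (nat_lit 76) (nat_lit 2715375537) (nat_lit 333) (nat_lit 5) (nat_lit 345) (nat_lit 5) (nat_lit 334) (nat_lit 4) (nat_lit 425) (nat_lit 360) (nat_lit 355)) (XT.nd (nat_lit 78) (nat_lit 836) (nat_lit 0)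 (XT.lf (nat_lit 0) (nat_lit 3350717649) (nat_lit 760) (nat_lit 2736546538) (nat_lit 836) (nat_lit 1429303434) (nat_lit 323) (nat_lit 5) (nat_lit 333) (nat_lit 5) (nat_lit 334) (nat_lit 4) (nat_lit 426) (nat_lit 360) (nat_lit 354)) (XT.lf (nat_lit 0) (nat_lit 1236009708) (nat_lit 760) (nat_lit 652572580) (nat_lit 836) (nat_lit 5678474608) (nat_lit 312) (nat_lit 5) (nat_lit 322) (nat_lit 5) (nat_lit 323) (nat_lit 5) (nat_lit 427) (nat_lit 360) (nat_lit 353)))))) (XT.nd (nat_lit 390) (nat_lit 3420) (nat_lit 0) (XT.nd (nat_lit 156) (nat_lit 1520) (nat_lit 0) (XT.nd (nat_lit 78) (nat_lit 836) (nat_lit 0) (XT.lf (nat_lit 0) (nat_lit 5229978999) (nat_lit 836) (nat_lit 904939041) (nat_lit 76) (nat_lit 1483957936) (nat_lit 312) (nat_lit 5) (nat_lit 323) (nat_lit 5) (nat_lit 313) (nat_lit 4) (nat_lit 428) (nat_lit 360) (nat_lit 352)) (XT.lf (nat_lit 0) (nat_lit 927664830) (nat_lit 836) (nat_lit 3061190644) (nat_lit 76)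 (nat_lit 3683306554) (nat_lit 301) (nat_lit 5) (nat_lit 312) (nat_lit 5) (nat_lit 302) (nat_lit 5) (nat_lit 429) (nat_lit 360) (nat_lit 351))) (XT.nd (nat_lit 78) (nat_lit 760) (nat_lit 0) (XT.lf (nat_lit 0) (nat_lit 2470509470) (nat_lit 760) (nat_lit 1770328506) (nat_lit 836) (nat_lit 3486147462) (nat_lit 291) (nat_lit 5) (nat_lit 301) (nat_lit 5) (nat_lit 302) (nat_lit 5) (nat_lit 430) (nat_lit 360) (nat_lit 350)) (XT.nd (nat_lit 78) (nat_lit 76) (nat_lit 0) (XT.lf (nat_lit 0) (nat_lit 302674740) (nat_lit 684) (nat_lit 7284193488) (nat_lit 760) (nat_lit 196737368) (nat_lit 282) (nat_lit 5) (nat_lit 291) (nat_lit 5) (nat_lit 292) (nat_lit 4) (nat_lit 431) (nat_lit 360) (nat_lit 349)) (XT.lf (nat_lit 0) (nat_lit 3105313361) (nat_lit 760) (nat_lit 1899016031) (nat_lit 76) (nat_lit 2836884010) (nat_lit 281) (nat_lit 5) (nat_lit 291) (nat_lit 5) (nat_lit 282) (nat_lit 5) (nat_lit 432) (nat_lit 360) (nat_lit 348)))))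 (XT.nd (nat_lit 234) (nat_lit 1976) (nat_lit 0) (XT.nd (nat_lit 78) (nat_lit 760) (nat_lit 0) (XT.lf (nat_lit 0) (nat_lit 3773945589) (nat_lit 684) (nat_lit 2663531473) (nat_lit 760) (nat_lit 1463166467) (nat_lit 272) (nat_lit 5) (nat_lit 281) (nat_lit 5) (nat_lit 282) (nat_lit 5) (nat_lit 433) (nat_lit 360) (nat_lit 347)) (XT.nd (nat_lit 78) (nat_lit 0) (nat_lit 0) (XT.lf (nat_lit 0) (nat_lit 1564232075) (nat_lit 684) (nat_lit 251665262) (nat_lit 760) (nat_lit 6145841230) (nat_lit 262) (nat_lit 5) (nat_lit 271) (nat_lit 5) (nat_lit 272) (nat_lit 5) (nat_lit 434) (nat_lit 360) (nat_lit 346)) (XT.lf (nat_lit 0) (nat_lit 5126271357) (nat_lit 760) (nat_lit 692553553) (nat_lit 76) (nat_lit 2205359302) (nat_lit 262) (nat_lit 5) (nat_lit 272) (nat_lit 5) (nat_lit 263) (nat_lit 5) (nat_lit 435) (nat_lit 360) (nat_lit 345)))) (XT.nd (nat_lit 78) (nat_lit 1216) (nat_lit 0) (XT.lf (nat_lit 0) (nat_lit 388502534) (nat_lit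 760) (nat_lit 2967242100) (nat_lit 76) (nat_lit 4732528276) (nat_lit 252) (nat_lit 5) (nat_lit 262) (nat_lit 5) (nat_lit 253) (nat_lit 5) (nat_lit 436) (nat_lit 360) (nat_lit 344)) (XT.nd (nat_lit 78) (nat_lit 608) (nat_lit 0) (XT.lf (nat_lit 0) (nat_lit 2856255881) (nat_lit 608) (nat_lit 813311093) (nat_lit 684) (nat_lit 4484365732) (nat_lit 244) (nat_lit 5) (nat_lit 252) (nat_lit 5) (nat_lit 253) (nat_lit 5) (nat_lit 437) (nat_lit 360) (nat_lit 343)) (XT.lf (nat_lit 0) (nat_lit 542067065) (nat_lit 608) (nat_lit 6454329114) (nat_lit 684) (nat_lit 1224933026) (nat_lit 236) (nat_lit 5) (nat_lit 244) (nat_lit 5) (nat_lit 245) (nat_lit 5) (nat_lit 438) (nat_lit 360) (nat_lit 342))))))))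
noncomputable def xc46 : XT := (XT.nd (nat_lit 1638) (nat_lit 5016) (nat_lit 0) (XT.nd (nat_lit 780) (nat_lit 3496) (nat_lit 0) (XT.nd (nat_lit 390) (nat_lit 2204) (nat_lit 0) (XT.nd (nat_lit 156) (nat_lit 1216) (nat_lit 0) (XT.nd (nat_lit 78) (nat_lit 608) (nat_lit 0) (XT.lf (nat_lit 0) (nat_lit 2058591598) (nat_lit 684) (nat_lit 1807788120) (nat_lit 76) (nat_lit 4423717798) (nat_lit 235) (nat_lit 5) (nat_lit 244) (nat_lit 5) (nat_lit 236) (nat_lit 5) (nat_lit 439) (nat_lit 360) (nat_lit 341)) (XT.lf (nat_lit 0) (nat_lit 4159329520) (nat_lit 608) (nat_lit 1205418211) (nat_lit 684) (nat_lit 2995889124) (nat_lit 227) (nat_lit 5) (nat_lit 235) (nat_lit 5) (nat_lit 236) (nat_lit 5) (nat_lit 440) (nat_lit 360) (nat_lit 340))) (XT.nd (nat_lit 78) (nat_lit 532) (nat_lit 0) (XT.lf (nat_lit 0) (nat_lit 280734319) (nat_lit 684) (nat_lit 6652160085) (nat_lit 76) (nat_lit 1500071192) (nat_lit 218) (nat_lit 5) (nat_lit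 227) (nat_lit 5) (nat_lit 219) (nat_lit 5) (nat_lit 441) (nat_lit 360) (nat_lit 339)) (XT.nd (nat_lit 78) (nat_lit 532) (nat_lit 0) (XT.lf (nat_lit 0) (nat_lit 3566261123) (nat_lit 684) (nat_lit 663715648) (nat_lit 76) (nat_lit 4276721790) (nat_lit 218) (nat_lit 5) (nat_lit 227) (nat_lit 5) (nat_lit 219) (nat_lit 5) (nat_lit 442) (nat_lit 360) (nat_lit 338)) (XT.lf (nat_lit 0) (nat_lit 5448267287) (nat_lit 532) (nat_lit 1452728229) (nat_lit 608) (nat_lit 1681263692) (nat_lit 211) (nat_lit 5) (nat_lit 218) (nat_lit 5) (nat_lit 219) (nat_lit 5) (nat_lit 443) (nat_lit 360) (nat_lit 337))))) (XT.nd (nat_lit 156) (nat_lit 1064) (nat_lit 0) (XT.nd (nat_lit 78) (nat_lit 532) (nat_lit 0) (XT.lf (nat_lit 0) (nat_lit 1602884549) (nat_lit 608) (nat_lit 5675927918) (nat_lit 76) (nat_lit 1380700501) (nat_lit 203) (nat_lit 5) (nat_lit 211) (nat_lit 5) (nat_lit 204) (nat_lit 5) (nat_lit 444) (nat_lit 360) (nat_lit 336)) (XT.lf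 (nat_lit 0) (nat_lit 444602964) (nat_lit 532) (nat_lit 4468109122) (nat_lit 608) (nat_lit 3825748923) (nat_lit 196) (nat_lit 5) (nat_lit 203) (nat_lit 5) (nat_lit 204) (nat_lit 5) (nat_lit 445) (nat_lit 360) (nat_lit 335))) (XT.nd (nat_lit 78) (nat_lit 1064) (nat_lit 0) (XT.lf (nat_lit 0) (nat_lit 6696495062) (nat_lit 532) (nat_lit 1579701902) (nat_lit 608) (nat_lit 543063046) (nat_lit 196) (nat_lit 5) (nat_lit 203) (nat_lit 5) (nat_lit 204) (nat_lit 5) (nat_lit 446) (nat_lit 360) (nat_lit 334)) (XT.nd (nat_lit 78) (nat_lit 456) (nat_lit 0) (XT.lf (nat_lit 0) (nat_lit 2754441525) (nat_lit 608) (nat_lit 4770351114) (nat_lit 76) (nat_lit 1376819334) (nat_lit 188) (nat_lit 5) (nat_lit 196) (nat_lit 5) (nat_lit 189) (nat_lit 5) (nat_lit 447) (nat_lit 360) (nat_lit 333)) (XT.lf (nat_lit 0) (nat_lit 1491431715) (nat_lit 456) (nat_lit 4604132014) (nat_lit 532) (nat_lit 2890296662) (nat_lit 182) (nat_lit 5) (nat_lit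 188) (nat_lit 5) (nat_lit 189) (nat_lit 5) (nat_lit 448) (nat_lit 360) (nat_lit 332)))))) (XT.nd (nat_lit 390) (nat_lit 1900) (nat_lit 0) (XT.nd (nat_lit 156) (nat_lit 988) (nat_lit 0) (XT.nd (nat_lit 78) (nat_lit 532) (nat_lit 0) (XT.lf (nat_lit 0) (nat_lit 408914723) (nat_lit 532) (nat_lit 1199076195) (nat_lit 76) (nat_lit 7464108770) (nat_lit 181) (nat_lit 5) (nat_lit 188) (nat_lit 5) (nat_lit 182) (nat_lit 5) (nat_lit 449) (nat_lit 360) (nat_lit 331)) (XT.lf (nat_lit 0) (nat_lit 3730477317) (nat_lit 608) (nat_lit 3965011188) (nat_lit 76) (nat_lit 1464310646) (nat_lit 174) (nat_lit 5) (nat_lit 182) (nat_lit 5) (nat_lit 175) (nat_lit 5) (nat_lit 450) (nat_lit 360) (nat_lit 330))) (XT.nd (nat_lit 78) (nat_lit 532) (nat_lit 0) (XT.lf (nat_lit 0) (nat_lit 2437856793) (nat_lit 456) (nat_lit 4667197130) (nat_lit 532) (nat_lit 2144485493) (nat_lit 168) (nat_lit 5) (nat_lit 174) (nat_lit 5) (nat_lit 175) (nat_lit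 5) (nat_lit 451) (nat_lit 360) (nat_lit 329)) (XT.nd (nat_lit 78) (nat_lit 456) (nat_lit 0) (XT.lf (nat_lit 0) (nat_lit 1169195363) (nat_lit 532) (nat_lit 393337277) (nat_lit 76) (nat_lit 7778823681) (nat_lit 167) (nat_lit 5) (nat_lit 174) (nat_lit 5) (nat_lit 168) (nat_lit 5) (nat_lit 452) (nat_lit 360) (nat_lit 328)) (XT.lf (nat_lit 0) (nat_lit 4524186766) (nat_lit 532) (nat_lit 3291646506) (nat_lit 76) (nat_lit 1618835163) (nat_lit 161) (nat_lit 5) (nat_lit 168) (nat_lit 5) (nat_lit 162) (nat_lit 5) (nat_lit 453) (nat_lit 360) (nat_lit 327))))) (XT.nd (nat_lit 234) (nat_lit 912) (nat_lit 0) (XT.nd (nat_lit 78) (nat_lit 532) (nat_lit 0) (XT.lf (nat_lit 0) (nat_lit 3251541953) (nat_lit 456) (nat_lit 4682340547) (nat_lit 532) (nat_lit 1596229264) (nat_lit 155) (nat_lit 5) (nat_lit 161) (nat_lit 5) (nat_lit 162) (nat_lit 5) (nat_lit 454) (nat_lit 360) (nat_lit 326)) (XT.nd (nat_lit 78) (nat_lit 0) (nat_lit 0)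 (XT.lf (nat_lit 0) (nat_lit 268401107) (nat_lit 456) (nat_lit 1470134112) (nat_lit 532) (nat_lit 7889160870) (nat_lit 148) (nat_lit 5) (nat_lit 154) (nat_lit 5) (nat_lit 155) (nat_lit 5) (nat_lit 455) (nat_lit 360) (nat_lit 325)) (XT.lf (nat_lit 0) (nat_lit 5126779511) (nat_lit 532) (nat_lit 2784491017) (nat_lit 76) (nat_lit 1815603469) (nat_lit 148) (nat_lit 5) (nat_lit 155) (nat_lit 5) (nat_lit 149) (nat_lit 5) (nat_lit 456) (nat_lit 360) (nat_lit 324)))) (XT.nd (nat_lit 78) (nat_lit 532) (nat_lit 0) (XT.lf (nat_lit 0) (nat_lit 3897560051) (nat_lit 380) (nat_lit 4675170867) (nat_lit 456) (nat_lit 1255521461) (nat_lit 143) (nat_lit 5) (nat_lit 148) (nat_lit 5) (nat_lit 149) (nat_lit 5) (nat_lit 457) (nat_lit 360) (nat_lit 323)) (XT.nd (nat_lit 78) (nat_lit 0) (nat_lit 0) (XT.lf (nat_lit 0) (nat_lit 749610837) (nat_lit 456) (nat_lit 1356783538) (nat_lit 532) (nat_lit 7825424611) (nat_lit 136) (nat_lit 5) (nat_lit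 142) (nat_lit 5) (nat_lit 143) (nat_lit 5) (nat_lit 458) (nat_lit 360) (nat_lit 322)) (XT.lf (nat_lit 0) (nat_lit 5527353473) (nat_lit 532) (nat_lit 2480641056) (nat_lit 76) (nat_lit 2029138941) (nat_lit 136) (nat_lit 5) (nat_lit 143) (nat_lit 5) (nat_lit 137) (nat_lit 5) (nat_lit 459) (nat_lit 360) (nat_lit 321))))))) (XT.nd (nat_lit 780) (nat_lit 2280) (nat_lit 0) (XT.nd (nat_lit 390) (nat_lit 1064) (nat_lit 0) (XT.nd (nat_lit 156) (nat_lit 836) (nat_lit 0) (XT.nd (nat_lit 78) (nat_lit 456) (nat_lit 0) (XT.lf (nat_lit 0) (nat_lit 4338015872) (nat_lit 380) (nat_lit 4672113629) (nat_lit 456) (nat_lit 1134571351) (nat_lit 131) (nat_lit 5) (nat_lit 136) (nat_lit 5) (nat_lit 137) (nat_lit 5) (nat_lit 460) (nat_lit 360) (nat_lit 320)) (XT.lf (nat_lit 0) (nat_lit 1005661227) (nat_lit 380) (nat_lit 1251880457) (nat_lit 456) (nat_lit 7996998735) (nat_lit 125) (nat_lit 5) (nat_lit 130) (nat_lit 5) (nat_lit 131) (nat_lit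 5) (nat_lit 461) (nat_lit 360) (nat_lit 319))) (XT.nd (nat_lit 78) (nat_lit 836) (nat_lit 0) (XT.lf (nat_lit 0) (nat_lit 5712748397) (nat_lit 456) (nat_lit 2420453776) (nat_lit 76) (nat_lit 2233029470) (nat_lit 125) (nat_lit 5) (nat_lit 131) (nat_lit 5) (nat_lit 126) (nat_lit 5) (nat_lit 462) (nat_lit 360) (nat_lit 318)) (XT.nd (nat_lit 78) (nat_lit 456) (nat_lit 0) (XT.lf (nat_lit 0) (nat_lit 4531636169) (nat_lit 380) (nat_lit 4700668069) (nat_lit 456) (nat_lit 1247961007) (nat_lit 120) (nat_lit 5) (nat_lit 125) (nat_lit 5) (nat_lit 126) (nat_lit 5) (nat_lit 463) (nat_lit 360) (nat_lit 317)) (XT.lf (nat_lit 0) (nat_lit 993595361) (nat_lit 380) (nat_lit 1183347529) (nat_lit 456) (nat_lit 8419751323) (nat_lit 114) (nat_lit 5) (nat_lit 119) (nat_lit 5) (nat_lit 120) (nat_lit 5) (nat_lit 464) (nat_lit 360) (nat_lit 316))))) (XT.nd (nat_lit 156) (nat_lit 760) (nat_lit 0) (XT.nd (nat_lit 78) (nat_lit 304) (nat_lit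 0) (XT.lf (nat_lit 0) (nat_lit 5667377859) (nat_lit 456) (nat_lit 2647981043) (nat_lit 76) (nat_lit 2399665692) (nat_lit 114) (nat_lit 5) (nat_lit 120) (nat_lit 5) (nat_lit 115) (nat_lit 5) (nat_lit 465) (nat_lit 360) (nat_lit 315)) (XT.lf (nat_lit 0) (nat_lit 4433322945) (nat_lit 304) (nat_lit 4789678549) (nat_lit 380) (nat_lit 1612824917) (nat_lit 110) (nat_lit 5) (nat_lit 114) (nat_lit 5) (nat_lit 115) (nat_lit 5) (nat_lit 466) (nat_lit 360) (nat_lit 314))) (XT.nd (nat_lit 78) (nat_lit 304) (nat_lit 0) (XT.lf (nat_lit 0) (nat_lit 666439610) (nat_lit 380) (nat_lit 1180548461) (nat_lit 456) (nat_lit 9112200798) (nat_lit 104) (nat_lit 5) (nat_lit 109) (nat_lit 5) (nat_lit 110) (nat_lit 5) (nat_lit 467) (nat_lit 360) (nat_lit 313)) (XT.nd (nat_lit 78) (nat_lit 304) (nat_lit 0) (XT.lf (nat_lit 0) (nat_lit 5373037950) (nat_lit 456) (nat_lit 3211443036) (nat_lit 76) (nat_lit 2499963358) (nat_lit 104) (nat_lit 5)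 (nat_lit 110) (nat_lit 5) (nat_lit 105) (nat_lit 5) (nat_lit 468) (nat_lit 360) (nat_lit 312)) (XT.lf (nat_lit 0) (nat_lit 3993665613) (nat_lit 304) (nat_lit 4969623146) (nat_lit 380) (nat_lit 2249054052) (nat_lit 100) (nat_lit 5) (nat_lit 104) (nat_lit 5) (nat_lit 105) (nat_lit 5) (nat_lit 469) (nat_lit 360) (nat_lit 311)))))) (XT.nd (nat_lit 390) (nat_lit 1216) (nat_lit 0) (XT.nd (nat_lit 156) (nat_lit 684) (nat_lit 0) (XT.nd (nat_lit 78) (nat_lit 304) (nat_lit 0) (XT.lf (nat_lit 0) (nat_lit 1247459273) (nat_lit 380) (nat_lit 26944488) (nat_lit 76) (nat_lit 10068605285) (nat_lit 99) (nat_lit 5) (nat_lit 104) (nat_lit 5) (nat_lit 100) (nat_lit 5) (nat_lit 470) (nat_lit 360) (nat_lit 310)) (XT.lf (nat_lit 0) (nat_lit 4808690627) (nat_lit 380) (nat_lit 4163746165) (nat_lit 76) (nat_lit 2503067258) (nat_lit 95) (nat_lit 5) (nat_lit 100) (nat_lit 5) (nat_lit 96) (nat_lit 5) (nat_lit 471) (nat_lit 360) (nat_lit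 309))) (XT.nd (nat_lit 78) (nat_lit 380) (nat_lit 0) (XT.lf (nat_lit 0) (nat_lit 3158407274) (nat_lit 304) (nat_lit 5272922080) (nat_lit 380) (nat_lit 3179526553) (nat_lit 91) (nat_lit 5) (nat_lit 95) (nat_lit 5) (nat_lit 96) (nat_lit 5) (nat_lit 472) (nat_lit 360) (nat_lit 308)) (XT.nd (nat_lit 78) (nat_lit 304) (nat_lit 0) (XT.lf (nat_lit 0) (nat_lit 361836489) (nat_lit 380) (nat_lit 1129198264) (nat_lit 76) (nat_lit 10258055592) (nat_lit 90) (nat_lit 5) (nat_lit 95) (nat_lit 5) (nat_lit 91) (nat_lit 5) (nat_lit 473) (nat_lit 360) (nat_lit 307)) (XT.lf (nat_lit 0) (nat_lit 3950219472) (nat_lit 380) (nat_lit 5563050376) (nat_lit 76) (nat_lit 2376033957) (nat_lit 86) (nat_lit 5) (nat_lit 91) (nat_lit 5) (nat_lit 87) (nat_lit 5) (nat_lit 474) (nat_lit 360) (nat_lit 306))))) (XT.nd (nat_lit 234) (nat_lit 608) (nat_lit 0) (XT.nd (nat_lit 78) (nat_lit 380) (nat_lit 0) (XT.lf (nat_lit 0) (nat_lit 1867859873) (nat_lit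 228) (nat_lit 5734268880) (nat_lit 304) (nat_lit 4430367408) (nat_lit 83) (nat_lit 5) (nat_lit 86) (nat_lit 5) (nat_lit 87) (nat_lit 5) (nat_lit 475) (nat_lit 360) (nat_lit 305)) (XT.nd (nat_lit 78) (nat_lit 380) (nat_lit 0) (XT.lf (nat_lit 0) (nat_lit 9462532430) (nat_lit 228) (nat_lit 1864355229) (nat_lit 304) (nat_lit 851678084) (nat_lit 83) (nat_lit 5) (nat_lit 86) (nat_lit 5) (nat_lit 87) (nat_lit 5) (nat_lit 476) (nat_lit 360) (nat_lit 304)) (XT.lf (nat_lit 0) (nat_lit 2770155338) (nat_lit 380) (nat_lit 7473391411) (nat_lit 76) (nat_lit 2083490311) (nat_lit 78) (nat_lit 5) (nat_lit 83) (nat_lit 5) (nat_lit 79) (nat_lit 5) (nat_lit 477) (nat_lit 360) (nat_lit 303)))) (XT.nd (nat_lit 78) (nat_lit 380) (nat_lit 0) (XT.lf (nat_lit 0) (nat_lit 56262501) (nat_lit 228) (nat_lit 6390987402) (nat_lit 304) (nat_lit 6031239794) (nat_lit 75) (nat_lit 5) (nat_lit 78) (nat_lit 5) (nat_lit 79) (nat_lit 5) (nat_lit 478)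 (nat_lit 360) (nat_lit 302)) (XT.nd (nat_lit 78) (nat_lit 380) (nat_lit 0) (XT.lf (nat_lit 0) (nat_lit 7778417460) (nat_lit 228) (nat_lit 2433115073) (nat_lit 304) (nat_lit 2421174805) (nat_lit 75) (nat_lit 5) (nat_lit 78) (nat_lit 5) (nat_lit 79) (nat_lit 5) (nat_lit 479) (nat_lit 360) (nat_lit 301)) (XT.lf (nat_lit 0) (nat_lit 1237369078) (nat_lit 380) (nat_lit 9965364133) (nat_lit 76) (nat_lit 1587264556) (nat_lit 70) (nat_lit 5) (nat_lit 75) (nat_lit 5) (nat_lit 71) (nat_lit 5) (nat_lit 480) (nat_lit 360) (nat_lit 300))))))))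
noncomputable def xc47 : XT := (XT.nd (nat_lit 1638) (nat_lit 532) (nat_lit 0) (XT.nd (nat_lit 780) (nat_lit 1140) (nat_lit 0) (XT.nd (nat_lit 390) (nat_lit 760) (nat_lit 0) (XT.nd (nat_lit 156) (nat_lit 532) (nat_lit 0) (XT.nd (nat_lit 78) (nat_lit 228) (nat_lit 0) (XT.lf (nat_lit 0) (nat_lit 4949745398) (nat_lit 380) (nat_lit 2318116932) (nat_lit 76) (nat_lit 5681998337) (nat_lit 70) (nat_lit 5) (nat_lit 75) (nat_lit 5) (nat_lit 71) (nat_lit 5) (nat_lit 481) (nat_lit 360) (nat_lit 299)) (XT.lf (nat_lit 0) (nat_lit 5496408779) (nat_lit 228) (nat_lit 3240496669) (nat_lit 304) (nat_lit 4376012853) (nat_lit 67) (nat_lit 5) (nat_lit 70) (nat_lit 5) (nat_lit 71) (nat_lit 5) (nat_lit 482) (nat_lit 360) (nat_lit 298))) (XT.nd (nat_lit 78) (nat_lit 304) (nat_lit 0) (XT.lf (nat_lit 0) (nat_lit 158129518) (nat_lit 228) (nat_lit 12429016757) (nat_lit 304) (nat_lit 692352102) (nat_lit 64) (nat_lit 5) (nat_lit 67) (nat_lit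 5) (nat_lit 68) (nat_lit 5) (nat_lit 483) (nat_lit 360) (nat_lit 297)) (XT.nd (nat_lit 78) (nat_lit 228) (nat_lit 0) (XT.lf (nat_lit 0) (nat_lit 3062788696) (nat_lit 304) (nat_lit 5356603029) (nat_lit 76) (nat_lit 5028867965) (nat_lit 63) (nat_lit 5) (nat_lit 67) (nat_lit 5) (nat_lit 64) (nat_lit 5) (nat_lit 484) (nat_lit 360) (nat_lit 296)) (XT.lf (nat_lit 0) (nat_lit 2535239097) (nat_lit 228) (nat_lit 4330771255) (nat_lit 304) (nat_lit 6754656951) (nat_lit 60) (nat_lit 5) (nat_lit 63) (nat_lit 5) (nat_lit 64) (nat_lit 5) (nat_lit 485) (nat_lit 360) (nat_lit 295))))) (XT.nd (nat_lit 156) (nat_lit 456) (nat_lit 0) (XT.nd (nat_lit 78) (nat_lit 304) (nat_lit 0) (XT.lf (nat_lit 0) (nat_lit 10601018444) (nat_lit 228) (nat_lit 146307231) (nat_lit 304) (nat_lit 3049164236) (nat_lit 60) (nat_lit 5) (nat_lit 63) (nat_lit 5) (nat_lit 64) (nat_lit 5) (nat_lit 486) (nat_lit 360) (nat_lit 294)) (XT.lf (nat_lit 0) (nat_lit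 745760669) (nat_lit 304) (nat_lit 9147269889) (nat_lit 76) (nat_lit 4082212658) (nat_lit 56) (nat_lit 5) (nat_lit 60) (nat_lit 5) (nat_lit 57) (nat_lit 5) (nat_lit 487) (nat_lit 360) (nat_lit 293))) (XT.nd (nat_lit 78) (nat_lit 456) (nat_lit 0) (XT.lf (nat_lit 0) (nat_lit 4565020778) (nat_lit 304) (nat_lit 1179256502) (nat_lit 76) (nat_lit 8413112907) (nat_lit 56) (nat_lit 5) (nat_lit 60) (nat_lit 5) (nat_lit 57) (nat_lit 5) (nat_lit 488) (nat_lit 360) (nat_lit 292)) (XT.nd (nat_lit 78) (nat_lit 228) (nat_lit 0) (XT.lf (nat_lit 0) (nat_lit 6984810289) (nat_lit 228) (nat_lit 1488531922) (nat_lit 304) (nat_lit 5869591225) (nat_lit 53) (nat_lit 5) (nat_lit 56) (nat_lit 5) (nat_lit 57) (nat_lit 5) (nat_lit 489) (nat_lit 360) (nat_lit 291)) (XT.lf (nat_lit 0) (nat_lit 732080828) (nat_lit 228) (nat_lit 11726456108) (nat_lit 304) (nat_lit 2073683204) (nat_lit 50) (nat_lit 5) (nat_lit 53) (nat_lit 5) (nat_lit 54) (nat_lit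 5) (nat_lit 490) (nat_lit 360) (nat_lit 290)))))) (XT.nd (nat_lit 390) (nat_lit 608) (nat_lit 0) (XT.nd (nat_lit 156) (nat_lit 304) (nat_lit 0) (XT.nd (nat_lit 78) (nat_lit 152) (nat_lit 0) (XT.lf (nat_lit 0) (nat_lit 1801653015) (nat_lit 304) (nat_lit 5717473320) (nat_lit 76) (nat_lit 7205397354) (nat_lit 49) (nat_lit 5) (nat_lit 53) (nat_lit 5) (nat_lit 50) (nat_lit 5) (nat_lit 491) (nat_lit 360) (nat_lit 289)) (XT.lf (nat_lit 0) (nat_lit 2491734801) (nat_lit 152) (nat_lit 3219366432) (nat_lit 228) (nat_lit 9209616836) (nat_lit 47) (nat_lit 5) (nat_lit 49) (nat_lit 5) (nat_lit 50) (nat_lit 5) (nat_lit 492) (nat_lit 360) (nat_lit 288))) (XT.nd (nat_lit 78) (nat_lit 304) (nat_lit 0) (XT.lf (nat_lit 0) (nat_lit 9713232375) (nat_lit 228) (nat_lit 4239462767) (nat_lit 76) (nat_lit 1167857529) (nat_lit 47) (nat_lit 5) (nat_lit 50) (nat_lit 5) (nat_lit 48) (nat_lit 5) (nat_lit 493) (nat_lit 360) (nat_lit 287)) (XT.nd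 (nat_lit 78) (nat_lit 76) (nat_lit 0) (XT.lf (nat_lit 0) (nat_lit 4093076267) (nat_lit 228) (nat_lit 9719146369) (nat_lit 304) (nat_lit 1511831093) (nat_lit 44) (nat_lit 5) (nat_lit 47) (nat_lit 5) (nat_lit 48) (nat_lit 5) (nat_lit 494) (nat_lit 360) (nat_lit 286)) (XT.lf (nat_lit 0) (nat_lit 2426899375) (nat_lit 304) (nat_lit 2950694811) (nat_lit 76) (nat_lit 10153764528) (nat_lit 43) (nat_lit 5) (nat_lit 47) (nat_lit 5) (nat_lit 44) (nat_lit 5) (nat_lit 495) (nat_lit 360) (nat_lit 285))))) (XT.nd (nat_lit 234) (nat_lit 228) (nat_lit 0) (XT.nd (nat_lit 78) (nat_lit 228) (nat_lit 0) (XT.lf (nat_lit 0) (nat_lit 5505224987) (nat_lit 152) (nat_lit 924284776) (nat_lit 228) (nat_lit 9312998939) (nat_lit 41) (nat_lit 5) (nat_lit 43) (nat_lit 5) (nat_lit 44) (nat_lit 5) (nat_lit 496) (nat_lit 360) (nat_lit 284)) (XT.nd (nat_lit 78) (nat_lit 228) (nat_lit 0) (XT.lf (nat_lit 0) (nat_lit 10525300771) (nat_lit 228) (nat_lit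 1863130538) (nat_lit 76) (nat_lit 3569193440) (nat_lit 41) (nat_lit 5) (nat_lit 44) (nat_lit 5) (nat_lit 42) (nat_lit 5) (nat_lit 497) (nat_lit 360) (nat_lit 283)) (XT.lf (nat_lit 0) (nat_lit 6709117746) (nat_lit 228) (nat_lit 8013870517) (nat_lit 304) (nat_lit 1453660759) (nat_lit 38) (nat_lit 5) (nat_lit 41) (nat_lit 5) (nat_lit 42) (nat_lit 5) (nat_lit 498) (nat_lit 360) (nat_lit 282)))) (XT.nd (nat_lit 78) (nat_lit 152) (nat_lit 0) (XT.lf (nat_lit 0) (nat_lit 2553352546) (nat_lit 304) (nat_lit 990051191) (nat_lit 76) (nat_lit 12856658410) (nat_lit 37) (nat_lit 5) (nat_lit 41) (nat_lit 5) (nat_lit 38) (nat_lit 5) (nat_lit 499) (nat_lit 360) (nat_lit 281)) (XT.nd (nat_lit 78) (nat_lit 0) (nat_lit 0) (XT.lf (nat_lit 0) (nat_lit 6648828997) (nat_lit 228) (nat_lit 8936196097) (nat_lit 76) (nat_lit 1042175719) (nat_lit 35) (nat_lit 5) (nat_lit 38) (nat_lit 5) (nat_lit 36) (nat_lit 5) (nat_lit 500) (nat_lit 360)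 (nat_lit 280)) (XT.lf (nat_lit 0) (nat_lit 10827409305) (nat_lit 228) (nat_lit 373584591) (nat_lit 76) (nat_lit 5657869567) (nat_lit 35) (nat_lit 5) (nat_lit 38) (nat_lit 5) (nat_lit 36) (nat_lit 5) (nat_lit 501) (nat_lit 360) (nat_lit 279))))))) (XT.nd (nat_lit 53196) (nat_lit 0) (nat_lit 18544) (XT.nd (nat_lit 52806) (nat_lit 0) (nat_lit 24928) (XT.nd (nat_lit 156) (nat_lit 304) (nat_lit 0) (XT.nd (nat_lit 78) (nat_lit 76) (nat_lit 0) (XT.lf (nat_lit 0) (nat_lit 8421287498) (nat_lit 152) (nat_lit 6694558457) (nat_lit 228) (nat_lit 1978792715) (nat_lit 33) (nat_lit 5) (nat_lit 35) (nat_lit 5) (nat_lit 36) (nat_lit 5) (nat_lit 502) (nat_lit 360) (nat_lit 278)) (XT.lf (nat_lit 0) (nat_lit 2100838013) (nat_lit 228) (nat_lit 1460552) (nat_lit 76) (nat_lit 15233072231) (nat_lit 32) (nat_lit 5) (nat_lit 35) (nat_lit 5) (nat_lit 33) (nat_lit 5) (nat_lit 503) (nat_lit 360) (nat_lit 277))) (XT.nd (nat_lit 78) (nat_lit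 152) (nat_lit 0) (XT.lf (nat_lit 0) (nat_lit 6282676061) (nat_lit 228) (nat_lit 8698207496) (nat_lit 76) (nat_lit 2598834907) (nat_lit 30) (nat_lit 5) (nat_lit 33) (nat_lit 5) (nat_lit 31) (nat_lit 5) (nat_lit 504) (nat_lit 360) (nat_lit 276)) (XT.nd (nat_lit 78) (nat_lit 0) (nat_lit 0) (XT.lf (nat_lit 0) (nat_lit 51332909) (nat_lit 152) (nat_lit 10483391963) (nat_lit 228) (nat_lit 7294501350) (nat_lit 28) (nat_lit 5) (nat_lit 30) (nat_lit 5) (nat_lit 31) (nat_lit 5) (nat_lit 505) (nat_lit 360) (nat_lit 275)) (XT.lf (nat_lit 0) (nat_lit 9045463941) (nat_lit 152) (nat_lit 5857257948) (nat_lit 228) (nat_lit 3180388630) (nat_lit 28) (nat_lit 5) (nat_lit 30) (nat_lit 5) (nat_lit 31) (nat_lit 5) (nat_lit 506) (nat_lit 360) (nat_lit 274))))) (XT.nd (nat_lit 156) (nat_lit 2052) (nat_lit 0) (XT.nd (nat_lit 78) (nat_lit 1748) (nat_lit 0) (XT.lf (nat_lit 0) (nat_lit 1329894229) (nat_lit 1748) (nat_lit 922779774) (nat_lit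 0) (nat_lit 1329894229) (nat_lit 406) (nat_lit 5) (nat_lit 429) (nat_lit 4) (nat_lit 406) (nat_lit 4) (nat_lit 418) (nat_lit 361) (nat_lit 361)) (XT.lf (nat_lit 0) (nat_lit 3219213651) (nat_lit 1748) (nat_lit 2823473383) (nat_lit 1748) (nat_lit 1161941418) (nat_lit 383) (nat_lit 4) (nat_lit 406) (nat_lit 5) (nat_lit 406) (nat_lit 4) (nat_lit 419) (nat_lit 361) (nat_lit 360))) (XT.nd (nat_lit 78) (nat_lit 988) (nat_lit 0) (XT.lf (nat_lit 0) (nat_lit 1097636646) (nat_lit 988) (nat_lit 1074700738) (nat_lit 1064) (nat_lit 5073253537) (nat_lit 369) (nat_lit 5) (nat_lit 382) (nat_lit 5) (nat_lit 383) (nat_lit 4) (nat_lit 420) (nat_lit 361) (nat_lit 359)) (XT.nd (nat_lit 78) (nat_lit 988) (nat_lit 0) (XT.lf (nat_lit 0) (nat_lit 5524027143) (nat_lit 1064) (nat_lit 1031544903) (nat_lit 0) (nat_lit 732362903) (nat_lit 369) (nat_lit 5) (nat_lit 383) (nat_lit 4) (nat_lit 369) (nat_lit 4) (nat_lit 421) (nat_lit 361) (nat_lit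 358)) (XT.lf (nat_lit 0) (nat_lit 1560449518) (nat_lit 988) (nat_lit 3174554918) (nat_lit 76) (nat_lit 2596552899) (nat_lit 356) (nat_lit 5) (nat_lit 369) (nat_lit 5) (nat_lit 357) (nat_lit 4) (nat_lit 422) (nat_lit 361) (nat_lit 357)))))) (XT.nd (nat_lit 390) (nat_lit 3040) (nat_lit 0) (XT.nd (nat_lit 156) (nat_lit 2432) (nat_lit 0) (XT.nd (nat_lit 78) (nat_lit 76) (nat_lit 0) (XT.lf (nat_lit 0) (nat_lit 2034646389) (nat_lit 836) (nat_lit 2849615999) (nat_lit 912) (nat_lit 2492464043) (nat_lit 345) (nat_lit 5) (nat_lit 356) (nat_lit 5) (nat_lit 357) (nat_lit 4) (nat_lit 423) (nat_lit 361) (nat_lit 356)) (XT.lf (nat_lit 0) (nat_lit 798769269) (nat_lit 912) (nat_lit 105114178) (nat_lit 76) (nat_lit 6519678783) (nat_lit 344) (nat_lit 5) (nat_lit 356) (nat_lit 5) (nat_lit 345) (nat_lit 5) (nat_lit 424) (nat_lit 361) (nat_lit 355))) (XT.nd (nat_lit 78) (nat_lit 1596) (nat_lit 0) (XT.lf (nat_lit 0) (nat_lit 4101691245)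 (nat_lit 912) (nat_lit 2257152347) (nat_lit 76) (nat_lit 1112613821) (nat_lit 333) (nat_lit 5) (nat_lit 345) (nat_lit 5) (nat_lit 334) (nat_lit 4) (nat_lit 425) (nat_lit 361) (nat_lit 354)) (XT.nd (nat_lit 78) (nat_lit 836) (nat_lit 0) (XT.lf (nat_lit 0) (nat_lit 3088166478) (nat_lit 760) (nat_lit 4347987363) (nat_lit 836) (nat_lit 84883225) (nat_lit 323) (nat_lit 5) (nat_lit 333) (nat_lit 5) (nat_lit 334) (nat_lit 4) (nat_lit 426) (nat_lit 361) (nat_lit 353)) (XT.lf (nat_lit 0) (nat_lit 922492032) (nat_lit 760) (nat_lit 2260676932) (nat_lit 836) (nat_lit 4388844055) (nat_lit 312) (nat_lit 5) (nat_lit 322) (nat_lit 5) (nat_lit 323) (nat_lit 5) (nat_lit 427) (nat_lit 361) (nat_lit 352))))) (XT.nd (nat_lit 234) (nat_lit 1444) (nat_lit 0) (XT.nd (nat_lit 78) (nat_lit 1596) (nat_lit 0) (XT.lf (nat_lit 0) (nat_lit 6376942470) (nat_lit 760) (nat_lit 108069069) (nat_lit 836) (nat_lit 1139628534) (nat_lit 312) (nat_lit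 5) (nat_lit 322) (nat_lit 5) (nat_lit 323) (nat_lit 5) (nat_lit 428) (nat_lit 361) (nat_lit 351)) (XT.nd (nat_lit 78) (nat_lit 760) (nat_lit 0) (XT.lf (nat_lit 0) (nat_lit 2127916180) (nat_lit 836) (nat_lit 3455918538) (nat_lit 76) (nat_lit 2094598077) (nat_lit 301) (nat_lit 5) (nat_lit 312) (nat_lit 5) (nat_lit 302) (nat_lit 5) (nat_lit 429) (nat_lit 361) (nat_lit 350)) (XT.lf (nat_lit 0) (nat_lit 2036550359) (nat_lit 760) (nat_lit 3372641875) (nat_lit 836) (nat_lit 2324717830) (nat_lit 291) (nat_lit 5) (nat_lit 301) (nat_lit 5) (nat_lit 302) (nat_lit 5) (nat_lit 430) (nat_lit 361) (nat_lit 349)))) (XT.nd (nat_lit 78) (nat_lit 1368) (nat_lit 0) (XT.lf (nat_lit 0) (nat_lit 917836299) (nat_lit 836) (nat_lit 178853579) (nat_lit 76) (nat_lit 6694414453) (nat_lit 290) (nat_lit 5) (nat_lit 301) (nat_lit 5) (nat_lit 291) (nat_lit 5) (nat_lit 431) (nat_lit 361) (nat_lit 348)) (XT.nd (nat_lit 78) (nat_lit 684) (nat_lit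 0) (XT.lf (nat_lit 0) (nat_lit 4180388443) (nat_lit 760) (nat_lit 2418644380) (nat_lit 76) (nat_lit 1250407133) (nat_lit 281) (nat_lit 5) (nat_lit 291) (nat_lit 5) (nat_lit 282) (nat_lit 5) (nat_lit 432) (nat_lit 361) (nat_lit 347)) (XT.lf (nat_lit 0) (nat_lit 3213583905) (nat_lit 684) (nat_lit 4267277606) (nat_lit 760) (nat_lit 428657090) (nat_lit 272) (nat_lit 5) (nat_lit 281) (nat_lit 5) (nat_lit 282) (nat_lit 5) (nat_lit 433) (nat_lit 361) (nat_lit 346))))))))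
noncomputable def xc48 : XT := (XT.nd (nat_lit 1560) (nat_lit 5700) (nat_lit 0) (XT.nd (nat_lit 780) (nat_lit 3800) (nat_lit 0) (XT.nd (nat_lit 390) (nat_lit 2508) (nat_lit 0) (XT.nd (nat_lit 156) (nat_lit 1368) (nat_lit 0) (XT.nd (nat_lit 78) (nat_lit 0) (nat_lit 0) (XT.lf (nat_lit 0) (nat_lit 946629049) (nat_lit 684) (nat_lit 1858284540) (nat_lit 760) (nat_lit 5166218357) (nat_lit 262) (nat_lit 5) (nat_lit 271) (nat_lit 5) (nat_lit 272) (nat_lit 5) (nat_lit 434) (nat_lit 361) (nat_lit 345)) (XT.lf (nat_lit 0) (nat_lit 6077234583) (nat_lit 760) (nat_lit 1342975826) (nat_lit 76) (nat_lit 614142101) (nat_lit 262) (nat_lit 5) (nat_lit 272) (nat_lit 5) (nat_lit 263) (nat_lit 5) (nat_lit 435) (nat_lit 361) (nat_lit 344))) (XT.nd (nat_lit 78) (nat_lit 608) (nat_lit 0) (XT.lf (nat_lit 0) (nat_lit 1285158583) (nat_lit 760) (nat_lit 3676654991) (nat_lit 76) (nat_lit 3137154791) (nat_lit 252) (nat_lit 5) (nat_lit 262)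 (nat_lit 5) (nat_lit 253) (nat_lit 5) (nat_lit 436) (nat_lit 361) (nat_lit 343)) (XT.nd (nat_lit 78) (nat_lit 0) (nat_lit 0) (XT.lf (nat_lit 0) (nat_lit 2103625993) (nat_lit 608) (nat_lit 2430756778) (nat_lit 684) (nat_lit 3630895253) (nat_lit 244) (nat_lit 5) (nat_lit 252) (nat_lit 5) (nat_lit 253) (nat_lit 5) (nat_lit 437) (nat_lit 361) (nat_lit 342)) (XT.lf (nat_lit 0) (nat_lit 7820508616) (nat_lit 684) (nat_lit 252146148) (nat_lit 76) (nat_lit 160846628) (nat_lit 244) (nat_lit 5) (nat_lit 253) (nat_lit 5) (nat_lit 245) (nat_lit 5) (nat_lit 438) (nat_lit 361) (nat_lit 341))))) (XT.nd (nat_lit 156) (nat_lit 1216) (nat_lit 0) (XT.nd (nat_lit 78) (nat_lit 608) (nat_lit 0) (XT.lf (nat_lit 0) (nat_lit 2831650100) (nat_lit 684) (nat_lit 2656592552) (nat_lit 76) (nat_lit 2814498583) (nat_lit 235) (nat_lit 5) (nat_lit 244) (nat_lit 5) (nat_lit 236) (nat_lit 5) (nat_lit 439) (nat_lit 361) (nat_lit 340)) (XT.lf (nat_lit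 0) (nat_lit 3265692827) (nat_lit 608) (nat_lit 2840269006) (nat_lit 684) (nat_lit 2267967692) (nat_lit 227) (nat_lit 5) (nat_lit 235) (nat_lit 5) (nat_lit 236) (nat_lit 5) (nat_lit 440) (nat_lit 361) (nat_lit 339))) (XT.nd (nat_lit 78) (nat_lit 532) (nat_lit 0) (XT.lf (nat_lit 0) (nat_lit 833408597) (nat_lit 608) (nat_lit 123687533) (nat_lit 684) (nat_lit 7489919464) (nat_lit 218) (nat_lit 5) (nat_lit 226) (nat_lit 5) (nat_lit 227) (nat_lit 5) (nat_lit 441) (nat_lit 361) (nat_lit 338)) (XT.nd (nat_lit 78) (nat_lit 532) (nat_lit 0) (XT.lf (nat_lit 0) (nat_lit 4216138333) (nat_lit 684) (nat_lit 1657867121) (nat_lit 76) (nat_lit 2647284166) (nat_lit 218) (nat_lit 5) (nat_lit 227) (nat_lit 5) (nat_lit 219) (nat_lit 5) (nat_lit 442) (nat_lit 361) (nat_lit 337)) (XT.lf (nat_lit 0) (nat_lit 4407616889) (nat_lit 532) (nat_lit 3111321264) (nat_lit 608) (nat_lit 1078561950) (nat_lit 211) (nat_lit 5) (nat_lit 218) (nat_lit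 5) (nat_lit 219) (nat_lit 5) (nat_lit 443) (nat_lit 361) (nat_lit 336)))))) (XT.nd (nat_lit 390) (nat_lit 1596) (nat_lit 0) (XT.nd (nat_lit 156) (nat_lit 1596) (nat_lit 0) (XT.nd (nat_lit 78) (nat_lit 0) (nat_lit 0) (XT.lf (nat_lit 0) (nat_lit 1885544946) (nat_lit 532) (nat_lit 270792047) (nat_lit 608) (nat_lit 6519176214) (nat_lit 203) (nat_lit 5) (nat_lit 210) (nat_lit 5) (nat_lit 211) (nat_lit 5) (nat_lit 444) (nat_lit 361) (nat_lit 335)) (XT.lf (nat_lit 0) (nat_lit 5436675034) (nat_lit 608) (nat_lit 706726316) (nat_lit 76) (nat_lit 2611660191) (nat_lit 203) (nat_lit 5) (nat_lit 211) (nat_lit 5) (nat_lit 204) (nat_lit 5) (nat_lit 445) (nat_lit 361) (nat_lit 334))) (XT.nd (nat_lit 78) (nat_lit 1064) (nat_lit 0) (XT.lf (nat_lit 0) (nat_lit 5502776235) (nat_lit 532) (nat_lit 3268162390) (nat_lit 608) (nat_lit 65516638) (nat_lit 196) (nat_lit 5) (nat_lit 203) (nat_lit 5) (nat_lit 204) (nat_lit 5) (nat_lit 446)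 (nat_lit 361) (nat_lit 333)) (XT.nd (nat_lit 78) (nat_lit 456) (nat_lit 0) (XT.lf (nat_lit 0) (nat_lit 2877234655) (nat_lit 532) (nat_lit 306970722) (nat_lit 608) (nat_lit 5735380123) (nat_lit 188) (nat_lit 5) (nat_lit 195) (nat_lit 5) (nat_lit 196) (nat_lit 5) (nat_lit 447) (nat_lit 361) (nat_lit 332)) (XT.lf (nat_lit 0) (nat_lit 171207697) (nat_lit 456) (nat_lit 6319505448) (nat_lit 532) (nat_lit 2513822763) (nat_lit 182) (nat_lit 5) (nat_lit 188) (nat_lit 5) (nat_lit 189) (nat_lit 5) (nat_lit 448) (nat_lit 361) (nat_lit 331))))) (XT.nd (nat_lit 156) (nat_lit 988) (nat_lit 0) (XT.nd (nat_lit 78) (nat_lit 532) (nat_lit 0) (XT.lf (nat_lit 0) (nat_lit 756493893) (nat_lit 532) (nat_lit 2573433659) (nat_lit 76) (nat_lit 5761287237) (nat_lit 181) (nat_lit 5) (nat_lit 188) (nat_lit 5) (nat_lit 182) (nat_lit 5) (nat_lit 449) (nat_lit 361) (nat_lit 330)) (XT.lf (nat_lit 0) (nat_lit 3779195892) (nat_lit 532) (nat_lit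 256484754) (nat_lit 608) (nat_lit 5144090266) (nat_lit 174) (nat_lit 5) (nat_lit 181) (nat_lit 5) (nat_lit 182) (nat_lit 5) (nat_lit 450) (nat_lit 361) (nat_lit 329))) (XT.nd (nat_lit 78) (nat_lit 532) (nat_lit 0) (XT.lf (nat_lit 0) (nat_lit 951900520) (nat_lit 456) (nat_lit 6423750071) (nat_lit 532) (nat_lit 1894561683) (nat_lit 168) (nat_lit 5) (nat_lit 174) (nat_lit 5) (nat_lit 175) (nat_lit 5) (nat_lit 451) (nat_lit 361) (nat_lit 328)) (XT.nd (nat_lit 78) (nat_lit 456) (nat_lit 0) (XT.lf (nat_lit 0) (nat_lit 1392633166) (nat_lit 532) (nat_lit 1934260975) (nat_lit 76) (nat_lit 6035575366) (nat_lit 167) (nat_lit 5) (nat_lit 174) (nat_lit 5) (nat_lit 168) (nat_lit 5) (nat_lit 452) (nat_lit 361) (nat_lit 327)) (XT.lf (nat_lit 0) (nat_lit 4560026456) (nat_lit 456) (nat_lit 143846345) (nat_lit 532) (nat_lit 4752792302) (nat_lit 161) (nat_lit 5) (nat_lit 167) (nat_lit 5) (nat_lit 168) (nat_lit 5) (nat_lit 453)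 (nat_lit 361) (nat_lit 326))))))) (XT.nd (nat_lit 780) (nat_lit 2584) (nat_lit 0) (XT.nd (nat_lit 390) (nat_lit 1672) (nat_lit 0) (XT.nd (nat_lit 156) (nat_lit 912) (nat_lit 0) (XT.nd (nat_lit 78) (nat_lit 76) (nat_lit 0) (XT.lf (nat_lit 0) (nat_lit 1593519836) (nat_lit 456) (nat_lit 6485775738) (nat_lit 532) (nat_lit 1473506596) (nat_lit 155) (nat_lit 5) (nat_lit 161) (nat_lit 5) (nat_lit 162) (nat_lit 5) (nat_lit 454) (nat_lit 361) (nat_lit 325)) (XT.lf (nat_lit 0) (nat_lit 1835410550) (nat_lit 532) (nat_lit 1448941948) (nat_lit 76) (nat_lit 6366510776) (nat_lit 154) (nat_lit 5) (nat_lit 161) (nat_lit 5) (nat_lit 155) (nat_lit 5) (nat_lit 455) (nat_lit 361) (nat_lit 324))) (XT.nd (nat_lit 78) (nat_lit 456) (nat_lit 0) (XT.lf (nat_lit 0) (nat_lit 5179953703) (nat_lit 532) (nat_lit 4565095539) (nat_lit 76) (nat_lit 5873765) (nat_lit 148) (nat_lit 5) (nat_lit 155) (nat_lit 5) (nat_lit 149) (nat_lit 5) (nat_lit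 456) (nat_lit 361) (nat_lit 323)) (XT.nd (nat_lit 78) (nat_lit 76) (nat_lit 0) (XT.lf (nat_lit 0) (nat_lit 2061015790) (nat_lit 380) (nat_lit 6531076642) (nat_lit 456) (nat_lit 1260892863) (nat_lit 143) (nat_lit 5) (nat_lit 148) (nat_lit 5) (nat_lit 149) (nat_lit 5) (nat_lit 457) (nat_lit 361) (nat_lit 322)) (XT.lf (nat_lit 0) (nat_lit 2074410695) (nat_lit 456) (nat_lit 1153403588) (nat_lit 76) (nat_lit 6729279323) (nat_lit 142) (nat_lit 5) (nat_lit 148) (nat_lit 5) (nat_lit 143) (nat_lit 5) (nat_lit 458) (nat_lit 361) (nat_lit 321))))) (XT.nd (nat_lit 156) (nat_lit 836) (nat_lit 0) (XT.nd (nat_lit 78) (nat_lit 380) (nat_lit 0) (XT.lf (nat_lit 0) (nat_lit 5453923559) (nat_lit 532) (nat_lit 4444315749) (nat_lit 76) (nat_lit 165004916) (nat_lit 136) (nat_lit 5) (nat_lit 143) (nat_lit 5) (nat_lit 137) (nat_lit 5) (nat_lit 459) (nat_lit 361) (nat_lit 320)) (XT.lf (nat_lit 0) (nat_lit 2316352205) (nat_lit 380) (nat_lit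 6585986277) (nat_lit 456) (nat_lit 1269167413) (nat_lit 131) (nat_lit 5) (nat_lit 136) (nat_lit 5) (nat_lit 137) (nat_lit 5) (nat_lit 460) (nat_lit 361) (nat_lit 319))) (XT.nd (nat_lit 78) (nat_lit 760) (nat_lit 0) (XT.lf (nat_lit 0) (nat_lit 2097013641) (nat_lit 456) (nat_lit 1086678549) (nat_lit 76) (nat_lit 7098231489) (nat_lit 130) (nat_lit 5) (nat_lit 136) (nat_lit 5) (nat_lit 131) (nat_lit 5) (nat_lit 461) (nat_lit 361) (nat_lit 318)) (XT.nd (nat_lit 78) (nat_lit 380) (nat_lit 0) (XT.lf (nat_lit 0) (nat_lit 5511457445) (nat_lit 456) (nat_lit 4573877472) (nat_lit 76) (nat_lit 309101903) (nat_lit 125) (nat_lit 5) (nat_lit 131) (nat_lit 5) (nat_lit 126) (nat_lit 5) (nat_lit 462) (nat_lit 361) (nat_lit 317)) (XT.lf (nat_lit 0) (nat_lit 2318096960) (nat_lit 380) (nat_lit 6677933034) (nat_lit 456) (nat_lit 1513146625) (nat_lit 120) (nat_lit 5) (nat_lit 125) (nat_lit 5) (nat_lit 126) (nat_lit 5) (nat_lit 463)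 (nat_lit 361) (nat_lit 316)))))) (XT.nd (nat_lit 390) (nat_lit 1368) (nat_lit 0) (XT.nd (nat_lit 156) (nat_lit 760) (nat_lit 0) (XT.nd (nat_lit 78) (nat_lit 380) (nat_lit 0) (XT.lf (nat_lit 0) (nat_lit 1888234807) (nat_lit 456) (nat_lit 1291324051) (nat_lit 76) (nat_lit 7446627448) (nat_lit 119) (nat_lit 5) (nat_lit 125) (nat_lit 5) (nat_lit 120) (nat_lit 5) (nat_lit 464) (nat_lit 361) (nat_lit 315)) (XT.lf (nat_lit 0) (nat_lit 5336740973) (nat_lit 456) (nat_lit 4998005133) (nat_lit 76) (nat_lit 410615309) (nat_lit 114) (nat_lit 5) (nat_lit 120) (nat_lit 5) (nat_lit 115) (nat_lit 5) (nat_lit 465) (nat_lit 361) (nat_lit 314))) (XT.nd (nat_lit 78) (nat_lit 456) (nat_lit 0) (XT.lf (nat_lit 0) (nat_lit 2020975537) (nat_lit 304) (nat_lit 6835710572) (nat_lit 380) (nat_lit 2010196726) (nat_lit 110) (nat_lit 5) (nat_lit 114) (nat_lit 5) (nat_lit 115) (nat_lit 5) (nat_lit 466) (nat_lit 361) (nat_lit 313)) (XT.nd (nat_lit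 78) (nat_lit 380) (nat_lit 0) (XT.lf (nat_lit 0) (nat_lit 1430542407) (nat_lit 380) (nat_lit 1813878804) (nat_lit 76) (nat_lit 7746367188) (nat_lit 109) (nat_lit 5) (nat_lit 114) (nat_lit 5) (nat_lit 110) (nat_lit 5) (nat_lit 467) (nat_lit 361) (nat_lit 312)) (XT.lf (nat_lit 0) (nat_lit 4911344270) (nat_lit 456) (nat_lit 5765108825) (nat_lit 76) (nat_lit 440501422) (nat_lit 104) (nat_lit 5) (nat_lit 110) (nat_lit 5) (nat_lit 105) (nat_lit 5) (nat_lit 468) (nat_lit 361) (nat_lit 311))))) (XT.nd (nat_lit 234) (nat_lit 684) (nat_lit 0) (XT.nd (nat_lit 78) (nat_lit 380) (nat_lit 0) (XT.lf (nat_lit 0) (nat_lit 1375383383) (nat_lit 304) (nat_lit 7089765461) (nat_lit 380) (nat_lit 2780438639) (nat_lit 100) (nat_lit 5) (nat_lit 104) (nat_lit 5) (nat_lit 105) (nat_lit 5) (nat_lit 469) (nat_lit 361) (nat_lit 310)) (XT.nd (nat_lit 78) (nat_lit 304) (nat_lit 0) (XT.lf (nat_lit 0) (nat_lit 703650355) (nat_lit 380) (nat_lit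 2705362382) (nat_lit 76) (nat_lit 7967703211) (nat_lit 99) (nat_lit 5) (nat_lit 104) (nat_lit 5) (nat_lit 100) (nat_lit 5) (nat_lit 470) (nat_lit 361) (nat_lit 309)) (XT.lf (nat_lit 0) (nat_lit 4214004595) (nat_lit 380) (nat_lit 6928302083) (nat_lit 76) (nat_lit 367927067) (nat_lit 95) (nat_lit 5) (nat_lit 100) (nat_lit 5) (nat_lit 96) (nat_lit 5) (nat_lit 471) (nat_lit 361) (nat_lit 308)))) (XT.nd (nat_lit 78) (nat_lit 380) (nat_lit 0) (XT.lf (nat_lit 0) (nat_lit 326852327) (nat_lit 304) (nat_lit 7472504750) (nat_lit 380) (nat_lit 3846979397) (nat_lit 91) (nat_lit 5) (nat_lit 95) (nat_lit 5) (nat_lit 96) (nat_lit 5) (nat_lit 472) (nat_lit 361) (nat_lit 307)) (XT.nd (nat_lit 78) (nat_lit 380) (nat_lit 0) (XT.lf (nat_lit 0) (nat_lit 7761099037) (nat_lit 304) (nat_lit 3703987850) (nat_lit 380) (nat_lit 319911161) (nat_lit 91) (nat_lit 5) (nat_lit 95) (nat_lit 5) (nat_lit 96) (nat_lit 5) (nat_lit 473) (nat_lit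 361) (nat_lit 306)) (XT.lf (nat_lit 0) (nat_lit 3220381407) (nat_lit 380) (nat_lit 8545969096) (nat_lit 76) (nat_lit 159953121) (nat_lit 86) (nat_lit 5) (nat_lit 91) (nat_lit 5) (nat_lit 87) (nat_lit 5) (nat_lit 474) (nat_lit 361) (nat_lit 305))))))))
noncomputable def xc49 : XT := (XT.nd (nat_lit 1638) (nat_lit 1140) (nat_lit 0) (XT.nd (nat_lit 780) (nat_lit 1520) (nat_lit 0) (XT.nd (nat_lit 390) (nat_lit 912) (nat_lit 0) (XT.nd (nat_lit 156) (nat_lit 608) (nat_lit 0) (XT.nd (nat_lit 78) (nat_lit 228) (nat_lit 0) (XT.lf (nat_lit 0) (nat_lit 6841782966) (nat_lit 380) (nat_lit 1168998803) (nat_lit 76) (nat_lit 4059329121) (nat_lit 86) (nat_lit 5) (nat_lit 91) (nat_lit 5) (nat_lit 87) (nat_lit 5) (nat_lit 475) (nat_lit 361) (nat_lit 304)) (XT.lf (nat_lit 0) (nat_lit 6380889437) (nat_lit 228) (nat_lit 4159751811) (nat_lit 304) (nat_lit 1676061899) (nat_lit 83) (nat_lit 5) (nat_lit 86) (nat_lit 5) (nat_lit 87) (nat_lit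 5) (nat_lit 476) (nat_lit 361) (nat_lit 303))) (XT.nd (nat_lit 78) (nat_lit 228) (nat_lit 0) (XT.lf (nat_lit 0) (nat_lit 1682506795) (nat_lit 304) (nat_lit 221714056) (nat_lit 380) (nat_lit 10462112397) (nat_lit 78) (nat_lit 5) (nat_lit 82) (nat_lit 5) (nat_lit 83) (nat_lit 5) (nat_lit 477) (nat_lit 361) (nat_lit 302)) (XT.nd (nat_lit 78) (nat_lit 228) (nat_lit 0) (XT.lf (nat_lit 0) (nat_lit 5561630124) (nat_lit 380) (nat_lit 3182489152) (nat_lit 76) (nat_lit 3774064708) (nat_lit 78) (nat_lit 5) (nat_lit 83) (nat_lit 5) (nat_lit 79) (nat_lit 5) (nat_lit 478) (nat_lit 361) (nat_lit 301)) (XT.lf (nat_lit 0) (nat_lit 4468544876) (nat_lit 228) (nat_lit 4818713397) (nat_lit 304) (nat_lit 3385920751) (nat_lit 75) (nat_lit 5) (nat_lit 78) (nat_lit 5) (nat_lit 79) (nat_lit 5) (nat_lit 479) (nat_lit 361) (nat_lit 300))))) (XT.nd (nat_lit 156) (nat_lit 532) (nat_lit 0) (XT.nd (nat_lit 78) (nat_lit 304) (nat_lit 0) (XT.lf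 (nat_lit 0) (nat_lit 238936010) (nat_lit 304) (nat_lit 574479396) (nat_lit 76) (nat_lit 12018110261) (nat_lit 74) (nat_lit 5) (nat_lit 78) (nat_lit 5) (nat_lit 75) (nat_lit 5) (nat_lit 480) (nat_lit 361) (nat_lit 299)) (XT.lf (nat_lit 0) (nat_lit 3924825545) (nat_lit 380) (nat_lit 5789752227) (nat_lit 76) (nat_lit 3277344591) (nat_lit 70) (nat_lit 5) (nat_lit 75) (nat_lit 5) (nat_lit 71) (nat_lit 5) (nat_lit 481) (nat_lit 361) (nat_lit 298))) (XT.nd (nat_lit 78) (nat_lit 304) (nat_lit 0) (XT.lf (nat_lit 0) (nat_lit 1950234869) (nat_lit 228) (nat_lit 5721666758) (nat_lit 304) (nat_lit 5483884030) (nat_lit 67) (nat_lit 5) (nat_lit 70) (nat_lit 5) (nat_lit 71) (nat_lit 5) (nat_lit 482) (nat_lit 361) (nat_lit 297)) (XT.nd (nat_lit 78) (nat_lit 304) (nat_lit 0) (XT.lf (nat_lit 0) (nat_lit 9867255411) (nat_lit 228) (nat_lit 1631365701) (nat_lit 304) (nat_lit 1824218947) (nat_lit 67) (nat_lit 5) (nat_lit 70) (nat_lit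 5) (nat_lit 71) (nat_lit 5) (nat_lit 483) (nat_lit 361) (nat_lit 296)) (XT.lf (nat_lit 0) (nat_lit 1895349079) (nat_lit 304) (nat_lit 9070105576) (nat_lit 76) (nat_lit 2527305793) (nat_lit 63) (nat_lit 5) (nat_lit 67) (nat_lit 5) (nat_lit 64) (nat_lit 5) (nat_lit 484) (nat_lit 361) (nat_lit 295)))))) (XT.nd (nat_lit 390) (nat_lit 760) (nat_lit 0) (XT.nd (nat_lit 156) (nat_lit 532) (nat_lit 0) (XT.nd (nat_lit 78) (nat_lit 228) (nat_lit 0) (XT.lf (nat_lit 0) (nat_lit 5665501622) (nat_lit 304) (nat_lit 1239121808) (nat_lit 76) (nat_lit 6761209690) (nat_lit 63) (nat_lit 5) (nat_lit 67) (nat_lit 5) (nat_lit 64) (nat_lit 5) (nat_lit 485) (nat_lit 361) (nat_lit 294)) (XT.lf (nat_lit 0) (nat_lit 6782763652) (nat_lit 228) (nat_lit 2739440103) (nat_lit 304) (nat_lit 4319947842) (nat_lit 60) (nat_lit 5) (nat_lit 63) (nat_lit 5) (nat_lit 64) (nat_lit 5) (nat_lit 486) (nat_lit 361) (nat_lit 293))) (XT.nd (nat_lit 78) (nat_lit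 304) (nat_lit 0) (XT.lf (nat_lit 0) (nat_lit 907265884) (nat_lit 228) (nat_lit 12540092207) (nat_lit 304) (nat_lit 574819127) (nat_lit 57) (nat_lit 5) (nat_lit 60) (nat_lit 5) (nat_lit 61) (nat_lit 5) (nat_lit 487) (nat_lit 361) (nat_lit 292)) (XT.nd (nat_lit 78) (nat_lit 228) (nat_lit 0) (XT.lf (nat_lit 0) (nat_lit 3235804640) (nat_lit 304) (nat_lit 5170350942) (nat_lit 76) (nat_lit 5798570149) (nat_lit 56) (nat_lit 5) (nat_lit 60) (nat_lit 5) (nat_lit 57) (nat_lit 5) (nat_lit 488) (nat_lit 361) (nat_lit 291)) (XT.lf (nat_lit 0) (nat_lit 2913670051) (nat_lit 228) (nat_lit 4188165442) (nat_lit 304) (nat_lit 7289282630) (nat_lit 53) (nat_lit 5) (nat_lit 56) (nat_lit 5) (nat_lit 57) (nat_lit 5) (nat_lit 489) (nat_lit 361) (nat_lit 290))))) (XT.nd (nat_lit 234) (nat_lit 456) (nat_lit 0) (XT.nd (nat_lit 78) (nat_lit 304) (nat_lit 0) (XT.lf (nat_lit 0) (nat_lit 11048960407) (nat_lit 304) (nat_lit 3406042173) (nat_lit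 76) (nat_lit 126166908) (nat_lit 53) (nat_lit 5) (nat_lit 57) (nat_lit 5) (nat_lit 54) (nat_lit 5) (nat_lit 490) (nat_lit 361) (nat_lit 289)) (XT.nd (nat_lit 78) (nat_lit 0) (nat_lit 0) (XT.lf (nat_lit 0) (nat_lit 323940951) (nat_lit 304) (nat_lit 9967401482) (nat_lit 76) (nat_lit 4483089436) (nat_lit 49) (nat_lit 5) (nat_lit 53) (nat_lit 5) (nat_lit 50) (nat_lit 5) (nat_lit 491) (nat_lit 361) (nat_lit 288)) (XT.lf (nat_lit 0) (nat_lit 4201761720) (nat_lit 304) (nat_lit 1817109437) (nat_lit 76) (nat_lit 8952390717) (nat_lit 49) (nat_lit 5) (nat_lit 53) (nat_lit 5) (nat_lit 50) (nat_lit 5) (nat_lit 492) (nat_lit 361) (nat_lit 287)))) (XT.nd (nat_lit 78) (nat_lit 304) (nat_lit 0) (XT.lf (nat_lit 0) (nat_lit 6529870258) (nat_lit 152) (nat_lit 1639068914) (nat_lit 228) (nat_lit 7002859396) (nat_lit 47) (nat_lit 5) (nat_lit 49) (nat_lit 5) (nat_lit 50) (nat_lit 5) (nat_lit 493) (nat_lit 361) (nat_lit 286)) (XT.nd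 (nat_lit 78) (nat_lit 304) (nat_lit 0) (XT.lf (nat_lit 0) (nat_lit 12215628689) (nat_lit 228) (nat_lit 378216495) (nat_lit 76) (nat_lit 2782503414) (nat_lit 47) (nat_lit 5) (nat_lit 50) (nat_lit 5) (nat_lit 48) (nat_lit 5) (nat_lit 494) (nat_lit 361) (nat_lit 285)) (XT.lf (nat_lit 0) (nat_lit 782074967) (nat_lit 304) (nat_lit 7494457334) (nat_lit 76) (nat_lit 7307689458) (nat_lit 43) (nat_lit 5) (nat_lit 47) (nat_lit 5) (nat_lit 44) (nat_lit 5) (nat_lit 495) (nat_lit 361) (nat_lit 284))))))) (XT.nd (nat_lit 780) (nat_lit 152) (nat_lit 0) (XT.nd (nat_lit 390) (nat_lit 380) (nat_lit 0) (XT.nd (nat_lit 156) (nat_lit 456) (nat_lit 0) (XT.nd (nat_lit 78) (nat_lit 0) (nat_lit 0) (XT.lf (nat_lit 0) (nat_lit 875427138) (nat_lit 152) (nat_lit 3864437399) (nat_lit 228) (nat_lit 11056406412) (nat_lit 41) (nat_lit 5) (nat_lit 43) (nat_lit 5) (nat_lit 44) (nat_lit 5) (nat_lit 496) (nat_lit 361) (nat_lit 283)) (XT.lf (nat_lit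 0) (nat_lit 8801862922) (nat_lit 228) (nat_lit 6552976535) (nat_lit 76) (nat_lit 657226124) (nat_lit 41) (nat_lit 5) (nat_lit 44) (nat_lit 5) (nat_lit 42) (nat_lit 5) (nat_lit 497) (nat_lit 361) (nat_lit 282))) (XT.nd (nat_lit 78) (nat_lit 228) (nat_lit 0) (XT.lf (nat_lit 0) (nat_lit 1931737785) (nat_lit 228) (nat_lit 11022379806) (nat_lit 304) (nat_lit 3277883599) (nat_lit 38) (nat_lit 5) (nat_lit 41) (nat_lit 5) (nat_lit 42) (nat_lit 5) (nat_lit 498) (nat_lit 361) (nat_lit 281)) (XT.nd (nat_lit 78) (nat_lit 152) (nat_lit 0) (XT.lf (nat_lit 0) (nat_lit 738664752) (nat_lit 304) (nat_lit 5835847161) (nat_lit 76) (nat_lit 9881429656) (nat_lit 37) (nat_lit 5) (nat_lit 41) (nat_lit 5) (nat_lit 38) (nat_lit 5) (nat_lit 499) (nat_lit 361) (nat_lit 280)) (XT.lf (nat_lit 0) (nat_lit 2763060177) (nat_lit 152) (nat_lit 2018075906) (nat_lit 228) (nat_lit 11903006778) (nat_lit 35) (nat_lit 5) (nat_lit 37) (nat_lit 5) (nat_lit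 38) (nat_lit 5) (nat_lit 500) (nat_lit 361) (nat_lit 279))))) (XT.nd (nat_lit 156) (nat_lit 228) (nat_lit 0) (XT.nd (nat_lit 78) (nat_lit 152) (nat_lit 0) (XT.lf (nat_lit 0) (nat_lit 8932558334) (nat_lit 228) (nat_lit 5369842920) (nat_lit 76) (nat_lit 2613949893) (nat_lit 35) (nat_lit 5) (nat_lit 38) (nat_lit 5) (nat_lit 36) (nat_lit 5) (nat_lit 501) (nat_lit 361) (nat_lit 278)) (XT.lf (nat_lit 0) (nat_lit 3334318113) (nat_lit 152) (nat_lit 9839869117) (nat_lit 228) (nat_lit 3978877704) (nat_lit 33) (nat_lit 5) (nat_lit 35) (nat_lit 5) (nat_lit 36) (nat_lit 5) (nat_lit 502) (nat_lit 361) (nat_lit 277))) (XT.nd (nat_lit 78) (nat_lit 152) (nat_lit 0) (XT.lf (nat_lit 0) (nat_lit 113227312) (nat_lit 228) (nat_lit 5157892160) (nat_lit 76) (nat_lit 12123214782) (nat_lit 32) (nat_lit 5) (nat_lit 35) (nat_lit 5) (nat_lit 33) (nat_lit 5) (nat_lit 503) (nat_lit 361) (nat_lit 276)) (XT.nd (nat_lit 78) (nat_lit 0) (nat_lit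 0) (XT.lf (nat_lit 0) (nat_lit 3650128849) (nat_lit 152) (nat_lit 580272643) (nat_lit 228) (nat_lit 13409575993) (nat_lit 30) (nat_lit 5) (nat_lit 32) (nat_lit 5) (nat_lit 33) (nat_lit 5) (nat_lit 504) (nat_lit 361) (nat_lit 275)) (XT.lf (nat_lit 0) (nat_lit 8464909560) (nat_lit 228) (nat_lit 5260814511) (nat_lit 76) (nat_lit 4164114228) (nat_lit 30) (nat_lit 5) (nat_lit 33) (nat_lit 5) (nat_lit 31) (nat_lit 5) (nat_lit 505) (nat_lit 361) (nat_lit 274)))))) (XT.nd (nat_lit 52650) (nat_lit 0) (nat_lit 23180) (XT.nd (nat_lit 52416) (nat_lit 0) (nat_lit 26904) (XT.nd (nat_lit 52338) (nat_lit 0) (nat_lit 30476) (XT.lf (nat_lit 0) (nat_lit 3639957774) (nat_lit 152) (nat_lit 9145009543) (nat_lit 228) (nat_lit 5359716261) (nat_lit 28) (nat_lit 5) (nat_lit 30) (nat_lit 5) (nat_lit 31) (nat_lit 5) (nat_lit 506) (nat_lit 361) (nat_lit 273)) (XT.lf (nat_lit 0) (nat_lit 1225258380) (nat_lit 1596) (nat_lit 1159815770) (nat_lit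 1596) (nat_lit 1159815770) (nat_lit 429) (nat_lit 4) (nat_lit 450) (nat_lit 5) (nat_lit 450) (nat_lit 4) (nat_lit 416) (nat_lit 362) (nat_lit 362))) (XT.nd (nat_lit 78) (nat_lit 1824) (nat_lit 0) (XT.lf (nat_lit 0) (nat_lit 287098825) (nat_lit 1672) (nat_lit 710800521) (nat_lit 1748) (nat_lit 6129364453) (nat_lit 406) (nat_lit 5) (nat_lit 428) (nat_lit 5) (nat_lit 429) (nat_lit 4) (nat_lit 417) (nat_lit 362) (nat_lit 361)) (XT.nd (nat_lit 78) (nat_lit 1824) (nat_lit 0) (XT.lf (nat_lit 0) (nat_lit 4321632878) (nat_lit 1748) (nat_lit 1878845495) (nat_lit 0) (nat_lit 965338309) (nat_lit 406) (nat_lit 5) (nat_lit 429) (nat_lit 4) (nat_lit 406) (nat_lit 4) (nat_lit 418) (nat_lit 362) (nat_lit 360)) (XT.lf (nat_lit 0) (nat_lit 459731237) (nat_lit 1824) (nat_lit 4056590374) (nat_lit 76) (nat_lit 2689602116) (nat_lit 382) (nat_lit 5) (nat_lit 406) (nat_lit 5) (nat_lit 383) (nat_lit 4) (nat_lit 419) (nat_lit 362) (nat_lit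 359))))) (XT.nd (nat_lit 234) (nat_lit 1748) (nat_lit 0) (XT.nd (nat_lit 78) (nat_lit 988) (nat_lit 0) (XT.lf (nat_lit 0) (nat_lit 984568537) (nat_lit 988) (nat_lit 2761386247) (nat_lit 1064) (nat_lit 3501457446) (nat_lit 369) (nat_lit 5) (nat_lit 382) (nat_lit 5) (nat_lit 383) (nat_lit 4) (nat_lit 420) (nat_lit 362) (nat_lit 358)) (XT.nd (nat_lit 78) (nat_lit 988) (nat_lit 0) (XT.lf (nat_lit 0) (nat_lit 6115587166) (nat_lit 988) (nat_lit 945574206) (nat_lit 1064) (nat_lit 229344737) (nat_lit 369) (nat_lit 5) (nat_lit 382) (nat_lit 5) (nat_lit 383) (nat_lit 4) (nat_lit 421) (nat_lit 362) (nat_lit 357)) (XT.lf (nat_lit 0) (nat_lit 3036306003) (nat_lit 988) (nat_lit 3359757473) (nat_lit 76) (nat_lit 938656764) (nat_lit 356) (nat_lit 5) (nat_lit 369) (nat_lit 5) (nat_lit 357) (nat_lit 4) (nat_lit 422) (nat_lit 362) (nat_lit 356)))) (XT.nd (nat_lit 78) (nat_lit 912) (nat_lit 0) (XT.lf (nat_lit 0) (nat_lit 1813687819)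 (nat_lit 836) (nat_lit 4514122208) (nat_lit 912) (nat_lit 1052744510) (nat_lit 345) (nat_lit 5) (nat_lit 356) (nat_lit 5) (nat_lit 357) (nat_lit 4) (nat_lit 423) (nat_lit 362) (nat_lit 355)) (XT.nd (nat_lit 78) (nat_lit 836) (nat_lit 0) (XT.lf (nat_lit 0) (nat_lit 2188905563) (nat_lit 912) (nat_lit 372316685) (nat_lit 76) (nat_lit 4866613441) (nat_lit 344) (nat_lit 5) (nat_lit 356) (nat_lit 5) (nat_lit 345) (nat_lit 5) (nat_lit 424) (nat_lit 362) (nat_lit 354)) (XT.lf (nat_lit 0) (nat_lit 4918167140) (nat_lit 836) (nat_lit 534270293) (nat_lit 912) (nat_lit 2024099166) (nat_lit 333) (nat_lit 5) (nat_lit 344) (nat_lit 5) (nat_lit 345) (nat_lit 5) (nat_lit 425) (nat_lit 362) (nat_lit 353))))))))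
noncomputable def xc50 : XT := (XT.nd (nat_lit 1560) (nat_lit 6764) (nat_lit 0) (XT.nd (nat_lit 780) (nat_lit 4484) (nat_lit 0) (XT.nd (nat_lit 390) (nat_lit 2204) (nat_lit 0) (XT.nd (nat_lit 156) (nat_lit 1596) (nat_lit 0) (XT.nd (nat_lit 78) (nat_lit 760) (nat_lit 0) (XT.lf (nat_lit 0) (nat_lit 1208619063) (nat_lit 836) (nat_lit 4781569773) (nat_lit 76) (nat_lit 1536493516) (nat_lit 322) (nat_lit 5) (nat_lit 333) (nat_lit 5) (nat_lit 323) (nat_lit 5) (nat_lit 426) (nat_lit 362) (nat_lit 352)) (XT.lf (nat_lit 0) (nat_lit 535165450) (nat_lit 760) (nat_lit 3908303592) (nat_lit 836) (nat_lit 3134836912) (nat_lit 312) (nat_lit 5) (nat_lit 322) (nat_lit 5) (nat_lit 323) (nat_lit 5) (nat_lit 427) (nat_lit 362) (nat_lit 351))) (XT.nd (nat_lit 78) (nat_lit 1520) (nat_lit 0) (XT.lf (nat_lit 0) (nat_lit 83461632) (nat_lit 836) (nat_lit 1675246254) (nat_lit 76) (nat_lit 5872814843) (nat_lit 311) (nat_lit 5) (nat_lit 322)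 (nat_lit 5) (nat_lit 312) (nat_lit 5) (nat_lit 428) (nat_lit 362) (nat_lit 350)) (XT.nd (nat_lit 78) (nat_lit 760) (nat_lit 0) (XT.lf (nat_lit 0) (nat_lit 3293431883) (nat_lit 836) (nat_lit 3926291317) (nat_lit 76) (nat_lit 466312744) (nat_lit 301) (nat_lit 5) (nat_lit 312) (nat_lit 5) (nat_lit 302) (nat_lit 5) (nat_lit 429) (nat_lit 362) (nat_lit 349)) (XT.lf (nat_lit 0) (nat_lit 1526607462) (nat_lit 760) (nat_lit 5016280232) (nat_lit 836) (nat_lit 1199277529) (nat_lit 291) (nat_lit 5) (nat_lit 301) (nat_lit 5) (nat_lit 302) (nat_lit 5) (nat_lit 430) (nat_lit 362) (nat_lit 348))))) (XT.nd (nat_lit 156) (nat_lit 1444) (nat_lit 0) (XT.nd (nat_lit 78) (nat_lit 684) (nat_lit 0) (XT.lf (nat_lit 0) (nat_lit 2000152207) (nat_lit 836) (nat_lit 737416477) (nat_lit 76) (nat_lit 5062226944) (nat_lit 290) (nat_lit 5) (nat_lit 301) (nat_lit 5) (nat_lit 291) (nat_lit 5) (nat_lit 431) (nat_lit 362) (nat_lit 347)) (XT.lf (nat_lit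 0) (nat_lit 4840360309) (nat_lit 684) (nat_lit 382421819) (nat_lit 760) (nat_lit 2636162276) (nat_lit 281) (nat_lit 5) (nat_lit 290) (nat_lit 5) (nat_lit 291) (nat_lit 5) (nat_lit 432) (nat_lit 362) (nat_lit 346))) (XT.nd (nat_lit 78) (nat_lit 684) (nat_lit 0) (XT.lf (nat_lit 0) (nat_lit 561936026) (nat_lit 760) (nat_lit 5348394258) (nat_lit 76) (nat_lit 2009315868) (nat_lit 271) (nat_lit 5) (nat_lit 281) (nat_lit 5) (nat_lit 272) (nat_lit 5) (nat_lit 433) (nat_lit 362) (nat_lit 345)) (XT.nd (nat_lit 78) (nat_lit 0) (nat_lit 0) (XT.lf (nat_lit 0) (nat_lit 249349677) (nat_lit 684) (nat_lit 3508639816) (nat_lit 760) (nat_lit 4223866105) (nat_lit 262) (nat_lit 5) (nat_lit 271) (nat_lit 5) (nat_lit 272) (nat_lit 5) (nat_lit 434) (nat_lit 362) (nat_lit 344)) (XT.lf (nat_lit 0) (nat_lit 5965543183) (nat_lit 684) (nat_lit 1033683276) (nat_lit 760) (nat_lit 1046484969) (nat_lit 262) (nat_lit 5) (nat_lit 271) (nat_lit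 5) (nat_lit 272) (nat_lit 5) (nat_lit 435) (nat_lit 362) (nat_lit 343)))))) (XT.nd (nat_lit 390) (nat_lit 1824) (nat_lit 0) (XT.nd (nat_lit 156) (nat_lit 1292) (nat_lit 0) (XT.nd (nat_lit 78) (nat_lit 608) (nat_lit 0) (XT.lf (nat_lit 0) (nat_lit 2145301320) (nat_lit 760) (nat_lit 4467615305) (nat_lit 76) (nat_lit 1498076409) (nat_lit 252) (nat_lit 5) (nat_lit 262) (nat_lit 5) (nat_lit 253) (nat_lit 5) (nat_lit 436) (nat_lit 362) (nat_lit 342)) (XT.lf (nat_lit 0) (nat_lit 1269027494) (nat_lit 608) (nat_lit 4093654071) (nat_lit 684) (nat_lit 2815270809) (nat_lit 244) (nat_lit 5) (nat_lit 252) (nat_lit 5) (nat_lit 253) (nat_lit 5) (nat_lit 437) (nat_lit 362) (nat_lit 341))) (XT.nd (nat_lit 78) (nat_lit 1216) (nat_lit 0) (XT.lf (nat_lit 0) (nat_lit 369982618) (nat_lit 684) (nat_lit 1133806996) (nat_lit 76) (nat_lit 6742893519) (nat_lit 243) (nat_lit 5) (nat_lit 252) (nat_lit 5) (nat_lit 244) (nat_lit 5) (nat_lit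 438) (nat_lit 362) (nat_lit 340)) (XT.nd (nat_lit 78) (nat_lit 608) (nat_lit 0) (XT.lf (nat_lit 0) (nat_lit 3567564291) (nat_lit 684) (nat_lit 3589259423) (nat_lit 76) (nat_lit 1159890592) (nat_lit 235) (nat_lit 5) (nat_lit 244) (nat_lit 5) (nat_lit 236) (nat_lit 5) (nat_lit 439) (nat_lit 362) (nat_lit 339)) (XT.lf (nat_lit 0) (nat_lit 2287737093) (nat_lit 608) (nat_lit 4522257711) (nat_lit 684) (nat_lit 1578557244) (nat_lit 227) (nat_lit 5) (nat_lit 235) (nat_lit 5) (nat_lit 236) (nat_lit 5) (nat_lit 440) (nat_lit 362) (nat_lit 338))))) (XT.nd (nat_lit 156) (nat_lit 1140) (nat_lit 0) (XT.nd (nat_lit 78) (nat_lit 608) (nat_lit 0) (XT.lf (nat_lit 0) (nat_lit 1606634751) (nat_lit 684) (nat_lit 207174474) (nat_lit 76) (nat_lit 6648367339) (nat_lit 226) (nat_lit 5) (nat_lit 235) (nat_lit 5) (nat_lit 227) (nat_lit 5) (nat_lit 441) (nat_lit 362) (nat_lit 337)) (XT.lf (nat_lit 0) (nat_lit 4828153565) (nat_lit 684)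 (nat_lit 2738259853) (nat_lit 76) (nat_lit 970798784) (nat_lit 218) (nat_lit 5) (nat_lit 227) (nat_lit 5) (nat_lit 219) (nat_lit 5) (nat_lit 442) (nat_lit 362) (nat_lit 336))) (XT.nd (nat_lit 78) (nat_lit 608) (nat_lit 0) (XT.lf (nat_lit 0) (nat_lit 3280231819) (nat_lit 532) (nat_lit 4818717539) (nat_lit 608) (nat_lit 515124334) (nat_lit 211) (nat_lit 5) (nat_lit 218) (nat_lit 5) (nat_lit 219) (nat_lit 5) (nat_lit 443) (nat_lit 362) (nat_lit 335)) (XT.nd (nat_lit 78) (nat_lit 0) (nat_lit 0) (XT.lf (nat_lit 0) (nat_lit 689915425) (nat_lit 532) (nat_lit 1990126545) (nat_lit 608) (nat_lit 6012629025) (nat_lit 203) (nat_lit 5) (nat_lit 210) (nat_lit 5) (nat_lit 211) (nat_lit 5) (nat_lit 444) (nat_lit 362) (nat_lit 334)) (XT.lf (nat_lit 0) (nat_lit 5924859422) (nat_lit 608) (nat_lit 1940915321) (nat_lit 76) (nat_lit 907165293) (nat_lit 203) (nat_lit 5) (nat_lit 211) (nat_lit 5) (nat_lit 204) (nat_lit 5) (nat_lit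 445) (nat_lit 362) (nat_lit 333))))))) (XT.nd (nat_lit 780) (nat_lit 3040) (nat_lit 0) (XT.nd (nat_lit 390) (nat_lit 1520) (nat_lit 0) (XT.nd (nat_lit 156) (nat_lit 1064) (nat_lit 0) (XT.nd (nat_lit 78) (nat_lit 532) (nat_lit 0) (XT.lf (nat_lit 0) (nat_lit 367047463) (nat_lit 608) (nat_lit 4637567840) (nat_lit 76) (nat_lit 3850324448) (nat_lit 195) (nat_lit 5) (nat_lit 203) (nat_lit 5) (nat_lit 196) (nat_lit 5) (nat_lit 446) (nat_lit 362) (nat_lit 332)) (XT.lf (nat_lit 0) (nat_lit 1523119030) (nat_lit 532) (nat_lit 2060215578) (nat_lit 608) (nat_lit 5355388088) (nat_lit 188) (nat_lit 5) (nat_lit 195) (nat_lit 5) (nat_lit 196) (nat_lit 5) (nat_lit 447) (nat_lit 362) (nat_lit 331))) (XT.nd (nat_lit 78) (nat_lit 1064) (nat_lit 0) (XT.lf (nat_lit 0) (nat_lit 6853769505) (nat_lit 608) (nat_lit 1225164538) (nat_lit 76) (nat_lit 945470030) (nat_lit 188) (nat_lit 5) (nat_lit 196) (nat_lit 5) (nat_lit 189) (nat_lit 5)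 (nat_lit 448) (nat_lit 362) (nat_lit 330)) (XT.nd (nat_lit 78) (nat_lit 532) (nat_lit 0) (XT.lf (nat_lit 0) (nat_lit 1063579984) (nat_lit 532) (nat_lit 4040658166) (nat_lit 76) (nat_lit 4007441404) (nat_lit 181) (nat_lit 5) (nat_lit 188) (nat_lit 5) (nat_lit 182) (nat_lit 5) (nat_lit 449) (nat_lit 362) (nat_lit 329)) (XT.lf (nat_lit 0) (nat_lit 2260319395) (nat_lit 532) (nat_lit 2049558870) (nat_lit 608) (nat_lit 4891024145) (nat_lit 174) (nat_lit 5) (nat_lit 181) (nat_lit 5) (nat_lit 182) (nat_lit 5) (nat_lit 450) (nat_lit 362) (nat_lit 328))))) (XT.nd (nat_lit 156) (nat_lit 988) (nat_lit 0) (XT.nd (nat_lit 78) (nat_lit 532) (nat_lit 0) (XT.lf (nat_lit 0) (nat_lit 7609189173) (nat_lit 608) (nat_lit 620880509) (nat_lit 76) (nat_lit 1062096058) (nat_lit 174) (nat_lit 5) (nat_lit 182) (nat_lit 5) (nat_lit 175) (nat_lit 5) (nat_lit 451) (nat_lit 362) (nat_lit 327)) (XT.lf (nat_lit 0) (nat_lit 1574578364) (nat_lit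 532) (nat_lit 3570706311) (nat_lit 76) (nat_lit 4239656568) (nat_lit 167) (nat_lit 5) (nat_lit 174) (nat_lit 5) (nat_lit 168) (nat_lit 5) (nat_lit 452) (nat_lit 362) (nat_lit 326))) (XT.nd (nat_lit 78) (nat_lit 532) (nat_lit 0) (XT.lf (nat_lit 0) (nat_lit 2870013084) (nat_lit 456) (nat_lit 1982525218) (nat_lit 532) (nat_lit 4627272411) (nat_lit 161) (nat_lit 5) (nat_lit 167) (nat_lit 5) (nat_lit 168) (nat_lit 5) (nat_lit 453) (nat_lit 362) (nat_lit 325)) (XT.nd (nat_lit 78) (nat_lit 532) (nat_lit 0) (XT.lf (nat_lit 0) (nat_lit 8183545559) (nat_lit 532) (nat_lit 160187448) (nat_lit 76) (nat_lit 1233111204) (nat_lit 161) (nat_lit 5) (nat_lit 168) (nat_lit 5) (nat_lit 162) (nat_lit 5) (nat_lit 454) (nat_lit 362) (nat_lit 324)) (XT.lf (nat_lit 0) (nat_lit 1891451620) (nat_lit 532) (nat_lit 3261034949) (nat_lit 76) (nat_lit 4522878433) (nat_lit 154) (nat_lit 5) (nat_lit 161) (nat_lit 5) (nat_lit 155) (nat_lit 5)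 (nat_lit 455) (nat_lit 362) (nat_lit 323)))))) (XT.nd (nat_lit 390) (nat_lit 1292) (nat_lit 0) (XT.nd (nat_lit 156) (nat_lit 912) (nat_lit 0) (XT.nd (nat_lit 78) (nat_lit 380) (nat_lit 0) (XT.lf (nat_lit 0) (nat_lit 3318220536) (nat_lit 456) (nat_lit 1883987940) (nat_lit 532) (nat_lit 4573899635) (nat_lit 148) (nat_lit 5) (nat_lit 154) (nat_lit 5) (nat_lit 155) (nat_lit 5) (nat_lit 456) (nat_lit 362) (nat_lit 322)) (XT.lf (nat_lit 0) (nat_lit 123820631) (nat_lit 380) (nat_lit 8444257493) (nat_lit 456) (nat_lit 1311025156) (nat_lit 143) (nat_lit 5) (nat_lit 148) (nat_lit 5) (nat_lit 149) (nat_lit 5) (nat_lit 457) (nat_lit 362) (nat_lit 321))) (XT.nd (nat_lit 78) (nat_lit 836) (nat_lit 0) (XT.lf (nat_lit 0) (nat_lit 2003547900) (nat_lit 456) (nat_lit 3147705793) (nat_lit 76) (nat_lit 4832399377) (nat_lit 142) (nat_lit 5) (nat_lit 148) (nat_lit 5) (nat_lit 143) (nat_lit 5) (nat_lit 458) (nat_lit 362) (nat_lit 320))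 (XT.nd (nat_lit 78) (nat_lit 380) (nat_lit 0) (XT.lf (nat_lit 0) (nat_lit 3568121779) (nat_lit 456) (nat_lit 1779562417) (nat_lit 532) (nat_lit 4742834091) (nat_lit 136) (nat_lit 5) (nat_lit 142) (nat_lit 5) (nat_lit 143) (nat_lit 5) (nat_lit 459) (nat_lit 362) (nat_lit 319)) (XT.lf (nat_lit 0) (nat_lit 191095071) (nat_lit 380) (nat_lit 8558832621) (nat_lit 456) (nat_lit 1449782624) (nat_lit 131) (nat_lit 5) (nat_lit 136) (nat_lit 5) (nat_lit 137) (nat_lit 5) (nat_lit 460) (nat_lit 362) (nat_lit 318))))) (XT.nd (nat_lit 234) (nat_lit 836) (nat_lit 0) (XT.nd (nat_lit 78) (nat_lit 380) (nat_lit 0) (XT.lf (nat_lit 0) (nat_lit 1898014474) (nat_lit 456) (nat_lit 3269904218) (nat_lit 76) (nat_lit 5142654575) (nat_lit 130) (nat_lit 5) (nat_lit 136) (nat_lit 5) (nat_lit 131) (nat_lit 5) (nat_lit 461) (nat_lit 362) (nat_lit 317)) (XT.nd (nat_lit 78) (nat_lit 0) (nat_lit 0) (XT.lf (nat_lit 0) (nat_lit 3579660738) (nat_lit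 380) (nat_lit 1695855266) (nat_lit 456) (nat_lit 5148315780) (nat_lit 125) (nat_lit 5) (nat_lit 130) (nat_lit 5) (nat_lit 131) (nat_lit 5) (nat_lit 462) (nat_lit 362) (nat_lit 316)) (XT.lf (nat_lit 0) (nat_lit 8713819933) (nat_lit 456) (nat_lit 2063302) (nat_lit 76) (nat_lit 1823620121) (nat_lit 125) (nat_lit 5) (nat_lit 131) (nat_lit 5) (nat_lit 126) (nat_lit 5) (nat_lit 463) (nat_lit 362) (nat_lit 315)))) (XT.nd (nat_lit 78) (nat_lit 380) (nat_lit 0) (XT.lf (nat_lit 0) (nat_lit 1559636906) (nat_lit 456) (nat_lit 3670357898) (nat_lit 76) (nat_lit 5426968177) (nat_lit 119) (nat_lit 5) (nat_lit 125) (nat_lit 5) (nat_lit 120) (nat_lit 5) (nat_lit 464) (nat_lit 362) (nat_lit 314)) (XT.nd (nat_lit 78) (nat_lit 0) (nat_lit 0) (XT.lf (nat_lit 0) (nat_lit 3309114307) (nat_lit 380) (nat_lit 1660727387) (nat_lit 456) (nat_lit 5807068456) (nat_lit 114) (nat_lit 5) (nat_lit 119) (nat_lit 5) (nat_lit 120) (nat_lit 5) (nat_lit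 465) (nat_lit 362) (nat_lit 313)) (XT.lf (nat_lit 0) (nat_lit 8446259303) (nat_lit 456) (nat_lit 494621369) (nat_lit 76) (nat_lit 1958427363) (nat_lit 114) (nat_lit 5) (nat_lit 120) (nat_lit 5) (nat_lit 115) (nat_lit 5) (nat_lit 466) (nat_lit 362) (nat_lit 312))))))))
noncomputable def xc51 : XT := (XT.nd (nat_lit 1638) (nat_lit 2280) (nat_lit 0) (XT.nd (nat_lit 780) (nat_lit 1748) (nat_lit 0) (XT.nd (nat_lit 390) (nat_lit 912) (nat_lit 0) (XT.nd (nat_lit 156) (nat_lit 684) (nat_lit 0) (XT.nd (nat_lit 78) (nat_lit 380) (nat_lit 0) (XT.lf (nat_lit 0) (nat_lit 970655697) (nat_lit 380) (nat_lit 4395793498) (nat_lit 76) (nat_lit 5657284448) (nat_lit 109) (nat_lit 5) (nat_lit 114) (nat_lit 5) (nat_lit 110) (nat_lit 5) (nat_lit 467) (nat_lit 362) (nat_lit 311)) (XT.lf (nat_lit 0) (nat_lit 2708621983) (nat_lit 380) (nat_lit 1703573310) (nat_lit 456) (nat_lit 6738495289) (nat_lit 104) (nat_lit 5) (nat_lit 109) (nat_lit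 5) (nat_lit 110) (nat_lit 5) (nat_lit 468) (nat_lit 362) (nat_lit 310))) (XT.nd (nat_lit 78) (nat_lit 684) (nat_lit 0) (XT.lf (nat_lit 0) (nat_lit 7926943934) (nat_lit 456) (nat_lit 1338237591) (nat_lit 76) (nat_lit 2014928604) (nat_lit 104) (nat_lit 5) (nat_lit 110) (nat_lit 5) (nat_lit 105) (nat_lit 5) (nat_lit 469) (nat_lit 362) (nat_lit 309)) (XT.nd (nat_lit 78) (nat_lit 304) (nat_lit 0) (XT.lf (nat_lit 0) (nat_lit 110558453) (nat_lit 380) (nat_lit 5497435895) (nat_lit 76) (nat_lit 5803881382) (nat_lit 99) (nat_lit 5) (nat_lit 104) (nat_lit 5) (nat_lit 100) (nat_lit 5) (nat_lit 470) (nat_lit 362) (nat_lit 308)) (XT.lf (nat_lit 0) (nat_lit 1725671476) (nat_lit 304) (nat_lit 1855619418) (nat_lit 380) (nat_lit 7964900219) (nat_lit 95) (nat_lit 5) (nat_lit 99) (nat_lit 5) (nat_lit 100) (nat_lit 5) (nat_lit 471) (nat_lit 362) (nat_lit 307))))) (XT.nd (nat_lit 156) (nat_lit 608) (nat_lit 0) (XT.nd (nat_lit 78)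 (nat_lit 304) (nat_lit 0) (XT.lf (nat_lit 0) (nat_lit 7133942036) (nat_lit 380) (nat_lit 2586881175) (nat_lit 76) (nat_lit 1962129705) (nat_lit 95) (nat_lit 5) (nat_lit 100) (nat_lit 5) (nat_lit 96) (nat_lit 5) (nat_lit 472) (nat_lit 362) (nat_lit 306)) (XT.lf (nat_lit 0) (nat_lit 4783902725) (nat_lit 304) (nat_lit 5980393403) (nat_lit 380) (nat_lit 1058030825) (nat_lit 91) (nat_lit 5) (nat_lit 95) (nat_lit 5) (nat_lit 96) (nat_lit 5) (nat_lit 473) (nat_lit 362) (nat_lit 305))) (XT.nd (nat_lit 78) (nat_lit 228) (nat_lit 0) (XT.lf (nat_lit 0) (nat_lit 302535267) (nat_lit 304) (nat_lit 2150243842) (nat_lit 380) (nat_lit 9511737287) (nat_lit 86) (nat_lit 5) (nat_lit 90) (nat_lit 5) (nat_lit 91) (nat_lit 5) (nat_lit 474) (nat_lit 362) (nat_lit 304)) (XT.nd (nat_lit 78) (nat_lit 228) (nat_lit 0) (XT.lf (nat_lit 0) (nat_lit 6042199921) (nat_lit 380) (nat_lit 4299915359) (nat_lit 76) (nat_lit 1766852659) (nat_lit 86)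 (nat_lit 5) (nat_lit 91) (nat_lit 5) (nat_lit 87) (nat_lit 5) (nat_lit 475) (nat_lit 362) (nat_lit 303)) (XT.lf (nat_lit 0) (nat_lit 3179689218) (nat_lit 228) (nat_lit 6522918064) (nat_lit 304) (nat_lit 2553726505) (nat_lit 83) (nat_lit 5) (nat_lit 86) (nat_lit 5) (nat_lit 87) (nat_lit 5) (nat_lit 476) (nat_lit 362) (nat_lit 302)))))) (XT.nd (nat_lit 390) (nat_lit 760) (nat_lit 0) (XT.nd (nat_lit 156) (nat_lit 608) (nat_lit 0) (XT.nd (nat_lit 78) (nat_lit 304) (nat_lit 0) (XT.lf (nat_lit 0) (nat_lit 1009519959) (nat_lit 304) (nat_lit 1603043822) (nat_lit 76) (nat_lit 9794089410) (nat_lit 82) (nat_lit 5) (nat_lit 86) (nat_lit 5) (nat_lit 83) (nat_lit 5) (nat_lit 477) (nat_lit 362) (nat_lit 301)) (XT.lf (nat_lit 0) (nat_lit 4623260178) (nat_lit 380) (nat_lit 6542730671) (nat_lit 76) (nat_lit 1393390767) (nat_lit 78) (nat_lit 5) (nat_lit 83) (nat_lit 5) (nat_lit 79) (nat_lit 5) (nat_lit 478) (nat_lit 362) (nat_lit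 300))) (XT.nd (nat_lit 78) (nat_lit 380) (nat_lit 0) (XT.lf (nat_lit 0) (nat_lit 1035385434) (nat_lit 228) (nat_lit 7274026382) (nat_lit 304) (nat_lit 4405758593) (nat_lit 75) (nat_lit 5) (nat_lit 78) (nat_lit 5) (nat_lit 79) (nat_lit 5) (nat_lit 479) (nat_lit 362) (nat_lit 299)) (XT.nd (nat_lit 78) (nat_lit 380) (nat_lit 0) (XT.lf (nat_lit 0) (nat_lit 8797782292) (nat_lit 228) (nat_lit 3281010624) (nat_lit 304) (nat_lit 795100297) (nat_lit 75) (nat_lit 5) (nat_lit 78) (nat_lit 5) (nat_lit 79) (nat_lit 5) (nat_lit 480) (nat_lit 362) (nat_lit 298)) (XT.lf (nat_lit 0) (nat_lit 2844946387) (nat_lit 380) (nat_lit 9387440640) (nat_lit 76) (nat_lit 803135522) (nat_lit 70) (nat_lit 5) (nat_lit 75) (nat_lit 5) (nat_lit 71) (nat_lit 5) (nat_lit 481) (nat_lit 362) (nat_lit 297))))) (XT.nd (nat_lit 234) (nat_lit 228) (nat_lit 0) (XT.nd (nat_lit 78) (nat_lit 532) (nat_lit 0) (XT.lf (nat_lit 0) (nat_lit 6562634902) (nat_lit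 380) (nat_lit 1700511527) (nat_lit 76) (nat_lit 4936831067) (nat_lit 70) (nat_lit 5) (nat_lit 75) (nat_lit 5) (nat_lit 71) (nat_lit 5) (nat_lit 482) (nat_lit 362) (nat_lit 296)) (XT.nd (nat_lit 78) (nat_lit 304) (nat_lit 0) (XT.lf (nat_lit 0) (nat_lit 6166610602) (nat_lit 228) (nat_lit 4194981563) (nat_lit 304) (nat_lit 3005998805) (nat_lit 67) (nat_lit 5) (nat_lit 70) (nat_lit 5) (nat_lit 71) (nat_lit 5) (nat_lit 483) (nat_lit 362) (nat_lit 295)) (XT.lf (nat_lit 0) (nat_lit 624875283) (nat_lit 228) (nat_lit 46437396) (nat_lit 304) (nat_lit 12867510929) (nat_lit 63) (nat_lit 5) (nat_lit 66) (nat_lit 5) (nat_lit 67) (nat_lit 5) (nat_lit 484) (nat_lit 362) (nat_lit 294)))) (XT.nd (nat_lit 78) (nat_lit 228) (nat_lit 0) (XT.lf (nat_lit 0) (nat_lit 4424880720) (nat_lit 304) (nat_lit 5109729960) (nat_lit 76) (nat_lit 4177620895) (nat_lit 63) (nat_lit 5) (nat_lit 67) (nat_lit 5) (nat_lit 64) (nat_lit 5) (nat_lit 485)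 (nat_lit 362) (nat_lit 293)) (XT.nd (nat_lit 78) (nat_lit 0) (nat_lit 0) (XT.lf (nat_lit 0) (nat_lit 2833828321) (nat_lit 228) (nat_lit 5406151699) (nat_lit 304) (nat_lit 5649405623) (nat_lit 60) (nat_lit 5) (nat_lit 63) (nat_lit 5) (nat_lit 64) (nat_lit 5) (nat_lit 486) (nat_lit 362) (nat_lit 292)) (XT.lf (nat_lit 0) (nat_lit 10952271071) (nat_lit 228) (nat_lit 1181439040) (nat_lit 304) (nat_lit 1936333103) (nat_lit 60) (nat_lit 5) (nat_lit 63) (nat_lit 5) (nat_lit 64) (nat_lit 5) (nat_lit 487) (nat_lit 362) (nat_lit 291))))))) (XT.nd (nat_lit 780) (nat_lit 836) (nat_lit 0) (XT.nd (nat_lit 390) (nat_lit 608) (nat_lit 0) (XT.nd (nat_lit 156) (nat_lit 532) (nat_lit 0) (XT.nd (nat_lit 78) (nat_lit 0) (nat_lit 0) (XT.lf (nat_lit 0) (nat_lit 1847970944) (nat_lit 304) (nat_lit 9295104435) (nat_lit 76) (nat_lit 3110580000) (nat_lit 56) (nat_lit 5) (nat_lit 60) (nat_lit 5) (nat_lit 57) (nat_lit 5) (nat_lit 488) (nat_lit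 362) (nat_lit 290)) (XT.lf (nat_lit 0) (nat_lit 5679537224) (nat_lit 304) (nat_lit 1275426219) (nat_lit 76) (nat_lit 7485776883) (nat_lit 56) (nat_lit 5) (nat_lit 60) (nat_lit 5) (nat_lit 57) (nat_lit 5) (nat_lit 489) (nat_lit 362) (nat_lit 289))) (XT.nd (nat_lit 78) (nat_lit 304) (nat_lit 0) (XT.lf (nat_lit 0) (nat_lit 6943970380) (nat_lit 228) (nat_lit 2658059965) (nat_lit 304) (nat_lit 5029257183) (nat_lit 53) (nat_lit 5) (nat_lit 56) (nat_lit 5) (nat_lit 57) (nat_lit 5) (nat_lit 490) (nat_lit 362) (nat_lit 288)) (XT.nd (nat_lit 78) (nat_lit 76) (nat_lit 0) (XT.lf (nat_lit 0) (nat_lit 462492437) (nat_lit 228) (nat_lit 13132642582) (nat_lit 304) (nat_lit 1230673760) (nat_lit 50) (nat_lit 5) (nat_lit 53) (nat_lit 5) (nat_lit 54) (nat_lit 5) (nat_lit 491) (nat_lit 362) (nat_lit 287)) (XT.lf (nat_lit 0) (nat_lit 2648140991) (nat_lit 304) (nat_lit 6230756032) (nat_lit 76) (nat_lit 6144207515) (nat_lit 49) (nat_lit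 5) (nat_lit 53) (nat_lit 5) (nat_lit 50) (nat_lit 5) (nat_lit 492) (nat_lit 362) (nat_lit 286))))) (XT.nd (nat_lit 156) (nat_lit 456) (nat_lit 0) (XT.nd (nat_lit 78) (nat_lit 0) (nat_lit 0) (XT.lf (nat_lit 0) (nat_lit 2032015762) (nat_lit 152) (nat_lit 4539250092) (nat_lit 228) (nat_lit 8653259386) (nat_lit 47) (nat_lit 5) (nat_lit 49) (nat_lit 5) (nat_lit 50) (nat_lit 5) (nat_lit 493) (nat_lit 362) (nat_lit 285)) (XT.lf (nat_lit 0) (nat_lit 10493897845) (nat_lit 152) (nat_lit 91030562) (nat_lit 228) (nat_lit 4844810301) (nat_lit 47) (nat_lit 5) (nat_lit 49) (nat_lit 5) (nat_lit 50) (nat_lit 5) (nat_lit 494) (nat_lit 362) (nat_lit 284))) (XT.nd (nat_lit 78) (nat_lit 228) (nat_lit 0) (XT.lf (nat_lit 0) (nat_lit 3452302907) (nat_lit 228) (nat_lit 11248557095) (nat_lit 304) (nat_lit 937762268) (nat_lit 44) (nat_lit 5) (nat_lit 47) (nat_lit 5) (nat_lit 48) (nat_lit 5) (nat_lit 495) (nat_lit 362) (nat_lit 283)) (XT.nd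 (nat_lit 78) (nat_lit 152) (nat_lit 0) (XT.lf (nat_lit 0) (nat_lit 3012170703) (nat_lit 304) (nat_lit 3846646028) (nat_lit 76) (nat_lit 8992382344) (nat_lit 43) (nat_lit 5) (nat_lit 47) (nat_lit 5) (nat_lit 44) (nat_lit 5) (nat_lit 496) (nat_lit 362) (nat_lit 282)) (XT.lf (nat_lit 0) (nat_lit 4665651263) (nat_lit 152) (nat_lit 2364539102) (nat_lit 228) (nat_lit 9037685594) (nat_lit 41) (nat_lit 5) (nat_lit 43) (nat_lit 5) (nat_lit 44) (nat_lit 5) (nat_lit 497) (nat_lit 362) (nat_lit 281)))))) (XT.nd (nat_lit 390) (nat_lit 380) (nat_lit 0) (XT.nd (nat_lit 156) (nat_lit 228) (nat_lit 0) (XT.nd (nat_lit 78) (nat_lit 228) (nat_lit 0) (XT.lf (nat_lit 0) (nat_lit 11140418496) (nat_lit 228) (nat_lit 2951883275) (nat_lit 76) (nat_lit 2196352953) (nat_lit 41) (nat_lit 5) (nat_lit 44) (nat_lit 5) (nat_lit 42) (nat_lit 5) (nat_lit 498) (nat_lit 362) (nat_lit 280)) (XT.lf (nat_lit 0) (nat_lit 5677971695) (nat_lit 228) (nat_lit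 9679416436) (nat_lit 304) (nat_lit 1155975395) (nat_lit 38) (nat_lit 5) (nat_lit 41) (nat_lit 5) (nat_lit 42) (nat_lit 5) (nat_lit 499) (nat_lit 362) (nat_lit 279))) (XT.nd (nat_lit 78) (nat_lit 152) (nat_lit 0) (XT.lf (nat_lit 0) (nat_lit 2869885956) (nat_lit 304) (nat_lit 2289157867) (nat_lit 76) (nat_lit 11583308992) (nat_lit 37) (nat_lit 5) (nat_lit 41) (nat_lit 5) (nat_lit 38) (nat_lit 5) (nat_lit 500) (nat_lit 362) (nat_lit 278)) (XT.nd (nat_lit 78) (nat_lit 0) (nat_lit 0) (XT.lf (nat_lit 0) (nat_lit 6457626261) (nat_lit 152) (nat_lit 517710256) (nat_lit 228) (nat_lit 10000146444) (nat_lit 35) (nat_lit 5) (nat_lit 37) (nat_lit 5) (nat_lit 38) (nat_lit 5) (nat_lit 501) (nat_lit 362) (nat_lit 277)) (XT.lf (nat_lit 0) (nat_lit 11178445907) (nat_lit 228) (nat_lit 1877588587) (nat_lit 76) (nat_lit 4156935022) (nat_lit 35) (nat_lit 5) (nat_lit 38) (nat_lit 5) (nat_lit 36) (nat_lit 5) (nat_lit 502) (nat_lit 362)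 (nat_lit 276))))) (XT.nd (nat_lit 52416) (nat_lit 0) (nat_lit 30324) (XT.nd (nat_lit 78) (nat_lit 228) (nat_lit 0) (XT.lf (nat_lit 0) (nat_lit 6976973750) (nat_lit 152) (nat_lit 8510617148) (nat_lit 228) (nat_lit 1967180148) (nat_lit 33) (nat_lit 5) (nat_lit 35) (nat_lit 5) (nat_lit 36) (nat_lit 5) (nat_lit 503) (nat_lit 362) (nat_lit 275)) (XT.nd (nat_lit 78) (nat_lit 152) (nat_lit 0) (XT.lf (nat_lit 0) (nat_lit 2138871918) (nat_lit 228) (nat_lit 1727965183) (nat_lit 76) (nat_lit 13834573302) (nat_lit 32) (nat_lit 5) (nat_lit 35) (nat_lit 5) (nat_lit 33) (nat_lit 5) (nat_lit 504) (nat_lit 362) (nat_lit 274)) (XT.lf (nat_lit 0) (nat_lit 6327421537) (nat_lit 228) (nat_lit 10725256532) (nat_lit 76) (nat_lit 899514514) (nat_lit 30) (nat_lit 5) (nat_lit 33) (nat_lit 5) (nat_lit 31) (nat_lit 5) (nat_lit 505) (nat_lit 362) (nat_lit 273)))) (XT.nd (nat_lit 78) (nat_lit 3192) (nat_lit 0) (XT.lf (nat_lit 0) (nat_lit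 3392014567) (nat_lit 1444) (nat_lit 58750611) (nat_lit 1444) (nat_lit 58750611) (nat_lit 471) (nat_lit 4) (nat_lit 490) (nat_lit 5) (nat_lit 490) (nat_lit 4) (nat_lit 414) (nat_lit 363) (nat_lit 363)) (XT.nd (nat_lit 78) (nat_lit 1596) (nat_lit 0) (XT.lf (nat_lit 0) (nat_lit 3183362907) (nat_lit 1596) (nat_lit 2450405478) (nat_lit 0) (nat_lit 1420131894) (nat_lit 450) (nat_lit 5) (nat_lit 471) (nat_lit 4) (nat_lit 450) (nat_lit 4) (nat_lit 415) (nat_lit 363) (nat_lit 362)) (XT.lf (nat_lit 0) (nat_lit 2418162869) (nat_lit 1596) (nat_lit 4082095498) (nat_lit 1596) (nat_lit 590206629) (nat_lit 429) (nat_lit 4) (nat_lit 450) (nat_lit 5) (nat_lit 450) (nat_lit 4) (nat_lit 416) (nat_lit 363) (nat_lit 361))))))))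
noncomputable def xc52 : XT := (XT.nd (nat_lit 1560) (nat_lit 7904) (nat_lit 0) (XT.nd (nat_lit 780) (nat_lit 5320) (nat_lit 0) (XT.nd (nat_lit 390) (nat_lit 3496) (nat_lit 0) (XT.nd (nat_lit 156) (nat_lit 2888) (nat_lit 0) (XT.nd (nat_lit 78) (nat_lit 0) (nat_lit 0) (XT.lf (nat_lit 0) (nat_lit 209639280) (nat_lit 1672) (nat_lit 2461791785) (nat_lit 1748) (nat_lit 4456979397) (nat_lit 406) (nat_lit 5) (nat_lit 428) (nat_lit 5) (nat_lit 429) (nat_lit 4) (nat_lit 417) (nat_lit 363) (nat_lit 360)) (XT.lf (nat_lit 0) (nat_lit 5184025223) (nat_lit 1672) (nat_lit 772513717) (nat_lit 1748) (nat_lit 1211218341) (nat_lit 406) (nat_lit 5) (nat_lit 428) (nat_lit 5) (nat_lit 429) (nat_lit 4) (nat_lit 418) (nat_lit 363) (nat_lit 359))) (XT.nd (nat_lit 78) (nat_lit 1064) (nat_lit 0) (XT.lf (nat_lit 0) (nat_lit 2033487708) (nat_lit 1824) (nat_lit 4203272812) (nat_lit 76) (nat_lit 971668199) (nat_lit 382) (nat_lit 5) (nat_lit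 406) (nat_lit 5) (nat_lit 383) (nat_lit 4) (nat_lit 419) (nat_lit 363) (nat_lit 358)) (XT.nd (nat_lit 78) (nat_lit 76) (nat_lit 0) (XT.lf (nat_lit 0) (nat_lit 803287455) (nat_lit 988) (nat_lit 4483793791) (nat_lit 1064) (nat_lit 1963508763) (nat_lit 369) (nat_lit 5) (nat_lit 382) (nat_lit 5) (nat_lit 383) (nat_lit 4) (nat_lit 420) (nat_lit 363) (nat_lit 357)) (XT.lf (nat_lit 0) (nat_lit 1260172136) (nat_lit 1064) (nat_lit 1400318215) (nat_lit 76) (nat_lit 4633668399) (nat_lit 368) (nat_lit 5) (nat_lit 382) (nat_lit 5) (nat_lit 369) (nat_lit 5) (nat_lit 421) (nat_lit 363) (nat_lit 356))))) (XT.nd (nat_lit 156) (nat_lit 1672) (nat_lit 0) (XT.nd (nat_lit 78) (nat_lit 912) (nat_lit 0) (XT.lf (nat_lit 0) (nat_lit 3719127455) (nat_lit 912) (nat_lit 765154090) (nat_lit 988) (nat_lit 2854851246) (nat_lit 356) (nat_lit 5) (nat_lit 368) (nat_lit 5) (nat_lit 369) (nat_lit 5) (nat_lit 422) (nat_lit 363) (nat_lit 355)) (XT.lf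 (nat_lit 0) (nat_lit 348300383) (nat_lit 912) (nat_lit 5865646377) (nat_lit 76) (nat_lit 1171735713) (nat_lit 344) (nat_lit 5) (nat_lit 356) (nat_lit 5) (nat_lit 345) (nat_lit 5) (nat_lit 423) (nat_lit 363) (nat_lit 354))) (XT.nd (nat_lit 78) (nat_lit 1672) (nat_lit 0) (XT.lf (nat_lit 0) (nat_lit 3546044447) (nat_lit 912) (nat_lit 710351279) (nat_lit 76) (nat_lit 3177051103) (nat_lit 344) (nat_lit 5) (nat_lit 356) (nat_lit 5) (nat_lit 345) (nat_lit 5) (nat_lit 424) (nat_lit 363) (nat_lit 353)) (XT.nd (nat_lit 78) (nat_lit 836) (nat_lit 0) (XT.lf (nat_lit 0) (nat_lit 4543433711) (nat_lit 836) (nat_lit 2234200689) (nat_lit 912) (nat_lit 705169753) (nat_lit 333) (nat_lit 5) (nat_lit 344) (nat_lit 5) (nat_lit 345) (nat_lit 5) (nat_lit 425) (nat_lit 363) (nat_lit 352)) (XT.lf (nat_lit 0) (nat_lit 2328274878) (nat_lit 760) (nat_lit 139748509) (nat_lit 836) (nat_lit 5065616686) (nat_lit 322) (nat_lit 5) (nat_lit 332)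 (nat_lit 5) (nat_lit 333) (nat_lit 5) (nat_lit 426) (nat_lit 363) (nat_lit 351)))))) (XT.nd (nat_lit 390) (nat_lit 2888) (nat_lit 0) (XT.nd (nat_lit 156) (nat_lit 1596) (nat_lit 0) (XT.nd (nat_lit 78) (nat_lit 76) (nat_lit 0) (XT.lf (nat_lit 0) (nat_lit 73878068) (nat_lit 760) (nat_lit 5596098688) (nat_lit 836) (nat_lit 1915961411) (nat_lit 312) (nat_lit 5) (nat_lit 322) (nat_lit 5) (nat_lit 323) (nat_lit 5) (nat_lit 427) (nat_lit 363) (nat_lit 350)) (XT.lf (nat_lit 0) (nat_lit 1257511285) (nat_lit 836) (nat_lit 2184615393) (nat_lit 76) (nat_lit 4197462709) (nat_lit 311) (nat_lit 5) (nat_lit 322) (nat_lit 5) (nat_lit 312) (nat_lit 5) (nat_lit 428) (nat_lit 363) (nat_lit 349))) (XT.nd (nat_lit 78) (nat_lit 836) (nat_lit 0) (XT.lf (nat_lit 0) (nat_lit 3214413701) (nat_lit 760) (nat_lit 1218164433) (nat_lit 836) (nat_lit 3262238141) (nat_lit 301) (nat_lit 5) (nat_lit 311) (nat_lit 5) (nat_lit 312) (nat_lit 5) (nat_lit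 429) (nat_lit 363) (nat_lit 348)) (XT.nd (nat_lit 78) (nat_lit 76) (nat_lit 0) (XT.lf (nat_lit 0) (nat_lit 940480803) (nat_lit 760) (nat_lit 6701888141) (nat_lit 836) (nat_lit 109385210) (nat_lit 291) (nat_lit 5) (nat_lit 301) (nat_lit 5) (nat_lit 302) (nat_lit 5) (nat_lit 430) (nat_lit 363) (nat_lit 347)) (XT.lf (nat_lit 0) (nat_lit 3047942509) (nat_lit 836) (nat_lit 1372617917) (nat_lit 76) (nat_lit 3389253470) (nat_lit 290) (nat_lit 5) (nat_lit 301) (nat_lit 5) (nat_lit 291) (nat_lit 5) (nat_lit 431) (nat_lit 363) (nat_lit 346))))) (XT.nd (nat_lit 156) (nat_lit 1444) (nat_lit 0) (XT.nd (nat_lit 78) (nat_lit 760) (nat_lit 0) (XT.lf (nat_lit 0) (nat_lit 4164521051) (nat_lit 684) (nat_lit 2074400753) (nat_lit 760) (nat_lit 1630688298) (nat_lit 281) (nat_lit 5) (nat_lit 290) (nat_lit 5) (nat_lit 291) (nat_lit 5) (nat_lit 432) (nat_lit 363) (nat_lit 345)) (XT.lf (nat_lit 0) (nat_lit 1511323094) (nat_lit 760) (nat_lit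 6083183113) (nat_lit 76) (nat_lit 336546934) (nat_lit 271) (nat_lit 5) (nat_lit 281) (nat_lit 5) (nat_lit 272) (nat_lit 5) (nat_lit 433) (nat_lit 363) (nat_lit 344))) (XT.nd (nat_lit 78) (nat_lit 1444) (nat_lit 0) (XT.lf (nat_lit 0) (nat_lit 4678926148) (nat_lit 760) (nat_lit 520956247) (nat_lit 76) (nat_lit 2793962786) (nat_lit 271) (nat_lit 5) (nat_lit 281) (nat_lit 5) (nat_lit 272) (nat_lit 5) (nat_lit 434) (nat_lit 363) (nat_lit 343)) (XT.nd (nat_lit 78) (nat_lit 760) (nat_lit 0) (XT.lf (nat_lit 0) (nat_lit 5156279370) (nat_lit 684) (nat_lit 2733943048) (nat_lit 760) (nat_lit 168090726) (nat_lit 262) (nat_lit 5) (nat_lit 271) (nat_lit 5) (nat_lit 272) (nat_lit 5) (nat_lit 435) (nat_lit 363) (nat_lit 342)) (XT.lf (nat_lit 0) (nat_lit 2782674619) (nat_lit 684) (nat_lit 187812843) (nat_lit 760) (nat_lit 5153839784) (nat_lit 252) (nat_lit 5) (nat_lit 261) (nat_lit 5) (nat_lit 262) (nat_lit 5) (nat_lit 436) (nat_lit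 363) (nat_lit 341))))))) (XT.nd (nat_lit 780) (nat_lit 3572) (nat_lit 0) (XT.nd (nat_lit 390) (nat_lit 2356) (nat_lit 0) (XT.nd (nat_lit 156) (nat_lit 1292) (nat_lit 0) (XT.nd (nat_lit 78) (nat_lit 76) (nat_lit 0) (XT.lf (nat_lit 0) (nat_lit 352133090) (nat_lit 608) (nat_lit 5802655089) (nat_lit 684) (nat_lit 2037172548) (nat_lit 244) (nat_lit 5) (nat_lit 252) (nat_lit 5) (nat_lit 253) (nat_lit 5) (nat_lit 437) (nat_lit 363) (nat_lit 340)) (XT.lf (nat_lit 0) (nat_lit 1112088479) (nat_lit 684) (nat_lit 2101956837) (nat_lit 76) (nat_lit 5047072947) (nat_lit 243) (nat_lit 5) (nat_lit 252) (nat_lit 5) (nat_lit 244) (nat_lit 5) (nat_lit 438) (nat_lit 363) (nat_lit 339))) (XT.nd (nat_lit 78) (nat_lit 684) (nat_lit 0) (XT.lf (nat_lit 0) (nat_lit 3722238975) (nat_lit 608) (nat_lit 547941389) (nat_lit 684) (nat_lit 4061770693) (nat_lit 235) (nat_lit 5) (nat_lit 243) (nat_lit 5) (nat_lit 244) (nat_lit 5) (nat_lit 439)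 (nat_lit 363) (nat_lit 338)) (XT.nd (nat_lit 78) (nat_lit 76) (nat_lit 0) (XT.lf (nat_lit 0) (nat_lit 1225078804) (nat_lit 608) (nat_lit 6252043929) (nat_lit 684) (nat_lit 927387423) (nat_lit 227) (nat_lit 5) (nat_lit 235) (nat_lit 5) (nat_lit 236) (nat_lit 5) (nat_lit 440) (nat_lit 363) (nat_lit 337)) (XT.lf (nat_lit 0) (nat_lit 2224343731) (nat_lit 684) (nat_lit 1321977914) (nat_lit 76) (nat_lit 4932238029) (nat_lit 226) (nat_lit 5) (nat_lit 235) (nat_lit 5) (nat_lit 227) (nat_lit 5) (nat_lit 441) (nat_lit 363) (nat_lit 336))))) (XT.nd (nat_lit 156) (nat_lit 1140) (nat_lit 0) (XT.nd (nat_lit 78) (nat_lit 608) (nat_lit 0) (XT.lf (nat_lit 0) (nat_lit 4644099370) (nat_lit 608) (nat_lit 763403981) (nat_lit 684) (nat_lit 3146870072) (nat_lit 218) (nat_lit 5) (nat_lit 226) (nat_lit 5) (nat_lit 227) (nat_lit 5) (nat_lit 442) (nat_lit 363) (nat_lit 335)) (XT.lf (nat_lit 0) (nat_lit 9148532) (nat_lit 608) (nat_lit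 6566376697) (nat_lit 76) (nat_lit 2056460043) (nat_lit 210) (nat_lit 5) (nat_lit 218) (nat_lit 5) (nat_lit 211) (nat_lit 5) (nat_lit 443) (nat_lit 363) (nat_lit 334))) (XT.nd (nat_lit 78) (nat_lit 1140) (nat_lit 0) (XT.lf (nat_lit 0) (nat_lit 3168981233) (nat_lit 608) (nat_lit 586710090) (nat_lit 76) (nat_lit 4955406211) (nat_lit 210) (nat_lit 5) (nat_lit 218) (nat_lit 5) (nat_lit 211) (nat_lit 5) (nat_lit 444) (nat_lit 363) (nat_lit 333)) (XT.nd (nat_lit 78) (nat_lit 608) (nat_lit 0) (XT.lf (nat_lit 0) (nat_lit 5522200427) (nat_lit 532) (nat_lit 857939928) (nat_lit 608) (nat_lit 2411909481) (nat_lit 203) (nat_lit 5) (nat_lit 210) (nat_lit 5) (nat_lit 211) (nat_lit 5) (nat_lit 445) (nat_lit 363) (nat_lit 332)) (XT.lf (nat_lit 0) (nat_lit 759343137) (nat_lit 608) (nat_lit 6032693085) (nat_lit 76) (nat_lit 2082729492) (nat_lit 195) (nat_lit 5) (nat_lit 203) (nat_lit 5) (nat_lit 196) (nat_lit 5) (nat_lit 446) (nat_lit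 363) (nat_lit 331)))))) (XT.nd (nat_lit 390) (nat_lit 1976) (nat_lit 0) (XT.nd (nat_lit 156) (nat_lit 1064) (nat_lit 0) (XT.nd (nat_lit 78) (nat_lit 0) (nat_lit 0) (XT.lf (nat_lit 0) (nat_lit 77622139) (nat_lit 532) (nat_lit 3865305573) (nat_lit 608) (nat_lit 5016284510) (nat_lit 188) (nat_lit 5) (nat_lit 195) (nat_lit 5) (nat_lit 196) (nat_lit 5) (nat_lit 447) (nat_lit 363) (nat_lit 330)) (XT.lf (nat_lit 0) (nat_lit 6328880223) (nat_lit 532) (nat_lit 855199333) (nat_lit 608) (nat_lit 1861409031) (nat_lit 188) (nat_lit 5) (nat_lit 195) (nat_lit 5) (nat_lit 196) (nat_lit 5) (nat_lit 448) (nat_lit 363) (nat_lit 329))) (XT.nd (nat_lit 78) (nat_lit 532) (nat_lit 0) (XT.lf (nat_lit 0) (nat_lit 1330293423) (nat_lit 532) (nat_lit 5601325099) (nat_lit 76) (nat_lit 2201883487) (nat_lit 181) (nat_lit 5) (nat_lit 188) (nat_lit 5) (nat_lit 182) (nat_lit 5) (nat_lit 449) (nat_lit 363) (nat_lit 328)) (XT.nd (nat_lit 78) (nat_lit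 0) (nat_lit 0) (XT.lf (nat_lit 0) (nat_lit 647389130) (nat_lit 532) (nat_lit 3896154950) (nat_lit 608) (nat_lit 4679850524) (nat_lit 174) (nat_lit 5) (nat_lit 181) (nat_lit 5) (nat_lit 182) (nat_lit 5) (nat_lit 450) (nat_lit 363) (nat_lit 327)) (XT.lf (nat_lit 0) (nat_lit 7034577396) (nat_lit 532) (nat_lit 778956709) (nat_lit 608) (nat_lit 1501718863) (nat_lit 174) (nat_lit 5) (nat_lit 181) (nat_lit 5) (nat_lit 182) (nat_lit 5) (nat_lit 451) (nat_lit 363) (nat_lit 326))))) (XT.nd (nat_lit 234) (nat_lit 988) (nat_lit 0) (XT.nd (nat_lit 78) (nat_lit 456) (nat_lit 0) (XT.lf (nat_lit 0) (nat_lit 1715102309) (nat_lit 532) (nat_lit 5303315029) (nat_lit 76) (nat_lit 2390363006) (nat_lit 167) (nat_lit 5) (nat_lit 174) (nat_lit 5) (nat_lit 168) (nat_lit 5) (nat_lit 452) (nat_lit 363) (nat_lit 325)) (XT.nd (nat_lit 78) (nat_lit 0) (nat_lit 0) (XT.lf (nat_lit 0) (nat_lit 1083182302) (nat_lit 456) (nat_lit 3876409038) (nat_lit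 532) (nat_lit 4544736012) (nat_lit 161) (nat_lit 5) (nat_lit 167) (nat_lit 5) (nat_lit 168) (nat_lit 5) (nat_lit 453) (nat_lit 363) (nat_lit 324)) (XT.lf (nat_lit 0) (nat_lit 7607515899) (nat_lit 456) (nat_lit 653330746) (nat_lit 532) (nat_lit 1341117202) (nat_lit 161) (nat_lit 5) (nat_lit 167) (nat_lit 5) (nat_lit 168) (nat_lit 5) (nat_lit 454) (nat_lit 363) (nat_lit 323)))) (XT.nd (nat_lit 78) (nat_lit 456) (nat_lit 0) (XT.lf (nat_lit 0) (nat_lit 1904937769) (nat_lit 532) (nat_lit 5172108647) (nat_lit 76) (nat_lit 2624199315) (nat_lit 154) (nat_lit 5) (nat_lit 161) (nat_lit 5) (nat_lit 155) (nat_lit 5) (nat_lit 455) (nat_lit 363) (nat_lit 322)) (XT.nd (nat_lit 78) (nat_lit 0) (nat_lit 0) (XT.lf (nat_lit 0) (nat_lit 1350895178) (nat_lit 456) (nat_lit 3830828565) (nat_lit 532) (nat_lit 4620952016) (nat_lit 148) (nat_lit 5) (nat_lit 154) (nat_lit 5) (nat_lit 155) (nat_lit 5) (nat_lit 456) (nat_lit 363) (nat_lit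 321)) (XT.lf (nat_lit 0) (nat_lit 8013364373) (nat_lit 456) (nat_lit 503012147) (nat_lit 532) (nat_lit 1389926098) (nat_lit 148) (nat_lit 5) (nat_lit 154) (nat_lit 5) (nat_lit 155) (nat_lit 5) (nat_lit 457) (nat_lit 363) (nat_lit 320))))))))
noncomputable def xc53 : XT := (XT.nd (nat_lit 1638) (nat_lit 3040) (nat_lit 0) (XT.nd (nat_lit 780) (nat_lit 2356) (nat_lit 0) (XT.nd (nat_lit 390) (nat_lit 1216) (nat_lit 0) (XT.nd (nat_lit 156) (nat_lit 836) (nat_lit 0) (XT.nd (nat_lit 78) (nat_lit 456) (nat_lit 0) (XT.lf (nat_lit 0) (nat_lit 1888911232) (nat_lit 456) (nat_lit 5243909135) (nat_lit 76) (nat_lit 2878784765) (nat_lit 142) (nat_lit 5) (nat_lit 148) (nat_lit 5) (nat_lit 143) (nat_lit 5) (nat_lit 458) (nat_lit 363) (nat_lit 319)) (XT.lf (nat_lit 0) (nat_lit 1413562433) (nat_lit 456) (nat_lit 3784938793) (nat_lit 532) (nat_lit 4920666978) (nat_lit 136) (nat_lit 5) (nat_lit 142) (nat_lit 5) (nat_lit 143) (nat_lit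 5) (nat_lit 459) (nat_lit 363) (nat_lit 318))) (XT.nd (nat_lit 78) (nat_lit 836) (nat_lit 0) (XT.lf (nat_lit 0) (nat_lit 8214866884) (nat_lit 456) (nat_lit 353501516) (nat_lit 532) (nat_lit 1660646152) (nat_lit 136) (nat_lit 5) (nat_lit 142) (nat_lit 5) (nat_lit 143) (nat_lit 5) (nat_lit 460) (nat_lit 363) (nat_lit 317)) (XT.nd (nat_lit 78) (nat_lit 380) (nat_lit 0) (XT.lf (nat_lit 0) (nat_lit 1653936725) (nat_lit 456) (nat_lit 5558061376) (nat_lit 76) (nat_lit 3128632908) (nat_lit 130) (nat_lit 5) (nat_lit 136) (nat_lit 5) (nat_lit 131) (nat_lit 5) (nat_lit 461) (nat_lit 363) (nat_lit 316)) (XT.lf (nat_lit 0) (nat_lit 1230964532) (nat_lit 380) (nat_lit 3765277528) (nat_lit 456) (nat_lit 5458357792) (nat_lit 125) (nat_lit 5) (nat_lit 130) (nat_lit 5) (nat_lit 131) (nat_lit 5) (nat_lit 462) (nat_lit 363) (nat_lit 315))))) (XT.nd (nat_lit 156) (nat_lit 760) (nat_lit 0) (XT.nd (nat_lit 78) (nat_lit 456) (nat_lit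 0) (XT.lf (nat_lit 0) (nat_lit 8171441451) (nat_lit 380) (nat_lit 231359457) (nat_lit 456) (nat_lit 2168111693) (nat_lit 125) (nat_lit 5) (nat_lit 130) (nat_lit 5) (nat_lit 131) (nat_lit 5) (nat_lit 463) (nat_lit 363) (nat_lit 314)) (XT.lf (nat_lit 0) (nat_lit 1184569246) (nat_lit 456) (nat_lit 6157470317) (nat_lit 76) (nat_lit 3347125769) (nat_lit 119) (nat_lit 5) (nat_lit 125) (nat_lit 5) (nat_lit 120) (nat_lit 5) (nat_lit 464) (nat_lit 363) (nat_lit 313))) (XT.nd (nat_lit 78) (nat_lit 380) (nat_lit 0) (XT.lf (nat_lit 0) (nat_lit 759197057) (nat_lit 380) (nat_lit 3799657117) (nat_lit 456) (nat_lit 6250982637) (nat_lit 114) (nat_lit 5) (nat_lit 119) (nat_lit 5) (nat_lit 120) (nat_lit 5) (nat_lit 465) (nat_lit 363) (nat_lit 312)) (XT.nd (nat_lit 78) (nat_lit 380) (nat_lit 0) (XT.lf (nat_lit 0) (nat_lit 7838742458) (nat_lit 380) (nat_lit 164471133) (nat_lit 456) (nat_lit 2929668067) (nat_lit 114) (nat_lit 5)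 (nat_lit 119) (nat_lit 5) (nat_lit 120) (nat_lit 5) (nat_lit 466) (nat_lit 363) (nat_lit 311)) (XT.lf (nat_lit 0) (nat_lit 462820627) (nat_lit 380) (nat_lit 7089057463) (nat_lit 76) (nat_lit 3506245973) (nat_lit 109) (nat_lit 5) (nat_lit 114) (nat_lit 5) (nat_lit 110) (nat_lit 5) (nat_lit 467) (nat_lit 363) (nat_lit 310)))))) (XT.nd (nat_lit 390) (nat_lit 1292) (nat_lit 0) (XT.nd (nat_lit 156) (nat_lit 684) (nat_lit 0) (XT.nd (nat_lit 78) (nat_lit 380) (nat_lit 0) (XT.lf (nat_lit 0) (nat_lit 3867966721) (nat_lit 380) (nat_lit 49146330) (nat_lit 76) (nat_lit 7268701284) (nat_lit 109) (nat_lit 5) (nat_lit 114) (nat_lit 5) (nat_lit 110) (nat_lit 5) (nat_lit 468) (nat_lit 363) (nat_lit 309)) (XT.lf (nat_lit 0) (nat_lit 7168182704) (nat_lit 380) (nat_lit 182327736) (nat_lit 456) (nat_lit 3965372898) (nat_lit 104) (nat_lit 5) (nat_lit 109) (nat_lit 5) (nat_lit 110) (nat_lit 5) (nat_lit 469) (nat_lit 363) (nat_lit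 308))) (XT.nd (nat_lit 78) (nat_lit 380) (nat_lit 0) (XT.lf (nat_lit 0) (nat_lit 3040671897) (nat_lit 304) (nat_lit 7868640613) (nat_lit 380) (nat_lit 539119668) (nat_lit 100) (nat_lit 5) (nat_lit 104) (nat_lit 5) (nat_lit 105) (nat_lit 5) (nat_lit 470) (nat_lit 363) (nat_lit 307)) (XT.nd (nat_lit 78) (nat_lit 304) (nat_lit 0) (XT.lf (nat_lit 0) (nat_lit 2909204258) (nat_lit 380) (nat_lit 1232376167) (nat_lit 76) (nat_lit 7441831771) (nat_lit 99) (nat_lit 5) (nat_lit 104) (nat_lit 5) (nat_lit 100) (nat_lit 5) (nat_lit 471) (nat_lit 363) (nat_lit 306)) (XT.lf (nat_lit 0) (nat_lit 6106410400) (nat_lit 304) (nat_lit 316327473) (nat_lit 380) (nat_lit 5298223426) (nat_lit 95) (nat_lit 5) (nat_lit 99) (nat_lit 5) (nat_lit 100) (nat_lit 5) (nat_lit 472) (nat_lit 363) (nat_lit 305))))) (XT.nd (nat_lit 234) (nat_lit 608) (nat_lit 0) (XT.nd (nat_lit 78) (nat_lit 380) (nat_lit 0) (XT.lf (nat_lit 0) (nat_lit 1689563729)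 (nat_lit 304) (nat_lit 8323572234) (nat_lit 380) (nat_lit 1848003345) (nat_lit 91) (nat_lit 5) (nat_lit 95) (nat_lit 5) (nat_lit 96) (nat_lit 5) (nat_lit 473) (nat_lit 363) (nat_lit 304)) (XT.nd (nat_lit 78) (nat_lit 304) (nat_lit 0) (XT.lf (nat_lit 0) (nat_lit 1653437473) (nat_lit 380) (nat_lit 2857650752) (nat_lit 76) (nat_lit 7492742364) (nat_lit 90) (nat_lit 5) (nat_lit 95) (nat_lit 5) (nat_lit 91) (nat_lit 5) (nat_lit 474) (nat_lit 363) (nat_lit 303)) (XT.lf (nat_lit 0) (nat_lit 4594736008) (nat_lit 304) (nat_lit 600098904) (nat_lit 380) (nat_lit 6954412260) (nat_lit 86) (nat_lit 5) (nat_lit 90) (nat_lit 5) (nat_lit 91) (nat_lit 5) (nat_lit 475) (nat_lit 363) (nat_lit 302)))) (XT.nd (nat_lit 78) (nat_lit 608) (nat_lit 0) (XT.lf (nat_lit 0) (nat_lit 8813381181) (nat_lit 380) (nat_lit 140456998) (nat_lit 76) (nat_lit 3343616544) (nat_lit 86) (nat_lit 5) (nat_lit 91) (nat_lit 5) (nat_lit 87) (nat_lit 5) (nat_lit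 476) (nat_lit 363) (nat_lit 301)) (XT.nd (nat_lit 78) (nat_lit 304) (nat_lit 0) (XT.lf (nat_lit 0) (nat_lit 73166895) (nat_lit 304) (nat_lit 4987945349) (nat_lit 76) (nat_lit 7387151152) (nat_lit 82) (nat_lit 5) (nat_lit 86) (nat_lit 5) (nat_lit 83) (nat_lit 5) (nat_lit 477) (nat_lit 363) (nat_lit 300)) (XT.lf (nat_lit 0) (nat_lit 2568503267) (nat_lit 304) (nat_lit 1069849691) (nat_lit 380) (nat_lit 8963614171) (nat_lit 78) (nat_lit 5) (nat_lit 82) (nat_lit 5) (nat_lit 83) (nat_lit 5) (nat_lit 478) (nat_lit 363) (nat_lit 299))))))) (XT.nd (nat_lit 780) (nat_lit 1368) (nat_lit 0) (XT.nd (nat_lit 390) (nat_lit 836) (nat_lit 0) (XT.nd (nat_lit 156) (nat_lit 608) (nat_lit 0) (XT.nd (nat_lit 78) (nat_lit 228) (nat_lit 0) (XT.lf (nat_lit 0) (nat_lit 7293986834) (nat_lit 380) (nat_lit 2489325378) (nat_lit 76) (nat_lit 2975058206) (nat_lit 78) (nat_lit 5) (nat_lit 83) (nat_lit 5) (nat_lit 79) (nat_lit 5) (nat_lit 479)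 (nat_lit 363) (nat_lit 298)) (XT.lf (nat_lit 0) (nat_lit 5212825024) (nat_lit 228) (nat_lit 5817470595) (nat_lit 304) (nat_lit 1887463109) (nat_lit 75) (nat_lit 5) (nat_lit 78) (nat_lit 5) (nat_lit 79) (nat_lit 5) (nat_lit 480) (nat_lit 363) (nat_lit 297))) (XT.nd (nat_lit 78) (nat_lit 532) (nat_lit 0) (XT.lf (nat_lit 0) (nat_lit 1721425423) (nat_lit 304) (nat_lit 43029906) (nat_lit 76) (nat_lit 11315988178) (nat_lit 74) (nat_lit 5) (nat_lit 78) (nat_lit 5) (nat_lit 75) (nat_lit 5) (nat_lit 481) (nat_lit 363) (nat_lit 296)) (XT.nd (nat_lit 78) (nat_lit 228) (nat_lit 0) (XT.lf (nat_lit 0) (nat_lit 5410975557) (nat_lit 380) (nat_lit 5452605390) (nat_lit 76) (nat_lit 2381884100) (nat_lit 70) (nat_lit 5) (nat_lit 75) (nat_lit 5) (nat_lit 71) (nat_lit 5) (nat_lit 482) (nat_lit 363) (nat_lit 295)) (XT.lf (nat_lit 0) (nat_lit 2337889161) (nat_lit 228) (nat_lit 6831109176) (nat_lit 304) (nat_lit 4244902623) (nat_lit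 67) (nat_lit 5) (nat_lit 70) (nat_lit 5) (nat_lit 71) (nat_lit 5) (nat_lit 483) (nat_lit 363) (nat_lit 294))))) (XT.nd (nat_lit 156) (nat_lit 532) (nat_lit 0) (XT.nd (nat_lit 78) (nat_lit 304) (nat_lit 0) (XT.lf (nat_lit 0) (nat_lit 10305101441) (nat_lit 228) (nat_lit 2701489296) (nat_lit 304) (nat_lit 579034097) (nat_lit 67) (nat_lit 5) (nat_lit 70) (nat_lit 5) (nat_lit 71) (nat_lit 5) (nat_lit 484) (nat_lit 363) (nat_lit 293)) (XT.lf (nat_lit 0) (nat_lit 3127200674) (nat_lit 304) (nat_lit 9111353361) (nat_lit 76) (nat_lit 1521656038) (nat_lit 63) (nat_lit 5) (nat_lit 67) (nat_lit 5) (nat_lit 64) (nat_lit 5) (nat_lit 485) (nat_lit 363) (nat_lit 292))) (XT.nd (nat_lit 78) (nat_lit 532) (nat_lit 0) (XT.lf (nat_lit 0) (nat_lit 6908250171) (nat_lit 304) (nat_lit 1230977110) (nat_lit 76) (nat_lit 5798821320) (nat_lit 63) (nat_lit 5) (nat_lit 67) (nat_lit 5) (nat_lit 64) (nat_lit 5) (nat_lit 486) (nat_lit 363) (nat_lit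 291)) (XT.nd (nat_lit 78) (nat_lit 304) (nat_lit 0) (XT.lf (nat_lit 0) (nat_lit 6845261894) (nat_lit 228) (nat_lit 3933108197) (nat_lit 304) (nat_lit 3340811681) (nat_lit 60) (nat_lit 5) (nat_lit 63) (nat_lit 5) (nat_lit 64) (nat_lit 5) (nat_lit 487) (nat_lit 363) (nat_lit 290)) (XT.lf (nat_lit 0) (nat_lit 400975442) (nat_lit 304) (nat_lit 13555134530) (nat_lit 76) (nat_lit 348088345) (nat_lit 56) (nat_lit 5) (nat_lit 60) (nat_lit 5) (nat_lit 57) (nat_lit 5) (nat_lit 488) (nat_lit 363) (nat_lit 289)))))) (XT.nd (nat_lit 390) (nat_lit 836) (nat_lit 0) (XT.nd (nat_lit 156) (nat_lit 304) (nat_lit 0) (XT.nd (nat_lit 78) (nat_lit 228) (nat_lit 0) (XT.lf (nat_lit 0) (nat_lit 4217299471) (nat_lit 304) (nat_lit 5561073443) (nat_lit 76) (nat_lit 4713218395) (nat_lit 56) (nat_lit 5) (nat_lit 60) (nat_lit 5) (nat_lit 57) (nat_lit 5) (nat_lit 489) (nat_lit 363) (nat_lit 288)) (XT.lf (nat_lit 0) (nat_lit 2575920564) (nat_lit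 228) (nat_lit 5520568369) (nat_lit 304) (nat_lit 6586518789) (nat_lit 53) (nat_lit 5) (nat_lit 56) (nat_lit 5) (nat_lit 57) (nat_lit 5) (nat_lit 490) (nat_lit 363) (nat_lit 287))) (XT.nd (nat_lit 78) (nat_lit 304) (nat_lit 0) (XT.lf (nat_lit 0) (nat_lit 10900638069) (nat_lit 228) (nat_lit 1160020871) (nat_lit 304) (nat_lit 2817451804) (nat_lit 53) (nat_lit 5) (nat_lit 56) (nat_lit 5) (nat_lit 57) (nat_lit 5) (nat_lit 491) (nat_lit 363) (nat_lit 286)) (XT.nd (nat_lit 78) (nat_lit 0) (nat_lit 0) (XT.lf (nat_lit 0) (nat_lit 1033451788) (nat_lit 304) (nat_lit 10783615375) (nat_lit 76) (nat_lit 3259522785) (nat_lit 49) (nat_lit 5) (nat_lit 53) (nat_lit 5) (nat_lit 50) (nat_lit 5) (nat_lit 492) (nat_lit 363) (nat_lit 285)) (XT.lf (nat_lit 0) (nat_lit 4928825091) (nat_lit 304) (nat_lit 2572217098) (nat_lit 76) (nat_lit 7777526392) (nat_lit 49) (nat_lit 5) (nat_lit 53) (nat_lit 5) (nat_lit 50) (nat_lit 5) (nat_lit 493)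 (nat_lit 363) (nat_lit 284))))) (XT.nd (nat_lit 234) (nat_lit 380) (nat_lit 0) (XT.nd (nat_lit 78) (nat_lit 304) (nat_lit 0) (XT.lf (nat_lit 0) (nat_lit 5830920961) (nat_lit 152) (nat_lit 3080211830) (nat_lit 228) (nat_lit 6573279198) (nat_lit 47) (nat_lit 5) (nat_lit 49) (nat_lit 5) (nat_lit 50) (nat_lit 5) (nat_lit 494) (nat_lit 363) (nat_lit 283)) (XT.nd (nat_lit 78) (nat_lit 304) (nat_lit 0) (XT.lf (nat_lit 0) (nat_lit 12971028144) (nat_lit 228) (nat_lit 1315517419) (nat_lit 76) (nat_lit 1407873500) (nat_lit 47) (nat_lit 5) (nat_lit 50) (nat_lit 5) (nat_lit 48) (nat_lit 5) (nat_lit 495) (nat_lit 363) (nat_lit 282)) (XT.lf (nat_lit 0) (nat_lit 1227060950) (nat_lit 304) (nat_lit 8700599667) (nat_lit 76) (nat_lit 5980027797) (nat_lit 43) (nat_lit 5) (nat_lit 47) (nat_lit 5) (nat_lit 44) (nat_lit 5) (nat_lit 496) (nat_lit 363) (nat_lit 281)))) (XT.nd (nat_lit 78) (nat_lit 380) (nat_lit 0) (XT.lf (nat_lit 0)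 (nat_lit 5200878397) (nat_lit 304) (nat_lit 273347832) (nat_lit 76) (nat_lit 10651025740) (nat_lit 43) (nat_lit 5) (nat_lit 47) (nat_lit 5) (nat_lit 44) (nat_lit 5) (nat_lit 497) (nat_lit 363) (nat_lit 280)) (XT.nd (nat_lit 78) (nat_lit 228) (nat_lit 0) (XT.lf (nat_lit 0) (nat_lit 8385180726) (nat_lit 152) (nat_lit 895886935) (nat_lit 228) (nat_lit 7065566425) (nat_lit 41) (nat_lit 5) (nat_lit 43) (nat_lit 5) (nat_lit 44) (nat_lit 5) (nat_lit 498) (nat_lit 363) (nat_lit 279)) (XT.lf (nat_lit 0) (nat_lit 583966635) (nat_lit 228) (nat_lit 12861596823) (nat_lit 304) (nat_lit 3126831430) (nat_lit 38) (nat_lit 5) (nat_lit 41) (nat_lit 5) (nat_lit 42) (nat_lit 5) (nat_lit 499) (nat_lit 363) (nat_lit 278))))))))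
noncomputable def xc54 : XT := (XT.nd (nat_lit 53664) (nat_lit 0) (nat_lit 12540) (XT.nd (nat_lit 52806) (nat_lit 0) (nat_lit 22192) (XT.nd (nat_lit 390) (nat_lit 152) (nat_lit 0) (XT.nd (nat_lit 156) (nat_lit 228) (nat_lit 0) (XT.nd (nat_lit 78) (nat_lit 152) (nat_lit 0) (XT.lf (nat_lit 0) (nat_lit 911318068) (nat_lit 304) (nat_lit 7452869460) (nat_lit 76) (nat_lit 8437726196) (nat_lit 37) (nat_lit 5) (nat_lit 41) (nat_lit 5) (nat_lit 38) (nat_lit 5) (nat_lit 500) (nat_lit 363) (nat_lit 277)) (XT.lf (nat_lit 0) (nat_lit 1201974798) (nat_lit 152) (nat_lit 3767376552) (nat_lit 228) (nat_lit 12066643244) (nat_lit 35) (nat_lit 5) (nat_lit 37) (nat_lit 5) (nat_lit 38) (nat_lit 5) (nat_lit 501) (nat_lit 363) (nat_lit 276))) (XT.nd (nat_lit 78) (nat_lit 228) (nat_lit 0) (XT.lf (nat_lit 0) (nat_lit 9138117062) (nat_lit 228) (nat_lit 7195715495) (nat_lit 76) (nat_lit 940337798) (nat_lit 35) (nat_lit 5) (nat_lit 38)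 (nat_lit 5) (nat_lit 36) (nat_lit 5) (nat_lit 502) (nat_lit 363) (nat_lit 275)) (XT.nd (nat_lit 78) (nat_lit 76) (nat_lit 0) (XT.lf (nat_lit 0) (nat_lit 1565260663) (nat_lit 152) (nat_lit 11833879970) (nat_lit 228) (nat_lit 4117795966) (nat_lit 33) (nat_lit 5) (nat_lit 35) (nat_lit 5) (nat_lit 36) (nat_lit 5) (nat_lit 503) (nat_lit 363) (nat_lit 274)) (XT.lf (nat_lit 0) (nat_lit 3498110) (nat_lit 228) (nat_lit 7210516911) (nat_lit 76) (nat_lit 10550101671) (nat_lit 32) (nat_lit 5) (nat_lit 35) (nat_lit 5) (nat_lit 33) (nat_lit 5) (nat_lit 504) (nat_lit 363) (nat_lit 273))))) (XT.nd (nat_lit 52182) (nat_lit 0) (nat_lit 31920) (XT.nd (nat_lit 52104) (nat_lit 0) (nat_lit 34960) (XT.lf (nat_lit 0) (nat_lit 1655072923) (nat_lit 152) (nat_lit 2482132011) (nat_lit 228) (nat_lit 13878792948) (nat_lit 30) (nat_lit 5) (nat_lit 32) (nat_lit 5) (nat_lit 33) (nat_lit 5) (nat_lit 505) (nat_lit 363) (nat_lit 272)) (XT.lf (nat_lit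 0) (nat_lit 1053623948) (nat_lit 1444) (nat_lit 1368762303) (nat_lit 0) (nat_lit 1053623948) (nat_lit 490) (nat_lit 5) (nat_lit 509) (nat_lit 4) (nat_lit 490) (nat_lit 4) (nat_lit 412) (nat_lit 364) (nat_lit 364))) (XT.nd (nat_lit 78) (nat_lit 1596) (nat_lit 0) (XT.lf (nat_lit 0) (nat_lit 1973387794) (nat_lit 1444) (nat_lit 3423053678) (nat_lit 1444) (nat_lit 1588588132) (nat_lit 471) (nat_lit 4) (nat_lit 490) (nat_lit 5) (nat_lit 490) (nat_lit 4) (nat_lit 413) (nat_lit 364) (nat_lit 363)) (XT.nd (nat_lit 78) (nat_lit 1520) (nat_lit 0) (XT.lf (nat_lit 0) (nat_lit 1661072641) (nat_lit 1520) (nat_lit 277594443) (nat_lit 76) (nat_lit 5080832198) (nat_lit 470) (nat_lit 5) (nat_lit 490) (nat_lit 5) (nat_lit 471) (nat_lit 4) (nat_lit 414) (nat_lit 364) (nat_lit 362)) (XT.lf (nat_lit 0) (nat_lit 4537856120) (nat_lit 1520) (nat_lit 379989579) (nat_lit 1596) (nat_lit 2137380761) (nat_lit 450) (nat_lit 5) (nat_lit 470)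 (nat_lit 5) (nat_lit 471) (nat_lit 4) (nat_lit 415) (nat_lit 364) (nat_lit 361)))))) (XT.nd (nat_lit 390) (nat_lit 3572) (nat_lit 0) (XT.nd (nat_lit 156) (nat_lit 2812) (nat_lit 0) (XT.nd (nat_lit 78) (nat_lit 1672) (nat_lit 0) (XT.lf (nat_lit 0) (nat_lit 1092340810) (nat_lit 1672) (nat_lit 4778618669) (nat_lit 76) (nat_lit 1221417517) (nat_lit 428) (nat_lit 5) (nat_lit 450) (nat_lit 5) (nat_lit 429) (nat_lit 4) (nat_lit 416) (nat_lit 364) (nat_lit 360)) (XT.lf (nat_lit 0) (nat_lit 66062563) (nat_lit 1672) (nat_lit 4247175869) (nat_lit 1748) (nat_lit 2817688802) (nat_lit 406) (nat_lit 5) (nat_lit 428) (nat_lit 5) (nat_lit 429) (nat_lit 4) (nat_lit 417) (nat_lit 364) (nat_lit 359))) (XT.nd (nat_lit 78) (nat_lit 2736) (nat_lit 0) (XT.lf (nat_lit 0) (nat_lit 390585825) (nat_lit 1748) (nat_lit 2164386627) (nat_lit 76) (nat_lit 4615904049) (nat_lit 405) (nat_lit 5) (nat_lit 428) (nat_lit 5) (nat_lit 406) (nat_lit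 5) (nat_lit 418) (nat_lit 364) (nat_lit 358)) (XT.nd (nat_lit 78) (nat_lit 988) (nat_lit 0) (XT.lf (nat_lit 0) (nat_lit 2789079738) (nat_lit 1748) (nat_lit 791241753) (nat_lit 1824) (nat_lit 3631871055) (nat_lit 382) (nat_lit 5) (nat_lit 405) (nat_lit 5) (nat_lit 406) (nat_lit 5) (nat_lit 419) (nat_lit 364) (nat_lit 357)) (XT.lf (nat_lit 0) (nat_lit 553722309) (nat_lit 988) (nat_lit 6242598825) (nat_lit 1064) (nat_lit 458804371) (nat_lit 369) (nat_lit 5) (nat_lit 382) (nat_lit 5) (nat_lit 383) (nat_lit 4) (nat_lit 420) (nat_lit 364) (nat_lit 356))))) (XT.nd (nat_lit 234) (nat_lit 1672) (nat_lit 0) (XT.nd (nat_lit 78) (nat_lit 1824) (nat_lit 0) (XT.lf (nat_lit 0) (nat_lit 2714485948) (nat_lit 1064) (nat_lit 1695996322) (nat_lit 76) (nat_lit 2888648730) (nat_lit 368) (nat_lit 5) (nat_lit 382) (nat_lit 5) (nat_lit 369) (nat_lit 5) (nat_lit 421) (nat_lit 364) (nat_lit 355)) (XT.nd (nat_lit 78) (nat_lit 912) (nat_lit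 0) (XT.lf (nat_lit 0) (nat_lit 3387921278) (nat_lit 912) (nat_lit 2518468659) (nat_lit 988) (nat_lit 1438377864) (nat_lit 356) (nat_lit 5) (nat_lit 368) (nat_lit 5) (nat_lit 369) (nat_lit 5) (nat_lit 422) (nat_lit 364) (nat_lit 354)) (XT.lf (nat_lit 0) (nat_lit 1145451200) (nat_lit 836) (nat_lit 560672021) (nat_lit 912) (nat_lit 5685829717) (nat_lit 344) (nat_lit 5) (nat_lit 355) (nat_lit 5) (nat_lit 356) (nat_lit 5) (nat_lit 423) (nat_lit 364) (nat_lit 353)))) (XT.nd (nat_lit 78) (nat_lit 1672) (nat_lit 0) (XT.lf (nat_lit 0) (nat_lit 4870718132) (nat_lit 912) (nat_lit 1119350525) (nat_lit 76) (nat_lit 1450329196) (nat_lit 344) (nat_lit 5) (nat_lit 356) (nat_lit 5) (nat_lit 345) (nat_lit 5) (nat_lit 424) (nat_lit 364) (nat_lit 352)) (XT.nd (nat_lit 78) (nat_lit 760) (nat_lit 0) (XT.lf (nat_lit 0) (nat_lit 572465310) (nat_lit 912) (nat_lit 3396751098) (nat_lit 76) (nat_lit 3521117196) (nat_lit 332) (nat_lit 5)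 (nat_lit 344) (nat_lit 5) (nat_lit 333) (nat_lit 5) (nat_lit 425) (nat_lit 364) (nat_lit 351)) (XT.lf (nat_lit 0) (nat_lit 1828405100) (nat_lit 760) (nat_lit 1875989581) (nat_lit 836) (nat_lit 3837340140) (nat_lit 322) (nat_lit 5) (nat_lit 332) (nat_lit 5) (nat_lit 333) (nat_lit 5) (nat_lit 426) (nat_lit 364) (nat_lit 350))))))) (XT.nd (nat_lit 780) (nat_lit 4332) (nat_lit 0) (XT.nd (nat_lit 390) (nat_lit 2888) (nat_lit 0) (XT.nd (nat_lit 156) (nat_lit 1596) (nat_lit 0) (XT.nd (nat_lit 78) (nat_lit 836) (nat_lit 0) (XT.lf (nat_lit 0) (nat_lit 6866169787) (nat_lit 836) (nat_lit 455497685) (nat_lit 76) (nat_lit 273185246) (nat_lit 322) (nat_lit 5) (nat_lit 333) (nat_lit 5) (nat_lit 323) (nat_lit 5) (nat_lit 427) (nat_lit 364) (nat_lit 349)) (XT.lf (nat_lit 0) (nat_lit 2397927266) (nat_lit 836) (nat_lit 2768605548) (nat_lit 76) (nat_lit 2482458380) (nat_lit 311) (nat_lit 5) (nat_lit 322) (nat_lit 5) (nat_lit 312)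 (nat_lit 5) (nat_lit 428) (nat_lit 364) (nat_lit 348))) (XT.nd (nat_lit 78) (nat_lit 836) (nat_lit 0) (XT.lf (nat_lit 0) (nat_lit 2590974639) (nat_lit 760) (nat_lit 2950251514) (nat_lit 836) (nat_lit 2163642588) (nat_lit 301) (nat_lit 5) (nat_lit 311) (nat_lit 5) (nat_lit 312) (nat_lit 5) (nat_lit 429) (nat_lit 364) (nat_lit 347)) (XT.nd (nat_lit 78) (nat_lit 0) (nat_lit 0) (XT.lf (nat_lit 0) (nat_lit 267241966) (nat_lit 760) (nat_lit 670096365) (nat_lit 836) (nat_lit 6825132509) (nat_lit 290) (nat_lit 5) (nat_lit 300) (nat_lit 5) (nat_lit 301) (nat_lit 5) (nat_lit 430) (nat_lit 364) (nat_lit 346)) (XT.lf (nat_lit 0) (nat_lit 4061618104) (nat_lit 836) (nat_lit 2084706997) (nat_lit 76) (nat_lit 1674837961) (nat_lit 290) (nat_lit 5) (nat_lit 301) (nat_lit 5) (nat_lit 291) (nat_lit 5) (nat_lit 431) (nat_lit 364) (nat_lit 345))))) (XT.nd (nat_lit 156) (nat_lit 1444) (nat_lit 0) (XT.nd (nat_lit 78) (nat_lit 760)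 (nat_lit 0) (XT.lf (nat_lit 0) (nat_lit 3411403657) (nat_lit 684) (nat_lit 3809575934) (nat_lit 760) (nat_lit 660626166) (nat_lit 281) (nat_lit 5) (nat_lit 290) (nat_lit 5) (nat_lit 291) (nat_lit 5) (nat_lit 432) (nat_lit 364) (nat_lit 344)) (XT.lf (nat_lit 0) (nat_lit 1036736212) (nat_lit 684) (nat_lit 1397837813) (nat_lit 760) (nat_lit 5509044166) (nat_lit 271) (nat_lit 5) (nat_lit 280) (nat_lit 5) (nat_lit 281) (nat_lit 5) (nat_lit 433) (nat_lit 364) (nat_lit 343))) (XT.nd (nat_lit 78) (nat_lit 1444) (nat_lit 0) (XT.lf (nat_lit 0) (nat_lit 5566796028) (nat_lit 760) (nat_lit 1367193936) (nat_lit 76) (nat_lit 1073141207) (nat_lit 271) (nat_lit 5) (nat_lit 281) (nat_lit 5) (nat_lit 272) (nat_lit 5) (nat_lit 434) (nat_lit 364) (nat_lit 342)) (XT.nd (nat_lit 78) (nat_lit 684) (nat_lit 0) (XT.lf (nat_lit 0) (nat_lit 665444643) (nat_lit 760) (nat_lit 3809232230) (nat_lit 76) (nat_lit 3597478977) (nat_lit 261) (nat_lit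 5) (nat_lit 271) (nat_lit 5) (nat_lit 262) (nat_lit 5) (nat_lit 435) (nat_lit 364) (nat_lit 341)) (XT.lf (nat_lit 0) (nat_lit 1830755884) (nat_lit 684) (nat_lit 1939216712) (nat_lit 760) (nat_lit 4368824993) (nat_lit 252) (nat_lit 5) (nat_lit 261) (nat_lit 5) (nat_lit 262) (nat_lit 5) (nat_lit 436) (nat_lit 364) (nat_lit 340)))))) (XT.nd (nat_lit 390) (nat_lit 2356) (nat_lit 0) (XT.nd (nat_lit 156) (nat_lit 1292) (nat_lit 0) (XT.nd (nat_lit 78) (nat_lit 684) (nat_lit 0) (XT.lf (nat_lit 0) (nat_lit 6915216703) (nat_lit 760) (nat_lit 638925795) (nat_lit 76) (nat_lit 653082010) (nat_lit 252) (nat_lit 5) (nat_lit 262) (nat_lit 5) (nat_lit 253) (nat_lit 5) (nat_lit 437) (nat_lit 364) (nat_lit 339)) (XT.lf (nat_lit 0) (nat_lit 1817967091) (nat_lit 684) (nat_lit 3153228703) (nat_lit 76) (nat_lit 3305691577) (nat_lit 243) (nat_lit 5) (nat_lit 252) (nat_lit 5) (nat_lit 244) (nat_lit 5) (nat_lit 438) (nat_lit 364) (nat_lit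 338))) (XT.nd (nat_lit 78) (nat_lit 684) (nat_lit 0) (XT.lf (nat_lit 0) (nat_lit 2625640040) (nat_lit 608) (nat_lit 2318512947) (nat_lit 684) (nat_lit 3404216893) (nat_lit 235) (nat_lit 5) (nat_lit 243) (nat_lit 5) (nat_lit 244) (nat_lit 5) (nat_lit 439) (nat_lit 364) (nat_lit 337)) (XT.nd (nat_lit 78) (nat_lit 76) (nat_lit 0) (XT.lf (nat_lit 0) (nat_lit 77301233) (nat_lit 608) (nat_lit 8030306009) (nat_lit 684) (nat_lit 314202869) (nat_lit 227) (nat_lit 5) (nat_lit 235) (nat_lit 5) (nat_lit 236) (nat_lit 5) (nat_lit 440) (nat_lit 364) (nat_lit 336)) (XT.lf (nat_lit 0) (nat_lit 2805054268) (nat_lit 684) (nat_lit 2522369206) (nat_lit 76) (nat_lit 3168856097) (nat_lit 226) (nat_lit 5) (nat_lit 235) (nat_lit 5) (nat_lit 227) (nat_lit 5) (nat_lit 441) (nat_lit 364) (nat_lit 335))))) (XT.nd (nat_lit 234) (nat_lit 1140) (nat_lit 0) (XT.nd (nat_lit 78) (nat_lit 608) (nat_lit 0) (XT.lf (nat_lit 0) (nat_lit 3396629080)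 (nat_lit 608) (nat_lit 2559532470) (nat_lit 684) (nat_lit 2616583528) (nat_lit 218) (nat_lit 5) (nat_lit 226) (nat_lit 5) (nat_lit 227) (nat_lit 5) (nat_lit 442) (nat_lit 364) (nat_lit 334)) (XT.nd (nat_lit 78) (nat_lit 0) (nat_lit 0) (XT.lf (nat_lit 0) (nat_lit 488337289) (nat_lit 608) (nat_lit 7891003190) (nat_lit 76) (nat_lit 271840745) (nat_lit 210) (nat_lit 5) (nat_lit 218) (nat_lit 5) (nat_lit 211) (nat_lit 5) (nat_lit 443) (nat_lit 364) (nat_lit 333)) (XT.lf (nat_lit 0) (nat_lit 3624544237) (nat_lit 608) (nat_lit 1942412857) (nat_lit 76) (nat_lit 3163819002) (nat_lit 210) (nat_lit 5) (nat_lit 218) (nat_lit 5) (nat_lit 211) (nat_lit 5) (nat_lit 444) (nat_lit 364) (nat_lit 332)))) (XT.nd (nat_lit 78) (nat_lit 608) (nat_lit 0) (XT.lf (nat_lit 0) (nat_lit 4117609260) (nat_lit 532) (nat_lit 2685812057) (nat_lit 608) (nat_lit 2008962617) (nat_lit 203) (nat_lit 5) (nat_lit 210) (nat_lit 5) (nat_lit 211) (nat_lit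 5) (nat_lit 445) (nat_lit 364) (nat_lit 331)) (XT.nd (nat_lit 78) (nat_lit 0) (nat_lit 0) (XT.lf (nat_lit 0) (nat_lit 1112383488) (nat_lit 608) (nat_lit 7519176496) (nat_lit 76) (nat_lit 264389453) (nat_lit 195) (nat_lit 5) (nat_lit 203) (nat_lit 5) (nat_lit 196) (nat_lit 5) (nat_lit 446) (nat_lit 364) (nat_lit 330)) (XT.lf (nat_lit 0) (nat_lit 4272603849) (nat_lit 608) (nat_lit 1440677037) (nat_lit 76) (nat_lit 3267591668) (nat_lit 195) (nat_lit 5) (nat_lit 203) (nat_lit 5) (nat_lit 196) (nat_lit 5) (nat_lit 447) (nat_lit 364) (nat_lit 329))))))))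
noncomputable def xc55 : XT := (XT.nd (nat_lit 1638) (nat_lit 4028) (nat_lit 0) (XT.nd (nat_lit 780) (nat_lit 2964) (nat_lit 0) (XT.nd (nat_lit 390) (nat_lit 1444) (nat_lit 0) (XT.nd (nat_lit 156) (nat_lit 1064) (nat_lit 0) (XT.nd (nat_lit 78) (nat_lit 532) (nat_lit 0) (XT.lf (nat_lit 0) (nat_lit 4760840085) (nat_lit 532) (nat_lit 2720826826) (nat_lit 608) (nat_lit 1586132926) (nat_lit 188) (nat_lit 5) (nat_lit 195) (nat_lit 5) (nat_lit 196) (nat_lit 5) (nat_lit 448) (nat_lit 364) (nat_lit 328)) (XT.lf (nat_lit 0) (nat_lit 1556738802) (nat_lit 532) (nat_lit 7256046482) (nat_lit 76) (nat_lit 343905425) (nat_lit 181) (nat_lit 5) (nat_lit 188) (nat_lit 5) (nat_lit 182) (nat_lit 5) (nat_lit 449) (nat_lit 364) (nat_lit 327))) (XT.nd (nat_lit 78) (nat_lit 1064) (nat_lit 0) (XT.lf (nat_lit 0) (nat_lit 4743653426) (nat_lit 532) (nat_lit 1046322350) (nat_lit 76) (nat_lit 3457142866) (nat_lit 181) (nat_lit 5) (nat_lit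 188) (nat_lit 5) (nat_lit 182) (nat_lit 5) (nat_lit 450) (nat_lit 364) (nat_lit 326)) (XT.nd (nat_lit 78) (nat_lit 532) (nat_lit 0) (XT.lf (nat_lit 0) (nat_lit 5296662024) (nat_lit 532) (nat_lit 2688202227) (nat_lit 608) (nat_lit 1354696784) (nat_lit 174) (nat_lit 5) (nat_lit 181) (nat_lit 5) (nat_lit 182) (nat_lit 5) (nat_lit 451) (nat_lit 364) (nat_lit 325)) (XT.lf (nat_lit 0) (nat_lit 1814260108) (nat_lit 532) (nat_lit 7132766584) (nat_lit 76) (nat_lit 486969468) (nat_lit 167) (nat_lit 5) (nat_lit 174) (nat_lit 5) (nat_lit 168) (nat_lit 5) (nat_lit 452) (nat_lit 364) (nat_lit 324))))) (XT.nd (nat_lit 156) (nat_lit 988) (nat_lit 0) (XT.nd (nat_lit 78) (nat_lit 456) (nat_lit 0) (XT.lf (nat_lit 0) (nat_lit 5030275602) (nat_lit 532) (nat_lit 790659163) (nat_lit 76) (nat_lit 3709185832) (nat_lit 167) (nat_lit 5) (nat_lit 174) (nat_lit 5) (nat_lit 168) (nat_lit 5) (nat_lit 453) (nat_lit 364) (nat_lit 323)) (XT.lf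 (nat_lit 0) (nat_lit 5693181785) (nat_lit 456) (nat_lit 2611932341) (nat_lit 532) (nat_lit 1323179107) (nat_lit 161) (nat_lit 5) (nat_lit 167) (nat_lit 5) (nat_lit 168) (nat_lit 5) (nat_lit 454) (nat_lit 364) (nat_lit 322))) (XT.nd (nat_lit 78) (nat_lit 456) (nat_lit 0) (XT.lf (nat_lit 0) (nat_lit 1875874285) (nat_lit 532) (nat_lit 7182912484) (nat_lit 76) (nat_lit 669728844) (nat_lit 154) (nat_lit 5) (nat_lit 161) (nat_lit 5) (nat_lit 155) (nat_lit 5) (nat_lit 455) (nat_lit 364) (nat_lit 321)) (XT.nd (nat_lit 78) (nat_lit 456) (nat_lit 0) (XT.lf (nat_lit 0) (nat_lit 5123107292) (nat_lit 532) (nat_lit 707478669) (nat_lit 76) (nat_lit 3999958091) (nat_lit 154) (nat_lit 5) (nat_lit 161) (nat_lit 5) (nat_lit 155) (nat_lit 5) (nat_lit 456) (nat_lit 364) (nat_lit 320)) (XT.lf (nat_lit 0) (nat_lit 5915932126) (nat_lit 456) (nat_lit 2516606360) (nat_lit 532) (nat_lit 1502144067) (nat_lit 148) (nat_lit 5) (nat_lit 154)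 (nat_lit 5) (nat_lit 155) (nat_lit 5) (nat_lit 457) (nat_lit 364) (nat_lit 319)))))) (XT.nd (nat_lit 390) (nat_lit 1596) (nat_lit 0) (XT.nd (nat_lit 156) (nat_lit 912) (nat_lit 0) (XT.nd (nat_lit 78) (nat_lit 0) (nat_lit 0) (XT.lf (nat_lit 0) (nat_lit 1730455733) (nat_lit 456) (nat_lit 7442835656) (nat_lit 76) (nat_lit 867669364) (nat_lit 142) (nat_lit 5) (nat_lit 148) (nat_lit 5) (nat_lit 143) (nat_lit 5) (nat_lit 458) (nat_lit 364) (nat_lit 318)) (XT.lf (nat_lit 0) (nat_lit 5010713557) (nat_lit 456) (nat_lit 833411615) (nat_lit 76) (nat_lit 4304992090) (nat_lit 142) (nat_lit 5) (nat_lit 148) (nat_lit 5) (nat_lit 143) (nat_lit 5) (nat_lit 459) (nat_lit 364) (nat_lit 317))) (XT.nd (nat_lit 78) (nat_lit 456) (nat_lit 0) (XT.lf (nat_lit 0) (nat_lit 5927502966) (nat_lit 456) (nat_lit 2427645265) (nat_lit 532) (nat_lit 1904330690) (nat_lit 136) (nat_lit 5) (nat_lit 142) (nat_lit 5) (nat_lit 143) (nat_lit 5) (nat_lit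 460) (nat_lit 364) (nat_lit 316)) (XT.nd (nat_lit 78) (nat_lit 0) (nat_lit 0) (XT.lf (nat_lit 0) (nat_lit 1364684678) (nat_lit 456) (nat_lit 7952047338) (nat_lit 76) (nat_lit 1055376676) (nat_lit 130) (nat_lit 5) (nat_lit 136) (nat_lit 5) (nat_lit 131) (nat_lit 5) (nat_lit 461) (nat_lit 364) (nat_lit 315)) (XT.lf (nat_lit 0) (nat_lit 4679441988) (nat_lit 456) (nat_lit 1208318178) (nat_lit 76) (nat_lit 4598874606) (nat_lit 130) (nat_lit 5) (nat_lit 136) (nat_lit 5) (nat_lit 131) (nat_lit 5) (nat_lit 462) (nat_lit 364) (nat_lit 314))))) (XT.nd (nat_lit 234) (nat_lit 760) (nat_lit 0) (XT.nd (nat_lit 78) (nat_lit 456) (nat_lit 0) (XT.lf (nat_lit 0) (nat_lit 5687140193) (nat_lit 380) (nat_lit 2371550809) (nat_lit 456) (nat_lit 2544808867) (nat_lit 125) (nat_lit 5) (nat_lit 130) (nat_lit 5) (nat_lit 131) (nat_lit 5) (nat_lit 463) (nat_lit 364) (nat_lit 313)) (XT.nd (nat_lit 78) (nat_lit 0) (nat_lit 0) (XT.lf (nat_lit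 0) (nat_lit 762884740) (nat_lit 456) (nat_lit 8753636644) (nat_lit 76) (nat_lit 1206284600) (nat_lit 119) (nat_lit 5) (nat_lit 125) (nat_lit 5) (nat_lit 120) (nat_lit 5) (nat_lit 464) (nat_lit 364) (nat_lit 312)) (XT.lf (nat_lit 0) (nat_lit 4113256042) (nat_lit 456) (nat_lit 1875712754) (nat_lit 76) (nat_lit 4854992739) (nat_lit 119) (nat_lit 5) (nat_lit 125) (nat_lit 5) (nat_lit 120) (nat_lit 5) (nat_lit 465) (nat_lit 364) (nat_lit 311)))) (XT.nd (nat_lit 78) (nat_lit 380) (nat_lit 0) (XT.lf (nat_lit 0) (nat_lit 5150308317) (nat_lit 380) (nat_lit 2376169081) (nat_lit 456) (nat_lit 3441157428) (nat_lit 114) (nat_lit 5) (nat_lit 119) (nat_lit 5) (nat_lit 120) (nat_lit 5) (nat_lit 466) (nat_lit 364) (nat_lit 310)) (XT.nd (nat_lit 78) (nat_lit 76) (nat_lit 0) (XT.lf (nat_lit 0) (nat_lit 1198621098) (nat_lit 304) (nat_lit 9800939762) (nat_lit 380) (nat_lit 94400026) (nat_lit 110) (nat_lit 5) (nat_lit 114) (nat_lit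 5) (nat_lit 115) (nat_lit 5) (nat_lit 467) (nat_lit 364) (nat_lit 309)) (XT.lf (nat_lit 0) (nat_lit 3293545578) (nat_lit 380) (nat_lit 2883227791) (nat_lit 76) (nat_lit 5045264174) (nat_lit 109) (nat_lit 5) (nat_lit 114) (nat_lit 5) (nat_lit 110) (nat_lit 5) (nat_lit 468) (nat_lit 364) (nat_lit 308))))))) (XT.nd (nat_lit 780) (nat_lit 1976) (nat_lit 0) (XT.nd (nat_lit 390) (nat_lit 988) (nat_lit 0) (XT.nd (nat_lit 156) (nat_lit 380) (nat_lit 0) (XT.nd (nat_lit 78) (nat_lit 304) (nat_lit 0) (XT.lf (nat_lit 0) (nat_lit 4268212670) (nat_lit 380) (nat_lit 2470971078) (nat_lit 456) (nat_lit 4613666160) (nat_lit 104) (nat_lit 5) (nat_lit 109) (nat_lit 5) (nat_lit 110) (nat_lit 5) (nat_lit 469) (nat_lit 364) (nat_lit 307)) (XT.lf (nat_lit 0) (nat_lit 51418638) (nat_lit 304) (nat_lit 10194333913) (nat_lit 380) (nat_lit 1240696011) (nat_lit 100) (nat_lit 5) (nat_lit 104) (nat_lit 5) (nat_lit 105) (nat_lit 5) (nat_lit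 470) (nat_lit 364) (nat_lit 306))) (XT.nd (nat_lit 78) (nat_lit 304) (nat_lit 0) (XT.lf (nat_lit 0) (nat_lit 2198912586) (nat_lit 380) (nat_lit 4283121191) (nat_lit 76) (nat_lit 5139849187) (nat_lit 99) (nat_lit 5) (nat_lit 104) (nat_lit 5) (nat_lit 100) (nat_lit 5) (nat_lit 471) (nat_lit 364) (nat_lit 305)) (XT.nd (nat_lit 78) (nat_lit 0) (nat_lit 0) (XT.lf (nat_lit 0) (nat_lit 2987276512) (nat_lit 304) (nat_lit 2687352880) (nat_lit 380) (nat_lit 6085563861) (nat_lit 95) (nat_lit 5) (nat_lit 99) (nat_lit 5) (nat_lit 100) (nat_lit 5) (nat_lit 472) (nat_lit 364) (nat_lit 304)) (XT.lf (nat_lit 0) (nat_lit 9221201001) (nat_lit 380) (nat_lit 1503155272) (nat_lit 76) (nat_lit 1176896276) (nat_lit 95) (nat_lit 5) (nat_lit 100) (nat_lit 5) (nat_lit 96) (nat_lit 5) (nat_lit 473) (nat_lit 364) (nat_lit 303))))) (XT.nd (nat_lit 156) (nat_lit 304) (nat_lit 0) (XT.nd (nat_lit 78) (nat_lit 304) (nat_lit 0) (XT.lf (nat_lit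 0) (nat_lit 804929914) (nat_lit 380) (nat_lit 6132832250) (nat_lit 76) (nat_lit 5106841717) (nat_lit 90) (nat_lit 5) (nat_lit 95) (nat_lit 5) (nat_lit 91) (nat_lit 5) (nat_lit 474) (nat_lit 364) (nat_lit 302)) (XT.lf (nat_lit 0) (nat_lit 1248567903) (nat_lit 304) (nat_lit 3058958274) (nat_lit 380) (nat_lit 7883274794) (nat_lit 86) (nat_lit 5) (nat_lit 90) (nat_lit 5) (nat_lit 91) (nat_lit 5) (nat_lit 475) (nat_lit 364) (nat_lit 301))) (XT.nd (nat_lit 78) (nat_lit 304) (nat_lit 0) (XT.lf (nat_lit 0) (nat_lit 7893127310) (nat_lit 380) (nat_lit 3539414802) (nat_lit 76) (nat_lit 907129706) (nat_lit 86) (nat_lit 5) (nat_lit 91) (nat_lit 5) (nat_lit 87) (nat_lit 5) (nat_lit 476) (nat_lit 364) (nat_lit 300)) (XT.nd (nat_lit 78) (nat_lit 76) (nat_lit 0) (XT.lf (nat_lit 0) (nat_lit 3989659374) (nat_lit 228) (nat_lit 7573314381) (nat_lit 304) (nat_lit 928304365) (nat_lit 83) (nat_lit 5) (nat_lit 86) (nat_lit 5) (nat_lit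 87) (nat_lit 5) (nat_lit 477) (nat_lit 364) (nat_lit 299)) (XT.lf (nat_lit 0) (nat_lit 2615773540) (nat_lit 304) (nat_lit 999545841) (nat_lit 76) (nat_lit 9030452816) (nat_lit 82) (nat_lit 5) (nat_lit 86) (nat_lit 5) (nat_lit 83) (nat_lit 5) (nat_lit 478) (nat_lit 364) (nat_lit 298)))))) (XT.nd (nat_lit 390) (nat_lit 1064) (nat_lit 0) (XT.nd (nat_lit 156) (nat_lit 380) (nat_lit 0) (XT.nd (nat_lit 78) (nat_lit 228) (nat_lit 0) (XT.lf (nat_lit 0) (nat_lit 6231742226) (nat_lit 380) (nat_lit 6124832447) (nat_lit 76) (nat_lit 446398176) (nat_lit 78) (nat_lit 5) (nat_lit 83) (nat_lit 5) (nat_lit 79) (nat_lit 5) (nat_lit 479) (nat_lit 364) (nat_lit 297)) (XT.lf (nat_lit 0) (nat_lit 1502371987) (nat_lit 228) (nat_lit 8425393396) (nat_lit 304) (nat_lit 3035405468) (nat_lit 75) (nat_lit 5) (nat_lit 78) (nat_lit 5) (nat_lit 79) (nat_lit 5) (nat_lit 480) (nat_lit 364) (nat_lit 296))) (XT.nd (nat_lit 78) (nat_lit 304) (nat_lit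 0) (XT.lf (nat_lit 0) (nat_lit 572381532) (nat_lit 304) (nat_lit 3817770202) (nat_lit 76) (nat_lit 8736179926) (nat_lit 74) (nat_lit 5) (nat_lit 78) (nat_lit 5) (nat_lit 75) (nat_lit 5) (nat_lit 481) (nat_lit 364) (nat_lit 295)) (XT.nd (nat_lit 78) (nat_lit 0) (nat_lit 0) (XT.lf (nat_lit 0) (nat_lit 3957783619) (nat_lit 304) (nat_lit 247633924) (nat_lit 380) (nat_lit 9087069689) (nat_lit 70) (nat_lit 5) (nat_lit 74) (nat_lit 5) (nat_lit 75) (nat_lit 5) (nat_lit 482) (nat_lit 364) (nat_lit 294)) (XT.lf (nat_lit 0) (nat_lit 7930892724) (nat_lit 380) (nat_lit 1599158397) (nat_lit 76) (nat_lit 3931526653) (nat_lit 70) (nat_lit 5) (nat_lit 75) (nat_lit 5) (nat_lit 71) (nat_lit 5) (nat_lit 483) (nat_lit 364) (nat_lit 293))))) (XT.nd (nat_lit 234) (nat_lit 532) (nat_lit 0) (XT.nd (nat_lit 78) (nat_lit 304) (nat_lit 0) (XT.lf (nat_lit 0) (nat_lit 6321076971) (nat_lit 228) (nat_lit 5421268714) (nat_lit 304) (nat_lit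 1891482358) (nat_lit 67) (nat_lit 5) (nat_lit 70) (nat_lit 5) (nat_lit 71) (nat_lit 5) (nat_lit 484) (nat_lit 364) (nat_lit 292)) (XT.nd (nat_lit 78) (nat_lit 0) (nat_lit 0) (XT.lf (nat_lit 0) (nat_lit 556121674) (nat_lit 228) (nat_lit 1223776485) (nat_lit 304) (nat_lit 12029730358) (nat_lit 63) (nat_lit 5) (nat_lit 66) (nat_lit 5) (nat_lit 67) (nat_lit 5) (nat_lit 485) (nat_lit 364) (nat_lit 291)) (XT.lf (nat_lit 0) (nat_lit 5537658253) (nat_lit 304) (nat_lit 5390690772) (nat_lit 76) (nat_lit 3059587205) (nat_lit 63) (nat_lit 5) (nat_lit 67) (nat_lit 5) (nat_lit 64) (nat_lit 5) (nat_lit 486) (nat_lit 364) (nat_lit 290)))) (XT.nd (nat_lit 78) (nat_lit 304) (nat_lit 0) (XT.lf (nat_lit 0) (nat_lit 2604929879) (nat_lit 228) (nat_lit 6760274271) (nat_lit 304) (nat_lit 4804720061) (nat_lit 60) (nat_lit 5) (nat_lit 63) (nat_lit 5) (nat_lit 64) (nat_lit 5) (nat_lit 487) (nat_lit 364) (nat_lit 289)) (XT.nd (nat_lit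 78) (nat_lit 304) (nat_lit 0) (XT.lf (nat_lit 0) (nat_lit 10783356103) (nat_lit 228) (nat_lit 2492002450) (nat_lit 304) (nat_lit 1080078843) (nat_lit 60) (nat_lit 5) (nat_lit 63) (nat_lit 5) (nat_lit 64) (nat_lit 5) (nat_lit 488) (nat_lit 364) (nat_lit 288)) (XT.lf (nat_lit 0) (nat_lit 2695631332) (nat_lit 304) (nat_lit 9983165573) (nat_lit 76) (nat_lit 1865272460) (nat_lit 56) (nat_lit 5) (nat_lit 60) (nat_lit 5) (nat_lit 57) (nat_lit 5) (nat_lit 489) (nat_lit 364) (nat_lit 287))))))))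
noncomputable def xc56 : XT := (XT.nd (nat_lit 53430) (nat_lit 0) (nat_lit 18164) (XT.nd (nat_lit 780) (nat_lit 684) (nat_lit 0) (XT.nd (nat_lit 390) (nat_lit 456) (nat_lit 0) (XT.nd (nat_lit 156) (nat_lit 456) (nat_lit 0) (XT.nd (nat_lit 78) (nat_lit 228) (nat_lit 0) (XT.lf (nat_lit 0) (nat_lit 6543445835) (nat_lit 304) (nat_lit 1904577611) (nat_lit 76) (nat_lit 6288092908) (nat_lit 56) (nat_lit 5) (nat_lit 60) (nat_lit 5) (nat_lit 57) (nat_lit 5) (nat_lit 490) (nat_lit 364) (nat_lit 286)) (XT.lf (nat_lit 0) (nat_lit 6370368663) (nat_lit 228) (nat_lit 4110195135) (nat_lit 304) (nat_lit 4451199633) (nat_lit 53) (nat_lit 5) (nat_lit 56) (nat_lit 5) (nat_lit 57) (nat_lit 5) (nat_lit 491) (nat_lit 364) (nat_lit 285))) (XT.nd (nat_lit 78) (nat_lit 456) (nat_lit 0) (XT.lf (nat_lit 0) (nat_lit 14482443811) (nat_lit 304) (nat_lit 345457331) (nat_lit 76) (nat_lit 303707889) (nat_lit 53) (nat_lit 5) (nat_lit 57) (nat_lit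 5) (nat_lit 54) (nat_lit 5) (nat_lit 492) (nat_lit 364) (nat_lit 284)) (XT.nd (nat_lit 78) (nat_lit 152) (nat_lit 0) (XT.lf (nat_lit 0) (nat_lit 3238161295) (nat_lit 304) (nat_lit 7290313119) (nat_lit 76) (nat_lit 4805531601) (nat_lit 49) (nat_lit 5) (nat_lit 53) (nat_lit 5) (nat_lit 50) (nat_lit 5) (nat_lit 493) (nat_lit 364) (nat_lit 283)) (XT.lf (nat_lit 0) (nat_lit 1026044895) (nat_lit 152) (nat_lit 6149234609) (nat_lit 228) (nat_lit 8365476494) (nat_lit 47) (nat_lit 5) (nat_lit 49) (nat_lit 5) (nat_lit 50) (nat_lit 5) (nat_lit 494) (nat_lit 364) (nat_lit 282))))) (XT.nd (nat_lit 156) (nat_lit 228) (nat_lit 0) (XT.nd (nat_lit 78) (nat_lit 228) (nat_lit 0) (XT.lf (nat_lit 0) (nat_lit 9559866258) (nat_lit 152) (nat_lit 1652174328) (nat_lit 228) (nat_lit 4539187904) (nat_lit 47) (nat_lit 5) (nat_lit 49) (nat_lit 5) (nat_lit 50) (nat_lit 5) (nat_lit 495) (nat_lit 364) (nat_lit 281)) (XT.lf (nat_lit 0) (nat_lit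 2261883191) (nat_lit 228) (nat_lit 13073797124) (nat_lit 304) (nat_lit 630112659) (nat_lit 44) (nat_lit 5) (nat_lit 47) (nat_lit 5) (nat_lit 48) (nat_lit 5) (nat_lit 496) (nat_lit 364) (nat_lit 280))) (XT.nd (nat_lit 78) (nat_lit 152) (nat_lit 0) (XT.lf (nat_lit 0) (nat_lit 3338331855) (nat_lit 304) (nat_lit 5295953703) (nat_lit 76) (nat_lit 7549428107) (nat_lit 43) (nat_lit 5) (nat_lit 47) (nat_lit 5) (nat_lit 44) (nat_lit 5) (nat_lit 497) (nat_lit 364) (nat_lit 279)) (XT.nd (nat_lit 78) (nat_lit 0) (nat_lit 0) (XT.lf (nat_lit 0) (nat_lit 3272594063) (nat_lit 152) (nat_lit 4099363170) (nat_lit 228) (nat_lit 9034072350) (nat_lit 41) (nat_lit 5) (nat_lit 43) (nat_lit 5) (nat_lit 44) (nat_lit 5) (nat_lit 498) (nat_lit 364) (nat_lit 278)) (XT.lf (nat_lit 0) (nat_lit 11498545296) (nat_lit 228) (nat_lit 4597858471) (nat_lit 76) (nat_lit 536147248) (nat_lit 41) (nat_lit 5) (nat_lit 44) (nat_lit 5) (nat_lit 42) (nat_lit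 5) (nat_lit 499) (nat_lit 364) (nat_lit 277)))))) (XT.nd (nat_lit 390) (nat_lit 76) (nat_lit 0) (XT.nd (nat_lit 156) (nat_lit 304) (nat_lit 0) (XT.nd (nat_lit 78) (nat_lit 76) (nat_lit 0) (XT.lf (nat_lit 0) (nat_lit 4089399457) (nat_lit 228) (nat_lit 11645591689) (nat_lit 304) (nat_lit 1128070108) (nat_lit 38) (nat_lit 5) (nat_lit 41) (nat_lit 5) (nat_lit 42) (nat_lit 5) (nat_lit 500) (nat_lit 364) (nat_lit 276)) (XT.lf (nat_lit 0) (nat_lit 2923920564) (nat_lit 304) (nat_lit 4149817332) (nat_lit 76) (nat_lit 10023969791) (nat_lit 37) (nat_lit 5) (nat_lit 41) (nat_lit 5) (nat_lit 38) (nat_lit 5) (nat_lit 501) (nat_lit 364) (nat_lit 275))) (XT.nd (nat_lit 78) (nat_lit 152) (nat_lit 0) (XT.lf (nat_lit 0) (nat_lit 4655412565) (nat_lit 152) (nat_lit 2390862461) (nat_lit 228) (nat_lit 10290538934) (nat_lit 35) (nat_lit 5) (nat_lit 37) (nat_lit 5) (nat_lit 38) (nat_lit 5) (nat_lit 502) (nat_lit 364) (nat_lit 274))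 (XT.nd (nat_lit 78) (nat_lit 152) (nat_lit 0) (XT.lf (nat_lit 0) (nat_lit 11268882440) (nat_lit 228) (nat_lit 3947598091) (nat_lit 76) (nat_lit 2363870236) (nat_lit 35) (nat_lit 5) (nat_lit 38) (nat_lit 5) (nat_lit 36) (nat_lit 5) (nat_lit 503) (nat_lit 364) (nat_lit 273)) (XT.lf (nat_lit 0) (nat_lit 4966281592) (nat_lit 152) (nat_lit 10632527181) (nat_lit 228) (nat_lit 2229496640) (nat_lit 33) (nat_lit 5) (nat_lit 35) (nat_lit 5) (nat_lit 36) (nat_lit 5) (nat_lit 504) (nat_lit 364) (nat_lit 272))))) (XT.nd (nat_lit 52026) (nat_lit 0) (nat_lit 33288) (XT.nd (nat_lit 51948) (nat_lit 0) (nat_lit 36252) (XT.lf (nat_lit 0) (nat_lit 1910244294) (nat_lit 228) (nat_lit 4025422513) (nat_lit 76) (nat_lit 12145275539) (nat_lit 32) (nat_lit 5) (nat_lit 35) (nat_lit 5) (nat_lit 33) (nat_lit 5) (nat_lit 505) (nat_lit 364) (nat_lit 271)) (XT.lf (nat_lit 0) (nat_lit 913320117) (nat_lit 1292) (nat_lit 1265722592) (nat_lit 1292)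 (nat_lit 1265722592) (nat_lit 509) (nat_lit 4) (nat_lit 526) (nat_lit 5) (nat_lit 526) (nat_lit 4) (nat_lit 410) (nat_lit 365) (nat_lit 365))) (XT.nd (nat_lit 78) (nat_lit 2888) (nat_lit 0) (XT.lf (nat_lit 0) (nat_lit 710566884) (nat_lit 1368) (nat_lit 473232846) (nat_lit 76) (nat_lit 5736769209) (nat_lit 508) (nat_lit 5) (nat_lit 526) (nat_lit 5) (nat_lit 509) (nat_lit 4) (nat_lit 411) (nat_lit 365) (nat_lit 364)) (XT.nd (nat_lit 78) (nat_lit 1520) (nat_lit 0) (XT.lf (nat_lit 0) (nat_lit 3944814655) (nat_lit 1444) (nat_lit 2768707380) (nat_lit 0) (nat_lit 239194252) (nat_lit 490) (nat_lit 5) (nat_lit 509) (nat_lit 4) (nat_lit 490) (nat_lit 4) (nat_lit 412) (nat_lit 365) (nat_lit 363)) (XT.lf (nat_lit 0) (nat_lit 211446571) (nat_lit 1520) (nat_lit 5076993962) (nat_lit 76) (nat_lit 1697947506) (nat_lit 470) (nat_lit 5) (nat_lit 490) (nat_lit 5) (nat_lit 471) (nat_lit 4) (nat_lit 413) (nat_lit 365) (nat_lit 362)))))))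 (XT.nd (nat_lit 780) (nat_lit 5548) (nat_lit 0) (XT.nd (nat_lit 390) (nat_lit 4636) (nat_lit 0) (XT.nd (nat_lit 156) (nat_lit 3420) (nat_lit 0) (XT.nd (nat_lit 78) (nat_lit 1520) (nat_lit 0) (XT.lf (nat_lit 0) (nat_lit 3407553719) (nat_lit 1520) (nat_lit 384088534) (nat_lit 76) (nat_lit 3229686293) (nat_lit 470) (nat_lit 5) (nat_lit 490) (nat_lit 5) (nat_lit 471) (nat_lit 4) (nat_lit 414) (nat_lit 365) (nat_lit 361)) (XT.lf (nat_lit 0) (nat_lit 4399321820) (nat_lit 1520) (nat_lit 2232028043) (nat_lit 1596) (nat_lit 426387689) (nat_lit 450) (nat_lit 5) (nat_lit 470) (nat_lit 5) (nat_lit 471) (nat_lit 4) (nat_lit 415) (nat_lit 365) (nat_lit 360))) (XT.nd (nat_lit 78) (nat_lit 1748) (nat_lit 0) (XT.lf (nat_lit 0) (nat_lit 2136903927) (nat_lit 1596) (nat_lit 602878309) (nat_lit 1672) (nat_lit 4355727330) (nat_lit 428) (nat_lit 5) (nat_lit 449) (nat_lit 5) (nat_lit 450) (nat_lit 5) (nat_lit 416) (nat_lit 365) (nat_lit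 359)) (XT.nd (nat_lit 78) (nat_lit 1748) (nat_lit 0) (XT.lf (nat_lit 0) (nat_lit 5924898208) (nat_lit 1672) (nat_lit 141803142) (nat_lit 76) (nat_lit 1068095090) (nat_lit 428) (nat_lit 5) (nat_lit 450) (nat_lit 5) (nat_lit 429) (nat_lit 4) (nat_lit 417) (nat_lit 365) (nat_lit 358)) (XT.lf (nat_lit 0) (nat_lit 1945103598) (nat_lit 1748) (nat_lit 2419615931) (nat_lit 76) (nat_lit 2810481316) (nat_lit 405) (nat_lit 5) (nat_lit 428) (nat_lit 5) (nat_lit 406) (nat_lit 5) (nat_lit 418) (nat_lit 365) (nat_lit 357))))) (XT.nd (nat_lit 156) (nat_lit 1824) (nat_lit 0) (XT.nd (nat_lit 78) (nat_lit 1064) (nat_lit 0) (XT.lf (nat_lit 0) (nat_lit 2499504982) (nat_lit 1748) (nat_lit 2602819622) (nat_lit 1824) (nat_lit 2114862370) (nat_lit 382) (nat_lit 5) (nat_lit 405) (nat_lit 5) (nat_lit 406) (nat_lit 5) (nat_lit 419) (nat_lit 365) (nat_lit 356)) (XT.lf (nat_lit 0) (nat_lit 223891902) (nat_lit 988) (nat_lit 781136661) (nat_lit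 1064) (nat_lit 6255758926) (nat_lit 368) (nat_lit 5) (nat_lit 381) (nat_lit 5) (nat_lit 382) (nat_lit 5) (nat_lit 420) (nat_lit 365) (nat_lit 355))) (XT.nd (nat_lit 78) (nat_lit 1824) (nat_lit 0) (XT.lf (nat_lit 0) (nat_lit 4137174915) (nat_lit 1064) (nat_lit 2060580160) (nat_lit 76) (nat_lit 1107699517) (nat_lit 368) (nat_lit 5) (nat_lit 382) (nat_lit 5) (nat_lit 369) (nat_lit 5) (nat_lit 421) (nat_lit 365) (nat_lit 354)) (XT.nd (nat_lit 78) (nat_lit 912) (nat_lit 0) (XT.lf (nat_lit 0) (nat_lit 2987513231) (nat_lit 912) (nat_lit 4309500262) (nat_lit 988) (nat_lit 54737492) (nat_lit 356) (nat_lit 5) (nat_lit 368) (nat_lit 5) (nat_lit 369) (nat_lit 5) (nat_lit 422) (nat_lit 365) (nat_lit 353)) (XT.lf (nat_lit 0) (nat_lit 692355482) (nat_lit 836) (nat_lit 2347024183) (nat_lit 912) (nat_lit 4360039107) (nat_lit 344) (nat_lit 5) (nat_lit 355) (nat_lit 5) (nat_lit 356) (nat_lit 5) (nat_lit 423) (nat_lit 365) (nat_lit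 352)))))) (XT.nd (nat_lit 390) (nat_lit 3040) (nat_lit 0) (XT.nd (nat_lit 156) (nat_lit 1596) (nat_lit 0) (XT.nd (nat_lit 78) (nat_lit 912) (nat_lit 0) (XT.lf (nat_lit 0) (nat_lit 5847108029) (nat_lit 836) (nat_lit 318405369) (nat_lit 912) (nat_lit 1283136742) (nat_lit 344) (nat_lit 5) (nat_lit 355) (nat_lit 5) (nat_lit 356) (nat_lit 5) (nat_lit 424) (nat_lit 365) (nat_lit 351)) (XT.lf (nat_lit 0) (nat_lit 1808104571) (nat_lit 912) (nat_lit 3931286083) (nat_lit 76) (nat_lit 1759725345) (nat_lit 332) (nat_lit 5) (nat_lit 344) (nat_lit 5) (nat_lit 333) (nat_lit 5) (nat_lit 425) (nat_lit 365) (nat_lit 350))) (XT.nd (nat_lit 78) (nat_lit 836) (nat_lit 0) (XT.lf (nat_lit 0) (nat_lit 1255617898) (nat_lit 760) (nat_lit 3652491390) (nat_lit 836) (nat_lit 2643062657) (nat_lit 322) (nat_lit 5) (nat_lit 332) (nat_lit 5) (nat_lit 333) (nat_lit 5) (nat_lit 426) (nat_lit 365) (nat_lit 349)) (XT.nd (nat_lit 78) (nat_lit 760)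 (nat_lit 0) (XT.lf (nat_lit 0) (nat_lit 429627910) (nat_lit 836) (nat_lit 1069861949) (nat_lit 76) (nat_lit 6105352335) (nat_lit 321) (nat_lit 5) (nat_lit 332) (nat_lit 5) (nat_lit 322) (nat_lit 5) (nat_lit 427) (nat_lit 365) (nat_lit 348)) (XT.lf (nat_lit 0) (nat_lit 3505156798) (nat_lit 836) (nat_lit 3427445736) (nat_lit 76) (nat_lit 727129303) (nat_lit 311) (nat_lit 5) (nat_lit 322) (nat_lit 5) (nat_lit 312) (nat_lit 5) (nat_lit 428) (nat_lit 365) (nat_lit 347))))) (XT.nd (nat_lit 234) (nat_lit 1444) (nat_lit 0) (XT.nd (nat_lit 78) (nat_lit 836) (nat_lit 0) (XT.lf (nat_lit 0) (nat_lit 1892312161) (nat_lit 760) (nat_lit 4724430695) (nat_lit 836) (nat_lit 1099515785) (nat_lit 301) (nat_lit 5) (nat_lit 311) (nat_lit 5) (nat_lit 312) (nat_lit 5) (nat_lit 429) (nat_lit 365) (nat_lit 346)) (XT.nd (nat_lit 78) (nat_lit 760) (nat_lit 0) (XT.lf (nat_lit 0) (nat_lit 1958740012) (nat_lit 836) (nat_lit 484055539) (nat_lit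 76) (nat_lit 5331516803) (nat_lit 300) (nat_lit 5) (nat_lit 311) (nat_lit 5) (nat_lit 301) (nat_lit 5) (nat_lit 430) (nat_lit 365) (nat_lit 345)) (XT.lf (nat_lit 0) (nat_lit 4959336414) (nat_lit 760) (nat_lit 82777543) (nat_lit 836) (nat_lit 2791722870) (nat_lit 290) (nat_lit 5) (nat_lit 300) (nat_lit 5) (nat_lit 301) (nat_lit 5) (nat_lit 431) (nat_lit 365) (nat_lit 344)))) (XT.nd (nat_lit 78) (nat_lit 684) (nat_lit 0) (XT.lf (nat_lit 0) (nat_lit 270805670) (nat_lit 760) (nat_lit 5316004906) (nat_lit 76) (nat_lit 2308089868) (nat_lit 280) (nat_lit 5) (nat_lit 290) (nat_lit 5) (nat_lit 281) (nat_lit 5) (nat_lit 432) (nat_lit 365) (nat_lit 343)) (XT.nd (nat_lit 78) (nat_lit 0) (nat_lit 0) (XT.lf (nat_lit 0) (nat_lit 144239813) (nat_lit 684) (nat_lit 3181235125) (nat_lit 760) (nat_lit 4632002808) (nat_lit 271) (nat_lit 5) (nat_lit 280) (nat_lit 5) (nat_lit 281) (nat_lit 5) (nat_lit 433) (nat_lit 365) (nat_lit 342))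 (XT.lf (nat_lit 0) (nat_lit 5724145028) (nat_lit 684) (nat_lit 700732967) (nat_lit 760) (nat_lit 1596782169) (nat_lit 271) (nat_lit 5) (nat_lit 280) (nat_lit 5) (nat_lit 281) (nat_lit 5) (nat_lit 434) (nat_lit 365) (nat_lit 341))))))))
noncomputable def xc57 : XT := (XT.nd (nat_lit 1638) (nat_lit 5168) (nat_lit 0) (XT.nd (nat_lit 780) (nat_lit 4256) (nat_lit 0) (XT.nd (nat_lit 390) (nat_lit 1900) (nat_lit 0) (XT.nd (nat_lit 156) (nat_lit 1292) (nat_lit 0) (XT.nd (nat_lit 78) (nat_lit 684) (nat_lit 0) (XT.lf (nat_lit 0) (nat_lit 1461558371) (nat_lit 760) (nat_lit 4798599399) (nat_lit 76) (nat_lit 1827157603) (nat_lit 261) (nat_lit 5) (nat_lit 271) (nat_lit 5) (nat_lit 262) (nat_lit 5) (nat_lit 435) (nat_lit 365) (nat_lit 340)) (XT.lf (nat_lit 0) (nat_lit 797301106) (nat_lit 684) (nat_lit 3736913377) (nat_lit 760) (nat_lit 3620392372) (nat_lit 252) (nat_lit 5) (nat_lit 261) (nat_lit 5) (nat_lit 262) (nat_lit 5)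 (nat_lit 436) (nat_lit 365) (nat_lit 339))) (XT.nd (nat_lit 78) (nat_lit 1292) (nat_lit 0) (XT.lf (nat_lit 0) (nat_lit 6508893675) (nat_lit 684) (nat_lit 1141402785) (nat_lit 760) (nat_lit 573332620) (nat_lit 252) (nat_lit 5) (nat_lit 261) (nat_lit 5) (nat_lit 262) (nat_lit 5) (nat_lit 437) (nat_lit 365) (nat_lit 338)) (XT.nd (nat_lit 78) (nat_lit 608) (nat_lit 0) (XT.lf (nat_lit 0) (nat_lit 2487895271) (nat_lit 684) (nat_lit 4288034858) (nat_lit 76) (nat_lit 1518066516) (nat_lit 243) (nat_lit 5) (nat_lit 252) (nat_lit 5) (nat_lit 244) (nat_lit 5) (nat_lit 438) (nat_lit 365) (nat_lit 337)) (XT.lf (nat_lit 0) (nat_lit 1445011517) (nat_lit 608) (nat_lit 4137104088) (nat_lit 684) (nat_lit 2784014229) (nat_lit 235) (nat_lit 5) (nat_lit 243) (nat_lit 5) (nat_lit 244) (nat_lit 5) (nat_lit 439) (nat_lit 365) (nat_lit 336))))) (XT.nd (nat_lit 156) (nat_lit 1216) (nat_lit 0) (XT.nd (nat_lit 78) (nat_lit 608) (nat_lit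 0) (XT.lf (nat_lit 0) (nat_lit 274702507) (nat_lit 684) (nat_lit 1151966082) (nat_lit 76) (nat_lit 7013418347) (nat_lit 234) (nat_lit 5) (nat_lit 243) (nat_lit 5) (nat_lit 235) (nat_lit 5) (nat_lit 440) (nat_lit 365) (nat_lit 335)) (XT.lf (nat_lit 0) (nat_lit 3348994092) (nat_lit 684) (nat_lit 3808819089) (nat_lit 76) (nat_lit 1357530021) (nat_lit 226) (nat_lit 5) (nat_lit 235) (nat_lit 5) (nat_lit 227) (nat_lit 5) (nat_lit 441) (nat_lit 365) (nat_lit 334))) (XT.nd (nat_lit 78) (nat_lit 608) (nat_lit 0) (XT.lf (nat_lit 0) (nat_lit 2062566847) (nat_lit 608) (nat_lit 4405389642) (nat_lit 684) (nat_lit 2124505620) (nat_lit 218) (nat_lit 5) (nat_lit 226) (nat_lit 5) (nat_lit 227) (nat_lit 5) (nat_lit 442) (nat_lit 365) (nat_lit 333)) (XT.nd (nat_lit 78) (nat_lit 532) (nat_lit 0) (XT.lf (nat_lit 0) (nat_lit 943844683) (nat_lit 684) (nat_lit 635204295) (nat_lit 76) (nat_lit 7092397809) (nat_lit 217) (nat_lit 5) (nat_lit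 226) (nat_lit 5) (nat_lit 218) (nat_lit 5) (nat_lit 443) (nat_lit 365) (nat_lit 332)) (XT.lf (nat_lit 0) (nat_lit 4042430244) (nat_lit 608) (nat_lit 3386772887) (nat_lit 76) (nat_lit 1322600852) (nat_lit 210) (nat_lit 5) (nat_lit 218) (nat_lit 5) (nat_lit 211) (nat_lit 5) (nat_lit 444) (nat_lit 365) (nat_lit 331)))))) (XT.nd (nat_lit 390) (nat_lit 2052) (nat_lit 0) (XT.nd (nat_lit 156) (nat_lit 1596) (nat_lit 0) (XT.nd (nat_lit 78) (nat_lit 76) (nat_lit 0) (XT.lf (nat_lit 0) (nat_lit 2623787951) (nat_lit 532) (nat_lit 4565112159) (nat_lit 608) (nat_lit 1645169559) (nat_lit 203) (nat_lit 5) (nat_lit 210) (nat_lit 5) (nat_lit 211) (nat_lit 5) (nat_lit 445) (nat_lit 365) (nat_lit 330)) (XT.lf (nat_lit 0) (nat_lit 1438101655) (nat_lit 608) (nat_lit 187384674) (nat_lit 76) (nat_lit 7292777001) (nat_lit 202) (nat_lit 5) (nat_lit 210) (nat_lit 5) (nat_lit 203) (nat_lit 5) (nat_lit 446) (nat_lit 365) (nat_lit 329)))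 (XT.nd (nat_lit 78) (nat_lit 1064) (nat_lit 0) (XT.lf (nat_lit 0) (nat_lit 4564115323) (nat_lit 608) (nat_lit 3049295408) (nat_lit 76) (nat_lit 1390468993) (nat_lit 195) (nat_lit 5) (nat_lit 203) (nat_lit 5) (nat_lit 196) (nat_lit 5) (nat_lit 447) (nat_lit 365) (nat_lit 328)) (XT.nd (nat_lit 78) (nat_lit 532) (nat_lit 0) (XT.lf (nat_lit 0) (nat_lit 3100848805) (nat_lit 532) (nat_lit 4639579267) (nat_lit 608) (nat_lit 1351042905) (nat_lit 188) (nat_lit 5) (nat_lit 195) (nat_lit 5) (nat_lit 196) (nat_lit 5) (nat_lit 448) (nat_lit 365) (nat_lit 327)) (XT.lf (nat_lit 0) (nat_lit 165266644) (nat_lit 456) (nat_lit 1588048948) (nat_lit 532) (nat_lit 7427732947) (nat_lit 181) (nat_lit 5) (nat_lit 187) (nat_lit 5) (nat_lit 188) (nat_lit 5) (nat_lit 449) (nat_lit 365) (nat_lit 326))))) (XT.nd (nat_lit 234) (nat_lit 988) (nat_lit 0) (XT.nd (nat_lit 78) (nat_lit 1064) (nat_lit 0) (XT.lf (nat_lit 0) (nat_lit 4908220769)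 (nat_lit 532) (nat_lit 2825648538) (nat_lit 76) (nat_lit 1538255797) (nat_lit 181) (nat_lit 5) (nat_lit 188) (nat_lit 5) (nat_lit 182) (nat_lit 5) (nat_lit 450) (nat_lit 365) (nat_lit 325)) (XT.nd (nat_lit 78) (nat_lit 532) (nat_lit 0) (XT.lf (nat_lit 0) (nat_lit 3463984803) (nat_lit 532) (nat_lit 4652274522) (nat_lit 608) (nat_lit 1248979900) (nat_lit 174) (nat_lit 5) (nat_lit 181) (nat_lit 5) (nat_lit 182) (nat_lit 5) (nat_lit 451) (nat_lit 365) (nat_lit 324)) (XT.lf (nat_lit 0) (nat_lit 390947172) (nat_lit 456) (nat_lit 1490822886) (nat_lit 532) (nat_lit 7578634933) (nat_lit 167) (nat_lit 5) (nat_lit 173) (nat_lit 5) (nat_lit 174) (nat_lit 5) (nat_lit 452) (nat_lit 365) (nat_lit 323)))) (XT.nd (nat_lit 78) (nat_lit 988) (nat_lit 0) (XT.lf (nat_lit 0) (nat_lit 5067085749) (nat_lit 532) (nat_lit 2747262929) (nat_lit 76) (nat_lit 1742802549) (nat_lit 167) (nat_lit 5) (nat_lit 174) (nat_lit 5) (nat_lit 168) (nat_lit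 5) (nat_lit 453) (nat_lit 365) (nat_lit 322)) (XT.nd (nat_lit 78) (nat_lit 532) (nat_lit 0) (XT.lf (nat_lit 0) (nat_lit 3681178526) (nat_lit 456) (nat_lit 4627074258) (nat_lit 532) (nat_lit 1347752158) (nat_lit 161) (nat_lit 5) (nat_lit 167) (nat_lit 5) (nat_lit 168) (nat_lit 5) (nat_lit 454) (nat_lit 365) (nat_lit 321)) (XT.lf (nat_lit 0) (nat_lit 453949507) (nat_lit 456) (nat_lit 1359124603) (nat_lit 532) (nat_lit 7943934746) (nat_lit 154) (nat_lit 5) (nat_lit 160) (nat_lit 5) (nat_lit 161) (nat_lit 5) (nat_lit 455) (nat_lit 365) (nat_lit 320))))))) (XT.nd (nat_lit 780) (nat_lit 2508) (nat_lit 0) (XT.nd (nat_lit 390) (nat_lit 1292) (nat_lit 0) (XT.nd (nat_lit 156) (nat_lit 912) (nat_lit 0) (XT.nd (nat_lit 78) (nat_lit 456) (nat_lit 0) (XT.lf (nat_lit 0) (nat_lit 5031108210) (nat_lit 532) (nat_lit 2848068625) (nat_lit 76) (nat_lit 1980451646) (nat_lit 154) (nat_lit 5) (nat_lit 161) (nat_lit 5) (nat_lit 155)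 (nat_lit 5) (nat_lit 456) (nat_lit 365) (nat_lit 319)) (XT.lf (nat_lit 0) (nat_lit 3717819976) (nat_lit 456) (nat_lit 4588472760) (nat_lit 532) (nat_lit 1658166247) (nat_lit 148) (nat_lit 5) (nat_lit 154) (nat_lit 5) (nat_lit 155) (nat_lit 5) (nat_lit 457) (nat_lit 365) (nat_lit 318))) (XT.nd (nat_lit 78) (nat_lit 456) (nat_lit 0) (XT.lf (nat_lit 0) (nat_lit 318319490) (nat_lit 380) (nat_lit 1217705930) (nat_lit 456) (nat_lit 8535547904) (nat_lit 142) (nat_lit 5) (nat_lit 147) (nat_lit 5) (nat_lit 148) (nat_lit 5) (nat_lit 458) (nat_lit 365) (nat_lit 317)) (XT.nd (nat_lit 78) (nat_lit 456) (nat_lit 0) (XT.lf (nat_lit 0) (nat_lit 4788617888) (nat_lit 456) (nat_lit 3164853445) (nat_lit 76) (nat_lit 2226818467) (nat_lit 142) (nat_lit 5) (nat_lit 148) (nat_lit 5) (nat_lit 143) (nat_lit 5) (nat_lit 459) (nat_lit 365) (nat_lit 316)) (XT.lf (nat_lit 0) (nat_lit 3536338022) (nat_lit 456) (nat_lit 4561817744) (nat_lit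 532) (nat_lit 2193200157) (nat_lit 136) (nat_lit 5) (nat_lit 142) (nat_lit 5) (nat_lit 143) (nat_lit 5) (nat_lit 460) (nat_lit 365) (nat_lit 315))))) (XT.nd (nat_lit 156) (nat_lit 836) (nat_lit 0) (XT.nd (nat_lit 78) (nat_lit 380) (nat_lit 0) (XT.lf (nat_lit 0) (nat_lit 1037593725) (nat_lit 532) (nat_lit 54294179) (nat_lit 76) (nat_lit 9312981778) (nat_lit 135) (nat_lit 5) (nat_lit 142) (nat_lit 5) (nat_lit 136) (nat_lit 5) (nat_lit 461) (nat_lit 365) (nat_lit 314)) (XT.lf (nat_lit 0) (nat_lit 4325729869) (nat_lit 456) (nat_lit 3737652573) (nat_lit 76) (nat_lit 2456551895) (nat_lit 130) (nat_lit 5) (nat_lit 136) (nat_lit 5) (nat_lit 131) (nat_lit 5) (nat_lit 462) (nat_lit 365) (nat_lit 313))) (XT.nd (nat_lit 78) (nat_lit 456) (nat_lit 0) (XT.lf (nat_lit 0) (nat_lit 3095799495) (nat_lit 380) (nat_lit 4573558274) (nat_lit 456) (nat_lit 2968160120) (nat_lit 125) (nat_lit 5) (nat_lit 130) (nat_lit 5) (nat_lit 131)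 (nat_lit 5) (nat_lit 463) (nat_lit 365) (nat_lit 312)) (XT.nd (nat_lit 78) (nat_lit 380) (nat_lit 0) (XT.lf (nat_lit 0) (nat_lit 305574364) (nat_lit 456) (nat_lit 699368939) (nat_lit 76) (nat_lit 9752731703) (nat_lit 124) (nat_lit 5) (nat_lit 130) (nat_lit 5) (nat_lit 125) (nat_lit 5) (nat_lit 464) (nat_lit 365) (nat_lit 311)) (XT.lf (nat_lit 0) (nat_lit 3626177152) (nat_lit 456) (nat_lit 4610173132) (nat_lit 76) (nat_lit 2643081326) (nat_lit 119) (nat_lit 5) (nat_lit 125) (nat_lit 5) (nat_lit 120) (nat_lit 5) (nat_lit 465) (nat_lit 365) (nat_lit 310)))))) (XT.nd (nat_lit 390) (nat_lit 1368) (nat_lit 0) (XT.nd (nat_lit 156) (nat_lit 760) (nat_lit 0) (XT.nd (nat_lit 78) (nat_lit 0) (nat_lit 0) (XT.lf (nat_lit 0) (nat_lit 2351472032) (nat_lit 380) (nat_lit 4651507346) (nat_lit 456) (nat_lit 4000859479) (nat_lit 114) (nat_lit 5) (nat_lit 119) (nat_lit 5) (nat_lit 120) (nat_lit 5) (nat_lit 466) (nat_lit 365) (nat_lit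 309)) (XT.lf (nat_lit 0) (nat_lit 9459319210) (nat_lit 380) (nat_lit 982437966) (nat_lit 456) (nat_lit 689099318) (nat_lit 114) (nat_lit 5) (nat_lit 119) (nat_lit 5) (nat_lit 120) (nat_lit 5) (nat_lit 467) (nat_lit 365) (nat_lit 308))) (XT.nd (nat_lit 78) (nat_lit 380) (nat_lit 0) (XT.lf (nat_lit 0) (nat_lit 2671120433) (nat_lit 380) (nat_lit 5830257868) (nat_lit 76) (nat_lit 2758347834) (nat_lit 109) (nat_lit 5) (nat_lit 114) (nat_lit 5) (nat_lit 110) (nat_lit 5) (nat_lit 468) (nat_lit 365) (nat_lit 307)) (XT.nd (nat_lit 78) (nat_lit 0) (nat_lit 0) (XT.lf (nat_lit 0) (nat_lit 1254346426) (nat_lit 380) (nat_lit 4825121589) (nat_lit 456) (nat_lit 5311821445) (nat_lit 104) (nat_lit 5) (nat_lit 109) (nat_lit 5) (nat_lit 110) (nat_lit 5) (nat_lit 469) (nat_lit 365) (nat_lit 306)) (XT.lf (nat_lit 0) (nat_lit 8504872694) (nat_lit 380) (nat_lit 1054780515) (nat_lit 456) (nat_lit 1965767625) (nat_lit 104) (nat_lit 5)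 (nat_lit 109) (nat_lit 5) (nat_lit 110) (nat_lit 5) (nat_lit 470) (nat_lit 365) (nat_lit 305))))) (XT.nd (nat_lit 234) (nat_lit 684) (nat_lit 0) (XT.nd (nat_lit 78) (nat_lit 304) (nat_lit 0) (XT.lf (nat_lit 0) (nat_lit 1438933129) (nat_lit 380) (nat_lit 7450392457) (nat_lit 76) (nat_lit 2772517000) (nat_lit 99) (nat_lit 5) (nat_lit 104) (nat_lit 5) (nat_lit 100) (nat_lit 5) (nat_lit 471) (nat_lit 365) (nat_lit 304)) (XT.nd (nat_lit 78) (nat_lit 304) (nat_lit 0) (XT.lf (nat_lit 0) (nat_lit 4878033651) (nat_lit 380) (nat_lit 246115443) (nat_lit 76) (nat_lit 6676740864) (nat_lit 99) (nat_lit 5) (nat_lit 104) (nat_lit 5) (nat_lit 100) (nat_lit 5) (nat_lit 472) (nat_lit 365) (nat_lit 303)) (XT.lf (nat_lit 0) (nat_lit 7142567398) (nat_lit 304) (nat_lit 1255618926) (nat_lit 380) (nat_lit 3544295970) (nat_lit 95) (nat_lit 5) (nat_lit 99) (nat_lit 5) (nat_lit 100) (nat_lit 5) (nat_lit 473) (nat_lit 365) (nat_lit 302))))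 (XT.nd (nat_lit 78) (nat_lit 380) (nat_lit 0) (XT.lf (nat_lit 0) (nat_lit 2557992359) (nat_lit 304) (nat_lit 9432583071) (nat_lit 380) (nat_lit 96303614) (nat_lit 91) (nat_lit 5) (nat_lit 95) (nat_lit 5) (nat_lit 96) (nat_lit 5) (nat_lit 474) (nat_lit 365) (nat_lit 301)) (XT.nd (nat_lit 78) (nat_lit 304) (nat_lit 0) (XT.lf (nat_lit 0) (nat_lit 3382708340) (nat_lit 380) (nat_lit 2189806074) (nat_lit 76) (nat_lit 6661075566) (nat_lit 90) (nat_lit 5) (nat_lit 95) (nat_lit 5) (nat_lit 91) (nat_lit 5) (nat_lit 475) (nat_lit 365) (nat_lit 300)) (XT.lf (nat_lit 0) (nat_lit 5312474169) (nat_lit 304) (nat_lit 1618876787) (nat_lit 380) (nat_lit 5451853350) (nat_lit 86) (nat_lit 5) (nat_lit 90) (nat_lit 5) (nat_lit 91) (nat_lit 5) (nat_lit 476) (nat_lit 365) (nat_lit 299))))))))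
noncomputable def xc58 : XT := (XT.nd (nat_lit 1638) (nat_lit 760) (nat_lit 0) (XT.nd (nat_lit 780) (nat_lit 1520) (nat_lit 0) (XT.nd (nat_lit 390) (nat_lit 912) (nat_lit 0) (XT.nd (nat_lit 156) (nat_lit 532) (nat_lit 0) (XT.nd (nat_lit 78) (nat_lit 76) (nat_lit 0) (XT.lf (nat_lit 0) (nat_lit 395573559) (nat_lit 228) (nat_lit 10155456619) (nat_lit 304) (nat_lit 1984787998) (nat_lit 83) (nat_lit 5) (nat_lit 86) (nat_lit 5) (nat_lit 87) (nat_lit 5) (nat_lit 477) (nat_lit 365) (nat_lit 298)) (XT.lf (nat_lit 0) (nat_lit 1556864891) (nat_lit 304) (nat_lit 4657504963) (nat_lit 76) (nat_lit 6476409265) (nat_lit 82) (nat_lit 5) (nat_lit 86) (nat_lit 5) (nat_lit 83) (nat_lit 5) (nat_lit 478) (nat_lit 365) (nat_lit 297))) (XT.nd (nat_lit 78) (nat_lit 228) (nat_lit 0) (XT.lf (nat_lit 0) (nat_lit 2948544170) (nat_lit 304) (nat_lit 2181156360) (nat_lit 380) (nat_lit 7719145882) (nat_lit 78) (nat_lit 5) (nat_lit 82) (nat_lit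 5) (nat_lit 83) (nat_lit 5) (nat_lit 479) (nat_lit 365) (nat_lit 296)) (XT.nd (nat_lit 78) (nat_lit 228) (nat_lit 0) (XT.lf (nat_lit 0) (nat_lit 8785930421) (nat_lit 380) (nat_lit 2304407533) (nat_lit 76) (nat_lit 1919506228) (nat_lit 78) (nat_lit 5) (nat_lit 83) (nat_lit 5) (nat_lit 79) (nat_lit 5) (nat_lit 480) (nat_lit 365) (nat_lit 295)) (XT.lf (nat_lit 0) (nat_lit 5449400717) (nat_lit 228) (nat_lit 7084266664) (nat_lit 304) (nat_lit 640034604) (nat_lit 75) (nat_lit 5) (nat_lit 78) (nat_lit 5) (nat_lit 79) (nat_lit 5) (nat_lit 481) (nat_lit 365) (nat_lit 294))))) (XT.nd (nat_lit 156) (nat_lit 532) (nat_lit 0) (XT.nd (nat_lit 78) (nat_lit 304) (nat_lit 0) (XT.lf (nat_lit 0) (nat_lit 2960169414) (nat_lit 304) (nat_lit 21804939) (nat_lit 76) (nat_lit 10358794515) (nat_lit 74) (nat_lit 5) (nat_lit 78) (nat_lit 5) (nat_lit 75) (nat_lit 5) (nat_lit 482) (nat_lit 365) (nat_lit 293)) (XT.lf (nat_lit 0) (nat_lit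 6652295402) (nat_lit 380) (nat_lit 5634954687) (nat_lit 76) (nat_lit 1223279910) (nat_lit 70) (nat_lit 5) (nat_lit 75) (nat_lit 5) (nat_lit 71) (nat_lit 5) (nat_lit 483) (nat_lit 365) (nat_lit 292))) (XT.nd (nat_lit 78) (nat_lit 304) (nat_lit 0) (XT.lf (nat_lit 0) (nat_lit 2206426545) (nat_lit 228) (nat_lit 8215458115) (nat_lit 304) (nat_lit 3261736416) (nat_lit 67) (nat_lit 5) (nat_lit 70) (nat_lit 5) (nat_lit 71) (nat_lit 5) (nat_lit 484) (nat_lit 365) (nat_lit 291)) (XT.nd (nat_lit 78) (nat_lit 228) (nat_lit 0) (XT.lf (nat_lit 0) (nat_lit 408889513) (nat_lit 304) (nat_lit 3631649095) (nat_lit 76) (nat_lit 9819438784) (nat_lit 66) (nat_lit 5) (nat_lit 70) (nat_lit 5) (nat_lit 67) (nat_lit 5) (nat_lit 485) (nat_lit 365) (nat_lit 290)) (XT.lf (nat_lit 0) (nat_lit 4109267687) (nat_lit 304) (nat_lit 9684110091) (nat_lit 76) (nat_lit 246058295) (nat_lit 63) (nat_lit 5) (nat_lit 67) (nat_lit 5) (nat_lit 64) (nat_lit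 5) (nat_lit 486) (nat_lit 365) (nat_lit 289)))))) (XT.nd (nat_lit 390) (nat_lit 760) (nat_lit 0) (XT.nd (nat_lit 156) (nat_lit 532) (nat_lit 0) (XT.nd (nat_lit 78) (nat_lit 228) (nat_lit 0) (XT.lf (nat_lit 0) (nat_lit 7905152638) (nat_lit 304) (nat_lit 1747168892) (nat_lit 76) (nat_lit 4569739009) (nat_lit 63) (nat_lit 5) (nat_lit 67) (nat_lit 5) (nat_lit 64) (nat_lit 5) (nat_lit 487) (nat_lit 365) (nat_lit 288)) (XT.lf (nat_lit 0) (nat_lit 6383684331) (nat_lit 228) (nat_lit 5405511216) (nat_lit 304) (nat_lit 2618903607) (nat_lit 60) (nat_lit 5) (nat_lit 63) (nat_lit 5) (nat_lit 64) (nat_lit 5) (nat_lit 488) (nat_lit 365) (nat_lit 287))) (XT.nd (nat_lit 78) (nat_lit 228) (nat_lit 0) (XT.lf (nat_lit 0) (nat_lit 47650668) (nat_lit 228) (nat_lit 1073253678) (nat_lit 304) (nat_lit 13477151359) (nat_lit 56) (nat_lit 5) (nat_lit 59) (nat_lit 5) (nat_lit 60) (nat_lit 5) (nat_lit 489) (nat_lit 365) (nat_lit 286)) (XT.nd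 (nat_lit 78) (nat_lit 228) (nat_lit 0) (XT.lf (nat_lit 0) (nat_lit 4947387462) (nat_lit 304) (nat_lit 6488988393) (nat_lit 76) (nat_lit 3354156482) (nat_lit 56) (nat_lit 5) (nat_lit 60) (nat_lit 5) (nat_lit 57) (nat_lit 5) (nat_lit 490) (nat_lit 365) (nat_lit 285)) (XT.lf (nat_lit 0) (nat_lit 1701052694) (nat_lit 228) (nat_lit 7139054952) (nat_lit 304) (nat_lit 6146962682) (nat_lit 53) (nat_lit 5) (nat_lit 56) (nat_lit 5) (nat_lit 57) (nat_lit 5) (nat_lit 491) (nat_lit 365) (nat_lit 284))))) (XT.nd (nat_lit 234) (nat_lit 456) (nat_lit 0) (XT.nd (nat_lit 78) (nat_lit 304) (nat_lit 0) (XT.lf (nat_lit 0) (nat_lit 10095363202) (nat_lit 228) (nat_lit 2730668356) (nat_lit 304) (nat_lit 2361206390) (nat_lit 53) (nat_lit 5) (nat_lit 56) (nat_lit 5) (nat_lit 57) (nat_lit 5) (nat_lit 492) (nat_lit 365) (nat_lit 283)) (XT.nd (nat_lit 78) (nat_lit 0) (nat_lit 0) (XT.lf (nat_lit 0) (nat_lit 1485418267) (nat_lit 304) (nat_lit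 12150772786) (nat_lit 76) (nat_lit 1754932092) (nat_lit 49) (nat_lit 5) (nat_lit 53) (nat_lit 5) (nat_lit 50) (nat_lit 5) (nat_lit 493) (nat_lit 365) (nat_lit 282)) (XT.lf (nat_lit 0) (nat_lit 5402156039) (nat_lit 304) (nat_lit 3871168820) (nat_lit 76) (nat_lit 6324958611) (nat_lit 49) (nat_lit 5) (nat_lit 53) (nat_lit 5) (nat_lit 50) (nat_lit 5) (nat_lit 494) (nat_lit 365) (nat_lit 281)))) (XT.nd (nat_lit 78) (nat_lit 304) (nat_lit 0) (XT.lf (nat_lit 0) (nat_lit 4588062732) (nat_lit 152) (nat_lit 4811786225) (nat_lit 228) (nat_lit 6409691046) (nat_lit 47) (nat_lit 5) (nat_lit 49) (nat_lit 5) (nat_lit 50) (nat_lit 5) (nat_lit 495) (nat_lit 365) (nat_lit 280)) (XT.nd (nat_lit 78) (nat_lit 304) (nat_lit 0) (XT.lf (nat_lit 0) (nat_lit 13223119406) (nat_lit 152) (nat_lit 253420681) (nat_lit 228) (nat_lit 2548505998) (nat_lit 47) (nat_lit 5) (nat_lit 49) (nat_lit 5) (nat_lit 50) (nat_lit 5) (nat_lit 496) (nat_lit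 365) (nat_lit 279)) (XT.lf (nat_lit 0) (nat_lit 1411527826) (nat_lit 304) (nat_lit 10465326854) (nat_lit 76) (nat_lit 4367035144) (nat_lit 43) (nat_lit 5) (nat_lit 47) (nat_lit 5) (nat_lit 44) (nat_lit 5) (nat_lit 497) (nat_lit 365) (nat_lit 278))))))) (XT.nd (nat_lit 52494) (nat_lit 0) (nat_lit 26448) (XT.nd (nat_lit 390) (nat_lit 304) (nat_lit 0) (XT.nd (nat_lit 156) (nat_lit 304) (nat_lit 0) (XT.nd (nat_lit 78) (nat_lit 152) (nat_lit 0) (XT.lf (nat_lit 0) (nat_lit 5410797921) (nat_lit 304) (nat_lit 1962178470) (nat_lit 76) (nat_lit 9093918931) (nat_lit 43) (nat_lit 5) (nat_lit 47) (nat_lit 5) (nat_lit 44) (nat_lit 5) (nat_lit 498) (nat_lit 365) (nat_lit 277)) (XT.lf (nat_lit 0) (nat_lit 6755110684) (nat_lit 152) (nat_lit 2752843534) (nat_lit 228) (nat_lit 7186053597) (nat_lit 41) (nat_lit 5) (nat_lit 43) (nat_lit 5) (nat_lit 44) (nat_lit 5) (nat_lit 499) (nat_lit 365) (nat_lit 276))) (XT.nd (nat_lit 78) (nat_lit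 304) (nat_lit 0) (XT.lf (nat_lit 0) (nat_lit 13687175667) (nat_lit 228) (nat_lit 1309489871) (nat_lit 76) (nat_lit 1928999383) (nat_lit 41) (nat_lit 5) (nat_lit 44) (nat_lit 5) (nat_lit 42) (nat_lit 5) (nat_lit 500) (nat_lit 365) (nat_lit 275)) (XT.nd (nat_lit 78) (nat_lit 0) (nat_lit 0) (XT.lf (nat_lit 0) (nat_lit 819729949) (nat_lit 304) (nat_lit 9637243274) (nat_lit 76) (nat_lit 6704043462) (nat_lit 37) (nat_lit 5) (nat_lit 41) (nat_lit 5) (nat_lit 38) (nat_lit 5) (nat_lit 501) (nat_lit 365) (nat_lit 274)) (XT.lf (nat_lit 0) (nat_lit 4899331054) (nat_lit 304) (nat_lit 914753781) (nat_lit 76) (nat_lit 11586895430) (nat_lit 37) (nat_lit 5) (nat_lit 41) (nat_lit 5) (nat_lit 38) (nat_lit 5) (nat_lit 502) (nat_lit 365) (nat_lit 273))))) (XT.nd (nat_lit 156) (nat_lit 152) (nat_lit 0) (XT.nd (nat_lit 78) (nat_lit 0) (nat_lit 0) (XT.lf (nat_lit 0) (nat_lit 8044751373) (nat_lit 152) (nat_lit 1043195644) (nat_lit 228)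 (nat_lit 8557252082) (nat_lit 35) (nat_lit 5) (nat_lit 37) (nat_lit 5) (nat_lit 38) (nat_lit 5) (nat_lit 503) (nat_lit 365) (nat_lit 272)) (XT.lf (nat_lit 0) (nat_lit 13366619793) (nat_lit 228) (nat_lit 766235064) (nat_lit 76) (nat_lit 3761326113) (nat_lit 35) (nat_lit 5) (nat_lit 38) (nat_lit 5) (nat_lit 36) (nat_lit 5) (nat_lit 504) (nat_lit 365) (nat_lit 271))) (XT.nd (nat_lit 51792) (nat_lit 0) (nat_lit 37468) (XT.lf (nat_lit 0) (nat_lit 8304472772) (nat_lit 152) (nat_lit 9462987810) (nat_lit 228) (nat_lit 379954273) (nat_lit 33) (nat_lit 5) (nat_lit 35) (nat_lit 5) (nat_lit 36) (nat_lit 5) (nat_lit 505) (nat_lit 365) (nat_lit 270)) (XT.nd (nat_lit 78) (nat_lit 1292) (nat_lit 0) (XT.lf (nat_lit 0) (nat_lit 3229376557) (nat_lit 1140) (nat_lit 93185214) (nat_lit 1140) (nat_lit 93185214) (nat_lit 543) (nat_lit 4) (nat_lit 558) (nat_lit 5) (nat_lit 558) (nat_lit 4) (nat_lit 408) (nat_lit 366) (nat_lit 366))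 (XT.lf (nat_lit 0) (nat_lit 3037586719) (nat_lit 1292) (nat_lit 2731615501) (nat_lit 0) (nat_lit 1090837206) (nat_lit 526) (nat_lit 5) (nat_lit 543) (nat_lit 4) (nat_lit 526) (nat_lit 4) (nat_lit 409) (nat_lit 366) (nat_lit 365)))))) (XT.nd (nat_lit 390) (nat_lit 6764) (nat_lit 0) (XT.nd (nat_lit 156) (nat_lit 2888) (nat_lit 0) (XT.nd (nat_lit 78) (nat_lit 76) (nat_lit 0) (XT.lf (nat_lit 0) (nat_lit 1796449897) (nat_lit 1292) (nat_lit 4474554939) (nat_lit 1292) (nat_lit 619227471) (nat_lit 509) (nat_lit 4) (nat_lit 526) (nat_lit 5) (nat_lit 526) (nat_lit 4) (nat_lit 410) (nat_lit 366) (nat_lit 364)) (XT.lf (nat_lit 0) (nat_lit 2564294824) (nat_lit 1368) (nat_lit 546606779) (nat_lit 76) (nat_lit 3810813072) (nat_lit 508) (nat_lit 5) (nat_lit 526) (nat_lit 5) (nat_lit 509) (nat_lit 4) (nat_lit 411) (nat_lit 366) (nat_lit 363))) (XT.nd (nat_lit 78) (nat_lit 1520) (nat_lit 0) (XT.lf (nat_lit 0) (nat_lit 4081396293)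 (nat_lit 1368) (nat_lit 1682140421) (nat_lit 1444) (nat_lit 1191049079) (nat_lit 490) (nat_lit 5) (nat_lit 508) (nat_lit 5) (nat_lit 509) (nat_lit 4) (nat_lit 412) (nat_lit 366) (nat_lit 362)) (XT.nd (nat_lit 78) (nat_lit 0) (nat_lit 0) (XT.lf (nat_lit 0) (nat_lit 1771226046) (nat_lit 1444) (nat_lit 190146777) (nat_lit 1520) (nat_lit 5027533489) (nat_lit 470) (nat_lit 5) (nat_lit 489) (nat_lit 5) (nat_lit 490) (nat_lit 5) (nat_lit 413) (nat_lit 366) (nat_lit 361)) (XT.lf (nat_lit 0) (nat_lit 5124167956) (nat_lit 1520) (nat_lit 553763586) (nat_lit 76) (nat_lit 1346603808) (nat_lit 470) (nat_lit 5) (nat_lit 490) (nat_lit 5) (nat_lit 471) (nat_lit 4) (nat_lit 414) (nat_lit 366) (nat_lit 360))))) (XT.nd (nat_lit 234) (nat_lit 3496) (nat_lit 0) (XT.nd (nat_lit 78) (nat_lit 1672) (nat_lit 0) (XT.lf (nat_lit 0) (nat_lit 1237142023) (nat_lit 1596) (nat_lit 2872393085) (nat_lit 76) (nat_lit 2951923511) (nat_lit 449)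 (nat_lit 5) (nat_lit 470) (nat_lit 5) (nat_lit 450) (nat_lit 5) (nat_lit 415) (nat_lit 366) (nat_lit 359)) (XT.nd (nat_lit 78) (nat_lit 76) (nat_lit 0) (XT.lf (nat_lit 0) (nat_lit 1887008715) (nat_lit 1596) (nat_lit 2477839038) (nat_lit 1672) (nat_lit 2735005956) (nat_lit 428) (nat_lit 5) (nat_lit 449) (nat_lit 5) (nat_lit 450) (nat_lit 5) (nat_lit 416) (nat_lit 366) (nat_lit 358)) (XT.lf (nat_lit 0) (nat_lit 367307658) (nat_lit 1672) (nat_lit 421744754) (nat_lit 76) (nat_lit 6350817561) (nat_lit 427) (nat_lit 5) (nat_lit 449) (nat_lit 5) (nat_lit 428) (nat_lit 5) (nat_lit 417) (nat_lit 366) (nat_lit 357)))) (XT.nd (nat_lit 78) (nat_lit 1824) (nat_lit 0) (XT.lf (nat_lit 0) (nat_lit 3468829939) (nat_lit 1748) (nat_lit 2741656027) (nat_lit 76) (nat_lit 970403324) (nat_lit 405) (nat_lit 5) (nat_lit 428) (nat_lit 5) (nat_lit 406) (nat_lit 5) (nat_lit 418) (nat_lit 366) (nat_lit 356)) (XT.nd (nat_lit 78) (nat_lit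 76) (nat_lit 0) (XT.lf (nat_lit 0) (nat_lit 2142838486) (nat_lit 1748) (nat_lit 4450862872) (nat_lit 1824) (nat_lit 629840458) (nat_lit 382) (nat_lit 5) (nat_lit 405) (nat_lit 5) (nat_lit 406) (nat_lit 5) (nat_lit 419) (nat_lit 366) (nat_lit 355)) (XT.lf (nat_lit 0) (nat_lit 2439267301) (nat_lit 1824) (nat_lit 181874570) (nat_lit 76) (nat_lit 4646452412) (nat_lit 381) (nat_lit 5) (nat_lit 405) (nat_lit 5) (nat_lit 382) (nat_lit 5) (nat_lit 420) (nat_lit 366) (nat_lit 354))))))))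
noncomputable def xc59 : XT := (XT.nd (nat_lit 1638) (nat_lit 7296) (nat_lit 0) (XT.nd (nat_lit 780) (nat_lit 5624) (nat_lit 0) (XT.nd (nat_lit 390) (nat_lit 2432) (nat_lit 0) (XT.nd (nat_lit 156) (nat_lit 1748) (nat_lit 0) (XT.nd (nat_lit 78) (nat_lit 988) (nat_lit 0) (XT.lf (nat_lit 0) (nat_lit 4814155649) (nat_lit 988) (nat_lit 719311552) (nat_lit 1064) (nat_lit 1779571398) (nat_lit 368) (nat_lit 5) (nat_lit 381) (nat_lit 5) (nat_lit 382) (nat_lit 5) (nat_lit 421) (nat_lit 366) (nat_lit 353)) (XT.lf (nat_lit 0) (nat_lit 1279607166) (nat_lit 988) (nat_lit 4850757259) (nat_lit 76) (nat_lit 1229552286) (nat_lit 355) (nat_lit 5) (nat_lit 368) (nat_lit 5) (nat_lit 356) (nat_lit 5) (nat_lit 422) (nat_lit 366) (nat_lit 352))) (XT.nd (nat_lit 78) (nat_lit 912) (nat_lit 0) (XT.lf (nat_lit 0) (nat_lit 168434220) (nat_lit 836) (nat_lit 4172449550) (nat_lit 912) (nat_lit 3067353305) (nat_lit 344) (nat_lit 5) (nat_lit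 355) (nat_lit 5) (nat_lit 356) (nat_lit 5) (nat_lit 423) (nat_lit 366) (nat_lit 351)) (XT.nd (nat_lit 78) (nat_lit 912) (nat_lit 0) (XT.lf (nat_lit 0) (nat_lit 5293210243) (nat_lit 836) (nat_lit 2145454771) (nat_lit 912) (nat_lit 19387370) (nat_lit 344) (nat_lit 5) (nat_lit 355) (nat_lit 5) (nat_lit 356) (nat_lit 5) (nat_lit 424) (nat_lit 366) (nat_lit 350)) (XT.lf (nat_lit 0) (nat_lit 2970365696) (nat_lit 836) (nat_lit 41384018) (nat_lit 912) (nat_lit 4497491261) (nat_lit 332) (nat_lit 5) (nat_lit 343) (nat_lit 5) (nat_lit 344) (nat_lit 5) (nat_lit 425) (nat_lit 366) (nat_lit 349))))) (XT.nd (nat_lit 156) (nat_lit 1596) (nat_lit 0) (XT.nd (nat_lit 78) (nat_lit 76) (nat_lit 0) (XT.lf (nat_lit 0) (nat_lit 609688650) (nat_lit 760) (nat_lit 5469950601) (nat_lit 836) (nat_lit 1482315892) (nat_lit 322) (nat_lit 5) (nat_lit 332) (nat_lit 5) (nat_lit 333) (nat_lit 5) (nat_lit 426) (nat_lit 366) (nat_lit 348)) (XT.lf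 (nat_lit 0) (nat_lit 1547650184) (nat_lit 836) (nat_lit 1764430501) (nat_lit 76) (nat_lit 4303959302) (nat_lit 321) (nat_lit 5) (nat_lit 332) (nat_lit 5) (nat_lit 322) (nat_lit 5) (nat_lit 427) (nat_lit 366) (nat_lit 347))) (XT.nd (nat_lit 78) (nat_lit 836) (nat_lit 0) (XT.lf (nat_lit 0) (nat_lit 3503246223) (nat_lit 760) (nat_lit 1083422161) (nat_lit 836) (nat_lit 3085006460) (nat_lit 311) (nat_lit 5) (nat_lit 321) (nat_lit 5) (nat_lit 322) (nat_lit 5) (nat_lit 428) (nat_lit 366) (nat_lit 346)) (XT.nd (nat_lit 78) (nat_lit 76) (nat_lit 0) (XT.lf (nat_lit 0) (nat_lit 1118152279) (nat_lit 760) (nat_lit 6541397734) (nat_lit 836) (nat_lit 69440428) (nat_lit 301) (nat_lit 5) (nat_lit 311) (nat_lit 5) (nat_lit 312) (nat_lit 5) (nat_lit 429) (nat_lit 366) (nat_lit 345)) (XT.lf (nat_lit 0) (nat_lit 2948802025) (nat_lit 836) (nat_lit 1307861803) (nat_lit 76) (nat_lit 3530790777) (nat_lit 300) (nat_lit 5) (nat_lit 311)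 (nat_lit 5) (nat_lit 301) (nat_lit 5) (nat_lit 430) (nat_lit 366) (nat_lit 344)))))) (XT.nd (nat_lit 390) (nat_lit 2660) (nat_lit 0) (XT.nd (nat_lit 156) (nat_lit 1444) (nat_lit 0) (XT.nd (nat_lit 78) (nat_lit 760) (nat_lit 0) (XT.lf (nat_lit 0) (nat_lit 4094554407) (nat_lit 760) (nat_lit 1906022784) (nat_lit 836) (nat_lit 1847047719) (nat_lit 290) (nat_lit 5) (nat_lit 300) (nat_lit 5) (nat_lit 301) (nat_lit 5) (nat_lit 431) (nat_lit 366) (nat_lit 343)) (XT.lf (nat_lit 0) (nat_lit 1159363160) (nat_lit 760) (nat_lit 6245110996) (nat_lit 76) (nat_lit 504979583) (nat_lit 280) (nat_lit 5) (nat_lit 290) (nat_lit 5) (nat_lit 281) (nat_lit 5) (nat_lit 432) (nat_lit 366) (nat_lit 342))) (XT.nd (nat_lit 78) (nat_lit 1444) (nat_lit 0) (XT.lf (nat_lit 0) (nat_lit 4187535130) (nat_lit 760) (nat_lit 816855183) (nat_lit 76) (nat_lit 2968183733) (nat_lit 280) (nat_lit 5) (nat_lit 290) (nat_lit 5) (nat_lit 281) (nat_lit 5)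 (nat_lit 433) (nat_lit 366) (nat_lit 341)) (XT.nd (nat_lit 78) (nat_lit 760) (nat_lit 0) (XT.lf (nat_lit 0) (nat_lit 4722295287) (nat_lit 684) (nat_lit 2534015120) (nat_lit 760) (nat_lit 781071413) (nat_lit 271) (nat_lit 5) (nat_lit 280) (nat_lit 5) (nat_lit 281) (nat_lit 5) (nat_lit 434) (nat_lit 366) (nat_lit 340)) (XT.lf (nat_lit 0) (nat_lit 2222767199) (nat_lit 760) (nat_lit 5869431912) (nat_lit 76) (nat_lit 11620376) (nat_lit 261) (nat_lit 5) (nat_lit 271) (nat_lit 5) (nat_lit 262) (nat_lit 5) (nat_lit 435) (nat_lit 366) (nat_lit 339))))) (XT.nd (nat_lit 234) (nat_lit 1292) (nat_lit 0) (XT.nd (nat_lit 78) (nat_lit 1368) (nat_lit 0) (XT.lf (nat_lit 0) (nat_lit 5265578106) (nat_lit 760) (nat_lit 313923119) (nat_lit 76) (nat_lit 2592218711) (nat_lit 261) (nat_lit 5) (nat_lit 271) (nat_lit 5) (nat_lit 262) (nat_lit 5) (nat_lit 436) (nat_lit 366) (nat_lit 338)) (XT.nd (nat_lit 78) (nat_lit 608) (nat_lit 0) (XT.lf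 (nat_lit 0) (nat_lit 112439704) (nat_lit 760) (nat_lit 2878263036) (nat_lit 76) (nat_lit 5250565318) (nat_lit 251) (nat_lit 5) (nat_lit 261) (nat_lit 5) (nat_lit 252) (nat_lit 5) (nat_lit 437) (nat_lit 366) (nat_lit 337)) (XT.lf (nat_lit 0) (nat_lit 2803508564) (nat_lit 608) (nat_lit 320709427) (nat_lit 684) (nat_lit 5188193156) (nat_lit 243) (nat_lit 5) (nat_lit 251) (nat_lit 5) (nat_lit 252) (nat_lit 5) (nat_lit 438) (nat_lit 366) (nat_lit 336)))) (XT.nd (nat_lit 78) (nat_lit 684) (nat_lit 0) (XT.lf (nat_lit 0) (nat_lit 179890414) (nat_lit 608) (nat_lit 6004427983) (nat_lit 684) (nat_lit 2200919482) (nat_lit 235) (nat_lit 5) (nat_lit 243) (nat_lit 5) (nat_lit 244) (nat_lit 5) (nat_lit 439) (nat_lit 366) (nat_lit 335)) (XT.nd (nat_lit 78) (nat_lit 608) (nat_lit 0) (XT.lf (nat_lit 0) (nat_lit 826434750) (nat_lit 684) (nat_lit 2469854607) (nat_lit 76) (nat_lit 5163314921) (nat_lit 234) (nat_lit 5) (nat_lit 243)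 (nat_lit 5) (nat_lit 235) (nat_lit 5) (nat_lit 440) (nat_lit 366) (nat_lit 334)) (XT.lf (nat_lit 0) (nat_lit 3350554282) (nat_lit 608) (nat_lit 509127825) (nat_lit 684) (nat_lit 4676009826) (nat_lit 226) (nat_lit 5) (nat_lit 234) (nat_lit 5) (nat_lit 235) (nat_lit 5) (nat_lit 441) (nat_lit 366) (nat_lit 333))))))) (XT.nd (nat_lit 780) (nat_lit 3344) (nat_lit 0) (XT.nd (nat_lit 390) (nat_lit 2128) (nat_lit 0) (XT.nd (nat_lit 156) (nat_lit 1140) (nat_lit 0) (XT.nd (nat_lit 78) (nat_lit 76) (nat_lit 0) (XT.lf (nat_lit 0) (nat_lit 641389508) (nat_lit 608) (nat_lit 6301699363) (nat_lit 684) (nat_lit 1670443376) (nat_lit 218) (nat_lit 5) (nat_lit 226) (nat_lit 5) (nat_lit 227) (nat_lit 5) (nat_lit 442) (nat_lit 366) (nat_lit 332)) (XT.lf (nat_lit 0) (nat_lit 1369029296) (nat_lit 684) (nat_lit 2110045500) (nat_lit 76) (nat_lit 5213851516) (nat_lit 217) (nat_lit 5) (nat_lit 226) (nat_lit 5) (nat_lit 218) (nat_lit 5)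 (nat_lit 443) (nat_lit 366) (nat_lit 331))) (XT.nd (nat_lit 78) (nat_lit 608) (nat_lit 0) (XT.lf (nat_lit 0) (nat_lit 3850014758) (nat_lit 532) (nat_lit 576531599) (nat_lit 608) (nat_lit 4347568222) (nat_lit 210) (nat_lit 5) (nat_lit 217) (nat_lit 5) (nat_lit 218) (nat_lit 5) (nat_lit 444) (nat_lit 366) (nat_lit 330)) (XT.nd (nat_lit 78) (nat_lit 76) (nat_lit 0) (XT.lf (nat_lit 0) (nat_lit 1040150687) (nat_lit 532) (nat_lit 6496577213) (nat_lit 608) (nat_lit 1320387645) (nat_lit 203) (nat_lit 5) (nat_lit 210) (nat_lit 5) (nat_lit 211) (nat_lit 5) (nat_lit 445) (nat_lit 366) (nat_lit 329)) (XT.lf (nat_lit 0) (nat_lit 1736453572) (nat_lit 608) (nat_lit 1825571498) (nat_lit 76) (nat_lit 5379694512) (nat_lit 202) (nat_lit 5) (nat_lit 210) (nat_lit 5) (nat_lit 203) (nat_lit 5) (nat_lit 446) (nat_lit 366) (nat_lit 328))))) (XT.nd (nat_lit 156) (nat_lit 1064) (nat_lit 0) (XT.nd (nat_lit 78) (nat_lit 532) (nat_lit 0)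 (XT.lf (nat_lit 0) (nat_lit 4274756033) (nat_lit 532) (nat_lit 545860533) (nat_lit 608) (nat_lit 4207565387) (nat_lit 195) (nat_lit 5) (nat_lit 202) (nat_lit 5) (nat_lit 203) (nat_lit 5) (nat_lit 447) (nat_lit 366) (nat_lit 327)) (XT.lf (nat_lit 0) (nat_lit 1348255406) (nat_lit 532) (nat_lit 6612209107) (nat_lit 608) (nat_lit 1156046776) (nat_lit 188) (nat_lit 5) (nat_lit 195) (nat_lit 5) (nat_lit 196) (nat_lit 5) (nat_lit 448) (nat_lit 366) (nat_lit 326))) (XT.nd (nat_lit 78) (nat_lit 988) (nat_lit 0) (XT.lf (nat_lit 0) (nat_lit 1923225172) (nat_lit 608) (nat_lit 1644924666) (nat_lit 76) (nat_lit 5638372721) (nat_lit 187) (nat_lit 5) (nat_lit 195) (nat_lit 5) (nat_lit 188) (nat_lit 5) (nat_lit 449) (nat_lit 366) (nat_lit 325)) (XT.nd (nat_lit 78) (nat_lit 532) (nat_lit 0) (XT.lf (nat_lit 0) (nat_lit 4595815131) (nat_lit 456) (nat_lit 440149981) (nat_lit 532) (nat_lit 4262485599) (nat_lit 181) (nat_lit 5) (nat_lit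 187) (nat_lit 5) (nat_lit 188) (nat_lit 5) (nat_lit 450) (nat_lit 366) (nat_lit 324)) (XT.lf (nat_lit 0) (nat_lit 1535827037) (nat_lit 532) (nat_lit 6671943818) (nat_lit 608) (nat_lit 1184526752) (nat_lit 174) (nat_lit 5) (nat_lit 181) (nat_lit 5) (nat_lit 182) (nat_lit 5) (nat_lit 451) (nat_lit 366) (nat_lit 323)))))) (XT.nd (nat_lit 390) (nat_lit 1824) (nat_lit 0) (XT.nd (nat_lit 156) (nat_lit 988) (nat_lit 0) (XT.nd (nat_lit 78) (nat_lit 456) (nat_lit 0) (XT.lf (nat_lit 0) (nat_lit 1922062490) (nat_lit 608) (nat_lit 1598649963) (nat_lit 76) (nat_lit 5967216660) (nat_lit 173) (nat_lit 5) (nat_lit 181) (nat_lit 5) (nat_lit 174) (nat_lit 5) (nat_lit 452) (nat_lit 366) (nat_lit 322)) (XT.lf (nat_lit 0) (nat_lit 4782095600) (nat_lit 456) (nat_lit 282743636) (nat_lit 532) (nat_lit 4520694543) (nat_lit 167) (nat_lit 5) (nat_lit 173) (nat_lit 5) (nat_lit 174) (nat_lit 5) (nat_lit 453) (nat_lit 366) (nat_lit 321)))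 (XT.nd (nat_lit 78) (nat_lit 532) (nat_lit 0) (XT.lf (nat_lit 0) (nat_lit 1570717103) (nat_lit 456) (nat_lit 6699546750) (nat_lit 532) (nat_lit 1414845990) (nat_lit 161) (nat_lit 5) (nat_lit 167) (nat_lit 5) (nat_lit 168) (nat_lit 5) (nat_lit 454) (nat_lit 366) (nat_lit 320)) (XT.nd (nat_lit 78) (nat_lit 456) (nat_lit 0) (XT.lf (nat_lit 0) (nat_lit 1723781793) (nat_lit 532) (nat_lit 1719665296) (nat_lit 76) (nat_lit 6343144156) (nat_lit 160) (nat_lit 5) (nat_lit 167) (nat_lit 5) (nat_lit 161) (nat_lit 5) (nat_lit 455) (nat_lit 366) (nat_lit 319)) (XT.lf (nat_lit 0) (nat_lit 4800038712) (nat_lit 456) (nat_lit 97513923) (nat_lit 532) (nat_lit 4992550570) (nat_lit 154) (nat_lit 5) (nat_lit 160) (nat_lit 5) (nat_lit 161) (nat_lit 5) (nat_lit 456) (nat_lit 366) (nat_lit 318))))) (XT.nd (nat_lit 234) (nat_lit 912) (nat_lit 0) (XT.nd (nat_lit 78) (nat_lit 456) (nat_lit 0) (XT.lf (nat_lit 0) (nat_lit 1418165916) (nat_lit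 456) (nat_lit 6719423842) (nat_lit 532) (nat_lit 1858053826) (nat_lit 148) (nat_lit 5) (nat_lit 154) (nat_lit 5) (nat_lit 155) (nat_lit 5) (nat_lit 457) (nat_lit 366) (nat_lit 317)) (XT.nd (nat_lit 78) (nat_lit 380) (nat_lit 0) (XT.lf (nat_lit 0) (nat_lit 1317176754) (nat_lit 532) (nat_lit 2043608068) (nat_lit 76) (nat_lit 6742437371) (nat_lit 147) (nat_lit 5) (nat_lit 154) (nat_lit 5) (nat_lit 148) (nat_lit 5) (nat_lit 458) (nat_lit 366) (nat_lit 316)) (XT.lf (nat_lit 0) (nat_lit 4522949338) (nat_lit 456) (nat_lit 5600216473) (nat_lit 76) (nat_lit 89715787) (nat_lit 142) (nat_lit 5) (nat_lit 148) (nat_lit 5) (nat_lit 143) (nat_lit 5) (nat_lit 459) (nat_lit 366) (nat_lit 315)))) (XT.nd (nat_lit 78) (nat_lit 456) (nat_lit 0) (XT.lf (nat_lit 0) (nat_lit 1040434342) (nat_lit 456) (nat_lit 6756855883) (nat_lit 532) (nat_lit 2527367835) (nat_lit 136) (nat_lit 5) (nat_lit 142) (nat_lit 5) (nat_lit 143) (nat_lit 5)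 (nat_lit 460) (nat_lit 366) (nat_lit 314)) (XT.nd (nat_lit 78) (nat_lit 380) (nat_lit 0) (XT.lf (nat_lit 0) (nat_lit 688879139) (nat_lit 532) (nat_lit 2609211565) (nat_lit 76) (nat_lit 7140509253) (nat_lit 135) (nat_lit 5) (nat_lit 142) (nat_lit 5) (nat_lit 136) (nat_lit 5) (nat_lit 461) (nat_lit 366) (nat_lit 313)) (XT.lf (nat_lit 0) (nat_lit 3926974757) (nat_lit 456) (nat_lit 6374174870) (nat_lit 76) (nat_lit 253521828) (nat_lit 130) (nat_lit 5) (nat_lit 136) (nat_lit 5) (nat_lit 131) (nat_lit 5) (nat_lit 462) (nat_lit 366) (nat_lit 312))))))))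
noncomputable def xc60 : XT := (XT.nd (nat_lit 1560) (nat_lit 2964) (nat_lit 0) (XT.nd (nat_lit 780) (nat_lit 1900) (nat_lit 0) (XT.nd (nat_lit 390) (nat_lit 1140) (nat_lit 0) (XT.nd (nat_lit 156) (nat_lit 836) (nat_lit 0) (XT.nd (nat_lit 78) (nat_lit 0) (nat_lit 0) (XT.lf (nat_lit 0) (nat_lit 396403146) (nat_lit 380) (nat_lit 6838245384) (nat_lit 456) (nat_lit 3438331474) (nat_lit 125) (nat_lit 5) (nat_lit 130) (nat_lit 5) (nat_lit 131) (nat_lit 5) (nat_lit 463) (nat_lit 366) (nat_lit 311)) (XT.lf (nat_lit 0) (nat_lit 7333670030) (nat_lit 380) (nat_lit 3280727522) (nat_lit 456) (nat_lit 179150448) (nat_lit 125) (nat_lit 5) (nat_lit 130) (nat_lit 5) (nat_lit 131) (nat_lit 5) (nat_lit 464) (nat_lit 366) (nat_lit 310))) (XT.nd (nat_lit 78) (nat_lit 380) (nat_lit 0) (XT.lf (nat_lit 0) (nat_lit 3092497283) (nat_lit 456) (nat_lit 7455213421) (nat_lit 76) (nat_lit 368648829) (nat_lit 119) (nat_lit 5) (nat_lit 125)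 (nat_lit 5) (nat_lit 120) (nat_lit 5) (nat_lit 465) (nat_lit 366) (nat_lit 309)) (XT.nd (nat_lit 78) (nat_lit 380) (nat_lit 0) (XT.lf (nat_lit 0) (nat_lit 6436142754) (nat_lit 456) (nat_lit 551534376) (nat_lit 76) (nat_lit 4053758249) (nat_lit 119) (nat_lit 5) (nat_lit 125) (nat_lit 5) (nat_lit 120) (nat_lit 5) (nat_lit 466) (nat_lit 366) (nat_lit 308)) (XT.lf (nat_lit 0) (nat_lit 6522035519) (nat_lit 380) (nat_lit 3331542888) (nat_lit 456) (nat_lit 1315306807) (nat_lit 114) (nat_lit 5) (nat_lit 119) (nat_lit 5) (nat_lit 120) (nat_lit 5) (nat_lit 467) (nat_lit 366) (nat_lit 307))))) (XT.nd (nat_lit 156) (nat_lit 760) (nat_lit 0) (XT.nd (nat_lit 78) (nat_lit 0) (nat_lit 0) (XT.lf (nat_lit 0) (nat_lit 2000447195) (nat_lit 380) (nat_lit 8891392260) (nat_lit 76) (nat_lit 407055436) (nat_lit 109) (nat_lit 5) (nat_lit 114) (nat_lit 5) (nat_lit 110) (nat_lit 5) (nat_lit 468) (nat_lit 366) (nat_lit 306)) (XT.lf (nat_lit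 0) (nat_lit 5383275662) (nat_lit 380) (nat_lit 1850012246) (nat_lit 76) (nat_lit 4197685737) (nat_lit 109) (nat_lit 5) (nat_lit 114) (nat_lit 5) (nat_lit 110) (nat_lit 5) (nat_lit 469) (nat_lit 366) (nat_lit 305))) (XT.nd (nat_lit 78) (nat_lit 380) (nat_lit 0) (XT.lf (nat_lit 0) (nat_lit 5349331169) (nat_lit 380) (nat_lit 3484751487) (nat_lit 456) (nat_lit 2731614876) (nat_lit 104) (nat_lit 5) (nat_lit 109) (nat_lit 5) (nat_lit 110) (nat_lit 5) (nat_lit 470) (nat_lit 366) (nat_lit 304)) (XT.nd (nat_lit 78) (nat_lit 0) (nat_lit 0) (XT.lf (nat_lit 0) (nat_lit 628967855) (nat_lit 380) (nat_lit 10735432032) (nat_lit 76) (nat_lit 338906844) (nat_lit 99) (nat_lit 5) (nat_lit 104) (nat_lit 5) (nat_lit 100) (nat_lit 5) (nat_lit 471) (nat_lit 366) (nat_lit 303)) (XT.lf (nat_lit 0) (nat_lit 4051185138) (nat_lit 380) (nat_lit 3557568765) (nat_lit 76) (nat_lit 4233942529) (nat_lit 99) (nat_lit 5) (nat_lit 104) (nat_lit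 5) (nat_lit 100) (nat_lit 5) (nat_lit 472) (nat_lit 366) (nat_lit 302)))))) (XT.nd (nat_lit 390) (nat_lit 912) (nat_lit 0) (XT.nd (nat_lit 156) (nat_lit 684) (nat_lit 0) (XT.nd (nat_lit 78) (nat_lit 0) (nat_lit 0) (XT.lf (nat_lit 0) (nat_lit 3760866632) (nat_lit 304) (nat_lit 3771962739) (nat_lit 380) (nat_lit 4452234138) (nat_lit 95) (nat_lit 5) (nat_lit 99) (nat_lit 5) (nat_lit 100) (nat_lit 5) (nat_lit 473) (nat_lit 366) (nat_lit 301)) (XT.lf (nat_lit 0) (nat_lit 11075817270) (nat_lit 380) (nat_lit 909497634) (nat_lit 76) (nat_lit 145137862) (nat_lit 95) (nat_lit 5) (nat_lit 100) (nat_lit 5) (nat_lit 96) (nat_lit 5) (nat_lit 474) (nat_lit 366) (nat_lit 300))) (XT.nd (nat_lit 78) (nat_lit 304) (nat_lit 0) (XT.lf (nat_lit 0) (nat_lit 2414509424) (nat_lit 380) (nat_lit 5732863096) (nat_lit 76) (nat_lit 4130368645) (nat_lit 90) (nat_lit 5) (nat_lit 95) (nat_lit 5) (nat_lit 91) (nat_lit 5) (nat_lit 475) (nat_lit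 366) (nat_lit 299)) (XT.nd (nat_lit 78) (nat_lit 0) (nat_lit 0) (XT.lf (nat_lit 0) (nat_lit 1696454512) (nat_lit 304) (nat_lit 4227129179) (nat_lit 380) (nat_lit 6504567391) (nat_lit 86) (nat_lit 5) (nat_lit 90) (nat_lit 5) (nat_lit 91) (nat_lit 5) (nat_lit 476) (nat_lit 366) (nat_lit 298)) (XT.lf (nat_lit 0) (nat_lit 9300821796) (nat_lit 304) (nat_lit 208289450) (nat_lit 380) (nat_lit 3072340879) (nat_lit 86) (nat_lit 5) (nat_lit 90) (nat_lit 5) (nat_lit 91) (nat_lit 5) (nat_lit 477) (nat_lit 366) (nat_lit 297))))) (XT.nd (nat_lit 156) (nat_lit 608) (nat_lit 0) (XT.nd (nat_lit 78) (nat_lit 0) (nat_lit 0) (XT.lf (nat_lit 0) (nat_lit 444535325) (nat_lit 304) (nat_lit 8440494976) (nat_lit 76) (nat_lit 3852308773) (nat_lit 82) (nat_lit 5) (nat_lit 86) (nat_lit 5) (nat_lit 83) (nat_lit 5) (nat_lit 478) (nat_lit 366) (nat_lit 296)) (XT.lf (nat_lit 0) (nat_lit 3982578282) (nat_lit 304) (nat_lit 898292081) (nat_lit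 76) (nat_lit 8015235760) (nat_lit 82) (nat_lit 5) (nat_lit 86) (nat_lit 5) (nat_lit 83) (nat_lit 5) (nat_lit 479) (nat_lit 366) (nat_lit 295))) (XT.nd (nat_lit 78) (nat_lit 304) (nat_lit 0) (XT.lf (nat_lit 0) (nat_lit 6834533543) (nat_lit 304) (nat_lit 770232162) (nat_lit 380) (nat_lit 5453022863) (nat_lit 78) (nat_lit 5) (nat_lit 82) (nat_lit 5) (nat_lit 83) (nat_lit 5) (nat_lit 480) (nat_lit 366) (nat_lit 294)) (XT.nd (nat_lit 78) (nat_lit 76) (nat_lit 0) (XT.lf (nat_lit 0) (nat_lit 1458445200) (nat_lit 228) (nat_lit 9847883855) (nat_lit 304) (nat_lit 1916244537) (nat_lit 75) (nat_lit 5) (nat_lit 78) (nat_lit 5) (nat_lit 79) (nat_lit 5) (nat_lit 481) (nat_lit 366) (nat_lit 293)) (XT.lf (nat_lit 0) (nat_lit 1685472100) (nat_lit 304) (nat_lit 4078155844) (nat_lit 76) (nat_lit 7626486359) (nat_lit 74) (nat_lit 5) (nat_lit 78) (nat_lit 5) (nat_lit 75) (nat_lit 5) (nat_lit 482) (nat_lit 366) (nat_lit 292)))))))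 (XT.nd (nat_lit 780) (nat_lit 1368) (nat_lit 0) (XT.nd (nat_lit 390) (nat_lit 760) (nat_lit 0) (XT.nd (nat_lit 156) (nat_lit 532) (nat_lit 0) (XT.nd (nat_lit 78) (nat_lit 0) (nat_lit 0) (XT.lf (nat_lit 0) (nat_lit 3748879931) (nat_lit 304) (nat_lit 1578897149) (nat_lit 380) (nat_lit 8233098307) (nat_lit 70) (nat_lit 5) (nat_lit 74) (nat_lit 5) (nat_lit 75) (nat_lit 5) (nat_lit 483) (nat_lit 366) (nat_lit 291)) (XT.lf (nat_lit 0) (nat_lit 9057937876) (nat_lit 380) (nat_lit 2013702378) (nat_lit 76) (nat_lit 2663118244) (nat_lit 70) (nat_lit 5) (nat_lit 75) (nat_lit 5) (nat_lit 71) (nat_lit 5) (nat_lit 484) (nat_lit 366) (nat_lit 290))) (XT.nd (nat_lit 78) (nat_lit 304) (nat_lit 0) (XT.lf (nat_lit 0) (nat_lit 5959941009) (nat_lit 228) (nat_lit 6922500987) (nat_lit 304) (nat_lit 1029289335) (nat_lit 67) (nat_lit 5) (nat_lit 70) (nat_lit 5) (nat_lit 71) (nat_lit 5) (nat_lit 485) (nat_lit 366) (nat_lit 289)) (XT.nd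 (nat_lit 78) (nat_lit 228) (nat_lit 0) (XT.lf (nat_lit 0) (nat_lit 2640152891) (nat_lit 304) (nat_lit 37585974) (nat_lit 76) (nat_lit 11414476773) (nat_lit 66) (nat_lit 5) (nat_lit 70) (nat_lit 5) (nat_lit 67) (nat_lit 5) (nat_lit 486) (nat_lit 366) (nat_lit 288)) (XT.lf (nat_lit 0) (nat_lit 6403944433) (nat_lit 304) (nat_lit 6200012200) (nat_lit 76) (nat_lit 1671528539) (nat_lit 63) (nat_lit 5) (nat_lit 67) (nat_lit 5) (nat_lit 64) (nat_lit 5) (nat_lit 487) (nat_lit 366) (nat_lit 287))))) (XT.nd (nat_lit 156) (nat_lit 532) (nat_lit 0) (XT.nd (nat_lit 78) (nat_lit 0) (nat_lit 0) (XT.lf (nat_lit 0) (nat_lit 1847788566) (nat_lit 228) (nat_lit 8396573402) (nat_lit 304) (nat_lit 4218037467) (nat_lit 60) (nat_lit 5) (nat_lit 63) (nat_lit 5) (nat_lit 64) (nat_lit 5) (nat_lit 488) (nat_lit 366) (nat_lit 286)) (XT.lf (nat_lit 0) (nat_lit 10093303284) (nat_lit 228) (nat_lit 4081510194) (nat_lit 304) (nat_lit 477980204)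 (nat_lit 60) (nat_lit 5) (nat_lit 63) (nat_lit 5) (nat_lit 64) (nat_lit 5) (nat_lit 489) (nat_lit 366) (nat_lit 285))) (XT.nd (nat_lit 78) (nat_lit 228) (nat_lit 0) (XT.lf (nat_lit 0) (nat_lit 3290963326) (nat_lit 304) (nat_lit 11212893252) (nat_lit 76) (nat_lit 342754929) (nat_lit 56) (nat_lit 5) (nat_lit 60) (nat_lit 5) (nat_lit 57) (nat_lit 5) (nat_lit 490) (nat_lit 366) (nat_lit 284)) (XT.nd (nat_lit 78) (nat_lit 228) (nat_lit 0) (XT.lf (nat_lit 0) (nat_lit 7158833773) (nat_lit 304) (nat_lit 3068363998) (nat_lit 76) (nat_lit 4816451620) (nat_lit 56) (nat_lit 5) (nat_lit 60) (nat_lit 5) (nat_lit 57) (nat_lit 5) (nat_lit 491) (nat_lit 366) (nat_lit 283)) (XT.lf (nat_lit 0) (nat_lit 5262119990) (nat_lit 228) (nat_lit 5848766754) (nat_lit 304) (nat_lit 4133610528) (nat_lit 53) (nat_lit 5) (nat_lit 56) (nat_lit 5) (nat_lit 57) (nat_lit 5) (nat_lit 492) (nat_lit 366) (nat_lit 282)))))) (XT.nd (nat_lit 390) (nat_lit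 684) (nat_lit 0) (XT.nd (nat_lit 156) (nat_lit 380) (nat_lit 0) (XT.nd (nat_lit 78) (nat_lit 304) (nat_lit 0) (XT.lf (nat_lit 0) (nat_lit 13755158938) (nat_lit 228) (nat_lit 1380311824) (nat_lit 304) (nat_lit 314027177) (nat_lit 53) (nat_lit 5) (nat_lit 56) (nat_lit 5) (nat_lit 57) (nat_lit 5) (nat_lit 493) (nat_lit 366) (nat_lit 281)) (XT.lf (nat_lit 0) (nat_lit 3573196748) (nat_lit 304) (nat_lit 8898738672) (nat_lit 76) (nat_lit 3185438948) (nat_lit 49) (nat_lit 5) (nat_lit 53) (nat_lit 5) (nat_lit 50) (nat_lit 5) (nat_lit 494) (nat_lit 366) (nat_lit 280))) (XT.nd (nat_lit 78) (nat_lit 380) (nat_lit 0) (XT.lf (nat_lit 0) (nat_lit 7527914959) (nat_lit 304) (nat_lit 522073010) (nat_lit 76) (nat_lit 7819505052) (nat_lit 49) (nat_lit 5) (nat_lit 53) (nat_lit 5) (nat_lit 50) (nat_lit 5) (nat_lit 495) (nat_lit 366) (nat_lit 279)) (XT.nd (nat_lit 78) (nat_lit 228) (nat_lit 0) (XT.lf (nat_lit 0) (nat_lit 8083800284)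 (nat_lit 152) (nat_lit 3504299269) (nat_lit 228) (nat_lit 4497232254) (nat_lit 47) (nat_lit 5) (nat_lit 49) (nat_lit 5) (nat_lit 50) (nat_lit 5) (nat_lit 496) (nat_lit 366) (nat_lit 278)) (XT.lf (nat_lit 0) (nat_lit 518415509) (nat_lit 228) (nat_lit 15199311146) (nat_lit 304) (nat_lit 588001036) (nat_lit 44) (nat_lit 5) (nat_lit 47) (nat_lit 5) (nat_lit 48) (nat_lit 5) (nat_lit 497) (nat_lit 366) (nat_lit 277))))) (XT.nd (nat_lit 234) (nat_lit 456) (nat_lit 0) (XT.nd (nat_lit 78) (nat_lit 152) (nat_lit 0) (XT.lf (nat_lit 0) (nat_lit 3406130372) (nat_lit 304) (nat_lit 7302384070) (nat_lit 76) (nat_lit 5820554535) (nat_lit 43) (nat_lit 5) (nat_lit 47) (nat_lit 5) (nat_lit 44) (nat_lit 5) (nat_lit 498) (nat_lit 366) (nat_lit 276)) (XT.nd (nat_lit 78) (nat_lit 0) (nat_lit 0) (XT.lf (nat_lit 0) (nat_lit 1322043584) (nat_lit 152) (nat_lit 6133369555) (nat_lit 228) (nat_lit 9301728181) (nat_lit 41) (nat_lit 5) (nat_lit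 43) (nat_lit 5) (nat_lit 44) (nat_lit 5) (nat_lit 499) (nat_lit 366) (nat_lit 275)) (XT.lf (nat_lit 0) (nat_lit 10174588848) (nat_lit 152) (nat_lit 1434864170) (nat_lit 228) (nat_lit 5379851370) (nat_lit 41) (nat_lit 5) (nat_lit 43) (nat_lit 5) (nat_lit 44) (nat_lit 5) (nat_lit 500) (nat_lit 366) (nat_lit 274)))) (XT.nd (nat_lit 78) (nat_lit 228) (nat_lit 0) (XT.lf (nat_lit 0) (nat_lit 1938811796) (nat_lit 228) (nat_lit 13917297766) (nat_lit 304) (nat_lit 1369815056) (nat_lit 38) (nat_lit 5) (nat_lit 41) (nat_lit 5) (nat_lit 42) (nat_lit 5) (nat_lit 501) (nat_lit 366) (nat_lit 273)) (XT.nd (nat_lit 78) (nat_lit 152) (nat_lit 0) (XT.lf (nat_lit 0) (nat_lit 2715469723) (nat_lit 304) (nat_lit 6576988240) (nat_lit 76) (nat_lit 8173855942) (nat_lit 37) (nat_lit 5) (nat_lit 41) (nat_lit 5) (nat_lit 38) (nat_lit 5) (nat_lit 502) (nat_lit 366) (nat_lit 272)) (XT.lf (nat_lit 0) (nat_lit 2286149999) (nat_lit 152) (nat_lit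 4568506148) (nat_lit 228) (nat_lit 10856867337) (nat_lit 35) (nat_lit 5) (nat_lit 37) (nat_lit 5) (nat_lit 38) (nat_lit 5) (nat_lit 503) (nat_lit 366) (nat_lit 271))))))))
noncomputable def xc61 : XT := (XT.nd (nat_lit 53196) (nat_lit 0) (nat_lit 13452) (XT.nd (nat_lit 52338) (nat_lit 0) (nat_lit 23560) (XT.nd (nat_lit 51948) (nat_lit 0) (nat_lit 33212) (XT.nd (nat_lit 51714) (nat_lit 0) (nat_lit 38684) (XT.nd (nat_lit 78) (nat_lit 152) (nat_lit 0) (XT.lf (nat_lit 0) (nat_lit 11098444146) (nat_lit 228) (nat_lit 6589160858) (nat_lit 76) (nat_lit 273600159) (nat_lit 35) (nat_lit 5) (nat_lit 38) (nat_lit 5) (nat_lit 36) (nat_lit 5) (nat_lit 504) (nat_lit 366) (nat_lit 270)) (XT.lf (nat_lit 0) (nat_lit 2383412095) (nat_lit 152) (nat_lit 13065668481) (nat_lit 228) (nat_lit 2766364628) (nat_lit 33) (nat_lit 5) (nat_lit 35) (nat_lit 5) (nat_lit 36) (nat_lit 5) (nat_lit 505) (nat_lit 366) (nat_lit 269))) (XT.nd (nat_lit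 78) (nat_lit 1216) (nat_lit 0) (XT.lf (nat_lit 0) (nat_lit 1095500583) (nat_lit 1140) (nat_lit 1197565071) (nat_lit 0) (nat_lit 1095500583) (nat_lit 558) (nat_lit 5) (nat_lit 573) (nat_lit 4) (nat_lit 558) (nat_lit 4) (nat_lit 406) (nat_lit 367) (nat_lit 367)) (XT.nd (nat_lit 78) (nat_lit 76) (nat_lit 0) (XT.lf (nat_lit 0) (nat_lit 1986439907) (nat_lit 1140) (nat_lit 3421403021) (nat_lit 1140) (nat_lit 1396004827) (nat_lit 543) (nat_lit 4) (nat_lit 558) (nat_lit 5) (nat_lit 558) (nat_lit 4) (nat_lit 407) (nat_lit 367) (nat_lit 366)) (XT.lf (nat_lit 0) (nat_lit 1780763863) (nat_lit 1216) (nat_lit 413939692) (nat_lit 76) (nat_lit 4637260110) (nat_lit 542) (nat_lit 5) (nat_lit 558) (nat_lit 5) (nat_lit 543) (nat_lit 4) (nat_lit 408) (nat_lit 367) (nat_lit 365))))) (XT.nd (nat_lit 156) (nat_lit 2888) (nat_lit 0) (XT.nd (nat_lit 78) (nat_lit 1368) (nat_lit 0) (XT.lf (nat_lit 0) (nat_lit 4063705396) (nat_lit 1216)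 (nat_lit 897451834) (nat_lit 1292) (nat_lit 1900175179) (nat_lit 526) (nat_lit 5) (nat_lit 542) (nat_lit 5) (nat_lit 543) (nat_lit 4) (nat_lit 409) (nat_lit 367) (nat_lit 364)) (XT.lf (nat_lit 0) (nat_lit 1246285610) (nat_lit 1368) (nat_lit 5194669893) (nat_lit 76) (nat_lit 451218202) (nat_lit 508) (nat_lit 5) (nat_lit 526) (nat_lit 5) (nat_lit 509) (nat_lit 4) (nat_lit 410) (nat_lit 367) (nat_lit 363))) (XT.nd (nat_lit 78) (nat_lit 2888) (nat_lit 0) (XT.lf (nat_lit 0) (nat_lit 4388931043) (nat_lit 1368) (nat_lit 680991664) (nat_lit 76) (nat_lit 1854331720) (nat_lit 508) (nat_lit 5) (nat_lit 526) (nat_lit 5) (nat_lit 509) (nat_lit 4) (nat_lit 411) (nat_lit 367) (nat_lit 362)) (XT.nd (nat_lit 78) (nat_lit 1444) (nat_lit 0) (XT.lf (nat_lit 0) (nat_lit 589340863) (nat_lit 1444) (nat_lit 3045747266) (nat_lit 76) (nat_lit 3322646812) (nat_lit 489) (nat_lit 5) (nat_lit 508) (nat_lit 5) (nat_lit 490) (nat_lit 5) (nat_lit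 412) (nat_lit 367) (nat_lit 361)) (XT.lf (nat_lit 0) (nat_lit 1558996658) (nat_lit 1444) (nat_lit 2133865138) (nat_lit 1520) (nat_lit 3299726894) (nat_lit 470) (nat_lit 5) (nat_lit 489) (nat_lit 5) (nat_lit 490) (nat_lit 5) (nat_lit 413) (nat_lit 367) (nat_lit 360)))))) (XT.nd (nat_lit 390) (nat_lit 4712) (nat_lit 0) (XT.nd (nat_lit 156) (nat_lit 3344) (nat_lit 0) (XT.nd (nat_lit 78) (nat_lit 1596) (nat_lit 0) (XT.lf (nat_lit 0) (nat_lit 6238615492) (nat_lit 1444) (nat_lit 576717474) (nat_lit 1520) (nat_lit 213713094) (nat_lit 470) (nat_lit 5) (nat_lit 489) (nat_lit 5) (nat_lit 490) (nat_lit 5) (nat_lit 414) (nat_lit 367) (nat_lit 359)) (XT.lf (nat_lit 0) (nat_lit 2865114227) (nat_lit 1596) (nat_lit 3153815279) (nat_lit 76) (nat_lit 1047573035) (nat_lit 449) (nat_lit 5) (nat_lit 470) (nat_lit 5) (nat_lit 450) (nat_lit 5) (nat_lit 415) (nat_lit 367) (nat_lit 358))) (XT.nd (nat_lit 78) (nat_lit 1748) (nat_lit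 0) (XT.lf (nat_lit 0) (nat_lit 1572171050) (nat_lit 1596) (nat_lit 4387967950) (nat_lit 1672) (nat_lit 1145432842) (nat_lit 428) (nat_lit 5) (nat_lit 449) (nat_lit 5) (nat_lit 450) (nat_lit 5) (nat_lit 416) (nat_lit 367) (nat_lit 357)) (XT.nd (nat_lit 78) (nat_lit 1672) (nat_lit 0) (XT.lf (nat_lit 0) (nat_lit 1905588152) (nat_lit 1672) (nat_lit 782139152) (nat_lit 76) (nat_lit 4458283083) (nat_lit 427) (nat_lit 5) (nat_lit 449) (nat_lit 5) (nat_lit 428) (nat_lit 5) (nat_lit 417) (nat_lit 367) (nat_lit 356)) (XT.lf (nat_lit 0) (nat_lit 4051237490) (nat_lit 1672) (nat_lit 917079182) (nat_lit 1748) (nat_lit 2219508311) (nat_lit 405) (nat_lit 5) (nat_lit 427) (nat_lit 5) (nat_lit 428) (nat_lit 5) (nat_lit 418) (nat_lit 367) (nat_lit 355))))) (XT.nd (nat_lit 234) (nat_lit 1900) (nat_lit 0) (XT.nd (nat_lit 78) (nat_lit 988) (nat_lit 0) (XT.lf (nat_lit 0) (nat_lit 812973060) (nat_lit 1824) (nat_lit 5517667687) (nat_lit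 76) (nat_lit 900511844) (nat_lit 381) (nat_lit 5) (nat_lit 405) (nat_lit 5) (nat_lit 382) (nat_lit 5) (nat_lit 419) (nat_lit 367) (nat_lit 354)) (XT.nd (nat_lit 78) (nat_lit 988) (nat_lit 0) (XT.lf (nat_lit 0) (nat_lit 3844552514) (nat_lit 1824) (nat_lit 652503766) (nat_lit 76) (nat_lit 2778670632) (nat_lit 381) (nat_lit 5) (nat_lit 405) (nat_lit 5) (nat_lit 382) (nat_lit 5) (nat_lit 420) (nat_lit 367) (nat_lit 353)) (XT.lf (nat_lit 0) (nat_lit 4307891118) (nat_lit 988) (nat_lit 2598880335) (nat_lit 1064) (nat_lit 415057320) (nat_lit 368) (nat_lit 5) (nat_lit 381) (nat_lit 5) (nat_lit 382) (nat_lit 5) (nat_lit 421) (nat_lit 367) (nat_lit 352)))) (XT.nd (nat_lit 78) (nat_lit 912) (nat_lit 0) (XT.lf (nat_lit 0) (nat_lit 1956944638) (nat_lit 912) (nat_lit 629029451) (nat_lit 988) (nat_lit 4783377867) (nat_lit 355) (nat_lit 5) (nat_lit 367) (nat_lit 5) (nat_lit 368) (nat_lit 5) (nat_lit 422) (nat_lit 367) (nat_lit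 351)) (XT.nd (nat_lit 78) (nat_lit 912) (nat_lit 0) (XT.lf (nat_lit 0) (nat_lit 5613915169) (nat_lit 988) (nat_lit 420924184) (nat_lit 76) (nat_lit 1383516568) (nat_lit 355) (nat_lit 5) (nat_lit 368) (nat_lit 5) (nat_lit 356) (nat_lit 5) (nat_lit 423) (nat_lit 367) (nat_lit 350)) (XT.lf (nat_lit 0) (nat_lit 1196431564) (nat_lit 912) (nat_lit 2807801139) (nat_lit 76) (nat_lit 3464408979) (nat_lit 343) (nat_lit 5) (nat_lit 355) (nat_lit 5) (nat_lit 344) (nat_lit 5) (nat_lit 424) (nat_lit 367) (nat_lit 349))))))) (XT.nd (nat_lit 780) (nat_lit 4636) (nat_lit 0) (XT.nd (nat_lit 390) (nat_lit 2204) (nat_lit 0) (XT.nd (nat_lit 156) (nat_lit 2432) (nat_lit 0) (XT.nd (nat_lit 78) (nat_lit 0) (nat_lit 0) (XT.lf (nat_lit 0) (nat_lit 2289153415) (nat_lit 836) (nat_lit 1906290060) (nat_lit 912) (nat_lit 3325037617) (nat_lit 332) (nat_lit 5) (nat_lit 343) (nat_lit 5) (nat_lit 344) (nat_lit 5) (nat_lit 425) (nat_lit 367) (nat_lit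 348)) (XT.lf (nat_lit 0) (nat_lit 7220155826) (nat_lit 912) (nat_lit 108198053) (nat_lit 76) (nat_lit 245720531) (nat_lit 332) (nat_lit 5) (nat_lit 344) (nat_lit 5) (nat_lit 333) (nat_lit 5) (nat_lit 426) (nat_lit 367) (nat_lit 347))) (XT.nd (nat_lit 78) (nat_lit 1596) (nat_lit 0) (XT.lf (nat_lit 0) (nat_lit 2633569964) (nat_lit 836) (nat_lit 2532935455) (nat_lit 76) (nat_lit 2462075875) (nat_lit 321) (nat_lit 5) (nat_lit 332) (nat_lit 5) (nat_lit 322) (nat_lit 5) (nat_lit 427) (nat_lit 367) (nat_lit 346)) (XT.nd (nat_lit 78) (nat_lit 836) (nat_lit 0) (XT.lf (nat_lit 0) (nat_lit 2694998541) (nat_lit 760) (nat_lit 2945908755) (nat_lit 836) (nat_lit 2043957178) (nat_lit 311) (nat_lit 5) (nat_lit 321) (nat_lit 5) (nat_lit 322) (nat_lit 5) (nat_lit 428) (nat_lit 367) (nat_lit 345)) (XT.lf (nat_lit 0) (nat_lit 257671934) (nat_lit 760) (nat_lit 661452481) (nat_lit 836) (nat_lit 6823738456) (nat_lit 300) (nat_lit 5)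 (nat_lit 310) (nat_lit 5) (nat_lit 311) (nat_lit 5) (nat_lit 429) (nat_lit 367) (nat_lit 344))))) (XT.nd (nat_lit 156) (nat_lit 1444) (nat_lit 0) (XT.nd (nat_lit 78) (nat_lit 760) (nat_lit 0) (XT.lf (nat_lit 0) (nat_lit 3906177517) (nat_lit 836) (nat_lit 2208004814) (nat_lit 76) (nat_lit 1687755116) (nat_lit 300) (nat_lit 5) (nat_lit 311) (nat_lit 5) (nat_lit 301) (nat_lit 5) (nat_lit 430) (nat_lit 367) (nat_lit 343)) (XT.lf (nat_lit 0) (nat_lit 3153009959) (nat_lit 760) (nat_lit 3773355045) (nat_lit 836) (nat_lit 936388089) (nat_lit 290) (nat_lit 5) (nat_lit 300) (nat_lit 5) (nat_lit 301) (nat_lit 5) (nat_lit 431) (nat_lit 367) (nat_lit 342))) (XT.nd (nat_lit 78) (nat_lit 684) (nat_lit 0) (XT.lf (nat_lit 0) (nat_lit 662754110) (nat_lit 684) (nat_lit 1360135781) (nat_lit 760) (nat_lit 5902290626) (nat_lit 280) (nat_lit 5) (nat_lit 289) (nat_lit 5) (nat_lit 290) (nat_lit 5) (nat_lit 432) (nat_lit 367) (nat_lit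 341)) (XT.nd (nat_lit 78) (nat_lit 684) (nat_lit 0) (XT.lf (nat_lit 0) (nat_lit 5017171351) (nat_lit 760) (nat_lit 1854846725) (nat_lit 76) (nat_lit 1116973359) (nat_lit 280) (nat_lit 5) (nat_lit 290) (nat_lit 5) (nat_lit 281) (nat_lit 5) (nat_lit 433) (nat_lit 367) (nat_lit 340)) (XT.lf (nat_lit 0) (nat_lit 3641196474) (nat_lit 684) (nat_lit 4413162702) (nat_lit 760) (nat_lit 84333) (nat_lit 271) (nat_lit 5) (nat_lit 280) (nat_lit 5) (nat_lit 281) (nat_lit 5) (nat_lit 434) (nat_lit 367) (nat_lit 339)))))) (XT.nd (nat_lit 390) (nat_lit 2508) (nat_lit 0) (XT.nd (nat_lit 156) (nat_lit 1368) (nat_lit 0) (XT.nd (nat_lit 78) (nat_lit 0) (nat_lit 0) (XT.lf (nat_lit 0) (nat_lit 1087111527) (nat_lit 684) (nat_lit 1874428142) (nat_lit 760) (nat_lit 5159891593) (nat_lit 261) (nat_lit 5) (nat_lit 270) (nat_lit 5) (nat_lit 271) (nat_lit 5) (nat_lit 435) (nat_lit 367) (nat_lit 338)) (XT.lf (nat_lit 0) (nat_lit 5967995648)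 (nat_lit 760) (nat_lit 1495988915) (nat_lit 76) (nat_lit 726086073) (nat_lit 261) (nat_lit 5) (nat_lit 271) (nat_lit 5) (nat_lit 262) (nat_lit 5) (nat_lit 436) (nat_lit 367) (nat_lit 337))) (XT.nd (nat_lit 78) (nat_lit 608) (nat_lit 0) (XT.lf (nat_lit 0) (nat_lit 755636937) (nat_lit 760) (nat_lit 4128420181) (nat_lit 76) (nat_lit 3376122140) (nat_lit 251) (nat_lit 5) (nat_lit 261) (nat_lit 5) (nat_lit 252) (nat_lit 5) (nat_lit 437) (nat_lit 367) (nat_lit 336)) (XT.nd (nat_lit 78) (nat_lit 0) (nat_lit 0) (XT.lf (nat_lit 0) (nat_lit 1507445309) (nat_lit 608) (nat_lit 2227957268) (nat_lit 684) (nat_lit 4596571166) (nat_lit 243) (nat_lit 5) (nat_lit 251) (nat_lit 5) (nat_lit 252) (nat_lit 5) (nat_lit 438) (nat_lit 367) (nat_lit 335)) (XT.lf (nat_lit 0) (nat_lit 6758595364) (nat_lit 684) (nat_lit 1154871756) (nat_lit 76) (nat_lit 492082436) (nat_lit 243) (nat_lit 5) (nat_lit 252) (nat_lit 5) (nat_lit 244) (nat_lit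 5) (nat_lit 439) (nat_lit 367) (nat_lit 334))))) (XT.nd (nat_lit 234) (nat_lit 1216) (nat_lit 0) (XT.nd (nat_lit 78) (nat_lit 608) (nat_lit 0) (XT.lf (nat_lit 0) (nat_lit 1342236421) (nat_lit 684) (nat_lit 3873262225) (nat_lit 76) (nat_lit 3264973842) (nat_lit 234) (nat_lit 5) (nat_lit 243) (nat_lit 5) (nat_lit 235) (nat_lit 5) (nat_lit 440) (nat_lit 367) (nat_lit 333)) (XT.nd (nat_lit 78) (nat_lit 0) (nat_lit 0) (XT.lf (nat_lit 0) (nat_lit 1899401015) (nat_lit 608) (nat_lit 2443866689) (nat_lit 684) (nat_lit 4213947055) (nat_lit 226) (nat_lit 5) (nat_lit 234) (nat_lit 5) (nat_lit 235) (nat_lit 5) (nat_lit 441) (nat_lit 367) (nat_lit 332)) (XT.lf (nat_lit 0) (nat_lit 7387377152) (nat_lit 684) (nat_lit 856083362) (nat_lit 76) (nat_lit 392390601) (nat_lit 226) (nat_lit 5) (nat_lit 235) (nat_lit 5) (nat_lit 227) (nat_lit 5) (nat_lit 442) (nat_lit 367) (nat_lit 331)))) (XT.nd (nat_lit 78) (nat_lit 532) (nat_lit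 0) (XT.lf (nat_lit 0) (nat_lit 1757322015) (nat_lit 684) (nat_lit 3673093552) (nat_lit 76) (nat_lit 3285347369) (nat_lit 217) (nat_lit 5) (nat_lit 226) (nat_lit 5) (nat_lit 218) (nat_lit 5) (nat_lit 443) (nat_lit 367) (nat_lit 330)) (XT.nd (nat_lit 78) (nat_lit 0) (nat_lit 0) (XT.lf (nat_lit 0) (nat_lit 2237321465) (nat_lit 532) (nat_lit 2545014523) (nat_lit 608) (nat_lit 4015274790) (nat_lit 210) (nat_lit 5) (nat_lit 217) (nat_lit 5) (nat_lit 218) (nat_lit 5) (nat_lit 444) (nat_lit 367) (nat_lit 329)) (XT.lf (nat_lit 0) (nat_lit 7851156943) (nat_lit 608) (nat_lit 625609543) (nat_lit 76) (nat_lit 404681795) (nat_lit 210) (nat_lit 5) (nat_lit 218) (nat_lit 5) (nat_lit 211) (nat_lit 5) (nat_lit 445) (nat_lit 367) (nat_lit 328))))))))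
noncomputable def xc62 : XT := (XT.nd (nat_lit 1638) (nat_lit 4256) (nat_lit 0) (XT.nd (nat_lit 780) (nat_lit 3116) (nat_lit 0) (XT.nd (nat_lit 390) (nat_lit 1596) (nat_lit 0) (XT.nd (nat_lit 156) (nat_lit 1064) (nat_lit 0) (XT.nd (nat_lit 78) (nat_lit 532) (nat_lit 0) (XT.lf (nat_lit 0) (nat_lit 1996866394) (nat_lit 608) (nat_lit 3554735658) (nat_lit 76) (nat_lit 3414939137) (nat_lit 202) (nat_lit 5) (nat_lit 210) (nat_lit 5) (nat_lit 203) (nat_lit 5) (nat_lit 446) (nat_lit 367) (nat_lit 327)) (XT.lf (nat_lit 0) (nat_lit 2493983175) (nat_lit 532) (nat_lit 2554174735) (nat_lit 608) (nat_lit 4005511867) (nat_lit 195) (nat_lit 5) (nat_lit 202) (nat_lit 5) (nat_lit 203) (nat_lit 5) (nat_lit 447) (nat_lit 367) (nat_lit 326))) (XT.nd (nat_lit 78) (nat_lit 1064) (nat_lit 0) (XT.lf (nat_lit 0) (nat_lit 8145093454) (nat_lit 608) (nat_lit 491100928) (nat_lit 76) (nat_lit 506671595) (nat_lit 195) (nat_lit 5) (nat_lit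 203) (nat_lit 5) (nat_lit 196) (nat_lit 5) (nat_lit 448) (nat_lit 367) (nat_lit 325)) (XT.nd (nat_lit 78) (nat_lit 456) (nat_lit 0) (XT.lf (nat_lit 0) (nat_lit 2055135894) (nat_lit 608) (nat_lit 3546785998) (nat_lit 76) (nat_lit 3631428837) (nat_lit 187) (nat_lit 5) (nat_lit 195) (nat_lit 5) (nat_lit 188) (nat_lit 5) (nat_lit 449) (nat_lit 367) (nat_lit 324)) (XT.lf (nat_lit 0) (nat_lit 2640313918) (nat_lit 456) (nat_lit 2494242553) (nat_lit 532) (nat_lit 4191396916) (nat_lit 181) (nat_lit 5) (nat_lit 187) (nat_lit 5) (nat_lit 188) (nat_lit 5) (nat_lit 450) (nat_lit 367) (nat_lit 323))))) (XT.nd (nat_lit 156) (nat_lit 988) (nat_lit 0) (XT.nd (nat_lit 78) (nat_lit 608) (nat_lit 0) (XT.lf (nat_lit 0) (nat_lit 8262606831) (nat_lit 532) (nat_lit 482159765) (nat_lit 76) (nat_lit 675916753) (nat_lit 181) (nat_lit 5) (nat_lit 188) (nat_lit 5) (nat_lit 182) (nat_lit 5) (nat_lit 451) (nat_lit 367) (nat_lit 322)) (XT.lf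 (nat_lit 0) (nat_lit 1924602995) (nat_lit 608) (nat_lit 3679914103) (nat_lit 76) (nat_lit 3912273231) (nat_lit 173) (nat_lit 5) (nat_lit 181) (nat_lit 5) (nat_lit 174) (nat_lit 5) (nat_lit 452) (nat_lit 367) (nat_lit 321))) (XT.nd (nat_lit 78) (nat_lit 532) (nat_lit 0) (XT.lf (nat_lit 0) (nat_lit 2645088763) (nat_lit 456) (nat_lit 2388445799) (nat_lit 532) (nat_lit 4581544836) (nat_lit 167) (nat_lit 5) (nat_lit 173) (nat_lit 5) (nat_lit 174) (nat_lit 5) (nat_lit 453) (nat_lit 367) (nat_lit 320)) (XT.nd (nat_lit 78) (nat_lit 532) (nat_lit 0) (XT.lf (nat_lit 0) (nat_lit 8195281442) (nat_lit 532) (nat_lit 630649122) (nat_lit 76) (nat_lit 889605805) (nat_lit 167) (nat_lit 5) (nat_lit 174) (nat_lit 5) (nat_lit 168) (nat_lit 5) (nat_lit 454) (nat_lit 367) (nat_lit 319)) (XT.lf (nat_lit 0) (nat_lit 1595842465) (nat_lit 532) (nat_lit 3987181208) (nat_lit 76) (nat_lit 4234493111) (nat_lit 160) (nat_lit 5) (nat_lit 167)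 (nat_lit 5) (nat_lit 161) (nat_lit 5) (nat_lit 455) (nat_lit 367) (nat_lit 318)))))) (XT.nd (nat_lit 390) (nat_lit 1748) (nat_lit 0) (XT.nd (nat_lit 156) (nat_lit 912) (nat_lit 0) (XT.nd (nat_lit 78) (nat_lit 0) (nat_lit 0) (XT.lf (nat_lit 0) (nat_lit 2474601681) (nat_lit 456) (nat_lit 2260563971) (nat_lit 532) (nat_lit 5186558974) (nat_lit 154) (nat_lit 5) (nat_lit 160) (nat_lit 5) (nat_lit 161) (nat_lit 5) (nat_lit 456) (nat_lit 367) (nat_lit 317)) (XT.lf (nat_lit 0) (nat_lit 7932751734) (nat_lit 532) (nat_lit 971027434) (nat_lit 76) (nat_lit 1124341650) (nat_lit 154) (nat_lit 5) (nat_lit 161) (nat_lit 5) (nat_lit 155) (nat_lit 5) (nat_lit 457) (nat_lit 367) (nat_lit 316))) (XT.nd (nat_lit 78) (nat_lit 380) (nat_lit 0) (XT.lf (nat_lit 0) (nat_lit 1057410040) (nat_lit 532) (nat_lit 4504386459) (nat_lit 76) (nat_lit 4574451553) (nat_lit 147) (nat_lit 5) (nat_lit 154) (nat_lit 5) (nat_lit 148) (nat_lit 5) (nat_lit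 458) (nat_lit 367) (nat_lit 315)) (XT.nd (nat_lit 78) (nat_lit 0) (nat_lit 0) (XT.lf (nat_lit 0) (nat_lit 2092309580) (nat_lit 380) (nat_lit 2135156997) (nat_lit 456) (nat_lit 6019161600) (nat_lit 142) (nat_lit 5) (nat_lit 147) (nat_lit 5) (nat_lit 148) (nat_lit 5) (nat_lit 459) (nat_lit 367) (nat_lit 314)) (XT.lf (nat_lit 0) (nat_lit 7462569884) (nat_lit 456) (nat_lit 1540711612) (nat_lit 76) (nat_lit 1355914173) (nat_lit 142) (nat_lit 5) (nat_lit 148) (nat_lit 5) (nat_lit 143) (nat_lit 5) (nat_lit 460) (nat_lit 367) (nat_lit 313))))) (XT.nd (nat_lit 234) (nat_lit 836) (nat_lit 0) (XT.nd (nat_lit 78) (nat_lit 380) (nat_lit 0) (XT.lf (nat_lit 0) (nat_lit 295702276) (nat_lit 532) (nat_lit 5270443021) (nat_lit 76) (nat_lit 4907621485) (nat_lit 135) (nat_lit 5) (nat_lit 142) (nat_lit 5) (nat_lit 136) (nat_lit 5) (nat_lit 461) (nat_lit 367) (nat_lit 312)) (XT.nd (nat_lit 78) (nat_lit 0) (nat_lit 0) (XT.lf (nat_lit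 0) (nat_lit 1458445345) (nat_lit 380) (nat_lit 2037805716) (nat_lit 456) (nat_lit 7094344070) (nat_lit 130) (nat_lit 5) (nat_lit 135) (nat_lit 5) (nat_lit 136) (nat_lit 5) (nat_lit 462) (nat_lit 367) (nat_lit 311)) (XT.lf (nat_lit 0) (nat_lit 6770053812) (nat_lit 456) (nat_lit 2380472218) (nat_lit 76) (nat_lit 1559060868) (nat_lit 130) (nat_lit 5) (nat_lit 136) (nat_lit 5) (nat_lit 131) (nat_lit 5) (nat_lit 463) (nat_lit 367) (nat_lit 310)))) (XT.nd (nat_lit 78) (nat_lit 456) (nat_lit 0) (XT.lf (nat_lit 0) (nat_lit 4498404292) (nat_lit 380) (nat_lit 5617851549) (nat_lit 456) (nat_lit 714575677) (nat_lit 125) (nat_lit 5) (nat_lit 130) (nat_lit 5) (nat_lit 131) (nat_lit 5) (nat_lit 464) (nat_lit 367) (nat_lit 309)) (XT.nd (nat_lit 78) (nat_lit 0) (nat_lit 0) (XT.lf (nat_lit 0) (nat_lit 529596116) (nat_lit 380) (nat_lit 1995366274) (nat_lit 456) (nat_lit 8429538290) (nat_lit 119) (nat_lit 5) (nat_lit 124) (nat_lit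 5) (nat_lit 125) (nat_lit 5) (nat_lit 465) (nat_lit 367) (nat_lit 308)) (XT.lf (nat_lit 0) (nat_lit 5838113953) (nat_lit 456) (nat_lit 3534864534) (nat_lit 76) (nat_lit 1707213272) (nat_lit 119) (nat_lit 5) (nat_lit 125) (nat_lit 5) (nat_lit 120) (nat_lit 5) (nat_lit 466) (nat_lit 367) (nat_lit 307))))))) (XT.nd (nat_lit 780) (nat_lit 2052) (nat_lit 0) (XT.nd (nat_lit 390) (nat_lit 1064) (nat_lit 0) (XT.nd (nat_lit 156) (nat_lit 684) (nat_lit 0) (XT.nd (nat_lit 78) (nat_lit 76) (nat_lit 0) (XT.lf (nat_lit 0) (nat_lit 3472639179) (nat_lit 380) (nat_lit 5745916953) (nat_lit 456) (nat_lit 1989830584) (nat_lit 114) (nat_lit 5) (nat_lit 119) (nat_lit 5) (nat_lit 120) (nat_lit 5) (nat_lit 467) (nat_lit 367) (nat_lit 306)) (XT.lf (nat_lit 0) (nat_lit 1299299463) (nat_lit 456) (nat_lit 732028998) (nat_lit 76) (nat_lit 9307869977) (nat_lit 113) (nat_lit 5) (nat_lit 119) (nat_lit 5) (nat_lit 114) (nat_lit 5) (nat_lit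 468) (nat_lit 367) (nat_lit 305))) (XT.nd (nat_lit 78) (nat_lit 380) (nat_lit 0) (XT.lf (nat_lit 0) (nat_lit 4647056943) (nat_lit 380) (nat_lit 5052699733) (nat_lit 76) (nat_lit 1772226884) (nat_lit 109) (nat_lit 5) (nat_lit 114) (nat_lit 5) (nat_lit 110) (nat_lit 5) (nat_lit 469) (nat_lit 367) (nat_lit 304)) (XT.nd (nat_lit 78) (nat_lit 0) (nat_lit 0) (XT.lf (nat_lit 0) (nat_lit 2078006001) (nat_lit 380) (nat_lit 5981917951) (nat_lit 456) (nat_lit 3547547145) (nat_lit 104) (nat_lit 5) (nat_lit 109) (nat_lit 5) (nat_lit 110) (nat_lit 5) (nat_lit 470) (nat_lit 367) (nat_lit 303)) (XT.lf (nat_lit 0) (nat_lit 9368176514) (nat_lit 380) (nat_lit 2173369495) (nat_lit 456) (nat_lit 204122031) (nat_lit 104) (nat_lit 5) (nat_lit 109) (nat_lit 5) (nat_lit 110) (nat_lit 5) (nat_lit 471) (nat_lit 367) (nat_lit 302))))) (XT.nd (nat_lit 156) (nat_lit 380) (nat_lit 0) (XT.nd (nat_lit 78) (nat_lit 304) (nat_lit 0) (XT.lf (nat_lit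 0) (nat_lit 3174364219) (nat_lit 380) (nat_lit 6987560731) (nat_lit 76) (nat_lit 1724092030) (nat_lit 99) (nat_lit 5) (nat_lit 104) (nat_lit 5) (nat_lit 100) (nat_lit 5) (nat_lit 472) (nat_lit 367) (nat_lit 301)) (XT.lf (nat_lit 0) (nat_lit 259566415) (nat_lit 304) (nat_lit 6357481630) (nat_lit 380) (nat_lit 5412119700) (nat_lit 95) (nat_lit 5) (nat_lit 99) (nat_lit 5) (nat_lit 100) (nat_lit 5) (nat_lit 473) (nat_lit 367) (nat_lit 300))) (XT.nd (nat_lit 78) (nat_lit 380) (nat_lit 0) (XT.lf (nat_lit 0) (nat_lit 7695407825) (nat_lit 304) (nat_lit 2447600059) (nat_lit 380) (nat_lit 2031894074) (nat_lit 95) (nat_lit 5) (nat_lit 99) (nat_lit 5) (nat_lit 100) (nat_lit 5) (nat_lit 474) (nat_lit 367) (nat_lit 299)) (XT.nd (nat_lit 78) (nat_lit 0) (nat_lit 0) (XT.lf (nat_lit 0) (nat_lit 1394443213) (nat_lit 380) (nat_lit 9398367790) (nat_lit 76) (nat_lit 1530622969) (nat_lit 90) (nat_lit 5) (nat_lit 95) (nat_lit 5) (nat_lit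 91) (nat_lit 5) (nat_lit 475) (nat_lit 367) (nat_lit 298)) (XT.lf (nat_lit 0) (nat_lit 4876727728) (nat_lit 380) (nat_lit 2016336630) (nat_lit 76) (nat_lit 5581319467) (nat_lit 90) (nat_lit 5) (nat_lit 95) (nat_lit 5) (nat_lit 91) (nat_lit 5) (nat_lit 476) (nat_lit 367) (nat_lit 297)))))) (XT.nd (nat_lit 390) (nat_lit 1140) (nat_lit 0) (XT.nd (nat_lit 156) (nat_lit 380) (nat_lit 0) (XT.nd (nat_lit 78) (nat_lit 228) (nat_lit 0) (XT.lf (nat_lit 0) (nat_lit 5536362174) (nat_lit 304) (nat_lit 2897000320) (nat_lit 380) (nat_lit 4194904289) (nat_lit 86) (nat_lit 5) (nat_lit 90) (nat_lit 5) (nat_lit 91) (nat_lit 5) (nat_lit 477) (nat_lit 367) (nat_lit 296)) (XT.lf (nat_lit 0) (nat_lit 430628256) (nat_lit 228) (nat_lit 11623505380) (nat_lit 304) (nat_lit 731241730) (nat_lit 83) (nat_lit 5) (nat_lit 86) (nat_lit 5) (nat_lit 87) (nat_lit 5) (nat_lit 478) (nat_lit 367) (nat_lit 295))) (XT.nd (nat_lit 78) (nat_lit 304)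 (nat_lit 0) (XT.lf (nat_lit 0) (nat_lit 2801049653) (nat_lit 304) (nat_lit 4832478423) (nat_lit 76) (nat_lit 5311019958) (nat_lit 82) (nat_lit 5) (nat_lit 86) (nat_lit 5) (nat_lit 83) (nat_lit 5) (nat_lit 479) (nat_lit 367) (nat_lit 294)) (XT.nd (nat_lit 78) (nat_lit 0) (nat_lit 0) (XT.lf (nat_lit 0) (nat_lit 2823544402) (nat_lit 304) (nat_lit 3558609554) (nat_lit 380) (nat_lit 6724901935) (nat_lit 78) (nat_lit 5) (nat_lit 82) (nat_lit 5) (nat_lit 83) (nat_lit 5) (nat_lit 480) (nat_lit 367) (nat_lit 293)) (XT.lf (nat_lit 0) (nat_lit 10041182529) (nat_lit 380) (nat_lit 2627116198) (nat_lit 76) (nat_lit 604396561) (nat_lit 78) (nat_lit 5) (nat_lit 83) (nat_lit 5) (nat_lit 79) (nat_lit 5) (nat_lit 481) (nat_lit 367) (nat_lit 292))))) (XT.nd (nat_lit 234) (nat_lit 532) (nat_lit 0) (XT.nd (nat_lit 78) (nat_lit 304) (nat_lit 0) (XT.lf (nat_lit 0) (nat_lit 355129164) (nat_lit 304) (nat_lit 8264766864) (nat_lit 76)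 (nat_lit 4821160790) (nat_lit 74) (nat_lit 5) (nat_lit 78) (nat_lit 5) (nat_lit 75) (nat_lit 5) (nat_lit 482) (nat_lit 367) (nat_lit 291)) (XT.nd (nat_lit 78) (nat_lit 304) (nat_lit 0) (XT.lf (nat_lit 0) (nat_lit 3958460035) (nat_lit 304) (nat_lit 510744710) (nat_lit 76) (nat_lit 9143396104) (nat_lit 74) (nat_lit 5) (nat_lit 78) (nat_lit 5) (nat_lit 75) (nat_lit 5) (nat_lit 483) (nat_lit 367) (nat_lit 290)) (XT.lf (nat_lit 0) (nat_lit 7448825371) (nat_lit 304) (nat_lit 204414019) (nat_lit 380) (nat_lit 6133955596) (nat_lit 70) (nat_lit 5) (nat_lit 74) (nat_lit 5) (nat_lit 75) (nat_lit 5) (nat_lit 484) (nat_lit 367) (nat_lit 289)))) (XT.nd (nat_lit 78) (nat_lit 304) (nat_lit 0) (XT.lf (nat_lit 0) (nat_lit 1555380183) (nat_lit 228) (nat_lit 9878163881) (nat_lit 304) (nat_lit 2531511073) (nat_lit 67) (nat_lit 5) (nat_lit 70) (nat_lit 5) (nat_lit 71) (nat_lit 5) (nat_lit 485) (nat_lit 367) (nat_lit 288)) (XT.nd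 (nat_lit 78) (nat_lit 228) (nat_lit 0) (XT.lf (nat_lit 0) (nat_lit 1143389852) (nat_lit 304) (nat_lit 4509209542) (nat_lit 76) (nat_lit 8493423184) (nat_lit 66) (nat_lit 5) (nat_lit 70) (nat_lit 5) (nat_lit 67) (nat_lit 5) (nat_lit 486) (nat_lit 367) (nat_lit 287)) (XT.lf (nat_lit 0) (nat_lit 3532302918) (nat_lit 228) (nat_lit 1320347548) (nat_lit 304) (nat_lit 9477735404) (nat_lit 63) (nat_lit 5) (nat_lit 66) (nat_lit 5) (nat_lit 67) (nat_lit 5) (nat_lit 487) (nat_lit 367) (nat_lit 286))))))))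
noncomputable def xc63 : XT := (XT.nd (nat_lit 53040) (nat_lit 0) (nat_lit 21736) (XT.nd (nat_lit 780) (nat_lit 912) (nat_lit 0) (XT.nd (nat_lit 390) (nat_lit 456) (nat_lit 0) (XT.nd (nat_lit 156) (nat_lit 532) (nat_lit 0) (XT.nd (nat_lit 78) (nat_lit 228) (nat_lit 0) (XT.lf (nat_lit 0) (nat_lit 8658600977) (nat_lit 304) (nat_lit 2789045035) (nat_lit 76) (nat_lit 3070346536) (nat_lit 63) (nat_lit 5) (nat_lit 67) (nat_lit 5) (nat_lit 64) (nat_lit 5) (nat_lit 488) (nat_lit 367) (nat_lit 285)) (XT.lf (nat_lit 0) (nat_lit 5396455382) (nat_lit 228) (nat_lit 7160474236) (nat_lit 304) (nat_lit 2152102652) (nat_lit 60) (nat_lit 5) (nat_lit 63) (nat_lit 5) (nat_lit 64) (nat_lit 5) (nat_lit 489) (nat_lit 367) (nat_lit 284))) (XT.nd (nat_lit 78) (nat_lit 456) (nat_lit 0) (XT.lf (nat_lit 0) (nat_lit 1599338726) (nat_lit 304) (nat_lit 1176568645) (nat_lit 76) (nat_lit 12127952184) (nat_lit 59) (nat_lit 5) (nat_lit 63) (nat_lit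 5) (nat_lit 60) (nat_lit 5) (nat_lit 490) (nat_lit 367) (nat_lit 283)) (XT.nd (nat_lit 78) (nat_lit 228) (nat_lit 0) (XT.lf (nat_lit 0) (nat_lit 5427859614) (nat_lit 304) (nat_lit 7956362721) (nat_lit 76) (nat_lit 1717464938) (nat_lit 56) (nat_lit 5) (nat_lit 60) (nat_lit 5) (nat_lit 57) (nat_lit 5) (nat_lit 491) (nat_lit 367) (nat_lit 282)) (XT.lf (nat_lit 0) (nat_lit 286564711) (nat_lit 228) (nat_lit 9047773973) (nat_lit 304) (nat_lit 5969110735) (nat_lit 53) (nat_lit 5) (nat_lit 56) (nat_lit 5) (nat_lit 57) (nat_lit 5) (nat_lit 492) (nat_lit 367) (nat_lit 281))))) (XT.nd (nat_lit 156) (nat_lit 152) (nat_lit 0) (XT.nd (nat_lit 78) (nat_lit 304) (nat_lit 0) (XT.lf (nat_lit 0) (nat_lit 8757449126) (nat_lit 228) (nat_lit 4588320621) (nat_lit 304) (nat_lit 2162946130) (nat_lit 53) (nat_lit 5) (nat_lit 56) (nat_lit 5) (nat_lit 57) (nat_lit 5) (nat_lit 493) (nat_lit 367) (nat_lit 280)) (XT.lf (nat_lit 0) (nat_lit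 1645857679) (nat_lit 228) (nat_lit 35394756) (nat_lit 304) (nat_lit 14036928069) (nat_lit 49) (nat_lit 5) (nat_lit 52) (nat_lit 5) (nat_lit 53) (nat_lit 5) (nat_lit 494) (nat_lit 367) (nat_lit 279))) (XT.nd (nat_lit 78) (nat_lit 152) (nat_lit 0) (XT.lf (nat_lit 0) (nat_lit 5622813427) (nat_lit 304) (nat_lit 5717380910) (nat_lit 76) (nat_lit 4590370539) (nat_lit 49) (nat_lit 5) (nat_lit 53) (nat_lit 5) (nat_lit 50) (nat_lit 5) (nat_lit 495) (nat_lit 367) (nat_lit 278)) (XT.nd (nat_lit 78) (nat_lit 0) (nat_lit 0) (XT.lf (nat_lit 0) (nat_lit 2797640355) (nat_lit 152) (nat_lit 6838362475) (nat_lit 228) (nat_lit 6511343260) (nat_lit 47) (nat_lit 5) (nat_lit 49) (nat_lit 5) (nat_lit 50) (nat_lit 5) (nat_lit 496) (nat_lit 367) (nat_lit 277)) (XT.lf (nat_lit 0) (nat_lit 11517272038) (nat_lit 152) (nat_lit 2225170837) (nat_lit 228) (nat_lit 2625765315) (nat_lit 47) (nat_lit 5) (nat_lit 49) (nat_lit 5) (nat_lit 50) (nat_lit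 5) (nat_lit 497) (nat_lit 367) (nat_lit 276)))))) (XT.nd (nat_lit 390) (nat_lit 152) (nat_lit 0) (XT.nd (nat_lit 156) (nat_lit 456) (nat_lit 0) (XT.nd (nat_lit 78) (nat_lit 0) (nat_lit 0) (XT.lf (nat_lit 0) (nat_lit 1335920592) (nat_lit 304) (nat_lit 12793037595) (nat_lit 76) (nat_lit 2464041701) (nat_lit 43) (nat_lit 5) (nat_lit 47) (nat_lit 5) (nat_lit 44) (nat_lit 5) (nat_lit 498) (nat_lit 367) (nat_lit 275)) (XT.lf (nat_lit 0) (nat_lit 5364268348) (nat_lit 304) (nat_lit 4207130982) (nat_lit 76) (nat_lit 7250093931) (nat_lit 43) (nat_lit 5) (nat_lit 47) (nat_lit 5) (nat_lit 44) (nat_lit 5) (nat_lit 499) (nat_lit 367) (nat_lit 274))) (XT.nd (nat_lit 78) (nat_lit 304) (nat_lit 0) (XT.lf (nat_lit 0) (nat_lit 4568460878) (nat_lit 152) (nat_lit 4909922990) (nat_lit 228) (nat_lit 7576073236) (nat_lit 41) (nat_lit 5) (nat_lit 43) (nat_lit 5) (nat_lit 44) (nat_lit 5) (nat_lit 500) (nat_lit 367) (nat_lit 273)) (XT.nd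 (nat_lit 78) (nat_lit 304) (nat_lit 0) (XT.lf (nat_lit 0) (nat_lit 13534920255) (nat_lit 152) (nat_lit 143841888) (nat_lit 228) (nat_lit 3613242997) (nat_lit 41) (nat_lit 5) (nat_lit 43) (nat_lit 5) (nat_lit 44) (nat_lit 5) (nat_lit 501) (nat_lit 367) (nat_lit 272)) (XT.lf (nat_lit 0) (nat_lit 463608590) (nat_lit 304) (nat_lit 12394567868) (nat_lit 76) (nat_lit 4675268562) (nat_lit 37) (nat_lit 5) (nat_lit 41) (nat_lit 5) (nat_lit 38) (nat_lit 5) (nat_lit 502) (nat_lit 367) (nat_lit 271))))) (XT.nd (nat_lit 51636) (nat_lit 0) (nat_lit 39748) (XT.nd (nat_lit 78) (nat_lit 152) (nat_lit 0) (XT.lf (nat_lit 0) (nat_lit 4576147029) (nat_lit 304) (nat_lit 3581846056) (nat_lit 76) (nat_lit 9621196586) (nat_lit 37) (nat_lit 5) (nat_lit 41) (nat_lit 5) (nat_lit 38) (nat_lit 5) (nat_lit 503) (nat_lit 367) (nat_lit 270)) (XT.nd (nat_lit 78) (nat_lit 0) (nat_lit 0) (XT.lf (nat_lit 0) (nat_lit 5437984672) (nat_lit 152) (nat_lit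 3344880468) (nat_lit 228) (nat_lit 9246749678) (nat_lit 35) (nat_lit 5) (nat_lit 37) (nat_lit 5) (nat_lit 38) (nat_lit 5) (nat_lit 504) (nat_lit 367) (nat_lit 269)) (XT.lf (nat_lit 0) (nat_lit 13084779397) (nat_lit 228) (nat_lit 3648676444) (nat_lit 76) (nat_lit 1551375492) (nat_lit 35) (nat_lit 5) (nat_lit 38) (nat_lit 5) (nat_lit 36) (nat_lit 5) (nat_lit 505) (nat_lit 367) (nat_lit 268)))) (XT.nd (nat_lit 78) (nat_lit 1140) (nat_lit 0) (XT.lf (nat_lit 0) (nat_lit 1244644240) (nat_lit 988) (nat_lit 1059469460) (nat_lit 988) (nat_lit 1059469460) (nat_lit 573) (nat_lit 4) (nat_lit 586) (nat_lit 5) (nat_lit 586) (nat_lit 4) (nat_lit 404) (nat_lit 368) (nat_lit 368)) (XT.nd (nat_lit 78) (nat_lit 0) (nat_lit 0) (XT.lf (nat_lit 0) (nat_lit 22652876) (nat_lit 1064) (nat_lit 1031741755) (nat_lit 1140) (nat_lit 5697574072) (nat_lit 558) (nat_lit 5) (nat_lit 572) (nat_lit 5) (nat_lit 573) (nat_lit 4) (nat_lit 405) (nat_lit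 368) (nat_lit 367)) (XT.lf (nat_lit 0) (nat_lit 4222525543) (nat_lit 1140) (nat_lit 2424100013) (nat_lit 0) (nat_lit 131221192) (nat_lit 558) (nat_lit 5) (nat_lit 573) (nat_lit 4) (nat_lit 558) (nat_lit 4) (nat_lit 406) (nat_lit 368) (nat_lit 366))))))) (XT.nd (nat_lit 780) (nat_lit 8056) (nat_lit 0) (XT.nd (nat_lit 390) (nat_lit 6156) (nat_lit 0) (XT.nd (nat_lit 156) (nat_lit 2584) (nat_lit 0) (XT.nd (nat_lit 78) (nat_lit 0) (nat_lit 0) (XT.lf (nat_lit 0) (nat_lit 592143116) (nat_lit 1216) (nat_lit 4880859757) (nat_lit 76) (nat_lit 1332189056) (nat_lit 542) (nat_lit 5) (nat_lit 558) (nat_lit 5) (nat_lit 543) (nat_lit 4) (nat_lit 407) (nat_lit 368) (nat_lit 365)) (XT.lf (nat_lit 0) (nat_lit 3717127737) (nat_lit 1216) (nat_lit 515140337) (nat_lit 76) (nat_lit 2601553095) (nat_lit 542) (nat_lit 5) (nat_lit 558) (nat_lit 5) (nat_lit 543) (nat_lit 4) (nat_lit 408) (nat_lit 368) (nat_lit 364))) (XT.nd (nat_lit 78)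 (nat_lit 1368) (nat_lit 0) (XT.lf (nat_lit 0) (nat_lit 3932663617) (nat_lit 1216) (nat_lit 2931187837) (nat_lit 1292) (nat_lit 36461) (nat_lit 526) (nat_lit 5) (nat_lit 542) (nat_lit 5) (nat_lit 543) (nat_lit 4) (nat_lit 409) (nat_lit 368) (nat_lit 363)) (XT.nd (nat_lit 78) (nat_lit 0) (nat_lit 0) (XT.lf (nat_lit 0) (nat_lit 1523886443) (nat_lit 1292) (nat_lit 1560906971) (nat_lit 1368) (nat_lit 3810446916) (nat_lit 508) (nat_lit 5) (nat_lit 525) (nat_lit 5) (nat_lit 526) (nat_lit 5) (nat_lit 410) (nat_lit 368) (nat_lit 362)) (XT.lf (nat_lit 0) (nat_lit 6050853527) (nat_lit 1292) (nat_lit 135215468) (nat_lit 1368) (nat_lit 742102643) (nat_lit 508) (nat_lit 5) (nat_lit 525) (nat_lit 5) (nat_lit 526) (nat_lit 5) (nat_lit 411) (nat_lit 368) (nat_lit 361))))) (XT.nd (nat_lit 156) (nat_lit 3268) (nat_lit 0) (XT.nd (nat_lit 78) (nat_lit 1444) (nat_lit 0) (XT.lf (nat_lit 0) (nat_lit 2324962896) (nat_lit 1444) (nat_lit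 3288537262) (nat_lit 76) (nat_lit 1348623032) (nat_lit 489) (nat_lit 5) (nat_lit 508) (nat_lit 5) (nat_lit 490) (nat_lit 5) (nat_lit 412) (nat_lit 368) (nat_lit 360)) (XT.lf (nat_lit 0) (nat_lit 1284016806) (nat_lit 1444) (nat_lit 4111404993) (nat_lit 1520) (nat_lit 1602238233) (nat_lit 470) (nat_lit 5) (nat_lit 489) (nat_lit 5) (nat_lit 490) (nat_lit 5) (nat_lit 413) (nat_lit 368) (nat_lit 359))) (XT.nd (nat_lit 78) (nat_lit 3192) (nat_lit 0) (XT.lf (nat_lit 0) (nat_lit 1433242378) (nat_lit 1520) (nat_lit 1108944763) (nat_lit 76) (nat_lit 4492380054) (nat_lit 469) (nat_lit 5) (nat_lit 489) (nat_lit 5) (nat_lit 470) (nat_lit 5) (nat_lit 414) (nat_lit 368) (nat_lit 358)) (XT.nd (nat_lit 78) (nat_lit 1672) (nat_lit 0) (XT.lf (nat_lit 0) (nat_lit 3566924261) (nat_lit 1520) (nat_lit 902696134) (nat_lit 1596) (nat_lit 2603189049) (nat_lit 449) (nat_lit 5) (nat_lit 469) (nat_lit 5) (nat_lit 470) (nat_lit 5) (nat_lit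 415) (nat_lit 368) (nat_lit 357)) (XT.lf (nat_lit 0) (nat_lit 408190734) (nat_lit 1672) (nat_lit 5923084207) (nat_lit 76) (nat_lit 781337554) (nat_lit 427) (nat_lit 5) (nat_lit 449) (nat_lit 5) (nat_lit 428) (nat_lit 5) (nat_lit 416) (nat_lit 368) (nat_lit 356)))))) (XT.nd (nat_lit 390) (nat_lit 3496) (nat_lit 0) (XT.nd (nat_lit 156) (nat_lit 2888) (nat_lit 0) (XT.nd (nat_lit 78) (nat_lit 1672) (nat_lit 0) (XT.lf (nat_lit 0) (nat_lit 3414341050) (nat_lit 1672) (nat_lit 1208198728) (nat_lit 76) (nat_lit 2530978890) (nat_lit 427) (nat_lit 5) (nat_lit 449) (nat_lit 5) (nat_lit 428) (nat_lit 5) (nat_lit 417) (nat_lit 368) (nat_lit 355)) (XT.lf (nat_lit 0) (nat_lit 3590766944) (nat_lit 1672) (nat_lit 2854050082) (nat_lit 1748) (nat_lit 751180312) (nat_lit 405) (nat_lit 5) (nat_lit 427) (nat_lit 5) (nat_lit 428) (nat_lit 5) (nat_lit 418) (nat_lit 368) (nat_lit 354))) (XT.nd (nat_lit 78) (nat_lit 1064) (nat_lit 0)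 (XT.lf (nat_lit 0) (nat_lit 1206026971) (nat_lit 1748) (nat_lit 1017676603) (nat_lit 1824) (nat_lit 5016215791) (nat_lit 381) (nat_lit 5) (nat_lit 404) (nat_lit 5) (nat_lit 405) (nat_lit 5) (nat_lit 419) (nat_lit 368) (nat_lit 353)) (XT.nd (nat_lit 78) (nat_lit 1064) (nat_lit 0) (XT.lf (nat_lit 0) (nat_lit 5219981641) (nat_lit 1824) (nat_lit 1191116627) (nat_lit 76) (nat_lit 874119373) (nat_lit 381) (nat_lit 5) (nat_lit 405) (nat_lit 5) (nat_lit 382) (nat_lit 5) (nat_lit 420) (nat_lit 368) (nat_lit 352)) (XT.lf (nat_lit 0) (nat_lit 906319896) (nat_lit 1064) (nat_lit 3604621394) (nat_lit 76) (nat_lit 2820913770) (nat_lit 367) (nat_lit 5) (nat_lit 381) (nat_lit 5) (nat_lit 368) (nat_lit 5) (nat_lit 421) (nat_lit 368) (nat_lit 351))))) (XT.nd (nat_lit 234) (nat_lit 1672) (nat_lit 0) (XT.nd (nat_lit 78) (nat_lit 912) (nat_lit 0) (XT.lf (nat_lit 0) (nat_lit 1326671383) (nat_lit 912) (nat_lit 2543180267) (nat_lit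 988) (nat_lit 3510130711) (nat_lit 355) (nat_lit 5) (nat_lit 367) (nat_lit 5) (nat_lit 368) (nat_lit 5) (nat_lit 422) (nat_lit 368) (nat_lit 350)) (XT.nd (nat_lit 78) (nat_lit 912) (nat_lit 0) (XT.lf (nat_lit 0) (nat_lit 6348002411) (nat_lit 912) (nat_lit 513087944) (nat_lit 988) (nat_lit 568646579) (nat_lit 355) (nat_lit 5) (nat_lit 367) (nat_lit 5) (nat_lit 368) (nat_lit 5) (nat_lit 423) (nat_lit 368) (nat_lit 349)) (XT.lf (nat_lit 0) (nat_lit 2380862516) (nat_lit 912) (nat_lit 3522717945) (nat_lit 76) (nat_lit 1577000790) (nat_lit 343) (nat_lit 5) (nat_lit 355) (nat_lit 5) (nat_lit 344) (nat_lit 5) (nat_lit 424) (nat_lit 368) (nat_lit 348)))) (XT.nd (nat_lit 78) (nat_lit 836) (nat_lit 0) (XT.lf (nat_lit 0) (nat_lit 1535734615) (nat_lit 836) (nat_lit 3812338291) (nat_lit 912) (nat_lit 2184999392) (nat_lit 332) (nat_lit 5) (nat_lit 343) (nat_lit 5) (nat_lit 344) (nat_lit 5) (nat_lit 425) (nat_lit 368) (nat_lit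 347)) (XT.nd (nat_lit 78) (nat_lit 760) (nat_lit 0) (XT.lf (nat_lit 0) (nat_lit 747424428) (nat_lit 912) (nat_lit 906487854) (nat_lit 76) (nat_lit 5933233955) (nat_lit 331) (nat_lit 5) (nat_lit 343) (nat_lit 5) (nat_lit 332) (nat_lit 5) (nat_lit 426) (nat_lit 368) (nat_lit 346)) (XT.lf (nat_lit 0) (nat_lit 3687813099) (nat_lit 836) (nat_lit 3375678185) (nat_lit 76) (nat_lit 578979748) (nat_lit 321) (nat_lit 5) (nat_lit 332) (nat_lit 5) (nat_lit 322) (nat_lit 5) (nat_lit 427) (nat_lit 368) (nat_lit 345))))))))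
noncomputable def xc64 : XT := (XT.nd (nat_lit 1560) (nat_lit 6232) (nat_lit 0) (XT.nd (nat_lit 780) (nat_lit 4256) (nat_lit 0) (XT.nd (nat_lit 390) (nat_lit 2888) (nat_lit 0) (XT.nd (nat_lit 156) (nat_lit 1596) (nat_lit 0) (XT.nd (nat_lit 78) (nat_lit 76) (nat_lit 0) (XT.lf (nat_lit 0) (nat_lit 1812105515) (nat_lit 760) (nat_lit 4851397699) (nat_lit 836) (nat_lit 1035898359) (nat_lit 311) (nat_lit 5) (nat_lit 321) (nat_lit 5) (nat_lit 322) (nat_lit 5) (nat_lit 428) (nat_lit 368) (nat_lit 344)) (XT.lf (nat_lit 0) (nat_lit 1886514922) (nat_lit 836) (nat_lit 678422005) (nat_lit 76) (nat_lit 5192894951) (nat_lit 310) (nat_lit 5) (nat_lit 321) (nat_lit 5) (nat_lit 311) (nat_lit 5) (nat_lit 429) (nat_lit 368) (nat_lit 343))) (XT.nd (nat_lit 78) (nat_lit 836) (nat_lit 0) (XT.lf (nat_lit 0) (nat_lit 4631598209) (nat_lit 760) (nat_lit 200948411) (nat_lit 836) (nat_lit 2985193848) (nat_lit 300) (nat_lit 5) (nat_lit 310)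 (nat_lit 5) (nat_lit 311) (nat_lit 5) (nat_lit 430) (nat_lit 368) (nat_lit 342)) (XT.nd (nat_lit 78) (nat_lit 76) (nat_lit 0) (XT.lf (nat_lit 0) (nat_lit 2134333835) (nat_lit 760) (nat_lit 5685506612) (nat_lit 836) (nat_lit 59386859) (nat_lit 290) (nat_lit 5) (nat_lit 300) (nat_lit 5) (nat_lit 301) (nat_lit 5) (nat_lit 431) (nat_lit 368) (nat_lit 341)) (XT.lf (nat_lit 0) (nat_lit 2859240738) (nat_lit 836) (nat_lit 415421280) (nat_lit 76) (nat_lit 4667474598) (nat_lit 289) (nat_lit 5) (nat_lit 300) (nat_lit 5) (nat_lit 290) (nat_lit 5) (nat_lit 432) (nat_lit 368) (nat_lit 340))))) (XT.nd (nat_lit 156) (nat_lit 1444) (nat_lit 0) (XT.nd (nat_lit 78) (nat_lit 760) (nat_lit 0) (XT.lf (nat_lit 0) (nat_lit 5029493641) (nat_lit 684) (nat_lit 789404142) (nat_lit 760) (nat_lit 2187754790) (nat_lit 280) (nat_lit 5) (nat_lit 289) (nat_lit 5) (nat_lit 290) (nat_lit 5) (nat_lit 433) (nat_lit 368) (nat_lit 339)) (XT.lf (nat_lit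 0) (nat_lit 736695051) (nat_lit 760) (nat_lit 5597273970) (nat_lit 76) (nat_lit 1738785965) (nat_lit 270) (nat_lit 5) (nat_lit 280) (nat_lit 5) (nat_lit 271) (nat_lit 5) (nat_lit 434) (nat_lit 368) (nat_lit 338))) (XT.nd (nat_lit 78) (nat_lit 1444) (nat_lit 0) (XT.lf (nat_lit 0) (nat_lit 3667293042) (nat_lit 760) (nat_lit 139678603) (nat_lit 76) (nat_lit 4333403409) (nat_lit 270) (nat_lit 5) (nat_lit 280) (nat_lit 5) (nat_lit 271) (nat_lit 5) (nat_lit 435) (nat_lit 368) (nat_lit 337)) (XT.nd (nat_lit 78) (nat_lit 760) (nat_lit 0) (XT.lf (nat_lit 0) (nat_lit 5441990304) (nat_lit 684) (nat_lit 1202382318) (nat_lit 760) (nat_lit 1565240931) (nat_lit 261) (nat_lit 5) (nat_lit 270) (nat_lit 5) (nat_lit 271) (nat_lit 5) (nat_lit 436) (nat_lit 368) (nat_lit 336)) (XT.lf (nat_lit 0) (nat_lit 1364030671) (nat_lit 760) (nat_lit 5461974643) (nat_lit 76) (nat_lit 1454439228) (nat_lit 251) (nat_lit 5) (nat_lit 261) (nat_lit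 5) (nat_lit 252) (nat_lit 5) (nat_lit 437) (nat_lit 368) (nat_lit 335)))))) (XT.nd (nat_lit 390) (nat_lit 2356) (nat_lit 0) (XT.nd (nat_lit 156) (nat_lit 1292) (nat_lit 0) (XT.nd (nat_lit 78) (nat_lit 0) (nat_lit 0) (XT.lf (nat_lit 0) (nat_lit 127450788) (nat_lit 608) (nat_lit 4184250642) (nat_lit 684) (nat_lit 4041190423) (nat_lit 243) (nat_lit 5) (nat_lit 251) (nat_lit 5) (nat_lit 252) (nat_lit 5) (nat_lit 438) (nat_lit 368) (nat_lit 334)) (XT.lf (nat_lit 0) (nat_lit 5845830683) (nat_lit 608) (nat_lit 1462961934) (nat_lit 684) (nat_lit 1118207791) (nat_lit 243) (nat_lit 5) (nat_lit 251) (nat_lit 5) (nat_lit 252) (nat_lit 5) (nat_lit 439) (nat_lit 368) (nat_lit 333))) (XT.nd (nat_lit 78) (nat_lit 608) (nat_lit 0) (XT.lf (nat_lit 0) (nat_lit 1822309793) (nat_lit 684) (nat_lit 5362739291) (nat_lit 76) (nat_lit 1317650662) (nat_lit 234) (nat_lit 5) (nat_lit 243) (nat_lit 5) (nat_lit 235) (nat_lit 5) (nat_lit 440)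 (nat_lit 368) (nat_lit 332)) (XT.nd (nat_lit 78) (nat_lit 0) (nat_lit 0) (XT.lf (nat_lit 0) (nat_lit 361604975) (nat_lit 608) (nat_lit 4429404432) (nat_lit 684) (nat_lit 3789089338) (nat_lit 226) (nat_lit 5) (nat_lit 234) (nat_lit 5) (nat_lit 235) (nat_lit 5) (nat_lit 441) (nat_lit 368) (nat_lit 331)) (XT.lf (nat_lit 0) (nat_lit 6216639559) (nat_lit 608) (nat_lit 1593807113) (nat_lit 684) (nat_lit 848791769) (nat_lit 226) (nat_lit 5) (nat_lit 234) (nat_lit 5) (nat_lit 235) (nat_lit 5) (nat_lit 442) (nat_lit 368) (nat_lit 330))))) (XT.nd (nat_lit 156) (nat_lit 1140) (nat_lit 0) (XT.nd (nat_lit 78) (nat_lit 532) (nat_lit 0) (XT.lf (nat_lit 0) (nat_lit 2108875114) (nat_lit 684) (nat_lit 5324961410) (nat_lit 76) (nat_lit 1306129094) (nat_lit 217) (nat_lit 5) (nat_lit 226) (nat_lit 5) (nat_lit 218) (nat_lit 5) (nat_lit 443) (nat_lit 368) (nat_lit 329)) (XT.lf (nat_lit 0) (nat_lit 535194139) (nat_lit 532) (nat_lit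 4566043203) (nat_lit 608) (nat_lit 3721238478) (nat_lit 210) (nat_lit 5) (nat_lit 217) (nat_lit 5) (nat_lit 218) (nat_lit 5) (nat_lit 444) (nat_lit 368) (nat_lit 328))) (XT.nd (nat_lit 78) (nat_lit 1140) (nat_lit 0) (XT.lf (nat_lit 0) (nat_lit 6528675064) (nat_lit 532) (nat_lit 1617363799) (nat_lit 608) (nat_lit 760763991) (nat_lit 210) (nat_lit 5) (nat_lit 217) (nat_lit 5) (nat_lit 218) (nat_lit 5) (nat_lit 445) (nat_lit 368) (nat_lit 327)) (XT.nd (nat_lit 78) (nat_lit 532) (nat_lit 0) (XT.lf (nat_lit 0) (nat_lit 2219442242) (nat_lit 608) (nat_lit 5375555256) (nat_lit 76) (nat_lit 1397740384) (nat_lit 202) (nat_lit 5) (nat_lit 210) (nat_lit 5) (nat_lit 203) (nat_lit 5) (nat_lit 446) (nat_lit 368) (nat_lit 326)) (XT.lf (nat_lit 0) (nat_lit 620898179) (nat_lit 532) (nat_lit 4616782584) (nat_lit 608) (nat_lit 3842855383) (nat_lit 195) (nat_lit 5) (nat_lit 202) (nat_lit 5) (nat_lit 203) (nat_lit 5) (nat_lit 447)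 (nat_lit 368) (nat_lit 325))))))) (XT.nd (nat_lit 780) (nat_lit 3116) (nat_lit 0) (XT.nd (nat_lit 390) (nat_lit 1444) (nat_lit 0) (XT.nd (nat_lit 156) (nat_lit 1064) (nat_lit 0) (XT.nd (nat_lit 78) (nat_lit 608) (nat_lit 0) (XT.lf (nat_lit 0) (nat_lit 6754562768) (nat_lit 532) (nat_lit 1556059467) (nat_lit 608) (nat_lit 859598439) (nat_lit 195) (nat_lit 5) (nat_lit 202) (nat_lit 5) (nat_lit 203) (nat_lit 5) (nat_lit 448) (nat_lit 368) (nat_lit 324)) (XT.lf (nat_lit 0) (nat_lit 2148026468) (nat_lit 608) (nat_lit 5543230681) (nat_lit 76) (nat_lit 1570307881) (nat_lit 187) (nat_lit 5) (nat_lit 195) (nat_lit 5) (nat_lit 188) (nat_lit 5) (nat_lit 449) (nat_lit 368) (nat_lit 323))) (XT.nd (nat_lit 78) (nat_lit 608) (nat_lit 0) (XT.lf (nat_lit 0) (nat_lit 589528571) (nat_lit 456) (nat_lit 4604384835) (nat_lit 532) (nat_lit 4160932914) (nat_lit 181) (nat_lit 5) (nat_lit 187) (nat_lit 5) (nat_lit 188) (nat_lit 5) (nat_lit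 450) (nat_lit 368) (nat_lit 322)) (XT.nd (nat_lit 78) (nat_lit 608) (nat_lit 0) (XT.lf (nat_lit 0) (nat_lit 6865010302) (nat_lit 456) (nat_lit 1432507490) (nat_lit 532) (nat_lit 1152555211) (nat_lit 181) (nat_lit 5) (nat_lit 187) (nat_lit 5) (nat_lit 188) (nat_lit 5) (nat_lit 451) (nat_lit 368) (nat_lit 321)) (XT.lf (nat_lit 0) (nat_lit 1886854278) (nat_lit 608) (nat_lit 5858788771) (nat_lit 76) (nat_lit 1801407669) (nat_lit 173) (nat_lit 5) (nat_lit 181) (nat_lit 5) (nat_lit 174) (nat_lit 5) (nat_lit 452) (nat_lit 368) (nat_lit 320))))) (XT.nd (nat_lit 156) (nat_lit 988) (nat_lit 0) (XT.nd (nat_lit 78) (nat_lit 0) (nat_lit 0) (XT.lf (nat_lit 0) (nat_lit 409724869) (nat_lit 456) (nat_lit 4551968776) (nat_lit 532) (nat_lit 4684335342) (nat_lit 167) (nat_lit 5) (nat_lit 173) (nat_lit 5) (nat_lit 174) (nat_lit 5) (nat_lit 453) (nat_lit 368) (nat_lit 319)) (XT.lf (nat_lit 0) (nat_lit 6828499812) (nat_lit 456) (nat_lit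 1269717943) (nat_lit 532) (nat_lit 1648779866) (nat_lit 167) (nat_lit 5) (nat_lit 173) (nat_lit 5) (nat_lit 174) (nat_lit 5) (nat_lit 454) (nat_lit 368) (nat_lit 318))) (XT.nd (nat_lit 78) (nat_lit 456) (nat_lit 0) (XT.lf (nat_lit 0) (nat_lit 1426258612) (nat_lit 532) (nat_lit 6355441080) (nat_lit 76) (nat_lit 2068156854) (nat_lit 160) (nat_lit 5) (nat_lit 167) (nat_lit 5) (nat_lit 161) (nat_lit 5) (nat_lit 455) (nat_lit 368) (nat_lit 317)) (XT.nd (nat_lit 78) (nat_lit 0) (nat_lit 0) (XT.lf (nat_lit 0) (nat_lit 47626699) (nat_lit 456) (nat_lit 4483227592) (nat_lit 532) (nat_lit 5423911440) (nat_lit 154) (nat_lit 5) (nat_lit 160) (nat_lit 5) (nat_lit 161) (nat_lit 5) (nat_lit 456) (nat_lit 368) (nat_lit 316)) (XT.lf (nat_lit 0) (nat_lit 6610955305) (nat_lit 456) (nat_lit 1091316661) (nat_lit 532) (nat_lit 2359419985) (nat_lit 154) (nat_lit 5) (nat_lit 160) (nat_lit 5) (nat_lit 161) (nat_lit 5) (nat_lit 457) (nat_lit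 368) (nat_lit 315)))))) (XT.nd (nat_lit 390) (nat_lit 1672) (nat_lit 0) (XT.nd (nat_lit 156) (nat_lit 912) (nat_lit 0) (XT.nd (nat_lit 78) (nat_lit 0) (nat_lit 0) (XT.lf (nat_lit 0) (nat_lit 754556666) (nat_lit 532) (nat_lit 7069155509) (nat_lit 76) (nat_lit 2346993009) (nat_lit 147) (nat_lit 5) (nat_lit 154) (nat_lit 5) (nat_lit 148) (nat_lit 5) (nat_lit 458) (nat_lit 368) (nat_lit 314)) (XT.lf (nat_lit 0) (nat_lit 3892638266) (nat_lit 532) (nat_lit 526485174) (nat_lit 76) (nat_lit 5862607644) (nat_lit 147) (nat_lit 5) (nat_lit 154) (nat_lit 5) (nat_lit 148) (nat_lit 5) (nat_lit 459) (nat_lit 368) (nat_lit 313))) (XT.nd (nat_lit 78) (nat_lit 532) (nat_lit 0) (XT.lf (nat_lit 0) (nat_lit 6175381700) (nat_lit 380) (nat_lit 921774514) (nat_lit 456) (nat_lit 3297760222) (nat_lit 142) (nat_lit 5) (nat_lit 147) (nat_lit 5) (nat_lit 148) (nat_lit 5) (nat_lit 460) (nat_lit 368) (nat_lit 312)) (XT.nd (nat_lit 78) (nat_lit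 76) (nat_lit 0) (XT.lf (nat_lit 0) (nat_lit 2470398276) (nat_lit 456) (nat_lit 7895987612) (nat_lit 532) (nat_lit 143979364) (nat_lit 136) (nat_lit 5) (nat_lit 142) (nat_lit 5) (nat_lit 143) (nat_lit 5) (nat_lit 461) (nat_lit 368) (nat_lit 311)) (XT.lf (nat_lit 0) (nat_lit 3031150778) (nat_lit 532) (nat_lit 1355544656) (nat_lit 76) (nat_lit 6241068800) (nat_lit 135) (nat_lit 5) (nat_lit 142) (nat_lit 5) (nat_lit 136) (nat_lit 5) (nat_lit 462) (nat_lit 368) (nat_lit 310))))) (XT.nd (nat_lit 234) (nat_lit 836) (nat_lit 0) (XT.nd (nat_lit 78) (nat_lit 456) (nat_lit 0) (XT.lf (nat_lit 0) (nat_lit 5481472088) (nat_lit 380) (nat_lit 786648941) (nat_lit 456) (nat_lit 4479377306) (nat_lit 130) (nat_lit 5) (nat_lit 135) (nat_lit 5) (nat_lit 136) (nat_lit 5) (nat_lit 463) (nat_lit 368) (nat_lit 309)) (XT.nd (nat_lit 78) (nat_lit 76) (nat_lit 0) (XT.lf (nat_lit 0) (nat_lit 1553447550) (nat_lit 380) (nat_lit 8019282470)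 (nat_lit 456) (nat_lit 1296850369) (nat_lit 125) (nat_lit 5) (nat_lit 130) (nat_lit 5) (nat_lit 131) (nat_lit 5) (nat_lit 464) (nat_lit 368) (nat_lit 308)) (XT.lf (nat_lit 0) (nat_lit 1929575147) (nat_lit 456) (nat_lit 2483226353) (nat_lit 76) (nat_lit 6580944001) (nat_lit 124) (nat_lit 5) (nat_lit 130) (nat_lit 5) (nat_lit 125) (nat_lit 5) (nat_lit 465) (nat_lit 368) (nat_lit 307)))) (XT.nd (nat_lit 78) (nat_lit 456) (nat_lit 0) (XT.lf (nat_lit 0) (nat_lit 4485179397) (nat_lit 380) (nat_lit 712839971) (nat_lit 456) (nat_lit 5922316611) (nat_lit 119) (nat_lit 5) (nat_lit 124) (nat_lit 5) (nat_lit 125) (nat_lit 5) (nat_lit 466) (nat_lit 368) (nat_lit 306)) (XT.nd (nat_lit 78) (nat_lit 76) (nat_lit 0) (XT.lf (nat_lit 0) (nat_lit 309934349) (nat_lit 380) (nat_lit 8226506973) (nat_lit 456) (nat_lit 2712935167) (nat_lit 114) (nat_lit 5) (nat_lit 119) (nat_lit 5) (nat_lit 120) (nat_lit 5) (nat_lit 467) (nat_lit 368)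 (nat_lit 305)) (XT.lf (nat_lit 0) (nat_lit 568871055) (nat_lit 456) (nat_lit 3956650438) (nat_lit 76) (nat_lit 6855101713) (nat_lit 113) (nat_lit 5) (nat_lit 119) (nat_lit 5) (nat_lit 114) (nat_lit 5) (nat_lit 468) (nat_lit 368) (nat_lit 304))))))))
noncomputable def xc65 : XT := (XT.nd (nat_lit 1638) (nat_lit 1900) (nat_lit 0) (XT.nd (nat_lit 780) (nat_lit 1976) (nat_lit 0) (XT.nd (nat_lit 390) (nat_lit 988) (nat_lit 0) (XT.nd (nat_lit 156) (nat_lit 760) (nat_lit 0) (XT.nd (nat_lit 78) (nat_lit 0) (nat_lit 0) (XT.lf (nat_lit 0) (nat_lit 3138248293) (nat_lit 304) (nat_lit 728863068) (nat_lit 380) (nat_lit 7647292162) (nat_lit 109) (nat_lit 5) (nat_lit 113) (nat_lit 5) (nat_lit 114) (nat_lit 5) (nat_lit 469) (nat_lit 368) (nat_lit 303)) (XT.lf (nat_lit 0) (nat_lit 7245381400) (nat_lit 380) (nat_lit 1293199737) (nat_lit 76) (nat_lit 3112006619) (nat_lit 109) (nat_lit 5) (nat_lit 114) (nat_lit 5) (nat_lit 110)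 (nat_lit 5) (nat_lit 470) (nat_lit 368) (nat_lit 302))) (XT.nd (nat_lit 78) (nat_lit 380) (nat_lit 0) (XT.lf (nat_lit 0) (nat_lit 5954721730) (nat_lit 380) (nat_lit 4747559229) (nat_lit 456) (nat_lit 1087002850) (nat_lit 104) (nat_lit 5) (nat_lit 109) (nat_lit 5) (nat_lit 110) (nat_lit 5) (nat_lit 471) (nat_lit 368) (nat_lit 301)) (XT.nd (nat_lit 78) (nat_lit 0) (nat_lit 0) (XT.lf (nat_lit 0) (nat_lit 1387702740) (nat_lit 304) (nat_lit 865141374) (nat_lit 380) (nat_lit 9677912132) (nat_lit 99) (nat_lit 5) (nat_lit 103) (nat_lit 5) (nat_lit 104) (nat_lit 5) (nat_lit 472) (nat_lit 368) (nat_lit 300)) (XT.lf (nat_lit 0) (nat_lit 5672316139) (nat_lit 380) (nat_lit 3318603811) (nat_lit 76) (nat_lit 3083455693) (nat_lit 99) (nat_lit 5) (nat_lit 104) (nat_lit 5) (nat_lit 100) (nat_lit 5) (nat_lit 473) (nat_lit 368) (nat_lit 299))))) (XT.nd (nat_lit 156) (nat_lit 608) (nat_lit 0) (XT.nd (nat_lit 78) (nat_lit 76) (nat_lit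 0) (XT.lf (nat_lit 0) (nat_lit 4048408587) (nat_lit 304) (nat_lit 5112276425) (nat_lit 380) (nat_lit 3060180970) (nat_lit 95) (nat_lit 5) (nat_lit 99) (nat_lit 5) (nat_lit 100) (nat_lit 5) (nat_lit 474) (nat_lit 368) (nat_lit 298)) (XT.lf (nat_lit 0) (nat_lit 334958896) (nat_lit 380) (nat_lit 813899494) (nat_lit 76) (nat_lit 11221570946) (nat_lit 94) (nat_lit 5) (nat_lit 99) (nat_lit 5) (nat_lit 95) (nat_lit 5) (nat_lit 475) (nat_lit 368) (nat_lit 297))) (XT.nd (nat_lit 78) (nat_lit 304) (nat_lit 0) (XT.lf (nat_lit 0) (nat_lit 3788928269) (nat_lit 380) (nat_lit 5830272668) (nat_lit 76) (nat_lit 2902748614) (nat_lit 90) (nat_lit 5) (nat_lit 95) (nat_lit 5) (nat_lit 91) (nat_lit 5) (nat_lit 476) (nat_lit 368) (nat_lit 296)) (XT.nd (nat_lit 78) (nat_lit 0) (nat_lit 0) (XT.lf (nat_lit 0) (nat_lit 1647356203) (nat_lit 304) (nat_lit 5657794152) (nat_lit 380) (nat_lit 5371494387) (nat_lit 86) (nat_lit 5) (nat_lit 90)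 (nat_lit 5) (nat_lit 91) (nat_lit 5) (nat_lit 477) (nat_lit 368) (nat_lit 295)) (XT.lf (nat_lit 0) (nat_lit 9305277203) (nat_lit 304) (nat_lit 1595202299) (nat_lit 380) (nat_lit 1933786565) (nat_lit 86) (nat_lit 5) (nat_lit 90) (nat_lit 5) (nat_lit 91) (nat_lit 5) (nat_lit 478) (nat_lit 368) (nat_lit 294)))))) (XT.nd (nat_lit 390) (nat_lit 1064) (nat_lit 0) (XT.nd (nat_lit 156) (nat_lit 608) (nat_lit 0) (XT.nd (nat_lit 78) (nat_lit 0) (nat_lit 0) (XT.lf (nat_lit 0) (nat_lit 1565507394) (nat_lit 304) (nat_lit 8894228360) (nat_lit 76) (nat_lit 2534838265) (nat_lit 82) (nat_lit 5) (nat_lit 86) (nat_lit 5) (nat_lit 83) (nat_lit 5) (nat_lit 479) (nat_lit 368) (nat_lit 293)) (XT.lf (nat_lit 0) (nat_lit 5113533181) (nat_lit 304) (nat_lit 1298960312) (nat_lit 76) (nat_lit 6745253630) (nat_lit 82) (nat_lit 5) (nat_lit 86) (nat_lit 5) (nat_lit 83) (nat_lit 5) (nat_lit 480) (nat_lit 368) (nat_lit 292))) (XT.nd (nat_lit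 78) (nat_lit 304) (nat_lit 0) (XT.lf (nat_lit 0) (nat_lit 6486300287) (nat_lit 304) (nat_lit 2259129314) (nat_lit 380) (nat_lit 4578503168) (nat_lit 78) (nat_lit 5) (nat_lit 82) (nat_lit 5) (nat_lit 83) (nat_lit 5) (nat_lit 481) (nat_lit 368) (nat_lit 291)) (XT.nd (nat_lit 78) (nat_lit 76) (nat_lit 0) (XT.lf (nat_lit 0) (nat_lit 903415474) (nat_lit 228) (nat_lit 11544977601) (nat_lit 304) (nat_lit 1045087608) (nat_lit 75) (nat_lit 5) (nat_lit 78) (nat_lit 5) (nat_lit 79) (nat_lit 5) (nat_lit 482) (nat_lit 368) (nat_lit 290)) (XT.lf (nat_lit 0) (nat_lit 2557602819) (nat_lit 304) (nat_lit 4852636466) (nat_lit 76) (nat_lit 6255211474) (nat_lit 74) (nat_lit 5) (nat_lit 78) (nat_lit 5) (nat_lit 75) (nat_lit 5) (nat_lit 483) (nat_lit 368) (nat_lit 289))))) (XT.nd (nat_lit 234) (nat_lit 532) (nat_lit 0) (XT.nd (nat_lit 78) (nat_lit 228) (nat_lit 0) (XT.lf (nat_lit 0) (nat_lit 3026007155) (nat_lit 304) (nat_lit 3183593506)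 (nat_lit 380) (nat_lit 7631303194) (nat_lit 70) (nat_lit 5) (nat_lit 74) (nat_lit 5) (nat_lit 75) (nat_lit 5) (nat_lit 484) (nat_lit 368) (nat_lit 288)) (XT.nd (nat_lit 78) (nat_lit 228) (nat_lit 0) (XT.lf (nat_lit 0) (nat_lit 9946468944) (nat_lit 380) (nat_lit 2945197470) (nat_lit 76) (nat_lit 1127969586) (nat_lit 70) (nat_lit 5) (nat_lit 75) (nat_lit 5) (nat_lit 71) (nat_lit 5) (nat_lit 485) (nat_lit 368) (nat_lit 287)) (XT.lf (nat_lit 0) (nat_lit 5081924998) (nat_lit 228) (nat_lit 8702512586) (nat_lit 304) (nat_lit 416984408) (nat_lit 67) (nat_lit 5) (nat_lit 70) (nat_lit 5) (nat_lit 71) (nat_lit 5) (nat_lit 486) (nat_lit 368) (nat_lit 286)))) (XT.nd (nat_lit 78) (nat_lit 456) (nat_lit 0) (XT.lf (nat_lit 0) (nat_lit 3261120850) (nat_lit 304) (nat_lit 1144184101) (nat_lit 76) (nat_lit 9981270040) (nat_lit 66) (nat_lit 5) (nat_lit 70) (nat_lit 5) (nat_lit 67) (nat_lit 5) (nat_lit 487) (nat_lit 368) (nat_lit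 285)) (XT.nd (nat_lit 78) (nat_lit 228) (nat_lit 0) (XT.lf (nat_lit 0) (nat_lit 7025839506) (nat_lit 304) (nat_lit 7539646265) (nat_lit 76) (nat_lit 9523551) (nat_lit 63) (nat_lit 5) (nat_lit 67) (nat_lit 5) (nat_lit 64) (nat_lit 5) (nat_lit 488) (nat_lit 368) (nat_lit 284)) (XT.lf (nat_lit 0) (nat_lit 560221790) (nat_lit 228) (nat_lit 10319188590) (nat_lit 304) (nat_lit 3887536777) (nat_lit 60) (nat_lit 5) (nat_lit 63) (nat_lit 5) (nat_lit 64) (nat_lit 5) (nat_lit 489) (nat_lit 368) (nat_lit 283))))))) (XT.nd (nat_lit 780) (nat_lit 608) (nat_lit 0) (XT.nd (nat_lit 390) (nat_lit 760) (nat_lit 0) (XT.nd (nat_lit 156) (nat_lit 228) (nat_lit 0) (XT.nd (nat_lit 78) (nat_lit 304) (nat_lit 0) (XT.lf (nat_lit 0) (nat_lit 8879731515) (nat_lit 228) (nat_lit 5954173308) (nat_lit 304) (nat_lit 128347739) (nat_lit 60) (nat_lit 5) (nat_lit 63) (nat_lit 5) (nat_lit 64) (nat_lit 5) (nat_lit 490) (nat_lit 368) (nat_lit 282))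 (XT.lf (nat_lit 0) (nat_lit 2164452222) (nat_lit 228) (nat_lit 1480622958) (nat_lit 304) (nat_lit 11516160177) (nat_lit 56) (nat_lit 5) (nat_lit 59) (nat_lit 5) (nat_lit 60) (nat_lit 5) (nat_lit 491) (nat_lit 368) (nat_lit 281))) (XT.nd (nat_lit 78) (nat_lit 228) (nat_lit 0) (XT.lf (nat_lit 0) (nat_lit 7527071383) (nat_lit 304) (nat_lit 4769864836) (nat_lit 76) (nat_lit 3066553673) (nat_lit 56) (nat_lit 5) (nat_lit 60) (nat_lit 5) (nat_lit 57) (nat_lit 5) (nat_lit 492) (nat_lit 368) (nat_lit 280)) (XT.nd (nat_lit 78) (nat_lit 0) (nat_lit 0) (XT.lf (nat_lit 0) (nat_lit 3615910454) (nat_lit 228) (nat_lit 7878316247) (nat_lit 304) (nat_lit 4075417843) (nat_lit 53) (nat_lit 5) (nat_lit 56) (nat_lit 5) (nat_lit 57) (nat_lit 5) (nat_lit 493) (nat_lit 368) (nat_lit 279)) (XT.lf (nat_lit 0) (nat_lit 12191043646) (nat_lit 228) (nat_lit 3356152519) (nat_lit 304) (nat_lit 232602008) (nat_lit 53) (nat_lit 5) (nat_lit 56)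 (nat_lit 5) (nat_lit 57) (nat_lit 5) (nat_lit 494) (nat_lit 368) (nat_lit 278))))) (XT.nd (nat_lit 156) (nat_lit 456) (nat_lit 0) (XT.nd (nat_lit 78) (nat_lit 0) (nat_lit 0) (XT.lf (nat_lit 0) (nat_lit 3654008518) (nat_lit 304) (nat_lit 11060071610) (nat_lit 76) (nat_lit 1279295166) (nat_lit 49) (nat_lit 5) (nat_lit 53) (nat_lit 5) (nat_lit 50) (nat_lit 5) (nat_lit 495) (nat_lit 368) (nat_lit 277)) (XT.lf (nat_lit 0) (nat_lit 7636608359) (nat_lit 304) (nat_lit 2602842969) (nat_lit 76) (nat_lit 5971319446) (nat_lit 49) (nat_lit 5) (nat_lit 53) (nat_lit 5) (nat_lit 50) (nat_lit 5) (nat_lit 496) (nat_lit 368) (nat_lit 276))) (XT.nd (nat_lit 78) (nat_lit 304) (nat_lit 0) (XT.lf (nat_lit 0) (nat_lit 6061236053) (nat_lit 152) (nat_lit 5652370491) (nat_lit 228) (nat_lit 4718617591) (nat_lit 47) (nat_lit 5) (nat_lit 49) (nat_lit 5) (nat_lit 50) (nat_lit 5) (nat_lit 497) (nat_lit 368) (nat_lit 275)) (XT.nd (nat_lit 78)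 (nat_lit 304) (nat_lit 0) (XT.lf (nat_lit 0) (nat_lit 14892365411) (nat_lit 152) (nat_lit 972851476) (nat_lit 228) (nat_lit 793033039) (nat_lit 47) (nat_lit 5) (nat_lit 49) (nat_lit 5) (nat_lit 50) (nat_lit 5) (nat_lit 498) (nat_lit 368) (nat_lit 274)) (XT.lf (nat_lit 0) (nat_lit 3215595248) (nat_lit 304) (nat_lit 9871152494) (nat_lit 76) (nat_lit 3800703226) (nat_lit 43) (nat_lit 5) (nat_lit 47) (nat_lit 5) (nat_lit 44) (nat_lit 5) (nat_lit 499) (nat_lit 368) (nat_lit 273)))))) (XT.nd (nat_lit 390) (nat_lit 152) (nat_lit 0) (XT.nd (nat_lit 156) (nat_lit 304) (nat_lit 0) (XT.nd (nat_lit 78) (nat_lit 152) (nat_lit 0) (XT.lf (nat_lit 0) (nat_lit 7288177483) (nat_lit 304) (nat_lit 1175836492) (nat_lit 76) (nat_lit 8657233742) (nat_lit 43) (nat_lit 5) (nat_lit 47) (nat_lit 5) (nat_lit 44) (nat_lit 5) (nat_lit 500) (nat_lit 368) (nat_lit 272)) (XT.lf (nat_lit 0) (nat_lit 7754770909) (nat_lit 152) (nat_lit 3714278739)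 (nat_lit 228) (nat_lit 5890138426) (nat_lit 41) (nat_lit 5) (nat_lit 43) (nat_lit 5) (nat_lit 44) (nat_lit 5) (nat_lit 501) (nat_lit 368) (nat_lit 271))) (XT.nd (nat_lit 78) (nat_lit 304) (nat_lit 0) (XT.lf (nat_lit 0) (nat_lit 15725403015) (nat_lit 228) (nat_lit 769608792) (nat_lit 76) (nat_lit 1107042507) (nat_lit 41) (nat_lit 5) (nat_lit 44) (nat_lit 5) (nat_lit 42) (nat_lit 5) (nat_lit 502) (nat_lit 368) (nat_lit 270)) (XT.nd (nat_lit 78) (nat_lit 0) (nat_lit 0) (XT.lf (nat_lit 0) (nat_lit 2243829695) (nat_lit 304) (nat_lit 9577084766) (nat_lit 76) (nat_lit 6027463663) (nat_lit 37) (nat_lit 5) (nat_lit 41) (nat_lit 5) (nat_lit 38) (nat_lit 5) (nat_lit 503) (nat_lit 368) (nat_lit 269)) (XT.lf (nat_lit 0) (nat_lit 6403894414) (nat_lit 304) (nat_lit 648213899) (nat_lit 76) (nat_lit 11047630057) (nat_lit 37) (nat_lit 5) (nat_lit 41) (nat_lit 5) (nat_lit 38) (nat_lit 5) (nat_lit 504) (nat_lit 368) (nat_lit 268)))))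 (XT.nd (nat_lit 51480) (nat_lit 0) (nat_lit 39748) (XT.nd (nat_lit 51324) (nat_lit 0) (nat_lit 41876) (XT.lf (nat_lit 0) (nat_lit 8532241937) (nat_lit 152) (nat_lit 2147845164) (nat_lit 228) (nat_lit 7675384204) (nat_lit 35) (nat_lit 5) (nat_lit 37) (nat_lit 5) (nat_lit 38) (nat_lit 5) (nat_lit 505) (nat_lit 368) (nat_lit 267)) (XT.nd (nat_lit 78) (nat_lit 0) (nat_lit 0) (XT.lf (nat_lit 0) (nat_lit 194618259) (nat_lit 988) (nat_lit 2951517581) (nat_lit 0) (nat_lit 194618259) (nat_lit 586) (nat_lit 5) (nat_lit 599) (nat_lit 4) (nat_lit 586) (nat_lit 4) (nat_lit 402) (nat_lit 369) (nat_lit 369)) (XT.lf (nat_lit 0) (nat_lit 3551302252) (nat_lit 988) (nat_lit 1750673250) (nat_lit 0) (nat_lit 1401933486) (nat_lit 586) (nat_lit 5) (nat_lit 599) (nat_lit 4) (nat_lit 586) (nat_lit 4) (nat_lit 403) (nat_lit 369) (nat_lit 368)))) (XT.nd (nat_lit 78) (nat_lit 1140) (nat_lit 0) (XT.lf (nat_lit 0) (nat_lit 2461378430) (nat_lit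 988) (nat_lit 4261550993) (nat_lit 988) (nat_lit 4957947) (nat_lit 573) (nat_lit 4) (nat_lit 586) (nat_lit 5) (nat_lit 586) (nat_lit 4) (nat_lit 404) (nat_lit 369) (nat_lit 367)) (XT.nd (nat_lit 78) (nat_lit 1064) (nat_lit 0) (XT.lf (nat_lit 0) (nat_lit 3106264390) (nat_lit 1064) (nat_lit 47845134) (nat_lit 76) (nat_lit 3599020076) (nat_lit 572) (nat_lit 5) (nat_lit 586) (nat_lit 5) (nat_lit 573) (nat_lit 4) (nat_lit 405) (nat_lit 369) (nat_lit 366)) (XT.lf (nat_lit 0) (nat_lit 4255832190) (nat_lit 1064) (nat_lit 1983637902) (nat_lit 1140) (nat_lit 540262172) (nat_lit 558) (nat_lit 5) (nat_lit 572) (nat_lit 5) (nat_lit 573) (nat_lit 4) (nat_lit 406) (nat_lit 369) (nat_lit 365))))))))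
noncomputable def xc66 : XT := (XT.nd (nat_lit 1560) (nat_lit 9804) (nat_lit 0) (XT.nd (nat_lit 780) (nat_lit 7296) (nat_lit 0) (XT.nd (nat_lit 390) (nat_lit 6080) (nat_lit 0) (XT.nd (nat_lit 156) (nat_lit 2660) (nat_lit 0) (XT.nd (nat_lit 78) (nat_lit 0) (nat_lit 0) (XT.lf (nat_lit 0) (nat_lit 1790054444) (nat_lit 1140) (nat_lit 748564786) (nat_lit 1216) (nat_lit 4269064756) (nat_lit 542) (nat_lit 5) (nat_lit 557) (nat_lit 5) (nat_lit 558) (nat_lit 5) (nat_lit 407) (nat_lit 369) (nat_lit 364)) (XT.lf (nat_lit 0) (nat_lit 5625924832) (nat_lit 1216) (nat_lit 675172439) (nat_lit 76) (nat_lit 535994142) (nat_lit 542) (nat_lit 5) (nat_lit 558) (nat_lit 5) (nat_lit 543) (nat_lit 4) (nat_lit 408) (nat_lit 369) (nat_lit 363))) (XT.nd (nat_lit 78) (nat_lit 1368) (nat_lit 0) (XT.lf (nat_lit 0) (nat_lit 1846844911) (nat_lit 1292) (nat_lit 3137433480) (nat_lit 76) (nat_lit 1883329079) (nat_lit 525) (nat_lit 5) (nat_lit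 542) (nat_lit 5) (nat_lit 526) (nat_lit 5) (nat_lit 409) (nat_lit 369) (nat_lit 362)) (XT.nd (nat_lit 78) (nat_lit 76) (nat_lit 0) (XT.lf (nat_lit 0) (nat_lit 1286729112) (nat_lit 1292) (nat_lit 3611449713) (nat_lit 1368) (nat_lit 2001474154) (nat_lit 508) (nat_lit 5) (nat_lit 525) (nat_lit 5) (nat_lit 526) (nat_lit 5) (nat_lit 410) (nat_lit 369) (nat_lit 361)) (XT.lf (nat_lit 0) (nat_lit 1021138153) (nat_lit 1368) (nat_lit 1153913422) (nat_lit 76) (nat_lit 4758051260) (nat_lit 507) (nat_lit 5) (nat_lit 525) (nat_lit 5) (nat_lit 508) (nat_lit 5) (nat_lit 411) (nat_lit 369) (nat_lit 360))))) (XT.nd (nat_lit 156) (nat_lit 3192) (nat_lit 0) (XT.nd (nat_lit 78) (nat_lit 1520) (nat_lit 0) (XT.lf (nat_lit 0) (nat_lit 3369568885) (nat_lit 1368) (nat_lit 666879417) (nat_lit 1444) (nat_lit 2931372025) (nat_lit 489) (nat_lit 5) (nat_lit 507) (nat_lit 5) (nat_lit 508) (nat_lit 5) (nat_lit 412) (nat_lit 369) (nat_lit 359))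 (XT.lf (nat_lit 0) (nat_lit 64737843) (nat_lit 1520) (nat_lit 6058369578) (nat_lit 76) (nat_lit 881006387) (nat_lit 469) (nat_lit 5) (nat_lit 489) (nat_lit 5) (nat_lit 470) (nat_lit 5) (nat_lit 413) (nat_lit 369) (nat_lit 358))) (XT.nd (nat_lit 78) (nat_lit 3192) (nat_lit 0) (XT.lf (nat_lit 0) (nat_lit 3048740887) (nat_lit 1520) (nat_lit 1492337973) (nat_lit 76) (nat_lit 2500363924) (nat_lit 469) (nat_lit 5) (nat_lit 489) (nat_lit 5) (nat_lit 470) (nat_lit 5) (nat_lit 414) (nat_lit 369) (nat_lit 357)) (XT.nd (nat_lit 78) (nat_lit 1672) (nat_lit 0) (XT.lf (nat_lit 0) (nat_lit 3150357840) (nat_lit 1520) (nat_lit 2902189844) (nat_lit 1596) (nat_lit 1027808961) (nat_lit 449) (nat_lit 5) (nat_lit 469) (nat_lit 5) (nat_lit 470) (nat_lit 5) (nat_lit 415) (nat_lit 369) (nat_lit 356)) (XT.lf (nat_lit 0) (nat_lit 726344613) (nat_lit 1596) (nat_lit 1198708768) (nat_lit 1672) (nat_lit 5195678271) (nat_lit 427) (nat_lit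 5) (nat_lit 448) (nat_lit 5) (nat_lit 449) (nat_lit 5) (nat_lit 416) (nat_lit 369) (nat_lit 355)))))) (XT.nd (nat_lit 390) (nat_lit 2736) (nat_lit 0) (XT.nd (nat_lit 156) (nat_lit 2812) (nat_lit 0) (XT.nd (nat_lit 78) (nat_lit 1748) (nat_lit 0) (XT.lf (nat_lit 0) (nat_lit 4894158020) (nat_lit 1672) (nat_lit 1700090565) (nat_lit 76) (nat_lit 568149176) (nat_lit 427) (nat_lit 5) (nat_lit 449) (nat_lit 5) (nat_lit 428) (nat_lit 5) (nat_lit 417) (nat_lit 369) (nat_lit 354)) (XT.lf (nat_lit 0) (nat_lit 677978561) (nat_lit 1748) (nat_lit 4145844668) (nat_lit 76) (nat_lit 2381624809) (nat_lit 404) (nat_lit 5) (nat_lit 427) (nat_lit 5) (nat_lit 405) (nat_lit 5) (nat_lit 418) (nat_lit 369) (nat_lit 353))) (XT.nd (nat_lit 78) (nat_lit 1064) (nat_lit 0) (XT.lf (nat_lit 0) (nat_lit 624884410) (nat_lit 1748) (nat_lit 2985841549) (nat_lit 1824) (nat_lit 3639210181) (nat_lit 381) (nat_lit 5) (nat_lit 404) (nat_lit 5) (nat_lit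 405) (nat_lit 5) (nat_lit 419) (nat_lit 369) (nat_lit 352)) (XT.nd (nat_lit 78) (nat_lit 1064) (nat_lit 0) (XT.lf (nat_lit 0) (nat_lit 5490979321) (nat_lit 1748) (nat_lit 1082140719) (nat_lit 1824) (nat_lit 722809630) (nat_lit 381) (nat_lit 5) (nat_lit 404) (nat_lit 5) (nat_lit 405) (nat_lit 5) (nat_lit 420) (nat_lit 369) (nat_lit 351)) (XT.lf (nat_lit 0) (nat_lit 2192085051) (nat_lit 1064) (nat_lit 4267697186) (nat_lit 76) (nat_lit 883408527) (nat_lit 367) (nat_lit 5) (nat_lit 381) (nat_lit 5) (nat_lit 368) (nat_lit 5) (nat_lit 421) (nat_lit 369) (nat_lit 350))))) (XT.nd (nat_lit 156) (nat_lit 1748) (nat_lit 0) (XT.nd (nat_lit 78) (nat_lit 76) (nat_lit 0) (XT.lf (nat_lit 0) (nat_lit 626343466) (nat_lit 912) (nat_lit 4497310705) (nat_lit 988) (nat_lit 2268319707) (nat_lit 355) (nat_lit 5) (nat_lit 367) (nat_lit 5) (nat_lit 368) (nat_lit 5) (nat_lit 422) (nat_lit 369) (nat_lit 349)) (XT.lf (nat_lit 0) (nat_lit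 637081418) (nat_lit 988) (nat_lit 1826685247) (nat_lit 76) (nat_lit 4978435378) (nat_lit 354) (nat_lit 5) (nat_lit 367) (nat_lit 5) (nat_lit 355) (nat_lit 5) (nat_lit 423) (nat_lit 369) (nat_lit 348))) (XT.nd (nat_lit 78) (nat_lit 912) (nat_lit 0) (XT.lf (nat_lit 0) (nat_lit 3181779256) (nat_lit 836) (nat_lit 355150856) (nat_lit 912) (nat_lit 3956902064) (nat_lit 343) (nat_lit 5) (nat_lit 354) (nat_lit 5) (nat_lit 355) (nat_lit 5) (nat_lit 424) (nat_lit 369) (nat_lit 347)) (XT.nd (nat_lit 78) (nat_lit 76) (nat_lit 0) (XT.lf (nat_lit 0) (nat_lit 709813837) (nat_lit 836) (nat_lit 5760276181) (nat_lit 912) (nat_lit 1076929513) (nat_lit 332) (nat_lit 5) (nat_lit 343) (nat_lit 5) (nat_lit 344) (nat_lit 5) (nat_lit 425) (nat_lit 369) (nat_lit 346)) (XT.lf (nat_lit 0) (nat_lit 1814728611) (nat_lit 912) (nat_lit 1781788497) (nat_lit 76) (nat_lit 4004971844) (nat_lit 331) (nat_lit 5) (nat_lit 343) (nat_lit 5) (nat_lit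 332) (nat_lit 5) (nat_lit 426) (nat_lit 369) (nat_lit 345))))))) (XT.nd (nat_lit 780) (nat_lit 4484) (nat_lit 0) (XT.nd (nat_lit 390) (nat_lit 2128) (nat_lit 0) (XT.nd (nat_lit 156) (nat_lit 1672) (nat_lit 0) (XT.nd (nat_lit 78) (nat_lit 760) (nat_lit 0) (XT.lf (nat_lit 0) (nat_lit 3355692650) (nat_lit 760) (nat_lit 1363956077) (nat_lit 836) (nat_lit 2937888809) (nat_lit 321) (nat_lit 5) (nat_lit 331) (nat_lit 5) (nat_lit 332) (nat_lit 5) (nat_lit 427) (nat_lit 369) (nat_lit 344)) (XT.lf (nat_lit 0) (nat_lit 854220914) (nat_lit 760) (nat_lit 6800636245) (nat_lit 836) (nat_lit 60434687) (nat_lit 311) (nat_lit 5) (nat_lit 321) (nat_lit 5) (nat_lit 322) (nat_lit 5) (nat_lit 428) (nat_lit 369) (nat_lit 343))) (XT.nd (nat_lit 78) (nat_lit 1596) (nat_lit 0) (XT.lf (nat_lit 0) (nat_lit 2823916131) (nat_lit 836) (nat_lit 1686706131) (nat_lit 76) (nat_lit 3263492186) (nat_lit 310) (nat_lit 5) (nat_lit 321) (nat_lit 5)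 (nat_lit 311) (nat_lit 5) (nat_lit 429) (nat_lit 369) (nat_lit 342)) (XT.nd (nat_lit 78) (nat_lit 836) (nat_lit 0) (XT.lf (nat_lit 0) (nat_lit 3581923989) (nat_lit 760) (nat_lit 2156435051) (nat_lit 836) (nat_lit 2096309095) (nat_lit 300) (nat_lit 5) (nat_lit 310) (nat_lit 5) (nat_lit 311) (nat_lit 5) (nat_lit 430) (nat_lit 369) (nat_lit 341)) (XT.lf (nat_lit 0) (nat_lit 774013660) (nat_lit 836) (nat_lit 6864019649) (nat_lit 76) (nat_lit 258918857) (nat_lit 289) (nat_lit 5) (nat_lit 300) (nat_lit 5) (nat_lit 290) (nat_lit 5) (nat_lit 431) (nat_lit 369) (nat_lit 340))))) (XT.nd (nat_lit 156) (nat_lit 1444) (nat_lit 0) (XT.nd (nat_lit 78) (nat_lit 684) (nat_lit 0) (XT.lf (nat_lit 0) (nat_lit 3667504237) (nat_lit 836) (nat_lit 1563010332) (nat_lit 76) (nat_lit 2729838910) (nat_lit 289) (nat_lit 5) (nat_lit 300) (nat_lit 5) (nat_lit 290) (nat_lit 5) (nat_lit 432) (nat_lit 369) (nat_lit 339)) (XT.lf (nat_lit 0) (nat_lit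 3838761158) (nat_lit 684) (nat_lit 2756788557) (nat_lit 760) (nat_lit 1429964257) (nat_lit 280) (nat_lit 5) (nat_lit 289) (nat_lit 5) (nat_lit 290) (nat_lit 5) (nat_lit 433) (nat_lit 369) (nat_lit 338))) (XT.nd (nat_lit 78) (nat_lit 684) (nat_lit 0) (XT.lf (nat_lit 0) (nat_lit 1228453991) (nat_lit 684) (nat_lit 212723398) (nat_lit 760) (nat_lit 6651219815) (nat_lit 270) (nat_lit 5) (nat_lit 279) (nat_lit 5) (nat_lit 280) (nat_lit 5) (nat_lit 434) (nat_lit 369) (nat_lit 337)) (XT.nd (nat_lit 78) (nat_lit 684) (nat_lit 0) (XT.lf (nat_lit 0) (nat_lit 4346897515) (nat_lit 760) (nat_lit 1432912769) (nat_lit 76) (nat_lit 2380716140) (nat_lit 270) (nat_lit 5) (nat_lit 280) (nat_lit 5) (nat_lit 271) (nat_lit 5) (nat_lit 435) (nat_lit 369) (nat_lit 336)) (XT.lf (nat_lit 0) (nat_lit 4103807528) (nat_lit 684) (nat_lit 3188445193) (nat_lit 760) (nat_lit 938158055) (nat_lit 261) (nat_lit 5) (nat_lit 270) (nat_lit 5) (nat_lit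 271) (nat_lit 5) (nat_lit 436) (nat_lit 369) (nat_lit 335)))))) (XT.nd (nat_lit 390) (nat_lit 2432) (nat_lit 0) (XT.nd (nat_lit 156) (nat_lit 1292) (nat_lit 0) (XT.nd (nat_lit 78) (nat_lit 0) (nat_lit 0) (XT.lf (nat_lit 0) (nat_lit 1419164964) (nat_lit 684) (nat_lit 522084247) (nat_lit 760) (nat_lit 6360754854) (nat_lit 251) (nat_lit 5) (nat_lit 260) (nat_lit 5) (nat_lit 261) (nat_lit 5) (nat_lit 437) (nat_lit 369) (nat_lit 334)) (XT.lf (nat_lit 0) (nat_lit 4862021344) (nat_lit 760) (nat_lit 1319480965) (nat_lit 76) (nat_lit 2193497751) (nat_lit 251) (nat_lit 5) (nat_lit 261) (nat_lit 5) (nat_lit 252) (nat_lit 5) (nat_lit 438) (nat_lit 369) (nat_lit 333))) (XT.nd (nat_lit 78) (nat_lit 684) (nat_lit 0) (XT.lf (nat_lit 0) (nat_lit 4353761046) (nat_lit 608) (nat_lit 3474254792) (nat_lit 684) (nat_lit 621725213) (nat_lit 243) (nat_lit 5) (nat_lit 251) (nat_lit 5) (nat_lit 252) (nat_lit 5) (nat_lit 439) (nat_lit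 369) (nat_lit 332)) (XT.nd (nat_lit 78) (nat_lit 0) (nat_lit 0) (XT.lf (nat_lit 0) (nat_lit 1582865602) (nat_lit 608) (nat_lit 688447386) (nat_lit 684) (nat_lit 6254892384) (nat_lit 234) (nat_lit 5) (nat_lit 242) (nat_lit 5) (nat_lit 243) (nat_lit 5) (nat_lit 440) (nat_lit 369) (nat_lit 331)) (XT.lf (nat_lit 0) (nat_lit 5211285870) (nat_lit 684) (nat_lit 1246866693) (nat_lit 76) (nat_lit 2146036239) (nat_lit 234) (nat_lit 5) (nat_lit 243) (nat_lit 5) (nat_lit 235) (nat_lit 5) (nat_lit 441) (nat_lit 369) (nat_lit 330))))) (XT.nd (nat_lit 234) (nat_lit 1140) (nat_lit 0) (XT.nd (nat_lit 78) (nat_lit 684) (nat_lit 0) (XT.lf (nat_lit 0) (nat_lit 4564180725) (nat_lit 608) (nat_lit 3636681824) (nat_lit 684) (nat_lit 483072863) (nat_lit 226) (nat_lit 5) (nat_lit 234) (nat_lit 5) (nat_lit 235) (nat_lit 5) (nat_lit 442) (nat_lit 369) (nat_lit 329)) (XT.nd (nat_lit 78) (nat_lit 0) (nat_lit 0) (XT.lf (nat_lit 0) (nat_lit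 1694384672) (nat_lit 608) (nat_lit 734208753) (nat_lit 684) (nat_lit 6336855083) (nat_lit 217) (nat_lit 5) (nat_lit 225) (nat_lit 5) (nat_lit 226) (nat_lit 5) (nat_lit 443) (nat_lit 369) (nat_lit 328)) (XT.lf (nat_lit 0) (nat_lit 5391536980) (nat_lit 684) (nat_lit 1240548486) (nat_lit 76) (nat_lit 2216470760) (nat_lit 217) (nat_lit 5) (nat_lit 226) (nat_lit 5) (nat_lit 218) (nat_lit 5) (nat_lit 444) (nat_lit 369) (nat_lit 327)))) (XT.nd (nat_lit 78) (nat_lit 608) (nat_lit 0) (XT.lf (nat_lit 0) (nat_lit 4709238384) (nat_lit 532) (nat_lit 3698000327) (nat_lit 608) (nat_lit 526235508) (nat_lit 210) (nat_lit 5) (nat_lit 217) (nat_lit 5) (nat_lit 218) (nat_lit 5) (nat_lit 445) (nat_lit 369) (nat_lit 326)) (XT.nd (nat_lit 78) (nat_lit 0) (nat_lit 0) (XT.lf (nat_lit 0) (nat_lit 1727061475) (nat_lit 532) (nat_lit 681632538) (nat_lit 608) (nat_lit 6611537413) (nat_lit 202) (nat_lit 5) (nat_lit 209) (nat_lit 5) (nat_lit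 210) (nat_lit 5) (nat_lit 446) (nat_lit 369) (nat_lit 325)) (XT.lf (nat_lit 0) (nat_lit 5397993596) (nat_lit 608) (nat_lit 1327590519) (nat_lit 76) (nat_lit 2383032800) (nat_lit 202) (nat_lit 5) (nat_lit 210) (nat_lit 5) (nat_lit 203) (nat_lit 5) (nat_lit 447) (nat_lit 369) (nat_lit 324))))))))
noncomputable def xc67 : XT := (XT.nd (nat_lit 1638) (nat_lit 3876) (nat_lit 0) (XT.nd (nat_lit 780) (nat_lit 3040) (nat_lit 0) (XT.nd (nat_lit 390) (nat_lit 1444) (nat_lit 0) (XT.nd (nat_lit 156) (nat_lit 1064) (nat_lit 0) (XT.nd (nat_lit 78) (nat_lit 608) (nat_lit 0) (XT.lf (nat_lit 0) (nat_lit 4761453328) (nat_lit 532) (nat_lit 3680491998) (nat_lit 608) (nat_lit 756944192) (nat_lit 195) (nat_lit 5) (nat_lit 202) (nat_lit 5) (nat_lit 203) (nat_lit 5) (nat_lit 448) (nat_lit 369) (nat_lit 323)) (XT.lf (nat_lit 0) (nat_lit 1652472295) (nat_lit 532) (nat_lit 553051804) (nat_lit 608) (nat_lit 7085580609) (nat_lit 187) (nat_lit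 5) (nat_lit 194) (nat_lit 5) (nat_lit 195) (nat_lit 5) (nat_lit 449) (nat_lit 369) (nat_lit 322))) (XT.nd (nat_lit 78) (nat_lit 1064) (nat_lit 0) (XT.lf (nat_lit 0) (nat_lit 5224170510) (nat_lit 608) (nat_lit 1536920278) (nat_lit 76) (nat_lit 2623847823) (nat_lit 187) (nat_lit 5) (nat_lit 195) (nat_lit 5) (nat_lit 188) (nat_lit 5) (nat_lit 450) (nat_lit 369) (nat_lit 321)) (XT.nd (nat_lit 78) (nat_lit 608) (nat_lit 0) (XT.lf (nat_lit 0) (nat_lit 4691407481) (nat_lit 456) (nat_lit 3606649086) (nat_lit 532) (nat_lit 1182710746) (nat_lit 181) (nat_lit 5) (nat_lit 187) (nat_lit 5) (nat_lit 188) (nat_lit 5) (nat_lit 451) (nat_lit 369) (nat_lit 320)) (XT.lf (nat_lit 0) (nat_lit 1440136277) (nat_lit 532) (nat_lit 371074523) (nat_lit 608) (nat_lit 7767463166) (nat_lit 173) (nat_lit 5) (nat_lit 180) (nat_lit 5) (nat_lit 181) (nat_lit 5) (nat_lit 452) (nat_lit 369) (nat_lit 319))))) (XT.nd (nat_lit 156) (nat_lit 988)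 (nat_lit 0) (XT.nd (nat_lit 78) (nat_lit 456) (nat_lit 0) (XT.lf (nat_lit 0) (nat_lit 4861785859) (nat_lit 608) (nat_lit 1899627645) (nat_lit 76) (nat_lit 2916731224) (nat_lit 173) (nat_lit 5) (nat_lit 181) (nat_lit 5) (nat_lit 174) (nat_lit 5) (nat_lit 453) (nat_lit 369) (nat_lit 318)) (XT.lf (nat_lit 0) (nat_lit 4467438261) (nat_lit 456) (nat_lit 3499383864) (nat_lit 532) (nat_lit 1812928062) (nat_lit 167) (nat_lit 5) (nat_lit 173) (nat_lit 5) (nat_lit 174) (nat_lit 5) (nat_lit 454) (nat_lit 369) (nat_lit 317))) (XT.nd (nat_lit 78) (nat_lit 456) (nat_lit 0) (XT.lf (nat_lit 0) (nat_lit 1057197937) (nat_lit 456) (nat_lit 158796806) (nat_lit 532) (nat_lit 8667607848) (nat_lit 160) (nat_lit 5) (nat_lit 166) (nat_lit 5) (nat_lit 167) (nat_lit 5) (nat_lit 455) (nat_lit 369) (nat_lit 316)) (XT.nd (nat_lit 78) (nat_lit 456) (nat_lit 0) (XT.lf (nat_lit 0) (nat_lit 4300652169) (nat_lit 532) (nat_lit 2449288235) (nat_lit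 76) (nat_lit 3238976797) (nat_lit 160) (nat_lit 5) (nat_lit 167) (nat_lit 5) (nat_lit 161) (nat_lit 5) (nat_lit 456) (nat_lit 369) (nat_lit 315)) (XT.lf (nat_lit 0) (nat_lit 4055306283) (nat_lit 456) (nat_lit 3382246467) (nat_lit 532) (nat_lit 2658987542) (nat_lit 154) (nat_lit 5) (nat_lit 160) (nat_lit 5) (nat_lit 161) (nat_lit 5) (nat_lit 457) (nat_lit 369) (nat_lit 314)))))) (XT.nd (nat_lit 390) (nat_lit 1596) (nat_lit 0) (XT.nd (nat_lit 156) (nat_lit 912) (nat_lit 0) (XT.nd (nat_lit 78) (nat_lit 0) (nat_lit 0) (XT.lf (nat_lit 0) (nat_lit 408497868) (nat_lit 532) (nat_lit 9738921011) (nat_lit 76) (nat_lit 59188225) (nat_lit 147) (nat_lit 5) (nat_lit 154) (nat_lit 5) (nat_lit 148) (nat_lit 5) (nat_lit 458) (nat_lit 369) (nat_lit 313)) (XT.lf (nat_lit 0) (nat_lit 3528549786) (nat_lit 532) (nat_lit 3222314096) (nat_lit 76) (nat_lit 3567135869) (nat_lit 147) (nat_lit 5) (nat_lit 154) (nat_lit 5) (nat_lit 148)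 (nat_lit 5) (nat_lit 459) (nat_lit 369) (nat_lit 312))) (XT.nd (nat_lit 78) (nat_lit 532) (nat_lit 0) (XT.lf (nat_lit 0) (nat_lit 3417834681) (nat_lit 380) (nat_lit 3279653069) (nat_lit 456) (nat_lit 3734414984) (nat_lit 142) (nat_lit 5) (nat_lit 147) (nat_lit 5) (nat_lit 148) (nat_lit 5) (nat_lit 460) (nat_lit 369) (nat_lit 311)) (XT.nd (nat_lit 78) (nat_lit 532) (nat_lit 0) (XT.lf (nat_lit 0) (nat_lit 9917823444) (nat_lit 456) (nat_lit 366914686) (nat_lit 76) (nat_lit 263597214) (nat_lit 142) (nat_lit 5) (nat_lit 148) (nat_lit 5) (nat_lit 143) (nat_lit 5) (nat_lit 461) (nat_lit 369) (nat_lit 310)) (XT.lf (nat_lit 0) (nat_lit 2531081302) (nat_lit 532) (nat_lit 4258335139) (nat_lit 76) (nat_lit 3876785105) (nat_lit 135) (nat_lit 5) (nat_lit 142) (nat_lit 5) (nat_lit 136) (nat_lit 5) (nat_lit 462) (nat_lit 369) (nat_lit 309))))) (XT.nd (nat_lit 234) (nat_lit 760) (nat_lit 0) (XT.nd (nat_lit 78) (nat_lit 456)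 (nat_lit 0) (XT.lf (nat_lit 0) (nat_lit 2514516583) (nat_lit 380) (nat_lit 3217126427) (nat_lit 456) (nat_lit 5055026381) (nat_lit 130) (nat_lit 5) (nat_lit 135) (nat_lit 5) (nat_lit 136) (nat_lit 5) (nat_lit 463) (nat_lit 369) (nat_lit 308)) (XT.nd (nat_lit 78) (nat_lit 456) (nat_lit 0) (XT.lf (nat_lit 0) (nat_lit 8993361227) (nat_lit 456) (nat_lit 1482651424) (nat_lit 76) (nat_lit 433602072) (nat_lit 130) (nat_lit 5) (nat_lit 136) (nat_lit 5) (nat_lit 131) (nat_lit 5) (nat_lit 464) (nat_lit 369) (nat_lit 307)) (XT.lf (nat_lit 0) (nat_lit 1291505446) (nat_lit 456) (nat_lit 5600614996) (nat_lit 76) (nat_lit 4142280878) (nat_lit 124) (nat_lit 5) (nat_lit 130) (nat_lit 5) (nat_lit 125) (nat_lit 5) (nat_lit 465) (nat_lit 369) (nat_lit 306)))) (XT.nd (nat_lit 78) (nat_lit 380) (nat_lit 0) (XT.lf (nat_lit 0) (nat_lit 1301086919) (nat_lit 380) (nat_lit 3221551004) (nat_lit 456) (nat_lit 6639105258) (nat_lit 119) (nat_lit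 5) (nat_lit 124) (nat_lit 5) (nat_lit 125) (nat_lit 5) (nat_lit 466) (nat_lit 369) (nat_lit 305)) (XT.nd (nat_lit 78) (nat_lit 380) (nat_lit 0) (XT.lf (nat_lit 0) (nat_lit 7826232285) (nat_lit 456) (nat_lit 2928402322) (nat_lit 76) (nat_lit 536850684) (nat_lit 119) (nat_lit 5) (nat_lit 125) (nat_lit 5) (nat_lit 120) (nat_lit 5) (nat_lit 467) (nat_lit 369) (nat_lit 304)) (XT.lf (nat_lit 0) (nat_lit 4125641104) (nat_lit 380) (nat_lit 7085648510) (nat_lit 456) (nat_lit 212234804) (nat_lit 114) (nat_lit 5) (nat_lit 119) (nat_lit 5) (nat_lit 120) (nat_lit 5) (nat_lit 468) (nat_lit 369) (nat_lit 303))))))) (XT.nd (nat_lit 780) (nat_lit 1748) (nat_lit 0) (XT.nd (nat_lit 390) (nat_lit 988) (nat_lit 0) (XT.nd (nat_lit 156) (nat_lit 760) (nat_lit 0) (XT.nd (nat_lit 78) (nat_lit 304) (nat_lit 0) (XT.lf (nat_lit 0) (nat_lit 3052258593) (nat_lit 456) (nat_lit 267392093) (nat_lit 76) (nat_lit 8238416972) (nat_lit 113) (nat_lit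 5) (nat_lit 119) (nat_lit 5) (nat_lit 114) (nat_lit 5) (nat_lit 469) (nat_lit 369) (nat_lit 302)) (XT.lf (nat_lit 0) (nat_lit 6395884835) (nat_lit 380) (nat_lit 4753994574) (nat_lit 76) (nat_lit 545070021) (nat_lit 109) (nat_lit 5) (nat_lit 114) (nat_lit 5) (nat_lit 110) (nat_lit 5) (nat_lit 470) (nat_lit 369) (nat_lit 301))) (XT.nd (nat_lit 78) (nat_lit 380) (nat_lit 0) (XT.lf (nat_lit 0) (nat_lit 2423363084) (nat_lit 380) (nat_lit 7390756254) (nat_lit 456) (nat_lit 2020304019) (nat_lit 104) (nat_lit 5) (nat_lit 109) (nat_lit 5) (nat_lit 110) (nat_lit 5) (nat_lit 471) (nat_lit 369) (nat_lit 300)) (XT.nd (nat_lit 78) (nat_lit 304) (nat_lit 0) (XT.lf (nat_lit 0) (nat_lit 1307080867) (nat_lit 456) (nat_lit 2225238623) (nat_lit 76) (nat_lit 8444195940) (nat_lit 103) (nat_lit 5) (nat_lit 109) (nat_lit 5) (nat_lit 104) (nat_lit 5) (nat_lit 472) (nat_lit 369) (nat_lit 299)) (XT.lf (nat_lit 0) (nat_lit 4678901618)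 (nat_lit 380) (nat_lit 7014157581) (nat_lit 76) (nat_lit 428032960) (nat_lit 99) (nat_lit 5) (nat_lit 104) (nat_lit 5) (nat_lit 100) (nat_lit 5) (nat_lit 473) (nat_lit 369) (nat_lit 298))))) (XT.nd (nat_lit 156) (nat_lit 684) (nat_lit 0) (XT.nd (nat_lit 78) (nat_lit 0) (nat_lit 0) (XT.lf (nat_lit 0) (nat_lit 279501175) (nat_lit 304) (nat_lit 7848007400) (nat_lit 380) (nat_lit 4140873386) (nat_lit 95) (nat_lit 5) (nat_lit 99) (nat_lit 5) (nat_lit 100) (nat_lit 5) (nat_lit 474) (nat_lit 369) (nat_lit 297)) (XT.lf (nat_lit 0) (nat_lit 7766103829) (nat_lit 304) (nat_lit 3895457327) (nat_lit 380) (nat_lit 756735296) (nat_lit 95) (nat_lit 5) (nat_lit 99) (nat_lit 5) (nat_lit 100) (nat_lit 5) (nat_lit 475) (nat_lit 369) (nat_lit 296))) (XT.nd (nat_lit 78) (nat_lit 304) (nat_lit 0) (XT.lf (nat_lit 0) (nat_lit 2648744220) (nat_lit 380) (nat_lit 9769098566) (nat_lit 76) (nat_lit 153244416) (nat_lit 90) (nat_lit 5) (nat_lit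 95) (nat_lit 5) (nat_lit 91) (nat_lit 5) (nat_lit 476) (nat_lit 369) (nat_lit 295)) (XT.nd (nat_lit 78) (nat_lit 304) (nat_lit 0) (XT.lf (nat_lit 0) (nat_lit 6139405211) (nat_lit 380) (nat_lit 2336668127) (nat_lit 76) (nat_lit 4250224179) (nat_lit 90) (nat_lit 5) (nat_lit 95) (nat_lit 5) (nat_lit 91) (nat_lit 5) (nat_lit 477) (nat_lit 369) (nat_lit 294)) (XT.lf (nat_lit 0) (nat_lit 5266761940) (nat_lit 304) (nat_lit 4437873538) (nat_lit 380) (nat_lit 3179889166) (nat_lit 86) (nat_lit 5) (nat_lit 90) (nat_lit 5) (nat_lit 91) (nat_lit 5) (nat_lit 478) (nat_lit 369) (nat_lit 293)))))) (XT.nd (nat_lit 390) (nat_lit 836) (nat_lit 0) (XT.nd (nat_lit 156) (nat_lit 608) (nat_lit 0) (XT.nd (nat_lit 78) (nat_lit 228) (nat_lit 0) (XT.lf (nat_lit 0) (nat_lit 277801851) (nat_lit 380) (nat_lit 40502555) (nat_lit 76) (nat_lit 12727852594) (nat_lit 85) (nat_lit 5) (nat_lit 90) (nat_lit 5) (nat_lit 86) (nat_lit 5) (nat_lit 479)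 (nat_lit 369) (nat_lit 292)) (XT.lf (nat_lit 0) (nat_lit 3809035713) (nat_lit 304) (nat_lit 5513125007) (nat_lit 76) (nat_lit 3887508828) (nat_lit 82) (nat_lit 5) (nat_lit 86) (nat_lit 5) (nat_lit 83) (nat_lit 5) (nat_lit 480) (nat_lit 369) (nat_lit 291))) (XT.nd (nat_lit 78) (nat_lit 304) (nat_lit 0) (XT.lf (nat_lit 0) (nat_lit 2193026258) (nat_lit 304) (nat_lit 5205857512) (nat_lit 380) (nat_lit 5977815925) (nat_lit 78) (nat_lit 5) (nat_lit 82) (nat_lit 5) (nat_lit 83) (nat_lit 5) (nat_lit 481) (nat_lit 369) (nat_lit 290)) (XT.nd (nat_lit 78) (nat_lit 304) (nat_lit 0) (XT.lf (nat_lit 0) (nat_lit 10082274848) (nat_lit 304) (nat_lit 986883573) (nat_lit 380) (nat_lit 2477746430) (nat_lit 78) (nat_lit 5) (nat_lit 82) (nat_lit 5) (nat_lit 83) (nat_lit 5) (nat_lit 482) (nat_lit 369) (nat_lit 289)) (XT.lf (nat_lit 0) (nat_lit 1100315861) (nat_lit 304) (nat_lit 9327665271) (nat_lit 76) (nat_lit 3291951513) (nat_lit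 74) (nat_lit 5) (nat_lit 78) (nat_lit 5) (nat_lit 75) (nat_lit 5) (nat_lit 483) (nat_lit 369) (nat_lit 288))))) (XT.nd (nat_lit 234) (nat_lit 304) (nat_lit 0) (XT.nd (nat_lit 78) (nat_lit 532) (nat_lit 0) (XT.lf (nat_lit 0) (nat_lit 4718877013) (nat_lit 304) (nat_lit 1511179261) (nat_lit 76) (nat_lit 7666001467) (nat_lit 74) (nat_lit 5) (nat_lit 78) (nat_lit 5) (nat_lit 75) (nat_lit 5) (nat_lit 484) (nat_lit 369) (nat_lit 287)) (XT.nd (nat_lit 78) (nat_lit 228) (nat_lit 0) (XT.lf (nat_lit 0) (nat_lit 6502415457) (nat_lit 304) (nat_lit 1922302623) (nat_lit 380) (nat_lit 5650695550) (nat_lit 70) (nat_lit 5) (nat_lit 74) (nat_lit 5) (nat_lit 75) (nat_lit 5) (nat_lit 485) (nat_lit 369) (nat_lit 286)) (XT.lf (nat_lit 0) (nat_lit 382874880) (nat_lit 228) (nat_lit 11823370048) (nat_lit 304) (nat_lit 2052086669) (nat_lit 67) (nat_lit 5) (nat_lit 70) (nat_lit 5) (nat_lit 71) (nat_lit 5) (nat_lit 486) (nat_lit 369) (nat_lit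 285)))) (XT.nd (nat_lit 78) (nat_lit 228) (nat_lit 0) (XT.lf (nat_lit 0) (nat_lit 1634041556) (nat_lit 304) (nat_lit 5911665025) (nat_lit 76) (nat_lit 6898261787) (nat_lit 66) (nat_lit 5) (nat_lit 70) (nat_lit 5) (nat_lit 67) (nat_lit 5) (nat_lit 487) (nat_lit 369) (nat_lit 284)) (XT.nd (nat_lit 78) (nat_lit 0) (nat_lit 0) (XT.lf (nat_lit 0) (nat_lit 2182596999) (nat_lit 228) (nat_lit 3171434244) (nat_lit 304) (nat_lit 9279268993) (nat_lit 63) (nat_lit 5) (nat_lit 66) (nat_lit 5) (nat_lit 67) (nat_lit 5) (nat_lit 488) (nat_lit 369) (nat_lit 283)) (XT.lf (nat_lit 0) (nat_lit 9170277917) (nat_lit 304) (nat_lit 4359360448) (nat_lit 76) (nat_lit 1296349089) (nat_lit 63) (nat_lit 5) (nat_lit 67) (nat_lit 5) (nat_lit 64) (nat_lit 5) (nat_lit 489) (nat_lit 369) (nat_lit 282))))))))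
noncomputable def xc68 : XT := (XT.nd (nat_lit 52650) (nat_lit 0) (nat_lit 23408) (XT.nd (nat_lit 780) (nat_lit 608) (nat_lit 0) (XT.nd (nat_lit 390) (nat_lit 760) (nat_lit 0) (XT.nd (nat_lit 156) (nat_lit 456) (nat_lit 0) (XT.nd (nat_lit 78) (nat_lit 76) (nat_lit 0) (XT.lf (nat_lit 0) (nat_lit 3880589975) (nat_lit 228) (nat_lit 9202522938) (nat_lit 304) (nat_lit 1939015977) (nat_lit 60) (nat_lit 5) (nat_lit 63) (nat_lit 5) (nat_lit 64) (nat_lit 5) (nat_lit 490) (nat_lit 369) (nat_lit 281)) (XT.lf (nat_lit 0) (nat_lit 1831289157) (nat_lit 304) (nat_lit 2932571423) (nat_lit 76) (nat_lit 10458026259) (nat_lit 59) (nat_lit 5) (nat_lit 63) (nat_lit 5) (nat_lit 60) (nat_lit 5) (nat_lit 491) (nat_lit 369) (nat_lit 280))) (XT.nd (nat_lit 78) (nat_lit 228) (nat_lit 0) (XT.lf (nat_lit 0) (nat_lit 5456973234) (nat_lit 228) (nat_lit 204145581) (nat_lit 304) (nat_lit 9764068568) (nat_lit 56) (nat_lit 5) (nat_lit 59) (nat_lit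 5) (nat_lit 60) (nat_lit 5) (nat_lit 492) (nat_lit 369) (nat_lit 279)) (XT.nd (nat_lit 78) (nat_lit 228) (nat_lit 0) (XT.lf (nat_lit 0) (nat_lit 9590967843) (nat_lit 304) (nat_lit 1649551695) (nat_lit 76) (nat_lit 4391571249) (nat_lit 56) (nat_lit 5) (nat_lit 60) (nat_lit 5) (nat_lit 57) (nat_lit 5) (nat_lit 493) (nat_lit 369) (nat_lit 278)) (XT.lf (nat_lit 0) (nat_lit 6882783111) (nat_lit 228) (nat_lit 6737907558) (nat_lit 304) (nat_lit 2222021254) (nat_lit 53) (nat_lit 5) (nat_lit 56) (nat_lit 5) (nat_lit 57) (nat_lit 5) (nat_lit 494) (nat_lit 369) (nat_lit 277))))) (XT.nd (nat_lit 156) (nat_lit 456) (nat_lit 0) (XT.nd (nat_lit 78) (nat_lit 228) (nat_lit 0) (XT.lf (nat_lit 0) (nat_lit 1637944169) (nat_lit 304) (nat_lit 501815408) (nat_lit 76) (nat_lit 13917845008) (nat_lit 52) (nat_lit 5) (nat_lit 56) (nat_lit 5) (nat_lit 53) (nat_lit 5) (nat_lit 495) (nat_lit 369) (nat_lit 276)) (XT.lf (nat_lit 0) (nat_lit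 5591146201) (nat_lit 304) (nat_lit 8115698965) (nat_lit 76) (nat_lit 2568745281) (nat_lit 49) (nat_lit 5) (nat_lit 53) (nat_lit 5) (nat_lit 50) (nat_lit 5) (nat_lit 496) (nat_lit 369) (nat_lit 275))) (XT.nd (nat_lit 78) (nat_lit 304) (nat_lit 0) (XT.lf (nat_lit 0) (nat_lit 454565881) (nat_lit 152) (nat_lit 9165233353) (nat_lit 228) (nat_lit 6878213857) (nat_lit 47) (nat_lit 5) (nat_lit 49) (nat_lit 5) (nat_lit 50) (nat_lit 5) (nat_lit 497) (nat_lit 369) (nat_lit 274)) (XT.nd (nat_lit 78) (nat_lit 304) (nat_lit 0) (XT.lf (nat_lit 0) (nat_lit 9265546982) (nat_lit 152) (nat_lit 4494023021) (nat_lit 228) (nat_lit 2964708000) (nat_lit 47) (nat_lit 5) (nat_lit 49) (nat_lit 5) (nat_lit 50) (nat_lit 5) (nat_lit 498) (nat_lit 369) (nat_lit 273)) (XT.lf (nat_lit 0) (nat_lit 999967637) (nat_lit 304) (nat_lit 15689580975) (nat_lit 76) (nat_lit 265663365) (nat_lit 43) (nat_lit 5) (nat_lit 47) (nat_lit 5) (nat_lit 44) (nat_lit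 5) (nat_lit 499) (nat_lit 369) (nat_lit 272)))))) (XT.nd (nat_lit 390) (nat_lit 152) (nat_lit 0) (XT.nd (nat_lit 156) (nat_lit 304) (nat_lit 0) (XT.nd (nat_lit 78) (nat_lit 152) (nat_lit 0) (XT.lf (nat_lit 0) (nat_lit 5060910847) (nat_lit 304) (nat_lit 7014225436) (nat_lit 76) (nat_lit 5114107421) (nat_lit 43) (nat_lit 5) (nat_lit 47) (nat_lit 5) (nat_lit 44) (nat_lit 5) (nat_lit 500) (nat_lit 369) (nat_lit 271)) (XT.lf (nat_lit 0) (nat_lit 1818963704) (nat_lit 152) (nat_lit 7372869300) (nat_lit 228) (nat_lit 8236352210) (nat_lit 41) (nat_lit 5) (nat_lit 43) (nat_lit 5) (nat_lit 44) (nat_lit 5) (nat_lit 501) (nat_lit 369) (nat_lit 270))) (XT.nd (nat_lit 78) (nat_lit 304) (nat_lit 0) (XT.lf (nat_lit 0) (nat_lit 10884626817) (nat_lit 152) (nat_lit 2544963092) (nat_lit 228) (nat_lit 4241835586) (nat_lit 41) (nat_lit 5) (nat_lit 43) (nat_lit 5) (nat_lit 44) (nat_lit 5) (nat_lit 502) (nat_lit 369) (nat_lit 269))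 (XT.nd (nat_lit 78) (nat_lit 76) (nat_lit 0) (XT.lf (nat_lit 0) (nat_lit 2186451745) (nat_lit 228) (nat_lit 15572786158) (nat_lit 304) (nat_lit 160154141) (nat_lit 38) (nat_lit 5) (nat_lit 41) (nat_lit 5) (nat_lit 42) (nat_lit 5) (nat_lit 503) (nat_lit 369) (nat_lit 268)) (XT.lf (nat_lit 0) (nat_lit 3990887116) (nat_lit 304) (nat_lit 6822284228) (nat_lit 76) (nat_lit 7357826210) (nat_lit 37) (nat_lit 5) (nat_lit 41) (nat_lit 5) (nat_lit 38) (nat_lit 5) (nat_lit 504) (nat_lit 369) (nat_lit 267))))) (XT.nd (nat_lit 51246) (nat_lit 0) (nat_lit 41876) (XT.nd (nat_lit 51168) (nat_lit 0) (nat_lit 43700) (XT.lf (nat_lit 0) (nat_lit 2256993516) (nat_lit 152) (nat_lit 5958437418) (nat_lit 228) (nat_lit 10212334485) (nat_lit 35) (nat_lit 5) (nat_lit 37) (nat_lit 5) (nat_lit 38) (nat_lit 5) (nat_lit 505) (nat_lit 369) (nat_lit 266)) (XT.lf (nat_lit 0) (nat_lit 1469177812) (nat_lit 836) (nat_lit 381430727) (nat_lit 0) (nat_lit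 1469177812) (nat_lit 610) (nat_lit 5) (nat_lit 621) (nat_lit 4) (nat_lit 610) (nat_lit 4) (nat_lit 400) (nat_lit 370) (nat_lit 370))) (XT.nd (nat_lit 78) (nat_lit 988) (nat_lit 0) (XT.lf (nat_lit 0) (nat_lit 3313658765) (nat_lit 836) (nat_lit 2791331274) (nat_lit 836) (nat_lit 555128010) (nat_lit 599) (nat_lit 4) (nat_lit 610) (nat_lit 5) (nat_lit 610) (nat_lit 4) (nat_lit 401) (nat_lit 370) (nat_lit 369)) (XT.nd (nat_lit 78) (nat_lit 0) (nat_lit 0) (XT.lf (nat_lit 0) (nat_lit 739062466) (nat_lit 912) (nat_lit 1819166183) (nat_lit 988) (nat_lit 4123775098) (nat_lit 586) (nat_lit 5) (nat_lit 598) (nat_lit 5) (nat_lit 599) (nat_lit 4) (nat_lit 402) (nat_lit 370) (nat_lit 368)) (XT.lf (nat_lit 0) (nat_lit 4893845711) (nat_lit 912) (nat_lit 785250270) (nat_lit 988) (nat_lit 1026160236) (nat_lit 586) (nat_lit 5) (nat_lit 598) (nat_lit 5) (nat_lit 599) (nat_lit 4) (nat_lit 403) (nat_lit 370) (nat_lit 367))))))) (XT.nd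 (nat_lit 780) (nat_lit 9576) (nat_lit 0) (XT.nd (nat_lit 390) (nat_lit 5472) (nat_lit 0) (XT.nd (nat_lit 156) (nat_lit 2356) (nat_lit 0) (XT.nd (nat_lit 78) (nat_lit 0) (nat_lit 0) (XT.lf (nat_lit 0) (nat_lit 2053925353) (nat_lit 1064) (nat_lit 4365926131) (nat_lit 76) (nat_lit 309929059) (nat_lit 572) (nat_lit 5) (nat_lit 586) (nat_lit 5) (nat_lit 573) (nat_lit 4) (nat_lit 404) (nat_lit 370) (nat_lit 366)) (XT.lf (nat_lit 0) (nat_lit 5131515120) (nat_lit 1064) (nat_lit 174592994) (nat_lit 76) (nat_lit 1449611480) (nat_lit 572) (nat_lit 5) (nat_lit 586) (nat_lit 5) (nat_lit 573) (nat_lit 4) (nat_lit 405) (nat_lit 370) (nat_lit 365))) (XT.nd (nat_lit 78) (nat_lit 1216) (nat_lit 0) (XT.lf (nat_lit 0) (nat_lit 1428787440) (nat_lit 1140) (nat_lit 2692145132) (nat_lit 76) (nat_lit 2661905678) (nat_lit 557) (nat_lit 5) (nat_lit 572) (nat_lit 5) (nat_lit 558) (nat_lit 5) (nat_lit 406) (nat_lit 370) (nat_lit 364)) (XT.nd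 (nat_lit 78) (nat_lit 76) (nat_lit 0) (XT.lf (nat_lit 0) (nat_lit 1588613715) (nat_lit 1140) (nat_lit 2877985323) (nat_lit 1216) (nat_lit 2344825070) (nat_lit 542) (nat_lit 5) (nat_lit 557) (nat_lit 5) (nat_lit 558) (nat_lit 5) (nat_lit 407) (nat_lit 370) (nat_lit 363)) (XT.lf (nat_lit 0) (nat_lit 667724253) (nat_lit 1216) (nat_lit 908756329) (nat_lit 76) (nat_lit 5265001947) (nat_lit 541) (nat_lit 5) (nat_lit 557) (nat_lit 5) (nat_lit 542) (nat_lit 5) (nat_lit 408) (nat_lit 370) (nat_lit 362))))) (XT.nd (nat_lit 156) (nat_lit 2964) (nat_lit 0) (XT.nd (nat_lit 78) (nat_lit 1292) (nat_lit 0) (XT.lf (nat_lit 0) (nat_lit 3467415851) (nat_lit 1216) (nat_lit 199995561) (nat_lit 1292) (nat_lit 3205301882) (nat_lit 525) (nat_lit 5) (nat_lit 541) (nat_lit 5) (nat_lit 542) (nat_lit 5) (nat_lit 409) (nat_lit 370) (nat_lit 361)) (XT.lf (nat_lit 0) (nat_lit 988966729) (nat_lit 1292) (nat_lit 5695217705) (nat_lit 1368) (nat_lit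 221288321) (nat_lit 508) (nat_lit 5) (nat_lit 525) (nat_lit 5) (nat_lit 526) (nat_lit 5) (nat_lit 410) (nat_lit 370) (nat_lit 360))) (XT.nd (nat_lit 78) (nat_lit 2888) (nat_lit 0) (XT.lf (nat_lit 0) (nat_lit 2746859106) (nat_lit 1368) (nat_lit 1496601279) (nat_lit 76) (nat_lit 2695875263) (nat_lit 507) (nat_lit 5) (nat_lit 525) (nat_lit 5) (nat_lit 508) (nat_lit 5) (nat_lit 411) (nat_lit 370) (nat_lit 359)) (XT.nd (nat_lit 78) (nat_lit 1520) (nat_lit 0) (XT.lf (nat_lit 0) (nat_lit 2994960569) (nat_lit 1368) (nat_lit 2734269202) (nat_lit 1444) (nat_lit 1245503582) (nat_lit 489) (nat_lit 5) (nat_lit 507) (nat_lit 5) (nat_lit 508) (nat_lit 5) (nat_lit 412) (nat_lit 370) (nat_lit 358)) (XT.lf (nat_lit 0) (nat_lit 526358241) (nat_lit 1444) (nat_lit 1163276919) (nat_lit 1520) (nat_lit 5321970562) (nat_lit 469) (nat_lit 5) (nat_lit 488) (nat_lit 5) (nat_lit 489) (nat_lit 5) (nat_lit 413) (nat_lit 370) (nat_lit 357))))))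 (XT.nd (nat_lit 390) (nat_lit 4636) (nat_lit 0) (XT.nd (nat_lit 156) (nat_lit 3344) (nat_lit 0) (XT.nd (nat_lit 78) (nat_lit 1596) (nat_lit 0) (XT.lf (nat_lit 0) (nat_lit 4636218845) (nat_lit 1520) (nat_lit 1939372980) (nat_lit 76) (nat_lit 474111449) (nat_lit 469) (nat_lit 5) (nat_lit 489) (nat_lit 5) (nat_lit 470) (nat_lit 5) (nat_lit 414) (nat_lit 370) (nat_lit 356)) (XT.lf (nat_lit 0) (nat_lit 511541857) (nat_lit 1596) (nat_lit 4422795941) (nat_lit 76) (nat_lit 2154879834) (nat_lit 448) (nat_lit 5) (nat_lit 469) (nat_lit 5) (nat_lit 449) (nat_lit 5) (nat_lit 415) (nat_lit 370) (nat_lit 355))) (XT.nd (nat_lit 78) (nat_lit 1748) (nat_lit 0) (XT.lf (nat_lit 0) (nat_lit 192479060) (nat_lit 1596) (nat_lit 3225886549) (nat_lit 1672) (nat_lit 3711763762) (nat_lit 427) (nat_lit 5) (nat_lit 448) (nat_lit 5) (nat_lit 449) (nat_lit 5) (nat_lit 416) (nat_lit 370) (nat_lit 354)) (XT.nd (nat_lit 78) (nat_lit 1748) (nat_lit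 0) (XT.lf (nat_lit 0) (nat_lit 4905040988) (nat_lit 1596) (nat_lit 1449992710) (nat_lit 1672) (nat_lit 817429165) (nat_lit 427) (nat_lit 5) (nat_lit 448) (nat_lit 5) (nat_lit 449) (nat_lit 5) (nat_lit 417) (nat_lit 370) (nat_lit 353)) (XT.lf (nat_lit 0) (nat_lit 2068078560) (nat_lit 1748) (nat_lit 4758865193) (nat_lit 76) (nat_lit 389232579) (nat_lit 404) (nat_lit 5) (nat_lit 427) (nat_lit 5) (nat_lit 405) (nat_lit 5) (nat_lit 418) (nat_lit 370) (nat_lit 352))))) (XT.nd (nat_lit 234) (nat_lit 1824) (nat_lit 0) (XT.nd (nat_lit 78) (nat_lit 2812) (nat_lit 0) (XT.lf (nat_lit 0) (nat_lit 4968816381) (nat_lit 1748) (nat_lit 23811327) (nat_lit 76) (nat_lit 2268694491) (nat_lit 404) (nat_lit 5) (nat_lit 427) (nat_lit 5) (nat_lit 405) (nat_lit 5) (nat_lit 419) (nat_lit 370) (nat_lit 351)) (XT.nd (nat_lit 78) (nat_lit 988) (nat_lit 0) (XT.lf (nat_lit 0) (nat_lit 587773316) (nat_lit 1824) (nat_lit 2497086467) (nat_lit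 76) (nat_lit 4222950602) (nat_lit 380) (nat_lit 5) (nat_lit 404) (nat_lit 5) (nat_lit 381) (nat_lit 5) (nat_lit 420) (nat_lit 370) (nat_lit 350)) (XT.lf (nat_lit 0) (nat_lit 2347829241) (nat_lit 988) (nat_lit 1107547608) (nat_lit 1064) (nat_lit 3900373559) (nat_lit 367) (nat_lit 5) (nat_lit 380) (nat_lit 5) (nat_lit 381) (nat_lit 5) (nat_lit 421) (nat_lit 370) (nat_lit 349)))) (XT.nd (nat_lit 78) (nat_lit 1824) (nat_lit 0) (XT.lf (nat_lit 0) (nat_lit 6348810321) (nat_lit 1064) (nat_lit 142421050) (nat_lit 76) (nat_lit 914081100) (nat_lit 367) (nat_lit 5) (nat_lit 381) (nat_lit 5) (nat_lit 368) (nat_lit 5) (nat_lit 422) (nat_lit 370) (nat_lit 348)) (XT.nd (nat_lit 78) (nat_lit 836) (nat_lit 0) (XT.lf (nat_lit 0) (nat_lit 1805342650) (nat_lit 988) (nat_lit 2646268043) (nat_lit 76) (nat_lit 3004341452) (nat_lit 354) (nat_lit 5) (nat_lit 367) (nat_lit 5) (nat_lit 355) (nat_lit 5) (nat_lit 423) (nat_lit 370) (nat_lit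 347)) (XT.lf (nat_lit 0) (nat_lit 2323780387) (nat_lit 836) (nat_lit 2349644244) (nat_lit 912) (nat_lit 2834808280) (nat_lit 343) (nat_lit 5) (nat_lit 354) (nat_lit 5) (nat_lit 355) (nat_lit 5) (nat_lit 424) (nat_lit 370) (nat_lit 346))))))))
noncomputable def xc69 : XT := (XT.nd (nat_lit 1638) (nat_lit 6536) (nat_lit 0) (XT.nd (nat_lit 780) (nat_lit 5244) (nat_lit 0) (XT.nd (nat_lit 390) (nat_lit 2356) (nat_lit 0) (XT.nd (nat_lit 156) (nat_lit 1596) (nat_lit 0) (XT.nd (nat_lit 78) (nat_lit 836) (nat_lit 0) (XT.lf (nat_lit 0) (nat_lit 2086999) (nat_lit 912) (nat_lit 187700972) (nat_lit 76) (nat_lit 7372490835) (nat_lit 342) (nat_lit 5) (nat_lit 354) (nat_lit 5) (nat_lit 343) (nat_lit 5) (nat_lit 425) (nat_lit 370) (nat_lit 345)) (XT.lf (nat_lit 0) (nat_lit 2851426932) (nat_lit 912) (nat_lit 2730518075) (nat_lit 76) (nat_lit 2035241676) (nat_lit 331) (nat_lit 5) (nat_lit 343) (nat_lit 5) (nat_lit 332) (nat_lit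 5) (nat_lit 426) (nat_lit 370) (nat_lit 344))) (XT.nd (nat_lit 78) (nat_lit 836) (nat_lit 0) (XT.lf (nat_lit 0) (nat_lit 2366852476) (nat_lit 760) (nat_lit 3357859872) (nat_lit 836) (nat_lit 1949169748) (nat_lit 321) (nat_lit 5) (nat_lit 331) (nat_lit 5) (nat_lit 332) (nat_lit 5) (nat_lit 427) (nat_lit 370) (nat_lit 343)) (XT.nd (nat_lit 78) (nat_lit 760) (nat_lit 0) (XT.lf (nat_lit 0) (nat_lit 879432566) (nat_lit 836) (nat_lit 189446812) (nat_lit 76) (nat_lit 6663383615) (nat_lit 320) (nat_lit 5) (nat_lit 331) (nat_lit 5) (nat_lit 321) (nat_lit 5) (nat_lit 428) (nat_lit 370) (nat_lit 342)) (XT.lf (nat_lit 0) (nat_lit 3730022676) (nat_lit 836) (nat_lit 2770955264) (nat_lit 76) (nat_lit 1290772491) (nat_lit 310) (nat_lit 5) (nat_lit 321) (nat_lit 5) (nat_lit 311) (nat_lit 5) (nat_lit 429) (nat_lit 370) (nat_lit 341))))) (XT.nd (nat_lit 156) (nat_lit 1520) (nat_lit 0) (XT.nd (nat_lit 78) (nat_lit 76) (nat_lit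 0) (XT.lf (nat_lit 0) (nat_lit 2455824062) (nat_lit 760) (nat_lit 4157042283) (nat_lit 836) (nat_lit 1240082815) (nat_lit 300) (nat_lit 5) (nat_lit 310) (nat_lit 5) (nat_lit 311) (nat_lit 5) (nat_lit 430) (nat_lit 370) (nat_lit 340)) (XT.lf (nat_lit 0) (nat_lit 1586431422) (nat_lit 836) (nat_lit 156077241) (nat_lit 76) (nat_lit 6173277474) (nat_lit 299) (nat_lit 5) (nat_lit 310) (nat_lit 5) (nat_lit 300) (nat_lit 5) (nat_lit 431) (nat_lit 370) (nat_lit 339))) (XT.nd (nat_lit 78) (nat_lit 760) (nat_lit 0) (XT.lf (nat_lit 0) (nat_lit 4443694312) (nat_lit 836) (nat_lit 2789155221) (nat_lit 76) (nat_lit 747074776) (nat_lit 289) (nat_lit 5) (nat_lit 300) (nat_lit 5) (nat_lit 290) (nat_lit 5) (nat_lit 432) (nat_lit 370) (nat_lit 338)) (XT.nd (nat_lit 78) (nat_lit 76) (nat_lit 0) (XT.lf (nat_lit 0) (nat_lit 2568975786) (nat_lit 684) (nat_lit 4771107421) (nat_lit 760) (nat_lit 705646791) (nat_lit 280) (nat_lit 5) (nat_lit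 289) (nat_lit 5) (nat_lit 290) (nat_lit 5) (nat_lit 433) (nat_lit 370) (nat_lit 337)) (XT.lf (nat_lit 0) (nat_lit 2124727236) (nat_lit 760) (nat_lit 109492158) (nat_lit 76) (nat_lit 5878936736) (nat_lit 279) (nat_lit 5) (nat_lit 289) (nat_lit 5) (nat_lit 280) (nat_lit 5) (nat_lit 434) (nat_lit 370) (nat_lit 336)))))) (XT.nd (nat_lit 390) (nat_lit 2508) (nat_lit 0) (XT.nd (nat_lit 156) (nat_lit 1368) (nat_lit 0) (XT.nd (nat_lit 78) (nat_lit 684) (nat_lit 0) (XT.lf (nat_lit 0) (nat_lit 4993561352) (nat_lit 760) (nat_lit 2807355783) (nat_lit 76) (nat_lit 381117302) (nat_lit 270) (nat_lit 5) (nat_lit 280) (nat_lit 5) (nat_lit 271) (nat_lit 5) (nat_lit 435) (nat_lit 370) (nat_lit 335)) (XT.lf (nat_lit 0) (nat_lit 2683881038) (nat_lit 684) (nat_lit 5223232099) (nat_lit 760) (nat_lit 345452867) (nat_lit 261) (nat_lit 5) (nat_lit 270) (nat_lit 5) (nat_lit 271) (nat_lit 5) (nat_lit 436) (nat_lit 370) (nat_lit 334)))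 (XT.nd (nat_lit 78) (nat_lit 1292) (nat_lit 0) (XT.lf (nat_lit 0) (nat_lit 2494493503) (nat_lit 760) (nat_lit 72371130) (nat_lit 76) (nat_lit 5757862157) (nat_lit 260) (nat_lit 5) (nat_lit 270) (nat_lit 5) (nat_lit 261) (nat_lit 5) (nat_lit 437) (nat_lit 370) (nat_lit 333)) (XT.nd (nat_lit 78) (nat_lit 608) (nat_lit 0) (XT.lf (nat_lit 0) (nat_lit 5379273605) (nat_lit 760) (nat_lit 2848672518) (nat_lit 76) (nat_lit 170507005) (nat_lit 251) (nat_lit 5) (nat_lit 261) (nat_lit 5) (nat_lit 252) (nat_lit 5) (nat_lit 438) (nat_lit 370) (nat_lit 332)) (XT.lf (nat_lit 0) (nat_lit 2777185897) (nat_lit 608) (nat_lit 5536045363) (nat_lit 684) (nat_lit 160613891) (nat_lit 243) (nat_lit 5) (nat_lit 251) (nat_lit 5) (nat_lit 252) (nat_lit 5) (nat_lit 439) (nat_lit 370) (nat_lit 331))))) (XT.nd (nat_lit 234) (nat_lit 1216) (nat_lit 0) (XT.nd (nat_lit 78) (nat_lit 1216) (nat_lit 0) (XT.lf (nat_lit 0) (nat_lit 2694401633) (nat_lit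 684) (nat_lit 68396135) (nat_lit 76) (nat_lit 5788101226) (nat_lit 242) (nat_lit 5) (nat_lit 251) (nat_lit 5) (nat_lit 243) (nat_lit 5) (nat_lit 440) (nat_lit 370) (nat_lit 330)) (XT.nd (nat_lit 78) (nat_lit 608) (nat_lit 0) (XT.lf (nat_lit 0) (nat_lit 5598973995) (nat_lit 684) (nat_lit 2937326348) (nat_lit 76) (nat_lit 93299794) (nat_lit 234) (nat_lit 5) (nat_lit 243) (nat_lit 5) (nat_lit 235) (nat_lit 5) (nat_lit 441) (nat_lit 370) (nat_lit 329)) (XT.lf (nat_lit 0) (nat_lit 2824376376) (nat_lit 608) (nat_lit 5731819995) (nat_lit 684) (nat_lit 153806974) (nat_lit 226) (nat_lit 5) (nat_lit 234) (nat_lit 5) (nat_lit 235) (nat_lit 5) (nat_lit 442) (nat_lit 370) (nat_lit 328)))) (XT.nd (nat_lit 78) (nat_lit 1140) (nat_lit 0) (XT.lf (nat_lit 0) (nat_lit 2721576276) (nat_lit 684) (nat_lit 122487647) (nat_lit 76) (nat_lit 5948058197) (nat_lit 225) (nat_lit 5) (nat_lit 234) (nat_lit 5) (nat_lit 226) (nat_lit 5) (nat_lit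 443) (nat_lit 370) (nat_lit 327)) (XT.nd (nat_lit 78) (nat_lit 532) (nat_lit 0) (XT.lf (nat_lit 0) (nat_lit 5649248440) (nat_lit 684) (nat_lit 3098885399) (nat_lit 76) (nat_lit 127810391) (nat_lit 217) (nat_lit 5) (nat_lit 226) (nat_lit 5) (nat_lit 218) (nat_lit 5) (nat_lit 444) (nat_lit 370) (nat_lit 326)) (XT.lf (nat_lit 0) (nat_lit 2799530819) (nat_lit 532) (nat_lit 5832665718) (nat_lit 608) (nat_lit 329329545) (nat_lit 210) (nat_lit 5) (nat_lit 217) (nat_lit 5) (nat_lit 218) (nat_lit 5) (nat_lit 445) (nat_lit 370) (nat_lit 325))))))) (XT.nd (nat_lit 780) (nat_lit 3192) (nat_lit 0) (XT.nd (nat_lit 390) (nat_lit 1596) (nat_lit 0) (XT.nd (nat_lit 156) (nat_lit 1140) (nat_lit 0) (XT.nd (nat_lit 78) (nat_lit 532) (nat_lit 0) (XT.lf (nat_lit 0) (nat_lit 2571537280) (nat_lit 608) (nat_lit 261056208) (nat_lit 76) (nat_lit 6216302284) (nat_lit 209) (nat_lit 5) (nat_lit 217) (nat_lit 5) (nat_lit 210) (nat_lit 5) (nat_lit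 446) (nat_lit 370) (nat_lit 324)) (XT.lf (nat_lit 0) (nat_lit 5525062113) (nat_lit 608) (nat_lit 3360523303) (nat_lit 76) (nat_lit 252419621) (nat_lit 202) (nat_lit 5) (nat_lit 210) (nat_lit 5) (nat_lit 203) (nat_lit 5) (nat_lit 447) (nat_lit 370) (nat_lit 323))) (XT.nd (nat_lit 78) (nat_lit 608) (nat_lit 0) (XT.lf (nat_lit 0) (nat_lit 2675055150) (nat_lit 532) (nat_lit 5860725709) (nat_lit 608) (nat_lit 693169559) (nat_lit 195) (nat_lit 5) (nat_lit 202) (nat_lit 5) (nat_lit 203) (nat_lit 5) (nat_lit 448) (nat_lit 370) (nat_lit 322)) (XT.nd (nat_lit 78) (nat_lit 532) (nat_lit 0) (XT.lf (nat_lit 0) (nat_lit 2238127537) (nat_lit 608) (nat_lit 512271858) (nat_lit 76) (nat_lit 6571372431) (nat_lit 194) (nat_lit 5) (nat_lit 202) (nat_lit 5) (nat_lit 195) (nat_lit 5) (nat_lit 449) (nat_lit 370) (nat_lit 321)) (XT.lf (nat_lit 0) (nat_lit 5219681313) (nat_lit 608) (nat_lit 3751296373) (nat_lit 76) (nat_lit 445377547)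 (nat_lit 187) (nat_lit 5) (nat_lit 195) (nat_lit 5) (nat_lit 188) (nat_lit 5) (nat_lit 450) (nat_lit 370) (nat_lit 320))))) (XT.nd (nat_lit 156) (nat_lit 1064) (nat_lit 0) (XT.nd (nat_lit 78) (nat_lit 76) (nat_lit 0) (XT.lf (nat_lit 0) (nat_lit 2421398484) (nat_lit 456) (nat_lit 5838378062) (nat_lit 532) (nat_lit 1253090704) (nat_lit 181) (nat_lit 5) (nat_lit 187) (nat_lit 5) (nat_lit 188) (nat_lit 5) (nat_lit 451) (nat_lit 370) (nat_lit 319)) (XT.lf (nat_lit 0) (nat_lit 1713425858) (nat_lit 532) (nat_lit 906353947) (nat_lit 76) (nat_lit 6991577006) (nat_lit 180) (nat_lit 5) (nat_lit 187) (nat_lit 5) (nat_lit 181) (nat_lit 5) (nat_lit 452) (nat_lit 370) (nat_lit 318))) (XT.nd (nat_lit 78) (nat_lit 532) (nat_lit 0) (XT.lf (nat_lit 0) (nat_lit 4724580015) (nat_lit 608) (nat_lit 4302442269) (nat_lit 76) (nat_lit 684600775) (nat_lit 173) (nat_lit 5) (nat_lit 181) (nat_lit 5) (nat_lit 174) (nat_lit 5) (nat_lit 453)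 (nat_lit 370) (nat_lit 317)) (XT.nd (nat_lit 78) (nat_lit 76) (nat_lit 0) (XT.lf (nat_lit 0) (nat_lit 2006746412) (nat_lit 456) (nat_lit 5788443944) (nat_lit 532) (nat_lit 2018733610) (nat_lit 167) (nat_lit 5) (nat_lit 173) (nat_lit 5) (nat_lit 174) (nat_lit 5) (nat_lit 454) (nat_lit 370) (nat_lit 316)) (XT.lf (nat_lit 0) (nat_lit 987643881) (nat_lit 532) (nat_lit 1475884087) (nat_lit 76) (nat_lit 7454786676) (nat_lit 166) (nat_lit 5) (nat_lit 173) (nat_lit 5) (nat_lit 167) (nat_lit 5) (nat_lit 455) (nat_lit 370) (nat_lit 315)))))) (XT.nd (nat_lit 390) (nat_lit 1368) (nat_lit 0) (XT.nd (nat_lit 156) (nat_lit 912) (nat_lit 0) (XT.nd (nat_lit 78) (nat_lit 456) (nat_lit 0) (XT.lf (nat_lit 0) (nat_lit 4029330048) (nat_lit 532) (nat_lit 5047703009) (nat_lit 76) (nat_lit 947462152) (nat_lit 160) (nat_lit 5) (nat_lit 167) (nat_lit 5) (nat_lit 161) (nat_lit 5) (nat_lit 456) (nat_lit 370) (nat_lit 314)) (XT.lf (nat_lit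 0) (nat_lit 1396689027) (nat_lit 456) (nat_lit 5734404263) (nat_lit 532) (nat_lit 3001734158) (nat_lit 154) (nat_lit 5) (nat_lit 160) (nat_lit 5) (nat_lit 161) (nat_lit 5) (nat_lit 457) (nat_lit 370) (nat_lit 313))) (XT.nd (nat_lit 78) (nat_lit 836) (nat_lit 0) (XT.lf (nat_lit 0) (nat_lit 49005864) (nat_lit 532) (nat_lit 2256145223) (nat_lit 76) (nat_lit 7938218644) (nat_lit 153) (nat_lit 5) (nat_lit 160) (nat_lit 5) (nat_lit 154) (nat_lit 5) (nat_lit 458) (nat_lit 370) (nat_lit 312)) (XT.nd (nat_lit 78) (nat_lit 380) (nat_lit 0) (XT.lf (nat_lit 0) (nat_lit 3121473694) (nat_lit 532) (nat_lit 6023675389) (nat_lit 76) (nat_lit 1210571009) (nat_lit 147) (nat_lit 5) (nat_lit 154) (nat_lit 5) (nat_lit 148) (nat_lit 5) (nat_lit 459) (nat_lit 370) (nat_lit 311)) (XT.lf (nat_lit 0) (nat_lit 553860506) (nat_lit 380) (nat_lit 5700626764) (nat_lit 456) (nat_lit 4215860206) (nat_lit 142) (nat_lit 5) (nat_lit 147) (nat_lit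 5) (nat_lit 148) (nat_lit 5) (nat_lit 460) (nat_lit 370) (nat_lit 310))))) (XT.nd (nat_lit 234) (nat_lit 836) (nat_lit 0) (XT.nd (nat_lit 78) (nat_lit 532) (nat_lit 0) (XT.lf (nat_lit 0) (nat_lit 7294328826) (nat_lit 380) (nat_lit 2161608594) (nat_lit 456) (nat_lit 1131226176) (nat_lit 142) (nat_lit 5) (nat_lit 147) (nat_lit 5) (nat_lit 148) (nat_lit 5) (nat_lit 461) (nat_lit 370) (nat_lit 309)) (XT.nd (nat_lit 78) (nat_lit 0) (nat_lit 0) (XT.lf (nat_lit 0) (nat_lit 1986377333) (nat_lit 532) (nat_lit 7270192224) (nat_lit 76) (nat_lit 1449541966) (nat_lit 135) (nat_lit 5) (nat_lit 142) (nat_lit 5) (nat_lit 136) (nat_lit 5) (nat_lit 462) (nat_lit 370) (nat_lit 308)) (XT.lf (nat_lit 0) (nat_lit 5153804209) (nat_lit 532) (nat_lit 555076552) (nat_lit 76) (nat_lit 5118366767) (nat_lit 135) (nat_lit 5) (nat_lit 142) (nat_lit 5) (nat_lit 136) (nat_lit 5) (nat_lit 463) (nat_lit 370) (nat_lit 307)))) (XT.nd (nat_lit 78)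 (nat_lit 456) (nat_lit 0) (XT.lf (nat_lit 0) (nat_lit 6328308354) (nat_lit 380) (nat_lit 2064070586) (nat_lit 456) (nat_lit 2558282146) (nat_lit 130) (nat_lit 5) (nat_lit 135) (nat_lit 5) (nat_lit 136) (nat_lit 5) (nat_lit 464) (nat_lit 370) (nat_lit 306)) (XT.nd (nat_lit 78) (nat_lit 0) (nat_lit 0) (XT.lf (nat_lit 0) (nat_lit 607064575) (nat_lit 456) (nat_lit 8830738068) (nat_lit 76) (nat_lit 1638750209) (nat_lit 124) (nat_lit 5) (nat_lit 130) (nat_lit 5) (nat_lit 125) (nat_lit 5) (nat_lit 465) (nat_lit 370) (nat_lit 305)) (XT.lf (nat_lit 0) (nat_lit 3813437276) (nat_lit 456) (nat_lit 1970554933) (nat_lit 76) (nat_lit 5420402748) (nat_lit 124) (nat_lit 5) (nat_lit 130) (nat_lit 5) (nat_lit 125) (nat_lit 5) (nat_lit 466) (nat_lit 370) (nat_lit 304))))))))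
noncomputable def xc70 : XT := (XT.nd (nat_lit 1638) (nat_lit 2280) (nat_lit 0) (XT.nd (nat_lit 780) (nat_lit 2052) (nat_lit 0) (XT.nd (nat_lit 390) (nat_lit 1140) (nat_lit 0) (XT.nd (nat_lit 156) (nat_lit 380) (nat_lit 0) (XT.nd (nat_lit 78) (nat_lit 380) (nat_lit 0) (XT.lf (nat_lit 0) (nat_lit 5044562124) (nat_lit 380) (nat_lit 2039823281) (nat_lit 456) (nat_lit 4250409534) (nat_lit 119) (nat_lit 5) (nat_lit 124) (nat_lit 5) (nat_lit 125) (nat_lit 5) (nat_lit 467) (nat_lit 370) (nat_lit 303)) (XT.lf (nat_lit 0) (nat_lit 708146198) (nat_lit 380) (nat_lit 9709978695) (nat_lit 456) (nat_lit 1049740379) (nat_lit 114) (nat_lit 5) (nat_lit 119) (nat_lit 5) (nat_lit 120) (nat_lit 5) (nat_lit 468) (nat_lit 370) (nat_lit 302))) (XT.nd (nat_lit 78) (nat_lit 304) (nat_lit 0) (XT.lf (nat_lit 0) (nat_lit 2209898997) (nat_lit 456) (nat_lit 3747934125) (nat_lit 76) (nat_lit 5645005569) (nat_lit 113) (nat_lit 5) (nat_lit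 119) (nat_lit 5) (nat_lit 114) (nat_lit 5) (nat_lit 469) (nat_lit 370) (nat_lit 301)) (XT.nd (nat_lit 78) (nat_lit 0) (nat_lit 0) (XT.lf (nat_lit 0) (nat_lit 3393830891) (nat_lit 304) (nat_lit 2117526826) (nat_lit 380) (nat_lit 6229210668) (nat_lit 109) (nat_lit 5) (nat_lit 113) (nat_lit 5) (nat_lit 114) (nat_lit 5) (nat_lit 470) (nat_lit 370) (nat_lit 300)) (XT.lf (nat_lit 0) (nat_lit 8884681189) (nat_lit 380) (nat_lit 1211188216) (nat_lit 76) (nat_lit 1785075610) (nat_lit 109) (nat_lit 5) (nat_lit 114) (nat_lit 5) (nat_lit 110) (nat_lit 5) (nat_lit 471) (nat_lit 370) (nat_lit 299))))) (XT.nd (nat_lit 156) (nat_lit 380) (nat_lit 0) (XT.nd (nat_lit 78) (nat_lit 304) (nat_lit 0) (XT.lf (nat_lit 0) (nat_lit 320514927) (nat_lit 456) (nat_lit 5940003938) (nat_lit 76) (nat_lit 5763117382) (nat_lit 103) (nat_lit 5) (nat_lit 109) (nat_lit 5) (nat_lit 104) (nat_lit 5) (nat_lit 472) (nat_lit 370) (nat_lit 298)) (XT.lf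 (nat_lit 0) (nat_lit 1322004782) (nat_lit 304) (nat_lit 2327838724) (nat_lit 380) (nat_lit 8519223538) (nat_lit 99) (nat_lit 5) (nat_lit 103) (nat_lit 5) (nat_lit 104) (nat_lit 5) (nat_lit 473) (nat_lit 370) (nat_lit 297))) (XT.nd (nat_lit 78) (nat_lit 380) (nat_lit 0) (XT.lf (nat_lit 0) (nat_lit 7066530049) (nat_lit 380) (nat_lit 3565409993) (nat_lit 76) (nat_lit 1685059352) (nat_lit 99) (nat_lit 5) (nat_lit 104) (nat_lit 5) (nat_lit 100) (nat_lit 5) (nat_lit 474) (nat_lit 370) (nat_lit 296)) (XT.nd (nat_lit 78) (nat_lit 76) (nat_lit 0) (XT.lf (nat_lit 0) (nat_lit 3850509894) (nat_lit 304) (nat_lit 6711766933) (nat_lit 380) (nat_lit 1905407233) (nat_lit 95) (nat_lit 5) (nat_lit 99) (nat_lit 5) (nat_lit 100) (nat_lit 5) (nat_lit 475) (nat_lit 370) (nat_lit 295)) (XT.lf (nat_lit 0) (nat_lit 1481271754) (nat_lit 380) (nat_lit 1214310865) (nat_lit 76) (nat_lit 9925722563) (nat_lit 94) (nat_lit 5) (nat_lit 99) (nat_lit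 5) (nat_lit 95) (nat_lit 5) (nat_lit 476) (nat_lit 370) (nat_lit 294)))))) (XT.nd (nat_lit 390) (nat_lit 1140) (nat_lit 0) (XT.nd (nat_lit 156) (nat_lit 304) (nat_lit 0) (XT.nd (nat_lit 78) (nat_lit 304) (nat_lit 0) (XT.lf (nat_lit 0) (nat_lit 4931815553) (nat_lit 380) (nat_lit 6425058974) (nat_lit 76) (nat_lit 1420447141) (nat_lit 90) (nat_lit 5) (nat_lit 95) (nat_lit 5) (nat_lit 91) (nat_lit 5) (nat_lit 477) (nat_lit 370) (nat_lit 293)) (XT.lf (nat_lit 0) (nat_lit 1101060254) (nat_lit 304) (nat_lit 7354650942) (nat_lit 380) (nat_lit 4480668042) (nat_lit 86) (nat_lit 5) (nat_lit 90) (nat_lit 5) (nat_lit 91) (nat_lit 5) (nat_lit 478) (nat_lit 370) (nat_lit 292))) (XT.nd (nat_lit 78) (nat_lit 304) (nat_lit 0) (XT.lf (nat_lit 0) (nat_lit 8819289233) (nat_lit 304) (nat_lit 3245319497) (nat_lit 380) (nat_lit 1033726177) (nat_lit 86) (nat_lit 5) (nat_lit 90) (nat_lit 5) (nat_lit 91) (nat_lit 5) (nat_lit 479) (nat_lit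 370) (nat_lit 291)) (XT.nd (nat_lit 78) (nat_lit 0) (nat_lit 0) (XT.lf (nat_lit 0) (nat_lit 2449817663) (nat_lit 304) (nat_lit 9857633587) (nat_lit 76) (nat_lit 955758922) (nat_lit 82) (nat_lit 5) (nat_lit 86) (nat_lit 5) (nat_lit 83) (nat_lit 5) (nat_lit 480) (nat_lit 370) (nat_lit 290)) (XT.lf (nat_lit 0) (nat_lit 6011531471) (nat_lit 304) (nat_lit 2202599425) (nat_lit 76) (nat_lit 5216675573) (nat_lit 82) (nat_lit 5) (nat_lit 86) (nat_lit 5) (nat_lit 83) (nat_lit 5) (nat_lit 481) (nat_lit 370) (nat_lit 289))))) (XT.nd (nat_lit 234) (nat_lit 532) (nat_lit 0) (XT.nd (nat_lit 78) (nat_lit 304) (nat_lit 0) (XT.lf (nat_lit 0) (nat_lit 5635169680) (nat_lit 304) (nat_lit 4018378263) (nat_lit 380) (nat_lit 3948032242) (nat_lit 78) (nat_lit 5) (nat_lit 82) (nat_lit 5) (nat_lit 83) (nat_lit 5) (nat_lit 482) (nat_lit 370) (nat_lit 288)) (XT.nd (nat_lit 78) (nat_lit 304) (nat_lit 0) (XT.lf (nat_lit 0) (nat_lit 13357606328)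 (nat_lit 380) (nat_lit 162141362) (nat_lit 76) (nat_lit 256244380) (nat_lit 78) (nat_lit 5) (nat_lit 83) (nat_lit 5) (nat_lit 79) (nat_lit 5) (nat_lit 483) (nat_lit 370) (nat_lit 287)) (XT.lf (nat_lit 0) (nat_lit 3191069372) (nat_lit 304) (nat_lit 6143130406) (nat_lit 76) (nat_lit 4618266783) (nat_lit 74) (nat_lit 5) (nat_lit 78) (nat_lit 5) (nat_lit 75) (nat_lit 5) (nat_lit 484) (nat_lit 370) (nat_lit 286)))) (XT.nd (nat_lit 78) (nat_lit 228) (nat_lit 0) (XT.lf (nat_lit 0) (nat_lit 1787022680) (nat_lit 304) (nat_lit 5066017933) (nat_lit 380) (nat_lit 7279662372) (nat_lit 70) (nat_lit 5) (nat_lit 74) (nat_lit 5) (nat_lit 75) (nat_lit 5) (nat_lit 485) (nat_lit 370) (nat_lit 285)) (XT.nd (nat_lit 78) (nat_lit 228) (nat_lit 0) (XT.lf (nat_lit 0) (nat_lit 9915708825) (nat_lit 304) (nat_lit 687235841) (nat_lit 380) (nat_lit 3713311818) (nat_lit 70) (nat_lit 5) (nat_lit 74) (nat_lit 5) (nat_lit 75) (nat_lit 5) (nat_lit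 486) (nat_lit 370) (nat_lit 284)) (XT.lf (nat_lit 0) (nat_lit 3684360931) (nat_lit 228) (nat_lit 10765826687) (nat_lit 304) (nat_lit 52852711) (nat_lit 67) (nat_lit 5) (nat_lit 70) (nat_lit 5) (nat_lit 71) (nat_lit 5) (nat_lit 487) (nat_lit 370) (nat_lit 283))))))) (XT.nd (nat_lit 780) (nat_lit 912) (nat_lit 0) (XT.nd (nat_lit 390) (nat_lit 532) (nat_lit 0) (XT.nd (nat_lit 156) (nat_lit 532) (nat_lit 0) (XT.nd (nat_lit 78) (nat_lit 228) (nat_lit 0) (XT.lf (nat_lit 0) (nat_lit 3640758769) (nat_lit 304) (nat_lit 2773977119) (nat_lit 76) (nat_lit 8278187498) (nat_lit 66) (nat_lit 5) (nat_lit 70) (nat_lit 5) (nat_lit 67) (nat_lit 5) (nat_lit 488) (nat_lit 370) (nat_lit 282)) (XT.lf (nat_lit 0) (nat_lit 5460749612) (nat_lit 228) (nat_lit 1956692566) (nat_lit 304) (nat_lit 7468962534) (nat_lit 63) (nat_lit 5) (nat_lit 66) (nat_lit 5) (nat_lit 67) (nat_lit 5) (nat_lit 489) (nat_lit 370) (nat_lit 281))) (XT.nd (nat_lit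 78) (nat_lit 532) (nat_lit 0) (XT.lf (nat_lit 0) (nat_lit 11279790377) (nat_lit 304) (nat_lit 1244818763) (nat_lit 76) (nat_lit 2558949530) (nat_lit 63) (nat_lit 5) (nat_lit 67) (nat_lit 5) (nat_lit 64) (nat_lit 5) (nat_lit 490) (nat_lit 370) (nat_lit 280)) (XT.nd (nat_lit 78) (nat_lit 304) (nat_lit 0) (XT.lf (nat_lit 0) (nat_lit 7138866663) (nat_lit 228) (nat_lit 8114899594) (nat_lit 304) (nat_lit 30207354) (nat_lit 60) (nat_lit 5) (nat_lit 63) (nat_lit 5) (nat_lit 64) (nat_lit 5) (nat_lit 491) (nat_lit 370) (nat_lit 279)) (XT.lf (nat_lit 0) (nat_lit 154546907) (nat_lit 228) (nat_lit 3598730241) (nat_lit 304) (nat_lit 11734938382) (nat_lit 56) (nat_lit 5) (nat_lit 59) (nat_lit 5) (nat_lit 60) (nat_lit 5) (nat_lit 492) (nat_lit 370) (nat_lit 278))))) (XT.nd (nat_lit 156) (nat_lit 304) (nat_lit 0) (XT.nd (nat_lit 78) (nat_lit 228) (nat_lit 0) (XT.lf (nat_lit 0) (nat_lit 7648827503) (nat_lit 304) (nat_lit 7013569183)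 (nat_lit 76) (nat_lit 1033410796) (nat_lit 56) (nat_lit 5) (nat_lit 60) (nat_lit 5) (nat_lit 57) (nat_lit 5) (nat_lit 493) (nat_lit 370) (nat_lit 277)) (XT.lf (nat_lit 0) (nat_lit 1427013289) (nat_lit 228) (nat_lit 10204096153) (nat_lit 304) (nat_lit 4276270517) (nat_lit 53) (nat_lit 5) (nat_lit 56) (nat_lit 5) (nat_lit 57) (nat_lit 5) (nat_lit 494) (nat_lit 370) (nat_lit 276))) (XT.nd (nat_lit 78) (nat_lit 304) (nat_lit 0) (XT.lf (nat_lit 0) (nat_lit 10090944779) (nat_lit 228) (nat_lit 5625092647) (nat_lit 304) (nat_lit 406691449) (nat_lit 53) (nat_lit 5) (nat_lit 56) (nat_lit 5) (nat_lit 57) (nat_lit 5) (nat_lit 495) (nat_lit 370) (nat_lit 275)) (XT.nd (nat_lit 78) (nat_lit 0) (nat_lit 0) (XT.lf (nat_lit 0) (nat_lit 2556250864) (nat_lit 228) (nat_lit 930440248) (nat_lit 304) (nat_lit 12855381879) (nat_lit 49) (nat_lit 5) (nat_lit 52) (nat_lit 5) (nat_lit 53) (nat_lit 5) (nat_lit 496) (nat_lit 370) (nat_lit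 274)) (XT.lf (nat_lit 0) (nat_lit 7494643012) (nat_lit 304) (nat_lit 5235361967) (nat_lit 76) (nat_lit 3834907011) (nat_lit 49) (nat_lit 5) (nat_lit 53) (nat_lit 5) (nat_lit 50) (nat_lit 5) (nat_lit 497) (nat_lit 370) (nat_lit 273)))))) (XT.nd (nat_lit 390) (nat_lit 304) (nat_lit 0) (XT.nd (nat_lit 156) (nat_lit 456) (nat_lit 0) (XT.nd (nat_lit 78) (nat_lit 0) (nat_lit 0) (XT.lf (nat_lit 0) (nat_lit 3486290736) (nat_lit 152) (nat_lit 8102072451) (nat_lit 228) (nat_lit 5203737013) (nat_lit 47) (nat_lit 5) (nat_lit 49) (nat_lit 5) (nat_lit 50) (nat_lit 5) (nat_lit 498) (nat_lit 370) (nat_lit 272)) (XT.lf (nat_lit 0) (nat_lit 12414224135) (nat_lit 152) (nat_lit 3361878414) (nat_lit 228) (nat_lit 1247491257) (nat_lit 47) (nat_lit 5) (nat_lit 49) (nat_lit 5) (nat_lit 50) (nat_lit 5) (nat_lit 499) (nat_lit 370) (nat_lit 271))) (XT.nd (nat_lit 78) (nat_lit 152) (nat_lit 0) (XT.lf (nat_lit 0) (nat_lit 2766049043) (nat_lit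 304) (nat_lit 13008911704) (nat_lit 76) (nat_lit 1484104211) (nat_lit 43) (nat_lit 5) (nat_lit 47) (nat_lit 5) (nat_lit 44) (nat_lit 5) (nat_lit 500) (nat_lit 370) (nat_lit 270)) (XT.nd (nat_lit 78) (nat_lit 152) (nat_lit 0) (XT.lf (nat_lit 0) (nat_lit 6873974214) (nat_lit 304) (nat_lit 4218763974) (nat_lit 76) (nat_lit 6405730332) (nat_lit 43) (nat_lit 5) (nat_lit 47) (nat_lit 5) (nat_lit 44) (nat_lit 5) (nat_lit 501) (nat_lit 370) (nat_lit 269)) (XT.lf (nat_lit 0) (nat_lit 4771774831) (nat_lit 152) (nat_lit 6301109803) (nat_lit 228) (nat_lit 6669603167) (nat_lit 41) (nat_lit 5) (nat_lit 43) (nat_lit 5) (nat_lit 44) (nat_lit 5) (nat_lit 502) (nat_lit 370) (nat_lit 268))))) (XT.nd (nat_lit 51168) (nat_lit 0) (nat_lit 43548) (XT.nd (nat_lit 78) (nat_lit 304) (nat_lit 0) (XT.lf (nat_lit 0) (nat_lit 13961566268) (nat_lit 152) (nat_lit 1400551684) (nat_lit 228) (nat_lit 2629146722) (nat_lit 41) (nat_lit 5) (nat_lit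 43) (nat_lit 5) (nat_lit 44) (nat_lit 5) (nat_lit 503) (nat_lit 370) (nat_lit 267)) (XT.nd (nat_lit 78) (nat_lit 0) (nat_lit 0) (XT.lf (nat_lit 0) (nat_lit 1507589967) (nat_lit 304) (nat_lit 13157967665) (nat_lit 76) (nat_lit 3578568826) (nat_lit 37) (nat_lit 5) (nat_lit 41) (nat_lit 5) (nat_lit 38) (nat_lit 5) (nat_lit 504) (nat_lit 370) (nat_lit 266)) (XT.lf (nat_lit 0) (nat_lit 5706787930) (nat_lit 304) (nat_lit 4126797738) (nat_lit 76) (nat_lit 8667817484) (nat_lit 37) (nat_lit 5) (nat_lit 41) (nat_lit 5) (nat_lit 38) (nat_lit 5) (nat_lit 505) (nat_lit 370) (nat_lit 265)))) (XT.nd (nat_lit 78) (nat_lit 836) (nat_lit 0) (XT.lf (nat_lit 0) (nat_lit 2246979089) (nat_lit 684) (nat_lit 526989216) (nat_lit 684) (nat_lit 526989216) (nat_lit 621) (nat_lit 4) (nat_lit 630) (nat_lit 5) (nat_lit 630) (nat_lit 4) (nat_lit 398) (nat_lit 371) (nat_lit 371)) (XT.nd (nat_lit 78) (nat_lit 0) (nat_lit 0) (XT.lf (nat_lit 0)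 (nat_lit 1849434331) (nat_lit 760) (nat_lit 217882602) (nat_lit 836) (nat_lit 4553119967) (nat_lit 610) (nat_lit 5) (nat_lit 620) (nat_lit 5) (nat_lit 621) (nat_lit 4) (nat_lit 399) (nat_lit 371) (nat_lit 370)) (XT.lf (nat_lit 0) (nat_lit 5183971901) (nat_lit 836) (nat_lit 789495126) (nat_lit 0) (nat_lit 666841307) (nat_lit 610) (nat_lit 5) (nat_lit 621) (nat_lit 4) (nat_lit 610) (nat_lit 4) (nat_lit 400) (nat_lit 371) (nat_lit 369))))))))
noncomputable def xc71 : XT := (XT.nd (nat_lit 1638) (nat_lit 10792) (nat_lit 0) (XT.nd (nat_lit 780) (nat_lit 10640) (nat_lit 0) (XT.nd (nat_lit 390) (nat_lit 4864) (nat_lit 0) (XT.nd (nat_lit 156) (nat_lit 1140) (nat_lit 0) (XT.nd (nat_lit 78) (nat_lit 912) (nat_lit 0) (XT.lf (nat_lit 0) (nat_lit 1632365522) (nat_lit 912) (nat_lit 3412108379) (nat_lit 76) (nat_lit 1616893140) (nat_lit 598) (nat_lit 5) (nat_lit 610) (nat_lit 5) (nat_lit 599) (nat_lit 4) (nat_lit 401) (nat_lit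 371) (nat_lit 368)) (XT.lf (nat_lit 0) (nat_lit 642113585) (nat_lit 912) (nat_lit 4061336457) (nat_lit 988) (nat_lit 1980458155) (nat_lit 586) (nat_lit 5) (nat_lit 598) (nat_lit 5) (nat_lit 599) (nat_lit 4) (nat_lit 402) (nat_lit 371) (nat_lit 367))) (XT.nd (nat_lit 78) (nat_lit 1064) (nat_lit 0) (XT.lf (nat_lit 0) (nat_lit 1068395205) (nat_lit 988) (nat_lit 1944247280) (nat_lit 76) (nat_lit 3695081948) (nat_lit 585) (nat_lit 5) (nat_lit 598) (nat_lit 5) (nat_lit 586) (nat_lit 5) (nat_lit 403) (nat_lit 371) (nat_lit 366)) (XT.nd (nat_lit 78) (nat_lit 76) (nat_lit 0) (XT.lf (nat_lit 0) (nat_lit 2198026776) (nat_lit 988) (nat_lit 1900425598) (nat_lit 1064) (nat_lit 2634420653) (nat_lit 572) (nat_lit 5) (nat_lit 585) (nat_lit 5) (nat_lit 586) (nat_lit 5) (nat_lit 404) (nat_lit 371) (nat_lit 365)) (XT.lf (nat_lit 0) (nat_lit 371012649) (nat_lit 1064) (nat_lit 365174358) (nat_lit 76) (nat_lit 6023410901) (nat_lit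 571) (nat_lit 5) (nat_lit 585) (nat_lit 5) (nat_lit 572) (nat_lit 5) (nat_lit 405) (nat_lit 371) (nat_lit 364))))) (XT.nd (nat_lit 156) (nat_lit 2660) (nat_lit 0) (XT.nd (nat_lit 78) (nat_lit 1140) (nat_lit 0) (XT.lf (nat_lit 0) (nat_lit 3363984606) (nat_lit 1140) (nat_lit 2921965907) (nat_lit 76) (nat_lit 501354115) (nat_lit 557) (nat_lit 5) (nat_lit 572) (nat_lit 5) (nat_lit 558) (nat_lit 5) (nat_lit 406) (nat_lit 371) (nat_lit 363)) (XT.lf (nat_lit 0) (nat_lit 1328870677) (nat_lit 1140) (nat_lit 5039203531) (nat_lit 1216) (nat_lit 448514843) (nat_lit 542) (nat_lit 5) (nat_lit 557) (nat_lit 5) (nat_lit 558) (nat_lit 5) (nat_lit 407) (nat_lit 371) (nat_lit 362))) (XT.nd (nat_lit 78) (nat_lit 2584) (nat_lit 0) (XT.lf (nat_lit 0) (nat_lit 2507353112) (nat_lit 1216) (nat_lit 1212763594) (nat_lit 76) (nat_lit 3126943932) (nat_lit 541) (nat_lit 5) (nat_lit 557) (nat_lit 5) (nat_lit 542) (nat_lit 5) (nat_lit 408)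 (nat_lit 371) (nat_lit 361)) (XT.nd (nat_lit 78) (nat_lit 1368) (nat_lit 0) (XT.lf (nat_lit 0) (nat_lit 3132757540) (nat_lit 1216) (nat_lit 2340922731) (nat_lit 1292) (nat_lit 1405301066) (nat_lit 525) (nat_lit 5) (nat_lit 541) (nat_lit 5) (nat_lit 542) (nat_lit 5) (nat_lit 409) (nat_lit 371) (nat_lit 360)) (XT.lf (nat_lit 0) (nat_lit 614369752) (nat_lit 1292) (nat_lit 902219920) (nat_lit 1368) (nat_lit 5395796331) (nat_lit 507) (nat_lit 5) (nat_lit 524) (nat_lit 5) (nat_lit 525) (nat_lit 5) (nat_lit 410) (nat_lit 371) (nat_lit 359)))))) (XT.nd (nat_lit 390) (nat_lit 6156) (nat_lit 0) (XT.nd (nat_lit 156) (nat_lit 3040) (nat_lit 0) (XT.nd (nat_lit 78) (nat_lit 1444) (nat_lit 0) (XT.lf (nat_lit 0) (nat_lit 4445469777) (nat_lit 1368) (nat_lit 1900697848) (nat_lit 76) (nat_lit 600801261) (nat_lit 507) (nat_lit 5) (nat_lit 525) (nat_lit 5) (nat_lit 508) (nat_lit 5) (nat_lit 411) (nat_lit 371) (nat_lit 358)) (XT.lf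 (nat_lit 0) (nat_lit 406651998) (nat_lit 1444) (nat_lit 4427053726) (nat_lit 76) (nat_lit 2149283199) (nat_lit 488) (nat_lit 5) (nat_lit 507) (nat_lit 5) (nat_lit 489) (nat_lit 5) (nat_lit 412) (nat_lit 371) (nat_lit 357))) (XT.nd (nat_lit 78) (nat_lit 1596) (nat_lit 0) (XT.lf (nat_lit 0) (nat_lit 37865336) (nat_lit 1444) (nat_lit 3254709716) (nat_lit 1520) (nat_lit 3727802309) (nat_lit 469) (nat_lit 5) (nat_lit 488) (nat_lit 5) (nat_lit 489) (nat_lit 5) (nat_lit 413) (nat_lit 371) (nat_lit 356)) (XT.nd (nat_lit 78) (nat_lit 1596) (nat_lit 0) (XT.lf (nat_lit 0) (nat_lit 4598476053) (nat_lit 1444) (nat_lit 1608264661) (nat_lit 1520) (nat_lit 852402351) (nat_lit 469) (nat_lit 5) (nat_lit 488) (nat_lit 5) (nat_lit 489) (nat_lit 5) (nat_lit 414) (nat_lit 371) (nat_lit 355)) (XT.lf (nat_lit 0) (nat_lit 2009163382) (nat_lit 1596) (nat_lit 4987590484) (nat_lit 76) (nat_lit 102579603) (nat_lit 448) (nat_lit 5) (nat_lit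 469) (nat_lit 5) (nat_lit 449) (nat_lit 5) (nat_lit 415) (nat_lit 371) (nat_lit 354))))) (XT.nd (nat_lit 234) (nat_lit 2812) (nat_lit 0) (XT.nd (nat_lit 78) (nat_lit 3344) (nat_lit 0) (XT.lf (nat_lit 0) (nat_lit 4886215392) (nat_lit 1596) (nat_lit 401696209) (nat_lit 76) (nat_lit 1852947692) (nat_lit 448) (nat_lit 5) (nat_lit 469) (nat_lit 5) (nat_lit 449) (nat_lit 5) (nat_lit 416) (nat_lit 371) (nat_lit 353)) (XT.nd (nat_lit 78) (nat_lit 1672) (nat_lit 0) (XT.lf (nat_lit 0) (nat_lit 600300413) (nat_lit 1672) (nat_lit 2908928247) (nat_lit 76) (nat_lit 3674518996) (nat_lit 426) (nat_lit 5) (nat_lit 448) (nat_lit 5) (nat_lit 427) (nat_lit 5) (nat_lit 417) (nat_lit 371) (nat_lit 352)) (XT.lf (nat_lit 0) (nat_lit 1777617539) (nat_lit 1672) (nat_lit 1662694459) (nat_lit 1748) (nat_lit 3787756064) (nat_lit 404) (nat_lit 5) (nat_lit 426) (nat_lit 5) (nat_lit 427) (nat_lit 5) (nat_lit 418) (nat_lit 371) (nat_lit 351))))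 (XT.nd (nat_lit 78) (nat_lit 2812) (nat_lit 0) (XT.lf (nat_lit 0) (nat_lit 6302850178) (nat_lit 1748) (nat_lit 731542267) (nat_lit 76) (nat_lit 239602708) (nat_lit 404) (nat_lit 5) (nat_lit 427) (nat_lit 5) (nat_lit 405) (nat_lit 5) (nat_lit 419) (nat_lit 371) (nat_lit 350)) (XT.nd (nat_lit 78) (nat_lit 988) (nat_lit 0) (XT.lf (nat_lit 0) (nat_lit 1859880812) (nat_lit 1824) (nat_lit 3262679370) (nat_lit 76) (nat_lit 2198406603) (nat_lit 380) (nat_lit 5) (nat_lit 404) (nat_lit 5) (nat_lit 381) (nat_lit 5) (nat_lit 420) (nat_lit 371) (nat_lit 349)) (XT.lf (nat_lit 0) (nat_lit 1545098376) (nat_lit 988) (nat_lit 3150471654) (nat_lit 1064) (nat_lit 2673991300) (nat_lit 367) (nat_lit 5) (nat_lit 380) (nat_lit 5) (nat_lit 381) (nat_lit 5) (nat_lit 421) (nat_lit 371) (nat_lit 348))))))) (XT.nd (nat_lit 780) (nat_lit 5624) (nat_lit 0) (XT.nd (nat_lit 390) (nat_lit 2432) (nat_lit 0) (XT.nd (nat_lit 156) (nat_lit 1748)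 (nat_lit 0) (XT.nd (nat_lit 78) (nat_lit 912) (nat_lit 0) (XT.lf (nat_lit 0) (nat_lit 135057857) (nat_lit 1064) (nat_lit 980815546) (nat_lit 76) (nat_lit 6303895421) (nat_lit 366) (nat_lit 5) (nat_lit 380) (nat_lit 5) (nat_lit 367) (nat_lit 5) (nat_lit 422) (nat_lit 371) (nat_lit 347)) (XT.lf (nat_lit 0) (nat_lit 2944053157) (nat_lit 988) (nat_lit 3537112288) (nat_lit 76) (nat_lit 989901029) (nat_lit 354) (nat_lit 5) (nat_lit 367) (nat_lit 5) (nat_lit 355) (nat_lit 5) (nat_lit 423) (nat_lit 371) (nat_lit 346))) (XT.nd (nat_lit 78) (nat_lit 912) (nat_lit 0) (XT.lf (nat_lit 0) (nat_lit 1394112734) (nat_lit 836) (nat_lit 4386304019) (nat_lit 912) (nat_lit 1743579854) (nat_lit 343) (nat_lit 5) (nat_lit 354) (nat_lit 5) (nat_lit 355) (nat_lit 5) (nat_lit 424) (nat_lit 371) (nat_lit 345)) (XT.nd (nat_lit 78) (nat_lit 836) (nat_lit 0) (XT.lf (nat_lit 0) (nat_lit 1053470814) (nat_lit 912) (nat_lit 1167026485) (nat_lit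 76) (nat_lit 5357928580) (nat_lit 342) (nat_lit 5) (nat_lit 354) (nat_lit 5) (nat_lit 343) (nat_lit 5) (nat_lit 425) (nat_lit 371) (nat_lit 344)) (XT.lf (nat_lit 0) (nat_lit 3857925941) (nat_lit 912) (nat_lit 3753048638) (nat_lit 76) (nat_lit 23271007) (nat_lit 331) (nat_lit 5) (nat_lit 343) (nat_lit 5) (nat_lit 332) (nat_lit 5) (nat_lit 426) (nat_lit 371) (nat_lit 343))))) (XT.nd (nat_lit 156) (nat_lit 1596) (nat_lit 0) (XT.nd (nat_lit 78) (nat_lit 76) (nat_lit 0) (XT.lf (nat_lit 0) (nat_lit 1303769805) (nat_lit 760) (nat_lit 5395819221) (nat_lit 836) (nat_lit 991998277) (nat_lit 321) (nat_lit 5) (nat_lit 331) (nat_lit 5) (nat_lit 332) (nat_lit 5) (nat_lit 427) (nat_lit 371) (nat_lit 342)) (XT.lf (nat_lit 0) (nat_lit 1799468502) (nat_lit 836) (nat_lit 1303223809) (nat_lit 76) (nat_lit 4647656559) (nat_lit 320) (nat_lit 5) (nat_lit 331) (nat_lit 5) (nat_lit 321) (nat_lit 5) (nat_lit 428) (nat_lit 371) (nat_lit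 341))) (XT.nd (nat_lit 78) (nat_lit 836) (nat_lit 0) (XT.lf (nat_lit 0) (nat_lit 3874280046) (nat_lit 760) (nat_lit 735686409) (nat_lit 836) (nat_lit 3200684753) (nat_lit 310) (nat_lit 5) (nat_lit 320) (nat_lit 5) (nat_lit 321) (nat_lit 5) (nat_lit 429) (nat_lit 371) (nat_lit 340)) (XT.nd (nat_lit 78) (nat_lit 76) (nat_lit 0) (XT.lf (nat_lit 0) (nat_lit 1252856820) (nat_lit 760) (nat_lit 6203554660) (nat_lit 836) (nat_lit 416179231) (nat_lit 300) (nat_lit 5) (nat_lit 310) (nat_lit 5) (nat_lit 311) (nat_lit 5) (nat_lit 430) (nat_lit 371) (nat_lit 339)) (XT.lf (nat_lit 0) (nat_lit 2375845264) (nat_lit 836) (nat_lit 1410738516) (nat_lit 76) (nat_lit 4149222907) (nat_lit 299) (nat_lit 5) (nat_lit 310) (nat_lit 5) (nat_lit 300) (nat_lit 5) (nat_lit 431) (nat_lit 371) (nat_lit 338)))))) (XT.nd (nat_lit 390) (nat_lit 2660) (nat_lit 0) (XT.nd (nat_lit 156) (nat_lit 1520) (nat_lit 0) (XT.nd (nat_lit 78) (nat_lit 684)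 (nat_lit 0) (XT.lf (nat_lit 0) (nat_lit 3897919814) (nat_lit 760) (nat_lit 1298627086) (nat_lit 836) (nat_lit 2804141248) (nat_lit 289) (nat_lit 5) (nat_lit 299) (nat_lit 5) (nat_lit 300) (nat_lit 5) (nat_lit 432) (nat_lit 371) (nat_lit 337)) (XT.lf (nat_lit 0) (nat_lit 1219639570) (nat_lit 684) (nat_lit 6833150661) (nat_lit 760) (nat_lit 14518345) (nat_lit 280) (nat_lit 5) (nat_lit 289) (nat_lit 5) (nat_lit 290) (nat_lit 5) (nat_lit 433) (nat_lit 371) (nat_lit 336))) (XT.nd (nat_lit 78) (nat_lit 1444) (nat_lit 0) (XT.lf (nat_lit 0) (nat_lit 2783955988) (nat_lit 760) (nat_lit 1511492853) (nat_lit 76) (nat_lit 3839664199) (nat_lit 279) (nat_lit 5) (nat_lit 289) (nat_lit 5) (nat_lit 280) (nat_lit 5) (nat_lit 434) (nat_lit 371) (nat_lit 335)) (XT.nd (nat_lit 78) (nat_lit 760) (nat_lit 0) (XT.lf (nat_lit 0) (nat_lit 3930179962) (nat_lit 684) (nat_lit 1688319876) (nat_lit 760) (nat_lit 2586188460) (nat_lit 270) (nat_lit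 5) (nat_lit 279) (nat_lit 5) (nat_lit 280) (nat_lit 5) (nat_lit 435) (nat_lit 371) (nat_lit 334)) (XT.lf (nat_lit 0) (nat_lit 210312128) (nat_lit 760) (nat_lit 7095817557) (nat_lit 76) (nat_lit 969930566) (nat_lit 260) (nat_lit 5) (nat_lit 270) (nat_lit 5) (nat_lit 261) (nat_lit 5) (nat_lit 436) (nat_lit 371) (nat_lit 333))))) (XT.nd (nat_lit 234) (nat_lit 1292) (nat_lit 0) (XT.nd (nat_lit 78) (nat_lit 1368) (nat_lit 0) (XT.lf (nat_lit 0) (nat_lit 3023695175) (nat_lit 760) (nat_lit 1628210882) (nat_lit 76) (nat_lit 3696721276) (nat_lit 260) (nat_lit 5) (nat_lit 270) (nat_lit 5) (nat_lit 261) (nat_lit 5) (nat_lit 437) (nat_lit 371) (nat_lit 332)) (XT.nd (nat_lit 78) (nat_lit 684) (nat_lit 0) (XT.lf (nat_lit 0) (nat_lit 3948118612) (nat_lit 684) (nat_lit 1927227791) (nat_lit 760) (nat_lit 2547680141) (nat_lit 251) (nat_lit 5) (nat_lit 260) (nat_lit 5) (nat_lit 261) (nat_lit 5) (nat_lit 438) (nat_lit 371) (nat_lit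 331)) (XT.lf (nat_lit 0) (nat_lit 261827453) (nat_lit 684) (nat_lit 7385557739) (nat_lit 76) (nat_lit 851902517) (nat_lit 242) (nat_lit 5) (nat_lit 251) (nat_lit 5) (nat_lit 243) (nat_lit 5) (nat_lit 439) (nat_lit 371) (nat_lit 330)))) (XT.nd (nat_lit 78) (nat_lit 1292) (nat_lit 0) (XT.lf (nat_lit 0) (nat_lit 3093463844) (nat_lit 684) (nat_lit 1784640453) (nat_lit 76) (nat_lit 3698651555) (nat_lit 242) (nat_lit 5) (nat_lit 251) (nat_lit 5) (nat_lit 243) (nat_lit 5) (nat_lit 440) (nat_lit 371) (nat_lit 329)) (XT.nd (nat_lit 78) (nat_lit 684) (nat_lit 0) (XT.lf (nat_lit 0) (nat_lit 3927717604) (nat_lit 608) (nat_lit 2037388511) (nat_lit 684) (nat_lit 2691018993) (nat_lit 234) (nat_lit 5) (nat_lit 242) (nat_lit 5) (nat_lit 243) (nat_lit 5) (nat_lit 441) (nat_lit 371) (nat_lit 328)) (XT.lf (nat_lit 0) (nat_lit 137310241) (nat_lit 684) (nat_lit 7741811583) (nat_lit 76) (nat_lit 858312571) (nat_lit 225) (nat_lit 5)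 (nat_lit 234) (nat_lit 5) (nat_lit 226) (nat_lit 5) (nat_lit 442) (nat_lit 371) (nat_lit 327))))))))
noncomputable def xc72 : XT := (XT.nd (nat_lit 1560) (nat_lit 4332) (nat_lit 0) (XT.nd (nat_lit 780) (nat_lit 3420) (nat_lit 0) (XT.nd (nat_lit 390) (nat_lit 1672) (nat_lit 0) (XT.nd (nat_lit 156) (nat_lit 1140) (nat_lit 0) (XT.nd (nat_lit 78) (nat_lit 608) (nat_lit 0) (XT.lf (nat_lit 0) (nat_lit 2990123748) (nat_lit 684) (nat_lit 2005788590) (nat_lit 76) (nat_lit 3824040874) (nat_lit 225) (nat_lit 5) (nat_lit 234) (nat_lit 5) (nat_lit 226) (nat_lit 5) (nat_lit 443) (nat_lit 371) (nat_lit 326)) (XT.lf (nat_lit 0) (nat_lit 3843641600) (nat_lit 608) (nat_lit 2040605310) (nat_lit 684) (nat_lit 3020208179) (nat_lit 217) (nat_lit 5) (nat_lit 225) (nat_lit 5) (nat_lit 226) (nat_lit 5) (nat_lit 444) (nat_lit 371) (nat_lit 325))) (XT.nd (nat_lit 78) (nat_lit 608) (nat_lit 0) (XT.lf (nat_lit 0) (nat_lit 798803467) (nat_lit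 532) (nat_lit 8022197094) (nat_lit 608) (nat_lit 169968885) (nat_lit 210) (nat_lit 5) (nat_lit 217) (nat_lit 5) (nat_lit 218) (nat_lit 5) (nat_lit 445) (nat_lit 371) (nat_lit 324)) (XT.nd (nat_lit 78) (nat_lit 532) (nat_lit 0) (XT.lf (nat_lit 0) (nat_lit 2708938279) (nat_lit 608) (nat_lit 2318172472) (nat_lit 76) (nat_lit 4051613364) (nat_lit 209) (nat_lit 5) (nat_lit 217) (nat_lit 5) (nat_lit 210) (nat_lit 5) (nat_lit 446) (nat_lit 371) (nat_lit 323)) (XT.lf (nat_lit 0) (nat_lit 3668980940) (nat_lit 532) (nat_lit 1958640716) (nat_lit 608) (nat_lit 3540916672) (nat_lit 202) (nat_lit 5) (nat_lit 209) (nat_lit 5) (nat_lit 210) (nat_lit 5) (nat_lit 447) (nat_lit 371) (nat_lit 322))))) (XT.nd (nat_lit 156) (nat_lit 1064) (nat_lit 0) (XT.nd (nat_lit 78) (nat_lit 76) (nat_lit 0) (XT.lf (nat_lit 0) (nat_lit 494550039) (nat_lit 532) (nat_lit 8097615595) (nat_lit 608) (nat_lit 668249529) (nat_lit 195) (nat_lit 5) (nat_lit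 202) (nat_lit 5) (nat_lit 203) (nat_lit 5) (nat_lit 448) (nat_lit 371) (nat_lit 321)) (XT.lf (nat_lit 0) (nat_lit 2243499331) (nat_lit 608) (nat_lit 2750088352) (nat_lit 76) (nat_lit 4360037731) (nat_lit 194) (nat_lit 5) (nat_lit 202) (nat_lit 5) (nat_lit 195) (nat_lit 5) (nat_lit 449) (nat_lit 371) (nat_lit 320))) (XT.nd (nat_lit 78) (nat_lit 532) (nat_lit 0) (XT.lf (nat_lit 0) (nat_lit 3374975819) (nat_lit 532) (nat_lit 1813414514) (nat_lit 608) (nat_lit 4260559243) (nat_lit 187) (nat_lit 5) (nat_lit 194) (nat_lit 5) (nat_lit 195) (nat_lit 5) (nat_lit 450) (nat_lit 371) (nat_lit 319)) (XT.nd (nat_lit 78) (nat_lit 76) (nat_lit 0) (XT.lf (nat_lit 0) (nat_lit 54093113) (nat_lit 456) (nat_lit 8128569604) (nat_lit 532) (nat_lit 1363722687) (nat_lit 181) (nat_lit 5) (nat_lit 187) (nat_lit 5) (nat_lit 188) (nat_lit 5) (nat_lit 451) (nat_lit 371) (nat_lit 318)) (XT.lf (nat_lit 0) (nat_lit 1585639236) (nat_lit 532)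 (nat_lit 3331900939) (nat_lit 76) (nat_lit 4727728335) (nat_lit 180) (nat_lit 5) (nat_lit 187) (nat_lit 5) (nat_lit 181) (nat_lit 5) (nat_lit 452) (nat_lit 371) (nat_lit 317)))))) (XT.nd (nat_lit 390) (nat_lit 1900) (nat_lit 0) (XT.nd (nat_lit 156) (nat_lit 988) (nat_lit 0) (XT.nd (nat_lit 78) (nat_lit 0) (nat_lit 0) (XT.lf (nat_lit 0) (nat_lit 2930719204) (nat_lit 532) (nat_lit 1627207810) (nat_lit 608) (nat_lit 5188392001) (nat_lit 173) (nat_lit 5) (nat_lit 180) (nat_lit 5) (nat_lit 181) (nat_lit 5) (nat_lit 453) (nat_lit 371) (nat_lit 316)) (XT.lf (nat_lit 0) (nat_lit 7586855589) (nat_lit 608) (nat_lit 547267810) (nat_lit 76) (nat_lit 1715336953) (nat_lit 173) (nat_lit 5) (nat_lit 181) (nat_lit 5) (nat_lit 174) (nat_lit 5) (nat_lit 454) (nat_lit 371) (nat_lit 315))) (XT.nd (nat_lit 78) (nat_lit 456) (nat_lit 0) (XT.lf (nat_lit 0) (nat_lit 725326793) (nat_lit 532) (nat_lit 4096355997) (nat_lit 76) (nat_lit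 5132639322) (nat_lit 166) (nat_lit 5) (nat_lit 173) (nat_lit 5) (nat_lit 167) (nat_lit 5) (nat_lit 455) (nat_lit 371) (nat_lit 314)) (XT.nd (nat_lit 78) (nat_lit 0) (nat_lit 0) (XT.lf (nat_lit 0) (nat_lit 2302835639) (nat_lit 456) (nat_lit 1422874911) (nat_lit 532) (nat_lit 6335624576) (nat_lit 160) (nat_lit 5) (nat_lit 166) (nat_lit 5) (nat_lit 167) (nat_lit 5) (nat_lit 456) (nat_lit 371) (nat_lit 313)) (XT.lf (nat_lit 0) (nat_lit 6791641989) (nat_lit 532) (nat_lit 1348024520) (nat_lit 76) (nat_lit 2030723769) (nat_lit 160) (nat_lit 5) (nat_lit 167) (nat_lit 5) (nat_lit 161) (nat_lit 5) (nat_lit 457) (nat_lit 371) (nat_lit 312))))) (XT.nd (nat_lit 156) (nat_lit 912) (nat_lit 0) (XT.nd (nat_lit 78) (nat_lit 532) (nat_lit 0) (XT.lf (nat_lit 0) (nat_lit 5200251195) (nat_lit 456) (nat_lit 4727120335) (nat_lit 532) (nat_lit 354097841) (nat_lit 154) (nat_lit 5) (nat_lit 160) (nat_lit 5) (nat_lit 161) (nat_lit 5)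 (nat_lit 458) (nat_lit 371) (nat_lit 311)) (XT.lf (nat_lit 0) (nat_lit 1455132885) (nat_lit 456) (nat_lit 1224064910) (nat_lit 532) (nat_lit 7715550156) (nat_lit 147) (nat_lit 5) (nat_lit 153) (nat_lit 5) (nat_lit 154) (nat_lit 5) (nat_lit 459) (nat_lit 371) (nat_lit 310))) (XT.nd (nat_lit 78) (nat_lit 912) (nat_lit 0) (XT.lf (nat_lit 0) (nat_lit 5783678128) (nat_lit 532) (nat_lit 2385955852) (nat_lit 76) (nat_lit 2340317818) (nat_lit 147) (nat_lit 5) (nat_lit 154) (nat_lit 5) (nat_lit 148) (nat_lit 5) (nat_lit 460) (nat_lit 371) (nat_lit 309)) (XT.nd (nat_lit 78) (nat_lit 532) (nat_lit 0) (XT.lf (nat_lit 0) (nat_lit 4298405806) (nat_lit 380) (nat_lit 4654210342) (nat_lit 456) (nat_lit 1674807697) (nat_lit 142) (nat_lit 5) (nat_lit 147) (nat_lit 5) (nat_lit 148) (nat_lit 5) (nat_lit 461) (nat_lit 371) (nat_lit 308)) (XT.lf (nat_lit 0) (nat_lit 348223017) (nat_lit 456) (nat_lit 1055454958) (nat_lit 532) (nat_lit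 9343694786) (nat_lit 135) (nat_lit 5) (nat_lit 141) (nat_lit 5) (nat_lit 142) (nat_lit 5) (nat_lit 462) (nat_lit 371) (nat_lit 307))))))) (XT.nd (nat_lit 780) (nat_lit 1976) (nat_lit 0) (XT.nd (nat_lit 390) (nat_lit 1140) (nat_lit 0) (XT.nd (nat_lit 156) (nat_lit 836) (nat_lit 0) (XT.nd (nat_lit 78) (nat_lit 380) (nat_lit 0) (XT.lf (nat_lit 0) (nat_lit 4547772802) (nat_lit 532) (nat_lit 3701453627) (nat_lit 76) (nat_lit 2619754334) (nat_lit 135) (nat_lit 5) (nat_lit 142) (nat_lit 5) (nat_lit 136) (nat_lit 5) (nat_lit 463) (nat_lit 371) (nat_lit 306)) (XT.lf (nat_lit 0) (nat_lit 3116005001) (nat_lit 380) (nat_lit 4633329916) (nat_lit 456) (nat_lit 3243804908) (nat_lit 130) (nat_lit 5) (nat_lit 135) (nat_lit 5) (nat_lit 136) (nat_lit 5) (nat_lit 464) (nat_lit 371) (nat_lit 305))) (XT.nd (nat_lit 78) (nat_lit 836) (nat_lit 0) (XT.lf (nat_lit 0) (nat_lit 10072234613) (nat_lit 380) (nat_lit 935226690) (nat_lit 456)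 (nat_lit 112480505) (nat_lit 130) (nat_lit 5) (nat_lit 135) (nat_lit 5) (nat_lit 136) (nat_lit 5) (nat_lit 465) (nat_lit 371) (nat_lit 304)) (XT.nd (nat_lit 78) (nat_lit 380) (nat_lit 0) (XT.lf (nat_lit 0) (nat_lit 3066364416) (nat_lit 456) (nat_lit 5338654433) (nat_lit 76) (nat_lit 2843364677) (nat_lit 124) (nat_lit 5) (nat_lit 130) (nat_lit 5) (nat_lit 125) (nat_lit 5) (nat_lit 466) (nat_lit 371) (nat_lit 303)) (XT.lf (nat_lit 0) (nat_lit 1607884799) (nat_lit 380) (nat_lit 4691435725) (nat_lit 456) (nat_lit 5080227677) (nat_lit 119) (nat_lit 5) (nat_lit 124) (nat_lit 5) (nat_lit 125) (nat_lit 5) (nat_lit 467) (nat_lit 371) (nat_lit 302))))) (XT.nd (nat_lit 156) (nat_lit 684) (nat_lit 0) (XT.nd (nat_lit 78) (nat_lit 456) (nat_lit 0) (XT.lf (nat_lit 0) (nat_lit 8718553584) (nat_lit 380) (nat_lit 882850866) (nat_lit 456) (nat_lit 1911851952) (nat_lit 119) (nat_lit 5) (nat_lit 124) (nat_lit 5) (nat_lit 125) (nat_lit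 5) (nat_lit 468) (nat_lit 371) (nat_lit 301)) (XT.lf (nat_lit 0) (nat_lit 1319326648) (nat_lit 456) (nat_lit 7345901409) (nat_lit 76) (nat_lit 2983913633) (nat_lit 113) (nat_lit 5) (nat_lit 119) (nat_lit 5) (nat_lit 114) (nat_lit 5) (nat_lit 469) (nat_lit 371) (nat_lit 300))) (XT.nd (nat_lit 78) (nat_lit 684) (nat_lit 0) (XT.lf (nat_lit 0) (nat_lit 4583527322) (nat_lit 456) (nat_lit 271853469) (nat_lit 76) (nat_lit 6932240236) (nat_lit 113) (nat_lit 5) (nat_lit 119) (nat_lit 5) (nat_lit 114) (nat_lit 5) (nat_lit 470) (nat_lit 371) (nat_lit 299)) (XT.nd (nat_lit 78) (nat_lit 380) (nat_lit 0) (XT.lf (nat_lit 0) (nat_lit 6989384745) (nat_lit 304) (nat_lit 938859386) (nat_lit 380) (nat_lit 4000330053) (nat_lit 109) (nat_lit 5) (nat_lit 113) (nat_lit 5) (nat_lit 114) (nat_lit 5) (nat_lit 471) (nat_lit 371) (nat_lit 298)) (XT.lf (nat_lit 0) (nat_lit 2291261011) (nat_lit 380) (nat_lit 9055193049) (nat_lit 456) (nat_lit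 725769071) (nat_lit 104) (nat_lit 5) (nat_lit 109) (nat_lit 5) (nat_lit 110) (nat_lit 5) (nat_lit 472) (nat_lit 371) (nat_lit 297)))))) (XT.nd (nat_lit 390) (nat_lit 912) (nat_lit 0) (XT.nd (nat_lit 156) (nat_lit 684) (nat_lit 0) (XT.nd (nat_lit 78) (nat_lit 304) (nat_lit 0) (XT.lf (nat_lit 0) (nat_lit 2589707275) (nat_lit 456) (nat_lit 2554480637) (nat_lit 76) (nat_lit 7074031817) (nat_lit 103) (nat_lit 5) (nat_lit 109) (nat_lit 5) (nat_lit 104) (nat_lit 5) (nat_lit 473) (nat_lit 371) (nat_lit 296)) (XT.lf (nat_lit 0) (nat_lit 4829713498) (nat_lit 304) (nat_lit 1134143357) (nat_lit 380) (nat_lit 6403150023) (nat_lit 99) (nat_lit 5) (nat_lit 103) (nat_lit 5) (nat_lit 104) (nat_lit 5) (nat_lit 474) (nat_lit 371) (nat_lit 295))) (XT.nd (nat_lit 78) (nat_lit 684) (nat_lit 0) (XT.lf (nat_lit 0) (nat_lit 9412830276) (nat_lit 380) (nat_lit 187053890) (nat_lit 76) (nat_lit 2918746825) (nat_lit 99) (nat_lit 5) (nat_lit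 104) (nat_lit 5) (nat_lit 100) (nat_lit 5) (nat_lit 475) (nat_lit 371) (nat_lit 294)) (XT.nd (nat_lit 78) (nat_lit 304) (nat_lit 0) (XT.lf (nat_lit 0) (nat_lit 281011963) (nat_lit 380) (nat_lit 5320120512) (nat_lit 76) (nat_lit 7071591533) (nat_lit 94) (nat_lit 5) (nat_lit 99) (nat_lit 5) (nat_lit 95) (nat_lit 5) (nat_lit 476) (nat_lit 371) (nat_lit 293)) (XT.lf (nat_lit 0) (nat_lit 2178979196) (nat_lit 304) (nat_lit 1501984771) (nat_lit 380) (nat_lit 9148792112) (nat_lit 90) (nat_lit 5) (nat_lit 94) (nat_lit 5) (nat_lit 95) (nat_lit 5) (nat_lit 477) (nat_lit 371) (nat_lit 292))))) (XT.nd (nat_lit 234) (nat_lit 532) (nat_lit 0) (XT.nd (nat_lit 78) (nat_lit 380) (nat_lit 0) (XT.lf (nat_lit 0) (nat_lit 7173950949) (nat_lit 380) (nat_lit 3151578643) (nat_lit 76) (nat_lit 2663905907) (nat_lit 90) (nat_lit 5) (nat_lit 95) (nat_lit 5) (nat_lit 91) (nat_lit 5) (nat_lit 478) (nat_lit 371) (nat_lit 291)) (XT.nd (nat_lit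 78) (nat_lit 76) (nat_lit 0) (XT.lf (nat_lit 0) (nat_lit 4502681512) (nat_lit 304) (nat_lit 6245556204) (nat_lit 380) (nat_lit 2403849273) (nat_lit 86) (nat_lit 5) (nat_lit 90) (nat_lit 5) (nat_lit 91) (nat_lit 5) (nat_lit 479) (nat_lit 371) (nat_lit 290)) (XT.lf (nat_lit 0) (nat_lit 1055524996) (nat_lit 380) (nat_lit 1016061138) (nat_lit 76) (nat_lit 11246400278) (nat_lit 85) (nat_lit 5) (nat_lit 90) (nat_lit 5) (nat_lit 86) (nat_lit 5) (nat_lit 480) (nat_lit 371) (nat_lit 289)))) (XT.nd (nat_lit 78) (nat_lit 304) (nat_lit 0) (XT.lf (nat_lit 0) (nat_lit 4583436608) (nat_lit 304) (nat_lit 6701072453) (nat_lit 76) (nat_lit 2201753089) (nat_lit 82) (nat_lit 5) (nat_lit 86) (nat_lit 5) (nat_lit 83) (nat_lit 5) (nat_lit 481) (nat_lit 371) (nat_lit 288)) (XT.nd (nat_lit 78) (nat_lit 0) (nat_lit 0) (XT.lf (nat_lit 0) (nat_lit 1055141670) (nat_lit 304) (nat_lit 7127218749) (nat_lit 380) (nat_lit 5475540631) (nat_lit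 78) (nat_lit 5) (nat_lit 82) (nat_lit 5) (nat_lit 83) (nat_lit 5) (nat_lit 482) (nat_lit 371) (nat_lit 287)) (XT.lf (nat_lit 0) (nat_lit 9014196504) (nat_lit 304) (nat_lit 2857303692) (nat_lit 380) (nat_lit 1961114376) (nat_lit 78) (nat_lit 5) (nat_lit 82) (nat_lit 5) (nat_lit 83) (nat_lit 5) (nat_lit 483) (nat_lit 371) (nat_lit 286))))))))
noncomputable def xc73 : XT := (XT.nd (nat_lit 1638) (nat_lit 304) (nat_lit 0) (XT.nd (nat_lit 780) (nat_lit 1140) (nat_lit 0) (XT.nd (nat_lit 390) (nat_lit 760) (nat_lit 0) (XT.nd (nat_lit 156) (nat_lit 608) (nat_lit 0) (XT.nd (nat_lit 78) (nat_lit 0) (nat_lit 0) (XT.lf (nat_lit 0) (nat_lit 1605931753) (nat_lit 304) (nat_lit 10911349358) (nat_lit 76) (nat_lit 1493264260) (nat_lit 74) (nat_lit 5) (nat_lit 78) (nat_lit 5) (nat_lit 75) (nat_lit 5) (nat_lit 484) (nat_lit 371) (nat_lit 285)) (XT.lf (nat_lit 0) (nat_lit 5243305978) (nat_lit 304) (nat_lit 3025808305) (nat_lit 76)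 (nat_lit 5922162529) (nat_lit 74) (nat_lit 5) (nat_lit 78) (nat_lit 5) (nat_lit 75) (nat_lit 5) (nat_lit 485) (nat_lit 371) (nat_lit 284))) (XT.nd (nat_lit 78) (nat_lit 304) (nat_lit 0) (XT.lf (nat_lit 0) (nat_lit 5041630838) (nat_lit 304) (nat_lit 3918796297) (nat_lit 380) (nat_lit 5415061851) (nat_lit 70) (nat_lit 5) (nat_lit 74) (nat_lit 5) (nat_lit 75) (nat_lit 5) (nat_lit 486) (nat_lit 371) (nat_lit 283)) (XT.nd (nat_lit 78) (nat_lit 304) (nat_lit 0) (XT.lf (nat_lit 0) (nat_lit 12750091615) (nat_lit 380) (nat_lit 1297115813) (nat_lit 76) (nat_lit 516219930) (nat_lit 70) (nat_lit 5) (nat_lit 75) (nat_lit 5) (nat_lit 71) (nat_lit 5) (nat_lit 487) (nat_lit 371) (nat_lit 282)) (XT.lf (nat_lit 0) (nat_lit 1882127056) (nat_lit 304) (nat_lit 7842623354) (nat_lit 76) (nat_lit 5029216207) (nat_lit 66) (nat_lit 5) (nat_lit 70) (nat_lit 5) (nat_lit 67) (nat_lit 5) (nat_lit 488) (nat_lit 371) (nat_lit 281))))) (XT.nd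 (nat_lit 156) (nat_lit 532) (nat_lit 0) (XT.nd (nat_lit 78) (nat_lit 0) (nat_lit 0) (XT.lf (nat_lit 0) (nat_lit 304020438) (nat_lit 228) (nat_lit 5308909551) (nat_lit 304) (nat_lit 9335438348) (nat_lit 63) (nat_lit 5) (nat_lit 66) (nat_lit 5) (nat_lit 67) (nat_lit 5) (nat_lit 489) (nat_lit 371) (nat_lit 280)) (XT.lf (nat_lit 0) (nat_lit 8678865673) (nat_lit 228) (nat_lit 767288968) (nat_lit 304) (nat_lit 5699952857) (nat_lit 63) (nat_lit 5) (nat_lit 66) (nat_lit 5) (nat_lit 67) (nat_lit 5) (nat_lit 490) (nat_lit 371) (nat_lit 279))) (XT.nd (nat_lit 78) (nat_lit 304) (nat_lit 0) (XT.lf (nat_lit 0) (nat_lit 1831709925) (nat_lit 228) (nat_lit 11536882757) (nat_lit 304) (nat_lit 1978963193) (nat_lit 60) (nat_lit 5) (nat_lit 63) (nat_lit 5) (nat_lit 64) (nat_lit 5) (nat_lit 491) (nat_lit 371) (nat_lit 278)) (XT.nd (nat_lit 78) (nat_lit 228) (nat_lit 0) (XT.lf (nat_lit 0) (nat_lit 1817003172) (nat_lit 304) (nat_lit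 5225708206) (nat_lit 76) (nat_lit 8509603571) (nat_lit 59) (nat_lit 5) (nat_lit 63) (nat_lit 5) (nat_lit 60) (nat_lit 5) (nat_lit 492) (nat_lit 371) (nat_lit 277)) (XT.lf (nat_lit 0) (nat_lit 3219461698) (nat_lit 228) (nat_lit 2439947223) (nat_lit 304) (nat_lit 10101563395) (nat_lit 56) (nat_lit 5) (nat_lit 59) (nat_lit 5) (nat_lit 60) (nat_lit 5) (nat_lit 493) (nat_lit 371) (nat_lit 276)))))) (XT.nd (nat_lit 390) (nat_lit 608) (nat_lit 0) (XT.nd (nat_lit 156) (nat_lit 304) (nat_lit 0) (XT.nd (nat_lit 78) (nat_lit 228) (nat_lit 0) (XT.lf (nat_lit 0) (nat_lit 9604801234) (nat_lit 304) (nat_lit 4123604800) (nat_lit 76) (nat_lit 2244879026) (nat_lit 56) (nat_lit 5) (nat_lit 60) (nat_lit 5) (nat_lit 57) (nat_lit 5) (nat_lit 494) (nat_lit 371) (nat_lit 275)) (XT.lf (nat_lit 0) (nat_lit 4465853560) (nat_lit 228) (nat_lit 9185067230) (nat_lit 304) (nat_lit 2538491781) (nat_lit 53) (nat_lit 5) (nat_lit 56) (nat_lit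 5) (nat_lit 57) (nat_lit 5) (nat_lit 495) (nat_lit 371) (nat_lit 274))) (XT.nd (nat_lit 78) (nat_lit 228) (nat_lit 0) (XT.lf (nat_lit 0) (nat_lit 1354724233) (nat_lit 304) (nat_lit 3174651073) (nat_lit 76) (nat_lit 11880223044) (nat_lit 52) (nat_lit 5) (nat_lit 56) (nat_lit 5) (nat_lit 53) (nat_lit 5) (nat_lit 496) (nat_lit 371) (nat_lit 273)) (XT.nd (nat_lit 78) (nat_lit 0) (nat_lit 0) (XT.lf (nat_lit 0) (nat_lit 5306806106) (nat_lit 304) (nat_lit 11072385559) (nat_lit 76) (nat_lit 254365369) (nat_lit 49) (nat_lit 5) (nat_lit 53) (nat_lit 5) (nat_lit 50) (nat_lit 5) (nat_lit 497) (nat_lit 371) (nat_lit 272)) (XT.lf (nat_lit 0) (nat_lit 9366636879) (nat_lit 304) (nat_lit 2415568074) (nat_lit 76) (nat_lit 5079220322) (nat_lit 49) (nat_lit 5) (nat_lit 53) (nat_lit 5) (nat_lit 50) (nat_lit 5) (nat_lit 498) (nat_lit 371) (nat_lit 271))))) (XT.nd (nat_lit 234) (nat_lit 152) (nat_lit 0) (XT.nd (nat_lit 78) (nat_lit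 304) (nat_lit 0) (XT.lf (nat_lit 0) (nat_lit 6461277544) (nat_lit 152) (nat_lit 7066050109) (nat_lit 228) (nat_lit 3566134398) (nat_lit 47) (nat_lit 5) (nat_lit 49) (nat_lit 5) (nat_lit 50) (nat_lit 5) (nat_lit 499) (nat_lit 371) (nat_lit 270)) (XT.nd (nat_lit 78) (nat_lit 228) (nat_lit 0) (XT.lf (nat_lit 0) (nat_lit 429379508) (nat_lit 228) (nat_lit 1822282767) (nat_lit 76) (nat_lit 15078542837) (nat_lit 46) (nat_lit 5) (nat_lit 49) (nat_lit 5) (nat_lit 47) (nat_lit 5) (nat_lit 500) (nat_lit 371) (nat_lit 269)) (XT.lf (nat_lit 0) (nat_lit 4499649583) (nat_lit 304) (nat_lit 10390907614) (nat_lit 76) (nat_lit 2679806651) (nat_lit 43) (nat_lit 5) (nat_lit 47) (nat_lit 5) (nat_lit 44) (nat_lit 5) (nat_lit 501) (nat_lit 371) (nat_lit 268)))) (XT.nd (nat_lit 78) (nat_lit 152) (nat_lit 0) (XT.lf (nat_lit 0) (nat_lit 8656825815) (nat_lit 304) (nat_lit 1481391876) (nat_lit 76) (nat_lit 7677002151) (nat_lit 43) (nat_lit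 5) (nat_lit 47) (nat_lit 5) (nat_lit 44) (nat_lit 5) (nat_lit 502) (nat_lit 371) (nat_lit 267)) (XT.nd (nat_lit 78) (nat_lit 0) (nat_lit 0) (XT.lf (nat_lit 0) (nat_lit 7670393577) (nat_lit 152) (nat_lit 5255258793) (nat_lit 228) (nat_lit 5138754471) (nat_lit 41) (nat_lit 5) (nat_lit 43) (nat_lit 5) (nat_lit 44) (nat_lit 5) (nat_lit 503) (nat_lit 371) (nat_lit 266)) (XT.lf (nat_lit 0) (nat_lit 16989016465) (nat_lit 152) (nat_lit 279667417) (nat_lit 228) (nat_lit 1050121069) (nat_lit 41) (nat_lit 5) (nat_lit 43) (nat_lit 5) (nat_lit 44) (nat_lit 5) (nat_lit 504) (nat_lit 371) (nat_lit 265))))))) (XT.nd (nat_lit 51558) (nat_lit 0) (nat_lit 31236) (XT.nd (nat_lit 51168) (nat_lit 0) (nat_lit 40660) (XT.nd (nat_lit 50934) (nat_lit 0) (nat_lit 43548) (XT.nd (nat_lit 50856) (nat_lit 0) (nat_lit 45068) (XT.lf (nat_lit 0) (nat_lit 3141744778) (nat_lit 304) (nat_lit 10644722927) (nat_lit 76) (nat_lit 4790174271) (nat_lit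 37) (nat_lit 5) (nat_lit 41) (nat_lit 5) (nat_lit 38) (nat_lit 5) (nat_lit 505) (nat_lit 371) (nat_lit 264)) (XT.lf (nat_lit 0) (nat_lit 820176060) (nat_lit 684) (nat_lit 1643742431) (nat_lit 0) (nat_lit 820176060) (nat_lit 630) (nat_lit 5) (nat_lit 639) (nat_lit 4) (nat_lit 630) (nat_lit 4) (nat_lit 396) (nat_lit 372) (nat_lit 372))) (XT.nd (nat_lit 78) (nat_lit 836) (nat_lit 0) (XT.lf (nat_lit 0) (nat_lit 555529517) (nat_lit 684) (nat_lit 4201137702) (nat_lit 684) (nat_lit 1828060908) (nat_lit 621) (nat_lit 4) (nat_lit 630) (nat_lit 5) (nat_lit 630) (nat_lit 4) (nat_lit 397) (nat_lit 372) (nat_lit 371)) (XT.nd (nat_lit 78) (nat_lit 760) (nat_lit 0) (XT.lf (nat_lit 0) (nat_lit 1265888798) (nat_lit 760) (nat_lit 2142527296) (nat_lit 76) (nat_lit 3194075846) (nat_lit 620) (nat_lit 5) (nat_lit 630) (nat_lit 5) (nat_lit 621) (nat_lit 4) (nat_lit 398) (nat_lit 372) (nat_lit 370)) (XT.lf (nat_lit 0) (nat_lit 1781635535)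 (nat_lit 760) (nat_lit 2556080075) (nat_lit 836) (nat_lit 2283903642) (nat_lit 610) (nat_lit 5) (nat_lit 620) (nat_lit 5) (nat_lit 621) (nat_lit 4) (nat_lit 399) (nat_lit 372) (nat_lit 369))))) (XT.nd (nat_lit 156) (nat_lit 1976) (nat_lit 0) (XT.nd (nat_lit 78) (nat_lit 836) (nat_lit 0) (XT.lf (nat_lit 0) (nat_lit 762865144) (nat_lit 836) (nat_lit 885158739) (nat_lit 76) (nat_lit 4994176588) (nat_lit 609) (nat_lit 5) (nat_lit 620) (nat_lit 5) (nat_lit 610) (nat_lit 5) (nat_lit 400) (nat_lit 372) (nat_lit 368)) (XT.lf (nat_lit 0) (nat_lit 3123466913) (nat_lit 836) (nat_lit 667639152) (nat_lit 912) (nat_lit 2872818934) (nat_lit 598) (nat_lit 5) (nat_lit 609) (nat_lit 5) (nat_lit 610) (nat_lit 5) (nat_lit 401) (nat_lit 372) (nat_lit 367))) (XT.nd (nat_lit 78) (nat_lit 988) (nat_lit 0) (XT.lf (nat_lit 0) (nat_lit 134125228) (nat_lit 988) (nat_lit 6197955558) (nat_lit 76) (nat_lit 355175079) (nat_lit 585) (nat_lit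 5) (nat_lit 598) (nat_lit 5) (nat_lit 586) (nat_lit 5) (nat_lit 402) (nat_lit 372) (nat_lit 366)) (XT.nd (nat_lit 78) (nat_lit 988) (nat_lit 0) (XT.lf (nat_lit 0) (nat_lit 3123563553) (nat_lit 988) (nat_lit 2139472674) (nat_lit 76) (nat_lit 1448473638) (nat_lit 585) (nat_lit 5) (nat_lit 598) (nat_lit 5) (nat_lit 586) (nat_lit 5) (nat_lit 403) (nat_lit 372) (nat_lit 365)) (XT.lf (nat_lit 0) (nat_lit 1974173346) (nat_lit 988) (nat_lit 4145208706) (nat_lit 1064) (nat_lit 617986784) (nat_lit 572) (nat_lit 5) (nat_lit 585) (nat_lit 5) (nat_lit 586) (nat_lit 5) (nat_lit 404) (nat_lit 372) (nat_lit 364)))))) (XT.nd (nat_lit 390) (nat_lit 5776) (nat_lit 0) (XT.nd (nat_lit 156) (nat_lit 2508) (nat_lit 0) (XT.nd (nat_lit 78) (nat_lit 1064) (nat_lit 0) (XT.lf (nat_lit 0) (nat_lit 2328453763) (nat_lit 1064) (nat_lit 632595891) (nat_lit 76) (nat_lit 3803457767) (nat_lit 571) (nat_lit 5) (nat_lit 585) (nat_lit 5) (nat_lit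 572) (nat_lit 5) (nat_lit 405) (nat_lit 372) (nat_lit 363)) (XT.lf (nat_lit 0) (nat_lit 3571918300) (nat_lit 1064) (nat_lit 1712373425) (nat_lit 1140) (nat_lit 1508689222) (nat_lit 557) (nat_lit 5) (nat_lit 571) (nat_lit 5) (nat_lit 572) (nat_lit 5) (nat_lit 406) (nat_lit 372) (nat_lit 362))) (XT.nd (nat_lit 78) (nat_lit 1292) (nat_lit 0) (XT.lf (nat_lit 0) (nat_lit 998626805) (nat_lit 1140) (nat_lit 405987158) (nat_lit 1216) (nat_lit 5418329689) (nat_lit 541) (nat_lit 5) (nat_lit 556) (nat_lit 5) (nat_lit 557) (nat_lit 5) (nat_lit 407) (nat_lit 372) (nat_lit 361)) (XT.nd (nat_lit 78) (nat_lit 1292) (nat_lit 0) (XT.lf (nat_lit 0) (nat_lit 4320776453) (nat_lit 1216) (nat_lit 1575900127) (nat_lit 76) (nat_lit 957379615) (nat_lit 541) (nat_lit 5) (nat_lit 557) (nat_lit 5) (nat_lit 542) (nat_lit 5) (nat_lit 408) (nat_lit 372) (nat_lit 360)) (XT.lf (nat_lit 0) (nat_lit 362490334) (nat_lit 1292) (nat_lit 4150340722)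 (nat_lit 76) (nat_lit 2373783112) (nat_lit 524) (nat_lit 5) (nat_lit 541) (nat_lit 5) (nat_lit 525) (nat_lit 5) (nat_lit 409) (nat_lit 372) (nat_lit 359))))) (XT.nd (nat_lit 234) (nat_lit 3040) (nat_lit 0) (XT.nd (nat_lit 78) (nat_lit 1444) (nat_lit 0) (XT.lf (nat_lit 0) (nat_lit 169288815) (nat_lit 1292) (nat_lit 3063408334) (nat_lit 1368) (nat_lit 3687825689) (nat_lit 507) (nat_lit 5) (nat_lit 524) (nat_lit 5) (nat_lit 525) (nat_lit 5) (nat_lit 410) (nat_lit 372) (nat_lit 358)) (XT.nd (nat_lit 78) (nat_lit 1444) (nat_lit 0) (XT.lf (nat_lit 0) (nat_lit 4579390314) (nat_lit 1292) (nat_lit 1548298556) (nat_lit 1368) (nat_lit 828115621) (nat_lit 507) (nat_lit 5) (nat_lit 524) (nat_lit 5) (nat_lit 525) (nat_lit 5) (nat_lit 411) (nat_lit 372) (nat_lit 357)) (XT.lf (nat_lit 0) (nat_lit 2015176675) (nat_lit 1444) (nat_lit 4945500338) (nat_lit 76) (nat_lit 31808650) (nat_lit 488) (nat_lit 5) (nat_lit 507) (nat_lit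 5) (nat_lit 489) (nat_lit 5) (nat_lit 412) (nat_lit 372) (nat_lit 356)))) (XT.nd (nat_lit 78) (nat_lit 3040) (nat_lit 0) (XT.lf (nat_lit 0) (nat_lit 4871727348) (nat_lit 1444) (nat_lit 507272645) (nat_lit 76) (nat_lit 1651481347) (nat_lit 488) (nat_lit 5) (nat_lit 507) (nat_lit 5) (nat_lit 489) (nat_lit 5) (nat_lit 413) (nat_lit 372) (nat_lit 355)) (XT.nd (nat_lit 78) (nat_lit 1520) (nat_lit 0) (XT.lf (nat_lit 0) (nat_lit 674953845) (nat_lit 1520) (nat_lit 3053773910) (nat_lit 76) (nat_lit 3341091117) (nat_lit 468) (nat_lit 5) (nat_lit 488) (nat_lit 5) (nat_lit 469) (nat_lit 5) (nat_lit 414) (nat_lit 372) (nat_lit 354)) (XT.lf (nat_lit 0) (nat_lit 1479582354) (nat_lit 1520) (nat_lit 2012607644) (nat_lit 1596) (nat_lit 3618390244) (nat_lit 448) (nat_lit 5) (nat_lit 468) (nat_lit 5) (nat_lit 469) (nat_lit 5) (nat_lit 415) (nat_lit 372) (nat_lit 353))))))))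
noncomputable def xc74 : XT := (XT.nd (nat_lit 1560) (nat_lit 7904) (nat_lit 0) (XT.nd (nat_lit 780) (nat_lit 5472) (nat_lit 0) (XT.nd (nat_lit 390) (nat_lit 2888) (nat_lit 0) (XT.nd (nat_lit 156) (nat_lit 3496) (nat_lit 0) (XT.nd (nat_lit 78) (nat_lit 1672) (nat_lit 0) (XT.lf (nat_lit 0) (nat_lit 6093010983) (nat_lit 1520) (nat_lit 236738117) (nat_lit 1596) (nat_lit 823165109) (nat_lit 448) (nat_lit 5) (nat_lit 468) (nat_lit 5) (nat_lit 469) (nat_lit 5) (nat_lit 416) (nat_lit 372) (nat_lit 352)) (XT.lf (nat_lit 0) (nat_lit 1979324367) (nat_lit 1672) (nat_lit 3622295714) (nat_lit 76) (nat_lit 1594687798) (nat_lit 426) (nat_lit 5) (nat_lit 448) (nat_lit 5) (nat_lit 427) (nat_lit 5) (nat_lit 417) (nat_lit 372) (nat_lit 351))) (XT.nd (nat_lit 78) (nat_lit 1824) (nat_lit 0) (XT.lf (nat_lit 0) (nat_lit 1028401089) (nat_lit 1672) (nat_lit 3758830561) (nat_lit 1748) (nat_lit 2454055950) (nat_lit 404) (nat_lit 5) (nat_lit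 426) (nat_lit 5) (nat_lit 427) (nat_lit 5) (nat_lit 418) (nat_lit 372) (nat_lit 350)) (XT.nd (nat_lit 78) (nat_lit 1748) (nat_lit 0) (XT.lf (nat_lit 0) (nat_lit 329145126) (nat_lit 1748) (nat_lit 1520973386) (nat_lit 76) (nat_lit 5437638762) (nat_lit 403) (nat_lit 5) (nat_lit 426) (nat_lit 5) (nat_lit 404) (nat_lit 5) (nat_lit 419) (nat_lit 372) (nat_lit 349)) (XT.lf (nat_lit 0) (nat_lit 3103491502) (nat_lit 1824) (nat_lit 4097336334) (nat_lit 76) (nat_lit 134670053) (nat_lit 380) (nat_lit 5) (nat_lit 404) (nat_lit 5) (nat_lit 381) (nat_lit 5) (nat_lit 420) (nat_lit 372) (nat_lit 348))))) (XT.nd (nat_lit 156) (nat_lit 1824) (nat_lit 0) (XT.nd (nat_lit 78) (nat_lit 76) (nat_lit 0) (XT.lf (nat_lit 0) (nat_lit 672914326) (nat_lit 988) (nat_lit 5234424721) (nat_lit 1064) (nat_lit 1477406138) (nat_lit 367) (nat_lit 5) (nat_lit 380) (nat_lit 5) (nat_lit 381) (nat_lit 5) (nat_lit 421) (nat_lit 372) (nat_lit 347)) (XT.lf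 (nat_lit 0) (nat_lit 1289929271) (nat_lit 1064) (nat_lit 1902230175) (nat_lit 76) (nat_lit 4243173559) (nat_lit 366) (nat_lit 5) (nat_lit 380) (nat_lit 5) (nat_lit 367) (nat_lit 5) (nat_lit 422) (nat_lit 372) (nat_lit 346))) (XT.nd (nat_lit 78) (nat_lit 912) (nat_lit 0) (XT.lf (nat_lit 0) (nat_lit 2980832380) (nat_lit 912) (nat_lit 1079838139) (nat_lit 988) (nat_lit 3426740216) (nat_lit 354) (nat_lit 5) (nat_lit 366) (nat_lit 5) (nat_lit 367) (nat_lit 5) (nat_lit 423) (nat_lit 372) (nat_lit 345)) (XT.nd (nat_lit 78) (nat_lit 76) (nat_lit 0) (XT.lf (nat_lit 0) (nat_lit 392411721) (nat_lit 836) (nat_lit 6465928870) (nat_lit 912) (nat_lit 682788853) (nat_lit 343) (nat_lit 5) (nat_lit 354) (nat_lit 5) (nat_lit 355) (nat_lit 5) (nat_lit 424) (nat_lit 372) (nat_lit 344)) (XT.lf (nat_lit 0) (nat_lit 2075317042) (nat_lit 912) (nat_lit 2219031208) (nat_lit 76) (nat_lit 3301587499) (nat_lit 342) (nat_lit 5) (nat_lit 354)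 (nat_lit 5) (nat_lit 343) (nat_lit 5) (nat_lit 425) (nat_lit 372) (nat_lit 343)))))) (XT.nd (nat_lit 390) (nat_lit 2964) (nat_lit 0) (XT.nd (nat_lit 156) (nat_lit 912) (nat_lit 0) (XT.nd (nat_lit 78) (nat_lit 760) (nat_lit 0) (XT.lf (nat_lit 0) (nat_lit 2789257200) (nat_lit 836) (nat_lit 2058729781) (nat_lit 912) (nat_lit 2804418038) (nat_lit 331) (nat_lit 5) (nat_lit 342) (nat_lit 5) (nat_lit 343) (nat_lit 5) (nat_lit 426) (nat_lit 372) (nat_lit 342)) (XT.lf (nat_lit 0) (nat_lit 166027741) (nat_lit 760) (nat_lit 7478633324) (nat_lit 836) (nat_lit 65999035) (nat_lit 321) (nat_lit 5) (nat_lit 331) (nat_lit 5) (nat_lit 332) (nat_lit 5) (nat_lit 427) (nat_lit 372) (nat_lit 341))) (XT.nd (nat_lit 78) (nat_lit 836) (nat_lit 0) (XT.lf (nat_lit 0) (nat_lit 2689223040) (nat_lit 836) (nat_lit 2492300407) (nat_lit 76) (nat_lit 2588273035) (nat_lit 320) (nat_lit 5) (nat_lit 331) (nat_lit 5) (nat_lit 321) (nat_lit 5) (nat_lit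 428) (nat_lit 372) (nat_lit 340)) (XT.nd (nat_lit 78) (nat_lit 76) (nat_lit 0) (XT.lf (nat_lit 0) (nat_lit 2643324405) (nat_lit 760) (nat_lit 2824776900) (nat_lit 836) (nat_lit 2362642711) (nat_lit 310) (nat_lit 5) (nat_lit 320) (nat_lit 5) (nat_lit 321) (nat_lit 5) (nat_lit 429) (nat_lit 372) (nat_lit 339)) (XT.lf (nat_lit 0) (nat_lit 373645304) (nat_lit 836) (nat_lit 32198965) (nat_lit 76) (nat_lit 7487650469) (nat_lit 309) (nat_lit 5) (nat_lit 320) (nat_lit 5) (nat_lit 310) (nat_lit 5) (nat_lit 430) (nat_lit 372) (nat_lit 338))))) (XT.nd (nat_lit 156) (nat_lit 1444) (nat_lit 0) (XT.nd (nat_lit 78) (nat_lit 760) (nat_lit 0) (XT.lf (nat_lit 0) (nat_lit 3134143583) (nat_lit 836) (nat_lit 2743375734) (nat_lit 76) (nat_lit 2079670778) (nat_lit 299) (nat_lit 5) (nat_lit 310) (nat_lit 5) (nat_lit 300) (nat_lit 5) (nat_lit 431) (nat_lit 372) (nat_lit 337)) (XT.lf (nat_lit 0) (nat_lit 2521565221) (nat_lit 760) (nat_lit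 3401579377) (nat_lit 836) (nat_lit 2099572798) (nat_lit 289) (nat_lit 5) (nat_lit 299) (nat_lit 5) (nat_lit 300) (nat_lit 5) (nat_lit 432) (nat_lit 372) (nat_lit 336))) (XT.nd (nat_lit 78) (nat_lit 1368) (nat_lit 0) (XT.lf (nat_lit 0) (nat_lit 642264092) (nat_lit 836) (nat_lit 216856768) (nat_lit 76) (nat_lit 7230913443) (nat_lit 288) (nat_lit 5) (nat_lit 299) (nat_lit 5) (nat_lit 289) (nat_lit 5) (nat_lit 433) (nat_lit 372) (nat_lit 335)) (XT.nd (nat_lit 78) (nat_lit 684) (nat_lit 0) (XT.lf (nat_lit 0) (nat_lit 3411146229) (nat_lit 760) (nat_lit 2994209292) (nat_lit 76) (nat_lit 1753080542) (nat_lit 279) (nat_lit 5) (nat_lit 289) (nat_lit 5) (nat_lit 280) (nat_lit 5) (nat_lit 434) (nat_lit 372) (nat_lit 334)) (XT.lf (nat_lit 0) (nat_lit 2401853467) (nat_lit 684) (nat_lit 3811965010) (nat_lit 760) (nat_lit 2014841201) (nat_lit 270) (nat_lit 5) (nat_lit 279) (nat_lit 5) (nat_lit 280) (nat_lit 5) (nat_lit 435)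 (nat_lit 372) (nat_lit 333))))))) (XT.nd (nat_lit 780) (nat_lit 3876) (nat_lit 0) (XT.nd (nat_lit 390) (nat_lit 1900) (nat_lit 0) (XT.nd (nat_lit 156) (nat_lit 1368) (nat_lit 0) (XT.nd (nat_lit 78) (nat_lit 684) (nat_lit 0) (XT.lf (nat_lit 0) (nat_lit 738242371) (nat_lit 760) (nat_lit 410518751) (nat_lit 76) (nat_lit 7151925294) (nat_lit 269) (nat_lit 5) (nat_lit 279) (nat_lit 5) (nat_lit 270) (nat_lit 5) (nat_lit 436) (nat_lit 372) (nat_lit 332)) (XT.lf (nat_lit 0) (nat_lit 3519847596) (nat_lit 760) (nat_lit 3267577029) (nat_lit 76) (nat_lit 1586474726) (nat_lit 260) (nat_lit 5) (nat_lit 270) (nat_lit 5) (nat_lit 261) (nat_lit 5) (nat_lit 437) (nat_lit 372) (nat_lit 331))) (XT.nd (nat_lit 78) (nat_lit 684) (nat_lit 0) (XT.lf (nat_lit 0) (nat_lit 2261191499) (nat_lit 684) (nat_lit 4078177583) (nat_lit 760) (nat_lit 2109582170) (nat_lit 251) (nat_lit 5) (nat_lit 260) (nat_lit 5) (nat_lit 261) (nat_lit 5) (nat_lit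 438) (nat_lit 372) (nat_lit 330)) (XT.nd (nat_lit 78) (nat_lit 608) (nat_lit 0) (XT.lf (nat_lit 0) (nat_lit 660232608) (nat_lit 760) (nat_lit 636490338) (nat_lit 76) (nat_lit 7229121226) (nat_lit 250) (nat_lit 5) (nat_lit 260) (nat_lit 5) (nat_lit 251) (nat_lit 5) (nat_lit 439) (nat_lit 372) (nat_lit 329)) (XT.lf (nat_lit 0) (nat_lit 3458379103) (nat_lit 684) (nat_lit 3587299954) (nat_lit 76) (nat_lit 1558312566) (nat_lit 242) (nat_lit 5) (nat_lit 251) (nat_lit 5) (nat_lit 243) (nat_lit 5) (nat_lit 440) (nat_lit 372) (nat_lit 328))))) (XT.nd (nat_lit 156) (nat_lit 1216) (nat_lit 0) (XT.nd (nat_lit 78) (nat_lit 76) (nat_lit 0) (XT.lf (nat_lit 0) (nat_lit 2075484084) (nat_lit 608) (nat_lit 4222064752) (nat_lit 684) (nat_lit 2386470822) (nat_lit 234) (nat_lit 5) (nat_lit 242) (nat_lit 5) (nat_lit 243) (nat_lit 5) (nat_lit 441) (nat_lit 372) (nat_lit 327)) (XT.lf (nat_lit 0) (nat_lit 405364158) (nat_lit 684) (nat_lit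 919250910) (nat_lit 76) (nat_lit 7441333294) (nat_lit 233) (nat_lit 5) (nat_lit 242) (nat_lit 5) (nat_lit 234) (nat_lit 5) (nat_lit 442) (nat_lit 372) (nat_lit 326))) (XT.nd (nat_lit 78) (nat_lit 608) (nat_lit 0) (XT.lf (nat_lit 0) (nat_lit 3223340084) (nat_lit 684) (nat_lit 3978478864) (nat_lit 76) (nat_lit 1647353770) (nat_lit 225) (nat_lit 5) (nat_lit 234) (nat_lit 5) (nat_lit 226) (nat_lit 5) (nat_lit 443) (nat_lit 372) (nat_lit 325)) (XT.nd (nat_lit 78) (nat_lit 0) (nat_lit 0) (XT.lf (nat_lit 0) (nat_lit 1819298168) (nat_lit 608) (nat_lit 4265267241) (nat_lit 684) (nat_lit 2849775758) (nat_lit 217) (nat_lit 5) (nat_lit 225) (nat_lit 5) (nat_lit 226) (nat_lit 5) (nat_lit 444) (nat_lit 372) (nat_lit 324)) (XT.lf (nat_lit 0) (nat_lit 7736584553) (nat_lit 608) (nat_lit 1253679732) (nat_lit 684) (nat_lit 31220782) (nat_lit 217) (nat_lit 5) (nat_lit 225) (nat_lit 5) (nat_lit 226) (nat_lit 5) (nat_lit 445) (nat_lit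 372) (nat_lit 323)))))) (XT.nd (nat_lit 390) (nat_lit 1596) (nat_lit 0) (XT.nd (nat_lit 156) (nat_lit 1140) (nat_lit 0) (XT.nd (nat_lit 78) (nat_lit 532) (nat_lit 0) (XT.lf (nat_lit 0) (nat_lit 2809737664) (nat_lit 608) (nat_lit 4467744750) (nat_lit 76) (nat_lit 1832470003) (nat_lit 209) (nat_lit 5) (nat_lit 217) (nat_lit 5) (nat_lit 210) (nat_lit 5) (nat_lit 446) (nat_lit 372) (nat_lit 322)) (XT.lf (nat_lit 0) (nat_lit 1465606286) (nat_lit 532) (nat_lit 4229410930) (nat_lit 608) (nat_lit 3505425450) (nat_lit 202) (nat_lit 5) (nat_lit 209) (nat_lit 5) (nat_lit 210) (nat_lit 5) (nat_lit 447) (nat_lit 372) (nat_lit 321))) (XT.nd (nat_lit 78) (nat_lit 1140) (nat_lit 0) (XT.lf (nat_lit 0) (nat_lit 7528209231) (nat_lit 532) (nat_lit 1101627925) (nat_lit 608) (nat_lit 663084629) (nat_lit 202) (nat_lit 5) (nat_lit 209) (nat_lit 5) (nat_lit 210) (nat_lit 5) (nat_lit 448) (nat_lit 372) (nat_lit 320)) (XT.nd (nat_lit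 78) (nat_lit 532) (nat_lit 0) (XT.lf (nat_lit 0) (nat_lit 2210912640) (nat_lit 608) (nat_lit 5083527233) (nat_lit 76) (nat_lit 2092452669) (nat_lit 194) (nat_lit 5) (nat_lit 202) (nat_lit 5) (nat_lit 195) (nat_lit 5) (nat_lit 449) (nat_lit 372) (nat_lit 319)) (XT.lf (nat_lit 0) (nat_lit 985511214) (nat_lit 532) (nat_lit 4136303425) (nat_lit 608) (nat_lit 4361089199) (nat_lit 187) (nat_lit 5) (nat_lit 194) (nat_lit 5) (nat_lit 195) (nat_lit 5) (nat_lit 450) (nat_lit 372) (nat_lit 318))))) (XT.nd (nat_lit 234) (nat_lit 532) (nat_lit 0) (XT.nd (nat_lit 78) (nat_lit 1064) (nat_lit 0) (XT.lf (nat_lit 0) (nat_lit 7195298380) (nat_lit 532) (nat_lit 892840017) (nat_lit 608) (nat_lit 1492767450) (nat_lit 187) (nat_lit 5) (nat_lit 194) (nat_lit 5) (nat_lit 195) (nat_lit 5) (nat_lit 451) (nat_lit 372) (nat_lit 317)) (XT.nd (nat_lit 78) (nat_lit 532) (nat_lit 0) (XT.lf (nat_lit 0) (nat_lit 1418450502) (nat_lit 532) (nat_lit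 5856343539) (nat_lit 76) (nat_lit 2405815327) (nat_lit 180) (nat_lit 5) (nat_lit 187) (nat_lit 5) (nat_lit 181) (nat_lit 5) (nat_lit 452) (nat_lit 372) (nat_lit 316)) (XT.lf (nat_lit 0) (nat_lit 347949284) (nat_lit 532) (nat_lit 4008136821) (nat_lit 608) (nat_lit 5426273604) (nat_lit 173) (nat_lit 5) (nat_lit 180) (nat_lit 5) (nat_lit 181) (nat_lit 5) (nat_lit 453) (nat_lit 372) (nat_lit 315)))) (XT.nd (nat_lit 78) (nat_lit 532) (nat_lit 0) (XT.lf (nat_lit 0) (nat_lit 6706640487) (nat_lit 532) (nat_lit 649398884) (nat_lit 608) (nat_lit 2530047840) (nat_lit 173) (nat_lit 5) (nat_lit 180) (nat_lit 5) (nat_lit 181) (nat_lit 5) (nat_lit 454) (nat_lit 372) (nat_lit 314)) (XT.nd (nat_lit 78) (nat_lit 0) (nat_lit 0) (XT.lf (nat_lit 0) (nat_lit 422076578) (nat_lit 532) (nat_lit 6819110769) (nat_lit 76) (nat_lit 2750589048) (nat_lit 166) (nat_lit 5) (nat_lit 173) (nat_lit 5) (nat_lit 167) (nat_lit 5) (nat_lit 455) (nat_lit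 372) (nat_lit 313)) (XT.lf (nat_lit 0) (nat_lit 3390188481) (nat_lit 532) (nat_lit 474326935) (nat_lit 76) (nat_lit 6234925707) (nat_lit 166) (nat_lit 5) (nat_lit 173) (nat_lit 5) (nat_lit 167) (nat_lit 5) (nat_lit 456) (nat_lit 372) (nat_lit 312))))))))
noncomputable def xc75 : XT := (XT.nd (nat_lit 1638) (nat_lit 3420) (nat_lit 0) (XT.nd (nat_lit 780) (nat_lit 2280) (nat_lit 0) (XT.nd (nat_lit 390) (nat_lit 1368) (nat_lit 0) (XT.nd (nat_lit 156) (nat_lit 912) (nat_lit 0) (XT.nd (nat_lit 78) (nat_lit 456) (nat_lit 0) (XT.lf (nat_lit 0) (nat_lit 6028480401) (nat_lit 456) (nat_lit 394022091) (nat_lit 532) (nat_lit 3786672284) (nat_lit 160) (nat_lit 5) (nat_lit 166) (nat_lit 5) (nat_lit 167) (nat_lit 5) (nat_lit 457) (nat_lit 372) (nat_lit 311)) (XT.lf (nat_lit 0) (nat_lit 2308338620) (nat_lit 456) (nat_lit 7211714150) (nat_lit 532) (nat_lit 800970716) (nat_lit 154) (nat_lit 5) (nat_lit 160) (nat_lit 5) (nat_lit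 161) (nat_lit 5) (nat_lit 458) (nat_lit 372) (nat_lit 310))) (XT.nd (nat_lit 78) (nat_lit 836) (nat_lit 0) (XT.lf (nat_lit 0) (nat_lit 2211953341) (nat_lit 532) (nat_lit 1516461557) (nat_lit 76) (nat_lit 6706475643) (nat_lit 153) (nat_lit 5) (nat_lit 160) (nat_lit 5) (nat_lit 154) (nat_lit 5) (nat_lit 459) (nat_lit 372) (nat_lit 309)) (XT.nd (nat_lit 78) (nat_lit 380) (nat_lit 0) (XT.lf (nat_lit 0) (nat_lit 5124166007) (nat_lit 456) (nat_lit 150284078) (nat_lit 532) (nat_lit 5276489659) (nat_lit 147) (nat_lit 5) (nat_lit 153) (nat_lit 5) (nat_lit 154) (nat_lit 5) (nat_lit 460) (nat_lit 372) (nat_lit 308)) (XT.lf (nat_lit 0) (nat_lit 1194245603) (nat_lit 380) (nat_lit 7211682452) (nat_lit 456) (nat_lit 2263238508) (nat_lit 142) (nat_lit 5) (nat_lit 147) (nat_lit 5) (nat_lit 148) (nat_lit 5) (nat_lit 461) (nat_lit 372) (nat_lit 307))))) (XT.nd (nat_lit 156) (nat_lit 836) (nat_lit 0) (XT.nd (nat_lit 78) (nat_lit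 456) (nat_lit 0) (XT.lf (nat_lit 0) (nat_lit 804429117) (nat_lit 456) (nat_lit 2822099202) (nat_lit 76) (nat_lit 7163039636) (nat_lit 141) (nat_lit 5) (nat_lit 147) (nat_lit 5) (nat_lit 142) (nat_lit 5) (nat_lit 462) (nat_lit 372) (nat_lit 306)) (XT.lf (nat_lit 0) (nat_lit 3896985220) (nat_lit 532) (nat_lit 6958826853) (nat_lit 76) (nat_lit 56399910) (nat_lit 135) (nat_lit 5) (nat_lit 142) (nat_lit 5) (nat_lit 136) (nat_lit 5) (nat_lit 463) (nat_lit 372) (nat_lit 305))) (XT.nd (nat_lit 78) (nat_lit 836) (nat_lit 0) (XT.lf (nat_lit 0) (nat_lit 7062476742) (nat_lit 532) (nat_lit 205564936) (nat_lit 76) (nat_lit 3769055928) (nat_lit 135) (nat_lit 5) (nat_lit 142) (nat_lit 5) (nat_lit 136) (nat_lit 5) (nat_lit 464) (nat_lit 372) (nat_lit 304)) (XT.nd (nat_lit 78) (nat_lit 456) (nat_lit 0) (XT.lf (nat_lit 0) (nat_lit 6724756564) (nat_lit 380) (nat_lit 3578814841) (nat_lit 456) (nat_lit 860673865) (nat_lit 130) (nat_lit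 5) (nat_lit 135) (nat_lit 5) (nat_lit 136) (nat_lit 5) (nat_lit 465) (nat_lit 372) (nat_lit 303)) (XT.lf (nat_lit 0) (nat_lit 2272678857) (nat_lit 456) (nat_lit 8821596394) (nat_lit 76) (nat_lit 199619842) (nat_lit 124) (nat_lit 5) (nat_lit 130) (nat_lit 5) (nat_lit 125) (nat_lit 5) (nat_lit 466) (nat_lit 372) (nat_lit 302)))))) (XT.nd (nat_lit 390) (nat_lit 1140) (nat_lit 0) (XT.nd (nat_lit 156) (nat_lit 760) (nat_lit 0) (XT.nd (nat_lit 78) (nat_lit 380) (nat_lit 0) (XT.lf (nat_lit 0) (nat_lit 5479824105) (nat_lit 456) (nat_lit 1919189156) (nat_lit 76) (nat_lit 4026567479) (nat_lit 124) (nat_lit 5) (nat_lit 130) (nat_lit 5) (nat_lit 125) (nat_lit 5) (nat_lit 467) (nat_lit 372) (nat_lit 301)) (XT.lf (nat_lit 0) (nat_lit 5143081924) (nat_lit 380) (nat_lit 3610981223) (nat_lit 456) (nat_lit 2805787355) (nat_lit 119) (nat_lit 5) (nat_lit 124) (nat_lit 5) (nat_lit 125) (nat_lit 5) (nat_lit 468) (nat_lit 372) (nat_lit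 300))) (XT.nd (nat_lit 78) (nat_lit 304) (nat_lit 0) (XT.lf (nat_lit 0) (nat_lit 380192301) (nat_lit 456) (nat_lit 11062704915) (nat_lit 76) (nat_lit 254097598) (nat_lit 113) (nat_lit 5) (nat_lit 119) (nat_lit 5) (nat_lit 114) (nat_lit 5) (nat_lit 469) (nat_lit 372) (nat_lit 299)) (XT.nd (nat_lit 78) (nat_lit 304) (nat_lit 0) (XT.lf (nat_lit 0) (nat_lit 3629468421) (nat_lit 456) (nat_lit 4011408322) (nat_lit 76) (nat_lit 4194900294) (nat_lit 113) (nat_lit 5) (nat_lit 119) (nat_lit 5) (nat_lit 114) (nat_lit 5) (nat_lit 470) (nat_lit 372) (nat_lit 298)) (XT.lf (nat_lit 0) (nat_lit 3177531510) (nat_lit 304) (nat_lit 3757272725) (nat_lit 380) (nat_lit 5042717886) (nat_lit 109) (nat_lit 5) (nat_lit 113) (nat_lit 5) (nat_lit 114) (nat_lit 5) (nat_lit 471) (nat_lit 372) (nat_lit 297))))) (XT.nd (nat_lit 234) (nat_lit 380) (nat_lit 0) (XT.nd (nat_lit 78) (nat_lit 760) (nat_lit 0) (XT.lf (nat_lit 0) (nat_lit 10305300090)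 (nat_lit 380) (nat_lit 1603694154) (nat_lit 76) (nat_lit 213135329) (nat_lit 109) (nat_lit 5) (nat_lit 114) (nat_lit 5) (nat_lit 110) (nat_lit 5) (nat_lit 472) (nat_lit 372) (nat_lit 296)) (XT.nd (nat_lit 78) (nat_lit 304) (nat_lit 0) (XT.lf (nat_lit 0) (nat_lit 1487838284) (nat_lit 456) (nat_lit 6536163789) (nat_lit 76) (nat_lit 4244772197) (nat_lit 103) (nat_lit 5) (nat_lit 109) (nat_lit 5) (nat_lit 104) (nat_lit 5) (nat_lit 473) (nat_lit 372) (nat_lit 295)) (XT.lf (nat_lit 0) (nat_lit 772811544) (nat_lit 304) (nat_lit 4048622946) (nat_lit 380) (nat_lit 7596941975) (nat_lit 99) (nat_lit 5) (nat_lit 103) (nat_lit 5) (nat_lit 104) (nat_lit 5) (nat_lit 474) (nat_lit 372) (nat_lit 294)))) (XT.nd (nat_lit 78) (nat_lit 380) (nat_lit 0) (XT.lf (nat_lit 0) (nat_lit 8237358036) (nat_lit 380) (nat_lit 4298504539) (nat_lit 76) (nat_lit 34802903) (nat_lit 99) (nat_lit 5) (nat_lit 104) (nat_lit 5) (nat_lit 100) (nat_lit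 5) (nat_lit 475) (nat_lit 372) (nat_lit 293)) (XT.nd (nat_lit 78) (nat_lit 76) (nat_lit 0) (XT.lf (nat_lit 0) (nat_lit 3166443136) (nat_lit 304) (nat_lit 8574550362) (nat_lit 380) (nat_lit 984626631) (nat_lit 95) (nat_lit 5) (nat_lit 99) (nat_lit 5) (nat_lit 100) (nat_lit 5) (nat_lit 476) (nat_lit 372) (nat_lit 292)) (XT.lf (nat_lit 0) (nat_lit 2400278672) (nat_lit 380) (nat_lit 2103975299) (nat_lit 76) (nat_lit 8379088967) (nat_lit 94) (nat_lit 5) (nat_lit 99) (nat_lit 5) (nat_lit 95) (nat_lit 5) (nat_lit 477) (nat_lit 372) (nat_lit 291))))))) (XT.nd (nat_lit 780) (nat_lit 1596) (nat_lit 0) (XT.nd (nat_lit 390) (nat_lit 912) (nat_lit 0) (XT.nd (nat_lit 156) (nat_lit 304) (nat_lit 0) (XT.nd (nat_lit 78) (nat_lit 304) (nat_lit 0) (XT.lf (nat_lit 0) (nat_lit 5523247537) (nat_lit 304) (nat_lit 324968391) (nat_lit 380) (nat_lit 7195711030) (nat_lit 90) (nat_lit 5) (nat_lit 94) (nat_lit 5) (nat_lit 95) (nat_lit 5)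 (nat_lit 478) (nat_lit 372) (nat_lit 290)) (XT.lf (nat_lit 0) (nat_lit 56002690) (nat_lit 304) (nat_lit 9322055287) (nat_lit 380) (nat_lit 3829412899) (nat_lit 86) (nat_lit 5) (nat_lit 90) (nat_lit 5) (nat_lit 91) (nat_lit 5) (nat_lit 479) (nat_lit 372) (nat_lit 289))) (XT.nd (nat_lit 78) (nat_lit 304) (nat_lit 0) (XT.lf (nat_lit 0) (nat_lit 7841101206) (nat_lit 304) (nat_lit 5163058873) (nat_lit 380) (nat_lit 369619328) (nat_lit 86) (nat_lit 5) (nat_lit 90) (nat_lit 5) (nat_lit 91) (nat_lit 5) (nat_lit 480) (nat_lit 372) (nat_lit 288)) (XT.nd (nat_lit 78) (nat_lit 0) (nat_lit 0) (XT.lf (nat_lit 0) (nat_lit 2204486411) (nat_lit 228) (nat_lit 901165113) (nat_lit 304) (nat_lit 10437604715) (nat_lit 82) (nat_lit 5) (nat_lit 85) (nat_lit 5) (nat_lit 86) (nat_lit 5) (nat_lit 481) (nat_lit 372) (nat_lit 287)) (XT.lf (nat_lit 0) (nat_lit 6678779496) (nat_lit 304) (nat_lit 3611608891) (nat_lit 76) (nat_lit 3425025933)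 (nat_lit 82) (nat_lit 5) (nat_lit 86) (nat_lit 5) (nat_lit 83) (nat_lit 5) (nat_lit 482) (nat_lit 372) (nat_lit 286))))) (XT.nd (nat_lit 156) (nat_lit 608) (nat_lit 0) (XT.nd (nat_lit 78) (nat_lit 0) (nat_lit 0) (XT.lf (nat_lit 0) (nat_lit 4278522376) (nat_lit 304) (nat_lit 6052662990) (nat_lit 380) (nat_lit 3559680355) (nat_lit 78) (nat_lit 5) (nat_lit 82) (nat_lit 5) (nat_lit 83) (nat_lit 5) (nat_lit 483) (nat_lit 372) (nat_lit 285)) (XT.lf (nat_lit 0) (nat_lit 12333968545) (nat_lit 304) (nat_lit 1721214340) (nat_lit 380) (nat_lit 14678734) (nat_lit 78) (nat_lit 5) (nat_lit 82) (nat_lit 5) (nat_lit 83) (nat_lit 5) (nat_lit 484) (nat_lit 372) (nat_lit 284))) (XT.nd (nat_lit 78) (nat_lit 304) (nat_lit 0) (XT.lf (nat_lit 0) (nat_lit 3587477073) (nat_lit 304) (nat_lit 7952924670) (nat_lit 76) (nat_lit 2710904458) (nat_lit 74) (nat_lit 5) (nat_lit 78) (nat_lit 5) (nat_lit 75) (nat_lit 5) (nat_lit 485) (nat_lit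 372) (nat_lit 283)) (XT.nd (nat_lit 78) (nat_lit 0) (nat_lit 0) (XT.lf (nat_lit 0) (nat_lit 28412551) (nat_lit 304) (nat_lit 7231146652) (nat_lit 380) (nat_lit 7176862909) (nat_lit 70) (nat_lit 5) (nat_lit 74) (nat_lit 5) (nat_lit 75) (nat_lit 5) (nat_lit 486) (nat_lit 372) (nat_lit 282)) (XT.lf (nat_lit 0) (nat_lit 8236338603) (nat_lit 304) (nat_lit 2797112635) (nat_lit 380) (nat_lit 3591227594) (nat_lit 70) (nat_lit 5) (nat_lit 74) (nat_lit 5) (nat_lit 75) (nat_lit 5) (nat_lit 487) (nat_lit 372) (nat_lit 281)))))) (XT.nd (nat_lit 390) (nat_lit 836) (nat_lit 0) (XT.nd (nat_lit 156) (nat_lit 456) (nat_lit 0) (XT.nd (nat_lit 78) (nat_lit 0) (nat_lit 0) (XT.lf (nat_lit 0) (nat_lit 63275578) (nat_lit 304) (nat_lit 13053954560) (nat_lit 76) (nat_lit 1699507144) (nat_lit 66) (nat_lit 5) (nat_lit 70) (nat_lit 5) (nat_lit 67) (nat_lit 5) (nat_lit 488) (nat_lit 372) (nat_lit 280)) (XT.lf (nat_lit 0) (nat_lit 3779948169)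 (nat_lit 304) (nat_lit 4931348548) (nat_lit 76) (nat_lit 6300127625) (nat_lit 66) (nat_lit 5) (nat_lit 70) (nat_lit 5) (nat_lit 67) (nat_lit 5) (nat_lit 489) (nat_lit 372) (nat_lit 279))) (XT.nd (nat_lit 78) (nat_lit 228) (nat_lit 0) (XT.lf (nat_lit 0) (nat_lit 3358043072) (nat_lit 228) (nat_lit 4210639262) (nat_lit 304) (nat_lit 7641373658) (nat_lit 63) (nat_lit 5) (nat_lit 66) (nat_lit 5) (nat_lit 67) (nat_lit 5) (nat_lit 490) (nat_lit 372) (nat_lit 278)) (XT.nd (nat_lit 78) (nat_lit 228) (nat_lit 0) (XT.lf (nat_lit 0) (nat_lit 11445009903) (nat_lit 304) (nat_lit 3574444632) (nat_lit 76) (nat_lit 392974668) (nat_lit 63) (nat_lit 5) (nat_lit 67) (nat_lit 5) (nat_lit 64) (nat_lit 5) (nat_lit 491) (nat_lit 372) (nat_lit 277)) (XT.lf (nat_lit 0) (nat_lit 4865555687) (nat_lit 228) (nat_lit 10569293786) (nat_lit 304) (nat_lit 183285897) (nat_lit 60) (nat_lit 5) (nat_lit 63) (nat_lit 5) (nat_lit 64) (nat_lit 5) (nat_lit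 492) (nat_lit 372) (nat_lit 276))))) (XT.nd (nat_lit 234) (nat_lit 532) (nat_lit 0) (XT.nd (nat_lit 78) (nat_lit 228) (nat_lit 0) (XT.lf (nat_lit 0) (nat_lit 3629016607) (nat_lit 304) (nat_lit 2367803270) (nat_lit 76) (nat_lit 9830649277) (nat_lit 59) (nat_lit 5) (nat_lit 63) (nat_lit 5) (nat_lit 60) (nat_lit 5) (nat_lit 493) (nat_lit 372) (nat_lit 275)) (XT.nd (nat_lit 78) (nat_lit 0) (nat_lit 0) (XT.lf (nat_lit 0) (nat_lit 6226780434) (nat_lit 228) (nat_lit 1305780364) (nat_lit 304) (nat_lit 8508060489) (nat_lit 56) (nat_lit 5) (nat_lit 59) (nat_lit 5) (nat_lit 60) (nat_lit 5) (nat_lit 494) (nat_lit 372) (nat_lit 274)) (XT.lf (nat_lit 0) (nat_lit 11529881863) (nat_lit 304) (nat_lit 1293508876) (nat_lit 76) (nat_lit 3434336406) (nat_lit 56) (nat_lit 5) (nat_lit 60) (nat_lit 5) (nat_lit 57) (nat_lit 5) (nat_lit 495) (nat_lit 372) (nat_lit 273)))) (XT.nd (nat_lit 78) (nat_lit 304) (nat_lit 0) (XT.lf (nat_lit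 0) (nat_lit 7448577019) (nat_lit 228) (nat_lit 8193152614) (nat_lit 304) (nat_lit 836758592) (nat_lit 53) (nat_lit 5) (nat_lit 56) (nat_lit 5) (nat_lit 57) (nat_lit 5) (nat_lit 496) (nat_lit 372) (nat_lit 272)) (XT.nd (nat_lit 78) (nat_lit 228) (nat_lit 0) (XT.lf (nat_lit 0) (nat_lit 3077425219) (nat_lit 304) (nat_lit 378594514) (nat_lit 76) (nat_lit 13247515520) (nat_lit 52) (nat_lit 5) (nat_lit 56) (nat_lit 5) (nat_lit 53) (nat_lit 5) (nat_lit 497) (nat_lit 372) (nat_lit 271)) (XT.lf (nat_lit 0) (nat_lit 7101276549) (nat_lit 304) (nat_lit 8426675298) (nat_lit 76) (nat_lit 1404173433) (nat_lit 49) (nat_lit 5) (nat_lit 53) (nat_lit 5) (nat_lit 50) (nat_lit 5) (nat_lit 498) (nat_lit 372) (nat_lit 270))))))))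
noncomputable def xc76 : XT := (XT.nd (nat_lit 52182) (nat_lit 0) (nat_lit 22268) (XT.nd (nat_lit 51402) (nat_lit 0) (nat_lit 39444) (XT.nd (nat_lit 390) (nat_lit 304) (nat_lit 0) (XT.nd (nat_lit 156) (nat_lit 456) (nat_lit 0) (XT.nd (nat_lit 78) (nat_lit 0) (nat_lit 0) (XT.lf (nat_lit 0) (nat_lit 351671994) (nat_lit 152) (nat_lit 10859810635) (nat_lit 228) (nat_lit 5953691273) (nat_lit 47) (nat_lit 5) (nat_lit 49) (nat_lit 5) (nat_lit 50) (nat_lit 5) (nat_lit 499) (nat_lit 372) (nat_lit 269)) (XT.lf (nat_lit 0) (nat_lit 9382949263) (nat_lit 152) (nat_lit 6055829596) (nat_lit 228) (nat_lit 1963411184) (nat_lit 47) (nat_lit 5) (nat_lit 49) (nat_lit 5) (nat_lit 50) (nat_lit 5) (nat_lit 500) (nat_lit 372) (nat_lit 268))) (XT.nd (nat_lit 78) (nat_lit 152) (nat_lit 0) (XT.lf (nat_lit 0) (nat_lit 912770569) (nat_lit 228) (nat_lit 1150819398) (nat_lit 304) (nat_lit 15580396184) (nat_lit 43) (nat_lit 5) (nat_lit 46)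 (nat_lit 5) (nat_lit 47) (nat_lit 5) (nat_lit 501) (nat_lit 372) (nat_lit 267)) (XT.nd (nat_lit 78) (nat_lit 152) (nat_lit 0) (XT.lf (nat_lit 0) (nat_lit 6202752493) (nat_lit 304) (nat_lit 7832306769) (nat_lit 76) (nat_lit 3854145148) (nat_lit 43) (nat_lit 5) (nat_lit 47) (nat_lit 5) (nat_lit 44) (nat_lit 5) (nat_lit 502) (nat_lit 372) (nat_lit 266)) (XT.lf (nat_lit 0) (nat_lit 1217118500) (nat_lit 152) (nat_lit 9202226483) (nat_lit 228) (nat_lit 7720093057) (nat_lit 41) (nat_lit 5) (nat_lit 43) (nat_lit 5) (nat_lit 44) (nat_lit 5) (nat_lit 503) (nat_lit 372) (nat_lit 265))))) (XT.nd (nat_lit 50778) (nat_lit 0) (nat_lit 45068) (XT.nd (nat_lit 78) (nat_lit 304) (nat_lit 0) (XT.lf (nat_lit 0) (nat_lit 10518133676) (nat_lit 152) (nat_lit 4233996027) (nat_lit 228) (nat_lit 3641913297) (nat_lit 41) (nat_lit 5) (nat_lit 43) (nat_lit 5) (nat_lit 44) (nat_lit 5) (nat_lit 504) (nat_lit 372) (nat_lit 264)) (XT.lf (nat_lit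 0) (nat_lit 504641679) (nat_lit 304) (nat_lit 17328938973) (nat_lit 76) (nat_lit 820223818) (nat_lit 37) (nat_lit 5) (nat_lit 41) (nat_lit 5) (nat_lit 38) (nat_lit 5) (nat_lit 505) (nat_lit 372) (nat_lit 263))) (XT.nd (nat_lit 78) (nat_lit 684) (nat_lit 0) (XT.lf (nat_lit 0) (nat_lit 1122745502) (nat_lit 532) (nat_lit 1073259067) (nat_lit 532) (nat_lit 1073259067) (nat_lit 639) (nat_lit 4) (nat_lit 646) (nat_lit 5) (nat_lit 646) (nat_lit 4) (nat_lit 394) (nat_lit 373) (nat_lit 373)) (XT.nd (nat_lit 78) (nat_lit 608) (nat_lit 0) (XT.lf (nat_lit 0) (nat_lit 950913499) (nat_lit 608) (nat_lit 548103827) (nat_lit 76) (nat_lit 5054114174) (nat_lit 638) (nat_lit 5) (nat_lit 646) (nat_lit 5) (nat_lit 639) (nat_lit 4) (nat_lit 395) (nat_lit 373) (nat_lit 372)) (XT.lf (nat_lit 0) (nat_lit 3250631769) (nat_lit 608) (nat_lit 779130208) (nat_lit 684) (nat_lit 2539080904) (nat_lit 630) (nat_lit 5) (nat_lit 638) (nat_lit 5)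 (nat_lit 639) (nat_lit 4) (nat_lit 396) (nat_lit 373) (nat_lit 371)))))) (XT.nd (nat_lit 390) (nat_lit 3192) (nat_lit 0) (XT.nd (nat_lit 156) (nat_lit 1672) (nat_lit 0) (XT.nd (nat_lit 78) (nat_lit 0) (nat_lit 0) (XT.lf (nat_lit 0) (nat_lit 500507362) (nat_lit 684) (nat_lit 11738942) (nat_lit 760) (nat_lit 6073914696) (nat_lit 620) (nat_lit 5) (nat_lit 629) (nat_lit 5) (nat_lit 630) (nat_lit 5) (nat_lit 397) (nat_lit 373) (nat_lit 370)) (XT.lf (nat_lit 0) (nat_lit 3546939202) (nat_lit 760) (nat_lit 2236271138) (nat_lit 76) (nat_lit 821212132) (nat_lit 620) (nat_lit 5) (nat_lit 630) (nat_lit 5) (nat_lit 621) (nat_lit 4) (nat_lit 398) (nat_lit 373) (nat_lit 369))) (XT.nd (nat_lit 78) (nat_lit 912) (nat_lit 0) (XT.lf (nat_lit 0) (nat_lit 1661317577) (nat_lit 760) (nat_lit 4922152308) (nat_lit 836) (nat_lit 40814654) (nat_lit 610) (nat_lit 5) (nat_lit 620) (nat_lit 5) (nat_lit 621) (nat_lit 4) (nat_lit 399) (nat_lit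 373) (nat_lit 368)) (XT.nd (nat_lit 78) (nat_lit 836) (nat_lit 0) (XT.lf (nat_lit 0) (nat_lit 2942283153) (nat_lit 836) (nat_lit 1048020193) (nat_lit 76) (nat_lit 2654983903) (nat_lit 609) (nat_lit 5) (nat_lit 620) (nat_lit 5) (nat_lit 610) (nat_lit 5) (nat_lit 400) (nat_lit 373) (nat_lit 367)) (XT.lf (nat_lit 0) (nat_lit 2933293074) (nat_lit 836) (nat_lit 3002415418) (nat_lit 912) (nat_lit 732026765) (nat_lit 598) (nat_lit 5) (nat_lit 609) (nat_lit 5) (nat_lit 610) (nat_lit 5) (nat_lit 401) (nat_lit 373) (nat_lit 366))))) (XT.nd (nat_lit 156) (nat_lit 2204) (nat_lit 0) (XT.nd (nat_lit 78) (nat_lit 0) (nat_lit 0) (XT.lf (nat_lit 0) (nat_lit 255579663) (nat_lit 912) (nat_lit 1954063385) (nat_lit 988) (nat_lit 4481915151) (nat_lit 585) (nat_lit 5) (nat_lit 597) (nat_lit 5) (nat_lit 598) (nat_lit 5) (nat_lit 402) (nat_lit 373) (nat_lit 365)) (XT.lf (nat_lit 0) (nat_lit 4320694477) (nat_lit 912) (nat_lit 838357730)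 (nat_lit 988) (nat_lit 1557586179) (nat_lit 585) (nat_lit 5) (nat_lit 597) (nat_lit 5) (nat_lit 598) (nat_lit 5) (nat_lit 403) (nat_lit 373) (nat_lit 364))) (XT.nd (nat_lit 78) (nat_lit 1140) (nat_lit 0) (XT.lf (nat_lit 0) (nat_lit 1354161297) (nat_lit 1064) (nat_lit 5057933343) (nat_lit 76) (nat_lit 331037693) (nat_lit 571) (nat_lit 5) (nat_lit 585) (nat_lit 5) (nat_lit 572) (nat_lit 5) (nat_lit 404) (nat_lit 373) (nat_lit 363)) (XT.nd (nat_lit 78) (nat_lit 1140) (nat_lit 0) (XT.lf (nat_lit 0) (nat_lit 4260588148) (nat_lit 1064) (nat_lit 956816977) (nat_lit 76) (nat_lit 1553447846) (nat_lit 571) (nat_lit 5) (nat_lit 585) (nat_lit 5) (nat_lit 572) (nat_lit 5) (nat_lit 405) (nat_lit 373) (nat_lit 362)) (XT.lf (nat_lit 0) (nat_lit 377803200) (nat_lit 1140) (nat_lit 3584422098) (nat_lit 76) (nat_lit 2837746748) (nat_lit 556) (nat_lit 5) (nat_lit 571) (nat_lit 5) (nat_lit 557) (nat_lit 5) (nat_lit 406) (nat_lit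 373) (nat_lit 361))))))) (XT.nd (nat_lit 780) (nat_lit 8892) (nat_lit 0) (XT.nd (nat_lit 390) (nat_lit 4484) (nat_lit 0) (XT.nd (nat_lit 156) (nat_lit 2660) (nat_lit 0) (XT.nd (nat_lit 78) (nat_lit 0) (nat_lit 0) (XT.lf (nat_lit 0) (nat_lit 594934837) (nat_lit 1140) (nat_lit 2642706021) (nat_lit 1216) (nat_lit 3592794295) (nat_lit 541) (nat_lit 5) (nat_lit 556) (nat_lit 5) (nat_lit 557) (nat_lit 5) (nat_lit 407) (nat_lit 373) (nat_lit 360)) (XT.lf (nat_lit 0) (nat_lit 4855812077) (nat_lit 1140) (nat_lit 1261081120) (nat_lit 1216) (nat_lit 745414989) (nat_lit 541) (nat_lit 5) (nat_lit 556) (nat_lit 5) (nat_lit 557) (nat_lit 5) (nat_lit 408) (nat_lit 373) (nat_lit 359))) (XT.nd (nat_lit 78) (nat_lit 1368) (nat_lit 0) (XT.lf (nat_lit 0) (nat_lit 2085504127) (nat_lit 1292) (nat_lit 4624371765) (nat_lit 76) (nat_lit 185607587) (nat_lit 524) (nat_lit 5) (nat_lit 541) (nat_lit 5) (nat_lit 525) (nat_lit 5) (nat_lit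 409) (nat_lit 373) (nat_lit 358)) (XT.nd (nat_lit 78) (nat_lit 1368) (nat_lit 0) (XT.lf (nat_lit 0) (nat_lit 4924843779) (nat_lit 1292) (nat_lit 332455177) (nat_lit 76) (nat_lit 1672731539) (nat_lit 524) (nat_lit 5) (nat_lit 541) (nat_lit 5) (nat_lit 525) (nat_lit 5) (nat_lit 410) (nat_lit 373) (nat_lit 357)) (XT.lf (nat_lit 0) (nat_lit 811550981) (nat_lit 1368) (nat_lit 2923399425) (nat_lit 76) (nat_lit 3230906269) (nat_lit 506) (nat_lit 5) (nat_lit 524) (nat_lit 5) (nat_lit 507) (nat_lit 5) (nat_lit 411) (nat_lit 373) (nat_lit 356))))) (XT.nd (nat_lit 156) (nat_lit 3116) (nat_lit 0) (XT.nd (nat_lit 78) (nat_lit 0) (nat_lit 0) (XT.lf (nat_lit 0) (nat_lit 1461927535) (nat_lit 1368) (nat_lit 2149061846) (nat_lit 1444) (nat_lit 3392120585) (nat_lit 488) (nat_lit 5) (nat_lit 506) (nat_lit 5) (nat_lit 507) (nat_lit 5) (nat_lit 412) (nat_lit 373) (nat_lit 355)) (XT.lf (nat_lit 0) (nat_lit 5923952386) (nat_lit 1368)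 (nat_lit 504353705) (nat_lit 1444) (nat_lit 613603635) (nat_lit 488) (nat_lit 5) (nat_lit 506) (nat_lit 5) (nat_lit 507) (nat_lit 5) (nat_lit 413) (nat_lit 373) (nat_lit 354))) (XT.nd (nat_lit 78) (nat_lit 1596) (nat_lit 0) (XT.lf (nat_lit 0) (nat_lit 2164153981) (nat_lit 1520) (nat_lit 3716721765) (nat_lit 76) (nat_lit 1200903225) (nat_lit 468) (nat_lit 5) (nat_lit 488) (nat_lit 5) (nat_lit 469) (nat_lit 5) (nat_lit 414) (nat_lit 373) (nat_lit 353)) (XT.nd (nat_lit 78) (nat_lit 76) (nat_lit 0) (XT.lf (nat_lit 0) (nat_lit 782086910) (nat_lit 1520) (nat_lit 4166964396) (nat_lit 1596) (nat_lit 2174154096) (nat_lit 448) (nat_lit 5) (nat_lit 468) (nat_lit 5) (nat_lit 469) (nat_lit 5) (nat_lit 415) (nat_lit 373) (nat_lit 352)) (XT.lf (nat_lit 0) (nat_lit 585297488) (nat_lit 1596) (nat_lit 1799673680) (nat_lit 76) (nat_lit 4781057689) (nat_lit 447) (nat_lit 5) (nat_lit 468) (nat_lit 5) (nat_lit 448) (nat_lit 5) (nat_lit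 416) (nat_lit 373) (nat_lit 351)))))) (XT.nd (nat_lit 390) (nat_lit 3800) (nat_lit 0) (XT.nd (nat_lit 156) (nat_lit 1824) (nat_lit 0) (XT.nd (nat_lit 78) (nat_lit 1672) (nat_lit 0) (XT.lf (nat_lit 0) (nat_lit 2804247278) (nat_lit 1596) (nat_lit 530098693) (nat_lit 1672) (nat_lit 3875839796) (nat_lit 426) (nat_lit 5) (nat_lit 447) (nat_lit 5) (nat_lit 448) (nat_lit 5) (nat_lit 417) (nat_lit 373) (nat_lit 350)) (XT.lf (nat_lit 0) (nat_lit 211979934) (nat_lit 1672) (nat_lit 5894825046) (nat_lit 1748) (nat_lit 1149086366) (nat_lit 404) (nat_lit 5) (nat_lit 426) (nat_lit 5) (nat_lit 427) (nat_lit 5) (nat_lit 418) (nat_lit 373) (nat_lit 349))) (XT.nd (nat_lit 78) (nat_lit 1748) (nat_lit 0) (XT.lf (nat_lit 0) (nat_lit 1590462286) (nat_lit 1748) (nat_lit 2386184696) (nat_lit 76) (nat_lit 3326091569) (nat_lit 403) (nat_lit 5) (nat_lit 426) (nat_lit 5) (nat_lit 404) (nat_lit 5) (nat_lit 419) (nat_lit 373) (nat_lit 348))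 (XT.nd (nat_lit 78) (nat_lit 0) (nat_lit 0) (XT.lf (nat_lit 0) (nat_lit 2336811238) (nat_lit 1748) (nat_lit 1995236235) (nat_lit 1824) (nat_lit 3019102835) (nat_lit 380) (nat_lit 5) (nat_lit 403) (nat_lit 5) (nat_lit 404) (nat_lit 5) (nat_lit 420) (nat_lit 373) (nat_lit 347)) (XT.lf (nat_lit 0) (nat_lit 7092906051) (nat_lit 1824) (nat_lit 265536107) (nat_lit 76) (nat_lit 42830831) (nat_lit 380) (nat_lit 5) (nat_lit 404) (nat_lit 5) (nat_lit 381) (nat_lit 5) (nat_lit 421) (nat_lit 373) (nat_lit 346))))) (XT.nd (nat_lit 234) (nat_lit 1748) (nat_lit 0) (XT.nd (nat_lit 78) (nat_lit 988) (nat_lit 0) (XT.lf (nat_lit 0) (nat_lit 2416367678) (nat_lit 1064) (nat_lit 2894113246) (nat_lit 76) (nat_lit 2141788454) (nat_lit 366) (nat_lit 5) (nat_lit 380) (nat_lit 5) (nat_lit 367) (nat_lit 5) (nat_lit 422) (nat_lit 373) (nat_lit 345)) (XT.nd (nat_lit 78) (nat_lit 76) (nat_lit 0) (XT.lf (nat_lit 0) (nat_lit 1950174745) (nat_lit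 912) (nat_lit 3205232550) (nat_lit 988) (nat_lit 2349588550) (nat_lit 354) (nat_lit 5) (nat_lit 366) (nat_lit 5) (nat_lit 367) (nat_lit 5) (nat_lit 423) (nat_lit 373) (nat_lit 344)) (XT.lf (nat_lit 0) (nat_lit 354662219) (nat_lit 988) (nat_lit 681853154) (nat_lit 76) (nat_lit 6522852676) (nat_lit 353) (nat_lit 5) (nat_lit 366) (nat_lit 5) (nat_lit 354) (nat_lit 5) (nat_lit 424) (nat_lit 373) (nat_lit 343)))) (XT.nd (nat_lit 78) (nat_lit 912) (nat_lit 0) (XT.lf (nat_lit 0) (nat_lit 3068026409) (nat_lit 912) (nat_lit 3344127692) (nat_lit 76) (nat_lit 1202661184) (nat_lit 342) (nat_lit 5) (nat_lit 354) (nat_lit 5) (nat_lit 343) (nat_lit 5) (nat_lit 425) (nat_lit 373) (nat_lit 342)) (XT.nd (nat_lit 78) (nat_lit 76) (nat_lit 0) (XT.lf (nat_lit 0) (nat_lit 1623610150) (nat_lit 836) (nat_lit 4185457770) (nat_lit 912) (nat_lit 1862862788) (nat_lit 331) (nat_lit 5) (nat_lit 342) (nat_lit 5) (nat_lit 343) (nat_lit 5)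 (nat_lit 426) (nat_lit 373) (nat_lit 341)) (XT.lf (nat_lit 0) (nat_lit 837536688) (nat_lit 912) (nat_lit 1050898229) (nat_lit 76) (nat_lit 5842180966) (nat_lit 330) (nat_lit 5) (nat_lit 342) (nat_lit 5) (nat_lit 331) (nat_lit 5) (nat_lit 427) (nat_lit 373) (nat_lit 340))))))))
noncomputable def xc77 : XT := (XT.nd (nat_lit 1638) (nat_lit 6308) (nat_lit 0) (XT.nd (nat_lit 780) (nat_lit 4408) (nat_lit 0) (XT.nd (nat_lit 390) (nat_lit 2204) (nat_lit 0) (XT.nd (nat_lit 156) (nat_lit 1596) (nat_lit 0) (XT.nd (nat_lit 78) (nat_lit 760) (nat_lit 0) (XT.lf (nat_lit 0) (nat_lit 3549045103) (nat_lit 836) (nat_lit 3757142911) (nat_lit 76) (nat_lit 484425444) (nat_lit 320) (nat_lit 5) (nat_lit 331) (nat_lit 5) (nat_lit 321) (nat_lit 5) (nat_lit 428) (nat_lit 373) (nat_lit 339)) (XT.lf (nat_lit 0) (nat_lit 1336107279) (nat_lit 760) (nat_lit 4960164545) (nat_lit 836) (nat_lit 1555934750) (nat_lit 310) (nat_lit 5) (nat_lit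 320) (nat_lit 5) (nat_lit 321) (nat_lit 5) (nat_lit 429) (nat_lit 373) (nat_lit 338))) (XT.nd (nat_lit 78) (nat_lit 1520) (nat_lit 0) (XT.lf (nat_lit 0) (nat_lit 1146736770) (nat_lit 836) (nat_lit 1391498782) (nat_lit 76) (nat_lit 5377089781) (nat_lit 309) (nat_lit 5) (nat_lit 320) (nat_lit 5) (nat_lit 310) (nat_lit 5) (nat_lit 430) (nat_lit 373) (nat_lit 337)) (XT.nd (nat_lit 78) (nat_lit 760) (nat_lit 0) (XT.lf (nat_lit 0) (nat_lit 3825190390) (nat_lit 760) (nat_lit 36671456) (nat_lit 836) (nat_lit 4118078136) (nat_lit 299) (nat_lit 5) (nat_lit 309) (nat_lit 5) (nat_lit 310) (nat_lit 5) (nat_lit 431) (nat_lit 373) (nat_lit 336)) (XT.lf (nat_lit 0) (nat_lit 1066178825) (nat_lit 760) (nat_lit 5552678553) (nat_lit 836) (nat_lit 1427261609) (nat_lit 289) (nat_lit 5) (nat_lit 299) (nat_lit 5) (nat_lit 300) (nat_lit 5) (nat_lit 432) (nat_lit 373) (nat_lit 335))))) (XT.nd (nat_lit 156) (nat_lit 1444) (nat_lit 0)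 (XT.nd (nat_lit 78) (nat_lit 684) (nat_lit 0) (XT.lf (nat_lit 0) (nat_lit 1283557857) (nat_lit 836) (nat_lit 1725313448) (nat_lit 76) (nat_lit 5104932432) (nat_lit 288) (nat_lit 5) (nat_lit 299) (nat_lit 5) (nat_lit 289) (nat_lit 5) (nat_lit 433) (nat_lit 373) (nat_lit 334)) (XT.lf (nat_lit 0) (nat_lit 3622350457) (nat_lit 684) (nat_lit 386704198) (nat_lit 760) (nat_lit 4174029473) (nat_lit 279) (nat_lit 5) (nat_lit 288) (nat_lit 5) (nat_lit 289) (nat_lit 5) (nat_lit 434) (nat_lit 373) (nat_lit 333))) (XT.nd (nat_lit 78) (nat_lit 760) (nat_lit 0) (XT.lf (nat_lit 0) (nat_lit 791657326) (nat_lit 684) (nat_lit 5985586050) (nat_lit 760) (nat_lit 1476764751) (nat_lit 270) (nat_lit 5) (nat_lit 279) (nat_lit 5) (nat_lit 280) (nat_lit 5) (nat_lit 435) (nat_lit 373) (nat_lit 332)) (XT.nd (nat_lit 78) (nat_lit 684) (nat_lit 0) (XT.lf (nat_lit 0) (nat_lit 1247852643) (nat_lit 760) (nat_lit 2074751295) (nat_lit 76) (nat_lit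 5003799537) (nat_lit 269) (nat_lit 5) (nat_lit 279) (nat_lit 5) (nat_lit 270) (nat_lit 5) (nat_lit 436) (nat_lit 373) (nat_lit 331)) (XT.lf (nat_lit 0) (nat_lit 3405590433) (nat_lit 684) (nat_lit 581329279) (nat_lit 760) (nat_lit 4413557554) (nat_lit 260) (nat_lit 5) (nat_lit 269) (nat_lit 5) (nat_lit 270) (nat_lit 5) (nat_lit 437) (nat_lit 373) (nat_lit 330)))))) (XT.nd (nat_lit 390) (nat_lit 2356) (nat_lit 0) (XT.nd (nat_lit 156) (nat_lit 1292) (nat_lit 0) (XT.nd (nat_lit 78) (nat_lit 76) (nat_lit 0) (XT.lf (nat_lit 0) (nat_lit 489481922) (nat_lit 684) (nat_lit 6280919930) (nat_lit 760) (nat_lit 1705857998) (nat_lit 251) (nat_lit 5) (nat_lit 260) (nat_lit 5) (nat_lit 261) (nat_lit 5) (nat_lit 438) (nat_lit 373) (nat_lit 329)) (XT.lf (nat_lit 0) (nat_lit 1038000816) (nat_lit 760) (nat_lit 2463187637) (nat_lit 76) (nat_lit 5052334627) (nat_lit 250) (nat_lit 5) (nat_lit 260) (nat_lit 5) (nat_lit 251) (nat_lit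 5) (nat_lit 439) (nat_lit 373) (nat_lit 328))) (XT.nd (nat_lit 78) (nat_lit 684) (nat_lit 0) (XT.lf (nat_lit 0) (nat_lit 3151282599) (nat_lit 608) (nat_lit 642177357) (nat_lit 684) (nat_lit 4839073648) (nat_lit 242) (nat_lit 5) (nat_lit 250) (nat_lit 5) (nat_lit 251) (nat_lit 5) (nat_lit 440) (nat_lit 373) (nat_lit 327)) (XT.nd (nat_lit 78) (nat_lit 76) (nat_lit 0) (XT.lf (nat_lit 0) (nat_lit 135472954) (nat_lit 608) (nat_lit 6460345758) (nat_lit 684) (nat_lit 2117488287) (nat_lit 234) (nat_lit 5) (nat_lit 242) (nat_lit 5) (nat_lit 243) (nat_lit 5) (nat_lit 441) (nat_lit 373) (nat_lit 326)) (XT.lf (nat_lit 0) (nat_lit 650866373) (nat_lit 684) (nat_lit 2915192600) (nat_lit 76) (nat_lit 5229549642) (nat_lit 233) (nat_lit 5) (nat_lit 242) (nat_lit 5) (nat_lit 234) (nat_lit 5) (nat_lit 442) (nat_lit 373) (nat_lit 325))))) (XT.nd (nat_lit 234) (nat_lit 1064) (nat_lit 0) (XT.nd (nat_lit 78) (nat_lit 684) (nat_lit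 0) (XT.lf (nat_lit 0) (nat_lit 2834548749) (nat_lit 608) (nat_lit 590602578) (nat_lit 684) (nat_lit 5454564079) (nat_lit 225) (nat_lit 5) (nat_lit 233) (nat_lit 5) (nat_lit 234) (nat_lit 5) (nat_lit 443) (nat_lit 373) (nat_lit 324)) (XT.nd (nat_lit 78) (nat_lit 684) (nat_lit 0) (XT.lf (nat_lit 0) (nat_lit 6251362864) (nat_lit 684) (nat_lit 292026766) (nat_lit 76) (nat_lit 2422202947) (nat_lit 225) (nat_lit 5) (nat_lit 234) (nat_lit 5) (nat_lit 226) (nat_lit 5) (nat_lit 444) (nat_lit 373) (nat_lit 323)) (XT.lf (nat_lit 0) (nat_lit 81741987) (nat_lit 684) (nat_lit 3456774533) (nat_lit 76) (nat_lit 5514638829) (nat_lit 216) (nat_lit 5) (nat_lit 225) (nat_lit 5) (nat_lit 217) (nat_lit 5) (nat_lit 445) (nat_lit 373) (nat_lit 322)))) (XT.nd (nat_lit 78) (nat_lit 532) (nat_lit 0) (XT.lf (nat_lit 0) (nat_lit 2429010874) (nat_lit 532) (nat_lit 447871972) (nat_lit 608) (nat_lit 6265651921) (nat_lit 209) (nat_lit 5) (nat_lit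 216) (nat_lit 5) (nat_lit 217) (nat_lit 5) (nat_lit 446) (nat_lit 373) (nat_lit 321)) (XT.nd (nat_lit 78) (nat_lit 532) (nat_lit 0) (XT.lf (nat_lit 0) (nat_lit 5731015244) (nat_lit 608) (nat_lit 820903059) (nat_lit 76) (nat_lit 2681737459) (nat_lit 209) (nat_lit 5) (nat_lit 217) (nat_lit 5) (nat_lit 210) (nat_lit 5) (nat_lit 447) (nat_lit 373) (nat_lit 320)) (XT.lf (nat_lit 0) (nat_lit 5206534757) (nat_lit 532) (nat_lit 3435385810) (nat_lit 608) (nat_lit 684700257) (nat_lit 202) (nat_lit 5) (nat_lit 209) (nat_lit 5) (nat_lit 210) (nat_lit 5) (nat_lit 448) (nat_lit 373) (nat_lit 319))))))) (XT.nd (nat_lit 780) (nat_lit 3116) (nat_lit 0) (XT.nd (nat_lit 390) (nat_lit 1520) (nat_lit 0) (XT.nd (nat_lit 156) (nat_lit 1064) (nat_lit 0) (XT.nd (nat_lit 78) (nat_lit 0) (nat_lit 0) (XT.lf (nat_lit 0) (nat_lit 1906524016) (nat_lit 532) (nat_lit 235358775) (nat_lit 608) (nat_lit 7279672903) (nat_lit 194) (nat_lit 5) (nat_lit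 201) (nat_lit 5) (nat_lit 202) (nat_lit 5) (nat_lit 449) (nat_lit 373) (nat_lit 318)) (XT.lf (nat_lit 0) (nat_lit 5026745334) (nat_lit 608) (nat_lit 1481593682) (nat_lit 76) (nat_lit 3009755972) (nat_lit 194) (nat_lit 5) (nat_lit 202) (nat_lit 5) (nat_lit 195) (nat_lit 5) (nat_lit 450) (nat_lit 373) (nat_lit 317))) (XT.nd (nat_lit 78) (nat_lit 532) (nat_lit 0) (XT.lf (nat_lit 0) (nat_lit 4684459717) (nat_lit 532) (nat_lit 3280948330) (nat_lit 608) (nat_lit 1651249240) (nat_lit 187) (nat_lit 5) (nat_lit 194) (nat_lit 5) (nat_lit 195) (nat_lit 5) (nat_lit 451) (nat_lit 373) (nat_lit 316)) (XT.nd (nat_lit 78) (nat_lit 0) (nat_lit 0) (XT.lf (nat_lit 0) (nat_lit 1211794092) (nat_lit 532) (nat_lit 8480671725) (nat_lit 76) (nat_lit 24927427) (nat_lit 180) (nat_lit 5) (nat_lit 187) (nat_lit 5) (nat_lit 181) (nat_lit 5) (nat_lit 452) (nat_lit 373) (nat_lit 315)) (XT.lf (nat_lit 0) (nat_lit 4129638107) (nat_lit 532) (nat_lit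 2304916660) (nat_lit 76) (nat_lit 3384991309) (nat_lit 180) (nat_lit 5) (nat_lit 187) (nat_lit 5) (nat_lit 181) (nat_lit 5) (nat_lit 453) (nat_lit 373) (nat_lit 314))))) (XT.nd (nat_lit 156) (nat_lit 456) (nat_lit 0) (XT.nd (nat_lit 78) (nat_lit 532) (nat_lit 0) (XT.lf (nat_lit 0) (nat_lit 3999326798) (nat_lit 532) (nat_lit 3097757320) (nat_lit 608) (nat_lit 2826846134) (nat_lit 173) (nat_lit 5) (nat_lit 180) (nat_lit 5) (nat_lit 181) (nat_lit 5) (nat_lit 454) (nat_lit 373) (nat_lit 313)) (XT.lf (nat_lit 0) (nat_lit 77774316) (nat_lit 532) (nat_lit 9645216151) (nat_lit 76) (nat_lit 307701717) (nat_lit 166) (nat_lit 5) (nat_lit 173) (nat_lit 5) (nat_lit 167) (nat_lit 5) (nat_lit 455) (nat_lit 373) (nat_lit 312))) (XT.nd (nat_lit 78) (nat_lit 456) (nat_lit 0) (XT.lf (nat_lit 0) (nat_lit 3028905514) (nat_lit 532) (nat_lit 3324163395) (nat_lit 76) (nat_lit 3785633769) (nat_lit 166) (nat_lit 5) (nat_lit 173) (nat_lit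 5) (nat_lit 167) (nat_lit 5) (nat_lit 456) (nat_lit 373) (nat_lit 311)) (XT.nd (nat_lit 78) (nat_lit 0) (nat_lit 0) (XT.lf (nat_lit 0) (nat_lit 3117196162) (nat_lit 456) (nat_lit 2908473625) (nat_lit 532) (nat_lit 4223483570) (nat_lit 160) (nat_lit 5) (nat_lit 166) (nat_lit 5) (nat_lit 167) (nat_lit 5) (nat_lit 457) (nat_lit 373) (nat_lit 310)) (XT.lf (nat_lit 0) (nat_lit 9075392808) (nat_lit 532) (nat_lit 680277908) (nat_lit 76) (nat_lit 606293811) (nat_lit 160) (nat_lit 5) (nat_lit 167) (nat_lit 5) (nat_lit 161) (nat_lit 5) (nat_lit 458) (nat_lit 373) (nat_lit 309)))))) (XT.nd (nat_lit 390) (nat_lit 1216) (nat_lit 0) (XT.nd (nat_lit 156) (nat_lit 912) (nat_lit 0) (XT.nd (nat_lit 78) (nat_lit 456) (nat_lit 0) (XT.lf (nat_lit 0) (nat_lit 1711760333) (nat_lit 532) (nat_lit 4575442000) (nat_lit 76) (nat_lit 4189117203) (nat_lit 153) (nat_lit 5) (nat_lit 160) (nat_lit 5) (nat_lit 154) (nat_lit 5) (nat_lit 459)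 (nat_lit 373) (nat_lit 308)) (XT.lf (nat_lit 0) (nat_lit 2001212455) (nat_lit 456) (nat_lit 2736635398) (nat_lit 532) (nat_lit 5855254645) (nat_lit 147) (nat_lit 5) (nat_lit 153) (nat_lit 5) (nat_lit 154) (nat_lit 5) (nat_lit 460) (nat_lit 373) (nat_lit 307))) (XT.nd (nat_lit 78) (nat_lit 912) (nat_lit 0) (XT.lf (nat_lit 0) (nat_lit 7828769839) (nat_lit 532) (nat_lit 1992884711) (nat_lit 76) (nat_lit 890491351) (nat_lit 147) (nat_lit 5) (nat_lit 154) (nat_lit 5) (nat_lit 148) (nat_lit 5) (nat_lit 461) (nat_lit 373) (nat_lit 306)) (XT.nd (nat_lit 78) (nat_lit 456) (nat_lit 0) (XT.lf (nat_lit 0) (nat_lit 163271447) (nat_lit 456) (nat_lit 6098050893) (nat_lit 76) (nat_lit 4571893797) (nat_lit 141) (nat_lit 5) (nat_lit 147) (nat_lit 5) (nat_lit 142) (nat_lit 5) (nat_lit 462) (nat_lit 373) (nat_lit 305)) (XT.lf (nat_lit 0) (nat_lit 611220326) (nat_lit 456) (nat_lit 2606891595) (nat_lit 532) (nat_lit 7738507704) (nat_lit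 135) (nat_lit 5) (nat_lit 141) (nat_lit 5) (nat_lit 142) (nat_lit 5) (nat_lit 463) (nat_lit 373) (nat_lit 304))))) (XT.nd (nat_lit 234) (nat_lit 760) (nat_lit 0) (XT.nd (nat_lit 78) (nat_lit 456) (nat_lit 0) (XT.lf (nat_lit 0) (nat_lit 6351148928) (nat_lit 532) (nat_lit 3598084014) (nat_lit 76) (nat_lit 1132926444) (nat_lit 135) (nat_lit 5) (nat_lit 142) (nat_lit 5) (nat_lit 136) (nat_lit 5) (nat_lit 464) (nat_lit 373) (nat_lit 303)) (XT.nd (nat_lit 78) (nat_lit 76) (nat_lit 0) (XT.lf (nat_lit 0) (nat_lit 3264430869) (nat_lit 380) (nat_lit 6290121634) (nat_lit 456) (nat_lit 1655513318) (nat_lit 130) (nat_lit 5) (nat_lit 135) (nat_lit 5) (nat_lit 136) (nat_lit 5) (nat_lit 465) (nat_lit 373) (nat_lit 302)) (XT.lf (nat_lit 0) (nat_lit 1455715011) (nat_lit 456) (nat_lit 1082272301) (nat_lit 76) (nat_lit 8802487276) (nat_lit 129) (nat_lit 5) (nat_lit 135) (nat_lit 5) (nat_lit 130) (nat_lit 5) (nat_lit 466) (nat_lit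 373) (nat_lit 301)))) (XT.nd (nat_lit 78) (nat_lit 380) (nat_lit 0) (XT.lf (nat_lit 0) (nat_lit 4624144591) (nat_lit 456) (nat_lit 5540931885) (nat_lit 76) (nat_lit 1307862737) (nat_lit 124) (nat_lit 5) (nat_lit 130) (nat_lit 5) (nat_lit 125) (nat_lit 5) (nat_lit 467) (nat_lit 373) (nat_lit 300)) (XT.nd (nat_lit 78) (nat_lit 0) (nat_lit 0) (XT.lf (nat_lit 0) (nat_lit 1450764327) (nat_lit 380) (nat_lit 6408871816) (nat_lit 456) (nat_lit 3748352353) (nat_lit 119) (nat_lit 5) (nat_lit 124) (nat_lit 5) (nat_lit 125) (nat_lit 5) (nat_lit 468) (nat_lit 373) (nat_lit 299)) (XT.lf (nat_lit 0) (nat_lit 8612955702) (nat_lit 380) (nat_lit 2554516479) (nat_lit 456) (nat_lit 578122945) (nat_lit 119) (nat_lit 5) (nat_lit 124) (nat_lit 5) (nat_lit 125) (nat_lit 5) (nat_lit 469) (nat_lit 373) (nat_lit 298))))))))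
noncomputable def xc78 : XT := (XT.nd (nat_lit 1638) (nat_lit 1900) (nat_lit 0) (XT.nd (nat_lit 780) (nat_lit 1824) (nat_lit 0) (XT.nd (nat_lit 390) (nat_lit 988) (nat_lit 0) (XT.nd (nat_lit 156) (nat_lit 760) (nat_lit 0) (XT.nd (nat_lit 78) (nat_lit 0) (nat_lit 0) (XT.lf (nat_lit 0) (nat_lit 2626771872) (nat_lit 456) (nat_lit 7870810861) (nat_lit 76) (nat_lit 1387913264) (nat_lit 113) (nat_lit 5) (nat_lit 119) (nat_lit 5) (nat_lit 114) (nat_lit 5) (nat_lit 470) (nat_lit 373) (nat_lit 297)) (XT.lf (nat_lit 0) (nat_lit 5897132030) (nat_lit 456) (nat_lit 745412810) (nat_lit 76) (nat_lit 5385399980) (nat_lit 113) (nat_lit 5) (nat_lit 119) (nat_lit 5) (nat_lit 114) (nat_lit 5) (nat_lit 471) (nat_lit 373) (nat_lit 296))) (XT.nd (nat_lit 78) (nat_lit 456) (nat_lit 0) (XT.lf (nat_lit 0) (nat_lit 6565291189) (nat_lit 304) (nat_lit 2681825670) (nat_lit 380) (nat_lit 2925849773) (nat_lit 109) (nat_lit 5) (nat_lit 113)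 (nat_lit 5) (nat_lit 114) (nat_lit 5) (nat_lit 472) (nat_lit 373) (nat_lit 295)) (XT.nd (nat_lit 78) (nat_lit 0) (nat_lit 0) (XT.lf (nat_lit 0) (nat_lit 335221096) (nat_lit 456) (nat_lit 10641944448) (nat_lit 76) (nat_lit 1343756612) (nat_lit 103) (nat_lit 5) (nat_lit 109) (nat_lit 5) (nat_lit 104) (nat_lit 5) (nat_lit 473) (nat_lit 373) (nat_lit 294)) (XT.lf (nat_lit 0) (nat_lit 3649865112) (nat_lit 456) (nat_lit 3364684876) (nat_lit 76) (nat_lit 5456357307) (nat_lit 103) (nat_lit 5) (nat_lit 109) (nat_lit 5) (nat_lit 104) (nat_lit 5) (nat_lit 474) (nat_lit 373) (nat_lit 293))))) (XT.nd (nat_lit 156) (nat_lit 684) (nat_lit 0) (XT.nd (nat_lit 78) (nat_lit 0) (nat_lit 0) (XT.lf (nat_lit 0) (nat_lit 4068744948) (nat_lit 304) (nat_lit 2960878111) (nat_lit 380) (nat_lit 5594300387) (nat_lit 99) (nat_lit 5) (nat_lit 103) (nat_lit 5) (nat_lit 104) (nat_lit 5) (nat_lit 475) (nat_lit 373) (nat_lit 292)) (XT.lf (nat_lit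 0) (nat_lit 10479897322) (nat_lit 380) (nat_lit 1133778910) (nat_lit 76) (nat_lit 1166272839) (nat_lit 99) (nat_lit 5) (nat_lit 104) (nat_lit 5) (nat_lit 100) (nat_lit 5) (nat_lit 476) (nat_lit 373) (nat_lit 291))) (XT.nd (nat_lit 78) (nat_lit 304) (nat_lit 0) (XT.lf (nat_lit 0) (nat_lit 1081055084) (nat_lit 380) (nat_lit 6486440197) (nat_lit 76) (nat_lit 5370772029) (nat_lit 94) (nat_lit 5) (nat_lit 99) (nat_lit 5) (nat_lit 95) (nat_lit 5) (nat_lit 477) (nat_lit 373) (nat_lit 290)) (XT.nd (nat_lit 78) (nat_lit 0) (nat_lit 0) (XT.lf (nat_lit 0) (nat_lit 1061394625) (nat_lit 304) (nat_lit 3425351900) (nat_lit 380) (nat_lit 8612953254) (nat_lit 90) (nat_lit 5) (nat_lit 94) (nat_lit 5) (nat_lit 95) (nat_lit 5) (nat_lit 478) (nat_lit 373) (nat_lit 289)) (XT.lf (nat_lit 0) (nat_lit 7982895201) (nat_lit 380) (nat_lit 4463177742) (nat_lit 76) (nat_lit 817848086) (nat_lit 90) (nat_lit 5) (nat_lit 95) (nat_lit 5) (nat_lit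 91) (nat_lit 5) (nat_lit 479) (nat_lit 373) (nat_lit 288)))))) (XT.nd (nat_lit 390) (nat_lit 912) (nat_lit 0) (XT.nd (nat_lit 156) (nat_lit 532) (nat_lit 0) (XT.nd (nat_lit 78) (nat_lit 76) (nat_lit 0) (XT.lf (nat_lit 0) (nat_lit 3241795356) (nat_lit 304) (nat_lit 8324762613) (nat_lit 380) (nat_lit 1864523774) (nat_lit 86) (nat_lit 5) (nat_lit 90) (nat_lit 5) (nat_lit 91) (nat_lit 5) (nat_lit 480) (nat_lit 373) (nat_lit 287)) (XT.lf (nat_lit 0) (nat_lit 1603131920) (nat_lit 380) (nat_lit 2491906958) (nat_lit 76) (nat_lit 9506261502) (nat_lit 85) (nat_lit 5) (nat_lit 90) (nat_lit 5) (nat_lit 86) (nat_lit 5) (nat_lit 481) (nat_lit 373) (nat_lit 286))) (XT.nd (nat_lit 78) (nat_lit 304) (nat_lit 0) (XT.lf (nat_lit 0) (nat_lit 5126183001) (nat_lit 304) (nat_lit 8399297821) (nat_lit 76) (nat_lit 248982378) (nat_lit 82) (nat_lit 5) (nat_lit 86) (nat_lit 5) (nat_lit 83) (nat_lit 5) (nat_lit 482) (nat_lit 373) (nat_lit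 285)) (XT.nd (nat_lit 78) (nat_lit 304) (nat_lit 0) (XT.lf (nat_lit 0) (nat_lit 8738224132) (nat_lit 304) (nat_lit 585527909) (nat_lit 76) (nat_lit 4626972993) (nat_lit 82) (nat_lit 5) (nat_lit 86) (nat_lit 5) (nat_lit 83) (nat_lit 5) (nat_lit 483) (nat_lit 373) (nat_lit 284)) (XT.lf (nat_lit 0) (nat_lit 7442022344) (nat_lit 304) (nat_lit 5003877597) (nat_lit 380) (nat_lit 1684150501) (nat_lit 78) (nat_lit 5) (nat_lit 82) (nat_lit 5) (nat_lit 83) (nat_lit 5) (nat_lit 484) (nat_lit 373) (nat_lit 283))))) (XT.nd (nat_lit 234) (nat_lit 304) (nat_lit 0) (XT.nd (nat_lit 78) (nat_lit 304) (nat_lit 0) (XT.lf (nat_lit 0) (nat_lit 1289459227) (nat_lit 228) (nat_lit 587658257) (nat_lit 304) (nat_lit 12435852949) (nat_lit 74) (nat_lit 5) (nat_lit 77) (nat_lit 5) (nat_lit 78) (nat_lit 5) (nat_lit 485) (nat_lit 373) (nat_lit 282)) (XT.nd (nat_lit 78) (nat_lit 304) (nat_lit 0) (XT.lf (nat_lit 0) (nat_lit 5532954686) (nat_lit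 304) (nat_lit 5058684744) (nat_lit 76) (nat_lit 3906774712) (nat_lit 74) (nat_lit 5) (nat_lit 78) (nat_lit 5) (nat_lit 75) (nat_lit 5) (nat_lit 486) (nat_lit 373) (nat_lit 281)) (XT.lf (nat_lit 0) (nat_lit 3062191732) (nat_lit 304) (nat_lit 6199240578) (nat_lit 380) (nat_lit 5426149683) (nat_lit 70) (nat_lit 5) (nat_lit 74) (nat_lit 5) (nat_lit 75) (nat_lit 5) (nat_lit 487) (nat_lit 373) (nat_lit 280)))) (XT.nd (nat_lit 78) (nat_lit 304) (nat_lit 0) (XT.lf (nat_lit 0) (nat_lit 11374801580) (nat_lit 304) (nat_lit 1699595077) (nat_lit 380) (nat_lit 1805943828) (nat_lit 70) (nat_lit 5) (nat_lit 74) (nat_lit 5) (nat_lit 75) (nat_lit 5) (nat_lit 488) (nat_lit 373) (nat_lit 279)) (XT.nd (nat_lit 78) (nat_lit 0) (nat_lit 0) (XT.lf (nat_lit 0) (nat_lit 1888245572) (nat_lit 304) (nat_lit 10307065737) (nat_lit 76) (nat_lit 2880876792) (nat_lit 66) (nat_lit 5) (nat_lit 70) (nat_lit 5) (nat_lit 67) (nat_lit 5) (nat_lit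 489) (nat_lit 373) (nat_lit 278)) (XT.lf (nat_lit 0) (nat_lit 5643492703) (nat_lit 304) (nat_lit 2080987368) (nat_lit 76) (nat_lit 7551012045) (nat_lit 66) (nat_lit 5) (nat_lit 70) (nat_lit 5) (nat_lit 67) (nat_lit 5) (nat_lit 490) (nat_lit 373) (nat_lit 277))))))) (XT.nd (nat_lit 780) (nat_lit 456) (nat_lit 0) (XT.nd (nat_lit 390) (nat_lit 684) (nat_lit 0) (XT.nd (nat_lit 156) (nat_lit 532) (nat_lit 0) (XT.nd (nat_lit 78) (nat_lit 0) (nat_lit 0) (XT.lf (nat_lit 0) (nat_lit 6354790847) (nat_lit 228) (nat_lit 3137173770) (nat_lit 304) (nat_lit 5986460399) (nat_lit 63) (nat_lit 5) (nat_lit 66) (nat_lit 5) (nat_lit 67) (nat_lit 5) (nat_lit 491) (nat_lit 373) (nat_lit 276)) (XT.lf (nat_lit 0) (nat_lit 13418444465) (nat_lit 304) (nat_lit 746029020) (nat_lit 76) (nat_lit 1520927415) (nat_lit 63) (nat_lit 5) (nat_lit 67) (nat_lit 5) (nat_lit 64) (nat_lit 5) (nat_lit 492) (nat_lit 373) (nat_lit 275))) (XT.nd (nat_lit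 78) (nat_lit 228) (nat_lit 0) (XT.lf (nat_lit 0) (nat_lit 1556356534) (nat_lit 304) (nat_lit 8062085012) (nat_lit 76) (nat_lit 6276892480) (nat_lit 59) (nat_lit 5) (nat_lit 63) (nat_lit 5) (nat_lit 60) (nat_lit 5) (nat_lit 493) (nat_lit 373) (nat_lit 274)) (XT.nd (nat_lit 78) (nat_lit 0) (nat_lit 0) (XT.lf (nat_lit 0) (nat_lit 437969469) (nat_lit 228) (nat_lit 4973192869) (nat_lit 304) (nat_lit 10698300967) (nat_lit 56) (nat_lit 5) (nat_lit 59) (nat_lit 5) (nat_lit 60) (nat_lit 5) (nat_lit 494) (nat_lit 373) (nat_lit 273)) (XT.lf (nat_lit 0) (nat_lit 9179968004) (nat_lit 228) (nat_lit 194866171) (nat_lit 304) (nat_lit 6952410305) (nat_lit 56) (nat_lit 5) (nat_lit 59) (nat_lit 5) (nat_lit 60) (nat_lit 5) (nat_lit 495) (nat_lit 373) (nat_lit 272))))) (XT.nd (nat_lit 156) (nat_lit 380) (nat_lit 0) (XT.nd (nat_lit 78) (nat_lit 76) (nat_lit 0) (XT.lf (nat_lit 0) (nat_lit 1499760021) (nat_lit 228) (nat_lit 11936147615)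 (nat_lit 304) (nat_lit 3113115697) (nat_lit 53) (nat_lit 5) (nat_lit 56) (nat_lit 5) (nat_lit 57) (nat_lit 5) (nat_lit 496) (nat_lit 373) (nat_lit 271)) (XT.lf (nat_lit 0) (nat_lit 820059274) (nat_lit 304) (nat_lit 6401488002) (nat_lit 76) (nat_lit 9553038146) (nat_lit 52) (nat_lit 5) (nat_lit 56) (nat_lit 5) (nat_lit 53) (nat_lit 5) (nat_lit 497) (nat_lit 373) (nat_lit 270))) (XT.nd (nat_lit 78) (nat_lit 152) (nat_lit 0) (XT.lf (nat_lit 0) (nat_lit 2393737681) (nat_lit 228) (nat_lit 2390541810) (nat_lit 304) (nat_lit 12220090734) (nat_lit 49) (nat_lit 5) (nat_lit 52) (nat_lit 5) (nat_lit 53) (nat_lit 5) (nat_lit 498) (nat_lit 373) (nat_lit 269)) (XT.nd (nat_lit 78) (nat_lit 152) (nat_lit 0) (XT.lf (nat_lit 0) (nat_lit 8866076320) (nat_lit 304) (nat_lit 5839386069) (nat_lit 76) (nat_lit 2532526755) (nat_lit 49) (nat_lit 5) (nat_lit 53) (nat_lit 5) (nat_lit 50) (nat_lit 5) (nat_lit 499) (nat_lit 373) (nat_lit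 268)) (XT.lf (nat_lit 0) (nat_lit 3096397755) (nat_lit 152) (nat_lit 9948044579) (nat_lit 228) (nat_lit 4431543626) (nat_lit 47) (nat_lit 5) (nat_lit 49) (nat_lit 5) (nat_lit 50) (nat_lit 5) (nat_lit 500) (nat_lit 373) (nat_lit 267)))))) (XT.nd (nat_lit 50934) (nat_lit 0) (nat_lit 44004) (XT.nd (nat_lit 156) (nat_lit 152) (nat_lit 0) (XT.nd (nat_lit 78) (nat_lit 304) (nat_lit 0) (XT.lf (nat_lit 0) (nat_lit 12254620328) (nat_lit 152) (nat_lit 5070120435) (nat_lit 228) (nat_lit 393638749) (nat_lit 47) (nat_lit 5) (nat_lit 49) (nat_lit 5) (nat_lit 50) (nat_lit 5) (nat_lit 501) (nat_lit 373) (nat_lit 266)) (XT.lf (nat_lit 0) (nat_lit 3618646622) (nat_lit 228) (nat_lit 60466726) (nat_lit 304) (nat_lit 14285968950) (nat_lit 43) (nat_lit 5) (nat_lit 46) (nat_lit 5) (nat_lit 47) (nat_lit 5) (nat_lit 502) (nat_lit 373) (nat_lit 265))) (XT.nd (nat_lit 78) (nat_lit 152) (nat_lit 0) (XT.lf (nat_lit 0) (nat_lit 7877278437)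 (nat_lit 304) (nat_lit 5329957329) (nat_lit 76) (nat_lit 5008450624) (nat_lit 43) (nat_lit 5) (nat_lit 47) (nat_lit 5) (nat_lit 44) (nat_lit 5) (nat_lit 503) (nat_lit 373) (nat_lit 264)) (XT.nd (nat_lit 50622) (nat_lit 0) (nat_lit 45980) (XT.lf (nat_lit 0) (nat_lit 3882963054) (nat_lit 152) (nat_lit 8281988717) (nat_lit 228) (nat_lit 6306243680) (nat_lit 41) (nat_lit 5) (nat_lit 43) (nat_lit 5) (nat_lit 44) (nat_lit 5) (nat_lit 504) (nat_lit 373) (nat_lit 263)) (XT.lf (nat_lit 0) (nat_lit 348569955) (nat_lit 532) (nat_lit 2559366788) (nat_lit 0) (nat_lit 348569955) (nat_lit 646) (nat_lit 5) (nat_lit 653) (nat_lit 4) (nat_lit 646) (nat_lit 4) (nat_lit 392) (nat_lit 374) (nat_lit 374))))) (XT.nd (nat_lit 234) (nat_lit 1368) (nat_lit 0) (XT.nd (nat_lit 78) (nat_lit 608) (nat_lit 0) (XT.lf (nat_lit 0) (nat_lit 3784137367) (nat_lit 532) (nat_lit 1475457834) (nat_lit 0) (nat_lit 1265809289) (nat_lit 646) (nat_lit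 5) (nat_lit 653) (nat_lit 4) (nat_lit 646) (nat_lit 4) (nat_lit 393) (nat_lit 374) (nat_lit 373)) (XT.nd (nat_lit 78) (nat_lit 0) (nat_lit 0) (XT.lf (nat_lit 0) (nat_lit 330111570) (nat_lit 608) (nat_lit 4320451802) (nat_lit 76) (nat_lit 1888683897) (nat_lit 638) (nat_lit 5) (nat_lit 646) (nat_lit 5) (nat_lit 639) (nat_lit 4) (nat_lit 394) (nat_lit 374) (nat_lit 372)) (XT.lf (nat_lit 0) (nat_lit 3363291215) (nat_lit 608) (nat_lit 613967247) (nat_lit 76) (nat_lit 2577067508) (nat_lit 638) (nat_lit 5) (nat_lit 646) (nat_lit 5) (nat_lit 639) (nat_lit 4) (nat_lit 395) (nat_lit 374) (nat_lit 371)))) (XT.nd (nat_lit 78) (nat_lit 760) (nat_lit 0) (XT.lf (nat_lit 0) (nat_lit 3159543048) (nat_lit 608) (nat_lit 3246613063) (nat_lit 684) (nat_lit 164631510) (nat_lit 630) (nat_lit 5) (nat_lit 638) (nat_lit 5) (nat_lit 639) (nat_lit 4) (nat_lit 396) (nat_lit 374) (nat_lit 370)) (XT.nd (nat_lit 78) (nat_lit 0) (nat_lit 0)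 (XT.lf (nat_lit 0) (nat_lit 365923702) (nat_lit 684) (nat_lit 2453643233) (nat_lit 760) (nat_lit 3768979633) (nat_lit 620) (nat_lit 5) (nat_lit 629) (nat_lit 5) (nat_lit 630) (nat_lit 5) (nat_lit 397) (nat_lit 374) (nat_lit 369)) (XT.lf (nat_lit 0) (nat_lit 4214870150) (nat_lit 684) (nat_lit 1599404671) (nat_lit 760) (nat_lit 793361753) (nat_lit 620) (nat_lit 5) (nat_lit 629) (nat_lit 5) (nat_lit 630) (nat_lit 5) (nat_lit 398) (nat_lit 374) (nat_lit 368))))))))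
noncomputable def xc79 : XT := (XT.nd (nat_lit 1638) (nat_lit 12236) (nat_lit 0) (XT.nd (nat_lit 780) (nat_lit 10412) (nat_lit 0) (XT.nd (nat_lit 390) (nat_lit 3344) (nat_lit 0) (XT.nd (nat_lit 156) (nat_lit 1900) (nat_lit 0) (XT.nd (nat_lit 78) (nat_lit 0) (nat_lit 0) (XT.lf (nat_lit 0) (nat_lit 1469489906) (nat_lit 760) (nat_lit 683421863) (nat_lit 836) (nat_lit 4475150600) (nat_lit 609) (nat_lit 5) (nat_lit 619) (nat_lit 5) (nat_lit 620) (nat_lit 5) (nat_lit 399) (nat_lit 374) (nat_lit 367)) (XT.lf (nat_lit 0) (nat_lit 5097456211) (nat_lit 836) (nat_lit 1264271683) (nat_lit 76) (nat_lit 288119416) (nat_lit 609) (nat_lit 5) (nat_lit 620) (nat_lit 5) (nat_lit 610) (nat_lit 5) (nat_lit 400) (nat_lit 374) (nat_lit 366))) (XT.nd (nat_lit 78) (nat_lit 988) (nat_lit 0) (XT.lf (nat_lit 0) (nat_lit 1365221236) (nat_lit 912) (nat_lit 3992481008) (nat_lit 76) (nat_lit 1315130181) (nat_lit 597) (nat_lit 5) (nat_lit 609)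 (nat_lit 5) (nat_lit 598) (nat_lit 5) (nat_lit 401) (nat_lit 374) (nat_lit 365)) (XT.nd (nat_lit 78) (nat_lit 988) (nat_lit 0) (XT.lf (nat_lit 0) (nat_lit 4262956631) (nat_lit 912) (nat_lit 35195279) (nat_lit 76) (nat_lit 2399120679) (nat_lit 597) (nat_lit 5) (nat_lit 609) (nat_lit 5) (nat_lit 598) (nat_lit 5) (nat_lit 402) (nat_lit 374) (nat_lit 364)) (XT.lf (nat_lit 0) (nat_lit 450922795) (nat_lit 988) (nat_lit 2721010441) (nat_lit 76) (nat_lit 3551033790) (nat_lit 584) (nat_lit 5) (nat_lit 597) (nat_lit 5) (nat_lit 585) (nat_lit 5) (nat_lit 403) (nat_lit 374) (nat_lit 363))))) (XT.nd (nat_lit 156) (nat_lit 2356) (nat_lit 0) (XT.nd (nat_lit 78) (nat_lit 0) (nat_lit 0) (XT.lf (nat_lit 0) (nat_lit 1323025748) (nat_lit 988) (nat_lit 1982878092) (nat_lit 1064) (nat_lit 3444105770) (nat_lit 571) (nat_lit 5) (nat_lit 584) (nat_lit 5) (nat_lit 585) (nat_lit 5) (nat_lit 404) (nat_lit 374) (nat_lit 362)) (XT.lf (nat_lit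 0) (nat_lit 5435790369) (nat_lit 988) (nat_lit 737169326) (nat_lit 1064) (nat_lit 605581625) (nat_lit 571) (nat_lit 5) (nat_lit 584) (nat_lit 5) (nat_lit 585) (nat_lit 5) (nat_lit 405) (nat_lit 374) (nat_lit 361))) (XT.nd (nat_lit 78) (nat_lit 1216) (nat_lit 0) (XT.lf (nat_lit 0) (nat_lit 2219106327) (nat_lit 1140) (nat_lit 4016030136) (nat_lit 76) (nat_lit 573067333) (nat_lit 556) (nat_lit 5) (nat_lit 571) (nat_lit 5) (nat_lit 557) (nat_lit 5) (nat_lit 406) (nat_lit 374) (nat_lit 360)) (XT.nd (nat_lit 78) (nat_lit 76) (nat_lit 0) (XT.lf (nat_lit 0) (nat_lit 132514411) (nat_lit 1140) (nat_lit 4912978448) (nat_lit 1216) (nat_lit 1793865355) (nat_lit 541) (nat_lit 5) (nat_lit 556) (nat_lit 5) (nat_lit 557) (nat_lit 5) (nat_lit 407) (nat_lit 374) (nat_lit 359)) (XT.lf (nat_lit 0) (nat_lit 1009465237) (nat_lit 1216) (nat_lit 2509687741) (nat_lit 76) (nat_lit 3352567525) (nat_lit 540) (nat_lit 5) (nat_lit 556) (nat_lit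 5) (nat_lit 541) (nat_lit 5) (nat_lit 408) (nat_lit 374) (nat_lit 358)))))) (XT.nd (nat_lit 390) (nat_lit 6384) (nat_lit 0) (XT.nd (nat_lit 156) (nat_lit 2812) (nat_lit 0) (XT.nd (nat_lit 78) (nat_lit 0) (nat_lit 0) (XT.lf (nat_lit 0) (nat_lit 1732730902) (nat_lit 1216) (nat_lit 2063513575) (nat_lit 1292) (nat_lit 3109262799) (nat_lit 524) (nat_lit 5) (nat_lit 540) (nat_lit 5) (nat_lit 541) (nat_lit 5) (nat_lit 409) (nat_lit 374) (nat_lit 357)) (XT.lf (nat_lit 0) (nat_lit 6044817512) (nat_lit 1216) (nat_lit 551767015) (nat_lit 1292) (nat_lit 344270348) (nat_lit 524) (nat_lit 5) (nat_lit 540) (nat_lit 5) (nat_lit 541) (nat_lit 5) (nat_lit 410) (nat_lit 374) (nat_lit 356))) (XT.nd (nat_lit 78) (nat_lit 1444) (nat_lit 0) (XT.lf (nat_lit 0) (nat_lit 2414385587) (nat_lit 1368) (nat_lit 3537780021) (nat_lit 76) (nat_lit 1025045536) (nat_lit 506) (nat_lit 5) (nat_lit 524) (nat_lit 5) (nat_lit 507) (nat_lit 5) (nat_lit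 411) (nat_lit 374) (nat_lit 355)) (XT.nd (nat_lit 78) (nat_lit 76) (nat_lit 0) (XT.lf (nat_lit 0) (nat_lit 814314769) (nat_lit 1368) (nat_lit 4366889018) (nat_lit 1444) (nat_lit 1833932453) (nat_lit 488) (nat_lit 5) (nat_lit 506) (nat_lit 5) (nat_lit 507) (nat_lit 5) (nat_lit 412) (nat_lit 374) (nat_lit 354)) (XT.lf (nat_lit 0) (nat_lit 903973915) (nat_lit 1444) (nat_lit 1808698815) (nat_lit 76) (nat_lit 4341723708) (nat_lit 487) (nat_lit 5) (nat_lit 506) (nat_lit 5) (nat_lit 488) (nat_lit 5) (nat_lit 413) (nat_lit 374) (nat_lit 353))))) (XT.nd (nat_lit 234) (nat_lit 3344) (nat_lit 0) (XT.nd (nat_lit 78) (nat_lit 1596) (nat_lit 0) (XT.lf (nat_lit 0) (nat_lit 2644352676) (nat_lit 1444) (nat_lit 989030230) (nat_lit 1520) (nat_lit 3461627405) (nat_lit 468) (nat_lit 5) (nat_lit 487) (nat_lit 5) (nat_lit 488) (nat_lit 5) (nat_lit 414) (nat_lit 374) (nat_lit 352)) (XT.nd (nat_lit 78) (nat_lit 76) (nat_lit 0) (XT.lf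 (nat_lit 0) (nat_lit 19671489) (nat_lit 1520) (nat_lit 6359972270) (nat_lit 1596) (nat_lit 757583638) (nat_lit 448) (nat_lit 5) (nat_lit 468) (nat_lit 5) (nat_lit 469) (nat_lit 5) (nat_lit 415) (nat_lit 374) (nat_lit 351)) (XT.lf (nat_lit 0) (nat_lit 1956203005) (nat_lit 1596) (nat_lit 2610423552) (nat_lit 76) (nat_lit 2613799306) (nat_lit 447) (nat_lit 5) (nat_lit 468) (nat_lit 5) (nat_lit 448) (nat_lit 5) (nat_lit 416) (nat_lit 374) (nat_lit 350)))) (XT.nd (nat_lit 78) (nat_lit 1748) (nat_lit 0) (XT.lf (nat_lit 0) (nat_lit 1957773057) (nat_lit 1596) (nat_lit 2715427301) (nat_lit 1672) (nat_lit 2552040331) (nat_lit 426) (nat_lit 5) (nat_lit 447) (nat_lit 5) (nat_lit 448) (nat_lit 5) (nat_lit 417) (nat_lit 374) (nat_lit 349)) (XT.nd (nat_lit 78) (nat_lit 1672) (nat_lit 0) (XT.lf (nat_lit 0) (nat_lit 135648513) (nat_lit 1672) (nat_lit 669277582) (nat_lit 76) (nat_lit 6466749184) (nat_lit 425) (nat_lit 5) (nat_lit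 447) (nat_lit 5) (nat_lit 426) (nat_lit 5) (nat_lit 418) (nat_lit 374) (nat_lit 348)) (XT.lf (nat_lit 0) (nat_lit 2824451106) (nat_lit 1748) (nat_lit 3319623405) (nat_lit 76) (nat_lit 1175028190) (nat_lit 403) (nat_lit 5) (nat_lit 426) (nat_lit 5) (nat_lit 404) (nat_lit 5) (nat_lit 419) (nat_lit 374) (nat_lit 347))))))) (XT.nd (nat_lit 780) (nat_lit 5928) (nat_lit 0) (XT.nd (nat_lit 390) (nat_lit 2508) (nat_lit 0) (XT.nd (nat_lit 156) (nat_lit 1976) (nat_lit 0) (XT.nd (nat_lit 78) (nat_lit 76) (nat_lit 0) (XT.lf (nat_lit 0) (nat_lit 1365923980) (nat_lit 1748) (nat_lit 4168301640) (nat_lit 1824) (nat_lit 1833940657) (nat_lit 380) (nat_lit 5) (nat_lit 403) (nat_lit 5) (nat_lit 404) (nat_lit 5) (nat_lit 420) (nat_lit 374) (nat_lit 346)) (XT.lf (nat_lit 0) (nat_lit 839664197) (nat_lit 1824) (nat_lit 1283752872) (nat_lit 76) (nat_lit 5295285668) (nat_lit 379) (nat_lit 5) (nat_lit 403) (nat_lit 5) (nat_lit 380) (nat_lit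 5) (nat_lit 421) (nat_lit 374) (nat_lit 345))) (XT.nd (nat_lit 78) (nat_lit 988) (nat_lit 0) (XT.lf (nat_lit 0) (nat_lit 3513723578) (nat_lit 988) (nat_lit 1098372) (nat_lit 1064) (nat_lit 3955762490) (nat_lit 366) (nat_lit 5) (nat_lit 379) (nat_lit 5) (nat_lit 380) (nat_lit 5) (nat_lit 422) (nat_lit 374) (nat_lit 344)) (XT.nd (nat_lit 78) (nat_lit 76) (nat_lit 0) (XT.lf (nat_lit 0) (nat_lit 848219860) (nat_lit 912) (nat_lit 5373960427) (nat_lit 988) (nat_lit 1301778663) (nat_lit 354) (nat_lit 5) (nat_lit 366) (nat_lit 5) (nat_lit 367) (nat_lit 5) (nat_lit 423) (nat_lit 374) (nat_lit 343)) (XT.lf (nat_lit 0) (nat_lit 1364357221) (nat_lit 988) (nat_lit 1834511132) (nat_lit 76) (nat_lit 4379828051) (nat_lit 353) (nat_lit 5) (nat_lit 366) (nat_lit 5) (nat_lit 354) (nat_lit 5) (nat_lit 424) (nat_lit 374) (nat_lit 342))))) (XT.nd (nat_lit 156) (nat_lit 836) (nat_lit 0) (XT.nd (nat_lit 78) (nat_lit 836) (nat_lit 0)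 (XT.lf (nat_lit 0) (nat_lit 3086009033) (nat_lit 836) (nat_lit 952161240) (nat_lit 912) (nat_lit 3596777975) (nat_lit 342) (nat_lit 5) (nat_lit 353) (nat_lit 5) (nat_lit 354) (nat_lit 5) (nat_lit 425) (nat_lit 374) (nat_lit 341)) (XT.lf (nat_lit 0) (nat_lit 383954845) (nat_lit 836) (nat_lit 6357437710) (nat_lit 912) (nat_lit 951440819) (nat_lit 331) (nat_lit 5) (nat_lit 342) (nat_lit 5) (nat_lit 343) (nat_lit 5) (nat_lit 426) (nat_lit 374) (nat_lit 340))) (XT.nd (nat_lit 78) (nat_lit 760) (nat_lit 0) (XT.lf (nat_lit 0) (nat_lit 1713552363) (nat_lit 912) (nat_lit 2342302834) (nat_lit 76) (nat_lit 3696026860) (nat_lit 330) (nat_lit 5) (nat_lit 342) (nat_lit 5) (nat_lit 331) (nat_lit 5) (nat_lit 427) (nat_lit 374) (nat_lit 339)) (XT.nd (nat_lit 78) (nat_lit 0) (nat_lit 0) (XT.lf (nat_lit 0) (nat_lit 2703389535) (nat_lit 760) (nat_lit 1686834389) (nat_lit 836) (nat_lit 3422364996) (nat_lit 320) (nat_lit 5) (nat_lit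 330) (nat_lit 5) (nat_lit 331) (nat_lit 5) (nat_lit 428) (nat_lit 374) (nat_lit 338)) (XT.lf (nat_lit 0) (nat_lit 7095113681) (nat_lit 836) (nat_lit 47255957) (nat_lit 76) (nat_lit 732671442) (nat_lit 320) (nat_lit 5) (nat_lit 331) (nat_lit 5) (nat_lit 321) (nat_lit 5) (nat_lit 429) (nat_lit 374) (nat_lit 337)))))) (XT.nd (nat_lit 390) (nat_lit 2812) (nat_lit 0) (XT.nd (nat_lit 156) (nat_lit 1520) (nat_lit 0) (XT.nd (nat_lit 78) (nat_lit 760) (nat_lit 0) (XT.lf (nat_lit 0) (nat_lit 1889669009) (nat_lit 836) (nat_lit 2828251802) (nat_lit 76) (nat_lit 3220608041) (nat_lit 309) (nat_lit 5) (nat_lit 320) (nat_lit 5) (nat_lit 310) (nat_lit 5) (nat_lit 430) (nat_lit 374) (nat_lit 336)) (XT.lf (nat_lit 0) (nat_lit 2344622639) (nat_lit 760) (nat_lit 2228416773) (nat_lit 836) (nat_lit 3430750777) (nat_lit 299) (nat_lit 5) (nat_lit 309) (nat_lit 5) (nat_lit 310) (nat_lit 5) (nat_lit 431) (nat_lit 374) (nat_lit 335)))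 (XT.nd (nat_lit 78) (nat_lit 1520) (nat_lit 0) (XT.lf (nat_lit 0) (nat_lit 7287001896) (nat_lit 836) (nat_lit 462661582) (nat_lit 76) (nat_lit 321177746) (nat_lit 299) (nat_lit 5) (nat_lit 310) (nat_lit 5) (nat_lit 300) (nat_lit 5) (nat_lit 432) (nat_lit 374) (nat_lit 334)) (XT.nd (nat_lit 78) (nat_lit 684) (nat_lit 0) (XT.lf (nat_lit 0) (nat_lit 1893712906) (nat_lit 836) (nat_lit 3314050318) (nat_lit 76) (nat_lit 2931186697) (nat_lit 288) (nat_lit 5) (nat_lit 299) (nat_lit 5) (nat_lit 289) (nat_lit 5) (nat_lit 433) (nat_lit 374) (nat_lit 333)) (XT.lf (nat_lit 0) (nat_lit 1987855863) (nat_lit 684) (nat_lit 2599403727) (nat_lit 760) (nat_lit 3621620438) (nat_lit 279) (nat_lit 5) (nat_lit 288) (nat_lit 5) (nat_lit 289) (nat_lit 5) (nat_lit 434) (nat_lit 374) (nat_lit 332))))) (XT.nd (nat_lit 234) (nat_lit 1368) (nat_lit 0) (XT.nd (nat_lit 78) (nat_lit 1444) (nat_lit 0) (XT.lf (nat_lit 0) (nat_lit 7314845636) (nat_lit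 760) (nat_lit 889222610) (nat_lit 76) (nat_lit 76558337) (nat_lit 279) (nat_lit 5) (nat_lit 289) (nat_lit 5) (nat_lit 280) (nat_lit 5) (nat_lit 435) (nat_lit 374) (nat_lit 331)) (XT.nd (nat_lit 78) (nat_lit 684) (nat_lit 0) (XT.lf (nat_lit 0) (nat_lit 1725256491) (nat_lit 760) (nat_lit 3822163289) (nat_lit 76) (nat_lit 2806083457) (nat_lit 269) (nat_lit 5) (nat_lit 279) (nat_lit 5) (nat_lit 270) (nat_lit 5) (nat_lit 436) (nat_lit 374) (nat_lit 330)) (XT.lf (nat_lit 0) (nat_lit 1610418359) (nat_lit 684) (nat_lit 2821671889) (nat_lit 760) (nat_lit 3996141343) (nat_lit 260) (nat_lit 5) (nat_lit 269) (nat_lit 5) (nat_lit 270) (nat_lit 5) (nat_lit 437) (nat_lit 374) (nat_lit 329)))) (XT.nd (nat_lit 78) (nat_lit 1368) (nat_lit 0) (XT.lf (nat_lit 0) (nat_lit 7154867419) (nat_lit 684) (nat_lit 22774243) (nat_lit 760) (nat_lit 1327140831) (nat_lit 260) (nat_lit 5) (nat_lit 269) (nat_lit 5) (nat_lit 270) (nat_lit 5) (nat_lit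 438) (nat_lit 374) (nat_lit 328)) (XT.nd (nat_lit 78) (nat_lit 608) (nat_lit 0) (XT.lf (nat_lit 0) (nat_lit 1382407408) (nat_lit 760) (nat_lit 4376043308) (nat_lit 76) (nat_lit 2824142026) (nat_lit 250) (nat_lit 5) (nat_lit 260) (nat_lit 5) (nat_lit 251) (nat_lit 5) (nat_lit 439) (nat_lit 374) (nat_lit 327)) (XT.lf (nat_lit 0) (nat_lit 1188601157) (nat_lit 608) (nat_lit 2916663607) (nat_lit 684) (nat_lit 4556999682) (nat_lit 242) (nat_lit 5) (nat_lit 250) (nat_lit 5) (nat_lit 251) (nat_lit 5) (nat_lit 440) (nat_lit 374) (nat_lit 326))))))))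
noncomputable def xc80 : XT := (XT.nd (nat_lit 1560) (nat_lit 5168) (nat_lit 0) (XT.nd (nat_lit 780) (nat_lit 3116) (nat_lit 0) (XT.nd (nat_lit 390) (nat_lit 1672) (nat_lit 0) (XT.nd (nat_lit 156) (nat_lit 1292) (nat_lit 0) (XT.nd (nat_lit 78) (nat_lit 684) (nat_lit 0) (XT.lf (nat_lit 0) (nat_lit 6872323822) (nat_lit 684) (nat_lit 1868248532) (nat_lit 76) (nat_lit 3180442) (nat_lit 242) (nat_lit 5) (nat_lit 251) (nat_lit 5) (nat_lit 243) (nat_lit 5) (nat_lit 441) (nat_lit 374) (nat_lit 325)) (XT.lf (nat_lit 0) (nat_lit 861764726) (nat_lit 684) (nat_lit 5000358564) (nat_lit 76) (nat_lit 2964546464) (nat_lit 233) (nat_lit 5) (nat_lit 242) (nat_lit 5) (nat_lit 234) (nat_lit 5) (nat_lit 442) (nat_lit 374) (nat_lit 324))) (XT.nd (nat_lit 78) (nat_lit 684) (nat_lit 0) (XT.lf (nat_lit 0) (nat_lit 697423977) (nat_lit 608) (nat_lit 2905572288) (nat_lit 684) (nat_lit 5308449794) (nat_lit 225) (nat_lit 5) (nat_lit 233)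 (nat_lit 5) (nat_lit 234) (nat_lit 5) (nat_lit 443) (nat_lit 374) (nat_lit 323)) (XT.nd (nat_lit 78) (nat_lit 684) (nat_lit 0) (XT.lf (nat_lit 0) (nat_lit 6395190115) (nat_lit 684) (nat_lit 2469980602) (nat_lit 76) (nat_lit 132841148) (nat_lit 225) (nat_lit 5) (nat_lit 234) (nat_lit 5) (nat_lit 226) (nat_lit 5) (nat_lit 444) (nat_lit 374) (nat_lit 322)) (XT.lf (nat_lit 0) (nat_lit 158362262) (nat_lit 684) (nat_lit 5721235691) (nat_lit 76) (nat_lit 3206636708) (nat_lit 216) (nat_lit 5) (nat_lit 225) (nat_lit 5) (nat_lit 217) (nat_lit 5) (nat_lit 445) (nat_lit 374) (nat_lit 321))))) (XT.nd (nat_lit 156) (nat_lit 1140) (nat_lit 0) (XT.nd (nat_lit 78) (nat_lit 0) (nat_lit 0) (XT.lf (nat_lit 0) (nat_lit 110386464) (nat_lit 532) (nat_lit 2809530241) (nat_lit 608) (nat_lit 6256376906) (nat_lit 209) (nat_lit 5) (nat_lit 216) (nat_lit 5) (nat_lit 217) (nat_lit 5) (nat_lit 446) (nat_lit 374) (nat_lit 320)) (XT.lf (nat_lit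 0) (nat_lit 5740359196) (nat_lit 608) (nat_lit 3181890502) (nat_lit 76) (nat_lit 345846356) (nat_lit 209) (nat_lit 5) (nat_lit 217) (nat_lit 5) (nat_lit 210) (nat_lit 5) (nat_lit 447) (nat_lit 374) (nat_lit 319))) (XT.nd (nat_lit 78) (nat_lit 608) (nat_lit 0) (XT.lf (nat_lit 0) (nat_lit 2790390877) (nat_lit 532) (nat_lit 5827189909) (nat_lit 608) (nat_lit 744161505) (nat_lit 202) (nat_lit 5) (nat_lit 209) (nat_lit 5) (nat_lit 210) (nat_lit 5) (nat_lit 448) (nat_lit 374) (nat_lit 318)) (XT.nd (nat_lit 78) (nat_lit 532) (nat_lit 0) (XT.lf (nat_lit 0) (nat_lit 2052902845) (nat_lit 608) (nat_lit 592918910) (nat_lit 76) (nat_lit 6811476307) (nat_lit 201) (nat_lit 5) (nat_lit 209) (nat_lit 5) (nat_lit 202) (nat_lit 5) (nat_lit 449) (nat_lit 374) (nat_lit 317)) (XT.lf (nat_lit 0) (nat_lit 4900430840) (nat_lit 608) (nat_lit 4032789238) (nat_lit 76) (nat_lit 621371037) (nat_lit 194) (nat_lit 5) (nat_lit 202) (nat_lit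 5) (nat_lit 195) (nat_lit 5) (nat_lit 450) (nat_lit 374) (nat_lit 316)))))) (XT.nd (nat_lit 390) (nat_lit 1520) (nat_lit 0) (XT.nd (nat_lit 156) (nat_lit 988) (nat_lit 0) (XT.nd (nat_lit 78) (nat_lit 76) (nat_lit 0) (XT.lf (nat_lit 0) (nat_lit 2075787403) (nat_lit 532) (nat_lit 5728959500) (nat_lit 608) (nat_lit 1849100372) (nat_lit 187) (nat_lit 5) (nat_lit 194) (nat_lit 5) (nat_lit 195) (nat_lit 5) (nat_lit 451) (nat_lit 374) (nat_lit 315)) (XT.lf (nat_lit 0) (nat_lit 991004276) (nat_lit 608) (nat_lit 1447258531) (nat_lit 76) (nat_lit 7316863447) (nat_lit 186) (nat_lit 5) (nat_lit 194) (nat_lit 5) (nat_lit 187) (nat_lit 5) (nat_lit 452) (nat_lit 374) (nat_lit 314))) (XT.nd (nat_lit 78) (nat_lit 532) (nat_lit 0) (XT.lf (nat_lit 0) (nat_lit 3866244282) (nat_lit 532) (nat_lit 5053663835) (nat_lit 76) (nat_lit 938229579) (nat_lit 180) (nat_lit 5) (nat_lit 187) (nat_lit 5) (nat_lit 181) (nat_lit 5) (nat_lit 453)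 (nat_lit 374) (nat_lit 313)) (XT.nd (nat_lit 78) (nat_lit 0) (nat_lit 0) (XT.lf (nat_lit 0) (nat_lit 1190700596) (nat_lit 532) (nat_lit 5607902570) (nat_lit 608) (nat_lit 3164626850) (nat_lit 173) (nat_lit 5) (nat_lit 180) (nat_lit 5) (nat_lit 181) (nat_lit 5) (nat_lit 454) (nat_lit 374) (nat_lit 312)) (XT.lf (nat_lit 0) (nat_lit 7582214649) (nat_lit 532) (nat_lit 2207634191) (nat_lit 608) (nat_lit 280583227) (nat_lit 173) (nat_lit 5) (nat_lit 180) (nat_lit 5) (nat_lit 181) (nat_lit 5) (nat_lit 455) (nat_lit 374) (nat_lit 311))))) (XT.nd (nat_lit 156) (nat_lit 532) (nat_lit 0) (XT.nd (nat_lit 78) (nat_lit 456) (nat_lit 0) (XT.lf (nat_lit 0) (nat_lit 2626768434) (nat_lit 532) (nat_lit 6277993425) (nat_lit 76) (nat_lit 1274672359) (nat_lit 166) (nat_lit 5) (nat_lit 173) (nat_lit 5) (nat_lit 167) (nat_lit 5) (nat_lit 456) (nat_lit 374) (nat_lit 310)) (XT.lf (nat_lit 0) (nat_lit 100998587) (nat_lit 456) (nat_lit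 5486629641) (nat_lit 532) (nat_lit 4702980672) (nat_lit 160) (nat_lit 5) (nat_lit 166) (nat_lit 5) (nat_lit 167) (nat_lit 5) (nat_lit 457) (nat_lit 374) (nat_lit 309))) (XT.nd (nat_lit 78) (nat_lit 532) (nat_lit 0) (XT.lf (nat_lit 0) (nat_lit 6646898086) (nat_lit 456) (nat_lit 1970315969) (nat_lit 532) (nat_lit 1786614556) (nat_lit 160) (nat_lit 5) (nat_lit 166) (nat_lit 5) (nat_lit 167) (nat_lit 5) (nat_lit 458) (nat_lit 374) (nat_lit 308)) (XT.nd (nat_lit 78) (nat_lit 0) (nat_lit 0) (XT.lf (nat_lit 0) (nat_lit 1168974929) (nat_lit 532) (nat_lit 7742092375) (nat_lit 76) (nat_lit 1608172837) (nat_lit 153) (nat_lit 5) (nat_lit 160) (nat_lit 5) (nat_lit 154) (nat_lit 5) (nat_lit 459) (nat_lit 374) (nat_lit 307)) (XT.lf (nat_lit 0) (nat_lit 4166252644) (nat_lit 532) (nat_lit 1214247917) (nat_lit 76) (nat_lit 5256104201) (nat_lit 153) (nat_lit 5) (nat_lit 160) (nat_lit 5) (nat_lit 154) (nat_lit 5) (nat_lit 460)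 (nat_lit 374) (nat_lit 306))))))) (XT.nd (nat_lit 780) (nat_lit 2128) (nat_lit 0) (XT.nd (nat_lit 390) (nat_lit 1672) (nat_lit 0) (XT.nd (nat_lit 156) (nat_lit 532) (nat_lit 0) (XT.nd (nat_lit 78) (nat_lit 380) (nat_lit 0) (XT.lf (nat_lit 0) (nat_lit 5471224477) (nat_lit 456) (nat_lit 1756451171) (nat_lit 532) (nat_lit 3528567852) (nat_lit 147) (nat_lit 5) (nat_lit 153) (nat_lit 5) (nat_lit 154) (nat_lit 5) (nat_lit 461) (nat_lit 374) (nat_lit 305)) (XT.lf (nat_lit 0) (nat_lit 1389390935) (nat_lit 380) (nat_lit 8959671427) (nat_lit 456) (nat_lit 529248554) (nat_lit 142) (nat_lit 5) (nat_lit 147) (nat_lit 5) (nat_lit 148) (nat_lit 5) (nat_lit 462) (nat_lit 374) (nat_lit 304))) (XT.nd (nat_lit 78) (nat_lit 456) (nat_lit 0) (XT.lf (nat_lit 0) (nat_lit 2513228812) (nat_lit 456) (nat_lit 2806536177) (nat_lit 76) (nat_lit 5682409275) (nat_lit 141) (nat_lit 5) (nat_lit 147) (nat_lit 5) (nat_lit 142) (nat_lit 5) (nat_lit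 463) (nat_lit 374) (nat_lit 303)) (XT.nd (nat_lit 78) (nat_lit 0) (nat_lit 0) (XT.lf (nat_lit 0) (nat_lit 4014463389) (nat_lit 456) (nat_lit 1590705882) (nat_lit 532) (nat_lit 5523371632) (nat_lit 135) (nat_lit 5) (nat_lit 141) (nat_lit 5) (nat_lit 142) (nat_lit 5) (nat_lit 464) (nat_lit 374) (nat_lit 302)) (XT.lf (nat_lit 0) (nat_lit 8762124236) (nat_lit 532) (nat_lit 306032453) (nat_lit 76) (nat_lit 2189224473) (nat_lit 135) (nat_lit 5) (nat_lit 142) (nat_lit 5) (nat_lit 136) (nat_lit 5) (nat_lit 465) (nat_lit 374) (nat_lit 301))))) (XT.nd (nat_lit 156) (nat_lit 836) (nat_lit 0) (XT.nd (nat_lit 78) (nat_lit 380) (nat_lit 0) (XT.lf (nat_lit 0) (nat_lit 610080570) (nat_lit 456) (nat_lit 4720734622) (nat_lit 76) (nat_lit 6057426529) (nat_lit 129) (nat_lit 5) (nat_lit 135) (nat_lit 5) (nat_lit 130) (nat_lit 5) (nat_lit 466) (nat_lit 374) (nat_lit 300)) (XT.lf (nat_lit 0) (nat_lit 2232071332) (nat_lit 380) (nat_lit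 1499169235) (nat_lit 456) (nat_lit 7790415740) (nat_lit 124) (nat_lit 5) (nat_lit 129) (nat_lit 5) (nat_lit 130) (nat_lit 5) (nat_lit 467) (nat_lit 374) (nat_lit 299))) (XT.nd (nat_lit 78) (nat_lit 836) (nat_lit 0) (XT.lf (nat_lit 0) (nat_lit 6933094378) (nat_lit 456) (nat_lit 2328897353) (nat_lit 76) (nat_lit 2395391098) (nat_lit 124) (nat_lit 5) (nat_lit 130) (nat_lit 5) (nat_lit 125) (nat_lit 5) (nat_lit 468) (nat_lit 374) (nat_lit 298)) (XT.nd (nat_lit 78) (nat_lit 456) (nat_lit 0) (XT.lf (nat_lit 0) (nat_lit 4780771907) (nat_lit 380) (nat_lit 5430495950) (nat_lit 456) (nat_lit 1584319246) (nat_lit 119) (nat_lit 5) (nat_lit 124) (nat_lit 5) (nat_lit 125) (nat_lit 5) (nat_lit 469) (nat_lit 374) (nat_lit 297)) (XT.lf (nat_lit 0) (nat_lit 75225343) (nat_lit 380) (nat_lit 1509620576) (nat_lit 456) (nat_lit 10351755458) (nat_lit 113) (nat_lit 5) (nat_lit 118) (nat_lit 5) (nat_lit 119) (nat_lit 5) (nat_lit 470)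 (nat_lit 374) (nat_lit 296)))))) (XT.nd (nat_lit 390) (nat_lit 1368) (nat_lit 0) (XT.nd (nat_lit 156) (nat_lit 456) (nat_lit 0) (XT.nd (nat_lit 78) (nat_lit 304) (nat_lit 0) (XT.lf (nat_lit 0) (nat_lit 4831340879) (nat_lit 456) (nat_lit 4747615628) (nat_lit 76) (nat_lit 2500575137) (nat_lit 113) (nat_lit 5) (nat_lit 119) (nat_lit 5) (nat_lit 114) (nat_lit 5) (nat_lit 471) (nat_lit 374) (nat_lit 295)) (XT.lf (nat_lit 0) (nat_lit 2488603146) (nat_lit 304) (nat_lit 5652466018) (nat_lit 380) (nat_lit 4084293483) (nat_lit 109) (nat_lit 5) (nat_lit 113) (nat_lit 5) (nat_lit 114) (nat_lit 5) (nat_lit 472) (nat_lit 374) (nat_lit 294))) (XT.nd (nat_lit 78) (nat_lit 456) (nat_lit 0) (XT.lf (nat_lit 0) (nat_lit 9891722973) (nat_lit 304) (nat_lit 1629548582) (nat_lit 380) (nat_lit 852761164) (nat_lit 109) (nat_lit 5) (nat_lit 113) (nat_lit 5) (nat_lit 114) (nat_lit 5) (nat_lit 473) (nat_lit 374) (nat_lit 293)) (XT.nd (nat_lit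 78) (nat_lit 0) (nat_lit 0) (XT.lf (nat_lit 0) (nat_lit 2432386364) (nat_lit 456) (nat_lit 7617330211) (nat_lit 76) (nat_lit 2475229457) (nat_lit 103) (nat_lit 5) (nat_lit 109) (nat_lit 5) (nat_lit 104) (nat_lit 5) (nat_lit 474) (nat_lit 374) (nat_lit 292)) (XT.lf (nat_lit 0) (nat_lit 5772333833) (nat_lit 456) (nat_lit 258004921) (nat_lit 76) (nat_lit 6648423388) (nat_lit 103) (nat_lit 5) (nat_lit 109) (nat_lit 5) (nat_lit 104) (nat_lit 5) (nat_lit 475) (nat_lit 374) (nat_lit 291))))) (XT.nd (nat_lit 234) (nat_lit 684) (nat_lit 0) (XT.nd (nat_lit 78) (nat_lit 380) (nat_lit 0) (XT.lf (nat_lit 0) (nat_lit 7303212094) (nat_lit 304) (nat_lit 1896761096) (nat_lit 380) (nat_lit 3635270952) (nat_lit 99) (nat_lit 5) (nat_lit 103) (nat_lit 5) (nat_lit 104) (nat_lit 5) (nat_lit 476) (nat_lit 374) (nat_lit 290)) (XT.nd (nat_lit 78) (nat_lit 76) (nat_lit 0) (XT.lf (nat_lit 0) (nat_lit 1994166606) (nat_lit 304) (nat_lit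 10705385039) (nat_lit 380) (nat_lit 295243693) (nat_lit 95) (nat_lit 5) (nat_lit 99) (nat_lit 5) (nat_lit 100) (nat_lit 5) (nat_lit 477) (nat_lit 374) (nat_lit 289)) (XT.lf (nat_lit 0) (nat_lit 3094412462) (nat_lit 380) (nat_lit 3485258168) (nat_lit 76) (nat_lit 6576997131) (nat_lit 94) (nat_lit 5) (nat_lit 99) (nat_lit 5) (nat_lit 95) (nat_lit 5) (nat_lit 478) (nat_lit 374) (nat_lit 288)))) (XT.nd (nat_lit 78) (nat_lit 380) (nat_lit 0) (XT.lf (nat_lit 0) (nat_lit 4192935253) (nat_lit 304) (nat_lit 2356423039) (nat_lit 380) (nat_lit 6772358171) (nat_lit 90) (nat_lit 5) (nat_lit 94) (nat_lit 5) (nat_lit 95) (nat_lit 5) (nat_lit 479) (nat_lit 374) (nat_lit 287)) (XT.nd (nat_lit 78) (nat_lit 380) (nat_lit 0) (XT.lf (nat_lit 0) (nat_lit 10083986267) (nat_lit 380) (nat_lit 1471161829) (nat_lit 76) (nat_lit 1934713108) (nat_lit 90) (nat_lit 5) (nat_lit 95) (nat_lit 5) (nat_lit 91) (nat_lit 5) (nat_lit 480) (nat_lit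 374) (nat_lit 286)) (XT.lf (nat_lit 0) (nat_lit 59598050) (nat_lit 380) (nat_lit 7293491926) (nat_lit 76) (nat_lit 6307641171) (nat_lit 85) (nat_lit 5) (nat_lit 90) (nat_lit 5) (nat_lit 86) (nat_lit 5) (nat_lit 481) (nat_lit 374) (nat_lit 285))))))))
noncomputable def xc81 : XT := (XT.nd (nat_lit 1638) (nat_lit 228) (nat_lit 0) (XT.nd (nat_lit 780) (nat_lit 1292) (nat_lit 0) (XT.nd (nat_lit 390) (nat_lit 836) (nat_lit 0) (XT.nd (nat_lit 156) (nat_lit 608) (nat_lit 0) (XT.nd (nat_lit 78) (nat_lit 0) (nat_lit 0) (XT.lf (nat_lit 0) (nat_lit 491398058) (nat_lit 228) (nat_lit 3045486653) (nat_lit 304) (nat_lit 10297927682) (nat_lit 82) (nat_lit 5) (nat_lit 85) (nat_lit 5) (nat_lit 86) (nat_lit 5) (nat_lit 482) (nat_lit 374) (nat_lit 284)) (XT.lf (nat_lit 0) (nat_lit 7116813569) (nat_lit 304) (nat_lit 5529721856) (nat_lit 76) (nat_lit 1365184125) (nat_lit 82) (nat_lit 5) (nat_lit 86) (nat_lit 5) (nat_lit 83) (nat_lit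 5) (nat_lit 483) (nat_lit 374) (nat_lit 283))) (XT.nd (nat_lit 78) (nat_lit 304) (nat_lit 0) (XT.lf (nat_lit 0) (nat_lit 2412402508) (nat_lit 304) (nat_lit 8367334227) (nat_lit 380) (nat_lit 3412206292) (nat_lit 78) (nat_lit 5) (nat_lit 82) (nat_lit 5) (nat_lit 83) (nat_lit 5) (nat_lit 484) (nat_lit 374) (nat_lit 282)) (XT.nd (nat_lit 78) (nat_lit 228) (nat_lit 0) (XT.lf (nat_lit 0) (nat_lit 151285795) (nat_lit 380) (nat_lit 3827241755) (nat_lit 76) (nat_lit 10396971554) (nat_lit 77) (nat_lit 5) (nat_lit 82) (nat_lit 5) (nat_lit 78) (nat_lit 5) (nat_lit 485) (nat_lit 374) (nat_lit 281)) (XT.lf (nat_lit 0) (nat_lit 3747756362) (nat_lit 304) (nat_lit 10286659832) (nat_lit 76) (nat_lit 527716794) (nat_lit 74) (nat_lit 5) (nat_lit 78) (nat_lit 5) (nat_lit 75) (nat_lit 5) (nat_lit 486) (nat_lit 374) (nat_lit 280))))) (XT.nd (nat_lit 156) (nat_lit 532) (nat_lit 0) (XT.nd (nat_lit 78) (nat_lit 304) (nat_lit 0) (XT.lf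 (nat_lit 0) (nat_lit 7444582706) (nat_lit 304) (nat_lit 2225123318) (nat_lit 76) (nat_lit 5082230626) (nat_lit 74) (nat_lit 5) (nat_lit 78) (nat_lit 5) (nat_lit 75) (nat_lit 5) (nat_lit 487) (nat_lit 374) (nat_lit 279)) (XT.lf (nat_lit 0) (nat_lit 6038863219) (nat_lit 304) (nat_lit 5192382437) (nat_lit 380) (nat_lit 3713978247) (nat_lit 70) (nat_lit 5) (nat_lit 74) (nat_lit 5) (nat_lit 75) (nat_lit 5) (nat_lit 488) (nat_lit 374) (nat_lit 278))) (XT.nd (nat_lit 78) (nat_lit 532) (nat_lit 0) (XT.lf (nat_lit 0) (nat_lit 14460560016) (nat_lit 304) (nat_lit 624917417) (nat_lit 380) (nat_lit 57068166) (nat_lit 70) (nat_lit 5) (nat_lit 74) (nat_lit 5) (nat_lit 75) (nat_lit 5) (nat_lit 489) (nat_lit 374) (nat_lit 277)) (XT.nd (nat_lit 78) (nat_lit 228) (nat_lit 0) (XT.lf (nat_lit 0) (nat_lit 3678898298) (nat_lit 304) (nat_lit 7622042197) (nat_lit 76) (nat_lit 4041319687) (nat_lit 66) (nat_lit 5) (nat_lit 70) (nat_lit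 5) (nat_lit 67) (nat_lit 5) (nat_lit 490) (nat_lit 374) (nat_lit 276)) (XT.lf (nat_lit 0) (nat_lit 721328585) (nat_lit 228) (nat_lit 6758234780) (nat_lit 304) (nat_lit 8066588377) (nat_lit 63) (nat_lit 5) (nat_lit 66) (nat_lit 5) (nat_lit 67) (nat_lit 5) (nat_lit 491) (nat_lit 374) (nat_lit 275)))))) (XT.nd (nat_lit 390) (nat_lit 760) (nat_lit 0) (XT.nd (nat_lit 156) (nat_lit 304) (nat_lit 0) (XT.nd (nat_lit 78) (nat_lit 228) (nat_lit 0) (XT.lf (nat_lit 0) (nat_lit 9297714147) (nat_lit 228) (nat_lit 2087193026) (nat_lit 304) (nat_lit 4368645650) (nat_lit 63) (nat_lit 5) (nat_lit 66) (nat_lit 5) (nat_lit 67) (nat_lit 5) (nat_lit 492) (nat_lit 374) (nat_lit 274)) (XT.lf (nat_lit 0) (nat_lit 2053277176) (nat_lit 228) (nat_lit 13323659383) (nat_lit 304) (nat_lit 587998692) (nat_lit 60) (nat_lit 5) (nat_lit 63) (nat_lit 5) (nat_lit 64) (nat_lit 5) (nat_lit 493) (nat_lit 374) (nat_lit 273))) (XT.nd (nat_lit 78) (nat_lit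 228) (nat_lit 0) (XT.lf (nat_lit 0) (nat_lit 3260740342) (nat_lit 304) (nat_lit 5431773029) (nat_lit 76) (nat_lit 7486905413) (nat_lit 59) (nat_lit 5) (nat_lit 63) (nat_lit 5) (nat_lit 60) (nat_lit 5) (nat_lit 494) (nat_lit 374) (nat_lit 272)) (XT.nd (nat_lit 78) (nat_lit 0) (nat_lit 0) (XT.lf (nat_lit 0) (nat_lit 3219917056) (nat_lit 228) (nat_lit 3957921628) (nat_lit 304) (nat_lit 9220295031) (nat_lit 56) (nat_lit 5) (nat_lit 59) (nat_lit 5) (nat_lit 60) (nat_lit 5) (nat_lit 495) (nat_lit 374) (nat_lit 271)) (XT.lf (nat_lit 0) (nat_lit 11194070452) (nat_lit 304) (nat_lit 4544353605) (nat_lit 76) (nat_lit 882387586) (nat_lit 56) (nat_lit 5) (nat_lit 60) (nat_lit 5) (nat_lit 57) (nat_lit 5) (nat_lit 496) (nat_lit 374) (nat_lit 270))))) (XT.nd (nat_lit 234) (nat_lit 228) (nat_lit 0) (XT.nd (nat_lit 78) (nat_lit 304) (nat_lit 0) (XT.lf (nat_lit 0) (nat_lit 4256276683) (nat_lit 228) (nat_lit 11067061390) (nat_lit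 304) (nat_lit 1523955270) (nat_lit 53) (nat_lit 5) (nat_lit 56) (nat_lit 5) (nat_lit 57) (nat_lit 5) (nat_lit 497) (nat_lit 374) (nat_lit 269)) (XT.nd (nat_lit 78) (nat_lit 228) (nat_lit 0) (XT.lf (nat_lit 0) (nat_lit 2434268337) (nat_lit 304) (nat_lit 3834900325) (nat_lit 76) (nat_lit 10808629157) (nat_lit 52) (nat_lit 5) (nat_lit 56) (nat_lit 5) (nat_lit 53) (nat_lit 5) (nat_lit 498) (nat_lit 374) (nat_lit 268)) (XT.lf (nat_lit 0) (nat_lit 5118502125) (nat_lit 228) (nat_lit 1345321410) (nat_lit 304) (nat_lit 10848640107) (nat_lit 49) (nat_lit 5) (nat_lit 52) (nat_lit 5) (nat_lit 53) (nat_lit 5) (nat_lit 499) (nat_lit 374) (nat_lit 267)))) (XT.nd (nat_lit 78) (nat_lit 228) (nat_lit 0) (XT.lf (nat_lit 0) (nat_lit 10603157786) (nat_lit 304) (nat_lit 3307363012) (nat_lit 76) (nat_lit 3640722325) (nat_lit 49) (nat_lit 5) (nat_lit 53) (nat_lit 5) (nat_lit 50) (nat_lit 5) (nat_lit 500) (nat_lit 374) (nat_lit 266))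 (XT.nd (nat_lit 78) (nat_lit 76) (nat_lit 0) (XT.lf (nat_lit 0) (nat_lit 5789710103) (nat_lit 152) (nat_lit 9061882183) (nat_lit 228) (nat_lit 2942683657) (nat_lit 47) (nat_lit 5) (nat_lit 49) (nat_lit 5) (nat_lit 50) (nat_lit 5) (nat_lit 501) (nat_lit 374) (nat_lit 265)) (XT.lf (nat_lit 0) (nat_lit 1130030611) (nat_lit 228) (nat_lit 2970062770) (nat_lit 76) (nat_lit 13941887642) (nat_lit 46) (nat_lit 5) (nat_lit 49) (nat_lit 5) (nat_lit 47) (nat_lit 5) (nat_lit 502) (nat_lit 374) (nat_lit 264))))))) (XT.nd (nat_lit 51168) (nat_lit 0) (nat_lit 37772) (XT.nd (nat_lit 50778) (nat_lit 0) (nat_lit 43852) (XT.nd (nat_lit 50544) (nat_lit 0) (nat_lit 45828) (XT.nd (nat_lit 78) (nat_lit 0) (nat_lit 0) (XT.lf (nat_lit 0) (nat_lit 5272364678) (nat_lit 304) (nat_lit 12026105541) (nat_lit 76) (nat_lit 995233392) (nat_lit 43) (nat_lit 5) (nat_lit 47) (nat_lit 5) (nat_lit 44) (nat_lit 5) (nat_lit 503) (nat_lit 374) (nat_lit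 263)) (XT.lf (nat_lit 0) (nat_lit 9525088225) (nat_lit 304) (nat_lit 2880812938) (nat_lit 76) (nat_lit 6144012344) (nat_lit 43) (nat_lit 5) (nat_lit 47) (nat_lit 5) (nat_lit 44) (nat_lit 5) (nat_lit 504) (nat_lit 374) (nat_lit 262))) (XT.nd (nat_lit 78) (nat_lit 532) (nat_lit 0) (XT.lf (nat_lit 0) (nat_lit 354329182) (nat_lit 380) (nat_lit 1445649232) (nat_lit 380) (nat_lit 1445649232) (nat_lit 653) (nat_lit 4) (nat_lit 658) (nat_lit 5) (nat_lit 658) (nat_lit 4) (nat_lit 390) (nat_lit 375) (nat_lit 375)) (XT.nd (nat_lit 78) (nat_lit 456) (nat_lit 0) (XT.lf (nat_lit 0) (nat_lit 196297413) (nat_lit 456) (nat_lit 2223547757) (nat_lit 76) (nat_lit 4081947069) (nat_lit 652) (nat_lit 5) (nat_lit 658) (nat_lit 5) (nat_lit 653) (nat_lit 4) (nat_lit 391) (nat_lit 375) (nat_lit 374)) (XT.lf (nat_lit 0) (nat_lit 1357942635) (nat_lit 456) (nat_lit 1883000833) (nat_lit 532) (nat_lit 3272600871) (nat_lit 646) (nat_lit 5)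 (nat_lit 652) (nat_lit 5) (nat_lit 653) (nat_lit 4) (nat_lit 392) (nat_lit 375) (nat_lit 373))))) (XT.nd (nat_lit 156) (nat_lit 1368) (nat_lit 0) (XT.nd (nat_lit 78) (nat_lit 608) (nat_lit 0) (XT.lf (nat_lit 0) (nat_lit 4994113709) (nat_lit 456) (nat_lit 1293611517) (nat_lit 532) (nat_lit 239046989) (nat_lit 646) (nat_lit 5) (nat_lit 652) (nat_lit 5) (nat_lit 653) (nat_lit 4) (nat_lit 393) (nat_lit 375) (nat_lit 372)) (XT.lf (nat_lit 0) (nat_lit 2124877231) (nat_lit 532) (nat_lit 633875130) (nat_lit 608) (nat_lit 3782384167) (nat_lit 638) (nat_lit 5) (nat_lit 645) (nat_lit 5) (nat_lit 646) (nat_lit 5) (nat_lit 394) (nat_lit 375) (nat_lit 371))) (XT.nd (nat_lit 78) (nat_lit 1368) (nat_lit 0) (XT.lf (nat_lit 0) (nat_lit 5752424294) (nat_lit 608) (nat_lit 729689860) (nat_lit 76) (nat_lit 74921826) (nat_lit 638) (nat_lit 5) (nat_lit 646) (nat_lit 5) (nat_lit 639) (nat_lit 4) (nat_lit 395) (nat_lit 375) (nat_lit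 370)) (XT.nd (nat_lit 78) (nat_lit 684) (nat_lit 0) (XT.lf (nat_lit 0) (nat_lit 2156772361) (nat_lit 684) (nat_lit 3570019229) (nat_lit 76) (nat_lit 847164544) (nat_lit 629) (nat_lit 5) (nat_lit 638) (nat_lit 5) (nat_lit 630) (nat_lit 5) (nat_lit 396) (nat_lit 375) (nat_lit 369)) (XT.lf (nat_lit 0) (nat_lit 179747621) (nat_lit 684) (nat_lit 4923430110) (nat_lit 760) (nat_lit 1489257482) (nat_lit 620) (nat_lit 5) (nat_lit 629) (nat_lit 5) (nat_lit 630) (nat_lit 5) (nat_lit 397) (nat_lit 375) (nat_lit 368)))))) (XT.nd (nat_lit 390) (nat_lit 4332) (nat_lit 0) (XT.nd (nat_lit 156) (nat_lit 912) (nat_lit 0) (XT.nd (nat_lit 78) (nat_lit 760) (nat_lit 0) (XT.lf (nat_lit 0) (nat_lit 1432709869) (nat_lit 760) (nat_lit 2616696844) (nat_lit 76) (nat_lit 2562636343) (nat_lit 619) (nat_lit 5) (nat_lit 629) (nat_lit 5) (nat_lit 620) (nat_lit 5) (nat_lit 398) (nat_lit 375) (nat_lit 367)) (XT.lf (nat_lit 0) (nat_lit 1213308140)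 (nat_lit 760) (nat_lit 3120119963) (nat_lit 836) (nat_lit 2299667903) (nat_lit 609) (nat_lit 5) (nat_lit 619) (nat_lit 5) (nat_lit 620) (nat_lit 5) (nat_lit 399) (nat_lit 375) (nat_lit 366))) (XT.nd (nat_lit 78) (nat_lit 836) (nat_lit 0) (XT.lf (nat_lit 0) (nat_lit 579783417) (nat_lit 836) (nat_lit 1551676492) (nat_lit 76) (nat_lit 4524068965) (nat_lit 608) (nat_lit 5) (nat_lit 619) (nat_lit 5) (nat_lit 609) (nat_lit 5) (nat_lit 400) (nat_lit 375) (nat_lit 365)) (XT.nd (nat_lit 78) (nat_lit 0) (nat_lit 0) (XT.lf (nat_lit 0) (nat_lit 2361912112) (nat_lit 836) (nat_lit 1073678226) (nat_lit 912) (nat_lit 3243576583) (nat_lit 597) (nat_lit 5) (nat_lit 608) (nat_lit 5) (nat_lit 609) (nat_lit 5) (nat_lit 401) (nat_lit 375) (nat_lit 364)) (XT.lf (nat_lit 0) (nat_lit 6294321010) (nat_lit 912) (nat_lit 377146423) (nat_lit 76) (nat_lit 32944845) (nat_lit 597) (nat_lit 5) (nat_lit 609) (nat_lit 5) (nat_lit 598) (nat_lit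 5) (nat_lit 402) (nat_lit 375) (nat_lit 363))))) (XT.nd (nat_lit 234) (nat_lit 2280) (nat_lit 0) (XT.nd (nat_lit 78) (nat_lit 1064) (nat_lit 0) (XT.lf (nat_lit 0) (nat_lit 2414540200) (nat_lit 988) (nat_lit 3112254493) (nat_lit 76) (nat_lit 1203754480) (nat_lit 584) (nat_lit 5) (nat_lit 597) (nat_lit 5) (nat_lit 585) (nat_lit 5) (nat_lit 403) (nat_lit 375) (nat_lit 362)) (XT.nd (nat_lit 78) (nat_lit 76) (nat_lit 0) (XT.lf (nat_lit 0) (nat_lit 902306870) (nat_lit 988) (nat_lit 4333311578) (nat_lit 1064) (nat_lit 1522675018) (nat_lit 571) (nat_lit 5) (nat_lit 584) (nat_lit 5) (nat_lit 585) (nat_lit 5) (nat_lit 404) (nat_lit 375) (nat_lit 361)) (XT.lf (nat_lit 0) (nat_lit 1267650702) (nat_lit 1064) (nat_lit 1804530385) (nat_lit 76) (nat_lit 3715114774) (nat_lit 570) (nat_lit 5) (nat_lit 584) (nat_lit 5) (nat_lit 571) (nat_lit 5) (nat_lit 405) (nat_lit 375) (nat_lit 360)))) (XT.nd (nat_lit 78) (nat_lit 1216) (nat_lit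 0) (XT.lf (nat_lit 0) (nat_lit 2300045013) (nat_lit 1064) (nat_lit 1747026813) (nat_lit 1140) (nat_lit 2770576652) (nat_lit 556) (nat_lit 5) (nat_lit 570) (nat_lit 5) (nat_lit 571) (nat_lit 5) (nat_lit 406) (nat_lit 375) (nat_lit 359)) (XT.nd (nat_lit 78) (nat_lit 1216) (nat_lit 0) (XT.lf (nat_lit 0) (nat_lit 6463497037) (nat_lit 1064) (nat_lit 370310645) (nat_lit 1140) (nat_lit 15810080) (nat_lit 556) (nat_lit 5) (nat_lit 570) (nat_lit 5) (nat_lit 571) (nat_lit 5) (nat_lit 407) (nat_lit 375) (nat_lit 358)) (XT.lf (nat_lit 0) (nat_lit 2729600694) (nat_lit 1216) (nat_lit 3077405442) (nat_lit 76) (nat_lit 1075456037) (nat_lit 540) (nat_lit 5) (nat_lit 556) (nat_lit 5) (nat_lit 541) (nat_lit 5) (nat_lit 408) (nat_lit 375) (nat_lit 357))))))))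
noncomputable def xc82 : XT := (XT.nd (nat_lit 1560) (nat_lit 9044) (nat_lit 0) (XT.nd (nat_lit 780) (nat_lit 7980) (nat_lit 0) (XT.nd (nat_lit 390) (nat_lit 4712) (nat_lit 0) (XT.nd (nat_lit 156) (nat_lit 2736) (nat_lit 0) (XT.nd (nat_lit 78) (nat_lit 76) (nat_lit 0) (XT.lf (nat_lit 0) (nat_lit 1133112153) (nat_lit 1216) (nat_lit 4350316905) (nat_lit 1292) (nat_lit 1433499497) (nat_lit 524) (nat_lit 5) (nat_lit 540) (nat_lit 5) (nat_lit 541) (nat_lit 5) (nat_lit 409) (nat_lit 375) (nat_lit 356)) (XT.lf (nat_lit 0) (nat_lit 1285177539) (nat_lit 1292) (nat_lit 1540004359) (nat_lit 76) (nat_lit 4127518203) (nat_lit 523) (nat_lit 5) (nat_lit 540) (nat_lit 5) (nat_lit 524) (nat_lit 5) (nat_lit 410) (nat_lit 375) (nat_lit 355))) (XT.nd (nat_lit 78) (nat_lit 1444) (nat_lit 0) (XT.lf (nat_lit 0) (nat_lit 2767397524) (nat_lit 1292) (nat_lit 1232482209) (nat_lit 1368) (nat_lit 2989940106) (nat_lit 506) (nat_lit 5) (nat_lit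 523) (nat_lit 5) (nat_lit 524) (nat_lit 5) (nat_lit 411) (nat_lit 375) (nat_lit 354)) (XT.nd (nat_lit 78) (nat_lit 76) (nat_lit 0) (XT.lf (nat_lit 0) (nat_lit 104106517) (nat_lit 1368) (nat_lit 6622119882) (nat_lit 1444) (nat_lit 302346992) (nat_lit 488) (nat_lit 5) (nat_lit 506) (nat_lit 5) (nat_lit 507) (nat_lit 5) (nat_lit 412) (nat_lit 375) (nat_lit 353)) (XT.lf (nat_lit 0) (nat_lit 2387803548) (nat_lit 1444) (nat_lit 2566768251) (nat_lit 76) (nat_lit 2113634567) (nat_lit 487) (nat_lit 5) (nat_lit 506) (nat_lit 5) (nat_lit 488) (nat_lit 5) (nat_lit 413) (nat_lit 375) (nat_lit 352))))) (XT.nd (nat_lit 156) (nat_lit 3192) (nat_lit 0) (XT.nd (nat_lit 78) (nat_lit 76) (nat_lit 0) (XT.lf (nat_lit 0) (nat_lit 1851889982) (nat_lit 1444) (nat_lit 3233051080) (nat_lit 1520) (nat_lit 2024542532) (nat_lit 468) (nat_lit 5) (nat_lit 487) (nat_lit 5) (nat_lit 488) (nat_lit 5) (nat_lit 414) (nat_lit 375) (nat_lit 351))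 (XT.lf (nat_lit 0) (nat_lit 638370661) (nat_lit 1520) (nat_lit 811004240) (nat_lit 76) (nat_lit 5702899150) (nat_lit 467) (nat_lit 5) (nat_lit 487) (nat_lit 5) (nat_lit 468) (nat_lit 5) (nat_lit 415) (nat_lit 375) (nat_lit 350))) (XT.nd (nat_lit 78) (nat_lit 1672) (nat_lit 0) (XT.lf (nat_lit 0) (nat_lit 3300885009) (nat_lit 1596) (nat_lit 3487126251) (nat_lit 76) (nat_lit 408206503) (nat_lit 447) (nat_lit 5) (nat_lit 468) (nat_lit 5) (nat_lit 448) (nat_lit 5) (nat_lit 416) (nat_lit 375) (nat_lit 349)) (XT.nd (nat_lit 78) (nat_lit 76) (nat_lit 0) (XT.lf (nat_lit 0) (nat_lit 1044958744) (nat_lit 1596) (nat_lit 4940962453) (nat_lit 1672) (nat_lit 1255767175) (nat_lit 426) (nat_lit 5) (nat_lit 447) (nat_lit 5) (nat_lit 448) (nat_lit 5) (nat_lit 417) (nat_lit 375) (nat_lit 348)) (XT.lf (nat_lit 0) (nat_lit 1389054938) (nat_lit 1672) (nat_lit 1631296581) (nat_lit 76) (nat_lit 4268136355) (nat_lit 425) (nat_lit 5)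 (nat_lit 447) (nat_lit 5) (nat_lit 426) (nat_lit 5) (nat_lit 418) (nat_lit 375) (nat_lit 347)))))) (XT.nd (nat_lit 390) (nat_lit 3496) (nat_lit 0) (XT.nd (nat_lit 156) (nat_lit 1064) (nat_lit 0) (XT.nd (nat_lit 78) (nat_lit 1748) (nat_lit 0) (XT.lf (nat_lit 0) (nat_lit 3008380030) (nat_lit 1672) (nat_lit 1029902282) (nat_lit 1748) (nat_lit 3298440093) (nat_lit 403) (nat_lit 5) (nat_lit 425) (nat_lit 5) (nat_lit 426) (nat_lit 5) (nat_lit 419) (nat_lit 375) (nat_lit 346)) (XT.lf (nat_lit 0) (nat_lit 326022750) (nat_lit 1748) (nat_lit 6383588648) (nat_lit 1824) (nat_lit 676958791) (nat_lit 380) (nat_lit 5) (nat_lit 403) (nat_lit 5) (nat_lit 404) (nat_lit 5) (nat_lit 420) (nat_lit 375) (nat_lit 345))) (XT.nd (nat_lit 78) (nat_lit 988) (nat_lit 0) (XT.lf (nat_lit 0) (nat_lit 1956620992) (nat_lit 1824) (nat_lit 2373986035) (nat_lit 76) (nat_lit 3106861111) (nat_lit 379) (nat_lit 5) (nat_lit 403) (nat_lit 5) (nat_lit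 380) (nat_lit 5) (nat_lit 421) (nat_lit 375) (nat_lit 344)) (XT.nd (nat_lit 78) (nat_lit 0) (nat_lit 0) (XT.lf (nat_lit 0) (nat_lit 2384746295) (nat_lit 988) (nat_lit 2215338611) (nat_lit 1064) (nat_lit 2889913229) (nat_lit 366) (nat_lit 5) (nat_lit 379) (nat_lit 5) (nat_lit 380) (nat_lit 5) (nat_lit 422) (nat_lit 375) (nat_lit 343)) (XT.lf (nat_lit 0) (nat_lit 7222797886) (nat_lit 988) (nat_lit 40989212) (nat_lit 1064) (nat_lit 280472804) (nat_lit 366) (nat_lit 5) (nat_lit 379) (nat_lit 5) (nat_lit 380) (nat_lit 5) (nat_lit 423) (nat_lit 375) (nat_lit 342))))) (XT.nd (nat_lit 156) (nat_lit 1672) (nat_lit 0) (XT.nd (nat_lit 78) (nat_lit 836) (nat_lit 0) (XT.lf (nat_lit 0) (nat_lit 2345978678) (nat_lit 988) (nat_lit 3059607134) (nat_lit 76) (nat_lit 2193818305) (nat_lit 353) (nat_lit 5) (nat_lit 366) (nat_lit 5) (nat_lit 354) (nat_lit 5) (nat_lit 424) (nat_lit 375) (nat_lit 341)) (XT.lf (nat_lit 0) (nat_lit 1820345040)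 (nat_lit 836) (nat_lit 3167802911) (nat_lit 912) (nat_lit 2668154205) (nat_lit 342) (nat_lit 5) (nat_lit 353) (nat_lit 5) (nat_lit 354) (nat_lit 5) (nat_lit 425) (nat_lit 375) (nat_lit 340))) (XT.nd (nat_lit 78) (nat_lit 1672) (nat_lit 0) (XT.lf (nat_lit 0) (nat_lit 6791272034) (nat_lit 836) (nat_lit 865714704) (nat_lit 912) (nat_lit 57901272) (nat_lit 342) (nat_lit 5) (nat_lit 353) (nat_lit 5) (nat_lit 354) (nat_lit 5) (nat_lit 426) (nat_lit 375) (nat_lit 339)) (XT.nd (nat_lit 78) (nat_lit 760) (nat_lit 0) (XT.lf (nat_lit 0) (nat_lit 2560642552) (nat_lit 912) (nat_lit 3708904878) (nat_lit 76) (nat_lit 1504980393) (nat_lit 330) (nat_lit 5) (nat_lit 342) (nat_lit 5) (nat_lit 331) (nat_lit 5) (nat_lit 427) (nat_lit 375) (nat_lit 338)) (XT.lf (nat_lit 0) (nat_lit 1294346589) (nat_lit 760) (nat_lit 3911276955) (nat_lit 836) (nat_lit 2630257259) (nat_lit 320) (nat_lit 5) (nat_lit 330) (nat_lit 5) (nat_lit 331) (nat_lit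 5) (nat_lit 428) (nat_lit 375) (nat_lit 337))))))) (XT.nd (nat_lit 780) (nat_lit 4484) (nat_lit 0) (XT.nd (nat_lit 390) (nat_lit 2128) (nat_lit 0) (XT.nd (nat_lit 156) (nat_lit 1596) (nat_lit 0) (XT.nd (nat_lit 78) (nat_lit 836) (nat_lit 0) (XT.lf (nat_lit 0) (nat_lit 6399855377) (nat_lit 760) (nat_lit 1483583044) (nat_lit 836) (nat_lit 15448104) (nat_lit 320) (nat_lit 5) (nat_lit 330) (nat_lit 5) (nat_lit 331) (nat_lit 5) (nat_lit 429) (nat_lit 375) (nat_lit 336)) (XT.lf (nat_lit 0) (nat_lit 2602733367) (nat_lit 836) (nat_lit 4343021456) (nat_lit 76) (nat_lit 1017359571) (nat_lit 309) (nat_lit 5) (nat_lit 320) (nat_lit 5) (nat_lit 310) (nat_lit 5) (nat_lit 430) (nat_lit 375) (nat_lit 335))) (XT.nd (nat_lit 78) (nat_lit 836) (nat_lit 0) (XT.lf (nat_lit 0) (nat_lit 785486179) (nat_lit 760) (nat_lit 4468786952) (nat_lit 836) (nat_lit 2774750581) (nat_lit 299) (nat_lit 5) (nat_lit 309) (nat_lit 5) (nat_lit 310)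 (nat_lit 5) (nat_lit 431) (nat_lit 375) (nat_lit 334)) (XT.nd (nat_lit 78) (nat_lit 836) (nat_lit 0) (XT.lf (nat_lit 0) (nat_lit 6027437362) (nat_lit 760) (nat_lit 1917248918) (nat_lit 836) (nat_lit 151870598) (nat_lit 299) (nat_lit 5) (nat_lit 309) (nat_lit 5) (nat_lit 310) (nat_lit 5) (nat_lit 432) (nat_lit 375) (nat_lit 333)) (XT.lf (nat_lit 0) (nat_lit 2472968516) (nat_lit 836) (nat_lit 4983690413) (nat_lit 76) (nat_lit 708823791) (nat_lit 288) (nat_lit 5) (nat_lit 299) (nat_lit 5) (nat_lit 289) (nat_lit 5) (nat_lit 433) (nat_lit 375) (nat_lit 332))))) (XT.nd (nat_lit 156) (nat_lit 1444) (nat_lit 0) (XT.nd (nat_lit 78) (nat_lit 0) (nat_lit 0) (XT.lf (nat_lit 0) (nat_lit 271866104) (nat_lit 684) (nat_lit 4862588251) (nat_lit 760) (nat_lit 3101610190) (nat_lit 279) (nat_lit 5) (nat_lit 288) (nat_lit 5) (nat_lit 289) (nat_lit 5) (nat_lit 434) (nat_lit 375) (nat_lit 331)) (XT.lf (nat_lit 0) (nat_lit 5652240680)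 (nat_lit 684) (nat_lit 2188632939) (nat_lit 760) (nat_lit 467371113) (nat_lit 279) (nat_lit 5) (nat_lit 288) (nat_lit 5) (nat_lit 289) (nat_lit 5) (nat_lit 435) (nat_lit 375) (nat_lit 330))) (XT.nd (nat_lit 78) (nat_lit 684) (nat_lit 0) (XT.lf (nat_lit 0) (nat_lit 2170641131) (nat_lit 760) (nat_lit 5653439995) (nat_lit 76) (nat_lit 557915205) (nat_lit 269) (nat_lit 5) (nat_lit 279) (nat_lit 5) (nat_lit 270) (nat_lit 5) (nat_lit 436) (nat_lit 375) (nat_lit 329)) (XT.nd (nat_lit 78) (nat_lit 684) (nat_lit 0) (XT.lf (nat_lit 0) (nat_lit 4846844609) (nat_lit 760) (nat_lit 265720522) (nat_lit 76) (nat_lit 3344781863) (nat_lit 269) (nat_lit 5) (nat_lit 279) (nat_lit 5) (nat_lit 270) (nat_lit 5) (nat_lit 437) (nat_lit 375) (nat_lit 328)) (XT.lf (nat_lit 0) (nat_lit 5251612194) (nat_lit 684) (nat_lit 2319103737) (nat_lit 760) (nat_lit 963625078) (nat_lit 260) (nat_lit 5) (nat_lit 269) (nat_lit 5) (nat_lit 270) (nat_lit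 5) (nat_lit 438) (nat_lit 375) (nat_lit 327)))))) (XT.nd (nat_lit 390) (nat_lit 2432) (nat_lit 0) (XT.nd (nat_lit 156) (nat_lit 1292) (nat_lit 0) (XT.nd (nat_lit 78) (nat_lit 0) (nat_lit 0) (XT.lf (nat_lit 0) (nat_lit 1693587446) (nat_lit 760) (nat_lit 6375807491) (nat_lit 76) (nat_lit 543669623) (nat_lit 250) (nat_lit 5) (nat_lit 260) (nat_lit 5) (nat_lit 251) (nat_lit 5) (nat_lit 439) (nat_lit 375) (nat_lit 326)) (XT.lf (nat_lit 0) (nat_lit 4389258247) (nat_lit 760) (nat_lit 850364341) (nat_lit 76) (nat_lit 3453666369) (nat_lit 250) (nat_lit 5) (nat_lit 260) (nat_lit 5) (nat_lit 251) (nat_lit 5) (nat_lit 440) (nat_lit 375) (nat_lit 325))) (XT.nd (nat_lit 78) (nat_lit 684) (nat_lit 0) (XT.lf (nat_lit 0) (nat_lit 4801801962) (nat_lit 608) (nat_lit 2329660002) (nat_lit 684) (nat_lit 1643821241) (nat_lit 242) (nat_lit 5) (nat_lit 250) (nat_lit 5) (nat_lit 251) (nat_lit 5) (nat_lit 441) (nat_lit 375) (nat_lit 324))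 (XT.nd (nat_lit 78) (nat_lit 0) (nat_lit 0) (XT.lf (nat_lit 0) (nat_lit 1038141924) (nat_lit 684) (nat_lit 7175566512) (nat_lit 76) (nat_lit 645435524) (nat_lit 233) (nat_lit 5) (nat_lit 242) (nat_lit 5) (nat_lit 234) (nat_lit 5) (nat_lit 442) (nat_lit 375) (nat_lit 323)) (XT.lf (nat_lit 0) (nat_lit 3756043576) (nat_lit 684) (nat_lit 1510391627) (nat_lit 76) (nat_lit 3677959941) (nat_lit 233) (nat_lit 5) (nat_lit 242) (nat_lit 5) (nat_lit 234) (nat_lit 5) (nat_lit 443) (nat_lit 375) (nat_lit 322))))) (XT.nd (nat_lit 234) (nat_lit 1140) (nat_lit 0) (XT.nd (nat_lit 78) (nat_lit 684) (nat_lit 0) (XT.lf (nat_lit 0) (nat_lit 4277728314) (nat_lit 608) (nat_lit 2241113962) (nat_lit 684) (nat_lit 2512714697) (nat_lit 225) (nat_lit 5) (nat_lit 233) (nat_lit 5) (nat_lit 234) (nat_lit 5) (nat_lit 444) (nat_lit 375) (nat_lit 321)) (XT.nd (nat_lit 78) (nat_lit 0) (nat_lit 0) (XT.lf (nat_lit 0) (nat_lit 199079557) (nat_lit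 684) (nat_lit 8078969306) (nat_lit 76) (nat_lit 842691166) (nat_lit 216) (nat_lit 5) (nat_lit 225) (nat_lit 5) (nat_lit 217) (nat_lit 5) (nat_lit 445) (nat_lit 375) (nat_lit 320)) (XT.lf (nat_lit 0) (nat_lit 2941748308) (nat_lit 684) (nat_lit 2272083199) (nat_lit 76) (nat_lit 3997352836) (nat_lit 216) (nat_lit 5) (nat_lit 225) (nat_lit 5) (nat_lit 217) (nat_lit 5) (nat_lit 446) (nat_lit 375) (nat_lit 319)))) (XT.nd (nat_lit 78) (nat_lit 608) (nat_lit 0) (XT.lf (nat_lit 0) (nat_lit 3652726812) (nat_lit 532) (nat_lit 2074277822) (nat_lit 608) (nat_lit 3576693375) (nat_lit 209) (nat_lit 5) (nat_lit 216) (nat_lit 5) (nat_lit 217) (nat_lit 5) (nat_lit 447) (nat_lit 375) (nat_lit 318)) (XT.nd (nat_lit 78) (nat_lit 76) (nat_lit 0) (XT.lf (nat_lit 0) (nat_lit 278830083) (nat_lit 532) (nat_lit 8277978183) (nat_lit 608) (nat_lit 841491692) (nat_lit 202) (nat_lit 5) (nat_lit 209) (nat_lit 5) (nat_lit 210) (nat_lit 5) (nat_lit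 448) (nat_lit 375) (nat_lit 317)) (XT.lf (nat_lit 0) (nat_lit 1939280411) (nat_lit 608) (nat_lit 3163502731) (nat_lit 76) (nat_lit 4391443670) (nat_lit 201) (nat_lit 5) (nat_lit 209) (nat_lit 5) (nat_lit 202) (nat_lit 5) (nat_lit 449) (nat_lit 375) (nat_lit 316))))))))
noncomputable def xc83 : XT := (XT.nd (nat_lit 1638) (nat_lit 3952) (nat_lit 0) (XT.nd (nat_lit 780) (nat_lit 3116) (nat_lit 0) (XT.nd (nat_lit 390) (nat_lit 1596) (nat_lit 0) (XT.nd (nat_lit 156) (nat_lit 1064) (nat_lit 0) (XT.nd (nat_lit 78) (nat_lit 0) (nat_lit 0) (XT.lf (nat_lit 0) (nat_lit 2898280742) (nat_lit 532) (nat_lit 1850154719) (nat_lit 608) (nat_lit 4843858791) (nat_lit 194) (nat_lit 5) (nat_lit 201) (nat_lit 5) (nat_lit 202) (nat_lit 5) (nat_lit 450) (nat_lit 375) (nat_lit 315)) (XT.lf (nat_lit 0) (nat_lit 7610193647) (nat_lit 608) (nat_lit 623456166) (nat_lit 76) (nat_lit 1458758550) (nat_lit 194) (nat_lit 5) (nat_lit 202) (nat_lit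 5) (nat_lit 195) (nat_lit 5) (nat_lit 451) (nat_lit 375) (nat_lit 314))) (XT.nd (nat_lit 78) (nat_lit 456) (nat_lit 0) (XT.lf (nat_lit 0) (nat_lit 739819559) (nat_lit 608) (nat_lit 4214779720) (nat_lit 76) (nat_lit 4839547417) (nat_lit 186) (nat_lit 5) (nat_lit 194) (nat_lit 5) (nat_lit 187) (nat_lit 5) (nat_lit 452) (nat_lit 375) (nat_lit 313)) (XT.nd (nat_lit 78) (nat_lit 0) (nat_lit 0) (XT.lf (nat_lit 0) (nat_lit 1983730587) (nat_lit 456) (nat_lit 1590135850) (nat_lit 532) (nat_lit 6324121965) (nat_lit 180) (nat_lit 5) (nat_lit 186) (nat_lit 5) (nat_lit 187) (nat_lit 5) (nat_lit 453) (nat_lit 375) (nat_lit 312)) (XT.lf (nat_lit 0) (nat_lit 6471649049) (nat_lit 532) (nat_lit 1697776977) (nat_lit 76) (nat_lit 1834352498) (nat_lit 180) (nat_lit 5) (nat_lit 187) (nat_lit 5) (nat_lit 181) (nat_lit 5) (nat_lit 454) (nat_lit 375) (nat_lit 311))))) (XT.nd (nat_lit 156) (nat_lit 532) (nat_lit 0) (XT.nd (nat_lit 78)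 (nat_lit 532) (nat_lit 0) (XT.lf (nat_lit 0) (nat_lit 4648731584) (nat_lit 532) (nat_lit 4786650547) (nat_lit 608) (nat_lit 676154849) (nat_lit 173) (nat_lit 5) (nat_lit 180) (nat_lit 5) (nat_lit 181) (nat_lit 5) (nat_lit 455) (nat_lit 375) (nat_lit 310)) (XT.lf (nat_lit 0) (nat_lit 875959733) (nat_lit 456) (nat_lit 1316205484) (nat_lit 532) (nat_lit 8029315584) (nat_lit 166) (nat_lit 5) (nat_lit 172) (nat_lit 5) (nat_lit 173) (nat_lit 5) (nat_lit 456) (nat_lit 375) (nat_lit 309))) (XT.nd (nat_lit 78) (nat_lit 532) (nat_lit 0) (XT.lf (nat_lit 0) (nat_lit 5127822287) (nat_lit 532) (nat_lit 2981670316) (nat_lit 76) (nat_lit 2223672733) (nat_lit 166) (nat_lit 5) (nat_lit 173) (nat_lit 5) (nat_lit 167) (nat_lit 5) (nat_lit 457) (nat_lit 375) (nat_lit 308)) (XT.nd (nat_lit 78) (nat_lit 76) (nat_lit 0) (XT.lf (nat_lit 0) (nat_lit 3502389148) (nat_lit 456) (nat_lit 4619570932) (nat_lit 532) (nat_lit 2325139613) (nat_lit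 160) (nat_lit 5) (nat_lit 166) (nat_lit 5) (nat_lit 167) (nat_lit 5) (nat_lit 458) (nat_lit 375) (nat_lit 307)) (XT.lf (nat_lit 0) (nat_lit 593201843) (nat_lit 532) (nat_lit 454901218) (nat_lit 76) (nat_lit 9515369772) (nat_lit 159) (nat_lit 5) (nat_lit 166) (nat_lit 5) (nat_lit 160) (nat_lit 5) (nat_lit 459) (nat_lit 375) (nat_lit 306)))))) (XT.nd (nat_lit 390) (nat_lit 1292) (nat_lit 0) (XT.nd (nat_lit 156) (nat_lit 912) (nat_lit 0) (XT.nd (nat_lit 78) (nat_lit 456) (nat_lit 0) (XT.lf (nat_lit 0) (nat_lit 3565155510) (nat_lit 532) (nat_lit 4511931356) (nat_lit 76) (nat_lit 2604262424) (nat_lit 153) (nat_lit 5) (nat_lit 160) (nat_lit 5) (nat_lit 154) (nat_lit 5) (nat_lit 460) (nat_lit 375) (nat_lit 305)) (XT.lf (nat_lit 0) (nat_lit 2107740785) (nat_lit 456) (nat_lit 4481797334) (nat_lit 532) (nat_lit 4212195969) (nat_lit 147) (nat_lit 5) (nat_lit 153) (nat_lit 5) (nat_lit 154) (nat_lit 5) (nat_lit 461) (nat_lit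 375) (nat_lit 304))) (XT.nd (nat_lit 78) (nat_lit 912) (nat_lit 0) (XT.lf (nat_lit 0) (nat_lit 8877446134) (nat_lit 456) (nat_lit 796850346) (nat_lit 532) (nat_lit 1250242740) (nat_lit 147) (nat_lit 5) (nat_lit 153) (nat_lit 5) (nat_lit 154) (nat_lit 5) (nat_lit 462) (nat_lit 375) (nat_lit 303)) (XT.nd (nat_lit 78) (nat_lit 456) (nat_lit 0) (XT.lf (nat_lit 0) (nat_lit 1767924857) (nat_lit 456) (nat_lit 6328648587) (nat_lit 76) (nat_lit 2952603010) (nat_lit 141) (nat_lit 5) (nat_lit 147) (nat_lit 5) (nat_lit 142) (nat_lit 5) (nat_lit 463) (nat_lit 375) (nat_lit 302)) (XT.lf (nat_lit 0) (nat_lit 423817857) (nat_lit 456) (nat_lit 4397994265) (nat_lit 532) (nat_lit 6354496887) (nat_lit 135) (nat_lit 5) (nat_lit 141) (nat_lit 5) (nat_lit 142) (nat_lit 5) (nat_lit 464) (nat_lit 375) (nat_lit 301))))) (XT.nd (nat_lit 234) (nat_lit 836) (nat_lit 0) (XT.nd (nat_lit 78) (nat_lit 456) (nat_lit 0) (XT.lf (nat_lit 0) (nat_lit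 7354093926) (nat_lit 456) (nat_lit 595680759) (nat_lit 532) (nat_lit 3355959186) (nat_lit 135) (nat_lit 5) (nat_lit 141) (nat_lit 5) (nat_lit 142) (nat_lit 5) (nat_lit 465) (nat_lit 375) (nat_lit 300)) (XT.nd (nat_lit 78) (nat_lit 76) (nat_lit 0) (XT.lf (nat_lit 0) (nat_lit 2960053032) (nat_lit 380) (nat_lit 8191795993) (nat_lit 456) (nat_lit 285676575) (nat_lit 130) (nat_lit 5) (nat_lit 135) (nat_lit 5) (nat_lit 136) (nat_lit 5) (nat_lit 466) (nat_lit 375) (nat_lit 299)) (XT.lf (nat_lit 0) (nat_lit 2810438230) (nat_lit 456) (nat_lit 1573271801) (nat_lit 76) (nat_lit 7187847573) (nat_lit 129) (nat_lit 5) (nat_lit 135) (nat_lit 5) (nat_lit 130) (nat_lit 5) (nat_lit 467) (nat_lit 375) (nat_lit 298)))) (XT.nd (nat_lit 78) (nat_lit 456) (nat_lit 0) (XT.lf (nat_lit 0) (nat_lit 5497262131) (nat_lit 380) (nat_lit 474764219) (nat_lit 456) (nat_lit 5736067482) (nat_lit 124) (nat_lit 5) (nat_lit 129) (nat_lit 5) (nat_lit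 130) (nat_lit 5) (nat_lit 468) (nat_lit 375) (nat_lit 297)) (XT.nd (nat_lit 78) (nat_lit 76) (nat_lit 0) (XT.lf (nat_lit 0) (nat_lit 829222836) (nat_lit 380) (nat_lit 8378316077) (nat_lit 456) (nat_lit 2639616720) (nat_lit 119) (nat_lit 5) (nat_lit 124) (nat_lit 5) (nat_lit 125) (nat_lit 5) (nat_lit 469) (nat_lit 375) (nat_lit 296)) (XT.lf (nat_lit 0) (nat_lit 529021006) (nat_lit 456) (nat_lit 3942950365) (nat_lit 76) (nat_lit 7516627068) (nat_lit 118) (nat_lit 5) (nat_lit 124) (nat_lit 5) (nat_lit 119) (nat_lit 5) (nat_lit 470) (nat_lit 375) (nat_lit 295))))))) (XT.nd (nat_lit 780) (nat_lit 1824) (nat_lit 0) (XT.nd (nat_lit 390) (nat_lit 988) (nat_lit 0) (XT.nd (nat_lit 156) (nat_lit 760) (nat_lit 0) (XT.nd (nat_lit 78) (nat_lit 0) (nat_lit 0) (XT.lf (nat_lit 0) (nat_lit 3257335194) (nat_lit 380) (nat_lit 462046904) (nat_lit 456) (nat_lit 8413273344) (nat_lit 113) (nat_lit 5) (nat_lit 118) (nat_lit 5) (nat_lit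 119) (nat_lit 5) (nat_lit 471) (nat_lit 375) (nat_lit 294)) (XT.lf (nat_lit 0) (nat_lit 6996435179) (nat_lit 456) (nat_lit 1689346632) (nat_lit 76) (nat_lit 3593362119) (nat_lit 113) (nat_lit 5) (nat_lit 119) (nat_lit 5) (nat_lit 114) (nat_lit 5) (nat_lit 472) (nat_lit 375) (nat_lit 293))) (XT.nd (nat_lit 78) (nat_lit 456) (nat_lit 0) (XT.lf (nat_lit 0) (nat_lit 5670851641) (nat_lit 304) (nat_lit 4681286318) (nat_lit 380) (nat_lit 2076169936) (nat_lit 109) (nat_lit 5) (nat_lit 113) (nat_lit 5) (nat_lit 114) (nat_lit 5) (nat_lit 473) (nat_lit 375) (nat_lit 292)) (XT.nd (nat_lit 78) (nat_lit 0) (nat_lit 0) (XT.lf (nat_lit 0) (nat_lit 579795614) (nat_lit 380) (nat_lit 587522165) (nat_lit 456) (nat_lit 11413220144) (nat_lit 103) (nat_lit 5) (nat_lit 108) (nat_lit 5) (nat_lit 109) (nat_lit 5) (nat_lit 474) (nat_lit 375) (nat_lit 291)) (XT.lf (nat_lit 0) (nat_lit 4490319795) (nat_lit 456) (nat_lit 4657937940) (nat_lit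 76) (nat_lit 3586438884) (nat_lit 103) (nat_lit 5) (nat_lit 109) (nat_lit 5) (nat_lit 104) (nat_lit 5) (nat_lit 475) (nat_lit 375) (nat_lit 290))))) (XT.nd (nat_lit 156) (nat_lit 684) (nat_lit 0) (XT.nd (nat_lit 78) (nat_lit 0) (nat_lit 0) (XT.lf (nat_lit 0) (nat_lit 2824604563) (nat_lit 304) (nat_lit 5051403097) (nat_lit 380) (nat_lit 5016013593) (nat_lit 99) (nat_lit 5) (nat_lit 103) (nat_lit 5) (nat_lit 104) (nat_lit 5) (nat_lit 476) (nat_lit 375) (nat_lit 289)) (XT.lf (nat_lit 0) (nat_lit 10479930168) (nat_lit 304) (nat_lit 854982192) (nat_lit 380) (nat_lit 1717477098) (nat_lit 99) (nat_lit 5) (nat_lit 103) (nat_lit 5) (nat_lit 104) (nat_lit 5) (nat_lit 477) (nat_lit 375) (nat_lit 288))) (XT.nd (nat_lit 78) (nat_lit 304) (nat_lit 0) (XT.lf (nat_lit 0) (nat_lit 1655483674) (nat_lit 380) (nat_lit 8149165626) (nat_lit 76) (nat_lit 3410507624) (nat_lit 94) (nat_lit 5) (nat_lit 99) (nat_lit 5) (nat_lit 95) (nat_lit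 5) (nat_lit 478) (nat_lit 375) (nat_lit 287)) (XT.nd (nat_lit 78) (nat_lit 304) (nat_lit 0) (XT.lf (nat_lit 0) (nat_lit 5070695440) (nat_lit 380) (nat_lit 545629581) (nat_lit 76) (nat_lit 7764678617) (nat_lit 94) (nat_lit 5) (nat_lit 99) (nat_lit 5) (nat_lit 95) (nat_lit 5) (nat_lit 479) (nat_lit 375) (nat_lit 286)) (XT.lf (nat_lit 0) (nat_lit 7266329459) (nat_lit 304) (nat_lit 1310283624) (nat_lit 380) (nat_lit 4973112767) (nat_lit 90) (nat_lit 5) (nat_lit 94) (nat_lit 5) (nat_lit 95) (nat_lit 5) (nat_lit 480) (nat_lit 375) (nat_lit 285)))))) (XT.nd (nat_lit 390) (nat_lit 912) (nat_lit 0) (XT.nd (nat_lit 156) (nat_lit 532) (nat_lit 0) (XT.nd (nat_lit 78) (nat_lit 76) (nat_lit 0) (XT.lf (nat_lit 0) (nat_lit 1480461078) (nat_lit 304) (nat_lit 10680861995) (nat_lit 380) (nat_lit 1560332419) (nat_lit 86) (nat_lit 5) (nat_lit 90) (nat_lit 5) (nat_lit 91) (nat_lit 5) (nat_lit 481) (nat_lit 375) (nat_lit 284)) (XT.lf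 (nat_lit 0) (nat_lit 1922064200) (nat_lit 380) (nat_lit 4472010409) (nat_lit 76) (nat_lit 7502174902) (nat_lit 85) (nat_lit 5) (nat_lit 90) (nat_lit 5) (nat_lit 86) (nat_lit 5) (nat_lit 482) (nat_lit 375) (nat_lit 283))) (XT.nd (nat_lit 78) (nat_lit 304) (nat_lit 0) (XT.lf (nat_lit 0) (nat_lit 3449055326) (nat_lit 228) (nat_lit 2002484959) (nat_lit 304) (nat_lit 8622628455) (nat_lit 82) (nat_lit 5) (nat_lit 85) (nat_lit 5) (nat_lit 86) (nat_lit 5) (nat_lit 483) (nat_lit 375) (nat_lit 282)) (XT.nd (nat_lit 78) (nat_lit 304) (nat_lit 0) (XT.lf (nat_lit 0) (nat_lit 9073939256) (nat_lit 304) (nat_lit 2720706603) (nat_lit 76) (nat_lit 2460559799) (nat_lit 82) (nat_lit 5) (nat_lit 86) (nat_lit 5) (nat_lit 83) (nat_lit 5) (nat_lit 484) (nat_lit 375) (nat_lit 281)) (XT.lf (nat_lit 0) (nat_lit 5361052290) (nat_lit 304) (nat_lit 7432315822) (nat_lit 380) (nat_lit 1646009422) (nat_lit 78) (nat_lit 5) (nat_lit 82) (nat_lit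 5) (nat_lit 83) (nat_lit 5) (nat_lit 485) (nat_lit 375) (nat_lit 280))))) (XT.nd (nat_lit 234) (nat_lit 304) (nat_lit 0) (XT.nd (nat_lit 78) (nat_lit 532) (nat_lit 0) (XT.lf (nat_lit 0) (nat_lit 1929195798) (nat_lit 380) (nat_lit 1036241807) (nat_lit 76) (nat_lit 11661647400) (nat_lit 77) (nat_lit 5) (nat_lit 82) (nat_lit 5) (nat_lit 78) (nat_lit 5) (nat_lit 486) (nat_lit 375) (nat_lit 279)) (XT.nd (nat_lit 78) (nat_lit 304) (nat_lit 0) (XT.lf (nat_lit 0) (nat_lit 5588367300) (nat_lit 304) (nat_lit 7615201734) (nat_lit 76) (nat_lit 1614075463) (nat_lit 74) (nat_lit 5) (nat_lit 78) (nat_lit 5) (nat_lit 75) (nat_lit 5) (nat_lit 487) (nat_lit 375) (nat_lit 278)) (XT.lf (nat_lit 0) (nat_lit 558474486) (nat_lit 304) (nat_lit 8769660968) (nat_lit 380) (nat_lit 5683736869) (nat_lit 70) (nat_lit 5) (nat_lit 74) (nat_lit 5) (nat_lit 75) (nat_lit 5) (nat_lit 488) (nat_lit 375) (nat_lit 277)))) (XT.nd (nat_lit 78) (nat_lit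 304) (nat_lit 0) (XT.lf (nat_lit 0) (nat_lit 8961858527) (nat_lit 304) (nat_lit 4209299144) (nat_lit 380) (nat_lit 2038263166) (nat_lit 70) (nat_lit 5) (nat_lit 74) (nat_lit 5) (nat_lit 75) (nat_lit 5) (nat_lit 489) (nat_lit 375) (nat_lit 276)) (XT.nd (nat_lit 78) (nat_lit 0) (nat_lit 0) (XT.lf (nat_lit 0) (nat_lit 1652326047) (nat_lit 304) (nat_lit 13311335717) (nat_lit 76) (nat_lit 447160664) (nat_lit 66) (nat_lit 5) (nat_lit 70) (nat_lit 5) (nat_lit 67) (nat_lit 5) (nat_lit 490) (nat_lit 375) (nat_lit 275)) (XT.lf (nat_lit 0) (nat_lit 5437297308) (nat_lit 304) (nat_lit 4995585642) (nat_lit 76) (nat_lit 5182147388) (nat_lit 66) (nat_lit 5) (nat_lit 70) (nat_lit 5) (nat_lit 67) (nat_lit 5) (nat_lit 491) (nat_lit 375) (nat_lit 274))))))))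
noncomputable def xc84 : XT := (XT.nd (nat_lit 51792) (nat_lit 0) (nat_lit 32224) (XT.nd (nat_lit 780) (nat_lit 456) (nat_lit 0) (XT.nd (nat_lit 390) (nat_lit 532) (nat_lit 0) (XT.nd (nat_lit 156) (nat_lit 532) (nat_lit 0) (XT.nd (nat_lit 78) (nat_lit 0) (nat_lit 0) (XT.lf (nat_lit 0) (nat_lit 3496370336) (nat_lit 228) (nat_lit 5802493379) (nat_lit 304) (nat_lit 6524445678) (nat_lit 63) (nat_lit 5) (nat_lit 66) (nat_lit 5) (nat_lit 67) (nat_lit 5) (nat_lit 492) (nat_lit 375) (nat_lit 273)) (XT.lf (nat_lit 0) (nat_lit 12190153900) (nat_lit 228) (nat_lit 1059421105) (nat_lit 304) (nat_lit 2785945557) (nat_lit 63) (nat_lit 5) (nat_lit 66) (nat_lit 5) (nat_lit 67) (nat_lit 5) (nat_lit 493) (nat_lit 375) (nat_lit 272))) (XT.nd (nat_lit 78) (nat_lit 228) (nat_lit 0) (XT.lf (nat_lit 0) (nat_lit 1048554998) (nat_lit 304) (nat_lit 11449179870) (nat_lit 76) (nat_lit 3753418221) (nat_lit 59) (nat_lit 5) (nat_lit 63) (nat_lit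 5) (nat_lit 60) (nat_lit 5) (nat_lit 494) (nat_lit 375) (nat_lit 271)) (XT.nd (nat_lit 78) (nat_lit 228) (nat_lit 0) (XT.lf (nat_lit 0) (nat_lit 4934237230) (nat_lit 304) (nat_lit 2857254239) (nat_lit 76) (nat_lit 8679007116) (nat_lit 59) (nat_lit 5) (nat_lit 63) (nat_lit 5) (nat_lit 60) (nat_lit 5) (nat_lit 495) (nat_lit 375) (nat_lit 270)) (XT.lf (nat_lit 0) (nat_lit 5949817318) (nat_lit 228) (nat_lit 2965631484) (nat_lit 304) (nat_lit 7778430311) (nat_lit 56) (nat_lit 5) (nat_lit 59) (nat_lit 5) (nat_lit 60) (nat_lit 5) (nat_lit 496) (nat_lit 375) (nat_lit 269))))) (XT.nd (nat_lit 156) (nat_lit 228) (nat_lit 0) (XT.nd (nat_lit 78) (nat_lit 304) (nat_lit 0) (XT.lf (nat_lit 0) (nat_lit 12987569409) (nat_lit 304) (nat_lit 1997238087) (nat_lit 76) (nat_lit 1936698411) (nat_lit 56) (nat_lit 5) (nat_lit 60) (nat_lit 5) (nat_lit 57) (nat_lit 5) (nat_lit 497) (nat_lit 375) (nat_lit 268)) (XT.lf (nat_lit 0) (nat_lit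 32430621) (nat_lit 304) (nat_lit 10190962774) (nat_lit 76) (nat_lit 6929401279) (nat_lit 52) (nat_lit 5) (nat_lit 56) (nat_lit 5) (nat_lit 53) (nat_lit 5) (nat_lit 498) (nat_lit 375) (nat_lit 267))) (XT.nd (nat_lit 78) (nat_lit 228) (nat_lit 0) (XT.lf (nat_lit 0) (nat_lit 4018716754) (nat_lit 304) (nat_lit 1321616174) (nat_lit 76) (nat_lit 12047994981) (nat_lit 52) (nat_lit 5) (nat_lit 56) (nat_lit 5) (nat_lit 53) (nat_lit 5) (nat_lit 499) (nat_lit 375) (nat_lit 266)) (XT.nd (nat_lit 78) (nat_lit 0) (nat_lit 0) (XT.lf (nat_lit 0) (nat_lit 7793814970) (nat_lit 228) (nat_lit 321640336) (nat_lit 304) (nat_lit 9512505987) (nat_lit 49) (nat_lit 5) (nat_lit 52) (nat_lit 5) (nat_lit 53) (nat_lit 5) (nat_lit 500) (nat_lit 375) (nat_lit 265)) (XT.lf (nat_lit 0) (nat_lit 12314413502) (nat_lit 304) (nat_lit 827556044) (nat_lit 76) (nat_lit 4730016043) (nat_lit 49) (nat_lit 5) (nat_lit 53) (nat_lit 5) (nat_lit 50) (nat_lit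 5) (nat_lit 501) (nat_lit 375) (nat_lit 264)))))) (XT.nd (nat_lit 50622) (nat_lit 0) (nat_lit 45220) (XT.nd (nat_lit 156) (nat_lit 228) (nat_lit 0) (XT.nd (nat_lit 78) (nat_lit 76) (nat_lit 0) (XT.lf (nat_lit 0) (nat_lit 8434708834) (nat_lit 152) (nat_lit 8200133198) (nat_lit 228) (nat_lit 1485302380) (nat_lit 47) (nat_lit 5) (nat_lit 49) (nat_lit 5) (nat_lit 50) (nat_lit 5) (nat_lit 502) (nat_lit 375) (nat_lit 263)) (XT.lf (nat_lit 0) (nat_lit 2619640298) (nat_lit 228) (nat_lit 530074638) (nat_lit 76) (nat_lit 15223484201) (nat_lit 46) (nat_lit 5) (nat_lit 49) (nat_lit 5) (nat_lit 47) (nat_lit 5) (nat_lit 503) (nat_lit 375) (nat_lit 262))) (XT.nd (nat_lit 50310) (nat_lit 0) (nat_lit 46740) (XT.lf (nat_lit 0) (nat_lit 6838855324) (nat_lit 304) (nat_lit 9760996733) (nat_lit 76) (nat_lit 2030228949) (nat_lit 43) (nat_lit 5) (nat_lit 47) (nat_lit 5) (nat_lit 44) (nat_lit 5) (nat_lit 504) (nat_lit 375) (nat_lit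 261)) (XT.nd (nat_lit 78) (nat_lit 0) (nat_lit 0) (XT.lf (nat_lit 0) (nat_lit 54322899) (nat_lit 380) (nat_lit 3128247036) (nat_lit 0) (nat_lit 54322899) (nat_lit 658) (nat_lit 5) (nat_lit 663) (nat_lit 4) (nat_lit 658) (nat_lit 4) (nat_lit 388) (nat_lit 376) (nat_lit 376)) (XT.lf (nat_lit 0) (nat_lit 3176607779) (nat_lit 380) (nat_lit 2801339240) (nat_lit 0) (nat_lit 504137876) (nat_lit 658) (nat_lit 5) (nat_lit 663) (nat_lit 4) (nat_lit 658) (nat_lit 4) (nat_lit 389) (nat_lit 376) (nat_lit 375))))) (XT.nd (nat_lit 156) (nat_lit 1064) (nat_lit 0) (XT.nd (nat_lit 78) (nat_lit 76) (nat_lit 0) (XT.lf (nat_lit 0) (nat_lit 685258824) (nat_lit 380) (nat_lit 5549659763) (nat_lit 380) (nat_lit 257121328) (nat_lit 653) (nat_lit 4) (nat_lit 658) (nat_lit 5) (nat_lit 658) (nat_lit 4) (nat_lit 390) (nat_lit 376) (nat_lit 374)) (XT.lf (nat_lit 0) (nat_lit 2758877285) (nat_lit 456) (nat_lit 2288300958) (nat_lit 76) (nat_lit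 1455830671) (nat_lit 652) (nat_lit 5) (nat_lit 658) (nat_lit 5) (nat_lit 653) (nat_lit 4) (nat_lit 391) (nat_lit 376) (nat_lit 373))) (XT.nd (nat_lit 78) (nat_lit 608) (nat_lit 0) (XT.lf (nat_lit 0) (nat_lit 1269017065) (nat_lit 456) (nat_lit 4497605814) (nat_lit 532) (nat_lit 748908614) (nat_lit 646) (nat_lit 5) (nat_lit 652) (nat_lit 5) (nat_lit 653) (nat_lit 4) (nat_lit 392) (nat_lit 376) (nat_lit 372)) (XT.nd (nat_lit 78) (nat_lit 532) (nat_lit 0) (XT.lf (nat_lit 0) (nat_lit 2218654234) (nat_lit 532) (nat_lit 1661769397) (nat_lit 76) (nat_lit 2648790830) (nat_lit 645) (nat_lit 5) (nat_lit 652) (nat_lit 5) (nat_lit 646) (nat_lit 5) (nat_lit 393) (nat_lit 376) (nat_lit 371)) (XT.lf (nat_lit 0) (nat_lit 1969266829) (nat_lit 532) (nat_lit 3207720207) (nat_lit 608) (nat_lit 1367317920) (nat_lit 638) (nat_lit 5) (nat_lit 645) (nat_lit 5) (nat_lit 646) (nat_lit 5) (nat_lit 394) (nat_lit 376) (nat_lit 370)))))))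 (XT.nd (nat_lit 780) (nat_lit 7828) (nat_lit 0) (XT.nd (nat_lit 390) (nat_lit 2964) (nat_lit 0) (XT.nd (nat_lit 156) (nat_lit 1520) (nat_lit 0) (XT.nd (nat_lit 78) (nat_lit 608) (nat_lit 0) (XT.lf (nat_lit 0) (nat_lit 1553800822) (nat_lit 608) (nat_lit 921679581) (nat_lit 76) (nat_lit 4085254941) (nat_lit 637) (nat_lit 5) (nat_lit 645) (nat_lit 5) (nat_lit 638) (nat_lit 5) (nat_lit 395) (nat_lit 376) (nat_lit 369)) (XT.lf (nat_lit 0) (nat_lit 2786186444) (nat_lit 608) (nat_lit 1677568647) (nat_lit 684) (nat_lit 2114642299) (nat_lit 629) (nat_lit 5) (nat_lit 637) (nat_lit 5) (nat_lit 638) (nat_lit 5) (nat_lit 396) (nat_lit 376) (nat_lit 368))) (XT.nd (nat_lit 78) (nat_lit 1444) (nat_lit 0) (XT.lf (nat_lit 0) (nat_lit 761933349) (nat_lit 684) (nat_lit 67764845) (nat_lit 76) (nat_lit 5767914067) (nat_lit 628) (nat_lit 5) (nat_lit 637) (nat_lit 5) (nat_lit 629) (nat_lit 5) (nat_lit 397) (nat_lit 376) (nat_lit 367))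 (XT.nd (nat_lit 78) (nat_lit 760) (nat_lit 0) (XT.lf (nat_lit 0) (nat_lit 3625046192) (nat_lit 760) (nat_lit 2898315624) (nat_lit 76) (nat_lit 94478526) (nat_lit 619) (nat_lit 5) (nat_lit 629) (nat_lit 5) (nat_lit 620) (nat_lit 5) (nat_lit 398) (nat_lit 376) (nat_lit 366)) (XT.lf (nat_lit 0) (nat_lit 904362535) (nat_lit 760) (nat_lit 5586565711) (nat_lit 836) (nat_lit 148688406) (nat_lit 609) (nat_lit 5) (nat_lit 619) (nat_lit 5) (nat_lit 620) (nat_lit 5) (nat_lit 399) (nat_lit 376) (nat_lit 365))))) (XT.nd (nat_lit 156) (nat_lit 2052) (nat_lit 0) (XT.nd (nat_lit 78) (nat_lit 836) (nat_lit 0) (XT.lf (nat_lit 0) (nat_lit 2669975818) (nat_lit 836) (nat_lit 1904688680) (nat_lit 76) (nat_lit 2087782846) (nat_lit 608) (nat_lit 5) (nat_lit 619) (nat_lit 5) (nat_lit 609) (nat_lit 5) (nat_lit 400) (nat_lit 376) (nat_lit 364)) (XT.lf (nat_lit 0) (nat_lit 1980783360) (nat_lit 836) (nat_lit 3510586982) (nat_lit 912) (nat_lit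 1195428396) (nat_lit 597) (nat_lit 5) (nat_lit 608) (nat_lit 5) (nat_lit 609) (nat_lit 5) (nat_lit 401) (nat_lit 376) (nat_lit 363))) (XT.nd (nat_lit 78) (nat_lit 1976) (nat_lit 0) (XT.lf (nat_lit 0) (nat_lit 1584661961) (nat_lit 912) (nat_lit 799735380) (nat_lit 76) (nat_lit 4328096405) (nat_lit 596) (nat_lit 5) (nat_lit 608) (nat_lit 5) (nat_lit 597) (nat_lit 5) (nat_lit 402) (nat_lit 376) (nat_lit 362)) (XT.nd (nat_lit 78) (nat_lit 1064) (nat_lit 0) (XT.lf (nat_lit 0) (nat_lit 3171991327) (nat_lit 912) (nat_lit 1190200349) (nat_lit 988) (nat_lit 2377243833) (nat_lit 584) (nat_lit 5) (nat_lit 596) (nat_lit 5) (nat_lit 597) (nat_lit 5) (nat_lit 403) (nat_lit 376) (nat_lit 361)) (XT.lf (nat_lit 0) (nat_lit 368950128) (nat_lit 1064) (nat_lit 6345359209) (nat_lit 76) (nat_lit 53672826) (nat_lit 570) (nat_lit 5) (nat_lit 584) (nat_lit 5) (nat_lit 571) (nat_lit 5) (nat_lit 404) (nat_lit 376) (nat_lit 360)))))) (XT.nd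 (nat_lit 390) (nat_lit 4256) (nat_lit 0) (XT.nd (nat_lit 156) (nat_lit 2508) (nat_lit 0) (XT.nd (nat_lit 78) (nat_lit 1064) (nat_lit 0) (XT.lf (nat_lit 0) (nat_lit 3108971550) (nat_lit 1064) (nat_lit 2327547382) (nat_lit 76) (nat_lit 1360896873) (nat_lit 570) (nat_lit 5) (nat_lit 584) (nat_lit 5) (nat_lit 571) (nat_lit 5) (nat_lit 405) (nat_lit 376) (nat_lit 359)) (XT.lf (nat_lit 0) (nat_lit 1746475530) (nat_lit 1064) (nat_lit 4108583648) (nat_lit 1140) (nat_lit 973397765) (nat_lit 556) (nat_lit 5) (nat_lit 570) (nat_lit 5) (nat_lit 571) (nat_lit 5) (nat_lit 406) (nat_lit 376) (nat_lit 358))) (XT.nd (nat_lit 78) (nat_lit 2432) (nat_lit 0) (XT.lf (nat_lit 0) (nat_lit 1728484144) (nat_lit 1140) (nat_lit 985616916) (nat_lit 76) (nat_lit 4146705288) (nat_lit 555) (nat_lit 5) (nat_lit 570) (nat_lit 5) (nat_lit 556) (nat_lit 5) (nat_lit 407) (nat_lit 376) (nat_lit 357)) (XT.nd (nat_lit 78) (nat_lit 1292) (nat_lit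 0) (XT.lf (nat_lit 0) (nat_lit 3181308951) (nat_lit 1140) (nat_lit 1252263773) (nat_lit 1216) (nat_lit 2460898871) (nat_lit 540) (nat_lit 5) (nat_lit 555) (nat_lit 5) (nat_lit 556) (nat_lit 5) (nat_lit 408) (nat_lit 376) (nat_lit 356)) (XT.lf (nat_lit 0) (nat_lit 213879837) (nat_lit 1292) (nat_lit 6457917475) (nat_lit 76) (nat_lit 257950763) (nat_lit 523) (nat_lit 5) (nat_lit 540) (nat_lit 5) (nat_lit 524) (nat_lit 5) (nat_lit 409) (nat_lit 376) (nat_lit 355))))) (XT.nd (nat_lit 234) (nat_lit 2888) (nat_lit 0) (XT.nd (nat_lit 78) (nat_lit 1368) (nat_lit 0) (XT.lf (nat_lit 0) (nat_lit 2885469366) (nat_lit 1292) (nat_lit 2247218573) (nat_lit 76) (nat_lit 1833230678) (nat_lit 523) (nat_lit 5) (nat_lit 540) (nat_lit 5) (nat_lit 524) (nat_lit 5) (nat_lit 410) (nat_lit 376) (nat_lit 354)) (XT.nd (nat_lit 78) (nat_lit 76) (nat_lit 0) (XT.lf (nat_lit 0) (nat_lit 2027135510) (nat_lit 1292) (nat_lit 3540497518) (nat_lit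 1368) (nat_lit 1436075122) (nat_lit 506) (nat_lit 5) (nat_lit 523) (nat_lit 5) (nat_lit 524) (nat_lit 5) (nat_lit 411) (nat_lit 376) (nat_lit 353)) (XT.lf (nat_lit 0) (nat_lit 1204197949) (nat_lit 1368) (nat_lit 680412962) (nat_lit 76) (nat_lit 5158324684) (nat_lit 505) (nat_lit 5) (nat_lit 523) (nat_lit 5) (nat_lit 506) (nat_lit 5) (nat_lit 412) (nat_lit 376) (nat_lit 352)))) (XT.nd (nat_lit 78) (nat_lit 1520) (nat_lit 0) (XT.lf (nat_lit 0) (nat_lit 3693928489) (nat_lit 1368) (nat_lit 153583356) (nat_lit 1444) (nat_lit 3235892817) (nat_lit 487) (nat_lit 5) (nat_lit 505) (nat_lit 5) (nat_lit 506) (nat_lit 5) (nat_lit 413) (nat_lit 376) (nat_lit 351)) (XT.nd (nat_lit 78) (nat_lit 76) (nat_lit 0) (XT.lf (nat_lit 0) (nat_lit 995417049) (nat_lit 1444) (nat_lit 5516079959) (nat_lit 1520) (nat_lit 613865503) (nat_lit 468) (nat_lit 5) (nat_lit 487) (nat_lit 5) (nat_lit 488) (nat_lit 5) (nat_lit 414) (nat_lit 376) (nat_lit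 350)) (XT.lf (nat_lit 0) (nat_lit 2004131029) (nat_lit 1520) (nat_lit 1716257660) (nat_lit 76) (nat_lit 3448126297) (nat_lit 467) (nat_lit 5) (nat_lit 487) (nat_lit 5) (nat_lit 468) (nat_lit 5) (nat_lit 415) (nat_lit 376) (nat_lit 349))))))))
noncomputable def xc85 : XT := (XT.nd (nat_lit 1638) (nat_lit 7828) (nat_lit 0) (XT.nd (nat_lit 780) (nat_lit 5548) (nat_lit 0) (XT.nd (nat_lit 390) (nat_lit 4560) (nat_lit 0) (XT.nd (nat_lit 156) (nat_lit 1748) (nat_lit 0) (XT.nd (nat_lit 78) (nat_lit 1672) (nat_lit 0) (XT.lf (nat_lit 0) (nat_lit 2770960713) (nat_lit 1520) (nat_lit 1860992912) (nat_lit 1596) (nat_lit 2581215470) (nat_lit 447) (nat_lit 5) (nat_lit 467) (nat_lit 5) (nat_lit 468) (nat_lit 5) (nat_lit 416) (nat_lit 376) (nat_lit 348)) (XT.lf (nat_lit 0) (nat_lit 13311115) (nat_lit 1672) (nat_lit 7194176470) (nat_lit 76) (nat_lit 52045934) (nat_lit 425) (nat_lit 5) (nat_lit 447) (nat_lit 5) (nat_lit 426) (nat_lit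 5) (nat_lit 417) (nat_lit 376) (nat_lit 347))) (XT.nd (nat_lit 78) (nat_lit 1748) (nat_lit 0) (XT.lf (nat_lit 0) (nat_lit 2616304915) (nat_lit 1672) (nat_lit 2660760163) (nat_lit 76) (nat_lit 2029627656) (nat_lit 425) (nat_lit 5) (nat_lit 447) (nat_lit 5) (nat_lit 426) (nat_lit 5) (nat_lit 418) (nat_lit 376) (nat_lit 346)) (XT.nd (nat_lit 78) (nat_lit 76) (nat_lit 0) (XT.lf (nat_lit 0) (nat_lit 1941528948) (nat_lit 1672) (nat_lit 3292215164) (nat_lit 1748) (nat_lit 2121834216) (nat_lit 403) (nat_lit 5) (nat_lit 425) (nat_lit 5) (nat_lit 426) (nat_lit 5) (nat_lit 419) (nat_lit 376) (nat_lit 345)) (XT.lf (nat_lit 0) (nat_lit 459632994) (nat_lit 1748) (nat_lit 784146501) (nat_lit 76) (nat_lit 6162265664) (nat_lit 402) (nat_lit 5) (nat_lit 425) (nat_lit 5) (nat_lit 403) (nat_lit 5) (nat_lit 420) (nat_lit 376) (nat_lit 344))))) (XT.nd (nat_lit 156) (nat_lit 1824) (nat_lit 0) (XT.nd (nat_lit 78) (nat_lit 988) (nat_lit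 0) (XT.lf (nat_lit 0) (nat_lit 3046702108) (nat_lit 1824) (nat_lit 3534377369) (nat_lit 76) (nat_lit 876542789) (nat_lit 379) (nat_lit 5) (nat_lit 403) (nat_lit 5) (nat_lit 380) (nat_lit 5) (nat_lit 421) (nat_lit 376) (nat_lit 343)) (XT.lf (nat_lit 0) (nat_lit 1185154074) (nat_lit 988) (nat_lit 4473337351) (nat_lit 1064) (nat_lit 1852308464) (nat_lit 366) (nat_lit 5) (nat_lit 379) (nat_lit 5) (nat_lit 380) (nat_lit 5) (nat_lit 422) (nat_lit 376) (nat_lit 342))) (XT.nd (nat_lit 78) (nat_lit 1748) (nat_lit 0) (XT.lf (nat_lit 0) (nat_lit 723463212) (nat_lit 1064) (nat_lit 1570414482) (nat_lit 76) (nat_lit 5271574008) (nat_lit 365) (nat_lit 5) (nat_lit 379) (nat_lit 5) (nat_lit 366) (nat_lit 5) (nat_lit 423) (nat_lit 376) (nat_lit 341)) (XT.nd (nat_lit 78) (nat_lit 836) (nat_lit 0) (XT.lf (nat_lit 0) (nat_lit 3263635915) (nat_lit 912) (nat_lit 36512689) (nat_lit 988) (nat_lit 4321345964) (nat_lit 353) (nat_lit 5)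 (nat_lit 365) (nat_lit 5) (nat_lit 366) (nat_lit 5) (nat_lit 424) (nat_lit 376) (nat_lit 340)) (XT.lf (nat_lit 0) (nat_lit 481269763) (nat_lit 836) (nat_lit 5429149974) (nat_lit 912) (nat_lit 1768623892) (nat_lit 342) (nat_lit 5) (nat_lit 353) (nat_lit 5) (nat_lit 354) (nat_lit 5) (nat_lit 425) (nat_lit 376) (nat_lit 339)))))) (XT.nd (nat_lit 390) (nat_lit 3040) (nat_lit 0) (XT.nd (nat_lit 156) (nat_lit 1596) (nat_lit 0) (XT.nd (nat_lit 78) (nat_lit 836) (nat_lit 0) (XT.lf (nat_lit 0) (nat_lit 807760026) (nat_lit 912) (nat_lit 2314557115) (nat_lit 76) (nat_lit 4615672224) (nat_lit 341) (nat_lit 5) (nat_lit 353) (nat_lit 5) (nat_lit 342) (nat_lit 5) (nat_lit 426) (nat_lit 376) (nat_lit 338)) (XT.lf (nat_lit 0) (nat_lit 2642410897) (nat_lit 836) (nat_lit 741543139) (nat_lit 912) (nat_lit 4414511735) (nat_lit 330) (nat_lit 5) (nat_lit 341) (nat_lit 5) (nat_lit 342) (nat_lit 5) (nat_lit 427) (nat_lit 376) (nat_lit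 337))) (XT.nd (nat_lit 78) (nat_lit 1596) (nat_lit 0) (XT.lf (nat_lit 0) (nat_lit 5993616558) (nat_lit 912) (nat_lit 188455631) (nat_lit 76) (nat_lit 1678464995) (nat_lit 330) (nat_lit 5) (nat_lit 342) (nat_lit 5) (nat_lit 331) (nat_lit 5) (nat_lit 428) (nat_lit 376) (nat_lit 336)) (XT.nd (nat_lit 78) (nat_lit 760) (nat_lit 0) (XT.lf (nat_lit 0) (nat_lit 714857314) (nat_lit 836) (nat_lit 3037506903) (nat_lit 76) (nat_lit 4171557618) (nat_lit 319) (nat_lit 5) (nat_lit 330) (nat_lit 5) (nat_lit 320) (nat_lit 5) (nat_lit 429) (nat_lit 376) (nat_lit 335)) (XT.lf (nat_lit 0) (nat_lit 2044412263) (nat_lit 760) (nat_lit 1249912474) (nat_lit 836) (nat_lit 4694604559) (nat_lit 309) (nat_lit 5) (nat_lit 319) (nat_lit 5) (nat_lit 320) (nat_lit 5) (nat_lit 430) (nat_lit 376) (nat_lit 334))))) (XT.nd (nat_lit 234) (nat_lit 1444) (nat_lit 0) (XT.nd (nat_lit 78) (nat_lit 1596) (nat_lit 0) (XT.lf (nat_lit 0) (nat_lit 5911367294)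 (nat_lit 836) (nat_lit 841645390) (nat_lit 76) (nat_lit 1302527019) (nat_lit 309) (nat_lit 5) (nat_lit 320) (nat_lit 5) (nat_lit 310) (nat_lit 5) (nat_lit 431) (nat_lit 376) (nat_lit 333)) (XT.nd (nat_lit 78) (nat_lit 760) (nat_lit 0) (XT.lf (nat_lit 0) (nat_lit 445689462) (nat_lit 836) (nat_lit 3760721446) (nat_lit 76) (nat_lit 3917145307) (nat_lit 298) (nat_lit 5) (nat_lit 309) (nat_lit 5) (nat_lit 299) (nat_lit 5) (nat_lit 432) (nat_lit 376) (nat_lit 332)) (XT.lf (nat_lit 0) (nat_lit 1448035304) (nat_lit 760) (nat_lit 1583799618) (nat_lit 836) (nat_lit 5161371952) (nat_lit 288) (nat_lit 5) (nat_lit 298) (nat_lit 5) (nat_lit 299) (nat_lit 5) (nat_lit 433) (nat_lit 376) (nat_lit 331)))) (XT.nd (nat_lit 78) (nat_lit 1444) (nat_lit 0) (XT.lf (nat_lit 0) (nat_lit 5660763236) (nat_lit 836) (nat_lit 1506274166) (nat_lit 76) (nat_lit 1097412745) (nat_lit 288) (nat_lit 5) (nat_lit 299) (nat_lit 5) (nat_lit 289) (nat_lit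 5) (nat_lit 434) (nat_lit 376) (nat_lit 330)) (XT.nd (nat_lit 78) (nat_lit 760) (nat_lit 0) (XT.lf (nat_lit 0) (nat_lit 3830859995) (nat_lit 684) (nat_lit 4506154856) (nat_lit 760) (nat_lit 228929) (nat_lit 279) (nat_lit 5) (nat_lit 288) (nat_lit 5) (nat_lit 289) (nat_lit 5) (nat_lit 435) (nat_lit 376) (nat_lit 329)) (XT.lf (nat_lit 0) (nat_lit 830907408) (nat_lit 684) (nat_lit 1764731625) (nat_lit 760) (nat_lit 5816025742) (nat_lit 269) (nat_lit 5) (nat_lit 278) (nat_lit 5) (nat_lit 279) (nat_lit 5) (nat_lit 436) (nat_lit 376) (nat_lit 328))))))) (XT.nd (nat_lit 780) (nat_lit 3800) (nat_lit 0) (XT.nd (nat_lit 390) (nat_lit 1976) (nat_lit 0) (XT.nd (nat_lit 156) (nat_lit 1368) (nat_lit 0) (XT.nd (nat_lit 78) (nat_lit 684) (nat_lit 0) (XT.lf (nat_lit 0) (nat_lit 5240605904) (nat_lit 760) (nat_lit 2204855821) (nat_lit 76) (nat_lit 1042187957) (nat_lit 269) (nat_lit 5) (nat_lit 279) (nat_lit 5) (nat_lit 270) (nat_lit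 5) (nat_lit 437) (nat_lit 376) (nat_lit 327)) (XT.lf (nat_lit 0) (nat_lit 3263584202) (nat_lit 684) (nat_lit 4668594447) (nat_lit 760) (nat_lit 633120345) (nat_lit 260) (nat_lit 5) (nat_lit 269) (nat_lit 5) (nat_lit 270) (nat_lit 5) (nat_lit 438) (nat_lit 376) (nat_lit 326))) (XT.nd (nat_lit 78) (nat_lit 608) (nat_lit 0) (XT.lf (nat_lit 0) (nat_lit 169674390) (nat_lit 684) (nat_lit 1813764735) (nat_lit 760) (nat_lit 6661275834) (nat_lit 250) (nat_lit 5) (nat_lit 259) (nat_lit 5) (nat_lit 260) (nat_lit 5) (nat_lit 439) (nat_lit 376) (nat_lit 325)) (XT.nd (nat_lit 78) (nat_lit 608) (nat_lit 0) (XT.lf (nat_lit 0) (nat_lit 4648246147) (nat_lit 760) (nat_lit 2960970863) (nat_lit 76) (nat_lit 1116348410) (nat_lit 250) (nat_lit 5) (nat_lit 260) (nat_lit 5) (nat_lit 251) (nat_lit 5) (nat_lit 440) (nat_lit 376) (nat_lit 324)) (XT.lf (nat_lit 0) (nat_lit 2640149283) (nat_lit 608) (nat_lit 4717552348) (nat_lit 684) (nat_lit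 1450521616) (nat_lit 242) (nat_lit 5) (nat_lit 250) (nat_lit 5) (nat_lit 251) (nat_lit 5) (nat_lit 441) (nat_lit 376) (nat_lit 323))))) (XT.nd (nat_lit 156) (nat_lit 1292) (nat_lit 0) (XT.nd (nat_lit 78) (nat_lit 608) (nat_lit 0) (XT.lf (nat_lit 0) (nat_lit 1195077470) (nat_lit 684) (nat_lit 552878473) (nat_lit 76) (nat_lit 7144787818) (nat_lit 241) (nat_lit 5) (nat_lit 250) (nat_lit 5) (nat_lit 242) (nat_lit 5) (nat_lit 442) (nat_lit 376) (nat_lit 322)) (XT.lf (nat_lit 0) (nat_lit 3879535700) (nat_lit 684) (nat_lit 3799495384) (nat_lit 76) (nat_lit 1299640849) (nat_lit 233) (nat_lit 5) (nat_lit 242) (nat_lit 5) (nat_lit 234) (nat_lit 5) (nat_lit 443) (nat_lit 376) (nat_lit 321))) (XT.nd (nat_lit 78) (nat_lit 684) (nat_lit 0) (XT.lf (nat_lit 0) (nat_lit 1935354094) (nat_lit 608) (nat_lit 4673700404) (nat_lit 684) (nat_lit 2457452820) (nat_lit 225) (nat_lit 5) (nat_lit 233) (nat_lit 5) (nat_lit 234) (nat_lit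 5) (nat_lit 444) (nat_lit 376) (nat_lit 320)) (XT.nd (nat_lit 78) (nat_lit 608) (nat_lit 0) (XT.lf (nat_lit 0) (nat_lit 223283312) (nat_lit 684) (nat_lit 1366643073) (nat_lit 76) (nat_lit 7566371131) (nat_lit 224) (nat_lit 5) (nat_lit 233) (nat_lit 5) (nat_lit 225) (nat_lit 5) (nat_lit 445) (nat_lit 376) (nat_lit 319)) (XT.lf (nat_lit 0) (nat_lit 2928765855) (nat_lit 684) (nat_lit 4746845549) (nat_lit 76) (nat_lit 1571881651) (nat_lit 216) (nat_lit 5) (nat_lit 225) (nat_lit 5) (nat_lit 217) (nat_lit 5) (nat_lit 446) (nat_lit 376) (nat_lit 318)))))) (XT.nd (nat_lit 390) (nat_lit 2128) (nat_lit 0) (XT.nd (nat_lit 156) (nat_lit 1140) (nat_lit 0) (XT.nd (nat_lit 78) (nat_lit 0) (nat_lit 0) (XT.lf (nat_lit 0) (nat_lit 1122394705) (nat_lit 532) (nat_lit 4557735416) (nat_lit 608) (nat_lit 3660561795) (nat_lit 209) (nat_lit 5) (nat_lit 216) (nat_lit 5) (nat_lit 217) (nat_lit 5) (nat_lit 447) (nat_lit 376) (nat_lit 317))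 (XT.lf (nat_lit 0) (nat_lit 7128446304) (nat_lit 532) (nat_lit 1355053052) (nat_lit 608) (nat_lit 952330406) (nat_lit 209) (nat_lit 5) (nat_lit 216) (nat_lit 5) (nat_lit 217) (nat_lit 5) (nat_lit 448) (nat_lit 376) (nat_lit 316))) (XT.nd (nat_lit 78) (nat_lit 532) (nat_lit 0) (XT.lf (nat_lit 0) (nat_lit 1788592513) (nat_lit 608) (nat_lit 5831239922) (nat_lit 76) (nat_lit 1912771558) (nat_lit 201) (nat_lit 5) (nat_lit 209) (nat_lit 5) (nat_lit 202) (nat_lit 5) (nat_lit 449) (nat_lit 376) (nat_lit 315)) (XT.nd (nat_lit 78) (nat_lit 0) (nat_lit 0) (XT.lf (nat_lit 0) (nat_lit 172595301) (nat_lit 532) (nat_lit 4390568771) (nat_lit 608) (nat_lit 5068205826) (nat_lit 194) (nat_lit 5) (nat_lit 201) (nat_lit 5) (nat_lit 202) (nat_lit 5) (nat_lit 450) (nat_lit 376) (nat_lit 314)) (XT.lf (nat_lit 0) (nat_lit 6331001454) (nat_lit 532) (nat_lit 1067625090) (nat_lit 608) (nat_lit 2333390038) (nat_lit 194) (nat_lit 5) (nat_lit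 201) (nat_lit 5) (nat_lit 202) (nat_lit 5) (nat_lit 451) (nat_lit 376) (nat_lit 313))))) (XT.nd (nat_lit 234) (nat_lit 1064) (nat_lit 0) (XT.nd (nat_lit 78) (nat_lit 456) (nat_lit 0) (XT.lf (nat_lit 0) (nat_lit 449946737) (nat_lit 608) (nat_lit 7082982094) (nat_lit 76) (nat_lit 2301704936) (nat_lit 186) (nat_lit 5) (nat_lit 194) (nat_lit 5) (nat_lit 187) (nat_lit 5) (nat_lit 452) (nat_lit 376) (nat_lit 312)) (XT.nd (nat_lit 78) (nat_lit 456) (nat_lit 0) (XT.lf (nat_lit 0) (nat_lit 3254775148) (nat_lit 608) (nat_lit 932489721) (nat_lit 76) (nat_lit 5751801250) (nat_lit 186) (nat_lit 5) (nat_lit 194) (nat_lit 5) (nat_lit 187) (nat_lit 5) (nat_lit 453) (nat_lit 376) (nat_lit 311)) (XT.lf (nat_lit 0) (nat_lit 5367842203) (nat_lit 456) (nat_lit 750352335) (nat_lit 532) (nat_lit 3927355119) (nat_lit 180) (nat_lit 5) (nat_lit 186) (nat_lit 5) (nat_lit 187) (nat_lit 5) (nat_lit 454) (nat_lit 376) (nat_lit 310)))) (XT.nd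 (nat_lit 78) (nat_lit 532) (nat_lit 0) (XT.lf (nat_lit 0) (nat_lit 1612133057) (nat_lit 532) (nat_lit 7429327468) (nat_lit 608) (nat_lit 1112662962) (nat_lit 173) (nat_lit 5) (nat_lit 180) (nat_lit 5) (nat_lit 181) (nat_lit 5) (nat_lit 455) (nat_lit 376) (nat_lit 309)) (XT.nd (nat_lit 78) (nat_lit 456) (nat_lit 0) (XT.lf (nat_lit 0) (nat_lit 1739876423) (nat_lit 608) (nat_lit 2233667026) (nat_lit 76) (nat_lit 6291016451) (nat_lit 172) (nat_lit 5) (nat_lit 180) (nat_lit 5) (nat_lit 173) (nat_lit 5) (nat_lit 456) (nat_lit 376) (nat_lit 308)) (XT.lf (nat_lit 0) (nat_lit 4205461898) (nat_lit 456) (nat_lit 425098370) (nat_lit 532) (nat_lit 5746589315) (nat_lit 166) (nat_lit 5) (nat_lit 172) (nat_lit 5) (nat_lit 173) (nat_lit 5) (nat_lit 457) (nat_lit 376) (nat_lit 307))))))))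
noncomputable def xc86 : XT := (XT.nd (nat_lit 1638) (nat_lit 3192) (nat_lit 0) (XT.nd (nat_lit 780) (nat_lit 2660) (nat_lit 0) (XT.nd (nat_lit 390) (nat_lit 1368) (nat_lit 0) (XT.nd (nat_lit 156) (nat_lit 912) (nat_lit 0) (XT.nd (nat_lit 78) (nat_lit 76) (nat_lit 0) (XT.lf (nat_lit 0) (nat_lit 250995214) (nat_lit 456) (nat_lit 7334452673) (nat_lit 532) (nat_lit 2906426628) (nat_lit 160) (nat_lit 5) (nat_lit 166) (nat_lit 5) (nat_lit 167) (nat_lit 5) (nat_lit 458) (nat_lit 376) (nat_lit 306)) (XT.lf (nat_lit 0) (nat_lit 4215330) (nat_lit 532) (nat_lit 3768857428) (nat_lit 76) (nat_lit 6835562199) (nat_lit 159) (nat_lit 5) (nat_lit 166) (nat_lit 5) (nat_lit 160) (nat_lit 5) (nat_lit 459) (nat_lit 376) (nat_lit 305))) (XT.nd (nat_lit 78) (nat_lit 456) (nat_lit 0) (XT.lf (nat_lit 0) (nat_lit 2807477260) (nat_lit 456) (nat_lit 114594290) (nat_lit 532) (nat_lit 7805527066) (nat_lit 153) (nat_lit 5) (nat_lit 159)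 (nat_lit 5) (nat_lit 160) (nat_lit 5) (nat_lit 460) (nat_lit 376) (nat_lit 304)) (XT.nd (nat_lit 78) (nat_lit 456) (nat_lit 0) (XT.lf (nat_lit 0) (nat_lit 5917120945) (nat_lit 532) (nat_lit 1348610904) (nat_lit 76) (nat_lit 3582843377) (nat_lit 153) (nat_lit 5) (nat_lit 160) (nat_lit 5) (nat_lit 154) (nat_lit 5) (nat_lit 461) (nat_lit 376) (nat_lit 303)) (XT.lf (nat_lit 0) (nat_lit 5382049686) (nat_lit 456) (nat_lit 3596207939) (nat_lit 532) (nat_lit 1993600213) (nat_lit 147) (nat_lit 5) (nat_lit 153) (nat_lit 5) (nat_lit 154) (nat_lit 5) (nat_lit 462) (nat_lit 376) (nat_lit 302))))) (XT.nd (nat_lit 156) (nat_lit 912) (nat_lit 0) (XT.nd (nat_lit 78) (nat_lit 0) (nat_lit 0) (XT.lf (nat_lit 0) (nat_lit 977939334) (nat_lit 456) (nat_lit 9964514388) (nat_lit 76) (nat_lit 155270276) (nat_lit 141) (nat_lit 5) (nat_lit 147) (nat_lit 5) (nat_lit 142) (nat_lit 5) (nat_lit 463) (nat_lit 376) (nat_lit 301)) (XT.lf (nat_lit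 0) (nat_lit 4014623578) (nat_lit 456) (nat_lit 3238627136) (nat_lit 76) (nat_lit 3971954656) (nat_lit 141) (nat_lit 5) (nat_lit 147) (nat_lit 5) (nat_lit 142) (nat_lit 5) (nat_lit 464) (nat_lit 376) (nat_lit 300))) (XT.nd (nat_lit 78) (nat_lit 456) (nat_lit 0) (XT.lf (nat_lit 0) (nat_lit 3627726831) (nat_lit 456) (nat_lit 3479249013) (nat_lit 532) (nat_lit 4248371257) (nat_lit 135) (nat_lit 5) (nat_lit 141) (nat_lit 5) (nat_lit 142) (nat_lit 5) (nat_lit 465) (nat_lit 376) (nat_lit 299)) (XT.nd (nat_lit 78) (nat_lit 456) (nat_lit 0) (XT.lf (nat_lit 0) (nat_lit 10257044565) (nat_lit 532) (nat_lit 856743029) (nat_lit 76) (nat_lit 374395921) (nat_lit 135) (nat_lit 5) (nat_lit 142) (nat_lit 5) (nat_lit 136) (nat_lit 5) (nat_lit 466) (nat_lit 376) (nat_lit 298)) (XT.lf (nat_lit 0) (nat_lit 1857682554) (nat_lit 456) (nat_lit 5466818835) (nat_lit 76) (nat_lit 4298235159) (nat_lit 129) (nat_lit 5) (nat_lit 135) (nat_lit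 5) (nat_lit 130) (nat_lit 5) (nat_lit 467) (nat_lit 376) (nat_lit 297)))))) (XT.nd (nat_lit 390) (nat_lit 1444) (nat_lit 0) (XT.nd (nat_lit 156) (nat_lit 836) (nat_lit 0) (XT.nd (nat_lit 78) (nat_lit 0) (nat_lit 0) (XT.lf (nat_lit 0) (nat_lit 1531337994) (nat_lit 380) (nat_lit 3448438745) (nat_lit 456) (nat_lit 6780290224) (nat_lit 124) (nat_lit 5) (nat_lit 129) (nat_lit 5) (nat_lit 130) (nat_lit 5) (nat_lit 468) (nat_lit 376) (nat_lit 296)) (XT.lf (nat_lit 0) (nat_lit 8176949002) (nat_lit 456) (nat_lit 3200705446) (nat_lit 76) (nat_lit 522245345) (nat_lit 124) (nat_lit 5) (nat_lit 130) (nat_lit 5) (nat_lit 125) (nat_lit 5) (nat_lit 469) (nat_lit 376) (nat_lit 295))) (XT.nd (nat_lit 78) (nat_lit 456) (nat_lit 0) (XT.lf (nat_lit 0) (nat_lit 3956406057) (nat_lit 380) (nat_lit 7503152508) (nat_lit 456) (nat_lit 582549203) (nat_lit 119) (nat_lit 5) (nat_lit 124) (nat_lit 5) (nat_lit 125) (nat_lit 5) (nat_lit 470)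 (nat_lit 376) (nat_lit 294)) (XT.nd (nat_lit 78) (nat_lit 380) (nat_lit 0) (XT.lf (nat_lit 0) (nat_lit 2580962858) (nat_lit 456) (nat_lit 944465124) (nat_lit 76) (nat_lit 8661506199) (nat_lit 118) (nat_lit 5) (nat_lit 124) (nat_lit 5) (nat_lit 119) (nat_lit 5) (nat_lit 471) (nat_lit 376) (nat_lit 293)) (XT.lf (nat_lit 0) (nat_lit 5818619124) (nat_lit 456) (nat_lit 5958373300) (nat_lit 76) (nat_lit 557222083) (nat_lit 113) (nat_lit 5) (nat_lit 119) (nat_lit 5) (nat_lit 114) (nat_lit 5) (nat_lit 472) (nat_lit 376) (nat_lit 292))))) (XT.nd (nat_lit 234) (nat_lit 684) (nat_lit 0) (XT.nd (nat_lit 78) (nat_lit 456) (nat_lit 0) (XT.lf (nat_lit 0) (nat_lit 1325022222) (nat_lit 304) (nat_lit 7808090953) (nat_lit 380) (nat_lit 3351093298) (nat_lit 109) (nat_lit 5) (nat_lit 113) (nat_lit 5) (nat_lit 114) (nat_lit 5) (nat_lit 473) (nat_lit 376) (nat_lit 291)) (XT.nd (nat_lit 78) (nat_lit 456) (nat_lit 0) (XT.lf (nat_lit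 0) (nat_lit 8795107228) (nat_lit 304) (nat_lit 3732784959) (nat_lit 380) (nat_lit 109033765) (nat_lit 109) (nat_lit 5) (nat_lit 113) (nat_lit 5) (nat_lit 114) (nat_lit 5) (nat_lit 474) (nat_lit 376) (nat_lit 290)) (XT.lf (nat_lit 0) (nat_lit 3156661205) (nat_lit 456) (nat_lit 9186141892) (nat_lit 76) (nat_lit 449474055) (nat_lit 103) (nat_lit 5) (nat_lit 109) (nat_lit 5) (nat_lit 104) (nat_lit 5) (nat_lit 475) (nat_lit 376) (nat_lit 289)))) (XT.nd (nat_lit 78) (nat_lit 684) (nat_lit 0) (XT.lf (nat_lit 0) (nat_lit 6511388882) (nat_lit 456) (nat_lit 1760190437) (nat_lit 76) (nat_lit 4678645206) (nat_lit 103) (nat_lit 5) (nat_lit 109) (nat_lit 5) (nat_lit 104) (nat_lit 5) (nat_lit 476) (nat_lit 376) (nat_lit 288)) (XT.nd (nat_lit 78) (nat_lit 380) (nat_lit 0) (XT.lf (nat_lit 0) (nat_lit 5852325902) (nat_lit 304) (nat_lit 4093887898) (nat_lit 380) (nat_lit 3164863990) (nat_lit 99) (nat_lit 5) (nat_lit 103) (nat_lit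 5) (nat_lit 104) (nat_lit 5) (nat_lit 477) (nat_lit 376) (nat_lit 287)) (XT.lf (nat_lit 0) (nat_lit 162504599) (nat_lit 380) (nat_lit 12946077114) (nat_lit 76) (nat_lit 166746319) (nat_lit 94) (nat_lit 5) (nat_lit 99) (nat_lit 5) (nat_lit 95) (nat_lit 5) (nat_lit 478) (nat_lit 376) (nat_lit 286))))))) (XT.nd (nat_lit 780) (nat_lit 1672) (nat_lit 0) (XT.nd (nat_lit 390) (nat_lit 836) (nat_lit 0) (XT.nd (nat_lit 156) (nat_lit 380) (nat_lit 0) (XT.nd (nat_lit 78) (nat_lit 304) (nat_lit 0) (XT.lf (nat_lit 0) (nat_lit 3565450925) (nat_lit 380) (nat_lit 5361821733) (nat_lit 76) (nat_lit 4514150662) (nat_lit 94) (nat_lit 5) (nat_lit 99) (nat_lit 5) (nat_lit 95) (nat_lit 5) (nat_lit 479) (nat_lit 376) (nat_lit 285)) (XT.lf (nat_lit 0) (nat_lit 2366978831) (nat_lit 304) (nat_lit 4660554962) (nat_lit 380) (nat_lit 6583491634) (nat_lit 90) (nat_lit 5) (nat_lit 94) (nat_lit 5) (nat_lit 95) (nat_lit 5) (nat_lit 480) (nat_lit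 376) (nat_lit 284))) (XT.nd (nat_lit 78) (nat_lit 380) (nat_lit 0) (XT.lf (nat_lit 0) (nat_lit 10285104243) (nat_lit 304) (nat_lit 285674344) (nat_lit 380) (nat_lit 3213008925) (nat_lit 90) (nat_lit 5) (nat_lit 94) (nat_lit 5) (nat_lit 95) (nat_lit 5) (nat_lit 481) (nat_lit 376) (nat_lit 283)) (XT.nd (nat_lit 78) (nat_lit 0) (nat_lit 0) (XT.lf (nat_lit 0) (nat_lit 254112869) (nat_lit 380) (nat_lit 9566516980) (nat_lit 76) (nat_lit 4138708303) (nat_lit 85) (nat_lit 5) (nat_lit 90) (nat_lit 5) (nat_lit 86) (nat_lit 5) (nat_lit 482) (nat_lit 376) (nat_lit 282)) (XT.lf (nat_lit 0) (nat_lit 3749504126) (nat_lit 380) (nat_lit 1709325132) (nat_lit 76) (nat_lit 8679112776) (nat_lit 85) (nat_lit 5) (nat_lit 90) (nat_lit 5) (nat_lit 86) (nat_lit 5) (nat_lit 483) (nat_lit 376) (nat_lit 281))))) (XT.nd (nat_lit 156) (nat_lit 304) (nat_lit 0) (XT.nd (nat_lit 78) (nat_lit 304) (nat_lit 0) (XT.lf (nat_lit 0) (nat_lit 6351397935)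 (nat_lit 228) (nat_lit 981489456) (nat_lit 304) (nat_lit 6986874775) (nat_lit 82) (nat_lit 5) (nat_lit 85) (nat_lit 5) (nat_lit 86) (nat_lit 5) (nat_lit 484) (nat_lit 376) (nat_lit 280)) (XT.lf (nat_lit 0) (nat_lit 31530479) (nat_lit 304) (nat_lit 10968411210) (nat_lit 380) (nat_lit 3505042686) (nat_lit 78) (nat_lit 5) (nat_lit 82) (nat_lit 5) (nat_lit 83) (nat_lit 5) (nat_lit 485) (nat_lit 376) (nat_lit 279))) (XT.nd (nat_lit 78) (nat_lit 228) (nat_lit 0) (XT.lf (nat_lit 0) (nat_lit 83172487) (nat_lit 380) (nat_lit 6437672610) (nat_lit 76) (nat_lit 8172318314) (nat_lit 77) (nat_lit 5) (nat_lit 82) (nat_lit 5) (nat_lit 78) (nat_lit 5) (nat_lit 486) (nat_lit 376) (nat_lit 278)) (XT.nd (nat_lit 78) (nat_lit 0) (nat_lit 0) (XT.lf (nat_lit 0) (nat_lit 1721809724) (nat_lit 228) (nat_lit 1963112487) (nat_lit 304) (nat_lit 11199951805) (nat_lit 74) (nat_lit 5) (nat_lit 77) (nat_lit 5) (nat_lit 78) (nat_lit 5) (nat_lit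 487) (nat_lit 376) (nat_lit 277)) (XT.lf (nat_lit 0) (nat_lit 7397227889) (nat_lit 304) (nat_lit 5002039319) (nat_lit 76) (nat_lit 2680386511) (nat_lit 74) (nat_lit 5) (nat_lit 78) (nat_lit 5) (nat_lit 75) (nat_lit 5) (nat_lit 488) (nat_lit 376) (nat_lit 276)))))) (XT.nd (nat_lit 390) (nat_lit 836) (nat_lit 0) (XT.nd (nat_lit 156) (nat_lit 532) (nat_lit 0) (XT.nd (nat_lit 78) (nat_lit 0) (nat_lit 0) (XT.lf (nat_lit 0) (nat_lit 3316916568) (nat_lit 304) (nat_lit 7879435617) (nat_lit 380) (nat_lit 4081730581) (nat_lit 70) (nat_lit 5) (nat_lit 74) (nat_lit 5) (nat_lit 75) (nat_lit 5) (nat_lit 489) (nat_lit 376) (nat_lit 275)) (XT.lf (nat_lit 0) (nat_lit 11834500199) (nat_lit 304) (nat_lit 3248761038) (nat_lit 380) (nat_lit 396988209) (nat_lit 70) (nat_lit 5) (nat_lit 74) (nat_lit 5) (nat_lit 75) (nat_lit 5) (nat_lit 490) (nat_lit 376) (nat_lit 274))) (XT.nd (nat_lit 78) (nat_lit 228) (nat_lit 0) (XT.lf (nat_lit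 0) (nat_lit 3337157905) (nat_lit 304) (nat_lit 10853153217) (nat_lit 76) (nat_lit 1495320845) (nat_lit 66) (nat_lit 5) (nat_lit 70) (nat_lit 5) (nat_lit 67) (nat_lit 5) (nat_lit 491) (nat_lit 376) (nat_lit 273)) (XT.nd (nat_lit 78) (nat_lit 228) (nat_lit 0) (XT.lf (nat_lit 0) (nat_lit 7165440644) (nat_lit 304) (nat_lit 2424507928) (nat_lit 76) (nat_lit 6304630500) (nat_lit 66) (nat_lit 5) (nat_lit 70) (nat_lit 5) (nat_lit 67) (nat_lit 5) (nat_lit 492) (nat_lit 376) (nat_lit 272)) (XT.lf (nat_lit 0) (nat_lit 6219714871) (nat_lit 228) (nat_lit 4869998362) (nat_lit 304) (nat_lit 5017608114) (nat_lit 63) (nat_lit 5) (nat_lit 66) (nat_lit 5) (nat_lit 67) (nat_lit 5) (nat_lit 493) (nat_lit 376) (nat_lit 271))))) (XT.nd (nat_lit 234) (nat_lit 532) (nat_lit 0) (XT.nd (nat_lit 78) (nat_lit 304) (nat_lit 0) (XT.lf (nat_lit 0) (nat_lit 15035346318) (nat_lit 228) (nat_lit 52624347) (nat_lit 304) (nat_lit 1236442431) (nat_lit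 63) (nat_lit 5) (nat_lit 66) (nat_lit 5) (nat_lit 67) (nat_lit 5) (nat_lit 494) (nat_lit 376) (nat_lit 270)) (XT.nd (nat_lit 78) (nat_lit 0) (nat_lit 0) (XT.lf (nat_lit 0) (nat_lit 2646273236) (nat_lit 304) (nat_lit 9047620084) (nat_lit 76) (nat_lit 4850411678) (nat_lit 59) (nat_lit 5) (nat_lit 63) (nat_lit 5) (nat_lit 60) (nat_lit 5) (nat_lit 495) (nat_lit 376) (nat_lit 269)) (XT.lf (nat_lit 0) (nat_lit 6578752502) (nat_lit 304) (nat_lit 335435222) (nat_lit 76) (nat_lit 9854474604) (nat_lit 59) (nat_lit 5) (nat_lit 63) (nat_lit 5) (nat_lit 60) (nat_lit 5) (nat_lit 496) (nat_lit 376) (nat_lit 268)))) (XT.nd (nat_lit 78) (nat_lit 304) (nat_lit 0) (XT.lf (nat_lit 0) (nat_lit 8630810897) (nat_lit 228) (nat_lit 1995101192) (nat_lit 304) (nat_lit 6370878366) (nat_lit 56) (nat_lit 5) (nat_lit 59) (nat_lit 5) (nat_lit 60) (nat_lit 5) (nat_lit 497) (nat_lit 376) (nat_lit 267)) (XT.nd (nat_lit 78) (nat_lit 76) (nat_lit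 0) (XT.lf (nat_lit 0) (nat_lit 505006132) (nat_lit 228) (nat_lit 14254260886) (nat_lit 304) (nat_lit 2470113265) (nat_lit 53) (nat_lit 5) (nat_lit 56) (nat_lit 5) (nat_lit 57) (nat_lit 5) (nat_lit 498) (nat_lit 376) (nat_lit 266)) (XT.lf (nat_lit 0) (nat_lit 1538729283) (nat_lit 304) (nat_lit 7855583835) (nat_lit 76) (nat_lit 8071119933) (nat_lit 52) (nat_lit 5) (nat_lit 56) (nat_lit 5) (nat_lit 53) (nat_lit 5) (nat_lit 499) (nat_lit 376) (nat_lit 265))))))))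
noncomputable def xc87 : XT := (XT.nd (nat_lit 51714) (nat_lit 0) (nat_lit 25536) (XT.nd (nat_lit 50856) (nat_lit 0) (nat_lit 42028) (XT.nd (nat_lit 50466) (nat_lit 0) (nat_lit 46284) (XT.nd (nat_lit 156) (nat_lit 456) (nat_lit 0) (XT.nd (nat_lit 78) (nat_lit 0) (nat_lit 0) (XT.lf (nat_lit 0) (nat_lit 1156529590) (nat_lit 228) (nat_lit 4426197955) (nat_lit 304) (nat_lit 12123395648) (nat_lit 49) (nat_lit 5) (nat_lit 52) (nat_lit 5) (nat_lit 53) (nat_lit 5) (nat_lit 500) (nat_lit 376) (nat_lit 264)) (XT.lf (nat_lit 0) (nat_lit 9745430972) (nat_lit 304) (nat_lit 7532665626) (nat_lit 76) (nat_lit 672777900) (nat_lit 49) (nat_lit 5) (nat_lit 53) (nat_lit 5) (nat_lit 50) (nat_lit 5) (nat_lit 501) (nat_lit 376) (nat_lit 263))) (XT.nd (nat_lit 78) (nat_lit 304) (nat_lit 0) (XT.lf (nat_lit 0) (nat_lit 1624287377) (nat_lit 152) (nat_lit 12387937431) (nat_lit 228) (nat_lit 4187883081) (nat_lit 47) (nat_lit 5) (nat_lit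 49) (nat_lit 5) (nat_lit 50) (nat_lit 5) (nat_lit 502) (nat_lit 376) (nat_lit 262)) (XT.nd (nat_lit 78) (nat_lit 304) (nat_lit 0) (XT.lf (nat_lit 0) (nat_lit 11034395445) (nat_lit 152) (nat_lit 7361649676) (nat_lit 228) (nat_lit 57650729) (nat_lit 47) (nat_lit 5) (nat_lit 49) (nat_lit 5) (nat_lit 50) (nat_lit 5) (nat_lit 503) (nat_lit 376) (nat_lit 261)) (XT.lf (nat_lit 0) (nat_lit 1886399386) (nat_lit 228) (nat_lit 2207924797) (nat_lit 304) (nat_lit 14617622713) (nat_lit 43) (nat_lit 5) (nat_lit 46) (nat_lit 5) (nat_lit 47) (nat_lit 5) (nat_lit 504) (nat_lit 376) (nat_lit 260))))) (XT.nd (nat_lit 156) (nat_lit 836) (nat_lit 0) (XT.nd (nat_lit 78) (nat_lit 228) (nat_lit 0) (XT.lf (nat_lit 0) (nat_lit 1586392000) (nat_lit 228) (nat_lit 57144104) (nat_lit 0) (nat_lit 1586392000) (nat_lit 666) (nat_lit 5) (nat_lit 669) (nat_lit 4) (nat_lit 666) (nat_lit 4) (nat_lit 386) (nat_lit 377) (nat_lit 377)) (XT.lf (nat_lit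 0) (nat_lit 3264274146) (nat_lit 228) (nat_lit 2991275794) (nat_lit 228) (nat_lit 210838107) (nat_lit 663) (nat_lit 4) (nat_lit 666) (nat_lit 5) (nat_lit 666) (nat_lit 4) (nat_lit 387) (nat_lit 377) (nat_lit 376))) (XT.nd (nat_lit 78) (nat_lit 456) (nat_lit 0) (XT.lf (nat_lit 0) (nat_lit 177074005) (nat_lit 304) (nat_lit 2636505694) (nat_lit 380) (nat_lit 3660660827) (nat_lit 658) (nat_lit 5) (nat_lit 662) (nat_lit 5) (nat_lit 663) (nat_lit 4) (nat_lit 388) (nat_lit 377) (nat_lit 375)) (XT.nd (nat_lit 78) (nat_lit 456) (nat_lit 0) (XT.lf (nat_lit 0) (nat_lit 3620971912) (nat_lit 304) (nat_lit 2220512643) (nat_lit 380) (nat_lit 641890794) (nat_lit 658) (nat_lit 5) (nat_lit 662) (nat_lit 5) (nat_lit 663) (nat_lit 4) (nat_lit 389) (nat_lit 377) (nat_lit 374)) (XT.lf (nat_lit 0) (nat_lit 587896188) (nat_lit 380) (nat_lit 1746475866) (nat_lit 456) (nat_lit 4159489584) (nat_lit 652) (nat_lit 5) (nat_lit 657) (nat_lit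 5) (nat_lit 658) (nat_lit 5) (nat_lit 390) (nat_lit 377) (nat_lit 373)))))) (XT.nd (nat_lit 390) (nat_lit 3116) (nat_lit 0) (XT.nd (nat_lit 156) (nat_lit 608) (nat_lit 0) (XT.nd (nat_lit 78) (nat_lit 532) (nat_lit 0) (XT.lf (nat_lit 0) (nat_lit 4096946551) (nat_lit 380) (nat_lit 1210247276) (nat_lit 456) (nat_lit 1198431984) (nat_lit 652) (nat_lit 5) (nat_lit 657) (nat_lit 5) (nat_lit 658) (nat_lit 5) (nat_lit 391) (nat_lit 377) (nat_lit 372)) (XT.lf (nat_lit 0) (nat_lit 1116467003) (nat_lit 456) (nat_lit 616076331) (nat_lit 532) (nat_lit 4786216596) (nat_lit 645) (nat_lit 5) (nat_lit 651) (nat_lit 5) (nat_lit 652) (nat_lit 5) (nat_lit 392) (nat_lit 377) (nat_lit 371))) (XT.nd (nat_lit 78) (nat_lit 608) (nat_lit 0) (XT.lf (nat_lit 0) (nat_lit 4650963058) (nat_lit 532) (nat_lit 1841316932) (nat_lit 76) (nat_lit 40882677) (nat_lit 645) (nat_lit 5) (nat_lit 652) (nat_lit 5) (nat_lit 646) (nat_lit 5) (nat_lit 393)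 (nat_lit 377) (nat_lit 370)) (XT.nd (nat_lit 78) (nat_lit 0) (nat_lit 0) (XT.lf (nat_lit 0) (nat_lit 1010901709) (nat_lit 608) (nat_lit 4791075678) (nat_lit 76) (nat_lit 746891910) (nat_lit 637) (nat_lit 5) (nat_lit 645) (nat_lit 5) (nat_lit 638) (nat_lit 5) (nat_lit 394) (nat_lit 377) (nat_lit 369)) (XT.lf (nat_lit 0) (nat_lit 3879738651) (nat_lit 608) (nat_lit 1169389687) (nat_lit 76) (nat_lit 1516709612) (nat_lit 637) (nat_lit 5) (nat_lit 645) (nat_lit 5) (nat_lit 638) (nat_lit 5) (nat_lit 395) (nat_lit 377) (nat_lit 368))))) (XT.nd (nat_lit 234) (nat_lit 1748) (nat_lit 0) (XT.nd (nat_lit 78) (nat_lit 684) (nat_lit 0) (XT.lf (nat_lit 0) (nat_lit 167773619) (nat_lit 684) (nat_lit 4072801738) (nat_lit 76) (nat_lit 2343639878) (nat_lit 628) (nat_lit 5) (nat_lit 637) (nat_lit 5) (nat_lit 629) (nat_lit 5) (nat_lit 396) (nat_lit 377) (nat_lit 367)) (XT.nd (nat_lit 78) (nat_lit 684) (nat_lit 0) (XT.lf (nat_lit 0)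 (nat_lit 2983208902) (nat_lit 684) (nat_lit 384757453) (nat_lit 76) (nat_lit 3235884457) (nat_lit 628) (nat_lit 5) (nat_lit 637) (nat_lit 5) (nat_lit 629) (nat_lit 5) (nat_lit 397) (nat_lit 377) (nat_lit 366)) (XT.lf (nat_lit 0) (nat_lit 3376430447) (nat_lit 684) (nat_lit 2434286591) (nat_lit 760) (nat_lit 814100586) (nat_lit 619) (nat_lit 5) (nat_lit 628) (nat_lit 5) (nat_lit 629) (nat_lit 5) (nat_lit 398) (nat_lit 377) (nat_lit 365)))) (XT.nd (nat_lit 78) (nat_lit 912) (nat_lit 0) (XT.lf (nat_lit 0) (nat_lit 519877641) (nat_lit 760) (nat_lit 1442167169) (nat_lit 836) (nat_lit 4685137853) (nat_lit 608) (nat_lit 5) (nat_lit 618) (nat_lit 5) (nat_lit 619) (nat_lit 5) (nat_lit 399) (nat_lit 377) (nat_lit 364)) (XT.nd (nat_lit 78) (nat_lit 912) (nat_lit 0) (XT.lf (nat_lit 0) (nat_lit 4356848660) (nat_lit 760) (nat_lit 383096253) (nat_lit 836) (nat_lit 1930850516) (nat_lit 608) (nat_lit 5) (nat_lit 618) (nat_lit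 5) (nat_lit 619) (nat_lit 5) (nat_lit 400) (nat_lit 377) (nat_lit 363)) (XT.lf (nat_lit 0) (nat_lit 817941340) (nat_lit 912) (nat_lit 5155644192) (nat_lit 76) (nat_lit 722210760) (nat_lit 596) (nat_lit 5) (nat_lit 608) (nat_lit 5) (nat_lit 597) (nat_lit 5) (nat_lit 401) (nat_lit 377) (nat_lit 362))))))) (XT.nd (nat_lit 780) (nat_lit 9576) (nat_lit 0) (XT.nd (nat_lit 390) (nat_lit 3800) (nat_lit 0) (XT.nd (nat_lit 156) (nat_lit 2204) (nat_lit 0) (XT.nd (nat_lit 78) (nat_lit 912) (nat_lit 0) (XT.lf (nat_lit 0) (nat_lit 3551281510) (nat_lit 912) (nat_lit 1280077877) (nat_lit 76) (nat_lit 1890621773) (nat_lit 596) (nat_lit 5) (nat_lit 608) (nat_lit 5) (nat_lit 597) (nat_lit 5) (nat_lit 402) (nat_lit 377) (nat_lit 361)) (XT.lf (nat_lit 0) (nat_lit 2662464162) (nat_lit 912) (nat_lit 3632576199) (nat_lit 988) (nat_lit 454581168) (nat_lit 584) (nat_lit 5) (nat_lit 596) (nat_lit 5) (nat_lit 597) (nat_lit 5) (nat_lit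 403) (nat_lit 377) (nat_lit 360))) (XT.nd (nat_lit 78) (nat_lit 2128) (nat_lit 0) (XT.lf (nat_lit 0) (nat_lit 2233065641) (nat_lit 988) (nat_lit 137538897) (nat_lit 76) (nat_lit 4408002892) (nat_lit 583) (nat_lit 5) (nat_lit 596) (nat_lit 5) (nat_lit 584) (nat_lit 5) (nat_lit 404) (nat_lit 377) (nat_lit 359)) (XT.nd (nat_lit 78) (nat_lit 1140) (nat_lit 0) (XT.lf (nat_lit 0) (nat_lit 3894022630) (nat_lit 988) (nat_lit 1039773586) (nat_lit 1064) (nat_lit 1875052524) (nat_lit 570) (nat_lit 5) (nat_lit 583) (nat_lit 5) (nat_lit 584) (nat_lit 5) (nat_lit 405) (nat_lit 377) (nat_lit 358)) (XT.lf (nat_lit 0) (nat_lit 788815441) (nat_lit 1140) (nat_lit 5710804701) (nat_lit 76) (nat_lit 340984901) (nat_lit 555) (nat_lit 5) (nat_lit 570) (nat_lit 5) (nat_lit 556) (nat_lit 5) (nat_lit 406) (nat_lit 377) (nat_lit 357))))) (XT.nd (nat_lit 156) (nat_lit 2660) (nat_lit 0) (XT.nd (nat_lit 78) (nat_lit 1140) (nat_lit 0) (XT.lf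 (nat_lit 0) (nat_lit 3448988231) (nat_lit 1140) (nat_lit 1643850749) (nat_lit 76) (nat_lit 1780588516) (nat_lit 555) (nat_lit 5) (nat_lit 570) (nat_lit 5) (nat_lit 556) (nat_lit 5) (nat_lit 407) (nat_lit 377) (nat_lit 356)) (XT.lf (nat_lit 0) (nat_lit 2491388846) (nat_lit 1140) (nat_lit 3629833219) (nat_lit 1216) (nat_lit 786547960) (nat_lit 540) (nat_lit 5) (nat_lit 555) (nat_lit 5) (nat_lit 556) (nat_lit 5) (nat_lit 408) (nat_lit 377) (nat_lit 355))) (XT.nd (nat_lit 78) (nat_lit 2584) (nat_lit 0) (XT.lf (nat_lit 0) (nat_lit 1833329923) (nat_lit 1216) (nat_lit 269621466) (nat_lit 76) (nat_lit 4840555929) (nat_lit 539) (nat_lit 5) (nat_lit 555) (nat_lit 5) (nat_lit 540) (nat_lit 5) (nat_lit 409) (nat_lit 377) (nat_lit 354)) (XT.nd (nat_lit 78) (nat_lit 1368) (nat_lit 0) (XT.lf (nat_lit 0) (nat_lit 3961503674) (nat_lit 1216) (nat_lit 503513331) (nat_lit 1292) (nat_lit 2515477926) (nat_lit 523) (nat_lit 5) (nat_lit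 539) (nat_lit 5) (nat_lit 540) (nat_lit 5) (nat_lit 410) (nat_lit 377) (nat_lit 353)) (XT.lf (nat_lit 0) (nat_lit 91287001) (nat_lit 1368) (nat_lit 5794383592) (nat_lit 76) (nat_lit 1133333791) (nat_lit 505) (nat_lit 5) (nat_lit 523) (nat_lit 5) (nat_lit 506) (nat_lit 5) (nat_lit 411) (nat_lit 377) (nat_lit 352)))))) (XT.nd (nat_lit 390) (nat_lit 5168) (nat_lit 0) (XT.nd (nat_lit 156) (nat_lit 3040) (nat_lit 0) (XT.nd (nat_lit 78) (nat_lit 1368) (nat_lit 0) (XT.lf (nat_lit 0) (nat_lit 2685727175) (nat_lit 1368) (nat_lit 1530655552) (nat_lit 76) (nat_lit 2842220520) (nat_lit 505) (nat_lit 5) (nat_lit 523) (nat_lit 5) (nat_lit 506) (nat_lit 5) (nat_lit 412) (nat_lit 377) (nat_lit 351)) (XT.lf (nat_lit 0) (nat_lit 2809430961) (nat_lit 1368) (nat_lit 2487398234) (nat_lit 1444) (nat_lit 1802904932) (nat_lit 487) (nat_lit 5) (nat_lit 505) (nat_lit 5) (nat_lit 506) (nat_lit 5) (nat_lit 413) (nat_lit 377) (nat_lit 350)))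 (XT.nd (nat_lit 78) (nat_lit 1520) (nat_lit 0) (XT.lf (nat_lit 0) (nat_lit 64852985) (nat_lit 1444) (nat_lit 700541041) (nat_lit 1520) (nat_lit 6377068184) (nat_lit 467) (nat_lit 5) (nat_lit 486) (nat_lit 5) (nat_lit 487) (nat_lit 5) (nat_lit 414) (nat_lit 377) (nat_lit 349)) (XT.nd (nat_lit 78) (nat_lit 1520) (nat_lit 0) (XT.lf (nat_lit 0) (nat_lit 3344893797) (nat_lit 1520) (nat_lit 2686635647) (nat_lit 76) (nat_lit 1154631005) (nat_lit 467) (nat_lit 5) (nat_lit 487) (nat_lit 5) (nat_lit 468) (nat_lit 5) (nat_lit 415) (nat_lit 377) (nat_lit 348)) (XT.lf (nat_lit 0) (nat_lit 1764563072) (nat_lit 1520) (nat_lit 4176229484) (nat_lit 1596) (nat_lit 1290676715) (nat_lit 447) (nat_lit 5) (nat_lit 467) (nat_lit 5) (nat_lit 468) (nat_lit 5) (nat_lit 416) (nat_lit 377) (nat_lit 347))))) (XT.nd (nat_lit 234) (nat_lit 1824) (nat_lit 0) (XT.nd (nat_lit 78) (nat_lit 3268) (nat_lit 0) (XT.lf (nat_lit 0) (nat_lit 1260934683)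 (nat_lit 1596) (nat_lit 991253501) (nat_lit 76) (nat_lit 5026013327) (nat_lit 446) (nat_lit 5) (nat_lit 467) (nat_lit 5) (nat_lit 447) (nat_lit 5) (nat_lit 417) (nat_lit 377) (nat_lit 346)) (XT.nd (nat_lit 78) (nat_lit 1672) (nat_lit 0) (XT.lf (nat_lit 0) (nat_lit 3566549647) (nat_lit 1596) (nat_lit 252972537) (nat_lit 1672) (nat_lit 3506741967) (nat_lit 425) (nat_lit 5) (nat_lit 446) (nat_lit 5) (nat_lit 447) (nat_lit 5) (nat_lit 418) (nat_lit 377) (nat_lit 345)) (XT.lf (nat_lit 0) (nat_lit 806392737) (nat_lit 1672) (nat_lit 5597182131) (nat_lit 1748) (nat_lit 972257608) (nat_lit 403) (nat_lit 5) (nat_lit 425) (nat_lit 5) (nat_lit 426) (nat_lit 5) (nat_lit 419) (nat_lit 377) (nat_lit 344)))) (XT.nd (nat_lit 78) (nat_lit 1748) (nat_lit 0) (XT.lf (nat_lit 0) (nat_lit 1569914942) (nat_lit 1748) (nat_lit 1970122852) (nat_lit 76) (nat_lit 3886611009) (nat_lit 402) (nat_lit 5) (nat_lit 425) (nat_lit 5) (nat_lit 403)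 (nat_lit 5) (nat_lit 420) (nat_lit 377) (nat_lit 343)) (XT.nd (nat_lit 78) (nat_lit 0) (nat_lit 0) (XT.lf (nat_lit 0) (nat_lit 2704419551) (nat_lit 1748) (nat_lit 1415103265) (nat_lit 1824) (nat_lit 3359466453) (nat_lit 379) (nat_lit 5) (nat_lit 402) (nat_lit 5) (nat_lit 403) (nat_lit 5) (nat_lit 421) (nat_lit 377) (nat_lit 342)) (XT.lf (nat_lit 0) (nat_lit 6691011843) (nat_lit 1824) (nat_lit 84401856) (nat_lit 76) (nat_lit 757573055) (nat_lit 379) (nat_lit 5) (nat_lit 403) (nat_lit 5) (nat_lit 380) (nat_lit 5) (nat_lit 422) (nat_lit 377) (nat_lit 341))))))))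
noncomputable def xc88 : XT := (XT.nd (nat_lit 1560) (nat_lit 7220) (nat_lit 0) (XT.nd (nat_lit 780) (nat_lit 4332) (nat_lit 0) (XT.nd (nat_lit 390) (nat_lit 2432) (nat_lit 0) (XT.nd (nat_lit 156) (nat_lit 1748) (nat_lit 0) (XT.nd (nat_lit 78) (nat_lit 912) (nat_lit 0) (XT.lf (nat_lit 0) (nat_lit 1696713748) (nat_lit 1064) (nat_lit 2893025222) (nat_lit 76) (nat_lit 2998258368) (nat_lit 365) (nat_lit 5) (nat_lit 379) (nat_lit 5) (nat_lit 366) (nat_lit 5) (nat_lit 423) (nat_lit 377) (nat_lit 340)) (XT.lf (nat_lit 0) (nat_lit 1900421764) (nat_lit 912) (nat_lit 2341309469) (nat_lit 988) (nat_lit 3402955388) (nat_lit 353) (nat_lit 5) (nat_lit 365) (nat_lit 5) (nat_lit 366) (nat_lit 5) (nat_lit 424) (nat_lit 377) (nat_lit 339))) (XT.nd (nat_lit 78) (nat_lit 1748) (nat_lit 0) (XT.lf (nat_lit 0) (nat_lit 6783351690) (nat_lit 912) (nat_lit 28228381) (nat_lit 988) (nat_lit 891476857) (nat_lit 353) (nat_lit 5) (nat_lit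 365) (nat_lit 5) (nat_lit 366) (nat_lit 5) (nat_lit 425) (nat_lit 377) (nat_lit 338)) (XT.nd (nat_lit 78) (nat_lit 836) (nat_lit 0) (XT.lf (nat_lit 0) (nat_lit 1644745844) (nat_lit 912) (nat_lit 3780556555) (nat_lit 76) (nat_lit 2337171815) (nat_lit 341) (nat_lit 5) (nat_lit 353) (nat_lit 5) (nat_lit 342) (nat_lit 5) (nat_lit 426) (nat_lit 377) (nat_lit 337)) (XT.lf (nat_lit 0) (nat_lit 1133885649) (nat_lit 836) (nat_lit 3055315513) (nat_lit 912) (nat_lit 3634396298) (nat_lit 330) (nat_lit 5) (nat_lit 341) (nat_lit 5) (nat_lit 342) (nat_lit 5) (nat_lit 427) (nat_lit 377) (nat_lit 336))))) (XT.nd (nat_lit 156) (nat_lit 1596) (nat_lit 0) (XT.nd (nat_lit 78) (nat_lit 836) (nat_lit 0) (XT.lf (nat_lit 0) (nat_lit 6152228073) (nat_lit 836) (nat_lit 613932330) (nat_lit 912) (nat_lit 1120174360) (nat_lit 330) (nat_lit 5) (nat_lit 341) (nat_lit 5) (nat_lit 342) (nat_lit 5) (nat_lit 428) (nat_lit 377) (nat_lit 335)) (XT.lf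 (nat_lit 0) (nat_lit 1416044115) (nat_lit 836) (nat_lit 4653671548) (nat_lit 76) (nat_lit 1880633468) (nat_lit 319) (nat_lit 5) (nat_lit 330) (nat_lit 5) (nat_lit 320) (nat_lit 5) (nat_lit 429) (nat_lit 377) (nat_lit 334))) (XT.nd (nat_lit 78) (nat_lit 836) (nat_lit 0) (XT.lf (nat_lit 0) (nat_lit 383745352) (nat_lit 760) (nat_lit 3579862859) (nat_lit 836) (nat_lit 4052397592) (nat_lit 309) (nat_lit 5) (nat_lit 319) (nat_lit 5) (nat_lit 320) (nat_lit 5) (nat_lit 430) (nat_lit 377) (nat_lit 333)) (XT.nd (nat_lit 78) (nat_lit 836) (nat_lit 0) (XT.lf (nat_lit 0) (nat_lit 5539395214) (nat_lit 760) (nat_lit 1011832705) (nat_lit 836) (nat_lit 1531987674) (nat_lit 309) (nat_lit 5) (nat_lit 319) (nat_lit 5) (nat_lit 320) (nat_lit 5) (nat_lit 431) (nat_lit 377) (nat_lit 332)) (XT.lf (nat_lit 0) (nat_lit 1011252168) (nat_lit 836) (nat_lit 5533873055) (nat_lit 76) (nat_lit 1606809752) (nat_lit 298) (nat_lit 5) (nat_lit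 309) (nat_lit 5) (nat_lit 299) (nat_lit 5) (nat_lit 432) (nat_lit 377) (nat_lit 331)))))) (XT.nd (nat_lit 390) (nat_lit 2128) (nat_lit 0) (XT.nd (nat_lit 156) (nat_lit 1444) (nat_lit 0) (XT.nd (nat_lit 78) (nat_lit 760) (nat_lit 0) (XT.lf (nat_lit 0) (nat_lit 3567651959) (nat_lit 836) (nat_lit 366778813) (nat_lit 76) (nat_lit 4287760072) (nat_lit 298) (nat_lit 5) (nat_lit 309) (nat_lit 5) (nat_lit 299) (nat_lit 5) (nat_lit 433) (nat_lit 377) (nat_lit 330)) (XT.lf (nat_lit 0) (nat_lit 4923329670) (nat_lit 760) (nat_lit 1243526372) (nat_lit 836) (nat_lit 2127182653) (nat_lit 288) (nat_lit 5) (nat_lit 298) (nat_lit 5) (nat_lit 299) (nat_lit 5) (nat_lit 434) (nat_lit 377) (nat_lit 329))) (XT.nd (nat_lit 78) (nat_lit 684) (nat_lit 0) (XT.lf (nat_lit 0) (nat_lit 429605814) (nat_lit 760) (nat_lit 6443410132) (nat_lit 76) (nat_lit 1494572701) (nat_lit 278) (nat_lit 5) (nat_lit 288) (nat_lit 5) (nat_lit 279) (nat_lit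 5) (nat_lit 435) (nat_lit 377) (nat_lit 328)) (XT.nd (nat_lit 78) (nat_lit 684) (nat_lit 0) (XT.lf (nat_lit 0) (nat_lit 3000466140) (nat_lit 760) (nat_lit 1139609094) (nat_lit 76) (nat_lit 4302443983) (nat_lit 278) (nat_lit 5) (nat_lit 288) (nat_lit 5) (nat_lit 279) (nat_lit 5) (nat_lit 436) (nat_lit 377) (nat_lit 327)) (XT.lf (nat_lit 0) (nat_lit 4281683639) (nat_lit 684) (nat_lit 1330024405) (nat_lit 760) (nat_lit 2907479905) (nat_lit 269) (nat_lit 5) (nat_lit 278) (nat_lit 5) (nat_lit 279) (nat_lit 5) (nat_lit 437) (nat_lit 377) (nat_lit 326))))) (XT.nd (nat_lit 156) (nat_lit 1368) (nat_lit 0) (XT.nd (nat_lit 78) (nat_lit 76) (nat_lit 0) (XT.lf (nat_lit 0) (nat_lit 1190003824) (nat_lit 684) (nat_lit 7072167740) (nat_lit 760) (nat_lit 335497023) (nat_lit 260) (nat_lit 5) (nat_lit 269) (nat_lit 5) (nat_lit 270) (nat_lit 5) (nat_lit 438) (nat_lit 377) (nat_lit 325)) (XT.lf (nat_lit 0) (nat_lit 2257141891) (nat_lit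 760) (nat_lit 1962918151) (nat_lit 76) (nat_lit 4457394996) (nat_lit 259) (nat_lit 5) (nat_lit 269) (nat_lit 5) (nat_lit 260) (nat_lit 5) (nat_lit 439) (nat_lit 377) (nat_lit 324))) (XT.nd (nat_lit 78) (nat_lit 684) (nat_lit 0) (XT.lf (nat_lit 0) (nat_lit 3591070188) (nat_lit 684) (nat_lit 1291930723) (nat_lit 760) (nat_lit 3876092162) (nat_lit 250) (nat_lit 5) (nat_lit 259) (nat_lit 5) (nat_lit 260) (nat_lit 5) (nat_lit 440) (nat_lit 377) (nat_lit 323)) (XT.nd (nat_lit 78) (nat_lit 76) (nat_lit 0) (XT.lf (nat_lit 0) (nat_lit 389719866) (nat_lit 608) (nat_lit 7161390758) (nat_lit 684) (nat_lit 1291475638) (nat_lit 242) (nat_lit 5) (nat_lit 250) (nat_lit 5) (nat_lit 251) (nat_lit 5) (nat_lit 441) (nat_lit 377) (nat_lit 322)) (XT.lf (nat_lit 0) (nat_lit 1333779090) (nat_lit 684) (nat_lit 2861058593) (nat_lit 76) (nat_lit 4732621728) (nat_lit 241) (nat_lit 5) (nat_lit 250) (nat_lit 5) (nat_lit 242) (nat_lit 5)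 (nat_lit 442) (nat_lit 377) (nat_lit 321))))))) (XT.nd (nat_lit 780) (nat_lit 3572) (nat_lit 0) (XT.nd (nat_lit 390) (nat_lit 1748) (nat_lit 0) (XT.nd (nat_lit 156) (nat_lit 1292) (nat_lit 0) (XT.nd (nat_lit 78) (nat_lit 0) (nat_lit 0) (XT.lf (nat_lit 0) (nat_lit 2826835220) (nat_lit 608) (nat_lit 1149621811) (nat_lit 684) (nat_lit 5037774116) (nat_lit 233) (nat_lit 5) (nat_lit 241) (nat_lit 5) (nat_lit 242) (nat_lit 5) (nat_lit 443) (nat_lit 377) (nat_lit 320)) (XT.lf (nat_lit 0) (nat_lit 6668228814) (nat_lit 684) (nat_lit 492572510) (nat_lit 76) (nat_lit 1942027952) (nat_lit 233) (nat_lit 5) (nat_lit 242) (nat_lit 5) (nat_lit 234) (nat_lit 5) (nat_lit 444) (nat_lit 377) (nat_lit 319))) (XT.nd (nat_lit 78) (nat_lit 608) (nat_lit 0) (XT.lf (nat_lit 0) (nat_lit 224937857) (nat_lit 684) (nat_lit 3859833469) (nat_lit 76) (nat_lit 5108270643) (nat_lit 224) (nat_lit 5) (nat_lit 233) (nat_lit 5) (nat_lit 225) (nat_lit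 5) (nat_lit 445) (nat_lit 377) (nat_lit 318)) (XT.nd (nat_lit 78) (nat_lit 0) (nat_lit 0) (XT.lf (nat_lit 0) (nat_lit 1962814075) (nat_lit 608) (nat_lit 923428990) (nat_lit 684) (nat_lit 6398885343) (nat_lit 216) (nat_lit 5) (nat_lit 224) (nat_lit 5) (nat_lit 225) (nat_lit 5) (nat_lit 446) (nat_lit 377) (nat_lit 317)) (XT.lf (nat_lit 0) (nat_lit 5607203442) (nat_lit 684) (nat_lit 1483744068) (nat_lit 76) (nat_lit 2287995045) (nat_lit 216) (nat_lit 5) (nat_lit 225) (nat_lit 5) (nat_lit 217) (nat_lit 5) (nat_lit 447) (nat_lit 377) (nat_lit 316))))) (XT.nd (nat_lit 156) (nat_lit 608) (nat_lit 0) (XT.nd (nat_lit 78) (nat_lit 608) (nat_lit 0) (XT.lf (nat_lit 0) (nat_lit 4480788633) (nat_lit 532) (nat_lit 3903095686) (nat_lit 608) (nat_lit 1090736916) (nat_lit 209) (nat_lit 5) (nat_lit 216) (nat_lit 5) (nat_lit 217) (nat_lit 5) (nat_lit 448) (nat_lit 377) (nat_lit 315)) (XT.lf (nat_lit 0) (nat_lit 971070487) (nat_lit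 532) (nat_lit 633824782) (nat_lit 608) (nat_lit 7967467084) (nat_lit 201) (nat_lit 5) (nat_lit 208) (nat_lit 5) (nat_lit 209) (nat_lit 5) (nat_lit 449) (nat_lit 377) (nat_lit 314))) (XT.nd (nat_lit 78) (nat_lit 608) (nat_lit 0) (XT.lf (nat_lit 0) (nat_lit 4357675589) (nat_lit 608) (nat_lit 2617370143) (nat_lit 76) (nat_lit 2696525009) (nat_lit 201) (nat_lit 5) (nat_lit 209) (nat_lit 5) (nat_lit 202) (nat_lit 5) (nat_lit 450) (nat_lit 377) (nat_lit 313)) (XT.nd (nat_lit 78) (nat_lit 76) (nat_lit 0) (XT.lf (nat_lit 0) (nat_lit 3484630636) (nat_lit 532) (nat_lit 3674916692) (nat_lit 608) (nat_lit 2613348443) (nat_lit 194) (nat_lit 5) (nat_lit 201) (nat_lit 5) (nat_lit 202) (nat_lit 5) (nat_lit 451) (nat_lit 377) (nat_lit 312)) (XT.lf (nat_lit 0) (nat_lit 124388611) (nat_lit 608) (nat_lit 176044998) (nat_lit 76) (nat_lit 9576107404) (nat_lit 193) (nat_lit 5) (nat_lit 201) (nat_lit 5) (nat_lit 194) (nat_lit 5) (nat_lit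 452) (nat_lit 377) (nat_lit 311)))))) (XT.nd (nat_lit 390) (nat_lit 1520) (nat_lit 0) (XT.nd (nat_lit 156) (nat_lit 1064) (nat_lit 0) (XT.nd (nat_lit 78) (nat_lit 456) (nat_lit 0) (XT.lf (nat_lit 0) (nat_lit 2910082140) (nat_lit 608) (nat_lit 3924067624) (nat_lit 76) (nat_lit 3147212450) (nat_lit 186) (nat_lit 5) (nat_lit 194) (nat_lit 5) (nat_lit 187) (nat_lit 5) (nat_lit 453) (nat_lit 377) (nat_lit 310)) (XT.lf (nat_lit 0) (nat_lit 2315080149) (nat_lit 456) (nat_lit 3422896506) (nat_lit 532) (nat_lit 4350585628) (nat_lit 180) (nat_lit 5) (nat_lit 186) (nat_lit 5) (nat_lit 187) (nat_lit 5) (nat_lit 454) (nat_lit 377) (nat_lit 309))) (XT.nd (nat_lit 78) (nat_lit 1064) (nat_lit 0) (XT.lf (nat_lit 0) (nat_lit 8617855344) (nat_lit 532) (nat_lit 1508721637) (nat_lit 76) (nat_lit 71432791) (nat_lit 180) (nat_lit 5) (nat_lit 187) (nat_lit 5) (nat_lit 181) (nat_lit 5) (nat_lit 455) (nat_lit 377) (nat_lit 308)) (XT.nd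 (nat_lit 78) (nat_lit 456) (nat_lit 0) (XT.lf (nat_lit 0) (nat_lit 1253016565) (nat_lit 608) (nat_lit 5436915892) (nat_lit 76) (nat_lit 3619090110) (nat_lit 172) (nat_lit 5) (nat_lit 180) (nat_lit 5) (nat_lit 173) (nat_lit 5) (nat_lit 456) (nat_lit 377) (nat_lit 307)) (XT.lf (nat_lit 0) (nat_lit 938423816) (nat_lit 456) (nat_lit 3168860804) (nat_lit 532) (nat_lit 6315061519) (nat_lit 166) (nat_lit 5) (nat_lit 172) (nat_lit 5) (nat_lit 173) (nat_lit 5) (nat_lit 457) (nat_lit 377) (nat_lit 306))))) (XT.nd (nat_lit 234) (nat_lit 988) (nat_lit 0) (XT.nd (nat_lit 78) (nat_lit 532) (nat_lit 0) (XT.lf (nat_lit 0) (nat_lit 7027649908) (nat_lit 532) (nat_lit 3067789463) (nat_lit 76) (nat_lit 442327612) (nat_lit 166) (nat_lit 5) (nat_lit 173) (nat_lit 5) (nat_lit 167) (nat_lit 5) (nat_lit 458) (nat_lit 377) (nat_lit 305)) (XT.nd (nat_lit 78) (nat_lit 76) (nat_lit 0) (XT.lf (nat_lit 0) (nat_lit 3459317948) (nat_lit 456)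 (nat_lit 6560689467) (nat_lit 532) (nat_lit 635227949) (nat_lit 160) (nat_lit 5) (nat_lit 166) (nat_lit 5) (nat_lit 167) (nat_lit 5) (nat_lit 459) (nat_lit 377) (nat_lit 304)) (XT.lf (nat_lit 0) (nat_lit 2258003231) (nat_lit 532) (nat_lit 673003268) (nat_lit 76) (nat_lit 7843939281) (nat_lit 159) (nat_lit 5) (nat_lit 166) (nat_lit 5) (nat_lit 160) (nat_lit 5) (nat_lit 460) (nat_lit 377) (nat_lit 303)))) (XT.nd (nat_lit 78) (nat_lit 532) (nat_lit 0) (XT.lf (nat_lit 0) (nat_lit 5215697535) (nat_lit 532) (nat_lit 4888001077) (nat_lit 76) (nat_lit 792975929) (nat_lit 153) (nat_lit 5) (nat_lit 160) (nat_lit 5) (nat_lit 154) (nat_lit 5) (nat_lit 461) (nat_lit 377) (nat_lit 302)) (XT.nd (nat_lit 78) (nat_lit 76) (nat_lit 0) (XT.lf (nat_lit 0) (nat_lit 1774914617) (nat_lit 456) (nat_lit 6464174097) (nat_lit 532) (nat_lit 2781628297) (nat_lit 147) (nat_lit 5) (nat_lit 153) (nat_lit 5) (nat_lit 154) (nat_lit 5) (nat_lit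 462) (nat_lit 377) (nat_lit 301)) (XT.lf (nat_lit 0) (nat_lit 177585370) (nat_lit 532) (nat_lit 2551998883) (nat_lit 76) (nat_lit 8417559222) (nat_lit 146) (nat_lit 5) (nat_lit 153) (nat_lit 5) (nat_lit 147) (nat_lit 5) (nat_lit 463) (nat_lit 377) (nat_lit 300))))))))
noncomputable def xc89 : XT := (XT.nd (nat_lit 1638) (nat_lit 2736) (nat_lit 0) (XT.nd (nat_lit 780) (nat_lit 2356) (nat_lit 0) (XT.nd (nat_lit 390) (nat_lit 1216) (nat_lit 0) (XT.nd (nat_lit 156) (nat_lit 912) (nat_lit 0) (XT.nd (nat_lit 78) (nat_lit 0) (nat_lit 0) (XT.lf (nat_lit 0) (nat_lit 3165478732) (nat_lit 456) (nat_lit 7010280733) (nat_lit 76) (nat_lit 1099845863) (nat_lit 141) (nat_lit 5) (nat_lit 147) (nat_lit 5) (nat_lit 142) (nat_lit 5) (nat_lit 464) (nat_lit 377) (nat_lit 299)) (XT.lf (nat_lit 0) (nat_lit 6220387237) (nat_lit 456) (nat_lit 211709538) (nat_lit 76) (nat_lit 4974403731) (nat_lit 141) (nat_lit 5) (nat_lit 147) (nat_lit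 5) (nat_lit 142) (nat_lit 5) (nat_lit 465) (nat_lit 377) (nat_lit 298))) (XT.nd (nat_lit 78) (nat_lit 456) (nat_lit 0) (XT.lf (nat_lit 0) (nat_lit 6771631441) (nat_lit 456) (nat_lit 2581220444) (nat_lit 532) (nat_lit 2186841597) (nat_lit 135) (nat_lit 5) (nat_lit 141) (nat_lit 5) (nat_lit 142) (nat_lit 5) (nat_lit 466) (nat_lit 377) (nat_lit 297)) (XT.nd (nat_lit 78) (nat_lit 0) (nat_lit 0) (XT.lf (nat_lit 0) (nat_lit 858107823) (nat_lit 456) (nat_lit 9479370666) (nat_lit 76) (nat_lit 1338024562) (nat_lit 129) (nat_lit 5) (nat_lit 135) (nat_lit 5) (nat_lit 130) (nat_lit 5) (nat_lit 467) (nat_lit 377) (nat_lit 296)) (XT.lf (nat_lit 0) (nat_lit 3956784521) (nat_lit 456) (nat_lit 2521261625) (nat_lit 76) (nat_lit 5335259893) (nat_lit 129) (nat_lit 5) (nat_lit 135) (nat_lit 5) (nat_lit 130) (nat_lit 5) (nat_lit 468) (nat_lit 377) (nat_lit 295))))) (XT.nd (nat_lit 156) (nat_lit 836) (nat_lit 0) (XT.nd (nat_lit 78)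 (nat_lit 0) (nat_lit 0) (XT.lf (nat_lit 0) (nat_lit 4596760356) (nat_lit 380) (nat_lit 2523833780) (nat_lit 456) (nat_lit 4833216127) (nat_lit 124) (nat_lit 5) (nat_lit 129) (nat_lit 5) (nat_lit 130) (nat_lit 5) (nat_lit 469) (nat_lit 377) (nat_lit 294)) (XT.lf (nat_lit 0) (nat_lit 10348010338) (nat_lit 456) (nat_lit 255109063) (nat_lit 76) (nat_lit 1494006763) (nat_lit 124) (nat_lit 5) (nat_lit 130) (nat_lit 5) (nat_lit 125) (nat_lit 5) (nat_lit 470) (nat_lit 377) (nat_lit 293))) (XT.nd (nat_lit 78) (nat_lit 380) (nat_lit 0) (XT.lf (nat_lit 0) (nat_lit 1414927592) (nat_lit 456) (nat_lit 5226553638) (nat_lit 76) (nat_lit 5600922099) (nat_lit 118) (nat_lit 5) (nat_lit 124) (nat_lit 5) (nat_lit 119) (nat_lit 5) (nat_lit 471) (nat_lit 377) (nat_lit 292)) (XT.nd (nat_lit 78) (nat_lit 0) (nat_lit 0) (XT.lf (nat_lit 0) (nat_lit 2020998552) (nat_lit 380) (nat_lit 2586798105) (nat_lit 456) (nat_lit 7782786567) (nat_lit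 113) (nat_lit 5) (nat_lit 118) (nat_lit 5) (nat_lit 119) (nat_lit 5) (nat_lit 472) (nat_lit 377) (nat_lit 291)) (XT.lf (nat_lit 0) (nat_lit 7884154614) (nat_lit 456) (nat_lit 3106189901) (nat_lit 76) (nat_lit 1550997148) (nat_lit 113) (nat_lit 5) (nat_lit 119) (nat_lit 5) (nat_lit 114) (nat_lit 5) (nat_lit 473) (nat_lit 377) (nat_lit 290)))))) (XT.nd (nat_lit 390) (nat_lit 1292) (nat_lit 0) (XT.nd (nat_lit 156) (nat_lit 684) (nat_lit 0) (XT.nd (nat_lit 78) (nat_lit 76) (nat_lit 0) (XT.lf (nat_lit 0) (nat_lit 4303325170) (nat_lit 304) (nat_lit 6942559551) (nat_lit 380) (nat_lit 1448841076) (nat_lit 109) (nat_lit 5) (nat_lit 113) (nat_lit 5) (nat_lit 114) (nat_lit 5) (nat_lit 474) (nat_lit 377) (nat_lit 289)) (XT.lf (nat_lit 0) (nat_lit 1795584062) (nat_lit 380) (nat_lit 998147260) (nat_lit 76) (nat_lit 10057300019) (nat_lit 108) (nat_lit 5) (nat_lit 113) (nat_lit 5) (nat_lit 109) (nat_lit 5) (nat_lit 475) (nat_lit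 377) (nat_lit 288))) (XT.nd (nat_lit 78) (nat_lit 304) (nat_lit 0) (XT.lf (nat_lit 0) (nat_lit 5113189224) (nat_lit 456) (nat_lit 6437603689) (nat_lit 76) (nat_lit 1458931717) (nat_lit 103) (nat_lit 5) (nat_lit 109) (nat_lit 5) (nat_lit 104) (nat_lit 5) (nat_lit 476) (nat_lit 377) (nat_lit 287)) (XT.nd (nat_lit 78) (nat_lit 0) (nat_lit 0) (XT.lf (nat_lit 0) (nat_lit 1093715759) (nat_lit 304) (nat_lit 7411271435) (nat_lit 380) (nat_lit 4666454636) (nat_lit 99) (nat_lit 5) (nat_lit 103) (nat_lit 5) (nat_lit 104) (nat_lit 5) (nat_lit 477) (nat_lit 377) (nat_lit 286)) (XT.lf (nat_lit 0) (nat_lit 8825225214) (nat_lit 304) (nat_lit 3158326919) (nat_lit 380) (nat_lit 1352469348) (nat_lit 99) (nat_lit 5) (nat_lit 103) (nat_lit 5) (nat_lit 104) (nat_lit 5) (nat_lit 478) (nat_lit 377) (nat_lit 285))))) (XT.nd (nat_lit 234) (nat_lit 608) (nat_lit 0) (XT.nd (nat_lit 78) (nat_lit 304) (nat_lit 0) (XT.lf (nat_lit 0) (nat_lit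 2005811139) (nat_lit 380) (nat_lit 10312521004) (nat_lit 76) (nat_lit 1185211526) (nat_lit 94) (nat_lit 5) (nat_lit 99) (nat_lit 5) (nat_lit 95) (nat_lit 5) (nat_lit 479) (nat_lit 377) (nat_lit 284)) (XT.nd (nat_lit 78) (nat_lit 304) (nat_lit 0) (XT.lf (nat_lit 0) (nat_lit 5440736854) (nat_lit 380) (nat_lit 2633295763) (nat_lit 76) (nat_lit 5599659440) (nat_lit 94) (nat_lit 5) (nat_lit 99) (nat_lit 5) (nat_lit 95) (nat_lit 5) (nat_lit 480) (nat_lit 377) (nat_lit 283)) (XT.lf (nat_lit 0) (nat_lit 5231424481) (nat_lit 304) (nat_lit 3723555324) (nat_lit 380) (nat_lit 4892057450) (nat_lit 90) (nat_lit 5) (nat_lit 94) (nat_lit 5) (nat_lit 95) (nat_lit 5) (nat_lit 481) (nat_lit 377) (nat_lit 282)))) (XT.nd (nat_lit 78) (nat_lit 608) (nat_lit 0) (XT.lf (nat_lit 0) (nat_lit 12538718106) (nat_lit 380) (nat_lit 775955304) (nat_lit 76) (nat_lit 709197829) (nat_lit 90) (nat_lit 5) (nat_lit 95) (nat_lit 5) (nat_lit 91) (nat_lit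 5) (nat_lit 482) (nat_lit 377) (nat_lit 281)) (XT.nd (nat_lit 78) (nat_lit 228) (nat_lit 0) (XT.lf (nat_lit 0) (nat_lit 2013115365) (nat_lit 380) (nat_lit 6961645863) (nat_lit 76) (nat_lit 5228241660) (nat_lit 85) (nat_lit 5) (nat_lit 90) (nat_lit 5) (nat_lit 86) (nat_lit 5) (nat_lit 483) (nat_lit 377) (nat_lit 280)) (XT.lf (nat_lit 0) (nat_lit 1011123407) (nat_lit 228) (nat_lit 4539465330) (nat_lit 304) (nat_lit 8835155323) (nat_lit 82) (nat_lit 5) (nat_lit 85) (nat_lit 5) (nat_lit 86) (nat_lit 5) (nat_lit 484) (nat_lit 377) (nat_lit 279))))))) (XT.nd (nat_lit 780) (nat_lit 1292) (nat_lit 0) (XT.nd (nat_lit 390) (nat_lit 836) (nat_lit 0) (XT.nd (nat_lit 156) (nat_lit 304) (nat_lit 0) (XT.nd (nat_lit 78) (nat_lit 304) (nat_lit 0) (XT.lf (nat_lit 0) (nat_lit 9183161808) (nat_lit 304) (nat_lit 5370018167) (nat_lit 76) (nat_lit 18478705) (nat_lit 82) (nat_lit 5) (nat_lit 86) (nat_lit 5) (nat_lit 83) (nat_lit 5)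 (nat_lit 485) (nat_lit 377) (nat_lit 278)) (XT.lf (nat_lit 0) (nat_lit 2765274419) (nat_lit 304) (nat_lit 10148996189) (nat_lit 380) (nat_lit 1846508818) (nat_lit 78) (nat_lit 5) (nat_lit 82) (nat_lit 5) (nat_lit 83) (nat_lit 5) (nat_lit 486) (nat_lit 377) (nat_lit 277))) (XT.nd (nat_lit 78) (nat_lit 228) (nat_lit 0) (XT.lf (nat_lit 0) (nat_lit 1757349041) (nat_lit 380) (nat_lit 3864274568) (nat_lit 76) (nat_lit 9331551006) (nat_lit 77) (nat_lit 5) (nat_lit 82) (nat_lit 5) (nat_lit 78) (nat_lit 5) (nat_lit 487) (nat_lit 377) (nat_lit 276)) (XT.nd (nat_lit 78) (nat_lit 0) (nat_lit 0) (XT.lf (nat_lit 0) (nat_lit 4440620100) (nat_lit 228) (nat_lit 975148023) (nat_lit 304) (nat_lit 9733266501) (nat_lit 74) (nat_lit 5) (nat_lit 77) (nat_lit 5) (nat_lit 78) (nat_lit 5) (nat_lit 488) (nat_lit 377) (nat_lit 275)) (XT.lf (nat_lit 0) (nat_lit 9176365491) (nat_lit 304) (nat_lit 2444000088) (nat_lit 76) (nat_lit 3727871154)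 (nat_lit 74) (nat_lit 5) (nat_lit 78) (nat_lit 5) (nat_lit 75) (nat_lit 5) (nat_lit 489) (nat_lit 377) (nat_lit 274))))) (XT.nd (nat_lit 156) (nat_lit 456) (nat_lit 0) (XT.nd (nat_lit 78) (nat_lit 76) (nat_lit 0) (XT.lf (nat_lit 0) (nat_lit 6023847548) (nat_lit 304) (nat_lit 7012785027) (nat_lit 380) (nat_lit 2514306153) (nat_lit 70) (nat_lit 5) (nat_lit 74) (nat_lit 5) (nat_lit 75) (nat_lit 5) (nat_lit 490) (nat_lit 377) (nat_lit 273)) (XT.lf (nat_lit 0) (nat_lit 1195903645) (nat_lit 380) (nat_lit 1105651292) (nat_lit 76) (nat_lit 13456077737) (nat_lit 69) (nat_lit 5) (nat_lit 74) (nat_lit 5) (nat_lit 70) (nat_lit 5) (nat_lit 491) (nat_lit 377) (nat_lit 272))) (XT.nd (nat_lit 78) (nat_lit 228) (nat_lit 0) (XT.lf (nat_lit 0) (nat_lit 4991545563) (nat_lit 304) (nat_lit 8451599196) (nat_lit 76) (nat_lit 2524090168) (nat_lit 66) (nat_lit 5) (nat_lit 70) (nat_lit 5) (nat_lit 67) (nat_lit 5) (nat_lit 492) (nat_lit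 377) (nat_lit 271)) (XT.nd (nat_lit 78) (nat_lit 0) (nat_lit 0) (XT.lf (nat_lit 0) (nat_lit 95526410) (nat_lit 228) (nat_lit 8770357483) (nat_lit 304) (nat_lit 7315094280) (nat_lit 63) (nat_lit 5) (nat_lit 66) (nat_lit 5) (nat_lit 67) (nat_lit 5) (nat_lit 493) (nat_lit 377) (nat_lit 270)) (XT.lf (nat_lit 0) (nat_lit 8894490875) (nat_lit 228) (nat_lit 3959569721) (nat_lit 304) (nat_lit 3544213182) (nat_lit 63) (nat_lit 5) (nat_lit 66) (nat_lit 5) (nat_lit 67) (nat_lit 5) (nat_lit 494) (nat_lit 377) (nat_lit 269)))))) (XT.nd (nat_lit 390) (nat_lit 532) (nat_lit 0) (XT.nd (nat_lit 156) (nat_lit 456) (nat_lit 0) (XT.nd (nat_lit 78) (nat_lit 0) (nat_lit 0) (XT.lf (nat_lit 0) (nat_lit 292143626) (nat_lit 304) (nat_lit 15395837865) (nat_lit 76) (nat_lit 932018528) (nat_lit 59) (nat_lit 5) (nat_lit 63) (nat_lit 5) (nat_lit 60) (nat_lit 5) (nat_lit 495) (nat_lit 377) (nat_lit 268)) (XT.lf (nat_lit 0) (nat_lit 4214718826)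 (nat_lit 304) (nat_lit 6700176308) (nat_lit 76) (nat_lit 5929662407) (nat_lit 59) (nat_lit 5) (nat_lit 63) (nat_lit 5) (nat_lit 60) (nat_lit 5) (nat_lit 496) (nat_lit 377) (nat_lit 267))) (XT.nd (nat_lit 78) (nat_lit 228) (nat_lit 0) (XT.lf (nat_lit 0) (nat_lit 2165071152) (nat_lit 228) (nat_lit 6045117521) (nat_lit 304) (nat_lit 8863532860) (nat_lit 56) (nat_lit 5) (nat_lit 59) (nat_lit 5) (nat_lit 60) (nat_lit 5) (nat_lit 497) (nat_lit 377) (nat_lit 266)) (XT.nd (nat_lit 78) (nat_lit 228) (nat_lit 0) (XT.lf (nat_lit 0) (nat_lit 11265938872) (nat_lit 228) (nat_lit 1045150350) (nat_lit 304) (nat_lit 4995873258) (nat_lit 56) (nat_lit 5) (nat_lit 59) (nat_lit 5) (nat_lit 60) (nat_lit 5) (nat_lit 498) (nat_lit 377) (nat_lit 265)) (XT.lf (nat_lit 0) (nat_lit 2984600746) (nat_lit 228) (nat_lit 13535969201) (nat_lit 304) (nat_lit 1023771074) (nat_lit 53) (nat_lit 5) (nat_lit 56) (nat_lit 5) (nat_lit 57) (nat_lit 5)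 (nat_lit 499) (nat_lit 377) (nat_lit 264))))) (XT.nd (nat_lit 234) (nat_lit 228) (nat_lit 0) (XT.nd (nat_lit 78) (nat_lit 228) (nat_lit 0) (XT.lf (nat_lit 0) (nat_lit 3016687691) (nat_lit 304) (nat_lit 5572097478) (nat_lit 76) (nat_lit 9196720175) (nat_lit 52) (nat_lit 5) (nat_lit 56) (nat_lit 5) (nat_lit 53) (nat_lit 5) (nat_lit 500) (nat_lit 377) (nat_lit 263)) (XT.nd (nat_lit 78) (nat_lit 0) (nat_lit 0) (XT.lf (nat_lit 0) (nat_lit 3604201649) (nat_lit 228) (nat_lit 3524729847) (nat_lit 304) (nat_lit 10902336221) (nat_lit 49) (nat_lit 5) (nat_lit 52) (nat_lit 5) (nat_lit 53) (nat_lit 5) (nat_lit 501) (nat_lit 377) (nat_lit 262)) (XT.lf (nat_lit 0) (nat_lit 11353062224) (nat_lit 304) (nat_lit 5284209406) (nat_lit 76) (nat_lit 1644084578) (nat_lit 49) (nat_lit 5) (nat_lit 53) (nat_lit 5) (nat_lit 50) (nat_lit 5) (nat_lit 502) (nat_lit 377) (nat_lit 261)))) (XT.nd (nat_lit 78) (nat_lit 76) (nat_lit 0) (XT.lf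 (nat_lit 0) (nat_lit 4040099041) (nat_lit 152) (nat_lit 11652866585) (nat_lit 228) (nat_lit 2842858684) (nat_lit 47) (nat_lit 5) (nat_lit 49) (nat_lit 5) (nat_lit 50) (nat_lit 5) (nat_lit 503) (nat_lit 377) (nat_lit 260)) (XT.nd (nat_lit 49998) (nat_lit 0) (nat_lit 47348) (XT.lf (nat_lit 0) (nat_lit 1324362893) (nat_lit 228) (nat_lit 5212074178) (nat_lit 76) (nat_lit 12258427324) (nat_lit 46) (nat_lit 5) (nat_lit 49) (nat_lit 5) (nat_lit 47) (nat_lit 5) (nat_lit 504) (nat_lit 377) (nat_lit 259)) (XT.lf (nat_lit 0) (nat_lit 3101624296) (nat_lit 76) (nat_lit 61749054) (nat_lit 76) (nat_lit 61749054) (nat_lit 669) (nat_lit 4) (nat_lit 670) (nat_lit 5) (nat_lit 670) (nat_lit 4) (nat_lit 384) (nat_lit 378) (nat_lit 378))))))))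
noncomputable def xc90 : XT := (XT.nd (nat_lit 1638) (nat_lit 17404) (nat_lit 0) (XT.nd (nat_lit 780) (nat_lit 5092) (nat_lit 0) (XT.nd (nat_lit 390) (nat_lit 1520) (nat_lit 0) (XT.nd (nat_lit 156) (nat_lit 684) (nat_lit 0) (XT.nd (nat_lit 78) (nat_lit 0) (nat_lit 0) (XT.lf (nat_lit 0) (nat_lit 2931276459) (nat_lit 228) (nat_lit 3428123074) (nat_lit 0) (nat_lit 95230018) (nat_lit 666) (nat_lit 5) (nat_lit 669) (nat_lit 4) (nat_lit 666) (nat_lit 4) (nat_lit 385) (nat_lit 378) (nat_lit 377)) (XT.lf (nat_lit 0) (nat_lit 5970447791) (nat_lit 228) (nat_lit 136248976) (nat_lit 0) (nat_lit 353963663) (nat_lit 666) (nat_lit 5) (nat_lit 669) (nat_lit 4) (nat_lit 666) (nat_lit 4) (nat_lit 386) (nat_lit 378) (nat_lit 376))) (XT.nd (nat_lit 78) (nat_lit 380) (nat_lit 0) (XT.lf (nat_lit 0) (nat_lit 2513902672) (nat_lit 304) (nat_lit 3264320030) (nat_lit 76) (nat_lit 689432961) (nat_lit 662) (nat_lit 5) (nat_lit 666) (nat_lit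 5) (nat_lit 663) (nat_lit 4) (nat_lit 387) (nat_lit 378) (nat_lit 375)) (XT.nd (nat_lit 78) (nat_lit 76) (nat_lit 0) (XT.lf (nat_lit 0) (nat_lit 90443988) (nat_lit 304) (nat_lit 5407237853) (nat_lit 380) (nat_lit 978590850) (nat_lit 658) (nat_lit 5) (nat_lit 662) (nat_lit 5) (nat_lit 663) (nat_lit 4) (nat_lit 388) (nat_lit 378) (nat_lit 374)) (XT.lf (nat_lit 0) (nat_lit 1976424556) (nat_lit 380) (nat_lit 2986611227) (nat_lit 76) (nat_lit 1522879874) (nat_lit 657) (nat_lit 5) (nat_lit 662) (nat_lit 5) (nat_lit 658) (nat_lit 5) (nat_lit 389) (nat_lit 378) (nat_lit 373))))) (XT.nd (nat_lit 156) (nat_lit 1064) (nat_lit 0) (XT.nd (nat_lit 78) (nat_lit 76) (nat_lit 0) (XT.lf (nat_lit 0) (nat_lit 435662072) (nat_lit 380) (nat_lit 4471346543) (nat_lit 456) (nat_lit 1590087653) (nat_lit 652) (nat_lit 5) (nat_lit 657) (nat_lit 5) (nat_lit 658) (nat_lit 5) (nat_lit 390) (nat_lit 378) (nat_lit 372)) (XT.lf (nat_lit 0) (nat_lit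 1317019909) (nat_lit 456) (nat_lit 2595276816) (nat_lit 76) (nat_lit 2597136291) (nat_lit 651) (nat_lit 5) (nat_lit 657) (nat_lit 5) (nat_lit 652) (nat_lit 5) (nat_lit 391) (nat_lit 378) (nat_lit 371))) (XT.nd (nat_lit 78) (nat_lit 608) (nat_lit 0) (XT.lf (nat_lit 0) (nat_lit 897423914) (nat_lit 456) (nat_lit 3298167256) (nat_lit 532) (nat_lit 2327584671) (nat_lit 645) (nat_lit 5) (nat_lit 651) (nat_lit 5) (nat_lit 652) (nat_lit 5) (nat_lit 392) (nat_lit 378) (nat_lit 370)) (XT.nd (nat_lit 78) (nat_lit 532) (nat_lit 0) (XT.lf (nat_lit 0) (nat_lit 533628726) (nat_lit 532) (nat_lit 2090390308) (nat_lit 76) (nat_lit 3914218973) (nat_lit 644) (nat_lit 5) (nat_lit 651) (nat_lit 5) (nat_lit 645) (nat_lit 5) (nat_lit 393) (nat_lit 378) (nat_lit 369)) (XT.lf (nat_lit 0) (nat_lit 1475768124) (nat_lit 532) (nat_lit 1885482795) (nat_lit 608) (nat_lit 3193294017) (nat_lit 637) (nat_lit 5) (nat_lit 644) (nat_lit 5) (nat_lit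 645) (nat_lit 5) (nat_lit 394) (nat_lit 378) (nat_lit 368)))))) (XT.nd (nat_lit 390) (nat_lit 2888) (nat_lit 0) (XT.nd (nat_lit 156) (nat_lit 1520) (nat_lit 0) (XT.nd (nat_lit 78) (nat_lit 684) (nat_lit 0) (XT.lf (nat_lit 0) (nat_lit 5098023094) (nat_lit 532) (nat_lit 1093245369) (nat_lit 608) (nat_lit 381049781) (nat_lit 637) (nat_lit 5) (nat_lit 644) (nat_lit 5) (nat_lit 645) (nat_lit 5) (nat_lit 395) (nat_lit 378) (nat_lit 367)) (XT.lf (nat_lit 0) (nat_lit 2170940180) (nat_lit 608) (nat_lit 230625423) (nat_lit 684) (nat_lit 4189678306) (nat_lit 628) (nat_lit 5) (nat_lit 636) (nat_lit 5) (nat_lit 637) (nat_lit 5) (nat_lit 396) (nat_lit 378) (nat_lit 366))) (XT.nd (nat_lit 78) (nat_lit 1520) (nat_lit 0) (XT.lf (nat_lit 0) (nat_lit 5182752088) (nat_lit 684) (nat_lit 752989676) (nat_lit 76) (nat_lit 675849334) (nat_lit 628) (nat_lit 5) (nat_lit 637) (nat_lit 5) (nat_lit 629) (nat_lit 5) (nat_lit 397) (nat_lit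 378) (nat_lit 365)) (XT.nd (nat_lit 78) (nat_lit 760) (nat_lit 0) (XT.lf (nat_lit 0) (nat_lit 1324702903) (nat_lit 760) (nat_lit 3660769438) (nat_lit 76) (nat_lit 1647630884) (nat_lit 618) (nat_lit 5) (nat_lit 628) (nat_lit 5) (nat_lit 619) (nat_lit 5) (nat_lit 398) (nat_lit 378) (nat_lit 364)) (XT.lf (nat_lit 0) (nat_lit 74268619) (nat_lit 760) (nat_lit 3981154541) (nat_lit 836) (nat_lit 2600659452) (nat_lit 608) (nat_lit 5) (nat_lit 618) (nat_lit 5) (nat_lit 619) (nat_lit 5) (nat_lit 399) (nat_lit 378) (nat_lit 363))))) (XT.nd (nat_lit 234) (nat_lit 1976) (nat_lit 0) (XT.nd (nat_lit 78) (nat_lit 836) (nat_lit 0) (XT.lf (nat_lit 0) (nat_lit 120008181) (nat_lit 836) (nat_lit 2791848797) (nat_lit 76) (nat_lit 3768474674) (nat_lit 607) (nat_lit 5) (nat_lit 618) (nat_lit 5) (nat_lit 608) (nat_lit 5) (nat_lit 400) (nat_lit 378) (nat_lit 362)) (XT.nd (nat_lit 78) (nat_lit 0) (nat_lit 0) (XT.lf (nat_lit 0) (nat_lit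 1025794195) (nat_lit 836) (nat_lit 1778574842) (nat_lit 912) (nat_lit 3901518553) (nat_lit 596) (nat_lit 5) (nat_lit 607) (nat_lit 5) (nat_lit 608) (nat_lit 5) (nat_lit 401) (nat_lit 378) (nat_lit 361)) (XT.lf (nat_lit 0) (nat_lit 4913574009) (nat_lit 836) (nat_lit 585929075) (nat_lit 912) (nat_lit 1233356686) (nat_lit 596) (nat_lit 5) (nat_lit 607) (nat_lit 5) (nat_lit 608) (nat_lit 5) (nat_lit 402) (nat_lit 378) (nat_lit 360)))) (XT.nd (nat_lit 78) (nat_lit 988) (nat_lit 0) (XT.lf (nat_lit 0) (nat_lit 1425708266) (nat_lit 988) (nat_lit 4673058080) (nat_lit 76) (nat_lit 662315678) (nat_lit 583) (nat_lit 5) (nat_lit 596) (nat_lit 5) (nat_lit 584) (nat_lit 5) (nat_lit 403) (nat_lit 378) (nat_lit 359)) (XT.nd (nat_lit 78) (nat_lit 988) (nat_lit 0) (XT.lf (nat_lit 0) (nat_lit 4077754253) (nat_lit 988) (nat_lit 748722561) (nat_lit 76) (nat_lit 1964146712) (nat_lit 583) (nat_lit 5) (nat_lit 596) (nat_lit 5) (nat_lit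 584) (nat_lit 5) (nat_lit 404) (nat_lit 378) (nat_lit 358)) (XT.lf (nat_lit 0) (nat_lit 3252532066) (nat_lit 988) (nat_lit 3492730026) (nat_lit 1064) (nat_lit 76288622) (nat_lit 570) (nat_lit 5) (nat_lit 583) (nat_lit 5) (nat_lit 584) (nat_lit 5) (nat_lit 405) (nat_lit 378) (nat_lit 357))))))) (XT.nd (nat_lit 780) (nat_lit 9576) (nat_lit 0) (XT.nd (nat_lit 390) (nat_lit 4256) (nat_lit 0) (XT.nd (nat_lit 156) (nat_lit 2432) (nat_lit 0) (XT.nd (nat_lit 78) (nat_lit 0) (nat_lit 0) (XT.lf (nat_lit 0) (nat_lit 434920284) (nat_lit 1064) (nat_lit 2093458613) (nat_lit 1140) (nat_lit 4325427321) (nat_lit 555) (nat_lit 5) (nat_lit 569) (nat_lit 5) (nat_lit 570) (nat_lit 5) (nat_lit 406) (nat_lit 378) (nat_lit 356)) (XT.lf (nat_lit 0) (nat_lit 4522349481) (nat_lit 1064) (nat_lit 628314190) (nat_lit 1140) (nat_lit 1736742948) (nat_lit 555) (nat_lit 5) (nat_lit 569) (nat_lit 5) (nat_lit 570) (nat_lit 5) (nat_lit 407) (nat_lit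 378) (nat_lit 355))) (XT.nd (nat_lit 78) (nat_lit 1216) (nat_lit 0) (XT.lf (nat_lit 0) (nat_lit 852304309) (nat_lit 1216) (nat_lit 5185868716) (nat_lit 76) (nat_lit 884219017) (nat_lit 539) (nat_lit 5) (nat_lit 555) (nat_lit 5) (nat_lit 540) (nat_lit 5) (nat_lit 408) (nat_lit 378) (nat_lit 354)) (XT.nd (nat_lit 78) (nat_lit 1216) (nat_lit 0) (XT.lf (nat_lit 0) (nat_lit 3434249130) (nat_lit 1216) (nat_lit 1066649790) (nat_lit 76) (nat_lit 2457699649) (nat_lit 539) (nat_lit 5) (nat_lit 555) (nat_lit 5) (nat_lit 540) (nat_lit 5) (nat_lit 409) (nat_lit 378) (nat_lit 353)) (XT.lf (nat_lit 0) (nat_lit 3131596859) (nat_lit 1216) (nat_lit 2901875221) (nat_lit 1292) (nat_lit 962782036) (nat_lit 523) (nat_lit 5) (nat_lit 539) (nat_lit 5) (nat_lit 540) (nat_lit 5) (nat_lit 410) (nat_lit 378) (nat_lit 352))))) (XT.nd (nat_lit 156) (nat_lit 2888) (nat_lit 0) (XT.nd (nat_lit 78) (nat_lit 0) (nat_lit 0) (XT.lf (nat_lit 0)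 (nat_lit 342586563) (nat_lit 1292) (nat_lit 1240918601) (nat_lit 1368) (nat_lit 5451876985) (nat_lit 505) (nat_lit 5) (nat_lit 522) (nat_lit 5) (nat_lit 523) (nat_lit 5) (nat_lit 411) (nat_lit 378) (nat_lit 351)) (XT.lf (nat_lit 0) (nat_lit 4143419339) (nat_lit 1368) (nat_lit 2443665274) (nat_lit 76) (nat_lit 488604493) (nat_lit 505) (nat_lit 5) (nat_lit 523) (nat_lit 5) (nat_lit 506) (nat_lit 5) (nat_lit 412) (nat_lit 378) (nat_lit 350))) (XT.nd (nat_lit 78) (nat_lit 1520) (nat_lit 0) (XT.lf (nat_lit 0) (nat_lit 1861782269) (nat_lit 1368) (nat_lit 4860636195) (nat_lit 1444) (nat_lit 395060808) (nat_lit 487) (nat_lit 5) (nat_lit 505) (nat_lit 5) (nat_lit 506) (nat_lit 5) (nat_lit 413) (nat_lit 378) (nat_lit 349)) (XT.nd (nat_lit 78) (nat_lit 1444) (nat_lit 0) (XT.lf (nat_lit 0) (nat_lit 2128582289) (nat_lit 1444) (nat_lit 932955373) (nat_lit 76) (nat_lit 4099027277) (nat_lit 486) (nat_lit 5) (nat_lit 505) (nat_lit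 5) (nat_lit 487) (nat_lit 5) (nat_lit 414) (nat_lit 378) (nat_lit 348)) (XT.lf (nat_lit 0) (nat_lit 3474790357) (nat_lit 1444) (nat_lit 1194147596) (nat_lit 1520) (nat_lit 2536124344) (nat_lit 467) (nat_lit 5) (nat_lit 486) (nat_lit 5) (nat_lit 487) (nat_lit 5) (nat_lit 415) (nat_lit 378) (nat_lit 347)))))) (XT.nd (nat_lit 390) (nat_lit 4636) (nat_lit 0) (XT.nd (nat_lit 156) (nat_lit 3344) (nat_lit 0) (XT.nd (nat_lit 78) (nat_lit 76) (nat_lit 0) (XT.lf (nat_lit 0) (nat_lit 692243204) (nat_lit 1520) (nat_lit 6532986297) (nat_lit 1596) (nat_lit 25949679) (nat_lit 447) (nat_lit 5) (nat_lit 467) (nat_lit 5) (nat_lit 468) (nat_lit 5) (nat_lit 416) (nat_lit 378) (nat_lit 346)) (XT.lf (nat_lit 0) (nat_lit 2484348595) (nat_lit 1596) (nat_lit 2114064534) (nat_lit 76) (nat_lit 2699843881) (nat_lit 446) (nat_lit 5) (nat_lit 467) (nat_lit 5) (nat_lit 447) (nat_lit 5) (nat_lit 417) (nat_lit 378) (nat_lit 345))) (XT.nd (nat_lit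 78) (nat_lit 1748) (nat_lit 0) (XT.lf (nat_lit 0) (nat_lit 2406395722) (nat_lit 1596) (nat_lit 2604766707) (nat_lit 1672) (nat_lit 2335807695) (nat_lit 425) (nat_lit 5) (nat_lit 446) (nat_lit 5) (nat_lit 447) (nat_lit 5) (nat_lit 418) (nat_lit 378) (nat_lit 344)) (XT.nd (nat_lit 78) (nat_lit 1672) (nat_lit 0) (XT.lf (nat_lit 0) (nat_lit 154974777) (nat_lit 1672) (nat_lit 396870081) (nat_lit 76) (nat_lit 6845504133) (nat_lit 424) (nat_lit 5) (nat_lit 446) (nat_lit 5) (nat_lit 425) (nat_lit 5) (nat_lit 419) (nat_lit 378) (nat_lit 343)) (XT.lf (nat_lit 0) (nat_lit 2654441875) (nat_lit 1748) (nat_lit 3225609708) (nat_lit 76) (nat_lit 1568600701) (nat_lit 402) (nat_lit 5) (nat_lit 425) (nat_lit 5) (nat_lit 403) (nat_lit 5) (nat_lit 420) (nat_lit 378) (nat_lit 342))))) (XT.nd (nat_lit 234) (nat_lit 1824) (nat_lit 0) (XT.nd (nat_lit 78) (nat_lit 1064) (nat_lit 0) (XT.lf (nat_lit 0) (nat_lit 1409728270) (nat_lit 1748)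 (nat_lit 3762638133) (nat_lit 1824) (nat_lit 2329273870) (nat_lit 379) (nat_lit 5) (nat_lit 402) (nat_lit 5) (nat_lit 403) (nat_lit 5) (nat_lit 421) (nat_lit 378) (nat_lit 341)) (XT.nd (nat_lit 78) (nat_lit 988) (nat_lit 0) (XT.lf (nat_lit 0) (nat_lit 157602354) (nat_lit 1824) (nat_lit 1420347940) (nat_lit 76) (nat_lit 5978239280) (nat_lit 378) (nat_lit 5) (nat_lit 402) (nat_lit 5) (nat_lit 379) (nat_lit 5) (nat_lit 422) (nat_lit 378) (nat_lit 340)) (XT.lf (nat_lit 0) (nat_lit 2643338921) (nat_lit 1064) (nat_lit 4287991894) (nat_lit 76) (nat_lit 680611257) (nat_lit 365) (nat_lit 5) (nat_lit 379) (nat_lit 5) (nat_lit 366) (nat_lit 5) (nat_lit 423) (nat_lit 378) (nat_lit 339)))) (XT.nd (nat_lit 78) (nat_lit 912) (nat_lit 0) (XT.lf (nat_lit 0) (nat_lit 464341611) (nat_lit 912) (nat_lit 4692321185) (nat_lit 988) (nat_lit 2512615232) (nat_lit 353) (nat_lit 5) (nat_lit 365) (nat_lit 5) (nat_lit 366) (nat_lit 5) (nat_lit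 424) (nat_lit 378) (nat_lit 338)) (XT.nd (nat_lit 78) (nat_lit 912) (nat_lit 0) (XT.lf (nat_lit 0) (nat_lit 5325139078) (nat_lit 912) (nat_lit 2379297852) (nat_lit 988) (nat_lit 23665450) (nat_lit 353) (nat_lit 5) (nat_lit 365) (nat_lit 5) (nat_lit 366) (nat_lit 5) (nat_lit 425) (nat_lit 378) (nat_lit 337)) (XT.lf (nat_lit 0) (nat_lit 2454143798) (nat_lit 912) (nat_lit 5321813265) (nat_lit 76) (nat_lit 12402618) (nat_lit 341) (nat_lit 5) (nat_lit 353) (nat_lit 5) (nat_lit 342) (nat_lit 5) (nat_lit 426) (nat_lit 378) (nat_lit 336))))))))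
noncomputable def xc91 : XT := (XT.nd (nat_lit 1638) (nat_lit 6612) (nat_lit 0) (XT.nd (nat_lit 780) (nat_lit 4712) (nat_lit 0) (XT.nd (nat_lit 390) (nat_lit 2356) (nat_lit 0) (XT.nd (nat_lit 156) (nat_lit 1596) (nat_lit 0) (XT.nd (nat_lit 78) (nat_lit 836) (nat_lit 0) (XT.lf (nat_lit 0) (nat_lit 4969723112) (nat_lit 912) (nat_lit 444537497) (nat_lit 76) (nat_lit 2435811664) (nat_lit 341) (nat_lit 5) (nat_lit 353) (nat_lit 5) (nat_lit 342) (nat_lit 5) (nat_lit 427) (nat_lit 378) (nat_lit 335)) (XT.lf (nat_lit 0) (nat_lit 4545748615) (nat_lit 836) (nat_lit 2976773125) (nat_lit 912) (nat_lit 390782645) (nat_lit 330) (nat_lit 5) (nat_lit 341) (nat_lit 5) (nat_lit 342) (nat_lit 5) (nat_lit 428) (nat_lit 378) (nat_lit 334))) (XT.nd (nat_lit 78) (nat_lit 760) (nat_lit 0) (XT.lf (nat_lit 0) (nat_lit 1627045648) (nat_lit 760) (nat_lit 464560463) (nat_lit 836) (nat_lit 5886514344) (nat_lit 319) (nat_lit 5) (nat_lit 329)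 (nat_lit 5) (nat_lit 330) (nat_lit 5) (nat_lit 429) (nat_lit 378) (nat_lit 333)) (XT.nd (nat_lit 78) (nat_lit 760) (nat_lit 0) (XT.lf (nat_lit 0) (nat_lit 4612955411) (nat_lit 836) (nat_lit 1337951346) (nat_lit 76) (nat_lit 2093405593) (nat_lit 319) (nat_lit 5) (nat_lit 330) (nat_lit 5) (nat_lit 320) (nat_lit 5) (nat_lit 430) (nat_lit 378) (nat_lit 332)) (XT.lf (nat_lit 0) (nat_lit 3777787618) (nat_lit 760) (nat_lit 3393540491) (nat_lit 836) (nat_lit 940789684) (nat_lit 309) (nat_lit 5) (nat_lit 319) (nat_lit 5) (nat_lit 320) (nat_lit 5) (nat_lit 431) (nat_lit 378) (nat_lit 331))))) (XT.nd (nat_lit 156) (nat_lit 1520) (nat_lit 0) (XT.nd (nat_lit 78) (nat_lit 0) (nat_lit 0) (XT.lf (nat_lit 0) (nat_lit 788383365) (nat_lit 760) (nat_lit 763605586) (nat_lit 836) (nat_lit 6629635901) (nat_lit 298) (nat_lit 5) (nat_lit 308) (nat_lit 5) (nat_lit 309) (nat_lit 5) (nat_lit 432) (nat_lit 378) (nat_lit 330)) (XT.lf (nat_lit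 0) (nat_lit 4083485748) (nat_lit 836) (nat_lit 2243416143) (nat_lit 76) (nat_lit 1925486985) (nat_lit 298) (nat_lit 5) (nat_lit 309) (nat_lit 5) (nat_lit 299) (nat_lit 5) (nat_lit 433) (nat_lit 378) (nat_lit 329))) (XT.nd (nat_lit 78) (nat_lit 760) (nat_lit 0) (XT.lf (nat_lit 0) (nat_lit 2999672316) (nat_lit 760) (nat_lit 3650973777) (nat_lit 836) (nat_lit 1674241405) (nat_lit 288) (nat_lit 5) (nat_lit 298) (nat_lit 5) (nat_lit 299) (nat_lit 5) (nat_lit 434) (nat_lit 378) (nat_lit 328)) (XT.nd (nat_lit 78) (nat_lit 684) (nat_lit 0) (XT.lf (nat_lit 0) (nat_lit 834767099) (nat_lit 836) (nat_lit 70522077) (nat_lit 76) (nat_lit 7493935761) (nat_lit 287) (nat_lit 5) (nat_lit 298) (nat_lit 5) (nat_lit 288) (nat_lit 5) (nat_lit 435) (nat_lit 378) (nat_lit 327)) (XT.lf (nat_lit 0) (nat_lit 3380057328) (nat_lit 760) (nat_lit 3183159853) (nat_lit 76) (nat_lit 1911459053) (nat_lit 278) (nat_lit 5) (nat_lit 288) (nat_lit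 5) (nat_lit 279) (nat_lit 5) (nat_lit 436) (nat_lit 378) (nat_lit 326)))))) (XT.nd (nat_lit 390) (nat_lit 2584) (nat_lit 0) (XT.nd (nat_lit 156) (nat_lit 1444) (nat_lit 0) (XT.nd (nat_lit 78) (nat_lit 0) (nat_lit 0) (XT.lf (nat_lit 0) (nat_lit 2188972672) (nat_lit 684) (nat_lit 3769890934) (nat_lit 760) (nat_lit 2593139216) (nat_lit 269) (nat_lit 5) (nat_lit 278) (nat_lit 5) (nat_lit 279) (nat_lit 5) (nat_lit 437) (nat_lit 378) (nat_lit 325)) (XT.lf (nat_lit 0) (nat_lit 7668122851) (nat_lit 684) (nat_lit 904873785) (nat_lit 760) (nat_lit 58222397) (nat_lit 269) (nat_lit 5) (nat_lit 278) (nat_lit 5) (nat_lit 279) (nat_lit 5) (nat_lit 438) (nat_lit 378) (nat_lit 324))) (XT.nd (nat_lit 78) (nat_lit 684) (nat_lit 0) (XT.lf (nat_lit 0) (nat_lit 2499982207) (nat_lit 760) (nat_lit 4180421629) (nat_lit 76) (nat_lit 2031190213) (nat_lit 259) (nat_lit 5) (nat_lit 269) (nat_lit 5) (nat_lit 260) (nat_lit 5) (nat_lit 439)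 (nat_lit 378) (nat_lit 323)) (XT.nd (nat_lit 78) (nat_lit 0) (nat_lit 0) (XT.lf (nat_lit 0) (nat_lit 1322198271) (nat_lit 684) (nat_lit 3770730914) (nat_lit 760) (nat_lit 3700969588) (nat_lit 250) (nat_lit 5) (nat_lit 259) (nat_lit 5) (nat_lit 260) (nat_lit 5) (nat_lit 440) (nat_lit 378) (nat_lit 322)) (XT.lf (nat_lit 0) (nat_lit 6948168707) (nat_lit 684) (nat_lit 781332096) (nat_lit 760) (nat_lit 1148530202) (nat_lit 250) (nat_lit 5) (nat_lit 259) (nat_lit 5) (nat_lit 260) (nat_lit 5) (nat_lit 441) (nat_lit 378) (nat_lit 321))))) (XT.nd (nat_lit 234) (nat_lit 1292) (nat_lit 0) (XT.nd (nat_lit 78) (nat_lit 608) (nat_lit 0) (XT.lf (nat_lit 0) (nat_lit 1439095866) (nat_lit 684) (nat_lit 5259674094) (nat_lit 76) (nat_lit 2264838669) (nat_lit 241) (nat_lit 5) (nat_lit 250) (nat_lit 5) (nat_lit 242) (nat_lit 5) (nat_lit 442) (nat_lit 378) (nat_lit 320)) (XT.nd (nat_lit 78) (nat_lit 0) (nat_lit 0) (XT.lf (nat_lit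 0) (nat_lit 374570848) (nat_lit 608) (nat_lit 3673731788) (nat_lit 684) (nat_lit 5002754956) (nat_lit 233) (nat_lit 5) (nat_lit 241) (nat_lit 5) (nat_lit 242) (nat_lit 5) (nat_lit 443) (nat_lit 378) (nat_lit 319)) (XT.lf (nat_lit 0) (nat_lit 6149678804) (nat_lit 608) (nat_lit 560275187) (nat_lit 684) (nat_lit 2430311789) (nat_lit 233) (nat_lit 5) (nat_lit 241) (nat_lit 5) (nat_lit 242) (nat_lit 5) (nat_lit 444) (nat_lit 378) (nat_lit 318)))) (XT.nd (nat_lit 78) (nat_lit 608) (nat_lit 0) (XT.lf (nat_lit 0) (nat_lit 191699239) (nat_lit 684) (nat_lit 6446860459) (nat_lit 76) (nat_lit 2592674992) (nat_lit 224) (nat_lit 5) (nat_lit 233) (nat_lit 5) (nat_lit 225) (nat_lit 5) (nat_lit 445) (nat_lit 378) (nat_lit 317)) (XT.nd (nat_lit 78) (nat_lit 608) (nat_lit 0) (XT.lf (nat_lit 0) (nat_lit 2823309355) (nat_lit 684) (nat_lit 671297441) (nat_lit 76) (nat_lit 5829315442) (nat_lit 224) (nat_lit 5) (nat_lit 233) (nat_lit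 5) (nat_lit 225) (nat_lit 5) (nat_lit 446) (nat_lit 378) (nat_lit 316)) (XT.lf (nat_lit 0) (nat_lit 5246317970) (nat_lit 608) (nat_lit 261726254) (nat_lit 684) (nat_lit 3910423739) (nat_lit 216) (nat_lit 5) (nat_lit 224) (nat_lit 5) (nat_lit 225) (nat_lit 5) (nat_lit 447) (nat_lit 378) (nat_lit 315))))))) (XT.nd (nat_lit 780) (nat_lit 3268) (nat_lit 0) (XT.nd (nat_lit 390) (nat_lit 1672) (nat_lit 0) (XT.nd (nat_lit 156) (nat_lit 1064) (nat_lit 0) (XT.nd (nat_lit 78) (nat_lit 76) (nat_lit 0) (XT.lf (nat_lit 0) (nat_lit 1737003836) (nat_lit 532) (nat_lit 6511751281) (nat_lit 608) (nat_lit 1266117856) (nat_lit 209) (nat_lit 5) (nat_lit 216) (nat_lit 5) (nat_lit 217) (nat_lit 5) (nat_lit 448) (nat_lit 378) (nat_lit 314)) (XT.lf (nat_lit 0) (nat_lit 1409125607) (nat_lit 608) (nat_lit 1845741687) (nat_lit 76) (nat_lit 6358230008) (nat_lit 208) (nat_lit 5) (nat_lit 216) (nat_lit 5) (nat_lit 209) (nat_lit 5) (nat_lit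 449) (nat_lit 378) (nat_lit 313))) (XT.nd (nat_lit 78) (nat_lit 532) (nat_lit 0) (XT.lf (nat_lit 0) (nat_lit 4116434116) (nat_lit 608) (nat_lit 5503929427) (nat_lit 76) (nat_lit 92858113) (nat_lit 201) (nat_lit 5) (nat_lit 209) (nat_lit 5) (nat_lit 202) (nat_lit 5) (nat_lit 450) (nat_lit 378) (nat_lit 312)) (XT.nd (nat_lit 78) (nat_lit 0) (nat_lit 0) (XT.lf (nat_lit 0) (nat_lit 538512556) (nat_lit 532) (nat_lit 6344752588) (nat_lit 608) (nat_lit 2931988757) (nat_lit 194) (nat_lit 5) (nat_lit 201) (nat_lit 5) (nat_lit 202) (nat_lit 5) (nat_lit 451) (nat_lit 378) (nat_lit 311)) (XT.lf (nat_lit 0) (nat_lit 6734430351) (nat_lit 532) (nat_lit 2976151036) (nat_lit 608) (nat_lit 208655108) (nat_lit 194) (nat_lit 5) (nat_lit 201) (nat_lit 5) (nat_lit 202) (nat_lit 5) (nat_lit 452) (nat_lit 378) (nat_lit 310))))) (XT.nd (nat_lit 156) (nat_lit 1064) (nat_lit 0) (XT.nd (nat_lit 78) (nat_lit 0) (nat_lit 0) (XT.lf (nat_lit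 0) (nat_lit 2526772547) (nat_lit 608) (nat_lit 7018193273) (nat_lit 76) (nat_lit 480185051) (nat_lit 186) (nat_lit 5) (nat_lit 194) (nat_lit 5) (nat_lit 187) (nat_lit 5) (nat_lit 453) (nat_lit 378) (nat_lit 309)) (XT.lf (nat_lit 0) (nat_lit 5324239635) (nat_lit 608) (nat_lit 830140180) (nat_lit 76) (nat_lit 3978585588) (nat_lit 186) (nat_lit 5) (nat_lit 194) (nat_lit 5) (nat_lit 187) (nat_lit 5) (nat_lit 454) (nat_lit 378) (nat_lit 308))) (XT.nd (nat_lit 78) (nat_lit 608) (nat_lit 0) (XT.lf (nat_lit 0) (nat_lit 5512919438) (nat_lit 456) (nat_lit 2670039262) (nat_lit 532) (nat_lit 2059883183) (nat_lit 180) (nat_lit 5) (nat_lit 186) (nat_lit 5) (nat_lit 187) (nat_lit 5) (nat_lit 455) (nat_lit 378) (nat_lit 307)) (XT.nd (nat_lit 78) (nat_lit 0) (nat_lit 0) (XT.lf (nat_lit 0) (nat_lit 725707407) (nat_lit 608) (nat_lit 8746531411) (nat_lit 76) (nat_lit 882761169) (nat_lit 172) (nat_lit 5) (nat_lit 180) (nat_lit 5)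 (nat_lit 173) (nat_lit 5) (nat_lit 456) (nat_lit 378) (nat_lit 306)) (XT.lf (nat_lit 0) (nat_lit 3558976700) (nat_lit 608) (nat_lit 2404030106) (nat_lit 76) (nat_lit 4505742193) (nat_lit 172) (nat_lit 5) (nat_lit 180) (nat_lit 5) (nat_lit 173) (nat_lit 5) (nat_lit 457) (nat_lit 378) (nat_lit 305)))))) (XT.nd (nat_lit 390) (nat_lit 1824) (nat_lit 0) (XT.nd (nat_lit 156) (nat_lit 988) (nat_lit 0) (XT.nd (nat_lit 78) (nat_lit 0) (nat_lit 0) (XT.lf (nat_lit 0) (nat_lit 4078147817) (nat_lit 456) (nat_lit 2367722088) (nat_lit 532) (nat_lit 4138974734) (nat_lit 166) (nat_lit 5) (nat_lit 172) (nat_lit 5) (nat_lit 173) (nat_lit 5) (nat_lit 458) (nat_lit 378) (nat_lit 304)) (XT.lf (nat_lit 0) (nat_lit 9385901537) (nat_lit 532) (nat_lit 29840412) (nat_lit 76) (nat_lit 1287622841) (nat_lit 166) (nat_lit 5) (nat_lit 173) (nat_lit 5) (nat_lit 167) (nat_lit 5) (nat_lit 459) (nat_lit 378) (nat_lit 303))) (XT.nd (nat_lit 78)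 (nat_lit 456) (nat_lit 0) (XT.lf (nat_lit 0) (nat_lit 1570078570) (nat_lit 532) (nat_lit 4226578655) (nat_lit 76) (nat_lit 5026804359) (nat_lit 159) (nat_lit 5) (nat_lit 166) (nat_lit 5) (nat_lit 160) (nat_lit 5) (nat_lit 460) (nat_lit 378) (nat_lit 302)) (XT.nd (nat_lit 78) (nat_lit 0) (nat_lit 0) (XT.lf (nat_lit 0) (nat_lit 2393009953) (nat_lit 456) (nat_lit 2091879888) (nat_lit 532) (nat_lit 6461163113) (nat_lit 153) (nat_lit 5) (nat_lit 159) (nat_lit 5) (nat_lit 160) (nat_lit 5) (nat_lit 461) (nat_lit 378) (nat_lit 301)) (XT.lf (nat_lit 0) (nat_lit 7469130532) (nat_lit 532) (nat_lit 1919859711) (nat_lit 76) (nat_lit 1681893042) (nat_lit 153) (nat_lit 5) (nat_lit 160) (nat_lit 5) (nat_lit 154) (nat_lit 5) (nat_lit 462) (nat_lit 378) (nat_lit 300))))) (XT.nd (nat_lit 234) (nat_lit 912) (nat_lit 0) (XT.nd (nat_lit 78) (nat_lit 456) (nat_lit 0) (XT.lf (nat_lit 0) (nat_lit 4856143893) (nat_lit 456) (nat_lit 5674480958)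 (nat_lit 532) (nat_lit 667243604) (nat_lit 147) (nat_lit 5) (nat_lit 153) (nat_lit 5) (nat_lit 154) (nat_lit 5) (nat_lit 463) (nat_lit 378) (nat_lit 299)) (XT.nd (nat_lit 78) (nat_lit 0) (nat_lit 0) (XT.lf (nat_lit 0) (nat_lit 417043174) (nat_lit 380) (nat_lit 1866367401) (nat_lit 456) (nat_lit 9043930753) (nat_lit 141) (nat_lit 5) (nat_lit 146) (nat_lit 5) (nat_lit 147) (nat_lit 5) (nat_lit 464) (nat_lit 378) (nat_lit 298)) (XT.lf (nat_lit 0) (nat_lit 5312583588) (nat_lit 456) (nat_lit 4119417582) (nat_lit 76) (nat_lit 2026754527) (nat_lit 141) (nat_lit 5) (nat_lit 147) (nat_lit 5) (nat_lit 142) (nat_lit 5) (nat_lit 465) (nat_lit 378) (nat_lit 297)))) (XT.nd (nat_lit 78) (nat_lit 456) (nat_lit 0) (XT.lf (nat_lit 0) (nat_lit 2792314015) (nat_lit 456) (nat_lit 5613547072) (nat_lit 532) (nat_lit 3186875724) (nat_lit 135) (nat_lit 5) (nat_lit 141) (nat_lit 5) (nat_lit 142) (nat_lit 5) (nat_lit 466) (nat_lit 378)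 (nat_lit 296)) (XT.nd (nat_lit 78) (nat_lit 456) (nat_lit 0) (XT.lf (nat_lit 0) (nat_lit 9859149878) (nat_lit 456) (nat_lit 1702804916) (nat_lit 532) (nat_lit 167432442) (nat_lit 135) (nat_lit 5) (nat_lit 141) (nat_lit 5) (nat_lit 142) (nat_lit 5) (nat_lit 467) (nat_lit 378) (nat_lit 295)) (XT.lf (nat_lit 0) (nat_lit 2896787936) (nat_lit 456) (nat_lit 6673964366) (nat_lit 76) (nat_lit 2297196848) (nat_lit 129) (nat_lit 5) (nat_lit 135) (nat_lit 5) (nat_lit 130) (nat_lit 5) (nat_lit 468) (nat_lit 378) (nat_lit 294))))))))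
noncomputable def xc92 : XT := (XT.nd (nat_lit 1560) (nat_lit 2280) (nat_lit 0) (XT.nd (nat_lit 780) (nat_lit 1672) (nat_lit 0) (XT.nd (nat_lit 390) (nat_lit 1064) (nat_lit 0) (XT.nd (nat_lit 156) (nat_lit 836) (nat_lit 0) (XT.nd (nat_lit 78) (nat_lit 0) (nat_lit 0) (XT.lf (nat_lit 0) (nat_lit 369426584) (nat_lit 380) (nat_lit 5650772539) (nat_lit 456) (nat_lit 5989066280) (nat_lit 124) (nat_lit 5) (nat_lit 129) (nat_lit 5) (nat_lit 130) (nat_lit 5) (nat_lit 469) (nat_lit 378) (nat_lit 293)) (XT.lf (nat_lit 0) (nat_lit 7605646354) (nat_lit 380) (nat_lit 1619318395) (nat_lit 456) (nat_lit 2928073547) (nat_lit 124) (nat_lit 5) (nat_lit 129) (nat_lit 5) (nat_lit 130) (nat_lit 5) (nat_lit 470) (nat_lit 378) (nat_lit 292))) (XT.nd (nat_lit 78) (nat_lit 380) (nat_lit 0) (XT.lf (nat_lit 0) (nat_lit 199670250) (nat_lit 456) (nat_lit 9633330135) (nat_lit 76) (nat_lit 2466507230) (nat_lit 118) (nat_lit 5) (nat_lit 124)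 (nat_lit 5) (nat_lit 119) (nat_lit 5) (nat_lit 471) (nat_lit 378) (nat_lit 291)) (XT.nd (nat_lit 78) (nat_lit 380) (nat_lit 0) (XT.lf (nat_lit 0) (nat_lit 3366846614) (nat_lit 456) (nat_lit 2431234495) (nat_lit 76) (nat_lit 6650124006) (nat_lit 118) (nat_lit 5) (nat_lit 124) (nat_lit 5) (nat_lit 119) (nat_lit 5) (nat_lit 472) (nat_lit 378) (nat_lit 290)) (XT.lf (nat_lit 0) (nat_lit 4942190778) (nat_lit 380) (nat_lit 1662368119) (nat_lit 456) (nat_lit 5995181246) (nat_lit 113) (nat_lit 5) (nat_lit 118) (nat_lit 5) (nat_lit 119) (nat_lit 5) (nat_lit 473) (nat_lit 378) (nat_lit 289))))) (XT.nd (nat_lit 156) (nat_lit 684) (nat_lit 0) (XT.nd (nat_lit 78) (nat_lit 380) (nat_lit 0) (XT.lf (nat_lit 0) (nat_lit 9915312434) (nat_lit 456) (nat_lit 312344009) (nat_lit 76) (nat_lit 2526490969) (nat_lit 113) (nat_lit 5) (nat_lit 119) (nat_lit 5) (nat_lit 114) (nat_lit 5) (nat_lit 474) (nat_lit 378) (nat_lit 288)) (XT.lf (nat_lit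 0) (nat_lit 409544249) (nat_lit 380) (nat_lit 5687098605) (nat_lit 76) (nat_lit 6814279581) (nat_lit 108) (nat_lit 5) (nat_lit 113) (nat_lit 5) (nat_lit 109) (nat_lit 5) (nat_lit 475) (nat_lit 378) (nat_lit 287))) (XT.nd (nat_lit 78) (nat_lit 304) (nat_lit 0) (XT.lf (nat_lit 0) (nat_lit 1812062237) (nat_lit 380) (nat_lit 1862551851) (nat_lit 456) (nat_lit 9396055739) (nat_lit 103) (nat_lit 5) (nat_lit 108) (nat_lit 5) (nat_lit 109) (nat_lit 5) (nat_lit 476) (nat_lit 378) (nat_lit 286)) (XT.nd (nat_lit 78) (nat_lit 304) (nat_lit 0) (XT.lf (nat_lit 0) (nat_lit 7035324976) (nat_lit 456) (nat_lit 3747957991) (nat_lit 76) (nat_lit 2449729133) (nat_lit 103) (nat_lit 5) (nat_lit 109) (nat_lit 5) (nat_lit 104) (nat_lit 5) (nat_lit 477) (nat_lit 378) (nat_lit 285)) (XT.lf (nat_lit 0) (nat_lit 3915445755) (nat_lit 304) (nat_lit 6562007907) (nat_lit 380) (nat_lit 2920870080) (nat_lit 99) (nat_lit 5) (nat_lit 103) (nat_lit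 5) (nat_lit 104) (nat_lit 5) (nat_lit 478) (nat_lit 378) (nat_lit 284)))))) (XT.nd (nat_lit 390) (nat_lit 608) (nat_lit 0) (XT.nd (nat_lit 156) (nat_lit 684) (nat_lit 0) (XT.nd (nat_lit 78) (nat_lit 304) (nat_lit 0) (XT.lf (nat_lit 0) (nat_lit 417785631) (nat_lit 380) (nat_lit 1822973915) (nat_lit 76) (nat_lit 11326097075) (nat_lit 98) (nat_lit 5) (nat_lit 103) (nat_lit 5) (nat_lit 99) (nat_lit 5) (nat_lit 479) (nat_lit 378) (nat_lit 283)) (XT.lf (nat_lit 0) (nat_lit 3814532176) (nat_lit 380) (nat_lit 7738612204) (nat_lit 76) (nat_lit 2184627290) (nat_lit 94) (nat_lit 5) (nat_lit 99) (nat_lit 5) (nat_lit 95) (nat_lit 5) (nat_lit 480) (nat_lit 378) (nat_lit 282))) (XT.nd (nat_lit 78) (nat_lit 380) (nat_lit 0) (XT.lf (nat_lit 0) (nat_lit 40212002) (nat_lit 304) (nat_lit 7243526960) (nat_lit 380) (nat_lit 6628281645) (nat_lit 90) (nat_lit 5) (nat_lit 94) (nat_lit 5) (nat_lit 95) (nat_lit 5) (nat_lit 481) (nat_lit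 378) (nat_lit 281)) (XT.nd (nat_lit 78) (nat_lit 380) (nat_lit 0) (XT.lf (nat_lit 0) (nat_lit 8043767381) (nat_lit 304) (nat_lit 2807820032) (nat_lit 380) (nat_lit 3237587933) (nat_lit 90) (nat_lit 5) (nat_lit 94) (nat_lit 5) (nat_lit 95) (nat_lit 5) (nat_lit 482) (nat_lit 378) (nat_lit 280)) (XT.lf (nat_lit 0) (nat_lit 219299508) (nat_lit 380) (nat_lit 12355201582) (nat_lit 76) (nat_lit 1695323597) (nat_lit 85) (nat_lit 5) (nat_lit 90) (nat_lit 5) (nat_lit 86) (nat_lit 5) (nat_lit 483) (nat_lit 378) (nat_lit 279))))) (XT.nd (nat_lit 156) (nat_lit 380) (nat_lit 0) (XT.nd (nat_lit 78) (nat_lit 228) (nat_lit 0) (XT.lf (nat_lit 0) (nat_lit 3739191050) (nat_lit 380) (nat_lit 4413257234) (nat_lit 76) (nat_lit 6300471999) (nat_lit 85) (nat_lit 5) (nat_lit 90) (nat_lit 5) (nat_lit 86) (nat_lit 5) (nat_lit 484) (nat_lit 378) (nat_lit 278)) (XT.lf (nat_lit 0) (nat_lit 3701285701) (nat_lit 228) (nat_lit 3630408045) (nat_lit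 304) (nat_lit 7307945296) (nat_lit 82) (nat_lit 5) (nat_lit 85) (nat_lit 5) (nat_lit 86) (nat_lit 5) (nat_lit 485) (nat_lit 378) (nat_lit 277))) (XT.nd (nat_lit 78) (nat_lit 380) (nat_lit 0) (XT.lf (nat_lit 0) (nat_lit 11010535731) (nat_lit 304) (nat_lit 2833038082) (nat_lit 76) (nat_lit 986233989) (nat_lit 82) (nat_lit 5) (nat_lit 86) (nat_lit 5) (nat_lit 83) (nat_lit 5) (nat_lit 486) (nat_lit 378) (nat_lit 276)) (XT.nd (nat_lit 78) (nat_lit 76) (nat_lit 0) (XT.lf (nat_lit 0) (nat_lit 5447563117) (nat_lit 304) (nat_lit 9353530087) (nat_lit 380) (nat_lit 221929265) (nat_lit 78) (nat_lit 5) (nat_lit 82) (nat_lit 5) (nat_lit 83) (nat_lit 5) (nat_lit 487) (nat_lit 378) (nat_lit 275)) (XT.lf (nat_lit 0) (nat_lit 3400063405) (nat_lit 380) (nat_lit 1344336402) (nat_lit 76) (nat_lit 10475300754) (nat_lit 77) (nat_lit 5) (nat_lit 82) (nat_lit 5) (nat_lit 78) (nat_lit 5) (nat_lit 488) (nat_lit 378) (nat_lit 274)))))))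 (XT.nd (nat_lit 780) (nat_lit 684) (nat_lit 0) (XT.nd (nat_lit 390) (nat_lit 760) (nat_lit 0) (XT.nd (nat_lit 156) (nat_lit 304) (nat_lit 0) (XT.nd (nat_lit 78) (nat_lit 304) (nat_lit 0) (XT.lf (nat_lit 0) (nat_lit 7109569163) (nat_lit 228) (nat_lit 7312735) (nat_lit 304) (nat_lit 8302898823) (nat_lit 74) (nat_lit 5) (nat_lit 77) (nat_lit 5) (nat_lit 78) (nat_lit 5) (nat_lit 489) (nat_lit 378) (nat_lit 273)) (XT.lf (nat_lit 0) (nat_lit 62807167) (nat_lit 304) (nat_lit 10865345249) (nat_lit 380) (nat_lit 4695312656) (nat_lit 70) (nat_lit 5) (nat_lit 74) (nat_lit 5) (nat_lit 75) (nat_lit 5) (nat_lit 490) (nat_lit 378) (nat_lit 272))) (XT.nd (nat_lit 78) (nat_lit 304) (nat_lit 0) (XT.lf (nat_lit 0) (nat_lit 8682379716) (nat_lit 304) (nat_lit 6168573885) (nat_lit 380) (nat_lit 979568208) (nat_lit 70) (nat_lit 5) (nat_lit 74) (nat_lit 5) (nat_lit 75) (nat_lit 5) (nat_lit 491) (nat_lit 378) (nat_lit 271)) (XT.nd (nat_lit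 78) (nat_lit 0) (nat_lit 0) (XT.lf (nat_lit 0) (nat_lit 1399611328) (nat_lit 228) (nat_lit 1362862488) (nat_lit 304) (nat_lit 13279108676) (nat_lit 66) (nat_lit 5) (nat_lit 69) (nat_lit 5) (nat_lit 70) (nat_lit 5) (nat_lit 492) (nat_lit 378) (nat_lit 270)) (XT.lf (nat_lit 0) (nat_lit 6617370803) (nat_lit 304) (nat_lit 6103698188) (nat_lit 76) (nat_lit 3534647814) (nat_lit 66) (nat_lit 5) (nat_lit 70) (nat_lit 5) (nat_lit 67) (nat_lit 5) (nat_lit 493) (nat_lit 378) (nat_lit 269))))) (XT.nd (nat_lit 156) (nat_lit 532) (nat_lit 0) (XT.nd (nat_lit 78) (nat_lit 0) (nat_lit 0) (XT.lf (nat_lit 0) (nat_lit 2597811160) (nat_lit 228) (nat_lit 7957697370) (nat_lit 304) (nat_lit 5918506857) (nat_lit 63) (nat_lit 5) (nat_lit 66) (nat_lit 5) (nat_lit 67) (nat_lit 5) (nat_lit 494) (nat_lit 378) (nat_lit 268)) (XT.lf (nat_lit 0) (nat_lit 11523727969) (nat_lit 228) (nat_lit 3070067721) (nat_lit 304) (nat_lit 2102460868) (nat_lit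 63) (nat_lit 5) (nat_lit 66) (nat_lit 5) (nat_lit 67) (nat_lit 5) (nat_lit 495) (nat_lit 378) (nat_lit 267))) (XT.nd (nat_lit 78) (nat_lit 228) (nat_lit 0) (XT.lf (nat_lit 0) (nat_lit 1783790543) (nat_lit 304) (nat_lit 13224934840) (nat_lit 76) (nat_lit 1913641738) (nat_lit 59) (nat_lit 5) (nat_lit 63) (nat_lit 5) (nat_lit 60) (nat_lit 5) (nat_lit 496) (nat_lit 378) (nat_lit 266)) (XT.nd (nat_lit 78) (nat_lit 228) (nat_lit 0) (XT.lf (nat_lit 0) (nat_lit 5755683834) (nat_lit 304) (nat_lit 4403964362) (nat_lit 76) (nat_lit 6992356478) (nat_lit 59) (nat_lit 5) (nat_lit 63) (nat_lit 5) (nat_lit 60) (nat_lit 5) (nat_lit 497) (nat_lit 378) (nat_lit 265)) (XT.lf (nat_lit 0) (nat_lit 4622599788) (nat_lit 228) (nat_lit 5195575885) (nat_lit 304) (nat_lit 7567840110) (nat_lit 56) (nat_lit 5) (nat_lit 59) (nat_lit 5) (nat_lit 60) (nat_lit 5) (nat_lit 498) (nat_lit 378) (nat_lit 264)))))) (XT.nd (nat_lit 390) (nat_lit 152)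 (nat_lit 0) (XT.nd (nat_lit 156) (nat_lit 228) (nat_lit 0) (XT.nd (nat_lit 78) (nat_lit 304) (nat_lit 0) (XT.lf (nat_lit 0) (nat_lit 13858147074) (nat_lit 228) (nat_lit 114637684) (nat_lit 304) (nat_lit 3651708951) (nat_lit 56) (nat_lit 5) (nat_lit 59) (nat_lit 5) (nat_lit 60) (nat_lit 5) (nat_lit 499) (nat_lit 378) (nat_lit 263)) (XT.lf (nat_lit 0) (nat_lit 388256654) (nat_lit 304) (nat_lit 12451411970) (nat_lit 76) (nat_lit 5027031712) (nat_lit 52) (nat_lit 5) (nat_lit 56) (nat_lit 5) (nat_lit 53) (nat_lit 5) (nat_lit 500) (nat_lit 378) (nat_lit 262))) (XT.nd (nat_lit 78) (nat_lit 228) (nat_lit 0) (XT.lf (nat_lit 0) (nat_lit 4468009356) (nat_lit 304) (nat_lit 3337712791) (nat_lit 76) (nat_lit 10307392221) (nat_lit 52) (nat_lit 5) (nat_lit 56) (nat_lit 5) (nat_lit 53) (nat_lit 5) (nat_lit 501) (nat_lit 378) (nat_lit 261)) (XT.nd (nat_lit 78) (nat_lit 0) (nat_lit 0) (XT.lf (nat_lit 0) (nat_lit 6006679249) (nat_lit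 228) (nat_lit 2643674976) (nat_lit 304) (nat_lit 9713686155) (nat_lit 49) (nat_lit 5) (nat_lit 52) (nat_lit 5) (nat_lit 53) (nat_lit 5) (nat_lit 502) (nat_lit 378) (nat_lit 260)) (XT.lf (nat_lit 0) (nat_lit 12937988360) (nat_lit 304) (nat_lit 3083944410) (nat_lit 76) (nat_lit 2597622864) (nat_lit 49) (nat_lit 5) (nat_lit 53) (nat_lit 5) (nat_lit 50) (nat_lit 5) (nat_lit 503) (nat_lit 378) (nat_lit 259))))) (XT.nd (nat_lit 49998) (nat_lit 0) (nat_lit 46968) (XT.nd (nat_lit 49842) (nat_lit 0) (nat_lit 47272) (XT.lf (nat_lit 0) (nat_lit 6411679488) (nat_lit 152) (nat_lit 10941258793) (nat_lit 228) (nat_lit 1526415149) (nat_lit 47) (nat_lit 5) (nat_lit 49) (nat_lit 5) (nat_lit 50) (nat_lit 5) (nat_lit 504) (nat_lit 378) (nat_lit 258)) (XT.nd (nat_lit 78) (nat_lit 76) (nat_lit 0) (XT.lf (nat_lit 0) (nat_lit 1555447223) (nat_lit 76) (nat_lit 111196019) (nat_lit 0) (nat_lit 1555447223) (nat_lit 670) (nat_lit 5) (nat_lit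 671) (nat_lit 0) (nat_lit 670) (nat_lit 4) (nat_lit 382) (nat_lit 379) (nat_lit 379)) (XT.lf (nat_lit 0) (nat_lit 2967539414) (nat_lit 76) (nat_lit 3214934778) (nat_lit 76) (nat_lit 264312061) (nat_lit 669) (nat_lit 4) (nat_lit 670) (nat_lit 5) (nat_lit 670) (nat_lit 4) (nat_lit 383) (nat_lit 379) (nat_lit 378)))) (XT.nd (nat_lit 78) (nat_lit 228) (nat_lit 0) (XT.lf (nat_lit 0) (nat_lit 2750919805) (nat_lit 152) (nat_lit 286532080) (nat_lit 76) (nat_lit 3413245643) (nat_lit 668) (nat_lit 5) (nat_lit 670) (nat_lit 5) (nat_lit 669) (nat_lit 4) (nat_lit 384) (nat_lit 379) (nat_lit 377)) (XT.nd (nat_lit 78) (nat_lit 76) (nat_lit 0) (XT.lf (nat_lit 0) (nat_lit 2965230809) (nat_lit 152) (nat_lit 2799455990) (nat_lit 228) (nat_lit 691203758) (nat_lit 666) (nat_lit 5) (nat_lit 668) (nat_lit 5) (nat_lit 669) (nat_lit 4) (nat_lit 385) (nat_lit 379) (nat_lit 376)) (XT.lf (nat_lit 0) (nat_lit 2271481829) (nat_lit 228) (nat_lit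 233446471) (nat_lit 76) (nat_lit 3957518973) (nat_lit 665) (nat_lit 5) (nat_lit 668) (nat_lit 5) (nat_lit 666) (nat_lit 5) (nat_lit 386) (nat_lit 379) (nat_lit 375))))))))
noncomputable def xc93 : XT := (XT.nd (nat_lit 1638) (nat_lit 17176) (nat_lit 0) (XT.nd (nat_lit 780) (nat_lit 5548) (nat_lit 0) (XT.nd (nat_lit 390) (nat_lit 1748) (nat_lit 0) (XT.nd (nat_lit 156) (nat_lit 760) (nat_lit 0) (XT.nd (nat_lit 78) (nat_lit 76) (nat_lit 0) (XT.lf (nat_lit 0) (nat_lit 3082842915) (nat_lit 228) (nat_lit 2146040168) (nat_lit 304) (nat_lit 1241335922) (nat_lit 662) (nat_lit 5) (nat_lit 665) (nat_lit 5) (nat_lit 666) (nat_lit 5) (nat_lit 387) (nat_lit 379) (nat_lit 374)) (XT.lf (nat_lit 0) (nat_lit 1671025632) (nat_lit 304) (nat_lit 63683057) (nat_lit 76) (nat_lit 4744736543) (nat_lit 661) (nat_lit 5) (nat_lit 665) (nat_lit 5) (nat_lit 662) (nat_lit 5) (nat_lit 388) (nat_lit 379) (nat_lit 373))) (XT.nd (nat_lit 78)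 (nat_lit 456) (nat_lit 0) (XT.lf (nat_lit 0) (nat_lit 3319936034) (nat_lit 304) (nat_lit 1253452361) (nat_lit 380) (nat_lit 1916401565) (nat_lit 657) (nat_lit 5) (nat_lit 661) (nat_lit 5) (nat_lit 662) (nat_lit 5) (nat_lit 389) (nat_lit 379) (nat_lit 372)) (XT.nd (nat_lit 78) (nat_lit 0) (nat_lit 0) (XT.lf (nat_lit 0) (nat_lit 225380288) (nat_lit 380) (nat_lit 723845437) (nat_lit 456) (nat_lit 5552458245) (nat_lit 651) (nat_lit 5) (nat_lit 656) (nat_lit 5) (nat_lit 657) (nat_lit 5) (nat_lit 390) (nat_lit 379) (nat_lit 371)) (XT.lf (nat_lit 0) (nat_lit 3676287118) (nat_lit 380) (nat_lit 120007132) (nat_lit 456) (nat_lit 2718334284) (nat_lit 651) (nat_lit 5) (nat_lit 656) (nat_lit 5) (nat_lit 657) (nat_lit 5) (nat_lit 391) (nat_lit 379) (nat_lit 370))))) (XT.nd (nat_lit 156) (nat_lit 1216) (nat_lit 0) (XT.nd (nat_lit 78) (nat_lit 0) (nat_lit 0) (XT.lf (nat_lit 0) (nat_lit 107211162) (nat_lit 532) (nat_lit 5899578149)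 (nat_lit 76) (nat_lit 522339667) (nat_lit 644) (nat_lit 5) (nat_lit 651) (nat_lit 5) (nat_lit 645) (nat_lit 5) (nat_lit 392) (nat_lit 379) (nat_lit 369)) (XT.lf (nat_lit 0) (nat_lit 2903610783) (nat_lit 532) (nat_lit 2401037127) (nat_lit 76) (nat_lit 1239955565) (nat_lit 644) (nat_lit 5) (nat_lit 651) (nat_lit 5) (nat_lit 645) (nat_lit 5) (nat_lit 393) (nat_lit 379) (nat_lit 368))) (XT.nd (nat_lit 78) (nat_lit 684) (nat_lit 0) (XT.lf (nat_lit 0) (nat_lit 1139427417) (nat_lit 532) (nat_lit 4556007021) (nat_lit 608) (nat_lit 866220202) (nat_lit 637) (nat_lit 5) (nat_lit 644) (nat_lit 5) (nat_lit 645) (nat_lit 5) (nat_lit 394) (nat_lit 379) (nat_lit 367)) (XT.nd (nat_lit 78) (nat_lit 608) (nat_lit 0) (XT.lf (nat_lit 0) (nat_lit 1887162120) (nat_lit 608) (nat_lit 1851993376) (nat_lit 76) (nat_lit 2840713714) (nat_lit 636) (nat_lit 5) (nat_lit 644) (nat_lit 5) (nat_lit 637) (nat_lit 5) (nat_lit 395) (nat_lit 379)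 (nat_lit 366)) (XT.lf (nat_lit 0) (nat_lit 1764244892) (nat_lit 608) (nat_lit 2865208797) (nat_lit 684) (nat_lit 1970024867) (nat_lit 628) (nat_lit 5) (nat_lit 636) (nat_lit 5) (nat_lit 637) (nat_lit 5) (nat_lit 396) (nat_lit 379) (nat_lit 365)))))) (XT.nd (nat_lit 390) (nat_lit 3116) (nat_lit 0) (XT.nd (nat_lit 156) (nat_lit 1672) (nat_lit 0) (XT.nd (nat_lit 78) (nat_lit 684) (nat_lit 0) (XT.lf (nat_lit 0) (nat_lit 743546521) (nat_lit 684) (nat_lit 1190084482) (nat_lit 76) (nat_lit 4686855580) (nat_lit 627) (nat_lit 5) (nat_lit 636) (nat_lit 5) (nat_lit 628) (nat_lit 5) (nat_lit 397) (nat_lit 379) (nat_lit 364)) (XT.lf (nat_lit 0) (nat_lit 2505186416) (nat_lit 684) (nat_lit 931909154) (nat_lit 760) (nat_lit 3205567769) (nat_lit 618) (nat_lit 5) (nat_lit 627) (nat_lit 5) (nat_lit 628) (nat_lit 5) (nat_lit 398) (nat_lit 379) (nat_lit 363))) (XT.nd (nat_lit 78) (nat_lit 1672) (nat_lit 0) (XT.lf (nat_lit 0) (nat_lit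 6130052785) (nat_lit 760) (nat_lit 419025906) (nat_lit 76) (nat_lit 117343904) (nat_lit 618) (nat_lit 5) (nat_lit 628) (nat_lit 5) (nat_lit 619) (nat_lit 5) (nat_lit 399) (nat_lit 379) (nat_lit 362)) (XT.nd (nat_lit 78) (nat_lit 836) (nat_lit 0) (XT.lf (nat_lit 0) (nat_lit 2123464144) (nat_lit 836) (nat_lit 3336448027) (nat_lit 76) (nat_lit 1231190265) (nat_lit 607) (nat_lit 5) (nat_lit 618) (nat_lit 5) (nat_lit 608) (nat_lit 5) (nat_lit 400) (nat_lit 379) (nat_lit 361)) (XT.lf (nat_lit 0) (nat_lit 452145506) (nat_lit 836) (nat_lit 4321577396) (nat_lit 912) (nat_lit 1943640704) (nat_lit 596) (nat_lit 5) (nat_lit 607) (nat_lit 5) (nat_lit 608) (nat_lit 5) (nat_lit 401) (nat_lit 379) (nat_lit 360))))) (XT.nd (nat_lit 234) (nat_lit 2128) (nat_lit 0) (XT.nd (nat_lit 78) (nat_lit 912) (nat_lit 0) (XT.lf (nat_lit 0) (nat_lit 684877557) (nat_lit 912) (nat_lit 2430921724) (nat_lit 76) (nat_lit 3629067540) (nat_lit 595)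 (nat_lit 5) (nat_lit 607) (nat_lit 5) (nat_lit 596) (nat_lit 5) (nat_lit 402) (nat_lit 379) (nat_lit 359)) (XT.nd (nat_lit 78) (nat_lit 0) (nat_lit 0) (XT.lf (nat_lit 0) (nat_lit 1442926242) (nat_lit 912) (nat_lit 1846715601) (nat_lit 988) (nat_lit 3484071427) (nat_lit 583) (nat_lit 5) (nat_lit 595) (nat_lit 5) (nat_lit 596) (nat_lit 5) (nat_lit 403) (nat_lit 379) (nat_lit 358)) (XT.lf (nat_lit 0) (nat_lit 5384300295) (nat_lit 912) (nat_lit 519714007) (nat_lit 988) (nat_lit 900015364) (nat_lit 583) (nat_lit 5) (nat_lit 595) (nat_lit 5) (nat_lit 596) (nat_lit 5) (nat_lit 404) (nat_lit 379) (nat_lit 357)))) (XT.nd (nat_lit 78) (nat_lit 1064) (nat_lit 0) (XT.lf (nat_lit 0) (nat_lit 1677132306) (nat_lit 1064) (nat_lit 4292462039) (nat_lit 76) (nat_lit 865890753) (nat_lit 569) (nat_lit 5) (nat_lit 583) (nat_lit 5) (nat_lit 570) (nat_lit 5) (nat_lit 405) (nat_lit 379) (nat_lit 356)) (XT.nd (nat_lit 78) (nat_lit 1064)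 (nat_lit 0) (XT.lf (nat_lit 0) (nat_lit 4249701447) (nat_lit 1064) (nat_lit 316441550) (nat_lit 76) (nat_lit 2302229845) (nat_lit 569) (nat_lit 5) (nat_lit 583) (nat_lit 5) (nat_lit 570) (nat_lit 5) (nat_lit 406) (nat_lit 379) (nat_lit 355)) (XT.lf (nat_lit 0) (nat_lit 3745206122) (nat_lit 1064) (nat_lit 3096838501) (nat_lit 1140) (nat_lit 60547243) (nat_lit 555) (nat_lit 5) (nat_lit 569) (nat_lit 5) (nat_lit 570) (nat_lit 5) (nat_lit 407) (nat_lit 379) (nat_lit 354))))))) (XT.nd (nat_lit 780) (nat_lit 8892) (nat_lit 0) (XT.nd (nat_lit 390) (nat_lit 4484) (nat_lit 0) (XT.nd (nat_lit 156) (nat_lit 2584) (nat_lit 0) (XT.nd (nat_lit 78) (nat_lit 0) (nat_lit 0) (XT.lf (nat_lit 0) (nat_lit 906747053) (nat_lit 1140) (nat_lit 1561012631) (nat_lit 1216) (nat_lit 4470394101) (nat_lit 539) (nat_lit 5) (nat_lit 554) (nat_lit 5) (nat_lit 555) (nat_lit 5) (nat_lit 408) (nat_lit 379) (nat_lit 353)) (XT.lf (nat_lit 0) (nat_lit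 5012493549) (nat_lit 1216) (nat_lit 1924046791) (nat_lit 76) (nat_lit 38582842) (nat_lit 539) (nat_lit 5) (nat_lit 555) (nat_lit 5) (nat_lit 540) (nat_lit 5) (nat_lit 409) (nat_lit 379) (nat_lit 352))) (XT.nd (nat_lit 78) (nat_lit 1292) (nat_lit 0) (XT.lf (nat_lit 0) (nat_lit 558522899) (nat_lit 1292) (nat_lit 4776161970) (nat_lit 76) (nat_lit 1678685206) (nat_lit 522) (nat_lit 5) (nat_lit 539) (nat_lit 5) (nat_lit 523) (nat_lit 5) (nat_lit 410) (nat_lit 379) (nat_lit 351)) (XT.nd (nat_lit 78) (nat_lit 1292) (nat_lit 0) (XT.lf (nat_lit 0) (nat_lit 3063604262) (nat_lit 1292) (nat_lit 601451060) (nat_lit 76) (nat_lit 3387906915) (nat_lit 522) (nat_lit 5) (nat_lit 539) (nat_lit 5) (nat_lit 523) (nat_lit 5) (nat_lit 411) (nat_lit 379) (nat_lit 350)) (XT.lf (nat_lit 0) (nat_lit 3661626574) (nat_lit 1292) (nat_lit 1928742184) (nat_lit 1368) (nat_lit 1503580660) (nat_lit 505) (nat_lit 5) (nat_lit 522) (nat_lit 5) (nat_lit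 523) (nat_lit 5) (nat_lit 412) (nat_lit 379) (nat_lit 349))))) (XT.nd (nat_lit 156) (nat_lit 3040) (nat_lit 0) (XT.nd (nat_lit 78) (nat_lit 0) (nat_lit 0) (XT.lf (nat_lit 0) (nat_lit 843186287) (nat_lit 1368) (nat_lit 132907978) (nat_lit 1444) (nat_lit 6160407217) (nat_lit 486) (nat_lit 5) (nat_lit 504) (nat_lit 5) (nat_lit 505) (nat_lit 5) (nat_lit 413) (nat_lit 379) (nat_lit 348)) (XT.lf (nat_lit 0) (nat_lit 3468427786) (nat_lit 1444) (nat_lit 1994259266) (nat_lit 76) (nat_lit 1717387597) (nat_lit 486) (nat_lit 5) (nat_lit 505) (nat_lit 5) (nat_lit 487) (nat_lit 5) (nat_lit 414) (nat_lit 379) (nat_lit 347))) (XT.nd (nat_lit 78) (nat_lit 1596) (nat_lit 0) (XT.lf (nat_lit 0) (nat_lit 2377543291) (nat_lit 1444) (nat_lit 3599346145) (nat_lit 1520) (nat_lit 1248336368) (nat_lit 467) (nat_lit 5) (nat_lit 486) (nat_lit 5) (nat_lit 487) (nat_lit 5) (nat_lit 415) (nat_lit 379) (nat_lit 346)) (XT.nd (nat_lit 78) (nat_lit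 1520) (nat_lit 0) (XT.lf (nat_lit 0) (nat_lit 1211437883) (nat_lit 1520) (nat_lit 459435725) (nat_lit 76) (nat_lit 5600997549) (nat_lit 466) (nat_lit 5) (nat_lit 486) (nat_lit 5) (nat_lit 467) (nat_lit 5) (nat_lit 416) (nat_lit 379) (nat_lit 345)) (XT.lf (nat_lit 0) (nat_lit 3683263604) (nat_lit 1596) (nat_lit 3304028862) (nat_lit 76) (nat_lit 332430796) (nat_lit 446) (nat_lit 5) (nat_lit 467) (nat_lit 5) (nat_lit 447) (nat_lit 5) (nat_lit 417) (nat_lit 379) (nat_lit 344)))))) (XT.nd (nat_lit 390) (nat_lit 3724) (nat_lit 0) (XT.nd (nat_lit 156) (nat_lit 3496) (nat_lit 0) (XT.nd (nat_lit 78) (nat_lit 76) (nat_lit 0) (XT.lf (nat_lit 0) (nat_lit 1178635705) (nat_lit 1596) (nat_lit 4999704440) (nat_lit 1672) (nat_lit 1190745682) (nat_lit 425) (nat_lit 5) (nat_lit 446) (nat_lit 5) (nat_lit 447) (nat_lit 5) (nat_lit 418) (nat_lit 379) (nat_lit 343)) (XT.lf (nat_lit 0) (nat_lit 1261409851) (nat_lit 1672) (nat_lit 1676058869)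 (nat_lit 76) (nat_lit 4482333602) (nat_lit 424) (nat_lit 5) (nat_lit 446) (nat_lit 5) (nat_lit 425) (nat_lit 5) (nat_lit 419) (nat_lit 379) (nat_lit 342))) (XT.nd (nat_lit 78) (nat_lit 1824) (nat_lit 0) (XT.lf (nat_lit 0) (nat_lit 2915645551) (nat_lit 1672) (nat_lit 803208508) (nat_lit 1748) (nat_lit 3753105872) (nat_lit 402) (nat_lit 5) (nat_lit 424) (nat_lit 5) (nat_lit 425) (nat_lit 5) (nat_lit 420) (nat_lit 379) (nat_lit 341)) (XT.nd (nat_lit 78) (nat_lit 76) (nat_lit 0) (XT.lf (nat_lit 0) (nat_lit 44545395) (nat_lit 1748) (nat_lit 6155333624) (nat_lit 1824) (nat_lit 1325820478) (nat_lit 379) (nat_lit 5) (nat_lit 402) (nat_lit 5) (nat_lit 403) (nat_lit 5) (nat_lit 421) (nat_lit 379) (nat_lit 340)) (XT.lf (nat_lit 0) (nat_lit 1125219032) (nat_lit 1824) (nat_lit 2838064736) (nat_lit 76) (nat_lit 3617301311) (nat_lit 378) (nat_lit 5) (nat_lit 402) (nat_lit 5) (nat_lit 379) (nat_lit 5) (nat_lit 422) (nat_lit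 379) (nat_lit 339))))) (XT.nd (nat_lit 234) (nat_lit 1748) (nat_lit 0) (XT.nd (nat_lit 78) (nat_lit 988) (nat_lit 0) (XT.lf (nat_lit 0) (nat_lit 1870144791) (nat_lit 988) (nat_lit 1704632770) (nat_lit 1064) (nat_lit 4062296380) (nat_lit 365) (nat_lit 5) (nat_lit 378) (nat_lit 5) (nat_lit 379) (nat_lit 5) (nat_lit 423) (nat_lit 379) (nat_lit 338)) (XT.nd (nat_lit 78) (nat_lit 988) (nat_lit 0) (XT.lf (nat_lit 0) (nat_lit 6052088011) (nat_lit 1064) (nat_lit 1031460149) (nat_lit 76) (nat_lit 611594555) (nat_lit 365) (nat_lit 5) (nat_lit 379) (nat_lit 5) (nat_lit 366) (nat_lit 5) (nat_lit 424) (nat_lit 379) (nat_lit 337)) (XT.lf (nat_lit 0) (nat_lit 806172815) (nat_lit 988) (nat_lit 3965920433) (nat_lit 76) (nat_lit 2982348606) (nat_lit 352) (nat_lit 5) (nat_lit 365) (nat_lit 5) (nat_lit 353) (nat_lit 5) (nat_lit 425) (nat_lit 379) (nat_lit 336)))) (XT.nd (nat_lit 78) (nat_lit 912) (nat_lit 0) (XT.lf (nat_lit 0)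 (nat_lit 860890453) (nat_lit 836) (nat_lit 2390904180) (nat_lit 912) (nat_lit 4563550816) (nat_lit 341) (nat_lit 5) (nat_lit 352) (nat_lit 5) (nat_lit 353) (nat_lit 5) (nat_lit 426) (nat_lit 379) (nat_lit 335)) (XT.nd (nat_lit 78) (nat_lit 912) (nat_lit 0) (XT.lf (nat_lit 0) (nat_lit 5730758390) (nat_lit 912) (nat_lit 2083514051) (nat_lit 76) (nat_lit 63529506) (nat_lit 341) (nat_lit 5) (nat_lit 353) (nat_lit 5) (nat_lit 342) (nat_lit 5) (nat_lit 427) (nat_lit 379) (nat_lit 334)) (XT.lf (nat_lit 0) (nat_lit 306207828) (nat_lit 912) (nat_lit 5080415431) (nat_lit 76) (nat_lit 2555013925) (nat_lit 329) (nat_lit 5) (nat_lit 341) (nat_lit 5) (nat_lit 330) (nat_lit 5) (nat_lit 428) (nat_lit 379) (nat_lit 333))))))))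
noncomputable def xc94 : XT := (XT.nd (nat_lit 1638) (nat_lit 6384) (nat_lit 0) (XT.nd (nat_lit 780) (nat_lit 4560) (nat_lit 0) (XT.nd (nat_lit 390) (nat_lit 2280) (nat_lit 0) (XT.nd (nat_lit 156) (nat_lit 1596) (nat_lit 0) (XT.nd (nat_lit 78) (nat_lit 760) (nat_lit 0) (XT.lf (nat_lit 0) (nat_lit 2752349965) (nat_lit 912) (nat_lit 131262937) (nat_lit 76) (nat_lit 5123422964) (nat_lit 329) (nat_lit 5) (nat_lit 341) (nat_lit 5) (nat_lit 330) (nat_lit 5) (nat_lit 429) (nat_lit 379) (nat_lit 332)) (XT.lf (nat_lit 0) (nat_lit 4938925073) (nat_lit 760) (nat_lit 299844582) (nat_lit 836) (nat_lit 2835167410) (nat_lit 319) (nat_lit 5) (nat_lit 329) (nat_lit 5) (nat_lit 330) (nat_lit 5) (nat_lit 430) (nat_lit 379) (nat_lit 331))) (XT.nd (nat_lit 78) (nat_lit 836) (nat_lit 0) (XT.lf (nat_lit 0) (nat_lit 1937121342) (nat_lit 760) (nat_lit 5826220439) (nat_lit 836) (nat_lit 379087239) (nat_lit 309) (nat_lit 5) (nat_lit 319)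 (nat_lit 5) (nat_lit 320) (nat_lit 5) (nat_lit 431) (nat_lit 379) (nat_lit 330)) (XT.nd (nat_lit 78) (nat_lit 760) (nat_lit 0) (XT.lf (nat_lit 0) (nat_lit 2081414756) (nat_lit 836) (nat_lit 1118124864) (nat_lit 76) (nat_lit 5012831813) (nat_lit 308) (nat_lit 5) (nat_lit 319) (nat_lit 5) (nat_lit 309) (nat_lit 5) (nat_lit 432) (nat_lit 379) (nat_lit 329)) (XT.lf (nat_lit 0) (nat_lit 4079123990) (nat_lit 760) (nat_lit 494221798) (nat_lit 836) (nat_lit 3710590879) (nat_lit 298) (nat_lit 5) (nat_lit 308) (nat_lit 5) (nat_lit 309) (nat_lit 5) (nat_lit 433) (nat_lit 379) (nat_lit 328))))) (XT.nd (nat_lit 156) (nat_lit 1444) (nat_lit 0) (XT.nd (nat_lit 78) (nat_lit 76) (nat_lit 0) (XT.lf (nat_lit 0) (nat_lit 993813761) (nat_lit 760) (nat_lit 6111289526) (nat_lit 836) (nat_lit 1252049762) (nat_lit 288) (nat_lit 5) (nat_lit 298) (nat_lit 5) (nat_lit 299) (nat_lit 5) (nat_lit 434) (nat_lit 379) (nat_lit 327)) (XT.lf (nat_lit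 0) (nat_lit 1232354290) (nat_lit 836) (nat_lit 2132873141) (nat_lit 76) (nat_lit 5066598906) (nat_lit 287) (nat_lit 5) (nat_lit 298) (nat_lit 5) (nat_lit 288) (nat_lit 5) (nat_lit 435) (nat_lit 379) (nat_lit 326))) (XT.nd (nat_lit 78) (nat_lit 760) (nat_lit 0) (XT.lf (nat_lit 0) (nat_lit 3193240198) (nat_lit 684) (nat_lit 539428786) (nat_lit 760) (nat_lit 4775517303) (nat_lit 278) (nat_lit 5) (nat_lit 287) (nat_lit 5) (nat_lit 288) (nat_lit 5) (nat_lit 436) (nat_lit 379) (nat_lit 325)) (XT.nd (nat_lit 78) (nat_lit 76) (nat_lit 0) (XT.lf (nat_lit 0) (nat_lit 10833919) (nat_lit 684) (nat_lit 6264518309) (nat_lit 760) (nat_lit 2310892071) (nat_lit 269) (nat_lit 5) (nat_lit 278) (nat_lit 5) (nat_lit 279) (nat_lit 5) (nat_lit 437) (nat_lit 379) (nat_lit 324)) (XT.lf (nat_lit 0) (nat_lit 202703302) (nat_lit 760) (nat_lit 3198331961) (nat_lit 76) (nat_lit 5264772439) (nat_lit 268) (nat_lit 5) (nat_lit 278) (nat_lit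 5) (nat_lit 269) (nat_lit 5) (nat_lit 438) (nat_lit 379) (nat_lit 323)))))) (XT.nd (nat_lit 390) (nat_lit 2508) (nat_lit 0) (XT.nd (nat_lit 156) (nat_lit 1368) (nat_lit 0) (XT.nd (nat_lit 78) (nat_lit 0) (nat_lit 0) (XT.lf (nat_lit 0) (nat_lit 2258218615) (nat_lit 684) (nat_lit 455693717) (nat_lit 760) (nat_lit 6033195912) (nat_lit 259) (nat_lit 5) (nat_lit 268) (nat_lit 5) (nat_lit 269) (nat_lit 5) (nat_lit 439) (nat_lit 379) (nat_lit 322)) (XT.lf (nat_lit 0) (nat_lit 5277491526) (nat_lit 760) (nat_lit 1021839947) (nat_lit 76) (nat_lit 2530677131) (nat_lit 259) (nat_lit 5) (nat_lit 269) (nat_lit 5) (nat_lit 260) (nat_lit 5) (nat_lit 440) (nat_lit 379) (nat_lit 321))) (XT.nd (nat_lit 78) (nat_lit 684) (nat_lit 0) (XT.lf (nat_lit 0) (nat_lit 4569502153) (nat_lit 684) (nat_lit 3320226668) (nat_lit 760) (nat_lit 1024906820) (nat_lit 250) (nat_lit 5) (nat_lit 259) (nat_lit 5) (nat_lit 260) (nat_lit 5) (nat_lit 441)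 (nat_lit 379) (nat_lit 320)) (XT.nd (nat_lit 78) (nat_lit 0) (nat_lit 0) (XT.lf (nat_lit 0) (nat_lit 1249798404) (nat_lit 608) (nat_lit 262978123) (nat_lit 684) (nat_lit 7488394915) (nat_lit 241) (nat_lit 5) (nat_lit 249) (nat_lit 5) (nat_lit 250) (nat_lit 5) (nat_lit 442) (nat_lit 379) (nat_lit 319)) (XT.lf (nat_lit 0) (nat_lit 4100638570) (nat_lit 684) (nat_lit 2141398900) (nat_lit 76) (nat_lit 2847017481) (nat_lit 241) (nat_lit 5) (nat_lit 250) (nat_lit 5) (nat_lit 242) (nat_lit 5) (nat_lit 443) (nat_lit 379) (nat_lit 318))))) (XT.nd (nat_lit 234) (nat_lit 1216) (nat_lit 0) (XT.nd (nat_lit 78) (nat_lit 684) (nat_lit 0) (XT.lf (nat_lit 0) (nat_lit 3584323911) (nat_lit 608) (nat_lit 3146874012) (nat_lit 684) (nat_lit 2447694556) (nat_lit 233) (nat_lit 5) (nat_lit 241) (nat_lit 5) (nat_lit 242) (nat_lit 5) (nat_lit 444) (nat_lit 379) (nat_lit 317)) (XT.nd (nat_lit 78) (nat_lit 0) (nat_lit 0) (XT.lf (nat_lit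 0) (nat_lit 123554424) (nat_lit 684) (nat_lit 9128738562) (nat_lit 76) (nat_lit 18597670) (nat_lit 224) (nat_lit 5) (nat_lit 233) (nat_lit 5) (nat_lit 225) (nat_lit 5) (nat_lit 445) (nat_lit 379) (nat_lit 316)) (XT.lf (nat_lit 0) (nat_lit 2738545715) (nat_lit 684) (nat_lit 3374098945) (nat_lit 76) (nat_lit 3251272988) (nat_lit 224) (nat_lit 5) (nat_lit 233) (nat_lit 5) (nat_lit 225) (nat_lit 5) (nat_lit 446) (nat_lit 379) (nat_lit 315)))) (XT.nd (nat_lit 78) (nat_lit 608) (nat_lit 0) (XT.lf (nat_lit 0) (nat_lit 2486811911) (nat_lit 608) (nat_lit 2902259165) (nat_lit 684) (nat_lit 4070083417) (nat_lit 216) (nat_lit 5) (nat_lit 224) (nat_lit 5) (nat_lit 225) (nat_lit 5) (nat_lit 447) (nat_lit 379) (nat_lit 314)) (XT.nd (nat_lit 78) (nat_lit 608) (nat_lit 0) (XT.lf (nat_lit 0) (nat_lit 8085226554) (nat_lit 684) (nat_lit 1089505131) (nat_lit 76) (nat_lit 381725719) (nat_lit 216) (nat_lit 5) (nat_lit 225) (nat_lit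 5) (nat_lit 217) (nat_lit 5) (nat_lit 448) (nat_lit 379) (nat_lit 313)) (XT.lf (nat_lit 0) (nat_lit 1183424656) (nat_lit 608) (nat_lit 4747841492) (nat_lit 76) (nat_lit 3723914309) (nat_lit 208) (nat_lit 5) (nat_lit 216) (nat_lit 5) (nat_lit 209) (nat_lit 5) (nat_lit 449) (nat_lit 379) (nat_lit 312))))))) (XT.nd (nat_lit 780) (nat_lit 3192) (nat_lit 0) (XT.nd (nat_lit 390) (nat_lit 1520) (nat_lit 0) (XT.nd (nat_lit 156) (nat_lit 1140) (nat_lit 0) (XT.nd (nat_lit 78) (nat_lit 0) (nat_lit 0) (XT.lf (nat_lit 0) (nat_lit 1248621473) (nat_lit 532) (nat_lit 2606526269) (nat_lit 608) (nat_lit 5900875178) (nat_lit 201) (nat_lit 5) (nat_lit 208) (nat_lit 5) (nat_lit 209) (nat_lit 5) (nat_lit 450) (nat_lit 379) (nat_lit 311)) (XT.lf (nat_lit 0) (nat_lit 6585958546) (nat_lit 608) (nat_lit 2475608590) (nat_lit 76) (nat_lit 797214710) (nat_lit 201) (nat_lit 5) (nat_lit 209) (nat_lit 5) (nat_lit 202) (nat_lit 5) (nat_lit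 451) (nat_lit 379) (nat_lit 310))) (XT.nd (nat_lit 78) (nat_lit 608) (nat_lit 0) (XT.lf (nat_lit 0) (nat_lit 3667034868) (nat_lit 532) (nat_lit 5714526081) (nat_lit 608) (nat_lit 581843921) (nat_lit 194) (nat_lit 5) (nat_lit 201) (nat_lit 5) (nat_lit 202) (nat_lit 5) (nat_lit 452) (nat_lit 379) (nat_lit 309)) (XT.nd (nat_lit 78) (nat_lit 532) (nat_lit 0) (XT.lf (nat_lit 0) (nat_lit 2120544409) (nat_lit 608) (nat_lit 158623640) (nat_lit 76) (nat_lit 7790964246) (nat_lit 193) (nat_lit 5) (nat_lit 201) (nat_lit 5) (nat_lit 194) (nat_lit 5) (nat_lit 453) (nat_lit 379) (nat_lit 308)) (XT.lf (nat_lit 0) (nat_lit 4887068637) (nat_lit 608) (nat_lit 4048352436) (nat_lit 76) (nat_lit 1243150408) (nat_lit 186) (nat_lit 5) (nat_lit 194) (nat_lit 5) (nat_lit 187) (nat_lit 5) (nat_lit 454) (nat_lit 379) (nat_lit 307))))) (XT.nd (nat_lit 156) (nat_lit 988) (nat_lit 0) (XT.nd (nat_lit 78) (nat_lit 76) (nat_lit 0) (XT.lf (nat_lit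 0) (nat_lit 2231747076) (nat_lit 456) (nat_lit 5477938548) (nat_lit 532) (nat_lit 2579490063) (nat_lit 180) (nat_lit 5) (nat_lit 186) (nat_lit 5) (nat_lit 187) (nat_lit 5) (nat_lit 455) (nat_lit 379) (nat_lit 306)) (XT.lf (nat_lit 0) (nat_lit 181886594) (nat_lit 532) (nat_lit 1750910393) (nat_lit 76) (nat_lit 8469230314) (nat_lit 179) (nat_lit 5) (nat_lit 186) (nat_lit 5) (nat_lit 180) (nat_lit 5) (nat_lit 456) (nat_lit 379) (nat_lit 305))) (XT.nd (nat_lit 78) (nat_lit 456) (nat_lit 0) (XT.lf (nat_lit 0) (nat_lit 2976397834) (nat_lit 608) (nat_lit 5841438408) (nat_lit 76) (nat_lit 1698720589) (nat_lit 172) (nat_lit 5) (nat_lit 180) (nat_lit 5) (nat_lit 173) (nat_lit 5) (nat_lit 457) (nat_lit 379) (nat_lit 304)) (XT.nd (nat_lit 78) (nat_lit 0) (nat_lit 0) (XT.lf (nat_lit 0) (nat_lit 575062349) (nat_lit 456) (nat_lit 5251157256) (nat_lit 532) (nat_lit 4807179546) (nat_lit 166) (nat_lit 5) (nat_lit 172) (nat_lit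 5) (nat_lit 173) (nat_lit 5) (nat_lit 458) (nat_lit 379) (nat_lit 303)) (XT.lf (nat_lit 0) (nat_lit 7159475792) (nat_lit 456) (nat_lit 1584130804) (nat_lit 532) (nat_lit 2008770747) (nat_lit 166) (nat_lit 5) (nat_lit 172) (nat_lit 5) (nat_lit 173) (nat_lit 5) (nat_lit 459) (nat_lit 379) (nat_lit 302)))))) (XT.nd (nat_lit 390) (nat_lit 1672) (nat_lit 0) (XT.nd (nat_lit 156) (nat_lit 988) (nat_lit 0) (XT.nd (nat_lit 78) (nat_lit 0) (nat_lit 0) (XT.lf (nat_lit 0) (nat_lit 839799789) (nat_lit 532) (nat_lit 7891463028) (nat_lit 76) (nat_lit 2142266796) (nat_lit 159) (nat_lit 5) (nat_lit 166) (nat_lit 5) (nat_lit 160) (nat_lit 5) (nat_lit 460) (nat_lit 379) (nat_lit 301)) (XT.lf (nat_lit 0) (nat_lit 3725195375) (nat_lit 532) (nat_lit 1322788138) (nat_lit 76) (nat_lit 5948730633) (nat_lit 159) (nat_lit 5) (nat_lit 166) (nat_lit 5) (nat_lit 160) (nat_lit 5) (nat_lit 461) (nat_lit 379) (nat_lit 300))) (XT.nd (nat_lit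 78) (nat_lit 532) (nat_lit 0) (XT.lf (nat_lit 0) (nat_lit 5409532228) (nat_lit 456) (nat_lit 1266403690) (nat_lit 532) (nat_lit 4446283319) (nat_lit 153) (nat_lit 5) (nat_lit 159) (nat_lit 5) (nat_lit 160) (nat_lit 5) (nat_lit 462) (nat_lit 379) (nat_lit 299)) (XT.nd (nat_lit 78) (nat_lit 76) (nat_lit 0) (XT.lf (nat_lit 0) (nat_lit 1001729659) (nat_lit 456) (nat_lit 8688953512) (nat_lit 532) (nat_lit 1559460842) (nat_lit 147) (nat_lit 5) (nat_lit 153) (nat_lit 5) (nat_lit 154) (nat_lit 5) (nat_lit 463) (nat_lit 379) (nat_lit 298)) (XT.lf (nat_lit 0) (nat_lit 1386735384) (nat_lit 532) (nat_lit 3508637831) (nat_lit 76) (nat_lit 6484687200) (nat_lit 146) (nat_lit 5) (nat_lit 153) (nat_lit 5) (nat_lit 147) (nat_lit 5) (nat_lit 464) (nat_lit 379) (nat_lit 297))))) (XT.nd (nat_lit 234) (nat_lit 836) (nat_lit 0) (XT.nd (nat_lit 78) (nat_lit 456) (nat_lit 0) (XT.lf (nat_lit 0) (nat_lit 3361442335) (nat_lit 380) (nat_lit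 1004736368) (nat_lit 456) (nat_lit 7146295070) (nat_lit 141) (nat_lit 5) (nat_lit 146) (nat_lit 5) (nat_lit 147) (nat_lit 5) (nat_lit 465) (nat_lit 379) (nat_lit 296)) (XT.nd (nat_lit 78) (nat_lit 456) (nat_lit 0) (XT.lf (nat_lit 0) (nat_lit 7421714232) (nat_lit 456) (nat_lit 1288437263) (nat_lit 76) (nat_lit 2937062539) (nat_lit 141) (nat_lit 5) (nat_lit 147) (nat_lit 5) (nat_lit 142) (nat_lit 5) (nat_lit 466) (nat_lit 379) (nat_lit 295)) (XT.lf (nat_lit 0) (nat_lit 5742362067) (nat_lit 456) (nat_lit 4814014154) (nat_lit 532) (nat_lit 1227921094) (nat_lit 135) (nat_lit 5) (nat_lit 141) (nat_lit 5) (nat_lit 142) (nat_lit 5) (nat_lit 467) (nat_lit 379) (nat_lit 294)))) (XT.nd (nat_lit 78) (nat_lit 380) (nat_lit 0) (XT.lf (nat_lit 0) (nat_lit 970273742) (nat_lit 380) (nat_lit 824508350) (nat_lit 456) (nat_lit 10129327420) (nat_lit 129) (nat_lit 5) (nat_lit 134) (nat_lit 5) (nat_lit 135) (nat_lit 5) (nat_lit 468)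 (nat_lit 379) (nat_lit 293)) (XT.nd (nat_lit 78) (nat_lit 380) (nat_lit 0) (XT.lf (nat_lit 0) (nat_lit 4897743646) (nat_lit 456) (nat_lit 3928749197) (nat_lit 76) (nat_lit 3239345894) (nat_lit 129) (nat_lit 5) (nat_lit 135) (nat_lit 5) (nat_lit 130) (nat_lit 5) (nat_lit 469) (nat_lit 379) (nat_lit 292)) (XT.lf (nat_lit 0) (nat_lit 3236570792) (nat_lit 380) (nat_lit 4827521264) (nat_lit 456) (nat_lit 4146291819) (nat_lit 124) (nat_lit 5) (nat_lit 129) (nat_lit 5) (nat_lit 130) (nat_lit 5) (nat_lit 470) (nat_lit 379) (nat_lit 291))))))))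
noncomputable def xc95 : XT := (XT.nd (nat_lit 1638) (nat_lit 1596) (nat_lit 0) (XT.nd (nat_lit 780) (nat_lit 1824) (nat_lit 0) (XT.nd (nat_lit 390) (nat_lit 1140) (nat_lit 0) (XT.nd (nat_lit 156) (nat_lit 684) (nat_lit 0) (XT.nd (nat_lit 78) (nat_lit 456) (nat_lit 0) (XT.lf (nat_lit 0) (nat_lit 10561441318) (nat_lit 380) (nat_lit 733796208) (nat_lit 456) (nat_lit 1062560717) (nat_lit 124) (nat_lit 5) (nat_lit 129) (nat_lit 5) (nat_lit 130) (nat_lit 5) (nat_lit 471) (nat_lit 379) (nat_lit 290)) (XT.lf (nat_lit 0) (nat_lit 2089566077) (nat_lit 456) (nat_lit 6983006330) (nat_lit 76) (nat_lit 3434644692) (nat_lit 118) (nat_lit 5) (nat_lit 124) (nat_lit 5) (nat_lit 119) (nat_lit 5) (nat_lit 472) (nat_lit 379) (nat_lit 289))) (XT.nd (nat_lit 78) (nat_lit 304) (nat_lit 0) (XT.lf (nat_lit 0) (nat_lit 311471314) (nat_lit 380) (nat_lit 4973658452) (nat_lit 456) (nat_lit 7374468938) (nat_lit 113) (nat_lit 5) (nat_lit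 118) (nat_lit 5) (nat_lit 119) (nat_lit 5) (nat_lit 473) (nat_lit 379) (nat_lit 288)) (XT.nd (nat_lit 78) (nat_lit 304) (nat_lit 0) (XT.lf (nat_lit 0) (nat_lit 7809942950) (nat_lit 380) (nat_lit 757355246) (nat_lit 456) (nat_lit 4247283014) (nat_lit 113) (nat_lit 5) (nat_lit 118) (nat_lit 5) (nat_lit 119) (nat_lit 5) (nat_lit 474) (nat_lit 379) (nat_lit 287)) (XT.lf (nat_lit 0) (nat_lit 2458724631) (nat_lit 304) (nat_lit 9471583144) (nat_lit 380) (nat_lit 1042058635) (nat_lit 109) (nat_lit 5) (nat_lit 113) (nat_lit 5) (nat_lit 114) (nat_lit 5) (nat_lit 475) (nat_lit 379) (nat_lit 286))))) (XT.nd (nat_lit 156) (nat_lit 684) (nat_lit 0) (XT.nd (nat_lit 78) (nat_lit 380) (nat_lit 0) (XT.lf (nat_lit 0) (nat_lit 2213179483) (nat_lit 380) (nat_lit 3049461243) (nat_lit 76) (nat_lit 7870081690) (nat_lit 108) (nat_lit 5) (nat_lit 113) (nat_lit 5) (nat_lit 109) (nat_lit 5) (nat_lit 476) (nat_lit 379) (nat_lit 285)) (XT.lf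 (nat_lit 0) (nat_lit 4581581637) (nat_lit 380) (nat_lit 944510545) (nat_lit 456) (nat_lit 7769931735) (nat_lit 103) (nat_lit 5) (nat_lit 108) (nat_lit 5) (nat_lit 109) (nat_lit 5) (nat_lit 477) (nat_lit 379) (nat_lit 284))) (XT.nd (nat_lit 78) (nat_lit 684) (nat_lit 0) (XT.lf (nat_lit 0) (nat_lit 8925235597) (nat_lit 456) (nat_lit 1113961200) (nat_lit 76) (nat_lit 3423001668) (nat_lit 103) (nat_lit 5) (nat_lit 109) (nat_lit 5) (nat_lit 104) (nat_lit 5) (nat_lit 478) (nat_lit 379) (nat_lit 283)) (XT.nd (nat_lit 78) (nat_lit 380) (nat_lit 0) (XT.lf (nat_lit 0) (nat_lit 6684888543) (nat_lit 304) (nat_lit 5734492820) (nat_lit 380) (nat_lit 1211781091) (nat_lit 99) (nat_lit 5) (nat_lit 103) (nat_lit 5) (nat_lit 104) (nat_lit 5) (nat_lit 479) (nat_lit 379) (nat_lit 282)) (XT.lf (nat_lit 0) (nat_lit 812781093) (nat_lit 304) (nat_lit 1328760135) (nat_lit 380) (nat_lit 11661882983) (nat_lit 94) (nat_lit 5) (nat_lit 98)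 (nat_lit 5) (nat_lit 99) (nat_lit 5) (nat_lit 480) (nat_lit 379) (nat_lit 281)))))) (XT.nd (nat_lit 390) (nat_lit 1140) (nat_lit 0) (XT.nd (nat_lit 156) (nat_lit 380) (nat_lit 0) (XT.nd (nat_lit 78) (nat_lit 304) (nat_lit 0) (XT.lf (nat_lit 0) (nat_lit 5590750553) (nat_lit 380) (nat_lit 5221182199) (nat_lit 76) (nat_lit 3166143302) (nat_lit 94) (nat_lit 5) (nat_lit 99) (nat_lit 5) (nat_lit 95) (nat_lit 5) (nat_lit 481) (nat_lit 379) (nat_lit 280)) (XT.lf (nat_lit 0) (nat_lit 2695638213) (nat_lit 304) (nat_lit 6417606912) (nat_lit 380) (nat_lit 5042895644) (nat_lit 90) (nat_lit 5) (nat_lit 94) (nat_lit 5) (nat_lit 95) (nat_lit 5) (nat_lit 482) (nat_lit 379) (nat_lit 279))) (XT.nd (nat_lit 78) (nat_lit 380) (nat_lit 0) (XT.lf (nat_lit 0) (nat_lit 10807213288) (nat_lit 304) (nat_lit 1912220955) (nat_lit 380) (nat_lit 1618073384) (nat_lit 90) (nat_lit 5) (nat_lit 94) (nat_lit 5) (nat_lit 95) (nat_lit 5) (nat_lit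 483) (nat_lit 379) (nat_lit 278)) (XT.nd (nat_lit 78) (nat_lit 0) (nat_lit 0) (XT.lf (nat_lit 0) (nat_lit 1876443711) (nat_lit 380) (nat_lit 9967382530) (nat_lit 76) (nat_lit 2677921741) (nat_lit 85) (nat_lit 5) (nat_lit 90) (nat_lit 5) (nat_lit 86) (nat_lit 5) (nat_lit 484) (nat_lit 379) (nat_lit 277)) (XT.lf (nat_lit 0) (nat_lit 5434326060) (nat_lit 380) (nat_lit 1918264453) (nat_lit 76) (nat_lit 7356571313) (nat_lit 85) (nat_lit 5) (nat_lit 90) (nat_lit 5) (nat_lit 86) (nat_lit 5) (nat_lit 485) (nat_lit 379) (nat_lit 276))))) (XT.nd (nat_lit 234) (nat_lit 532) (nat_lit 0) (XT.nd (nat_lit 78) (nat_lit 380) (nat_lit 0) (XT.lf (nat_lit 0) (nat_lit 6341574223) (nat_lit 228) (nat_lit 2741994876) (nat_lit 304) (nat_lit 5816356092) (nat_lit 82) (nat_lit 5) (nat_lit 85) (nat_lit 5) (nat_lit 86) (nat_lit 5) (nat_lit 486) (nat_lit 379) (nat_lit 275)) (XT.nd (nat_lit 78) (nat_lit 380) (nat_lit 0) (XT.lf (nat_lit 0)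 (nat_lit 12810629844) (nat_lit 304) (nat_lit 348002911) (nat_lit 76) (nat_lit 1935779612) (nat_lit 82) (nat_lit 5) (nat_lit 86) (nat_lit 5) (nat_lit 83) (nat_lit 5) (nat_lit 487) (nat_lit 379) (nat_lit 274)) (XT.lf (nat_lit 0) (nat_lit 1352647457) (nat_lit 380) (nat_lit 7219201105) (nat_lit 76) (nat_lit 6719764194) (nat_lit 77) (nat_lit 5) (nat_lit 82) (nat_lit 5) (nat_lit 78) (nat_lit 5) (nat_lit 488) (nat_lit 379) (nat_lit 273)))) (XT.nd (nat_lit 78) (nat_lit 304) (nat_lit 0) (XT.lf (nat_lit 0) (nat_lit 1140099781) (nat_lit 228) (nat_lit 3880510757) (nat_lit 304) (nat_lit 10472061913) (nat_lit 74) (nat_lit 5) (nat_lit 77) (nat_lit 5) (nat_lit 78) (nat_lit 5) (nat_lit 489) (nat_lit 379) (nat_lit 272)) (XT.nd (nat_lit 78) (nat_lit 304) (nat_lit 0) (XT.lf (nat_lit 0) (nat_lit 8796280745) (nat_lit 304) (nat_lit 5971599194) (nat_lit 76) (nat_lit 929191247) (nat_lit 74) (nat_lit 5) (nat_lit 78) (nat_lit 5) (nat_lit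 75) (nat_lit 5) (nat_lit 490) (nat_lit 379) (nat_lit 271)) (XT.lf (nat_lit 0) (nat_lit 2552352740) (nat_lit 304) (nat_lit 10117488583) (nat_lit 380) (nat_lit 3235273745) (nat_lit 70) (nat_lit 5) (nat_lit 74) (nat_lit 5) (nat_lit 75) (nat_lit 5) (nat_lit 491) (nat_lit 379) (nat_lit 270))))))) (XT.nd (nat_lit 780) (nat_lit 228) (nat_lit 0) (XT.nd (nat_lit 390) (nat_lit 836) (nat_lit 0) (XT.nd (nat_lit 156) (nat_lit 228) (nat_lit 0) (XT.nd (nat_lit 78) (nat_lit 228) (nat_lit 0) (XT.lf (nat_lit 0) (nat_lit 517439578) (nat_lit 380) (nat_lit 4824794697) (nat_lit 76) (nat_lit 10774614880) (nat_lit 69) (nat_lit 5) (nat_lit 74) (nat_lit 5) (nat_lit 70) (nat_lit 5) (nat_lit 492) (nat_lit 379) (nat_lit 269)) (XT.lf (nat_lit 0) (nat_lit 3871243540) (nat_lit 228) (nat_lit 436360184) (nat_lit 304) (nat_lit 12024676599) (nat_lit 66) (nat_lit 5) (nat_lit 69) (nat_lit 5) (nat_lit 70) (nat_lit 5) (nat_lit 493) (nat_lit 379) (nat_lit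 268))) (XT.nd (nat_lit 78) (nat_lit 228) (nat_lit 0) (XT.lf (nat_lit 0) (nat_lit 8216456328) (nat_lit 304) (nat_lit 3806574736) (nat_lit 76) (nat_lit 4528135697) (nat_lit 66) (nat_lit 5) (nat_lit 70) (nat_lit 5) (nat_lit 67) (nat_lit 5) (nat_lit 494) (nat_lit 379) (nat_lit 267)) (XT.nd (nat_lit 78) (nat_lit 0) (nat_lit 0) (XT.lf (nat_lit 0) (nat_lit 5053049027) (nat_lit 228) (nat_lit 7167151910) (nat_lit 304) (nat_lit 4553899958) (nat_lit 63) (nat_lit 5) (nat_lit 66) (nat_lit 5) (nat_lit 67) (nat_lit 5) (nat_lit 495) (nat_lit 379) (nat_lit 266)) (XT.lf (nat_lit 0) (nat_lit 14110361002) (nat_lit 228) (nat_lit 2200391225) (nat_lit 304) (nat_lit 690611031) (nat_lit 63) (nat_lit 5) (nat_lit 66) (nat_lit 5) (nat_lit 67) (nat_lit 5) (nat_lit 496) (nat_lit 379) (nat_lit 265))))) (XT.nd (nat_lit 156) (nat_lit 532) (nat_lit 0) (XT.nd (nat_lit 78) (nat_lit 0) (nat_lit 0) (XT.lf (nat_lit 0) (nat_lit 3247574816) (nat_lit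 304) (nat_lit 11106869348) (nat_lit 76) (nat_lit 2877503614) (nat_lit 59) (nat_lit 5) (nat_lit 63) (nat_lit 5) (nat_lit 60) (nat_lit 5) (nat_lit 497) (nat_lit 379) (nat_lit 264)) (XT.lf (nat_lit 0) (nat_lit 7270903846) (nat_lit 304) (nat_lit 2156196405) (nat_lit 76) (nat_lit 8039643845) (nat_lit 59) (nat_lit 5) (nat_lit 63) (nat_lit 5) (nat_lit 60) (nat_lit 5) (nat_lit 498) (nat_lit 379) (nat_lit 263))) (XT.nd (nat_lit 78) (nat_lit 304) (nat_lit 0) (XT.lf (nat_lit 0) (nat_lit 7035531612) (nat_lit 228) (nat_lit 4366726939) (nat_lit 304) (nat_lit 6303430470) (nat_lit 56) (nat_lit 5) (nat_lit 59) (nat_lit 5) (nat_lit 60) (nat_lit 5) (nat_lit 499) (nat_lit 379) (nat_lit 262)) (XT.nd (nat_lit 78) (nat_lit 304) (nat_lit 0) (XT.lf (nat_lit 0) (nat_lit 15617927797) (nat_lit 304) (nat_lit 1544374372) (nat_lit 76) (nat_lit 787080716) (nat_lit 56) (nat_lit 5) (nat_lit 60) (nat_lit 5) (nat_lit 57) (nat_lit 5) (nat_lit 500)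 (nat_lit 379) (nat_lit 261)) (XT.lf (nat_lit 0) (nat_lit 1759735425) (nat_lit 304) (nat_lit 10400610173) (nat_lit 76) (nat_lit 6036138662) (nat_lit 52) (nat_lit 5) (nat_lit 56) (nat_lit 5) (nat_lit 53) (nat_lit 5) (nat_lit 501) (nat_lit 379) (nat_lit 260)))))) (XT.nd (nat_lit 49998) (nat_lit 0) (nat_lit 46512) (XT.nd (nat_lit 156) (nat_lit 0) (nat_lit 0) (XT.nd (nat_lit 78) (nat_lit 228) (nat_lit 0) (XT.lf (nat_lit 0) (nat_lit 5894343698) (nat_lit 304) (nat_lit 1149731716) (nat_lit 76) (nat_lit 11404291356) (nat_lit 52) (nat_lit 5) (nat_lit 56) (nat_lit 5) (nat_lit 53) (nat_lit 5) (nat_lit 502) (nat_lit 379) (nat_lit 259)) (XT.lf (nat_lit 0) (nat_lit 8366714379) (nat_lit 228) (nat_lit 1781948832) (nat_lit 304) (nat_lit 8555886838) (nat_lit 49) (nat_lit 5) (nat_lit 52) (nat_lit 5) (nat_lit 53) (nat_lit 5) (nat_lit 503) (nat_lit 379) (nat_lit 258))) (XT.nd (nat_lit 49686) (nat_lit 0) (nat_lit 47196) (XT.lf (nat_lit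 0) (nat_lit 14501885470) (nat_lit 304) (nat_lit 929216931) (nat_lit 76) (nat_lit 3534481698) (nat_lit 49) (nat_lit 5) (nat_lit 53) (nat_lit 5) (nat_lit 50) (nat_lit 5) (nat_lit 504) (nat_lit 379) (nat_lit 257)) (XT.nd (nat_lit 78) (nat_lit 76) (nat_lit 0) (XT.lf (nat_lit 0) (nat_lit 1073741823) (nat_lit 0) (nat_lit 0) (nat_lit 0) (nat_lit 0) (nat_lit 671) (nat_lit 0) (nat_lit 1) (nat_lit 0) (nat_lit 1) (nat_lit 0) (nat_lit 380) (nat_lit 380) (nat_lit 380)) (XT.lf (nat_lit 0) (nat_lit 3049896516) (nat_lit 76) (nat_lit 3352731291) (nat_lit 0) (nat_lit 40261344) (nat_lit 670) (nat_lit 5) (nat_lit 671) (nat_lit 0) (nat_lit 670) (nat_lit 4) (nat_lit 381) (nat_lit 380) (nat_lit 379))))) (XT.nd (nat_lit 234) (nat_lit 532) (nat_lit 0) (XT.nd (nat_lit 78) (nat_lit 152) (nat_lit 0) (XT.lf (nat_lit 0) (nat_lit 6081057711) (nat_lit 76) (nat_lit 243151641) (nat_lit 0) (nat_lit 120799822) (nat_lit 670) (nat_lit 5) (nat_lit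 671) (nat_lit 0) (nat_lit 670) (nat_lit 4) (nat_lit 382) (nat_lit 380) (nat_lit 378)) (XT.nd (nat_lit 78) (nat_lit 0) (nat_lit 0) (XT.lf (nat_lit 0) (nat_lit 2630282060) (nat_lit 152) (nat_lit 3539855495) (nat_lit 76) (nat_lit 277948264) (nat_lit 668) (nat_lit 5) (nat_lit 670) (nat_lit 5) (nat_lit 669) (nat_lit 4) (nat_lit 383) (nat_lit 380) (nat_lit 377)) (XT.lf (nat_lit 0) (nat_lit 5603688059) (nat_lit 152) (nat_lit 369621819) (nat_lit 76) (nat_lit 479456648) (nat_lit 668) (nat_lit 5) (nat_lit 670) (nat_lit 5) (nat_lit 669) (nat_lit 4) (nat_lit 384) (nat_lit 380) (nat_lit 376)))) (XT.nd (nat_lit 78) (nat_lit 304) (nat_lit 0) (XT.lf (nat_lit 0) (nat_lit 2092596584) (nat_lit 228) (nat_lit 3612119776) (nat_lit 76) (nat_lit 753769459) (nat_lit 665) (nat_lit 5) (nat_lit 668) (nat_lit 5) (nat_lit 666) (nat_lit 5) (nat_lit 385) (nat_lit 380) (nat_lit 375)) (XT.nd (nat_lit 78) (nat_lit 304) (nat_lit 0) (XT.lf (nat_lit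 0) (nat_lit 5008936049) (nat_lit 228) (nat_lit 380148057) (nat_lit 76) (nat_lit 1076648747) (nat_lit 665) (nat_lit 5) (nat_lit 668) (nat_lit 5) (nat_lit 666) (nat_lit 5) (nat_lit 386) (nat_lit 380) (nat_lit 374)) (XT.lf (nat_lit 0) (nat_lit 1435322410) (nat_lit 304) (nat_lit 3570159784) (nat_lit 76) (nat_lit 1468620294) (nat_lit 661) (nat_lit 5) (nat_lit 665) (nat_lit 5) (nat_lit 662) (nat_lit 5) (nat_lit 387) (nat_lit 380) (nat_lit 373))))))))
noncomputable def xc96 : XT := (XT.nd (nat_lit 1560) (nat_lit 17100) (nat_lit 0) (XT.nd (nat_lit 780) (nat_lit 5548) (nat_lit 0) (XT.nd (nat_lit 390) (nat_lit 1292) (nat_lit 0) (XT.nd (nat_lit 156) (nat_lit 912) (nat_lit 0) (XT.nd (nat_lit 78) (nat_lit 380) (nat_lit 0) (XT.lf (nat_lit 0) (nat_lit 4295168325) (nat_lit 304) (nat_lit 275253353) (nat_lit 76) (nat_lit 1913503023) (nat_lit 661) (nat_lit 5) (nat_lit 665) (nat_lit 5) (nat_lit 662) (nat_lit 5) (nat_lit 388) (nat_lit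 380) (nat_lit 372)) (XT.lf (nat_lit 0) (nat_lit 656711074) (nat_lit 380) (nat_lit 3414399322) (nat_lit 76) (nat_lit 2423845464) (nat_lit 656) (nat_lit 5) (nat_lit 661) (nat_lit 5) (nat_lit 657) (nat_lit 5) (nat_lit 389) (nat_lit 380) (nat_lit 371))) (XT.nd (nat_lit 78) (nat_lit 912) (nat_lit 0) (XT.lf (nat_lit 0) (nat_lit 3460519476) (nat_lit 380) (nat_lit 55249159) (nat_lit 76) (nat_lit 2991596681) (nat_lit 656) (nat_lit 5) (nat_lit 661) (nat_lit 5) (nat_lit 657) (nat_lit 5) (nat_lit 390) (nat_lit 380) (nat_lit 370)) (XT.nd (nat_lit 78) (nat_lit 532) (nat_lit 0) (XT.lf (nat_lit 0) (nat_lit 3374373928) (nat_lit 380) (nat_lit 2898186168) (nat_lit 456) (nat_lit 248480338) (nat_lit 651) (nat_lit 5) (nat_lit 656) (nat_lit 5) (nat_lit 657) (nat_lit 5) (nat_lit 391) (nat_lit 380) (nat_lit 369)) (XT.lf (nat_lit 0) (nat_lit 283479801) (nat_lit 456) (nat_lit 2221247786) (nat_lit 532) (nat_lit 4031320305) (nat_lit 644)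 (nat_lit 5) (nat_lit 650) (nat_lit 5) (nat_lit 651) (nat_lit 5) (nat_lit 392) (nat_lit 380) (nat_lit 368))))) (XT.nd (nat_lit 156) (nat_lit 684) (nat_lit 0) (XT.nd (nat_lit 78) (nat_lit 608) (nat_lit 0) (XT.lf (nat_lit 0) (nat_lit 3781816199) (nat_lit 456) (nat_lit 1480889320) (nat_lit 532) (nat_lit 1289613570) (nat_lit 644) (nat_lit 5) (nat_lit 650) (nat_lit 5) (nat_lit 651) (nat_lit 5) (nat_lit 393) (nat_lit 380) (nat_lit 367)) (XT.lf (nat_lit 0) (nat_lit 739583433) (nat_lit 532) (nat_lit 685144606) (nat_lit 608) (nat_lit 5145295588) (nat_lit 636) (nat_lit 5) (nat_lit 643) (nat_lit 5) (nat_lit 644) (nat_lit 5) (nat_lit 394) (nat_lit 380) (nat_lit 366))) (XT.nd (nat_lit 78) (nat_lit 684) (nat_lit 0) (XT.lf (nat_lit 0) (nat_lit 4129615573) (nat_lit 608) (nat_lit 2282571161) (nat_lit 76) (nat_lit 176708301) (nat_lit 636) (nat_lit 5) (nat_lit 644) (nat_lit 5) (nat_lit 637) (nat_lit 5) (nat_lit 395) (nat_lit 380)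 (nat_lit 365)) (XT.nd (nat_lit 78) (nat_lit 0) (nat_lit 0) (XT.lf (nat_lit 0) (nat_lit 224676267) (nat_lit 684) (nat_lit 5303813711) (nat_lit 76) (nat_lit 1080711241) (nat_lit 627) (nat_lit 5) (nat_lit 636) (nat_lit 5) (nat_lit 628) (nat_lit 5) (nat_lit 396) (nat_lit 380) (nat_lit 364)) (XT.lf (nat_lit 0) (nat_lit 2880625711) (nat_lit 684) (nat_lit 1692539749) (nat_lit 76) (nat_lit 2057448767) (nat_lit 627) (nat_lit 5) (nat_lit 636) (nat_lit 5) (nat_lit 628) (nat_lit 5) (nat_lit 397) (nat_lit 380) (nat_lit 363)))))) (XT.nd (nat_lit 390) (nat_lit 3116) (nat_lit 0) (XT.nd (nat_lit 156) (nat_lit 1672) (nat_lit 0) (XT.nd (nat_lit 78) (nat_lit 76) (nat_lit 0) (XT.lf (nat_lit 0) (nat_lit 1975107985) (nat_lit 684) (nat_lit 3564463668) (nat_lit 760) (nat_lit 1113936000) (nat_lit 618) (nat_lit 5) (nat_lit 627) (nat_lit 5) (nat_lit 628) (nat_lit 5) (nat_lit 398) (nat_lit 380) (nat_lit 362)) (XT.lf (nat_lit 0) (nat_lit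 1503176488) (nat_lit 760) (nat_lit 990238869) (nat_lit 76) (nat_lit 4184307008) (nat_lit 617) (nat_lit 5) (nat_lit 627) (nat_lit 5) (nat_lit 618) (nat_lit 5) (nat_lit 399) (nat_lit 380) (nat_lit 361))) (XT.nd (nat_lit 78) (nat_lit 912) (nat_lit 0) (XT.lf (nat_lit 0) (nat_lit 2758964493) (nat_lit 760) (nat_lit 1355462562) (nat_lit 836) (nat_lit 2588759667) (nat_lit 607) (nat_lit 5) (nat_lit 617) (nat_lit 5) (nat_lit 618) (nat_lit 5) (nat_lit 400) (nat_lit 380) (nat_lit 360)) (XT.nd (nat_lit 78) (nat_lit 912) (nat_lit 0) (XT.lf (nat_lit 0) (nat_lit 6555320174) (nat_lit 760) (nat_lit 168944396) (nat_lit 836) (nat_lit 6014481) (nat_lit 607) (nat_lit 5) (nat_lit 617) (nat_lit 5) (nat_lit 618) (nat_lit 5) (nat_lit 401) (nat_lit 380) (nat_lit 359)) (XT.lf (nat_lit 0) (nat_lit 2565285524) (nat_lit 912) (nat_lit 3106145112) (nat_lit 76) (nat_lit 1086757992) (nat_lit 595) (nat_lit 5) (nat_lit 607) (nat_lit 5) (nat_lit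 596) (nat_lit 5) (nat_lit 402) (nat_lit 380) (nat_lit 358))))) (XT.nd (nat_lit 156) (nat_lit 2128) (nat_lit 0) (XT.nd (nat_lit 78) (nat_lit 76) (nat_lit 0) (XT.lf (nat_lit 0) (nat_lit 737490551) (nat_lit 912) (nat_lit 4399008149) (nat_lit 988) (nat_lit 1651228823) (nat_lit 583) (nat_lit 5) (nat_lit 595) (nat_lit 5) (nat_lit 596) (nat_lit 5) (nat_lit 403) (nat_lit 380) (nat_lit 357)) (XT.lf (nat_lit 0) (nat_lit 891845232) (nat_lit 988) (nat_lit 2166460972) (nat_lit 76) (nat_lit 3760212131) (nat_lit 582) (nat_lit 5) (nat_lit 595) (nat_lit 5) (nat_lit 583) (nat_lit 5) (nat_lit 404) (nat_lit 380) (nat_lit 356))) (XT.nd (nat_lit 78) (nat_lit 1140) (nat_lit 0) (XT.lf (nat_lit 0) (nat_lit 1765171733) (nat_lit 988) (nat_lit 1653048476) (nat_lit 1064) (nat_lit 3432436253) (nat_lit 569) (nat_lit 5) (nat_lit 582) (nat_lit 5) (nat_lit 583) (nat_lit 5) (nat_lit 405) (nat_lit 380) (nat_lit 355)) (XT.nd (nat_lit 78) (nat_lit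 1140) (nat_lit 0) (XT.lf (nat_lit 0) (nat_lit 5763046512) (nat_lit 988) (nat_lit 190527523) (nat_lit 1064) (nat_lit 930734268) (nat_lit 569) (nat_lit 5) (nat_lit 582) (nat_lit 5) (nat_lit 583) (nat_lit 5) (nat_lit 406) (nat_lit 380) (nat_lit 354)) (XT.lf (nat_lit 0) (nat_lit 1571965897) (nat_lit 1140) (nat_lit 4019774764) (nat_lit 76) (nat_lit 1327275977) (nat_lit 554) (nat_lit 5) (nat_lit 569) (nat_lit 5) (nat_lit 555) (nat_lit 5) (nat_lit 407) (nat_lit 380) (nat_lit 353))))))) (XT.nd (nat_lit 780) (nat_lit 8892) (nat_lit 0) (XT.nd (nat_lit 390) (nat_lit 4484) (nat_lit 0) (XT.nd (nat_lit 156) (nat_lit 2584) (nat_lit 0) (XT.nd (nat_lit 78) (nat_lit 0) (nat_lit 0) (XT.lf (nat_lit 0) (nat_lit 11102913) (nat_lit 1140) (nat_lit 4055586681) (nat_lit 1216) (nat_lit 2888555535) (nat_lit 539) (nat_lit 5) (nat_lit 554) (nat_lit 5) (nat_lit 555) (nat_lit 5) (nat_lit 408) (nat_lit 380) (nat_lit 352)) (XT.lf (nat_lit 0)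 (nat_lit 4134714606) (nat_lit 1140) (nat_lit 2449873699) (nat_lit 1216) (nat_lit 408181208) (nat_lit 539) (nat_lit 5) (nat_lit 554) (nat_lit 5) (nat_lit 555) (nat_lit 5) (nat_lit 409) (nat_lit 380) (nat_lit 351))) (XT.nd (nat_lit 78) (nat_lit 1292) (nat_lit 0) (XT.lf (nat_lit 0) (nat_lit 1270356978) (nat_lit 1216) (nat_lit 778838040) (nat_lit 1292) (nat_lit 4982504900) (nat_lit 522) (nat_lit 5) (nat_lit 538) (nat_lit 5) (nat_lit 539) (nat_lit 5) (nat_lit 410) (nat_lit 380) (nat_lit 350)) (XT.nd (nat_lit 78) (nat_lit 1292) (nat_lit 0) (XT.lf (nat_lit 0) (nat_lit 4523381924) (nat_lit 1292) (nat_lit 1602936874) (nat_lit 76) (nat_lit 945608402) (nat_lit 522) (nat_lit 5) (nat_lit 539) (nat_lit 5) (nat_lit 523) (nat_lit 5) (nat_lit 411) (nat_lit 380) (nat_lit 349)) (XT.lf (nat_lit 0) (nat_lit 2625610502) (nat_lit 1292) (nat_lit 4392478312) (nat_lit 1368) (nat_lit 95483611) (nat_lit 505) (nat_lit 5) (nat_lit 522) (nat_lit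 5) (nat_lit 523) (nat_lit 5) (nat_lit 412) (nat_lit 380) (nat_lit 348))))) (XT.nd (nat_lit 156) (nat_lit 3040) (nat_lit 0) (XT.nd (nat_lit 78) (nat_lit 1368) (nat_lit 0) (XT.lf (nat_lit 0) (nat_lit 2335098146) (nat_lit 1368) (nat_lit 253809053) (nat_lit 76) (nat_lit 4567663193) (nat_lit 504) (nat_lit 5) (nat_lit 522) (nat_lit 5) (nat_lit 505) (nat_lit 5) (nat_lit 413) (nat_lit 380) (nat_lit 347)) (XT.lf (nat_lit 0) (nat_lit 4075955386) (nat_lit 1368) (nat_lit 713713393) (nat_lit 1444) (nat_lit 2411245956) (nat_lit 486) (nat_lit 5) (nat_lit 504) (nat_lit 5) (nat_lit 505) (nat_lit 5) (nat_lit 414) (nat_lit 380) (nat_lit 346))) (XT.nd (nat_lit 78) (nat_lit 1520) (nat_lit 0) (XT.lf (nat_lit 0) (nat_lit 14659291) (nat_lit 1520) (nat_lit 6031805757) (nat_lit 76) (nat_lit 1200343830) (nat_lit 466) (nat_lit 5) (nat_lit 486) (nat_lit 5) (nat_lit 467) (nat_lit 5) (nat_lit 415) (nat_lit 380) (nat_lit 345)) (XT.nd (nat_lit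 78) (nat_lit 1520) (nat_lit 0) (XT.lf (nat_lit 0) (nat_lit 2433943320) (nat_lit 1520) (nat_lit 1672990479) (nat_lit 76) (nat_lit 3186855693) (nat_lit 466) (nat_lit 5) (nat_lit 486) (nat_lit 5) (nat_lit 467) (nat_lit 5) (nat_lit 416) (nat_lit 380) (nat_lit 344)) (XT.lf (nat_lit 0) (nat_lit 2767056749) (nat_lit 1520) (nat_lit 2104758613) (nat_lit 1596) (nat_lit 2470520012) (nat_lit 446) (nat_lit 5) (nat_lit 466) (nat_lit 5) (nat_lit 467) (nat_lit 5) (nat_lit 417) (nat_lit 380) (nat_lit 343)))))) (XT.nd (nat_lit 390) (nat_lit 3724) (nat_lit 0) (XT.nd (nat_lit 156) (nat_lit 3496) (nat_lit 0) (XT.nd (nat_lit 78) (nat_lit 1672) (nat_lit 0) (XT.lf (nat_lit 0) (nat_lit 7276625809) (nat_lit 1520) (nat_lit 45946573) (nat_lit 1596) (nat_lit 70026366) (nat_lit 446) (nat_lit 5) (nat_lit 466) (nat_lit 5) (nat_lit 467) (nat_lit 5) (nat_lit 418) (nat_lit 380) (nat_lit 342)) (XT.lf (nat_lit 0) (nat_lit 2343218066) (nat_lit 1672)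 (nat_lit 3024159573) (nat_lit 76) (nat_lit 2076290186) (nat_lit 424) (nat_lit 5) (nat_lit 446) (nat_lit 5) (nat_lit 425) (nat_lit 5) (nat_lit 419) (nat_lit 380) (nat_lit 341))) (XT.nd (nat_lit 78) (nat_lit 1824) (nat_lit 0) (XT.lf (nat_lit 0) (nat_lit 1528320840) (nat_lit 1672) (nat_lit 3240641534) (nat_lit 1748) (nat_lit 2727510643) (nat_lit 402) (nat_lit 5) (nat_lit 424) (nat_lit 5) (nat_lit 425) (nat_lit 5) (nat_lit 420) (nat_lit 380) (nat_lit 340)) (XT.nd (nat_lit 78) (nat_lit 1824) (nat_lit 0) (XT.lf (nat_lit 0) (nat_lit 6170645037) (nat_lit 1672) (nat_lit 1047656263) (nat_lit 1748) (nat_lit 332558323) (nat_lit 402) (nat_lit 5) (nat_lit 424) (nat_lit 5) (nat_lit 425) (nat_lit 5) (nat_lit 421) (nat_lit 380) (nat_lit 339)) (XT.lf (nat_lit 0) (nat_lit 2067280192) (nat_lit 1824) (nat_lit 4327624511) (nat_lit 76) (nat_lit 1211487808) (nat_lit 378) (nat_lit 5) (nat_lit 402) (nat_lit 5) (nat_lit 379) (nat_lit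 5) (nat_lit 422) (nat_lit 380) (nat_lit 338))))) (XT.nd (nat_lit 234) (nat_lit 1748) (nat_lit 0) (XT.nd (nat_lit 78) (nat_lit 988) (nat_lit 0) (XT.lf (nat_lit 0) (nat_lit 339402156) (nat_lit 988) (nat_lit 4145702272) (nat_lit 1064) (nat_lit 3178424182) (nat_lit 365) (nat_lit 5) (nat_lit 378) (nat_lit 5) (nat_lit 379) (nat_lit 5) (nat_lit 423) (nat_lit 380) (nat_lit 337)) (XT.nd (nat_lit 78) (nat_lit 988) (nat_lit 0) (XT.lf (nat_lit 0) (nat_lit 5116076022) (nat_lit 988) (nat_lit 1820810740) (nat_lit 1064) (nat_lit 785233490) (nat_lit 365) (nat_lit 5) (nat_lit 378) (nat_lit 5) (nat_lit 379) (nat_lit 5) (nat_lit 424) (nat_lit 380) (nat_lit 336)) (XT.lf (nat_lit 0) (nat_lit 1609123996) (nat_lit 988) (nat_lit 5603862509) (nat_lit 76) (nat_lit 569205714) (nat_lit 352) (nat_lit 5) (nat_lit 365) (nat_lit 5) (nat_lit 353) (nat_lit 5) (nat_lit 425) (nat_lit 380) (nat_lit 335)))) (XT.nd (nat_lit 78) (nat_lit 1748) (nat_lit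 0) (XT.lf (nat_lit 0) (nat_lit 4028205426) (nat_lit 988) (nat_lit 809488287) (nat_lit 76) (nat_lit 3005944503) (nat_lit 352) (nat_lit 5) (nat_lit 365) (nat_lit 5) (nat_lit 353) (nat_lit 5) (nat_lit 426) (nat_lit 380) (nat_lit 334)) (XT.nd (nat_lit 78) (nat_lit 912) (nat_lit 0) (XT.lf (nat_lit 0) (nat_lit 4092570984) (nat_lit 836) (nat_lit 2388178156) (nat_lit 912) (nat_lit 1425885343) (nat_lit 341) (nat_lit 5) (nat_lit 352) (nat_lit 5) (nat_lit 353) (nat_lit 5) (nat_lit 427) (nat_lit 380) (nat_lit 333)) (XT.lf (nat_lit 0) (nat_lit 970384117) (nat_lit 912) (nat_lit 6873697123) (nat_lit 76) (nat_lit 127256239) (nat_lit 329) (nat_lit 5) (nat_lit 341) (nat_lit 5) (nat_lit 330) (nat_lit 5) (nat_lit 428) (nat_lit 380) (nat_lit 332))))))))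
noncomputable def xc97 : XT := (XT.nd (nat_lit 1638) (nat_lit 6004) (nat_lit 0) (XT.nd (nat_lit 780) (nat_lit 4560) (nat_lit 0) (XT.nd (nat_lit 390) (nat_lit 2280) (nat_lit 0) (XT.nd (nat_lit 156) (nat_lit 1596) (nat_lit 0) (XT.nd (nat_lit 78) (nat_lit 760) (nat_lit 0) (XT.lf (nat_lit 0) (nat_lit 3396371765) (nat_lit 912) (nat_lit 1945694343) (nat_lit 76) (nat_lit 2695083853) (nat_lit 329) (nat_lit 5) (nat_lit 341) (nat_lit 5) (nat_lit 330) (nat_lit 5) (nat_lit 429) (nat_lit 380) (nat_lit 331)) (XT.lf (nat_lit 0) (nat_lit 3079370256) (nat_lit 760) (nat_lit 2771588434) (nat_lit 836) (nat_lit 2253739628) (nat_lit 319) (nat_lit 5) (nat_lit 329) (nat_lit 5) (nat_lit 330) (nat_lit 5) (nat_lit 430) (nat_lit 380) (nat_lit 330))) (XT.nd (nat_lit 78) (nat_lit 760) (nat_lit 0) (XT.lf (nat_lit 0) (nat_lit 14748644) (nat_lit 760) (nat_lit 137472774) (nat_lit 836) (nat_lit 8021901983) (nat_lit 308) (nat_lit 5) (nat_lit 318)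 (nat_lit 5) (nat_lit 319) (nat_lit 5) (nat_lit 431) (nat_lit 380) (nat_lit 329)) (XT.nd (nat_lit 78) (nat_lit 760) (nat_lit 0) (XT.lf (nat_lit 0) (nat_lit 2587456009) (nat_lit 836) (nat_lit 3094882223) (nat_lit 76) (nat_lit 2562094163) (nat_lit 308) (nat_lit 5) (nat_lit 319) (nat_lit 5) (nat_lit 309) (nat_lit 5) (nat_lit 432) (nat_lit 380) (nat_lit 328)) (XT.lf (nat_lit 0) (nat_lit 2055113963) (nat_lit 760) (nat_lit 2992109271) (nat_lit 836) (nat_lit 3269427375) (nat_lit 298) (nat_lit 5) (nat_lit 308) (nat_lit 5) (nat_lit 309) (nat_lit 5) (nat_lit 433) (nat_lit 380) (nat_lit 327))))) (XT.nd (nat_lit 156) (nat_lit 1444) (nat_lit 0) (XT.nd (nat_lit 78) (nat_lit 836) (nat_lit 0) (XT.lf (nat_lit 0) (nat_lit 7308508236) (nat_lit 760) (nat_lit 230503870) (nat_lit 836) (nat_lit 851663769) (nat_lit 298) (nat_lit 5) (nat_lit 308) (nat_lit 5) (nat_lit 309) (nat_lit 5) (nat_lit 434) (nat_lit 380) (nat_lit 326)) (XT.lf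 (nat_lit 0) (nat_lit 1600132427) (nat_lit 836) (nat_lit 4279021556) (nat_lit 76) (nat_lit 2586699466) (nat_lit 287) (nat_lit 5) (nat_lit 298) (nat_lit 5) (nat_lit 288) (nat_lit 5) (nat_lit 435) (nat_lit 380) (nat_lit 325))) (XT.nd (nat_lit 78) (nat_lit 760) (nat_lit 0) (XT.lf (nat_lit 0) (nat_lit 997644663) (nat_lit 684) (nat_lit 3070220269) (nat_lit 760) (nat_lit 4475009074) (nat_lit 278) (nat_lit 5) (nat_lit 287) (nat_lit 5) (nat_lit 288) (nat_lit 5) (nat_lit 436) (nat_lit 380) (nat_lit 324)) (XT.nd (nat_lit 78) (nat_lit 760) (nat_lit 0) (XT.lf (nat_lit 0) (nat_lit 6396405908) (nat_lit 684) (nat_lit 180697101) (nat_lit 760) (nat_lit 2044506700) (nat_lit 278) (nat_lit 5) (nat_lit 287) (nat_lit 5) (nat_lit 288) (nat_lit 5) (nat_lit 437) (nat_lit 380) (nat_lit 323)) (XT.lf (nat_lit 0) (nat_lit 431662464) (nat_lit 760) (nat_lit 5521040467) (nat_lit 76) (nat_lit 2749122688) (nat_lit 268) (nat_lit 5) (nat_lit 278)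 (nat_lit 5) (nat_lit 269) (nat_lit 5) (nat_lit 438) (nat_lit 380) (nat_lit 322)))))) (XT.nd (nat_lit 390) (nat_lit 2508) (nat_lit 0) (XT.nd (nat_lit 156) (nat_lit 1368) (nat_lit 0) (XT.nd (nat_lit 78) (nat_lit 684) (nat_lit 0) (XT.lf (nat_lit 0) (nat_lit 2910540168) (nat_lit 760) (nat_lit 114676835) (nat_lit 76) (nat_lit 5758564064) (nat_lit 268) (nat_lit 5) (nat_lit 278) (nat_lit 5) (nat_lit 269) (nat_lit 5) (nat_lit 439) (nat_lit 380) (nat_lit 321)) (XT.lf (nat_lit 0) (nat_lit 5430296714) (nat_lit 684) (nat_lit 8963314) (nat_lit 760) (nat_lit 3428126704) (nat_lit 259) (nat_lit 5) (nat_lit 268) (nat_lit 5) (nat_lit 269) (nat_lit 5) (nat_lit 440) (nat_lit 380) (nat_lit 320))) (XT.nd (nat_lit 78) (nat_lit 684) (nat_lit 0) (XT.lf (nat_lit 0) (nat_lit 2101577745) (nat_lit 684) (nat_lit 5916705598) (nat_lit 760) (nat_lit 934402665) (nat_lit 250) (nat_lit 5) (nat_lit 259) (nat_lit 5) (nat_lit 260) (nat_lit 5) (nat_lit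 441) (nat_lit 380) (nat_lit 319)) (XT.nd (nat_lit 78) (nat_lit 608) (nat_lit 0) (XT.lf (nat_lit 0) (nat_lit 1576931570) (nat_lit 760) (nat_lit 1293620795) (nat_lit 76) (nat_lit 6169168585) (nat_lit 249) (nat_lit 5) (nat_lit 259) (nat_lit 5) (nat_lit 250) (nat_lit 5) (nat_lit 442) (nat_lit 380) (nat_lit 318)) (XT.lf (nat_lit 0) (nat_lit 4122428508) (nat_lit 684) (nat_lit 4744395514) (nat_lit 76) (nat_lit 261635239) (nat_lit 241) (nat_lit 5) (nat_lit 250) (nat_lit 5) (nat_lit 242) (nat_lit 5) (nat_lit 443) (nat_lit 380) (nat_lit 317))))) (XT.nd (nat_lit 234) (nat_lit 1216) (nat_lit 0) (XT.nd (nat_lit 78) (nat_lit 684) (nat_lit 0) (XT.lf (nat_lit 0) (nat_lit 926218097) (nat_lit 608) (nat_lit 5792974343) (nat_lit 684) (nat_lit 2499787609) (nat_lit 233) (nat_lit 5) (nat_lit 241) (nat_lit 5) (nat_lit 242) (nat_lit 5) (nat_lit 444) (nat_lit 380) (nat_lit 316)) (XT.nd (nat_lit 78) (nat_lit 608) (nat_lit 0) (XT.lf (nat_lit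 0) (nat_lit 54639550) (nat_lit 684) (nat_lit 2577784508) (nat_lit 76) (nat_lit 6678918102) (nat_lit 232) (nat_lit 5) (nat_lit 241) (nat_lit 5) (nat_lit 233) (nat_lit 5) (nat_lit 445) (nat_lit 380) (nat_lit 315)) (XT.lf (nat_lit 0) (nat_lit 2619175013) (nat_lit 684) (nat_lit 6172393017) (nat_lit 76) (nat_lit 613817168) (nat_lit 224) (nat_lit 5) (nat_lit 233) (nat_lit 5) (nat_lit 225) (nat_lit 5) (nat_lit 446) (nat_lit 380) (nat_lit 314)))) (XT.nd (nat_lit 78) (nat_lit 1216) (nat_lit 0) (XT.lf (nat_lit 0) (nat_lit 5237580847) (nat_lit 684) (nat_lit 364208065) (nat_lit 76) (nat_lit 3899482315) (nat_lit 224) (nat_lit 5) (nat_lit 233) (nat_lit 5) (nat_lit 225) (nat_lit 5) (nat_lit 447) (nat_lit 380) (nat_lit 313)) (XT.nd (nat_lit 78) (nat_lit 608) (nat_lit 0) (XT.lf (nat_lit 0) (nat_lit 5593675134) (nat_lit 608) (nat_lit 2319363727) (nat_lit 684) (nat_lit 1685955886) (nat_lit 216) (nat_lit 5) (nat_lit 224) (nat_lit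 5) (nat_lit 225) (nat_lit 5) (nat_lit 448) (nat_lit 380) (nat_lit 312)) (XT.lf (nat_lit 0) (nat_lit 921399072) (nat_lit 608) (nat_lit 7749102769) (nat_lit 76) (nat_lit 1028252577) (nat_lit 208) (nat_lit 5) (nat_lit 216) (nat_lit 5) (nat_lit 209) (nat_lit 5) (nat_lit 449) (nat_lit 380) (nat_lit 311))))))) (XT.nd (nat_lit 780) (nat_lit 2812) (nat_lit 0) (XT.nd (nat_lit 390) (nat_lit 1520) (nat_lit 0) (XT.nd (nat_lit 156) (nat_lit 1140) (nat_lit 0) (XT.nd (nat_lit 78) (nat_lit 532) (nat_lit 0) (XT.lf (nat_lit 0) (nat_lit 3569576233) (nat_lit 608) (nat_lit 1788972734) (nat_lit 76) (nat_lit 4441525110) (nat_lit 208) (nat_lit 5) (nat_lit 216) (nat_lit 5) (nat_lit 209) (nat_lit 5) (nat_lit 450) (nat_lit 380) (nat_lit 310)) (XT.lf (nat_lit 0) (nat_lit 4307328533) (nat_lit 532) (nat_lit 1960779067) (nat_lit 608) (nat_lit 3635377142) (nat_lit 201) (nat_lit 5) (nat_lit 208) (nat_lit 5) (nat_lit 209) (nat_lit 5) (nat_lit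 451) (nat_lit 380) (nat_lit 309))) (XT.nd (nat_lit 78) (nat_lit 608) (nat_lit 0) (XT.lf (nat_lit 0) (nat_lit 497941379) (nat_lit 532) (nat_lit 8517467331) (nat_lit 608) (nat_lit 993671115) (nat_lit 194) (nat_lit 5) (nat_lit 201) (nat_lit 5) (nat_lit 202) (nat_lit 5) (nat_lit 452) (nat_lit 380) (nat_lit 308)) (XT.nd (nat_lit 78) (nat_lit 532) (nat_lit 0) (XT.lf (nat_lit 0) (nat_lit 1699186475) (nat_lit 608) (nat_lit 3390506087) (nat_lit 76) (nat_lit 5026472603) (nat_lit 193) (nat_lit 5) (nat_lit 201) (nat_lit 5) (nat_lit 194) (nat_lit 5) (nat_lit 453) (nat_lit 380) (nat_lit 307)) (XT.lf (nat_lit 0) (nat_lit 2844071101) (nat_lit 532) (nat_lit 1577431819) (nat_lit 608) (nat_lit 5803991270) (nat_lit 186) (nat_lit 5) (nat_lit 193) (nat_lit 5) (nat_lit 194) (nat_lit 5) (nat_lit 454) (nat_lit 380) (nat_lit 306))))) (XT.nd (nat_lit 156) (nat_lit 1064) (nat_lit 0) (XT.nd (nat_lit 78) (nat_lit 456) (nat_lit 0) (XT.lf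 (nat_lit 0) (nat_lit 7204879828) (nat_lit 608) (nat_lit 1139887822) (nat_lit 76) (nat_lit 1992121120) (nat_lit 186) (nat_lit 5) (nat_lit 194) (nat_lit 5) (nat_lit 187) (nat_lit 5) (nat_lit 455) (nat_lit 380) (nat_lit 305)) (XT.lf (nat_lit 0) (nat_lit 5246146368) (nat_lit 456) (nat_lit 4813553687) (nat_lit 532) (nat_lit 390506709) (nat_lit 180) (nat_lit 5) (nat_lit 186) (nat_lit 5) (nat_lit 187) (nat_lit 5) (nat_lit 456) (nat_lit 380) (nat_lit 304))) (XT.nd (nat_lit 78) (nat_lit 456) (nat_lit 0) (XT.lf (nat_lit 0) (nat_lit 1170570206) (nat_lit 532) (nat_lit 1190385254) (nat_lit 608) (nat_lit 8204800205) (nat_lit 172) (nat_lit 5) (nat_lit 179) (nat_lit 5) (nat_lit 180) (nat_lit 5) (nat_lit 457) (nat_lit 380) (nat_lit 303)) (XT.nd (nat_lit 78) (nat_lit 456) (nat_lit 0) (XT.lf (nat_lit 0) (nat_lit 5185268619) (nat_lit 608) (nat_lit 2997844616) (nat_lit 76) (nat_lit 2500000072) (nat_lit 172) (nat_lit 5) (nat_lit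 180) (nat_lit 5) (nat_lit 173) (nat_lit 5) (nat_lit 458) (nat_lit 380) (nat_lit 302)) (XT.lf (nat_lit 0) (nat_lit 3527509692) (nat_lit 456) (nat_lit 4541527729) (nat_lit 532) (nat_lit 2733731488) (nat_lit 166) (nat_lit 5) (nat_lit 172) (nat_lit 5) (nat_lit 173) (nat_lit 5) (nat_lit 459) (nat_lit 380) (nat_lit 301)))))) (XT.nd (nat_lit 390) (nat_lit 1292) (nat_lit 0) (XT.nd (nat_lit 156) (nat_lit 988) (nat_lit 0) (XT.nd (nat_lit 78) (nat_lit 456) (nat_lit 0) (XT.lf (nat_lit 0) (nat_lit 77080119) (nat_lit 532) (nat_lit 739536962) (nat_lit 76) (nat_lit 10108348426) (nat_lit 165) (nat_lit 5) (nat_lit 172) (nat_lit 5) (nat_lit 166) (nat_lit 5) (nat_lit 460) (nat_lit 380) (nat_lit 300)) (XT.lf (nat_lit 0) (nat_lit 2938669543) (nat_lit 532) (nat_lit 5119564749) (nat_lit 76) (nat_lit 2990396629) (nat_lit 159) (nat_lit 5) (nat_lit 166) (nat_lit 5) (nat_lit 160) (nat_lit 5) (nat_lit 461) (nat_lit 380) (nat_lit 299)))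 (XT.nd (nat_lit 78) (nat_lit 532) (nat_lit 0) (XT.lf (nat_lit 0) (nat_lit 1543278372) (nat_lit 456) (nat_lit 4307689678) (nat_lit 532) (nat_lit 5323941466) (nat_lit 153) (nat_lit 5) (nat_lit 159) (nat_lit 5) (nat_lit 160) (nat_lit 5) (nat_lit 462) (nat_lit 380) (nat_lit 298)) (XT.nd (nat_lit 78) (nat_lit 532) (nat_lit 0) (XT.lf (nat_lit 0) (nat_lit 8371108182) (nat_lit 456) (nat_lit 458096821) (nat_lit 532) (nat_lit 2474364065) (nat_lit 153) (nat_lit 5) (nat_lit 159) (nat_lit 5) (nat_lit 160) (nat_lit 5) (nat_lit 463) (nat_lit 380) (nat_lit 297)) (XT.lf (nat_lit 0) (nat_lit 448248681) (nat_lit 532) (nat_lit 7545503721) (nat_lit 76) (nat_lit 3440567917) (nat_lit 146) (nat_lit 5) (nat_lit 153) (nat_lit 5) (nat_lit 147) (nat_lit 5) (nat_lit 464) (nat_lit 380) (nat_lit 296))))) (XT.nd (nat_lit 234) (nat_lit 456) (nat_lit 0) (XT.nd (nat_lit 78) (nat_lit 836) (nat_lit 0) (XT.lf (nat_lit 0) (nat_lit 3392937816) (nat_lit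 532) (nat_lit 738073955) (nat_lit 76) (nat_lit 7436421298) (nat_lit 146) (nat_lit 5) (nat_lit 153) (nat_lit 5) (nat_lit 147) (nat_lit 5) (nat_lit 465) (nat_lit 380) (nat_lit 295)) (XT.nd (nat_lit 78) (nat_lit 456) (nat_lit 0) (XT.lf (nat_lit 0) (nat_lit 6250718757) (nat_lit 380) (nat_lit 160780365) (nat_lit 456) (nat_lit 5291417916) (nat_lit 141) (nat_lit 5) (nat_lit 146) (nat_lit 5) (nat_lit 147) (nat_lit 5) (nat_lit 466) (nat_lit 380) (nat_lit 294)) (XT.lf (nat_lit 0) (nat_lit 1505781602) (nat_lit 456) (nat_lit 7999248187) (nat_lit 532) (nat_lit 2335797298) (nat_lit 135) (nat_lit 5) (nat_lit 141) (nat_lit 5) (nat_lit 142) (nat_lit 5) (nat_lit 467) (nat_lit 380) (nat_lit 293)))) (XT.nd (nat_lit 78) (nat_lit 380) (nat_lit 0) (XT.lf (nat_lit 0) (nat_lit 682597662) (nat_lit 532) (nat_lit 3346718781) (nat_lit 76) (nat_lit 7951847446) (nat_lit 134) (nat_lit 5) (nat_lit 141) (nat_lit 5) (nat_lit 135) (nat_lit 5)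 (nat_lit 468) (nat_lit 380) (nat_lit 292)) (XT.nd (nat_lit 78) (nat_lit 0) (nat_lit 0) (XT.lf (nat_lit 0) (nat_lit 3730138935) (nat_lit 456) (nat_lit 8345202698) (nat_lit 76) (nat_lit 48663789) (nat_lit 129) (nat_lit 5) (nat_lit 135) (nat_lit 5) (nat_lit 130) (nat_lit 5) (nat_lit 469) (nat_lit 380) (nat_lit 291)) (XT.lf (nat_lit 0) (nat_lit 6863268637) (nat_lit 456) (nat_lit 1240412939) (nat_lit 76) (nat_lit 4165537184) (nat_lit 129) (nat_lit 5) (nat_lit 135) (nat_lit 5) (nat_lit 130) (nat_lit 5) (nat_lit 470) (nat_lit 380) (nat_lit 290))))))))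
noncomputable def xc98 : XT := (XT.nd (nat_lit 1560) (nat_lit 1900) (nat_lit 0) (XT.nd (nat_lit 780) (nat_lit 1824) (nat_lit 0) (XT.nd (nat_lit 390) (nat_lit 1140) (nat_lit 0) (XT.nd (nat_lit 156) (nat_lit 380) (nat_lit 0) (XT.nd (nat_lit 78) (nat_lit 456) (nat_lit 0) (XT.lf (nat_lit 0) (nat_lit 6050010087) (nat_lit 380) (nat_lit 4024161341) (nat_lit 456) (nat_lit 2342870301) (nat_lit 124) (nat_lit 5) (nat_lit 129) (nat_lit 5) (nat_lit 130) (nat_lit 5) (nat_lit 471) (nat_lit 380) (nat_lit 289)) (XT.lf (nat_lit 0) (nat_lit 762332490) (nat_lit 456) (nat_lit 11662607720) (nat_lit 76) (nat_lit 142964544) (nat_lit 118) (nat_lit 5) (nat_lit 124) (nat_lit 5) (nat_lit 119) (nat_lit 5) (nat_lit 472) (nat_lit 380) (nat_lit 288))) (XT.nd (nat_lit 78) (nat_lit 380) (nat_lit 0) (XT.lf (nat_lit 0) (nat_lit 3944027931) (nat_lit 456) (nat_lit 4390072831) (nat_lit 76) (nat_lit 4386466496) (nat_lit 118) (nat_lit 5) (nat_lit 124)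 (nat_lit 5) (nat_lit 119) (nat_lit 5) (nat_lit 473) (nat_lit 380) (nat_lit 287)) (XT.nd (nat_lit 78) (nat_lit 0) (nat_lit 0) (XT.lf (nat_lit 0) (nat_lit 3032316776) (nat_lit 380) (nat_lit 4153268646) (nat_lit 456) (nat_lit 5690780025) (nat_lit 113) (nat_lit 5) (nat_lit 118) (nat_lit 5) (nat_lit 119) (nat_lit 5) (nat_lit 474) (nat_lit 380) (nat_lit 286)) (XT.lf (nat_lit 0) (nat_lit 10499045643) (nat_lit 456) (nat_lit 2408471403) (nat_lit 76) (nat_lit 127627985) (nat_lit 113) (nat_lit 5) (nat_lit 119) (nat_lit 5) (nat_lit 114) (nat_lit 5) (nat_lit 475) (nat_lit 380) (nat_lit 285))))) (XT.nd (nat_lit 156) (nat_lit 760) (nat_lit 0) (XT.nd (nat_lit 78) (nat_lit 0) (nat_lit 0) (XT.lf (nat_lit 0) (nat_lit 711279871) (nat_lit 380) (nat_lit 8019582844) (nat_lit 76) (nat_lit 4465384663) (nat_lit 108) (nat_lit 5) (nat_lit 113) (nat_lit 5) (nat_lit 109) (nat_lit 5) (nat_lit 476) (nat_lit 380) (nat_lit 284)) (XT.lf (nat_lit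 0) (nat_lit 3983168129) (nat_lit 380) (nat_lit 465910546) (nat_lit 76) (nat_lit 8911293894) (nat_lit 108) (nat_lit 5) (nat_lit 113) (nat_lit 5) (nat_lit 109) (nat_lit 5) (nat_lit 477) (nat_lit 380) (nat_lit 283))) (XT.nd (nat_lit 78) (nat_lit 380) (nat_lit 0) (XT.lf (nat_lit 0) (nat_lit 7300354902) (nat_lit 380) (nat_lit 45203579) (nat_lit 456) (nat_lit 6181726834) (nat_lit 103) (nat_lit 5) (nat_lit 108) (nat_lit 5) (nat_lit 109) (nat_lit 5) (nat_lit 478) (nat_lit 380) (nat_lit 282)) (XT.nd (nat_lit 78) (nat_lit 76) (nat_lit 0) (XT.lf (nat_lit 0) (nat_lit 1487026079) (nat_lit 304) (nat_lit 9307649382) (nat_lit 380) (nat_lit 2902477495) (nat_lit 99) (nat_lit 5) (nat_lit 103) (nat_lit 5) (nat_lit 104) (nat_lit 5) (nat_lit 479) (nat_lit 380) (nat_lit 281)) (XT.lf (nat_lit 0) (nat_lit 456784819) (nat_lit 380) (nat_lit 4467806979) (nat_lit 76) (nat_lit 8945370091) (nat_lit 98) (nat_lit 5) (nat_lit 103) (nat_lit 5)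 (nat_lit 99) (nat_lit 5) (nat_lit 480) (nat_lit 380) (nat_lit 280)))))) (XT.nd (nat_lit 390) (nat_lit 836) (nat_lit 0) (XT.nd (nat_lit 156) (nat_lit 684) (nat_lit 0) (XT.nd (nat_lit 78) (nat_lit 0) (nat_lit 0) (XT.lf (nat_lit 0) (nat_lit 3421237195) (nat_lit 304) (nat_lit 423681762) (nat_lit 380) (nat_lit 10200919179) (nat_lit 94) (nat_lit 5) (nat_lit 98) (nat_lit 5) (nat_lit 99) (nat_lit 5) (nat_lit 481) (nat_lit 380) (nat_lit 279)) (XT.lf (nat_lit 0) (nat_lit 7336483032) (nat_lit 380) (nat_lit 2757168464) (nat_lit 76) (nat_lit 4130872807) (nat_lit 94) (nat_lit 5) (nat_lit 99) (nat_lit 5) (nat_lit 95) (nat_lit 5) (nat_lit 482) (nat_lit 380) (nat_lit 278))) (XT.nd (nat_lit 78) (nat_lit 380) (nat_lit 0) (XT.lf (nat_lit 0) (nat_lit 5301090742) (nat_lit 304) (nat_lit 5612865445) (nat_lit 380) (nat_lit 3492512079) (nat_lit 90) (nat_lit 5) (nat_lit 94) (nat_lit 5) (nat_lit 95) (nat_lit 5) (nat_lit 483) (nat_lit 380)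 (nat_lit 277)) (XT.nd (nat_lit 78) (nat_lit 380) (nat_lit 0) (XT.lf (nat_lit 0) (nat_lit 13524867127) (nat_lit 304) (nat_lit 1035667722) (nat_lit 380) (nat_lit 31570657) (nat_lit 90) (nat_lit 5) (nat_lit 94) (nat_lit 5) (nat_lit 95) (nat_lit 5) (nat_lit 484) (nat_lit 380) (nat_lit 276)) (XT.lf (nat_lit 0) (nat_lit 3502552183) (nat_lit 380) (nat_lit 7634124371) (nat_lit 76) (nat_lit 3643332993) (nat_lit 85) (nat_lit 5) (nat_lit 90) (nat_lit 5) (nat_lit 86) (nat_lit 5) (nat_lit 485) (nat_lit 380) (nat_lit 275))))) (XT.nd (nat_lit 156) (nat_lit 608) (nat_lit 0) (XT.nd (nat_lit 78) (nat_lit 0) (nat_lit 0) (XT.lf (nat_lit 0) (nat_lit 533311607) (nat_lit 228) (nat_lit 6570594565) (nat_lit 304) (nat_lit 7867827096) (nat_lit 82) (nat_lit 5) (nat_lit 85) (nat_lit 5) (nat_lit 86) (nat_lit 5) (nat_lit 486) (nat_lit 380) (nat_lit 274)) (XT.lf (nat_lit 0) (nat_lit 8935017403) (nat_lit 228) (nat_lit 1873131073) (nat_lit 304)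 (nat_lit 4358530860) (nat_lit 82) (nat_lit 5) (nat_lit 85) (nat_lit 5) (nat_lit 86) (nat_lit 5) (nat_lit 487) (nat_lit 380) (nat_lit 273))) (XT.nd (nat_lit 78) (nat_lit 304) (nat_lit 0) (XT.lf (nat_lit 0) (nat_lit 2115784709) (nat_lit 304) (nat_lit 12483329409) (nat_lit 380) (nat_lit 766162435) (nat_lit 78) (nat_lit 5) (nat_lit 82) (nat_lit 5) (nat_lit 83) (nat_lit 5) (nat_lit 488) (nat_lit 380) (nat_lit 272)) (XT.nd (nat_lit 78) (nat_lit 228) (nat_lit 0) (XT.lf (nat_lit 0) (nat_lit 2894547055) (nat_lit 380) (nat_lit 4916163266) (nat_lit 76) (nat_lit 7756073833) (nat_lit 77) (nat_lit 5) (nat_lit 82) (nat_lit 5) (nat_lit 78) (nat_lit 5) (nat_lit 489) (nat_lit 380) (nat_lit 271)) (XT.lf (nat_lit 0) (nat_lit 3594222178) (nat_lit 228) (nat_lit 3027730089) (nat_lit 304) (nat_lit 9150198254) (nat_lit 74) (nat_lit 5) (nat_lit 77) (nat_lit 5) (nat_lit 78) (nat_lit 5) (nat_lit 490) (nat_lit 380) (nat_lit 270))))))) (XT.nd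 (nat_lit 780) (nat_lit 532) (nat_lit 0) (XT.nd (nat_lit 390) (nat_lit 760) (nat_lit 0) (XT.nd (nat_lit 156) (nat_lit 304) (nat_lit 0) (XT.nd (nat_lit 78) (nat_lit 304) (nat_lit 0) (XT.lf (nat_lit 0) (nat_lit 10449628157) (nat_lit 304) (nat_lit 3683526212) (nat_lit 76) (nat_lit 1847960013) (nat_lit 74) (nat_lit 5) (nat_lit 78) (nat_lit 5) (nat_lit 75) (nat_lit 5) (nat_lit 491) (nat_lit 380) (nat_lit 269)) (XT.lf (nat_lit 0) (nat_lit 4995065913) (nat_lit 304) (nat_lit 9392153262) (nat_lit 380) (nat_lit 1806375640) (nat_lit 70) (nat_lit 5) (nat_lit 74) (nat_lit 5) (nat_lit 75) (nat_lit 5) (nat_lit 492) (nat_lit 380) (nat_lit 268))) (XT.nd (nat_lit 78) (nat_lit 228) (nat_lit 0) (XT.lf (nat_lit 0) (nat_lit 1972900821) (nat_lit 380) (nat_lit 2556985485) (nat_lit 76) (nat_lit 11880067966) (nat_lit 69) (nat_lit 5) (nat_lit 74) (nat_lit 5) (nat_lit 70) (nat_lit 5) (nat_lit 493) (nat_lit 380) (nat_lit 267)) (XT.nd (nat_lit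 78) (nat_lit 0) (nat_lit 0) (XT.lf (nat_lit 0) (nat_lit 5828844535) (nat_lit 304) (nat_lit 10335605543) (nat_lit 76) (nat_lit 465450922) (nat_lit 66) (nat_lit 5) (nat_lit 70) (nat_lit 5) (nat_lit 67) (nat_lit 5) (nat_lit 494) (nat_lit 380) (nat_lit 266)) (XT.lf (nat_lit 0) (nat_lit 9790568336) (nat_lit 304) (nat_lit 1557449198) (nat_lit 76) (nat_lit 5505660087) (nat_lit 66) (nat_lit 5) (nat_lit 70) (nat_lit 5) (nat_lit 67) (nat_lit 5) (nat_lit 495) (nat_lit 380) (nat_lit 265))))) (XT.nd (nat_lit 156) (nat_lit 456) (nat_lit 0) (XT.nd (nat_lit 78) (nat_lit 76) (nat_lit 0) (XT.lf (nat_lit 0) (nat_lit 7464069296) (nat_lit 228) (nat_lit 6397673527) (nat_lit 304) (nat_lit 3219586727) (nat_lit 63) (nat_lit 5) (nat_lit 66) (nat_lit 5) (nat_lit 67) (nat_lit 5) (nat_lit 496) (nat_lit 380) (nat_lit 264)) (XT.lf (nat_lit 0) (nat_lit 683930060) (nat_lit 304) (nat_lit 660956496) (nat_lit 76) (nat_lit 15968714600) (nat_lit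 62) (nat_lit 5) (nat_lit 66) (nat_lit 5) (nat_lit 63) (nat_lit 5) (nat_lit 497) (nat_lit 380) (nat_lit 263))) (XT.nd (nat_lit 78) (nat_lit 228) (nat_lit 0) (XT.lf (nat_lit 0) (nat_lit 4685179582) (nat_lit 304) (nat_lit 9038960417) (nat_lit 76) (nat_lit 3824700978) (nat_lit 59) (nat_lit 5) (nat_lit 63) (nat_lit 5) (nat_lit 60) (nat_lit 5) (nat_lit 498) (nat_lit 380) (nat_lit 262)) (XT.nd (nat_lit 78) (nat_lit 0) (nat_lit 0) (XT.lf (nat_lit 0) (nat_lit 46432080) (nat_lit 228) (nat_lit 8715929811) (nat_lit 304) (nat_lit 9026509335) (nat_lit 56) (nat_lit 5) (nat_lit 59) (nat_lit 5) (nat_lit 60) (nat_lit 5) (nat_lit 499) (nat_lit 380) (nat_lit 261)) (XT.lf (nat_lit 0) (nat_lit 9406615013) (nat_lit 228) (nat_lit 3557521240) (nat_lit 304) (nat_lit 5068708573) (nat_lit 56) (nat_lit 5) (nat_lit 59) (nat_lit 5) (nat_lit 60) (nat_lit 5) (nat_lit 500) (nat_lit 380) (nat_lit 260)))))) (XT.nd (nat_lit 50076) (nat_lit 0) (nat_lit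 46436) (XT.nd (nat_lit 156) (nat_lit 228) (nat_lit 0) (XT.nd (nat_lit 78) (nat_lit 76) (nat_lit 0) (XT.lf (nat_lit 0) (nat_lit 640500985) (nat_lit 228) (nat_lit 16607329674) (nat_lit 304) (nat_lit 1033913188) (nat_lit 53) (nat_lit 5) (nat_lit 56) (nat_lit 5) (nat_lit 57) (nat_lit 5) (nat_lit 501) (nat_lit 380) (nat_lit 259)) (XT.lf (nat_lit 0) (nat_lit 3105689109) (nat_lit 304) (nat_lit 8398097543) (nat_lit 76) (nat_lit 7030147014) (nat_lit 52) (nat_lit 5) (nat_lit 56) (nat_lit 5) (nat_lit 53) (nat_lit 5) (nat_lit 502) (nat_lit 380) (nat_lit 258))) (XT.nd (nat_lit 78) (nat_lit 0) (nat_lit 0) (XT.lf (nat_lit 0) (nat_lit 1007670639) (nat_lit 228) (nat_lit 6296160218) (nat_lit 304) (nat_lit 11487411342) (nat_lit 49) (nat_lit 5) (nat_lit 52) (nat_lit 5) (nat_lit 53) (nat_lit 5) (nat_lit 503) (nat_lit 380) (nat_lit 257)) (XT.nd (nat_lit 49764) (nat_lit 0) (nat_lit 47196) (XT.lf (nat_lit 0) (nat_lit 10686972105) (nat_lit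 228) (nat_lit 938503185) (nat_lit 304) (nat_lit 7427434180) (nat_lit 49) (nat_lit 5) (nat_lit 52) (nat_lit 5) (nat_lit 53) (nat_lit 5) (nat_lit 504) (nat_lit 380) (nat_lit 256)) (XT.lf (nat_lit 0) (nat_lit 1514915703) (nat_lit 0) (nat_lit 1514915703) (nat_lit 76) (nat_lit 192252977) (nat_lit 670) (nat_lit 5) (nat_lit 670) (nat_lit 3) (nat_lit 671) (nat_lit 0) (nat_lit 381) (nat_lit 381) (nat_lit 378))))) (XT.nd (nat_lit 234) (nat_lit 304) (nat_lit 0) (XT.nd (nat_lit 78) (nat_lit 228) (nat_lit 0) (XT.lf (nat_lit 0) (nat_lit 2570199653) (nat_lit 228) (nat_lit 341363577) (nat_lit 228) (nat_lit 3535212498) (nat_lit 667) (nat_lit 3) (nat_lit 670) (nat_lit 3) (nat_lit 670) (nat_lit 5) (nat_lit 382) (nat_lit 381) (nat_lit 377)) (XT.nd (nat_lit 78) (nat_lit 228) (nat_lit 0) (XT.lf (nat_lit 76) (nat_lit 2787535556) (nat_lit 0) (nat_lit 2731948376) (nat_lit 228) (nat_lit 931161268) (nat_lit 668) (nat_lit 5) (nat_lit 667)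 (nat_lit 3) (nat_lit 670) (nat_lit 5) (nat_lit 383) (nat_lit 381) (nat_lit 376)) (XT.lf (nat_lit 0) (nat_lit 1971495402) (nat_lit 228) (nat_lit 524759791) (nat_lit 304) (nat_lit 3959628188) (nat_lit 664) (nat_lit 5) (nat_lit 667) (nat_lit 3) (nat_lit 668) (nat_lit 5) (nat_lit 384) (nat_lit 381) (nat_lit 375)))) (XT.nd (nat_lit 78) (nat_lit 304) (nat_lit 0) (XT.lf (nat_lit 76) (nat_lit 2665563519) (nat_lit 0) (nat_lit 2196214792) (nat_lit 304) (nat_lit 1600553691) (nat_lit 665) (nat_lit 5) (nat_lit 664) (nat_lit 5) (nat_lit 668) (nat_lit 5) (nat_lit 385) (nat_lit 381) (nat_lit 374)) (XT.nd (nat_lit 78) (nat_lit 0) (nat_lit 0) (XT.lf (nat_lit 0) (nat_lit 1252301120) (nat_lit 304) (nat_lit 591146621) (nat_lit 380) (nat_lit 4626776016) (nat_lit 660) (nat_lit 5) (nat_lit 664) (nat_lit 5) (nat_lit 665) (nat_lit 5) (nat_lit 386) (nat_lit 381) (nat_lit 373)) (XT.lf (nat_lit 76) (nat_lit 2663325527) (nat_lit 0) (nat_lit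 1421617215) (nat_lit 380) (nat_lit 2394301379) (nat_lit 661) (nat_lit 5) (nat_lit 660) (nat_lit 5) (nat_lit 665) (nat_lit 5) (nat_lit 387) (nat_lit 381) (nat_lit 372))))))))
noncomputable def xc99 : XT := (XT.nd (nat_lit 1638) (nat_lit 17100) (nat_lit 0) (XT.nd (nat_lit 780) (nat_lit 5548) (nat_lit 0) (XT.nd (nat_lit 390) (nat_lit 1748) (nat_lit 0) (XT.nd (nat_lit 156) (nat_lit 380) (nat_lit 0) (XT.nd (nat_lit 78) (nat_lit 0) (nat_lit 0) (XT.lf (nat_lit 0) (nat_lit 410902114) (nat_lit 380) (nat_lit 541004308) (nat_lit 456) (nat_lit 5537908809) (nat_lit 655) (nat_lit 5) (nat_lit 660) (nat_lit 5) (nat_lit 661) (nat_lit 5) (nat_lit 388) (nat_lit 381) (nat_lit 371)) (XT.lf (nat_lit 76) (nat_lit 2780450754) (nat_lit 0) (nat_lit 406691419) (nat_lit 456) (nat_lit 3314261028) (nat_lit 656) (nat_lit 5) (nat_lit 655) (nat_lit 5) (nat_lit 661) (nat_lit 5) (nat_lit 389) (nat_lit 381) (nat_lit 370))) (XT.nd (nat_lit 78)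 (nat_lit 456) (nat_lit 0) (XT.lf (nat_lit 0) (nat_lit 5953779063) (nat_lit 380) (nat_lit 379441773) (nat_lit 76) (nat_lit 181365247) (nat_lit 656) (nat_lit 5) (nat_lit 661) (nat_lit 5) (nat_lit 657) (nat_lit 5) (nat_lit 390) (nat_lit 381) (nat_lit 369)) (XT.nd (nat_lit 78) (nat_lit 0) (nat_lit 0) (XT.lf (nat_lit 0) (nat_lit 2171826712) (nat_lit 456) (nat_lit 3517574911) (nat_lit 76) (nat_lit 839325573) (nat_lit 650) (nat_lit 5) (nat_lit 656) (nat_lit 5) (nat_lit 651) (nat_lit 5) (nat_lit 391) (nat_lit 381) (nat_lit 368)) (XT.lf (nat_lit 0) (nat_lit 4886367769) (nat_lit 456) (nat_lit 112985699) (nat_lit 76) (nat_lit 1545085347) (nat_lit 650) (nat_lit 5) (nat_lit 656) (nat_lit 5) (nat_lit 651) (nat_lit 5) (nat_lit 392) (nat_lit 381) (nat_lit 367))))) (XT.nd (nat_lit 156) (nat_lit 684) (nat_lit 0) (XT.nd (nat_lit 78) (nat_lit 532) (nat_lit 0) (XT.lf (nat_lit 0) (nat_lit 1035389468) (nat_lit 532) (nat_lit 3204468827)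 (nat_lit 76) (nat_lit 2321418857) (nat_lit 643) (nat_lit 5) (nat_lit 650) (nat_lit 5) (nat_lit 644) (nat_lit 5) (nat_lit 393) (nat_lit 381) (nat_lit 366)) (XT.lf (nat_lit 0) (nat_lit 270938932) (nat_lit 532) (nat_lit 3426202654) (nat_lit 608) (nat_lit 2882412800) (nat_lit 636) (nat_lit 5) (nat_lit 643) (nat_lit 5) (nat_lit 644) (nat_lit 5) (nat_lit 394) (nat_lit 381) (nat_lit 365))) (XT.nd (nat_lit 78) (nat_lit 684) (nat_lit 0) (XT.lf (nat_lit 0) (nat_lit 3818838623) (nat_lit 532) (nat_lit 2549904555) (nat_lit 608) (nat_lit 230374450) (nat_lit 636) (nat_lit 5) (nat_lit 643) (nat_lit 5) (nat_lit 644) (nat_lit 5) (nat_lit 395) (nat_lit 381) (nat_lit 364)) (XT.nd (nat_lit 78) (nat_lit 0) (nat_lit 0) (XT.lf (nat_lit 0) (nat_lit 772120398) (nat_lit 608) (nat_lit 1611051945) (nat_lit 684) (nat_lit 4236810668) (nat_lit 627) (nat_lit 5) (nat_lit 635) (nat_lit 5) (nat_lit 636) (nat_lit 5) (nat_lit 396) (nat_lit 381)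 (nat_lit 363)) (XT.lf (nat_lit 0) (nat_lit 4391413282) (nat_lit 608) (nat_lit 610047837) (nat_lit 684) (nat_lit 1640712721) (nat_lit 627) (nat_lit 5) (nat_lit 635) (nat_lit 5) (nat_lit 636) (nat_lit 5) (nat_lit 397) (nat_lit 381) (nat_lit 362)))))) (XT.nd (nat_lit 390) (nat_lit 3116) (nat_lit 0) (XT.nd (nat_lit 156) (nat_lit 1672) (nat_lit 0) (XT.nd (nat_lit 78) (nat_lit 0) (nat_lit 0) (XT.lf (nat_lit 0) (nat_lit 943717255) (nat_lit 760) (nat_lit 5279118789) (nat_lit 76) (nat_lit 442896995) (nat_lit 617) (nat_lit 5) (nat_lit 627) (nat_lit 5) (nat_lit 618) (nat_lit 5) (nat_lit 398) (nat_lit 381) (nat_lit 361)) (XT.lf (nat_lit 0) (nat_lit 3515915551) (nat_lit 760) (nat_lit 1618748771) (nat_lit 76) (nat_lit 1555768064) (nat_lit 617) (nat_lit 5) (nat_lit 627) (nat_lit 5) (nat_lit 618) (nat_lit 5) (nat_lit 399) (nat_lit 381) (nat_lit 360))) (XT.nd (nat_lit 78) (nat_lit 912) (nat_lit 0) (XT.lf (nat_lit 0) (nat_lit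 2101678907) (nat_lit 760) (nat_lit 3991509165) (nat_lit 836) (nat_lit 623410968) (nat_lit 607) (nat_lit 5) (nat_lit 617) (nat_lit 5) (nat_lit 618) (nat_lit 5) (nat_lit 400) (nat_lit 381) (nat_lit 359)) (XT.nd (nat_lit 78) (nat_lit 836) (nat_lit 0) (XT.lf (nat_lit 0) (nat_lit 1904163486) (nat_lit 836) (nat_lit 878814284) (nat_lit 76) (nat_lit 3961070498) (nat_lit 606) (nat_lit 5) (nat_lit 617) (nat_lit 5) (nat_lit 607) (nat_lit 5) (nat_lit 401) (nat_lit 381) (nat_lit 358)) (XT.lf (nat_lit 0) (nat_lit 2925785633) (nat_lit 836) (nat_lit 1508790762) (nat_lit 912) (nat_lit 2338218258) (nat_lit 595) (nat_lit 5) (nat_lit 606) (nat_lit 5) (nat_lit 607) (nat_lit 5) (nat_lit 402) (nat_lit 381) (nat_lit 357))))) (XT.nd (nat_lit 234) (nat_lit 1140) (nat_lit 0) (XT.nd (nat_lit 78) (nat_lit 1900) (nat_lit 0) (XT.lf (nat_lit 0) (nat_lit 158709490) (nat_lit 912) (nat_lit 26049640) (nat_lit 76) (nat_lit 6618410152) (nat_lit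 594) (nat_lit 5) (nat_lit 606) (nat_lit 5) (nat_lit 595) (nat_lit 5) (nat_lit 403) (nat_lit 381) (nat_lit 356)) (XT.nd (nat_lit 78) (nat_lit 988) (nat_lit 0) (XT.lf (nat_lit 0) (nat_lit 2650571161) (nat_lit 988) (nat_lit 2976121641) (nat_lit 76) (nat_lit 1207664187) (nat_lit 582) (nat_lit 5) (nat_lit 595) (nat_lit 5) (nat_lit 583) (nat_lit 5) (nat_lit 404) (nat_lit 381) (nat_lit 355)) (XT.lf (nat_lit 0) (nat_lit 924079055) (nat_lit 988) (nat_lit 4219774653) (nat_lit 1064) (nat_lit 1723323048) (nat_lit 569) (nat_lit 5) (nat_lit 582) (nat_lit 5) (nat_lit 583) (nat_lit 5) (nat_lit 405) (nat_lit 381) (nat_lit 354)))) (XT.nd (nat_lit 78) (nat_lit 1064) (nat_lit 0) (XT.lf (nat_lit 0) (nat_lit 740749645) (nat_lit 1064) (nat_lit 2004578655) (nat_lit 76) (nat_lit 4155966659) (nat_lit 568) (nat_lit 5) (nat_lit 582) (nat_lit 5) (nat_lit 569) (nat_lit 5) (nat_lit 406) (nat_lit 381) (nat_lit 353)) (XT.nd (nat_lit 78) (nat_lit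 0) (nat_lit 0) (XT.lf (nat_lit 0) (nat_lit 1986455380) (nat_lit 1064) (nat_lit 1203188311) (nat_lit 1140) (nat_lit 3747089382) (nat_lit 554) (nat_lit 5) (nat_lit 568) (nat_lit 5) (nat_lit 569) (nat_lit 5) (nat_lit 407) (nat_lit 381) (nat_lit 352)) (XT.lf (nat_lit 0) (nat_lit 5650038279) (nat_lit 1140) (nat_lit 932435180) (nat_lit 76) (nat_lit 391192970) (nat_lit 554) (nat_lit 5) (nat_lit 569) (nat_lit 5) (nat_lit 555) (nat_lit 5) (nat_lit 408) (nat_lit 381) (nat_lit 351))))))) (XT.nd (nat_lit 780) (nat_lit 8816) (nat_lit 0) (XT.nd (nat_lit 390) (nat_lit 4484) (nat_lit 0) (XT.nd (nat_lit 156) (nat_lit 1368) (nat_lit 0) (XT.nd (nat_lit 78) (nat_lit 1216) (nat_lit 0) (XT.lf (nat_lit 0) (nat_lit 1109149782) (nat_lit 1216) (nat_lit 3860929981) (nat_lit 76) (nat_lit 2041626927) (nat_lit 538) (nat_lit 5) (nat_lit 554) (nat_lit 5) (nat_lit 539) (nat_lit 5) (nat_lit 409) (nat_lit 381) (nat_lit 350)) (XT.lf (nat_lit 0)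 (nat_lit 230674848) (nat_lit 1216) (nat_lit 3298011807) (nat_lit 1292) (nat_lit 3522564386) (nat_lit 522) (nat_lit 5) (nat_lit 538) (nat_lit 5) (nat_lit 539) (nat_lit 5) (nat_lit 410) (nat_lit 381) (nat_lit 349))) (XT.nd (nat_lit 78) (nat_lit 1368) (nat_lit 0) (XT.lf (nat_lit 0) (nat_lit 4415267481) (nat_lit 1216) (nat_lit 1556021556) (nat_lit 1292) (nat_lit 1120837869) (nat_lit 522) (nat_lit 5) (nat_lit 538) (nat_lit 5) (nat_lit 539) (nat_lit 5) (nat_lit 411) (nat_lit 381) (nat_lit 348)) (XT.nd (nat_lit 78) (nat_lit 0) (nat_lit 0) (XT.lf (nat_lit 0) (nat_lit 1272385449) (nat_lit 1368) (nat_lit 5616152940) (nat_lit 76) (nat_lit 245924303) (nat_lit 504) (nat_lit 5) (nat_lit 522) (nat_lit 5) (nat_lit 505) (nat_lit 5) (nat_lit 412) (nat_lit 381) (nat_lit 347)) (XT.lf (nat_lit 0) (nat_lit 3677056885) (nat_lit 1368) (nat_lit 1403360624) (nat_lit 76) (nat_lit 2097539831) (nat_lit 504) (nat_lit 5) (nat_lit 522) (nat_lit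 5) (nat_lit 505) (nat_lit 5) (nat_lit 413) (nat_lit 381) (nat_lit 346))))) (XT.nd (nat_lit 156) (nat_lit 3040) (nat_lit 0) (XT.nd (nat_lit 78) (nat_lit 76) (nat_lit 0) (XT.lf (nat_lit 0) (nat_lit 2890522722) (nat_lit 1368) (nat_lit 3209233635) (nat_lit 1444) (nat_lit 1123198355) (nat_lit 486) (nat_lit 5) (nat_lit 504) (nat_lit 5) (nat_lit 505) (nat_lit 5) (nat_lit 414) (nat_lit 381) (nat_lit 345)) (XT.lf (nat_lit 0) (nat_lit 1245971401) (nat_lit 1444) (nat_lit 29352229) (nat_lit 76) (nat_lit 5994169818) (nat_lit 485) (nat_lit 5) (nat_lit 504) (nat_lit 5) (nat_lit 486) (nat_lit 5) (nat_lit 415) (nat_lit 381) (nat_lit 344))) (XT.nd (nat_lit 78) (nat_lit 1596) (nat_lit 0) (XT.lf (nat_lit 0) (nat_lit 3633135631) (nat_lit 1520) (nat_lit 2953051130) (nat_lit 76) (nat_lit 730944401) (nat_lit 466) (nat_lit 5) (nat_lit 486) (nat_lit 5) (nat_lit 467) (nat_lit 5) (nat_lit 416) (nat_lit 381) (nat_lit 343)) (XT.nd (nat_lit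 78) (nat_lit 76) (nat_lit 0) (XT.lf (nat_lit 0) (nat_lit 1449214004) (nat_lit 1520) (nat_lit 4590055827) (nat_lit 1596) (nat_lit 1327056388) (nat_lit 446) (nat_lit 5) (nat_lit 466) (nat_lit 5) (nat_lit 467) (nat_lit 5) (nat_lit 417) (nat_lit 381) (nat_lit 342)) (XT.lf (nat_lit 0) (nat_lit 1036334392) (nat_lit 1596) (nat_lit 1485459331) (nat_lit 76) (nat_lit 4895130828) (nat_lit 445) (nat_lit 5) (nat_lit 466) (nat_lit 5) (nat_lit 446) (nat_lit 5) (nat_lit 418) (nat_lit 381) (nat_lit 341)))))) (XT.nd (nat_lit 390) (nat_lit 3724) (nat_lit 0) (XT.nd (nat_lit 156) (nat_lit 1824) (nat_lit 0) (XT.nd (nat_lit 78) (nat_lit 1672) (nat_lit 0) (XT.lf (nat_lit 0) (nat_lit 3024747148) (nat_lit 1596) (nat_lit 378534207) (nat_lit 1672) (nat_lit 4065624347) (nat_lit 424) (nat_lit 5) (nat_lit 445) (nat_lit 5) (nat_lit 446) (nat_lit 5) (nat_lit 419) (nat_lit 381) (nat_lit 340)) (XT.lf (nat_lit 0) (nat_lit 71050531) (nat_lit 1672)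 (nat_lit 5723808354) (nat_lit 1748) (nat_lit 1727548664) (nat_lit 402) (nat_lit 5) (nat_lit 424) (nat_lit 5) (nat_lit 425) (nat_lit 5) (nat_lit 420) (nat_lit 381) (nat_lit 339))) (XT.nd (nat_lit 78) (nat_lit 1748) (nat_lit 0) (XT.lf (nat_lit 0) (nat_lit 636548055) (nat_lit 1748) (nat_lit 2888540212) (nat_lit 76) (nat_lit 4052074075) (nat_lit 401) (nat_lit 5) (nat_lit 424) (nat_lit 5) (nat_lit 402) (nat_lit 5) (nat_lit 421) (nat_lit 381) (nat_lit 338)) (XT.nd (nat_lit 78) (nat_lit 0) (nat_lit 0) (XT.lf (nat_lit 0) (nat_lit 1735688562) (nat_lit 1748) (nat_lit 1256625554) (nat_lit 1824) (nat_lit 4641144700) (nat_lit 378) (nat_lit 5) (nat_lit 401) (nat_lit 5) (nat_lit 402) (nat_lit 5) (nat_lit 422) (nat_lit 381) (nat_lit 337)) (XT.lf (nat_lit 0) (nat_lit 5378407553) (nat_lit 1824) (nat_lit 1247729092) (nat_lit 76) (nat_lit 1065105189) (nat_lit 378) (nat_lit 5) (nat_lit 402) (nat_lit 5) (nat_lit 379) (nat_lit 5)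 (nat_lit 423) (nat_lit 381) (nat_lit 336))))) (XT.nd (nat_lit 234) (nat_lit 1748) (nat_lit 0) (XT.nd (nat_lit 78) (nat_lit 912) (nat_lit 0) (XT.lf (nat_lit 0) (nat_lit 49805075) (nat_lit 1064) (nat_lit 4258952823) (nat_lit 76) (nat_lit 3441666921) (nat_lit 364) (nat_lit 5) (nat_lit 378) (nat_lit 5) (nat_lit 365) (nat_lit 5) (nat_lit 424) (nat_lit 381) (nat_lit 335)) (XT.nd (nat_lit 78) (nat_lit 0) (nat_lit 0) (XT.lf (nat_lit 0) (nat_lit 481394755) (nat_lit 912) (nat_lit 1916864147) (nat_lit 988) (nat_lit 5412859615) (nat_lit 352) (nat_lit 5) (nat_lit 364) (nat_lit 5) (nat_lit 365) (nat_lit 5) (nat_lit 425) (nat_lit 381) (nat_lit 334)) (XT.lf (nat_lit 0) (nat_lit 4784354667) (nat_lit 988) (nat_lit 2543635294) (nat_lit 76) (nat_lit 545245636) (nat_lit 352) (nat_lit 5) (nat_lit 365) (nat_lit 5) (nat_lit 353) (nat_lit 5) (nat_lit 426) (nat_lit 381) (nat_lit 333)))) (XT.nd (nat_lit 78) (nat_lit 912) (nat_lit 0) (XT.lf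 (nat_lit 0) (nat_lit 2314783160) (nat_lit 836) (nat_lit 4890435277) (nat_lit 912) (nat_lit 731658171) (nat_lit 341) (nat_lit 5) (nat_lit 352) (nat_lit 5) (nat_lit 353) (nat_lit 5) (nat_lit 427) (nat_lit 381) (nat_lit 332)) (XT.nd (nat_lit 78) (nat_lit 836) (nat_lit 0) (XT.lf (nat_lit 0) (nat_lit 1627521002) (nat_lit 912) (nat_lit 748917777) (nat_lit 76) (nat_lit 5625621096) (nat_lit 340) (nat_lit 5) (nat_lit 352) (nat_lit 5) (nat_lit 341) (nat_lit 5) (nat_lit 428) (nat_lit 381) (nat_lit 331)) (XT.lf (nat_lit 0) (nat_lit 4013360211) (nat_lit 912) (nat_lit 3838299107) (nat_lit 76) (nat_lit 217026511) (nat_lit 329) (nat_lit 5) (nat_lit 341) (nat_lit 5) (nat_lit 330) (nat_lit 5) (nat_lit 429) (nat_lit 381) (nat_lit 330))))))))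
noncomputable def xc100 : XT := (XT.nd (nat_lit 1560) (nat_lit 6536) (nat_lit 0) (XT.nd (nat_lit 780) (nat_lit 4028) (nat_lit 0) (XT.nd (nat_lit 390) (nat_lit 2280) (nat_lit 0) (XT.nd (nat_lit 156) (nat_lit 1520) (nat_lit 0) (XT.nd (nat_lit 78) (nat_lit 76) (nat_lit 0) (XT.lf (nat_lit 0) (nat_lit 1141015170) (nat_lit 760) (nat_lit 5294975013) (nat_lit 836) (nat_lit 1700893437) (nat_lit 319) (nat_lit 5) (nat_lit 329) (nat_lit 5) (nat_lit 330) (nat_lit 5) (nat_lit 430) (nat_lit 381) (nat_lit 329)) (XT.lf (nat_lit 0) (nat_lit 678461428) (nat_lit 836) (nat_lit 1980035173) (nat_lit 76) (nat_lit 5548137321) (nat_lit 318) (nat_lit 5) (nat_lit 329) (nat_lit 5) (nat_lit 319) (nat_lit 5) (nat_lit 431) (nat_lit 381) (nat_lit 328))) (XT.nd (nat_lit 78) (nat_lit 760) (nat_lit 0) (XT.lf (nat_lit 0) (nat_lit 3065192452) (nat_lit 836) (nat_lit 5153003702) (nat_lit 76) (nat_lit 59726535) (nat_lit 308) (nat_lit 5) (nat_lit 319)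 (nat_lit 5) (nat_lit 309) (nat_lit 5) (nat_lit 432) (nat_lit 381) (nat_lit 327)) (XT.nd (nat_lit 78) (nat_lit 760) (nat_lit 0) (XT.lf (nat_lit 0) (nat_lit 5492966914) (nat_lit 836) (nat_lit 50262088) (nat_lit 76) (nat_lit 2807561268) (nat_lit 308) (nat_lit 5) (nat_lit 319) (nat_lit 5) (nat_lit 309) (nat_lit 5) (nat_lit 433) (nat_lit 381) (nat_lit 326)) (XT.lf (nat_lit 0) (nat_lit 5182296405) (nat_lit 760) (nat_lit 2783713844) (nat_lit 836) (nat_lit 459189523) (nat_lit 298) (nat_lit 5) (nat_lit 308) (nat_lit 5) (nat_lit 309) (nat_lit 5) (nat_lit 434) (nat_lit 381) (nat_lit 325))))) (XT.nd (nat_lit 156) (nat_lit 1444) (nat_lit 0) (XT.nd (nat_lit 78) (nat_lit 0) (nat_lit 0) (XT.lf (nat_lit 0) (nat_lit 1938245736) (nat_lit 836) (nat_lit 6509808948) (nat_lit 76) (nat_lit 53264933) (nat_lit 287) (nat_lit 5) (nat_lit 298) (nat_lit 5) (nat_lit 288) (nat_lit 5) (nat_lit 435) (nat_lit 381) (nat_lit 324)) (XT.lf (nat_lit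 0) (nat_lit 4381533297) (nat_lit 836) (nat_lit 1266473576) (nat_lit 76) (nat_lit 2930830988) (nat_lit 287) (nat_lit 5) (nat_lit 298) (nat_lit 5) (nat_lit 288) (nat_lit 5) (nat_lit 436) (nat_lit 381) (nat_lit 323))) (XT.nd (nat_lit 78) (nat_lit 760) (nat_lit 0) (XT.lf (nat_lit 0) (nat_lit 4095343543) (nat_lit 684) (nat_lit 2769349909) (nat_lit 760) (nat_lit 1793410285) (nat_lit 278) (nat_lit 5) (nat_lit 287) (nat_lit 5) (nat_lit 288) (nat_lit 5) (nat_lit 437) (nat_lit 381) (nat_lit 322)) (XT.nd (nat_lit 78) (nat_lit 0) (nat_lit 0) (XT.lf (nat_lit 0) (nat_lit 629508473) (nat_lit 760) (nat_lit 7931754547) (nat_lit 76) (nat_lit 178031446) (nat_lit 268) (nat_lit 5) (nat_lit 278) (nat_lit 5) (nat_lit 269) (nat_lit 5) (nat_lit 438) (nat_lit 381) (nat_lit 321)) (XT.lf (nat_lit 0) (nat_lit 3091063165) (nat_lit 760) (nat_lit 2545557585) (nat_lit 76) (nat_lit 3184983745) (nat_lit 268) (nat_lit 5) (nat_lit 278) (nat_lit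 5) (nat_lit 269) (nat_lit 5) (nat_lit 439) (nat_lit 381) (nat_lit 320)))))) (XT.nd (nat_lit 390) (nat_lit 1976) (nat_lit 0) (XT.nd (nat_lit 156) (nat_lit 1368) (nat_lit 0) (XT.nd (nat_lit 78) (nat_lit 0) (nat_lit 0) (XT.lf (nat_lit 0) (nat_lit 2947076845) (nat_lit 684) (nat_lit 2639600123) (nat_lit 760) (nat_lit 3319203272) (nat_lit 259) (nat_lit 5) (nat_lit 268) (nat_lit 5) (nat_lit 269) (nat_lit 5) (nat_lit 440) (nat_lit 381) (nat_lit 319)) (XT.lf (nat_lit 0) (nat_lit 8118179154) (nat_lit 760) (nat_lit 450584302) (nat_lit 76) (nat_lit 423374285) (nat_lit 259) (nat_lit 5) (nat_lit 269) (nat_lit 5) (nat_lit 260) (nat_lit 5) (nat_lit 441) (nat_lit 381) (nat_lit 318))) (XT.nd (nat_lit 78) (nat_lit 608) (nat_lit 0) (XT.lf (nat_lit 0) (nat_lit 1616885564) (nat_lit 760) (nat_lit 3911718900) (nat_lit 76) (nat_lit 3550961818) (nat_lit 249) (nat_lit 5) (nat_lit 259) (nat_lit 5) (nat_lit 250) (nat_lit 5) (nat_lit 442)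 (nat_lit 381) (nat_lit 317)) (XT.nd (nat_lit 78) (nat_lit 0) (nat_lit 0) (XT.lf (nat_lit 0) (nat_lit 1712996011) (nat_lit 608) (nat_lit 2413925829) (nat_lit 684) (nat_lit 5042099319) (nat_lit 241) (nat_lit 5) (nat_lit 249) (nat_lit 5) (nat_lit 250) (nat_lit 5) (nat_lit 443) (nat_lit 381) (nat_lit 316)) (XT.lf (nat_lit 0) (nat_lit 6685786370) (nat_lit 684) (nat_lit 1801736896) (nat_lit 76) (nat_lit 772783880) (nat_lit 241) (nat_lit 5) (nat_lit 250) (nat_lit 5) (nat_lit 242) (nat_lit 5) (nat_lit 444) (nat_lit 381) (nat_lit 315))))) (XT.nd (nat_lit 156) (nat_lit 684) (nat_lit 0) (XT.nd (nat_lit 78) (nat_lit 684) (nat_lit 0) (XT.lf (nat_lit 0) (nat_lit 3962305129) (nat_lit 608) (nat_lit 5343127190) (nat_lit 684) (nat_lit 47808726) (nat_lit 233) (nat_lit 5) (nat_lit 241) (nat_lit 5) (nat_lit 242) (nat_lit 5) (nat_lit 445) (nat_lit 381) (nat_lit 314)) (XT.lf (nat_lit 0) (nat_lit 367078809) (nat_lit 608) (nat_lit 2111782722)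 (nat_lit 684) (nat_lit 6969205398) (nat_lit 224) (nat_lit 5) (nat_lit 232) (nat_lit 5) (nat_lit 233) (nat_lit 5) (nat_lit 446) (nat_lit 381) (nat_lit 313))) (XT.nd (nat_lit 78) (nat_lit 684) (nat_lit 0) (XT.lf (nat_lit 0) (nat_lit 5067895981) (nat_lit 684) (nat_lit 3278808662) (nat_lit 76) (nat_lit 1197842401) (nat_lit 224) (nat_lit 5) (nat_lit 233) (nat_lit 5) (nat_lit 225) (nat_lit 5) (nat_lit 447) (nat_lit 381) (nat_lit 312)) (XT.nd (nat_lit 78) (nat_lit 76) (nat_lit 0) (XT.lf (nat_lit 0) (nat_lit 2620754156) (nat_lit 608) (nat_lit 5087944440) (nat_lit 684) (nat_lit 1934271607) (nat_lit 216) (nat_lit 5) (nat_lit 224) (nat_lit 5) (nat_lit 225) (nat_lit 5) (nat_lit 448) (nat_lit 381) (nat_lit 311)) (XT.lf (nat_lit 0) (nat_lit 641588320) (nat_lit 684) (nat_lit 1103805170) (nat_lit 76) (nat_lit 7998069939) (nat_lit 215) (nat_lit 5) (nat_lit 224) (nat_lit 5) (nat_lit 216) (nat_lit 5) (nat_lit 449) (nat_lit 381)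 (nat_lit 310))))))) (XT.nd (nat_lit 780) (nat_lit 3268) (nat_lit 0) (XT.nd (nat_lit 390) (nat_lit 1596) (nat_lit 0) (XT.nd (nat_lit 156) (nat_lit 608) (nat_lit 0) (XT.nd (nat_lit 78) (nat_lit 532) (nat_lit 0) (XT.lf (nat_lit 0) (nat_lit 3255986939) (nat_lit 608) (nat_lit 4910138170) (nat_lit 76) (nat_lit 1679339702) (nat_lit 208) (nat_lit 5) (nat_lit 216) (nat_lit 5) (nat_lit 209) (nat_lit 5) (nat_lit 450) (nat_lit 381) (nat_lit 309)) (XT.lf (nat_lit 0) (nat_lit 1125247452) (nat_lit 532) (nat_lit 4793771143) (nat_lit 608) (nat_lit 4030572908) (nat_lit 201) (nat_lit 5) (nat_lit 208) (nat_lit 5) (nat_lit 209) (nat_lit 5) (nat_lit 451) (nat_lit 381) (nat_lit 308))) (XT.nd (nat_lit 78) (nat_lit 608) (nat_lit 0) (XT.lf (nat_lit 0) (nat_lit 7309406121) (nat_lit 532) (nat_lit 1329216364) (nat_lit 608) (nat_lit 1417123959) (nat_lit 201) (nat_lit 5) (nat_lit 208) (nat_lit 5) (nat_lit 209) (nat_lit 5) (nat_lit 452) (nat_lit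 381) (nat_lit 307)) (XT.nd (nat_lit 78) (nat_lit 0) (nat_lit 0) (XT.lf (nat_lit 0) (nat_lit 1239830307) (nat_lit 608) (nat_lit 6726213901) (nat_lit 76) (nat_lit 2197677386) (nat_lit 193) (nat_lit 5) (nat_lit 201) (nat_lit 5) (nat_lit 194) (nat_lit 5) (nat_lit 453) (nat_lit 381) (nat_lit 306)) (XT.lf (nat_lit 0) (nat_lit 3929329054) (nat_lit 608) (nat_lit 547956688) (nat_lit 76) (nat_lit 5796426804) (nat_lit 193) (nat_lit 5) (nat_lit 201) (nat_lit 5) (nat_lit 194) (nat_lit 5) (nat_lit 454) (nat_lit 381) (nat_lit 305))))) (XT.nd (nat_lit 156) (nat_lit 608) (nat_lit 0) (XT.nd (nat_lit 78) (nat_lit 456) (nat_lit 0) (XT.lf (nat_lit 0) (nat_lit 5792164941) (nat_lit 532) (nat_lit 889636618) (nat_lit 608) (nat_lit 3703929120) (nat_lit 186) (nat_lit 5) (nat_lit 193) (nat_lit 5) (nat_lit 194) (nat_lit 5) (nat_lit 455) (nat_lit 381) (nat_lit 304)) (XT.lf (nat_lit 0) (nat_lit 1733396617) (nat_lit 456) (nat_lit 7760696969)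 (nat_lit 532) (nat_lit 1005811005) (nat_lit 180) (nat_lit 5) (nat_lit 186) (nat_lit 5) (nat_lit 187) (nat_lit 5) (nat_lit 456) (nat_lit 381) (nat_lit 303))) (XT.nd (nat_lit 78) (nat_lit 532) (nat_lit 0) (XT.lf (nat_lit 0) (nat_lit 1732231678) (nat_lit 532) (nat_lit 2422078439) (nat_lit 76) (nat_lit 6461658211) (nat_lit 179) (nat_lit 5) (nat_lit 186) (nat_lit 5) (nat_lit 180) (nat_lit 5) (nat_lit 457) (nat_lit 381) (nat_lit 302)) (XT.nd (nat_lit 78) (nat_lit 0) (nat_lit 0) (XT.lf (nat_lit 0) (nat_lit 4058488395) (nat_lit 532) (nat_lit 451935947) (nat_lit 608) (nat_lit 6223829084) (nat_lit 172) (nat_lit 5) (nat_lit 179) (nat_lit 5) (nat_lit 180) (nat_lit 5) (nat_lit 458) (nat_lit 381) (nat_lit 301)) (XT.lf (nat_lit 0) (nat_lit 7354855218) (nat_lit 608) (nat_lit 212335764) (nat_lit 76) (nat_lit 3287509754) (nat_lit 172) (nat_lit 5) (nat_lit 180) (nat_lit 5) (nat_lit 173) (nat_lit 5) (nat_lit 459) (nat_lit 381)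 (nat_lit 300)))))) (XT.nd (nat_lit 390) (nat_lit 1824) (nat_lit 0) (XT.nd (nat_lit 156) (nat_lit 456) (nat_lit 0) (XT.nd (nat_lit 78) (nat_lit 532) (nat_lit 0) (XT.lf (nat_lit 0) (nat_lit 6424805460) (nat_lit 456) (nat_lit 3849339568) (nat_lit 532) (nat_lit 703062357) (nat_lit 166) (nat_lit 5) (nat_lit 172) (nat_lit 5) (nat_lit 173) (nat_lit 5) (nat_lit 460) (nat_lit 381) (nat_lit 299)) (XT.lf (nat_lit 0) (nat_lit 2071688991) (nat_lit 456) (nat_lit 38024787) (nat_lit 532) (nat_lit 8992415661) (nat_lit 159) (nat_lit 5) (nat_lit 165) (nat_lit 5) (nat_lit 166) (nat_lit 5) (nat_lit 461) (nat_lit 381) (nat_lit 298))) (XT.nd (nat_lit 78) (nat_lit 456) (nat_lit 0) (XT.lf (nat_lit 0) (nat_lit 4998667229) (nat_lit 532) (nat_lit 2405993396) (nat_lit 76) (nat_lit 3824218881) (nat_lit 159) (nat_lit 5) (nat_lit 166) (nat_lit 5) (nat_lit 160) (nat_lit 5) (nat_lit 462) (nat_lit 381) (nat_lit 297)) (XT.nd (nat_lit 78) (nat_lit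 0) (nat_lit 0) (XT.lf (nat_lit 0) (nat_lit 4371580518) (nat_lit 456) (nat_lit 3576554311) (nat_lit 532) (nat_lit 3409984098) (nat_lit 153) (nat_lit 5) (nat_lit 159) (nat_lit 5) (nat_lit 160) (nat_lit 5) (nat_lit 463) (nat_lit 381) (nat_lit 296)) (XT.lf (nat_lit 0) (nat_lit 10949278684) (nat_lit 532) (nat_lit 211195004) (nat_lit 76) (nat_lit 329624587) (nat_lit 153) (nat_lit 5) (nat_lit 160) (nat_lit 5) (nat_lit 154) (nat_lit 5) (nat_lit 464) (nat_lit 381) (nat_lit 295))))) (XT.nd (nat_lit 234) (nat_lit 912) (nat_lit 0) (XT.nd (nat_lit 78) (nat_lit 380) (nat_lit 0) (XT.lf (nat_lit 0) (nat_lit 2396887894) (nat_lit 532) (nat_lit 4911377882) (nat_lit 76) (nat_lit 4315301191) (nat_lit 146) (nat_lit 5) (nat_lit 153) (nat_lit 5) (nat_lit 147) (nat_lit 5) (nat_lit 465) (nat_lit 381) (nat_lit 294)) (XT.nd (nat_lit 78) (nat_lit 0) (nat_lit 0) (XT.lf (nat_lit 0) (nat_lit 2003873087) (nat_lit 380) (nat_lit 3371575370) (nat_lit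 456) (nat_lit 6384406635) (nat_lit 141) (nat_lit 5) (nat_lit 146) (nat_lit 5) (nat_lit 147) (nat_lit 5) (nat_lit 466) (nat_lit 381) (nat_lit 293)) (XT.lf (nat_lit 0) (nat_lit 8426021922) (nat_lit 456) (nat_lit 2814845109) (nat_lit 76) (nat_lit 657761313) (nat_lit 141) (nat_lit 5) (nat_lit 147) (nat_lit 5) (nat_lit 142) (nat_lit 5) (nat_lit 467) (nat_lit 381) (nat_lit 292)))) (XT.nd (nat_lit 78) (nat_lit 456) (nat_lit 0) (XT.lf (nat_lit 0) (nat_lit 4263168205) (nat_lit 456) (nat_lit 7300020009) (nat_lit 532) (nat_lit 476485261) (nat_lit 135) (nat_lit 5) (nat_lit 141) (nat_lit 5) (nat_lit 142) (nat_lit 5) (nat_lit 468) (nat_lit 381) (nat_lit 291)) (XT.nd (nat_lit 78) (nat_lit 380) (nat_lit 0) (XT.lf (nat_lit 0) (nat_lit 2540396756) (nat_lit 532) (nat_lit 714764993) (nat_lit 76) (nat_lit 8928157125) (nat_lit 134) (nat_lit 5) (nat_lit 141) (nat_lit 5) (nat_lit 135) (nat_lit 5) (nat_lit 469) (nat_lit 381) (nat_lit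 290)) (XT.lf (nat_lit 0) (nat_lit 5635692809) (nat_lit 456) (nat_lit 5799448671) (nat_lit 76) (nat_lit 894151155) (nat_lit 129) (nat_lit 5) (nat_lit 135) (nat_lit 5) (nat_lit 130) (nat_lit 5) (nat_lit 470) (nat_lit 381) (nat_lit 289))))))))
noncomputable def xc101 : XT := (XT.nd (nat_lit 1638) (nat_lit 1900) (nat_lit 0) (XT.nd (nat_lit 780) (nat_lit 1900) (nat_lit 0) (XT.nd (nat_lit 390) (nat_lit 1064) (nat_lit 0) (XT.nd (nat_lit 156) (nat_lit 836) (nat_lit 0) (XT.nd (nat_lit 78) (nat_lit 0) (nat_lit 0) (XT.lf (nat_lit 0) (nat_lit 1412776323) (nat_lit 380) (nat_lit 7391980461) (nat_lit 456) (nat_lit 3673199275) (nat_lit 124) (nat_lit 5) (nat_lit 129) (nat_lit 5) (nat_lit 130) (nat_lit 5) (nat_lit 471) (nat_lit 381) (nat_lit 288)) (XT.lf (nat_lit 0) (nat_lit 8812982491) (nat_lit 380) (nat_lit 3239678836) (nat_lit 456) (nat_lit 576629520) (nat_lit 124) (nat_lit 5) (nat_lit 129) (nat_lit 5) (nat_lit 130) (nat_lit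 5) (nat_lit 472) (nat_lit 381) (nat_lit 287))) (XT.nd (nat_lit 78) (nat_lit 380) (nat_lit 0) (XT.lf (nat_lit 0) (nat_lit 2554707113) (nat_lit 456) (nat_lit 9216846516) (nat_lit 76) (nat_lit 1011636492) (nat_lit 118) (nat_lit 5) (nat_lit 124) (nat_lit 5) (nat_lit 119) (nat_lit 5) (nat_lit 473) (nat_lit 381) (nat_lit 286)) (XT.nd (nat_lit 78) (nat_lit 380) (nat_lit 0) (XT.lf (nat_lit 0) (nat_lit 5765190816) (nat_lit 456) (nat_lit 1851390603) (nat_lit 76) (nat_lit 5323031764) (nat_lit 118) (nat_lit 5) (nat_lit 124) (nat_lit 5) (nat_lit 119) (nat_lit 5) (nat_lit 474) (nat_lit 381) (nat_lit 285)) (XT.lf (nat_lit 0) (nat_lit 5702167299) (nat_lit 380) (nat_lit 3352190444) (nat_lit 456) (nat_lit 4044524219) (nat_lit 113) (nat_lit 5) (nat_lit 118) (nat_lit 5) (nat_lit 119) (nat_lit 5) (nat_lit 475) (nat_lit 381) (nat_lit 284))))) (XT.nd (nat_lit 156) (nat_lit 684) (nat_lit 0) (XT.nd (nat_lit 78) (nat_lit 76) (nat_lit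 0) (XT.lf (nat_lit 0) (nat_lit 131827853) (nat_lit 304) (nat_lit 12274918398) (nat_lit 380) (nat_lit 854647696) (nat_lit 109) (nat_lit 5) (nat_lit 113) (nat_lit 5) (nat_lit 114) (nat_lit 5) (nat_lit 476) (nat_lit 381) (nat_lit 283)) (XT.lf (nat_lit 0) (nat_lit 2417392778) (nat_lit 380) (nat_lit 5587288303) (nat_lit 76) (nat_lit 5421173307) (nat_lit 108) (nat_lit 5) (nat_lit 113) (nat_lit 5) (nat_lit 109) (nat_lit 5) (nat_lit 477) (nat_lit 381) (nat_lit 282))) (XT.nd (nat_lit 78) (nat_lit 304) (nat_lit 0) (XT.lf (nat_lit 0) (nat_lit 2094084754) (nat_lit 380) (nat_lit 3641055973) (nat_lit 456) (nat_lit 7858522333) (nat_lit 103) (nat_lit 5) (nat_lit 108) (nat_lit 5) (nat_lit 109) (nat_lit 5) (nat_lit 478) (nat_lit 381) (nat_lit 281)) (XT.nd (nat_lit 78) (nat_lit 304) (nat_lit 0) (XT.lf (nat_lit 0) (nat_lit 9140484402) (nat_lit 456) (nat_lit 3798459965) (nat_lit 76) (nat_lit 825464816) (nat_lit 103) (nat_lit 5)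 (nat_lit 109) (nat_lit 5) (nat_lit 104) (nat_lit 5) (nat_lit 479) (nat_lit 381) (nat_lit 280)) (XT.lf (nat_lit 0) (nat_lit 4052682154) (nat_lit 304) (nat_lit 8590345889) (nat_lit 380) (nat_lit 1294966297) (nat_lit 99) (nat_lit 5) (nat_lit 103) (nat_lit 5) (nat_lit 104) (nat_lit 5) (nat_lit 480) (nat_lit 381) (nat_lit 279)))))) (XT.nd (nat_lit 390) (nat_lit 836) (nat_lit 0) (XT.nd (nat_lit 156) (nat_lit 684) (nat_lit 0) (XT.nd (nat_lit 78) (nat_lit 304) (nat_lit 0) (XT.lf (nat_lit 0) (nat_lit 2077407398) (nat_lit 380) (nat_lit 2049120664) (nat_lit 76) (nat_lit 9988168405) (nat_lit 98) (nat_lit 5) (nat_lit 103) (nat_lit 5) (nat_lit 99) (nat_lit 5) (nat_lit 481) (nat_lit 381) (nat_lit 278)) (XT.lf (nat_lit 0) (nat_lit 5520891368) (nat_lit 380) (nat_lit 8316211259) (nat_lit 76) (nat_lit 457244395) (nat_lit 94) (nat_lit 5) (nat_lit 99) (nat_lit 5) (nat_lit 95) (nat_lit 5) (nat_lit 482) (nat_lit 381) (nat_lit 277)))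 (XT.nd (nat_lit 78) (nat_lit 684) (nat_lit 0) (XT.lf (nat_lit 0) (nat_lit 9053683154) (nat_lit 380) (nat_lit 343610008) (nat_lit 76) (nat_lit 5079894182) (nat_lit 94) (nat_lit 5) (nat_lit 99) (nat_lit 5) (nat_lit 95) (nat_lit 5) (nat_lit 483) (nat_lit 381) (nat_lit 276)) (XT.nd (nat_lit 78) (nat_lit 380) (nat_lit 0) (XT.lf (nat_lit 0) (nat_lit 7859572922) (nat_lit 304) (nat_lit 4828262310) (nat_lit 380) (nat_lit 1975240562) (nat_lit 90) (nat_lit 5) (nat_lit 94) (nat_lit 5) (nat_lit 95) (nat_lit 5) (nat_lit 484) (nat_lit 381) (nat_lit 275)) (XT.lf (nat_lit 0) (nat_lit 1354565371) (nat_lit 304) (nat_lit 158044111) (nat_lit 380) (nat_lit 13340060607) (nat_lit 85) (nat_lit 5) (nat_lit 89) (nat_lit 5) (nat_lit 90) (nat_lit 5) (nat_lit 485) (nat_lit 381) (nat_lit 274))))) (XT.nd (nat_lit 234) (nat_lit 608) (nat_lit 0) (XT.nd (nat_lit 78) (nat_lit 228) (nat_lit 0) (XT.lf (nat_lit 0) (nat_lit 5099496343) (nat_lit 380)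 (nat_lit 5352545219) (nat_lit 76) (nat_lit 4592644115) (nat_lit 85) (nat_lit 5) (nat_lit 90) (nat_lit 5) (nat_lit 86) (nat_lit 5) (nat_lit 486) (nat_lit 381) (nat_lit 273)) (XT.nd (nat_lit 78) (nat_lit 0) (nat_lit 0) (XT.lf (nat_lit 0) (nat_lit 2962224599) (nat_lit 228) (nat_lit 5796414593) (nat_lit 304) (nat_lit 6481897016) (nat_lit 82) (nat_lit 5) (nat_lit 85) (nat_lit 5) (nat_lit 86) (nat_lit 5) (nat_lit 487) (nat_lit 381) (nat_lit 272)) (XT.lf (nat_lit 0) (nat_lit 11484547908) (nat_lit 228) (nat_lit 1022758535) (nat_lit 304) (nat_lit 2932675377) (nat_lit 82) (nat_lit 5) (nat_lit 85) (nat_lit 5) (nat_lit 86) (nat_lit 5) (nat_lit 488) (nat_lit 381) (nat_lit 271)))) (XT.nd (nat_lit 78) (nat_lit 228) (nat_lit 0) (XT.lf (nat_lit 0) (nat_lit 713907414) (nat_lit 380) (nat_lit 11109974561) (nat_lit 76) (nat_lit 3818741924) (nat_lit 77) (nat_lit 5) (nat_lit 82) (nat_lit 5) (nat_lit 78) (nat_lit 5) (nat_lit 489) (nat_lit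 381) (nat_lit 270)) (XT.nd (nat_lit 78) (nat_lit 228) (nat_lit 0) (XT.lf (nat_lit 0) (nat_lit 4408461303) (nat_lit 380) (nat_lit 2662101044) (nat_lit 76) (nat_lit 8778087230) (nat_lit 77) (nat_lit 5) (nat_lit 82) (nat_lit 5) (nat_lit 78) (nat_lit 5) (nat_lit 490) (nat_lit 381) (nat_lit 269)) (XT.lf (nat_lit 0) (nat_lit 6003015889) (nat_lit 228) (nat_lit 2194022019) (nat_lit 304) (nat_lit 7861359758) (nat_lit 74) (nat_lit 5) (nat_lit 77) (nat_lit 5) (nat_lit 78) (nat_lit 5) (nat_lit 491) (nat_lit 381) (nat_lit 268))))))) (XT.nd (nat_lit 780) (nat_lit 532) (nat_lit 0) (XT.nd (nat_lit 390) (nat_lit 532) (nat_lit 0) (XT.nd (nat_lit 156) (nat_lit 532) (nat_lit 0) (XT.nd (nat_lit 78) (nat_lit 304) (nat_lit 0) (XT.lf (nat_lit 0) (nat_lit 12078672428) (nat_lit 304) (nat_lit 1443178121) (nat_lit 76) (nat_lit 2750148876) (nat_lit 74) (nat_lit 5) (nat_lit 78) (nat_lit 5) (nat_lit 75) (nat_lit 5) (nat_lit 492) (nat_lit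 381) (nat_lit 267)) (XT.lf (nat_lit 0) (nat_lit 7393762039) (nat_lit 304) (nat_lit 8688334377) (nat_lit 380) (nat_lit 406898021) (nat_lit 70) (nat_lit 5) (nat_lit 74) (nat_lit 5) (nat_lit 75) (nat_lit 5) (nat_lit 493) (nat_lit 381) (nat_lit 266))) (XT.nd (nat_lit 78) (nat_lit 456) (nat_lit 0) (XT.lf (nat_lit 0) (nat_lit 3401355811) (nat_lit 380) (nat_lit 335628938) (nat_lit 76) (nat_lit 12973071851) (nat_lit 69) (nat_lit 5) (nat_lit 74) (nat_lit 5) (nat_lit 70) (nat_lit 5) (nat_lit 494) (nat_lit 381) (nat_lit 265)) (XT.nd (nat_lit 78) (nat_lit 228) (nat_lit 0) (XT.lf (nat_lit 0) (nat_lit 7327561505) (nat_lit 304) (nat_lit 8262653897) (nat_lit 76) (nat_lit 1344330210) (nat_lit 66) (nat_lit 5) (nat_lit 70) (nat_lit 5) (nat_lit 67) (nat_lit 5) (nat_lit 495) (nat_lit 381) (nat_lit 264)) (XT.lf (nat_lit 0) (nat_lit 654956152) (nat_lit 228) (nat_lit 10690715253) (nat_lit 304) (nat_lit 5817589419) (nat_lit 63) (nat_lit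 5) (nat_lit 66) (nat_lit 5) (nat_lit 67) (nat_lit 5) (nat_lit 496) (nat_lit 381) (nat_lit 263))))) (XT.nd (nat_lit 156) (nat_lit 228) (nat_lit 0) (XT.nd (nat_lit 78) (nat_lit 304) (nat_lit 0) (XT.lf (nat_lit 0) (nat_lit 9833611436) (nat_lit 228) (nat_lit 5648251544) (nat_lit 304) (nat_lit 1913936910) (nat_lit 63) (nat_lit 5) (nat_lit 66) (nat_lit 5) (nat_lit 67) (nat_lit 5) (nat_lit 497) (nat_lit 381) (nat_lit 262)) (XT.lf (nat_lit 0) (nat_lit 1540659603) (nat_lit 228) (nat_lit 492514013) (nat_lit 304) (nat_lit 15599701313) (nat_lit 59) (nat_lit 5) (nat_lit 62) (nat_lit 5) (nat_lit 63) (nat_lit 5) (nat_lit 498) (nat_lit 381) (nat_lit 261))) (XT.nd (nat_lit 78) (nat_lit 228) (nat_lit 0) (XT.lf (nat_lit 0) (nat_lit 6098234645) (nat_lit 304) (nat_lit 7018618597) (nat_lit 76) (nat_lit 4756296200) (nat_lit 59) (nat_lit 5) (nat_lit 63) (nat_lit 5) (nat_lit 60) (nat_lit 5) (nat_lit 499) (nat_lit 381) (nat_lit 260))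 (XT.nd (nat_lit 78) (nat_lit 0) (nat_lit 0) (XT.lf (nat_lit 0) (nat_lit 2234000690) (nat_lit 228) (nat_lit 8011287389) (nat_lit 304) (nat_lit 7872931183) (nat_lit 56) (nat_lit 5) (nat_lit 59) (nat_lit 5) (nat_lit 60) (nat_lit 5) (nat_lit 500) (nat_lit 381) (nat_lit 259)) (XT.lf (nat_lit 0) (nat_lit 11738511988) (nat_lit 228) (nat_lit 2766945177) (nat_lit 304) (nat_lit 3862133392) (nat_lit 56) (nat_lit 5) (nat_lit 59) (nat_lit 5) (nat_lit 60) (nat_lit 5) (nat_lit 501) (nat_lit 381) (nat_lit 258)))))) (XT.nd (nat_lit 50154) (nat_lit 0) (nat_lit 46056) (XT.nd (nat_lit 156) (nat_lit 228) (nat_lit 0) (XT.nd (nat_lit 78) (nat_lit 0) (nat_lit 0) (XT.lf (nat_lit 0) (nat_lit 244297523) (nat_lit 304) (nat_lit 15820039404) (nat_lit 76) (nat_lit 2557217682) (nat_lit 52) (nat_lit 5) (nat_lit 56) (nat_lit 5) (nat_lit 53) (nat_lit 5) (nat_lit 502) (nat_lit 381) (nat_lit 257)) (XT.lf (nat_lit 0) (nat_lit 4427663498) (nat_lit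 304) (nat_lit 6441372034) (nat_lit 76) (nat_lit 8010124790) (nat_lit 52) (nat_lit 5) (nat_lit 56) (nat_lit 5) (nat_lit 53) (nat_lit 5) (nat_lit 503) (nat_lit 381) (nat_lit 256))) (XT.nd (nat_lit 49842) (nat_lit 0) (nat_lit 46740) (XT.lf (nat_lit 0) (nat_lit 3138533305) (nat_lit 228) (nat_lit 5560235751) (nat_lit 304) (nat_lit 10443070946) (nat_lit 49) (nat_lit 5) (nat_lit 52) (nat_lit 5) (nat_lit 53) (nat_lit 5) (nat_lit 504) (nat_lit 381) (nat_lit 255)) (XT.nd (nat_lit 78) (nat_lit 228) (nat_lit 0) (XT.lf (nat_lit 0) (nat_lit 2740755394) (nat_lit 228) (nat_lit 242156392) (nat_lit 228) (nat_lit 242156392) (nat_lit 667) (nat_lit 3) (nat_lit 670) (nat_lit 3) (nat_lit 670) (nat_lit 5) (nat_lit 382) (nat_lit 382) (nat_lit 376)) (XT.lf (nat_lit 0) (nat_lit 1911905496) (nat_lit 228) (nat_lit 3844155508) (nat_lit 304) (nat_lit 698502435) (nat_lit 664) (nat_lit 5) (nat_lit 667) (nat_lit 3) (nat_lit 668) (nat_lit 5)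 (nat_lit 383) (nat_lit 382) (nat_lit 375))))) (XT.nd (nat_lit 234) (nat_lit 380) (nat_lit 0) (XT.nd (nat_lit 78) (nat_lit 304) (nat_lit 0) (XT.lf (nat_lit 0) (nat_lit 4765084024) (nat_lit 228) (nat_lit 731448526) (nat_lit 304) (nat_lit 963927929) (nat_lit 664) (nat_lit 5) (nat_lit 667) (nat_lit 3) (nat_lit 668) (nat_lit 5) (nat_lit 384) (nat_lit 382) (nat_lit 374)) (XT.nd (nat_lit 78) (nat_lit 0) (nat_lit 0) (XT.lf (nat_lit 0) (nat_lit 1134564569) (nat_lit 304) (nat_lit 4038507778) (nat_lit 380) (nat_lit 1294481678) (nat_lit 660) (nat_lit 5) (nat_lit 664) (nat_lit 5) (nat_lit 665) (nat_lit 5) (nat_lit 385) (nat_lit 382) (nat_lit 373)) (XT.lf (nat_lit 0) (nat_lit 3930214475) (nat_lit 304) (nat_lit 862877994) (nat_lit 380) (nat_lit 1682902211) (nat_lit 660) (nat_lit 5) (nat_lit 664) (nat_lit 5) (nat_lit 665) (nat_lit 5) (nat_lit 386) (nat_lit 382) (nat_lit 372)))) (XT.nd (nat_lit 78) (nat_lit 0) (nat_lit 0) (XT.lf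 (nat_lit 0) (nat_lit 236500486) (nat_lit 380) (nat_lit 4118839437) (nat_lit 456) (nat_lit 2130424183) (nat_lit 655) (nat_lit 5) (nat_lit 660) (nat_lit 5) (nat_lit 661) (nat_lit 5) (nat_lit 387) (nat_lit 382) (nat_lit 371)) (XT.nd (nat_lit 78) (nat_lit 0) (nat_lit 0) (XT.lf (nat_lit 0) (nat_lit 2975109065) (nat_lit 380) (nat_lit 879058326) (nat_lit 456) (nat_lit 2642591380) (nat_lit 655) (nat_lit 5) (nat_lit 660) (nat_lit 5) (nat_lit 661) (nat_lit 5) (nat_lit 388) (nat_lit 382) (nat_lit 370)) (XT.lf (nat_lit 76) (nat_lit 2418445262) (nat_lit 0) (nat_lit 3296050324) (nat_lit 456) (nat_lit 794618223) (nat_lit 656) (nat_lit 5) (nat_lit 655) (nat_lit 5) (nat_lit 661) (nat_lit 5) (nat_lit 389) (nat_lit 382) (nat_lit 369))))))))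
noncomputable def xc102 : XT := (XT.nd (nat_lit 1638) (nat_lit 16720) (nat_lit 0) (XT.nd (nat_lit 780) (nat_lit 6004) (nat_lit 0) (XT.nd (nat_lit 390) (nat_lit 1900) (nat_lit 0) (XT.nd (nat_lit 156) (nat_lit 532) (nat_lit 0) (XT.nd (nat_lit 78) (nat_lit 0) (nat_lit 0) (XT.lf (nat_lit 0) (nat_lit 1897739855) (nat_lit 456) (nat_lit 780235598) (nat_lit 532) (nat_lit 3844803819) (nat_lit 649) (nat_lit 5) (nat_lit 655) (nat_lit 5) (nat_lit 656) (nat_lit 5) (nat_lit 390) (nat_lit 382) (nat_lit 368)) (XT.lf (nat_lit 76) (nat_lit 2586325793) (nat_lit 0) (nat_lit 1996043426) (nat_lit 532) (nat_lit 1955319597) (nat_lit 650) (nat_lit 5) (nat_lit 649) (nat_lit 5) (nat_lit 656) (nat_lit 5) (nat_lit 391) (nat_lit 382) (nat_lit 367))) (XT.nd (nat_lit 78) (nat_lit 0) (nat_lit 0) (XT.lf (nat_lit 0) (nat_lit 695838932) (nat_lit 532) (nat_lit 566447300) (nat_lit 608) (nat_lit 5291803218) (nat_lit 642) (nat_lit 5) (nat_lit 649)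 (nat_lit 5) (nat_lit 650) (nat_lit 5) (nat_lit 392) (nat_lit 382) (nat_lit 366)) (XT.nd (nat_lit 78) (nat_lit 0) (nat_lit 76) (XT.lf (nat_lit 76) (nat_lit 2872230089) (nat_lit 0) (nat_lit 454442114) (nat_lit 608) (nat_lit 3244884542) (nat_lit 643) (nat_lit 5) (nat_lit 642) (nat_lit 5) (nat_lit 650) (nat_lit 5) (nat_lit 393) (nat_lit 382) (nat_lit 365)) (XT.lf (nat_lit 0) (nat_lit 5951721305) (nat_lit 532) (nat_lit 244285673) (nat_lit 76) (nat_lit 394587175) (nat_lit 643) (nat_lit 5) (nat_lit 650) (nat_lit 5) (nat_lit 644) (nat_lit 5) (nat_lit 394) (nat_lit 382) (nat_lit 364))))) (XT.nd (nat_lit 156) (nat_lit 760) (nat_lit 0) (XT.nd (nat_lit 78) (nat_lit 608) (nat_lit 0) (XT.lf (nat_lit 0) (nat_lit 1953417339) (nat_lit 608) (nat_lit 3342962729) (nat_lit 76) (nat_lit 1314207913) (nat_lit 635) (nat_lit 5) (nat_lit 643) (nat_lit 5) (nat_lit 636) (nat_lit 5) (nat_lit 395) (nat_lit 382) (nat_lit 363)) (XT.lf (nat_lit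 0) (nat_lit 180494773) (nat_lit 608) (nat_lit 4348501487) (nat_lit 684) (nat_lit 2103150728) (nat_lit 627) (nat_lit 5) (nat_lit 635) (nat_lit 5) (nat_lit 636) (nat_lit 5) (nat_lit 396) (nat_lit 382) (nat_lit 362))) (XT.nd (nat_lit 78) (nat_lit 684) (nat_lit 0) (XT.lf (nat_lit 0) (nat_lit 455633203) (nat_lit 684) (nat_lit 2877741682) (nat_lit 76) (nat_lit 3321539553) (nat_lit 626) (nat_lit 5) (nat_lit 635) (nat_lit 5) (nat_lit 627) (nat_lit 5) (nat_lit 397) (nat_lit 382) (nat_lit 361)) (XT.nd (nat_lit 78) (nat_lit 0) (nat_lit 0) (XT.lf (nat_lit 0) (nat_lit 723619327) (nat_lit 684) (nat_lit 2257443873) (nat_lit 760) (nat_lit 3697970210) (nat_lit 617) (nat_lit 5) (nat_lit 626) (nat_lit 5) (nat_lit 627) (nat_lit 5) (nat_lit 398) (nat_lit 382) (nat_lit 360)) (XT.lf (nat_lit 0) (nat_lit 4396686583) (nat_lit 684) (nat_lit 1119475958) (nat_lit 760) (nat_lit 1188334929) (nat_lit 617) (nat_lit 5) (nat_lit 626) (nat_lit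 5) (nat_lit 627) (nat_lit 5) (nat_lit 399) (nat_lit 382) (nat_lit 359)))))) (XT.nd (nat_lit 390) (nat_lit 3344) (nat_lit 0) (XT.nd (nat_lit 156) (nat_lit 1824) (nat_lit 0) (XT.nd (nat_lit 78) (nat_lit 0) (nat_lit 0) (XT.lf (nat_lit 0) (nat_lit 1303592536) (nat_lit 836) (nat_lit 5349281088) (nat_lit 76) (nat_lit 78461498) (nat_lit 606) (nat_lit 5) (nat_lit 617) (nat_lit 5) (nat_lit 607) (nat_lit 5) (nat_lit 400) (nat_lit 382) (nat_lit 358)) (XT.lf (nat_lit 0) (nat_lit 3794095048) (nat_lit 836) (nat_lit 1637258334) (nat_lit 76) (nat_lit 1327949356) (nat_lit 606) (nat_lit 5) (nat_lit 617) (nat_lit 5) (nat_lit 607) (nat_lit 5) (nat_lit 401) (nat_lit 382) (nat_lit 357))) (XT.nd (nat_lit 78) (nat_lit 988) (nat_lit 0) (XT.lf (nat_lit 0) (nat_lit 2137358577) (nat_lit 836) (nat_lit 4153701177) (nat_lit 912) (nat_lit 497679335) (nat_lit 595) (nat_lit 5) (nat_lit 606) (nat_lit 5) (nat_lit 607) (nat_lit 5) (nat_lit 402)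 (nat_lit 382) (nat_lit 356)) (XT.nd (nat_lit 78) (nat_lit 912) (nat_lit 0) (XT.lf (nat_lit 0) (nat_lit 1947003891) (nat_lit 912) (nat_lit 862278243) (nat_lit 76) (nat_lit 4010174883) (nat_lit 594) (nat_lit 5) (nat_lit 606) (nat_lit 5) (nat_lit 595) (nat_lit 5) (nat_lit 403) (nat_lit 382) (nat_lit 355)) (XT.lf (nat_lit 0) (nat_lit 2999221627) (nat_lit 912) (nat_lit 1398514438) (nat_lit 988) (nat_lit 2453751040) (nat_lit 582) (nat_lit 5) (nat_lit 594) (nat_lit 5) (nat_lit 595) (nat_lit 5) (nat_lit 404) (nat_lit 382) (nat_lit 354))))) (XT.nd (nat_lit 234) (nat_lit 1216) (nat_lit 0) (XT.nd (nat_lit 78) (nat_lit 1140) (nat_lit 0) (XT.lf (nat_lit 0) (nat_lit 25225770) (nat_lit 988) (nat_lit 6823787104) (nat_lit 1064) (nat_lit 36153516) (nat_lit 569) (nat_lit 5) (nat_lit 582) (nat_lit 5) (nat_lit 583) (nat_lit 5) (nat_lit 405) (nat_lit 382) (nat_lit 353)) (XT.nd (nat_lit 78) (nat_lit 1064) (nat_lit 0) (XT.lf (nat_lit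 0) (nat_lit 2378908594) (nat_lit 1064) (nat_lit 2952621034) (nat_lit 76) (nat_lit 1588092193) (nat_lit 568) (nat_lit 5) (nat_lit 582) (nat_lit 5) (nat_lit 569) (nat_lit 5) (nat_lit 406) (nat_lit 382) (nat_lit 352)) (XT.lf (nat_lit 0) (nat_lit 1005701974) (nat_lit 1064) (nat_lit 3789377032) (nat_lit 1140) (nat_lit 2160653685) (nat_lit 554) (nat_lit 5) (nat_lit 568) (nat_lit 5) (nat_lit 569) (nat_lit 5) (nat_lit 407) (nat_lit 382) (nat_lit 351)))) (XT.nd (nat_lit 78) (nat_lit 1140) (nat_lit 0) (XT.lf (nat_lit 0) (nat_lit 230613267) (nat_lit 1140) (nat_lit 1951386717) (nat_lit 76) (nat_lit 4811224463) (nat_lit 553) (nat_lit 5) (nat_lit 568) (nat_lit 5) (nat_lit 554) (nat_lit 5) (nat_lit 408) (nat_lit 382) (nat_lit 350)) (XT.nd (nat_lit 78) (nat_lit 0) (nat_lit 0) (XT.lf (nat_lit 0) (nat_lit 2100700294) (nat_lit 1140) (nat_lit 501939518) (nat_lit 1216) (nat_lit 4429338083) (nat_lit 538) (nat_lit 5) (nat_lit 553)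 (nat_lit 5) (nat_lit 554) (nat_lit 5) (nat_lit 409) (nat_lit 382) (nat_lit 349)) (XT.lf (nat_lit 0) (nat_lit 4992189011) (nat_lit 1216) (nat_lit 859558065) (nat_lit 76) (nat_lit 1220391814) (nat_lit 538) (nat_lit 5) (nat_lit 554) (nat_lit 5) (nat_lit 539) (nat_lit 5) (nat_lit 410) (nat_lit 382) (nat_lit 348))))))) (XT.nd (nat_lit 780) (nat_lit 8056) (nat_lit 0) (XT.nd (nat_lit 390) (nat_lit 4636) (nat_lit 0) (XT.nd (nat_lit 156) (nat_lit 1444) (nat_lit 0) (XT.nd (nat_lit 78) (nat_lit 1292) (nat_lit 0) (XT.lf (nat_lit 0) (nat_lit 286816924) (nat_lit 1292) (nat_lit 3821903716) (nat_lit 76) (nat_lit 3004883359) (nat_lit 521) (nat_lit 5) (nat_lit 538) (nat_lit 5) (nat_lit 522) (nat_lit 5) (nat_lit 411) (nat_lit 382) (nat_lit 347)) (XT.lf (nat_lit 0) (nat_lit 332122946) (nat_lit 1292) (nat_lit 2299331162) (nat_lit 1368) (nat_lit 4525033773) (nat_lit 504) (nat_lit 5) (nat_lit 521) (nat_lit 5) (nat_lit 522) (nat_lit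 5) (nat_lit 412) (nat_lit 382) (nat_lit 346))) (XT.nd (nat_lit 78) (nat_lit 1444) (nat_lit 0) (XT.lf (nat_lit 0) (nat_lit 4581029512) (nat_lit 1292) (nat_lit 418711254) (nat_lit 1368) (nat_lit 2200985064) (nat_lit 504) (nat_lit 5) (nat_lit 521) (nat_lit 5) (nat_lit 522) (nat_lit 5) (nat_lit 413) (nat_lit 382) (nat_lit 345)) (XT.nd (nat_lit 78) (nat_lit 0) (nat_lit 0) (XT.lf (nat_lit 0) (nat_lit 139620992) (nat_lit 1444) (nat_lit 5606770664) (nat_lit 76) (nat_lit 1500019166) (nat_lit 485) (nat_lit 5) (nat_lit 504) (nat_lit 5) (nat_lit 486) (nat_lit 5) (nat_lit 414) (nat_lit 382) (nat_lit 344)) (XT.lf (nat_lit 0) (nat_lit 2470525866) (nat_lit 1444) (nat_lit 1331114985) (nat_lit 76) (nat_lit 3491648240) (nat_lit 485) (nat_lit 5) (nat_lit 504) (nat_lit 5) (nat_lit 486) (nat_lit 5) (nat_lit 415) (nat_lit 382) (nat_lit 343))))) (XT.nd (nat_lit 156) (nat_lit 1672) (nat_lit 0) (XT.nd (nat_lit 78) (nat_lit 1520) (nat_lit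 0) (XT.lf (nat_lit 0) (nat_lit 3029923468) (nat_lit 1444) (nat_lit 1791191223) (nat_lit 1520) (nat_lit 2520558039) (nat_lit 466) (nat_lit 5) (nat_lit 485) (nat_lit 5) (nat_lit 486) (nat_lit 5) (nat_lit 416) (nat_lit 382) (nat_lit 342)) (XT.lf (nat_lit 0) (nat_lit 63880147) (nat_lit 1520) (nat_lit 7120017641) (nat_lit 1596) (nat_lit 207851156) (nat_lit 446) (nat_lit 5) (nat_lit 466) (nat_lit 5) (nat_lit 467) (nat_lit 5) (nat_lit 417) (nat_lit 382) (nat_lit 341))) (XT.nd (nat_lit 78) (nat_lit 1596) (nat_lit 0) (XT.lf (nat_lit 0) (nat_lit 2118287966) (nat_lit 1596) (nat_lit 2923760313) (nat_lit 76) (nat_lit 2400618711) (nat_lit 445) (nat_lit 5) (nat_lit 466) (nat_lit 5) (nat_lit 446) (nat_lit 5) (nat_lit 418) (nat_lit 382) (nat_lit 340)) (XT.nd (nat_lit 78) (nat_lit 0) (nat_lit 0) (XT.lf (nat_lit 0) (nat_lit 1547187530) (nat_lit 1596) (nat_lit 2906323631) (nat_lit 1672) (nat_lit 3041784776) (nat_lit 424) (nat_lit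 5) (nat_lit 445) (nat_lit 5) (nat_lit 446) (nat_lit 5) (nat_lit 419) (nat_lit 382) (nat_lit 339)) (XT.lf (nat_lit 0) (nat_lit 6107292916) (nat_lit 1596) (nat_lit 703679847) (nat_lit 1672) (nat_lit 738520398) (nat_lit 424) (nat_lit 5) (nat_lit 445) (nat_lit 5) (nat_lit 446) (nat_lit 5) (nat_lit 420) (nat_lit 382) (nat_lit 338)))))) (XT.nd (nat_lit 390) (nat_lit 3496) (nat_lit 0) (XT.nd (nat_lit 156) (nat_lit 1064) (nat_lit 0) (XT.nd (nat_lit 78) (nat_lit 1748) (nat_lit 0) (XT.lf (nat_lit 0) (nat_lit 1576816187) (nat_lit 1748) (nat_lit 4470402238) (nat_lit 76) (nat_lit 1557629426) (nat_lit 401) (nat_lit 5) (nat_lit 424) (nat_lit 5) (nat_lit 402) (nat_lit 5) (nat_lit 421) (nat_lit 382) (nat_lit 337)) (XT.lf (nat_lit 0) (nat_lit 112558543) (nat_lit 1748) (nat_lit 3788241054) (nat_lit 1824) (nat_lit 3760992687) (nat_lit 378) (nat_lit 5) (nat_lit 401) (nat_lit 5) (nat_lit 402) (nat_lit 5) (nat_lit 422) (nat_lit 382)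 (nat_lit 336))) (XT.nd (nat_lit 78) (nat_lit 1064) (nat_lit 0) (XT.lf (nat_lit 0) (nat_lit 4807681238) (nat_lit 1748) (nat_lit 1451247990) (nat_lit 1824) (nat_lit 1461217414) (nat_lit 378) (nat_lit 5) (nat_lit 401) (nat_lit 5) (nat_lit 402) (nat_lit 5) (nat_lit 423) (nat_lit 382) (nat_lit 335)) (XT.nd (nat_lit 78) (nat_lit 0) (nat_lit 0) (XT.lf (nat_lit 0) (nat_lit 848987647) (nat_lit 1064) (nat_lit 5991412796) (nat_lit 76) (nat_lit 939655497) (nat_lit 364) (nat_lit 5) (nat_lit 378) (nat_lit 5) (nat_lit 365) (nat_lit 5) (nat_lit 424) (nat_lit 382) (nat_lit 334)) (XT.lf (nat_lit 0) (nat_lit 3173906159) (nat_lit 1064) (nat_lit 1277420044) (nat_lit 76) (nat_lit 3389905511) (nat_lit 364) (nat_lit 5) (nat_lit 378) (nat_lit 5) (nat_lit 365) (nat_lit 5) (nat_lit 425) (nat_lit 382) (nat_lit 333))))) (XT.nd (nat_lit 234) (nat_lit 1672) (nat_lit 0) (XT.nd (nat_lit 78) (nat_lit 912) (nat_lit 0) (XT.lf (nat_lit 0) (nat_lit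 3537558750) (nat_lit 912) (nat_lit 1990313094) (nat_lit 988) (nat_lit 2376130695) (nat_lit 352) (nat_lit 5) (nat_lit 364) (nat_lit 5) (nat_lit 365) (nat_lit 5) (nat_lit 426) (nat_lit 382) (nat_lit 332)) (XT.nd (nat_lit 78) (nat_lit 76) (nat_lit 0) (XT.lf (nat_lit 0) (nat_lit 460653570) (nat_lit 836) (nat_lit 7443378857) (nat_lit 912) (nat_lit 64516113) (nat_lit 341) (nat_lit 5) (nat_lit 352) (nat_lit 5) (nat_lit 353) (nat_lit 5) (nat_lit 427) (nat_lit 382) (nat_lit 331)) (XT.lf (nat_lit 0) (nat_lit 2266289836) (nat_lit 912) (nat_lit 2659117307) (nat_lit 76) (nat_lit 3108641006) (nat_lit 340) (nat_lit 5) (nat_lit 352) (nat_lit 5) (nat_lit 341) (nat_lit 5) (nat_lit 428) (nat_lit 382) (nat_lit 330)))) (XT.nd (nat_lit 78) (nat_lit 836) (nat_lit 0) (XT.lf (nat_lit 0) (nat_lit 2276323545) (nat_lit 836) (nat_lit 2342442403) (nat_lit 912) (nat_lit 3482585714) (nat_lit 329) (nat_lit 5) (nat_lit 340) (nat_lit 5) (nat_lit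 341) (nat_lit 5) (nat_lit 429) (nat_lit 382) (nat_lit 329)) (XT.nd (nat_lit 78) (nat_lit 836) (nat_lit 0) (XT.lf (nat_lit 0) (nat_lit 6999786980) (nat_lit 912) (nat_lit 865399617) (nat_lit 76) (nat_lit 305205129) (nat_lit 329) (nat_lit 5) (nat_lit 341) (nat_lit 5) (nat_lit 330) (nat_lit 5) (nat_lit 430) (nat_lit 382) (nat_lit 328)) (XT.lf (nat_lit 0) (nat_lit 1177182058) (nat_lit 836) (nat_lit 4055037289) (nat_lit 76) (nat_lit 3008355788) (nat_lit 318) (nat_lit 5) (nat_lit 329) (nat_lit 5) (nat_lit 319) (nat_lit 5) (nat_lit 431) (nat_lit 382) (nat_lit 327))))))))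
noncomputable def xc103 : XT := (XT.nd (nat_lit 1638) (nat_lit 5928) (nat_lit 0) (XT.nd (nat_lit 780) (nat_lit 4408) (nat_lit 0) (XT.nd (nat_lit 390) (nat_lit 2128) (nat_lit 0) (XT.nd (nat_lit 156) (nat_lit 1596) (nat_lit 0) (XT.nd (nat_lit 78) (nat_lit 0) (nat_lit 0) (XT.lf (nat_lit 0) (nat_lit 1002814585) (nat_lit 760) (nat_lit 2528412980) (nat_lit 836) (nat_lit 4781299560) (nat_lit 308) (nat_lit 5) (nat_lit 318) (nat_lit 5) (nat_lit 319) (nat_lit 5) (nat_lit 432) (nat_lit 382) (nat_lit 326)) (XT.lf (nat_lit 0) (nat_lit 5924301972) (nat_lit 836) (nat_lit 2210458110) (nat_lit 76) (nat_lit 251337950) (nat_lit 308) (nat_lit 5) (nat_lit 319) (nat_lit 5) (nat_lit 309) (nat_lit 5) (nat_lit 433) (nat_lit 382) (nat_lit 325))) (XT.nd (nat_lit 78) (nat_lit 836) (nat_lit 0) (XT.lf (nat_lit 0) (nat_lit 2973620140) (nat_lit 760) (nat_lit 5391459563) (nat_lit 836) (nat_lit 96082286) (nat_lit 298) (nat_lit 5) (nat_lit 308)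 (nat_lit 5) (nat_lit 309) (nat_lit 5) (nat_lit 434) (nat_lit 382) (nat_lit 324)) (XT.nd (nat_lit 78) (nat_lit 760) (nat_lit 0) (XT.lf (nat_lit 0) (nat_lit 2265481944) (nat_lit 836) (nat_lit 300881982) (nat_lit 76) (nat_lit 5971501721) (nat_lit 297) (nat_lit 5) (nat_lit 308) (nat_lit 5) (nat_lit 298) (nat_lit 5) (nat_lit 435) (nat_lit 382) (nat_lit 323)) (XT.lf (nat_lit 0) (nat_lit 4672499103) (nat_lit 836) (nat_lit 3602624333) (nat_lit 76) (nat_lit 340994479) (nat_lit 287) (nat_lit 5) (nat_lit 298) (nat_lit 5) (nat_lit 288) (nat_lit 5) (nat_lit 436) (nat_lit 382) (nat_lit 322))))) (XT.nd (nat_lit 156) (nat_lit 1368) (nat_lit 0) (XT.nd (nat_lit 78) (nat_lit 76) (nat_lit 0) (XT.lf (nat_lit 0) (nat_lit 1708427594) (nat_lit 684) (nat_lit 5414464351) (nat_lit 760) (nat_lit 1573155638) (nat_lit 278) (nat_lit 5) (nat_lit 287) (nat_lit 5) (nat_lit 288) (nat_lit 5) (nat_lit 437) (nat_lit 382) (nat_lit 321)) (XT.lf (nat_lit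 0) (nat_lit 823274444) (nat_lit 760) (nat_lit 1647730663) (nat_lit 76) (nat_lit 6306684723) (nat_lit 277) (nat_lit 5) (nat_lit 287) (nat_lit 5) (nat_lit 278) (nat_lit 5) (nat_lit 438) (nat_lit 382) (nat_lit 320))) (XT.nd (nat_lit 78) (nat_lit 684) (nat_lit 0) (XT.lf (nat_lit 0) (nat_lit 3240890262) (nat_lit 760) (nat_lit 5064993863) (nat_lit 76) (nat_lit 555002471) (nat_lit 268) (nat_lit 5) (nat_lit 278) (nat_lit 5) (nat_lit 269) (nat_lit 5) (nat_lit 439) (nat_lit 382) (nat_lit 319)) (XT.nd (nat_lit 78) (nat_lit 0) (nat_lit 0) (XT.lf (nat_lit 0) (nat_lit 374517415) (nat_lit 684) (nat_lit 5328633549) (nat_lit 760) (nat_lit 3242686242) (nat_lit 259) (nat_lit 5) (nat_lit 268) (nat_lit 5) (nat_lit 269) (nat_lit 5) (nat_lit 440) (nat_lit 382) (nat_lit 318)) (XT.lf (nat_lit 0) (nat_lit 5952579025) (nat_lit 684) (nat_lit 2262839882) (nat_lit 760) (nat_lit 817068135) (nat_lit 259) (nat_lit 5) (nat_lit 268) (nat_lit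 5) (nat_lit 269) (nat_lit 5) (nat_lit 441) (nat_lit 382) (nat_lit 317)))))) (XT.nd (nat_lit 390) (nat_lit 2356) (nat_lit 0) (XT.nd (nat_lit 156) (nat_lit 1292) (nat_lit 0) (XT.nd (nat_lit 78) (nat_lit 0) (nat_lit 0) (XT.lf (nat_lit 0) (nat_lit 1624539657) (nat_lit 760) (nat_lit 6621913946) (nat_lit 76) (nat_lit 874431751) (nat_lit 249) (nat_lit 5) (nat_lit 259) (nat_lit 5) (nat_lit 250) (nat_lit 5) (nat_lit 442) (nat_lit 382) (nat_lit 316)) (XT.lf (nat_lit 0) (nat_lit 4107389680) (nat_lit 760) (nat_lit 1038950364) (nat_lit 76) (nat_lit 4064551121) (nat_lit 249) (nat_lit 5) (nat_lit 259) (nat_lit 5) (nat_lit 250) (nat_lit 5) (nat_lit 443) (nat_lit 382) (nat_lit 315))) (XT.nd (nat_lit 78) (nat_lit 684) (nat_lit 0) (XT.lf (nat_lit 0) (nat_lit 4678844352) (nat_lit 608) (nat_lit 1959616804) (nat_lit 684) (nat_lit 2664278923) (nat_lit 241) (nat_lit 5) (nat_lit 249) (nat_lit 5) (nat_lit 250) (nat_lit 5) (nat_lit 444)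 (nat_lit 382) (nat_lit 314)) (XT.nd (nat_lit 78) (nat_lit 76) (nat_lit 0) (XT.lf (nat_lit 0) (nat_lit 1096200122) (nat_lit 608) (nat_lit 8114991793) (nat_lit 684) (nat_lit 185427297) (nat_lit 233) (nat_lit 5) (nat_lit 241) (nat_lit 5) (nat_lit 242) (nat_lit 5) (nat_lit 445) (nat_lit 382) (nat_lit 313)) (XT.lf (nat_lit 0) (nat_lit 2325154925) (nat_lit 684) (nat_lit 2565492233) (nat_lit 76) (nat_lit 4601180327) (nat_lit 232) (nat_lit 5) (nat_lit 241) (nat_lit 5) (nat_lit 233) (nat_lit 5) (nat_lit 446) (nat_lit 382) (nat_lit 312))))) (XT.nd (nat_lit 234) (nat_lit 1064) (nat_lit 0) (XT.nd (nat_lit 78) (nat_lit 684) (nat_lit 0) (XT.lf (nat_lit 0) (nat_lit 3288070477) (nat_lit 608) (nat_lit 1586030993) (nat_lit 684) (nat_lit 4715014419) (nat_lit 224) (nat_lit 5) (nat_lit 232) (nat_lit 5) (nat_lit 233) (nat_lit 5) (nat_lit 447) (nat_lit 382) (nat_lit 311)) (XT.nd (nat_lit 78) (nat_lit 684) (nat_lit 0) (XT.lf (nat_lit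 0) (nat_lit 7472538664) (nat_lit 684) (nat_lit 444507658) (nat_lit 76) (nat_lit 1771346433) (nat_lit 224) (nat_lit 5) (nat_lit 233) (nat_lit 5) (nat_lit 225) (nat_lit 5) (nat_lit 448) (nat_lit 382) (nat_lit 310)) (XT.lf (nat_lit 0) (nat_lit 345771076) (nat_lit 684) (nat_lit 4237639285) (nat_lit 76) (nat_lit 5205876894) (nat_lit 215) (nat_lit 5) (nat_lit 224) (nat_lit 5) (nat_lit 216) (nat_lit 5) (nat_lit 449) (nat_lit 382) (nat_lit 309)))) (XT.nd (nat_lit 78) (nat_lit 532) (nat_lit 0) (XT.lf (nat_lit 0) (nat_lit 1752208409) (nat_lit 532) (nat_lit 1161482714) (nat_lit 608) (nat_lit 6978533116) (nat_lit 208) (nat_lit 5) (nat_lit 215) (nat_lit 5) (nat_lit 216) (nat_lit 5) (nat_lit 450) (nat_lit 382) (nat_lit 308)) (XT.nd (nat_lit 78) (nat_lit 532) (nat_lit 0) (XT.lf (nat_lit 0) (nat_lit 5547327252) (nat_lit 608) (nat_lit 2130652875) (nat_lit 76) (nat_lit 2318964629) (nat_lit 208) (nat_lit 5) (nat_lit 216) (nat_lit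 5) (nat_lit 209) (nat_lit 5) (nat_lit 451) (nat_lit 382) (nat_lit 307)) (XT.lf (nat_lit 0) (nat_lit 4006508301) (nat_lit 532) (nat_lit 4232020797) (nat_lit 608) (nat_lit 1865144439) (nat_lit 201) (nat_lit 5) (nat_lit 208) (nat_lit 5) (nat_lit 209) (nat_lit 5) (nat_lit 452) (nat_lit 382) (nat_lit 306))))))) (XT.nd (nat_lit 780) (nat_lit 2736) (nat_lit 0) (XT.nd (nat_lit 390) (nat_lit 1520) (nat_lit 0) (XT.nd (nat_lit 156) (nat_lit 1064) (nat_lit 0) (XT.nd (nat_lit 78) (nat_lit 0) (nat_lit 0) (XT.lf (nat_lit 0) (nat_lit 41090943) (nat_lit 532) (nat_lit 705787264) (nat_lit 608) (nat_lit 9465850379) (nat_lit 193) (nat_lit 5) (nat_lit 200) (nat_lit 5) (nat_lit 201) (nat_lit 5) (nat_lit 453) (nat_lit 382) (nat_lit 305)) (XT.lf (nat_lit 0) (nat_lit 3417723825) (nat_lit 608) (nat_lit 4007444532) (nat_lit 76) (nat_lit 2897929707) (nat_lit 193) (nat_lit 5) (nat_lit 201) (nat_lit 5) (nat_lit 194) (nat_lit 5) (nat_lit 454)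 (nat_lit 382) (nat_lit 304))) (XT.nd (nat_lit 78) (nat_lit 532) (nat_lit 0) (XT.lf (nat_lit 0) (nat_lit 2268178459) (nat_lit 532) (nat_lit 3865343020) (nat_lit 608) (nat_lit 4302333571) (nat_lit 186) (nat_lit 5) (nat_lit 193) (nat_lit 5) (nat_lit 194) (nat_lit 5) (nat_lit 455) (nat_lit 382) (nat_lit 303)) (XT.nd (nat_lit 78) (nat_lit 532) (nat_lit 0) (XT.lf (nat_lit 0) (nat_lit 8686951356) (nat_lit 532) (nat_lit 216018510) (nat_lit 608) (nat_lit 1647921220) (nat_lit 186) (nat_lit 5) (nat_lit 193) (nat_lit 5) (nat_lit 194) (nat_lit 5) (nat_lit 456) (nat_lit 382) (nat_lit 302)) (XT.lf (nat_lit 0) (nat_lit 1071179489) (nat_lit 532) (nat_lit 6108238871) (nat_lit 76) (nat_lit 3488172157) (nat_lit 179) (nat_lit 5) (nat_lit 186) (nat_lit 5) (nat_lit 180) (nat_lit 5) (nat_lit 457) (nat_lit 382) (nat_lit 301))))) (XT.nd (nat_lit 156) (nat_lit 988) (nat_lit 0) (XT.nd (nat_lit 78) (nat_lit 0) (nat_lit 0) (XT.lf (nat_lit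 0) (nat_lit 304988066) (nat_lit 532) (nat_lit 3506664013) (nat_lit 608) (nat_lit 6974982887) (nat_lit 172) (nat_lit 5) (nat_lit 179) (nat_lit 5) (nat_lit 180) (nat_lit 5) (nat_lit 458) (nat_lit 382) (nat_lit 300)) (XT.lf (nat_lit 0) (nat_lit 6623013628) (nat_lit 608) (nat_lit 4016615081) (nat_lit 76) (nat_lit 268119805) (nat_lit 172) (nat_lit 5) (nat_lit 180) (nat_lit 5) (nat_lit 173) (nat_lit 5) (nat_lit 459) (nat_lit 382) (nat_lit 299))) (XT.nd (nat_lit 78) (nat_lit 532) (nat_lit 0) (XT.lf (nat_lit 0) (nat_lit 2551858444) (nat_lit 456) (nat_lit 6952322777) (nat_lit 532) (nat_lit 1526841144) (nat_lit 166) (nat_lit 5) (nat_lit 172) (nat_lit 5) (nat_lit 173) (nat_lit 5) (nat_lit 460) (nat_lit 382) (nat_lit 298)) (XT.nd (nat_lit 78) (nat_lit 456) (nat_lit 0) (XT.lf (nat_lit 0) (nat_lit 1270361284) (nat_lit 532) (nat_lit 1894827138) (nat_lit 76) (nat_lit 7991395091) (nat_lit 165) (nat_lit 5) (nat_lit 172) (nat_lit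 5) (nat_lit 166) (nat_lit 5) (nat_lit 461) (nat_lit 382) (nat_lit 297)) (XT.lf (nat_lit 0) (nat_lit 4113640838) (nat_lit 532) (nat_lit 6450049743) (nat_lit 76) (nat_lit 720560960) (nat_lit 159) (nat_lit 5) (nat_lit 166) (nat_lit 5) (nat_lit 160) (nat_lit 5) (nat_lit 462) (nat_lit 382) (nat_lit 296)))))) (XT.nd (nat_lit 390) (nat_lit 1368) (nat_lit 0) (XT.nd (nat_lit 156) (nat_lit 912) (nat_lit 0) (XT.nd (nat_lit 78) (nat_lit 0) (nat_lit 0) (XT.lf (nat_lit 0) (nat_lit 255857742) (nat_lit 456) (nat_lit 6767958348) (nat_lit 532) (nat_lit 4390465114) (nat_lit 153) (nat_lit 5) (nat_lit 159) (nat_lit 5) (nat_lit 160) (nat_lit 5) (nat_lit 463) (nat_lit 382) (nat_lit 295)) (XT.lf (nat_lit 0) (nat_lit 7147820834) (nat_lit 456) (nat_lit 2862532572) (nat_lit 532) (nat_lit 1536203583) (nat_lit 153) (nat_lit 5) (nat_lit 159) (nat_lit 5) (nat_lit 160) (nat_lit 5) (nat_lit 464) (nat_lit 382) (nat_lit 294))) (XT.nd (nat_lit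 78) (nat_lit 380) (nat_lit 0) (XT.lf (nat_lit 0) (nat_lit 1355813617) (nat_lit 532) (nat_lit 9204191956) (nat_lit 76) (nat_lit 1121328402) (nat_lit 146) (nat_lit 5) (nat_lit 153) (nat_lit 5) (nat_lit 147) (nat_lit 5) (nat_lit 465) (nat_lit 382) (nat_lit 293)) (XT.nd (nat_lit 78) (nat_lit 380) (nat_lit 0) (XT.lf (nat_lit 0) (nat_lit 4309179977) (nat_lit 532) (nat_lit 2332715865) (nat_lit 76) (nat_lit 5176234201) (nat_lit 146) (nat_lit 5) (nat_lit 153) (nat_lit 5) (nat_lit 147) (nat_lit 5) (nat_lit 466) (nat_lit 382) (nat_lit 292)) (XT.lf (nat_lit 0) (nat_lit 4703229008) (nat_lit 380) (nat_lit 2624792575) (nat_lit 456) (nat_lit 4629520329) (nat_lit 141) (nat_lit 5) (nat_lit 146) (nat_lit 5) (nat_lit 147) (nat_lit 5) (nat_lit 467) (nat_lit 382) (nat_lit 291))))) (XT.nd (nat_lit 234) (nat_lit 456) (nat_lit 0) (XT.nd (nat_lit 78) (nat_lit 912) (nat_lit 0) (XT.lf (nat_lit 0) (nat_lit 10408611554) (nat_lit 456) (nat_lit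 232414246) (nat_lit 76) (nat_lit 1458696671) (nat_lit 141) (nat_lit 5) (nat_lit 147) (nat_lit 5) (nat_lit 142) (nat_lit 5) (nat_lit 468) (nat_lit 382) (nat_lit 290)) (XT.nd (nat_lit 78) (nat_lit 380) (nat_lit 0) (XT.lf (nat_lit 0) (nat_lit 1328346600) (nat_lit 532) (nat_lit 5282911056) (nat_lit 76) (nat_lit 5632538778) (nat_lit 134) (nat_lit 5) (nat_lit 141) (nat_lit 5) (nat_lit 135) (nat_lit 5) (nat_lit 469) (nat_lit 382) (nat_lit 289)) (XT.lf (nat_lit 0) (nat_lit 1889811977) (nat_lit 380) (nat_lit 2486199287) (nat_lit 456) (nat_lit 8014715237) (nat_lit 129) (nat_lit 5) (nat_lit 134) (nat_lit 5) (nat_lit 135) (nat_lit 5) (nat_lit 470) (nat_lit 382) (nat_lit 288)))) (XT.nd (nat_lit 78) (nat_lit 456) (nat_lit 0) (XT.lf (nat_lit 0) (nat_lit 7508259699) (nat_lit 456) (nat_lit 3308115384) (nat_lit 76) (nat_lit 1723754757) (nat_lit 129) (nat_lit 5) (nat_lit 135) (nat_lit 5) (nat_lit 130) (nat_lit 5) (nat_lit 471)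 (nat_lit 382) (nat_lit 287)) (XT.nd (nat_lit 78) (nat_lit 76) (nat_lit 0) (XT.lf (nat_lit 0) (nat_lit 4031200675) (nat_lit 380) (nat_lit 6691814450) (nat_lit 456) (nat_lit 1969116018) (nat_lit 124) (nat_lit 5) (nat_lit 129) (nat_lit 5) (nat_lit 130) (nat_lit 5) (nat_lit 472) (nat_lit 382) (nat_lit 286)) (XT.lf (nat_lit 0) (nat_lit 1139389378) (nat_lit 456) (nat_lit 1326059073) (nat_lit 76) (nat_lit 10381588061) (nat_lit 123) (nat_lit 5) (nat_lit 129) (nat_lit 5) (nat_lit 124) (nat_lit 5) (nat_lit 473) (nat_lit 382) (nat_lit 285))))))))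
noncomputable def xc104 : XT := (XT.nd (nat_lit 1560) (nat_lit 1368) (nat_lit 0) (XT.nd (nat_lit 780) (nat_lit 1824) (nat_lit 0) (XT.nd (nat_lit 390) (nat_lit 1064) (nat_lit 0) (XT.nd (nat_lit 156) (nat_lit 380) (nat_lit 0) (XT.nd (nat_lit 78) (nat_lit 380) (nat_lit 0) (XT.lf (nat_lit 0) (nat_lit 4313921183) (nat_lit 456) (nat_lit 6826199441) (nat_lit 76) (nat_lit 1864061318) (nat_lit 118) (nat_lit 5) (nat_lit 124) (nat_lit 5) (nat_lit 119) (nat_lit 5) (nat_lit 474) (nat_lit 382) (nat_lit 284)) (XT.lf (nat_lit 0) (nat_lit 644528817) (nat_lit 380) (nat_lit 6914777903) (nat_lit 456) (nat_lit 5605022894) (nat_lit 113) (nat_lit 5) (nat_lit 118) (nat_lit 5) (nat_lit 119) (nat_lit 5) (nat_lit 475) (nat_lit 382) (nat_lit 283))) (XT.nd (nat_lit 78) (nat_lit 380) (nat_lit 0) (XT.lf (nat_lit 0) (nat_lit 8324096253) (nat_lit 380) (nat_lit 2569423051) (nat_lit 456) (nat_lit 2433689015) (nat_lit 113) (nat_lit 5) (nat_lit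 118) (nat_lit 5) (nat_lit 119) (nat_lit 5) (nat_lit 476) (nat_lit 382) (nat_lit 282)) (XT.nd (nat_lit 78) (nat_lit 0) (nat_lit 0) (XT.lf (nat_lit 0) (nat_lit 798405434) (nat_lit 380) (nat_lit 10844648284) (nat_lit 76) (nat_lit 1850036271) (nat_lit 108) (nat_lit 5) (nat_lit 113) (nat_lit 5) (nat_lit 109) (nat_lit 5) (nat_lit 477) (nat_lit 382) (nat_lit 281)) (XT.lf (nat_lit 0) (nat_lit 4091929897) (nat_lit 380) (nat_lit 3207025036) (nat_lit 76) (nat_lit 6362431213) (nat_lit 108) (nat_lit 5) (nat_lit 113) (nat_lit 5) (nat_lit 109) (nat_lit 5) (nat_lit 478) (nat_lit 382) (nat_lit 280))))) (XT.nd (nat_lit 156) (nat_lit 684) (nat_lit 0) (XT.nd (nat_lit 78) (nat_lit 0) (nat_lit 0) (XT.lf (nat_lit 0) (nat_lit 4611580685) (nat_lit 380) (nat_lit 2848639386) (nat_lit 456) (nat_lit 6372656225) (nat_lit 103) (nat_lit 5) (nat_lit 108) (nat_lit 5) (nat_lit 109) (nat_lit 5) (nat_lit 479) (nat_lit 382) (nat_lit 279)) (XT.lf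 (nat_lit 0) (nat_lit 10907602155) (nat_lit 456) (nat_lit 1420844297) (nat_lit 76) (nat_lit 1679121131) (nat_lit 103) (nat_lit 5) (nat_lit 109) (nat_lit 5) (nat_lit 104) (nat_lit 5) (nat_lit 480) (nat_lit 382) (nat_lit 278))) (XT.nd (nat_lit 78) (nat_lit 304) (nat_lit 0) (XT.lf (nat_lit 0) (nat_lit 276346866) (nat_lit 380) (nat_lit 7615577343) (nat_lit 76) (nat_lit 6292977359) (nat_lit 98) (nat_lit 5) (nat_lit 103) (nat_lit 5) (nat_lit 99) (nat_lit 5) (nat_lit 481) (nat_lit 382) (nat_lit 277)) (XT.nd (nat_lit 78) (nat_lit 0) (nat_lit 0) (XT.lf (nat_lit 0) (nat_lit 324808959) (nat_lit 304) (nat_lit 3345166343) (nat_lit 380) (nat_lit 10695576663) (nat_lit 94) (nat_lit 5) (nat_lit 98) (nat_lit 5) (nat_lit 99) (nat_lit 5) (nat_lit 482) (nat_lit 382) (nat_lit 276)) (XT.lf (nat_lit 0) (nat_lit 7170986118) (nat_lit 380) (nat_lit 6062239577) (nat_lit 76) (nat_lit 1315804891) (nat_lit 94) (nat_lit 5) (nat_lit 99) (nat_lit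 5) (nat_lit 95) (nat_lit 5) (nat_lit 483) (nat_lit 382) (nat_lit 275)))))) (XT.nd (nat_lit 390) (nat_lit 912) (nat_lit 0) (XT.nd (nat_lit 156) (nat_lit 608) (nat_lit 0) (XT.nd (nat_lit 78) (nat_lit 0) (nat_lit 0) (XT.lf (nat_lit 0) (nat_lit 2049232974) (nat_lit 304) (nat_lit 8708316002) (nat_lit 380) (nat_lit 3978324471) (nat_lit 90) (nat_lit 5) (nat_lit 94) (nat_lit 5) (nat_lit 95) (nat_lit 5) (nat_lit 484) (nat_lit 382) (nat_lit 274)) (XT.lf (nat_lit 0) (nat_lit 10373992722) (nat_lit 304) (nat_lit 4062793297) (nat_lit 380) (nat_lit 489253487) (nat_lit 90) (nat_lit 5) (nat_lit 94) (nat_lit 5) (nat_lit 95) (nat_lit 5) (nat_lit 485) (nat_lit 382) (nat_lit 273))) (XT.nd (nat_lit 78) (nat_lit 228) (nat_lit 0) (XT.lf (nat_lit 0) (nat_lit 3038769058) (nat_lit 380) (nat_lit 11380489145) (nat_lit 76) (nat_lit 700168514) (nat_lit 85) (nat_lit 5) (nat_lit 90) (nat_lit 5) (nat_lit 86) (nat_lit 5) (nat_lit 486) (nat_lit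 382) (nat_lit 272)) (XT.nd (nat_lit 78) (nat_lit 228) (nat_lit 0) (XT.lf (nat_lit 0) (nat_lit 6669088265) (nat_lit 380) (nat_lit 3119859830) (nat_lit 76) (nat_lit 5526908052) (nat_lit 85) (nat_lit 5) (nat_lit 90) (nat_lit 5) (nat_lit 86) (nat_lit 5) (nat_lit 487) (nat_lit 382) (nat_lit 271)) (XT.lf (nat_lit 0) (nat_lit 5345812382) (nat_lit 228) (nat_lit 5041916258) (nat_lit 304) (nat_lit 5128176034) (nat_lit 82) (nat_lit 5) (nat_lit 85) (nat_lit 5) (nat_lit 86) (nat_lit 5) (nat_lit 488) (nat_lit 382) (nat_lit 270))))) (XT.nd (nat_lit 156) (nat_lit 532) (nat_lit 0) (XT.nd (nat_lit 78) (nat_lit 380) (nat_lit 0) (XT.lf (nat_lit 0) (nat_lit 13993006799) (nat_lit 228) (nat_lit 189854267) (nat_lit 304) (nat_lit 1537055432) (nat_lit 82) (nat_lit 5) (nat_lit 85) (nat_lit 5) (nat_lit 86) (nat_lit 5) (nat_lit 489) (nat_lit 382) (nat_lit 269)) (XT.lf (nat_lit 0) (nat_lit 2155659393) (nat_lit 380) (nat_lit 9025913770) (nat_lit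 76) (nat_lit 4745010803) (nat_lit 77) (nat_lit 5) (nat_lit 82) (nat_lit 5) (nat_lit 78) (nat_lit 5) (nat_lit 490) (nat_lit 382) (nat_lit 268))) (XT.nd (nat_lit 78) (nat_lit 532) (nat_lit 0) (XT.lf (nat_lit 0) (nat_lit 5896114677) (nat_lit 380) (nat_lit 454303573) (nat_lit 76) (nat_lit 9786878426) (nat_lit 77) (nat_lit 5) (nat_lit 82) (nat_lit 5) (nat_lit 78) (nat_lit 5) (nat_lit 491) (nat_lit 382) (nat_lit 267)) (XT.nd (nat_lit 78) (nat_lit 304) (nat_lit 0) (XT.lf (nat_lit 0) (nat_lit 8369240439) (nat_lit 228) (nat_lit 1378365097) (nat_lit 304) (nat_lit 6603897928) (nat_lit 74) (nat_lit 5) (nat_lit 77) (nat_lit 5) (nat_lit 78) (nat_lit 5) (nat_lit 492) (nat_lit 382) (nat_lit 266)) (XT.lf (nat_lit 0) (nat_lit 762116056) (nat_lit 304) (nat_lit 12927987353) (nat_lit 380) (nat_lit 2879615700) (nat_lit 70) (nat_lit 5) (nat_lit 74) (nat_lit 5) (nat_lit 75) (nat_lit 5) (nat_lit 493) (nat_lit 382) (nat_lit 265)))))))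 (XT.nd (nat_lit 50700) (nat_lit 0) (nat_lit 44840) (XT.nd (nat_lit 390) (nat_lit 836) (nat_lit 0) (XT.nd (nat_lit 156) (nat_lit 228) (nat_lit 0) (XT.nd (nat_lit 78) (nat_lit 228) (nat_lit 0) (XT.lf (nat_lit 0) (nat_lit 952169028) (nat_lit 380) (nat_lit 7046504850) (nat_lit 76) (nat_lit 8792608499) (nat_lit 69) (nat_lit 5) (nat_lit 74) (nat_lit 5) (nat_lit 70) (nat_lit 5) (nat_lit 494) (nat_lit 382) (nat_lit 264)) (XT.lf (nat_lit 0) (nat_lit 1866388966) (nat_lit 228) (nat_lit 2950172323) (nat_lit 304) (nat_lit 12200448359) (nat_lit 66) (nat_lit 5) (nat_lit 69) (nat_lit 5) (nat_lit 70) (nat_lit 5) (nat_lit 495) (nat_lit 382) (nat_lit 263))) (XT.nd (nat_lit 78) (nat_lit 228) (nat_lit 0) (XT.lf (nat_lit 0) (nat_lit 8802582630) (nat_lit 304) (nat_lit 6236765340) (nat_lit 76) (nat_lit 2207020611) (nat_lit 66) (nat_lit 5) (nat_lit 70) (nat_lit 5) (nat_lit 67) (nat_lit 5) (nat_lit 496) (nat_lit 382) (nat_lit 262)) (XT.nd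 (nat_lit 78) (nat_lit 0) (nat_lit 0) (XT.lf (nat_lit 0) (nat_lit 2844781505) (nat_lit 228) (nat_lit 10044357545) (nat_lit 304) (nat_lit 4590763215) (nat_lit 63) (nat_lit 5) (nat_lit 66) (nat_lit 5) (nat_lit 67) (nat_lit 5) (nat_lit 497) (nat_lit 382) (nat_lit 261)) (XT.lf (nat_lit 0) (nat_lit 12164328988) (nat_lit 228) (nat_lit 4917910680) (nat_lit 304) (nat_lit 635374479) (nat_lit 63) (nat_lit 5) (nat_lit 66) (nat_lit 5) (nat_lit 67) (nat_lit 5) (nat_lit 498) (nat_lit 382) (nat_lit 260))))) (XT.nd (nat_lit 156) (nat_lit 532) (nat_lit 0) (XT.nd (nat_lit 78) (nat_lit 0) (nat_lit 0) (XT.lf (nat_lit 0) (nat_lit 3364057241) (nat_lit 304) (nat_lit 14252836159) (nat_lit 76) (nat_lit 342558816) (nat_lit 59) (nat_lit 5) (nat_lit 63) (nat_lit 5) (nat_lit 60) (nat_lit 5) (nat_lit 499) (nat_lit 382) (nat_lit 259)) (XT.lf (nat_lit 0) (nat_lit 7488318783) (nat_lit 304) (nat_lit 5043342153) (nat_lit 76) (nat_lit 5673318704)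 (nat_lit 59) (nat_lit 5) (nat_lit 63) (nat_lit 5) (nat_lit 60) (nat_lit 5) (nat_lit 500) (nat_lit 382) (nat_lit 258))) (XT.nd (nat_lit 78) (nat_lit 304) (nat_lit 0) (XT.lf (nat_lit 0) (nat_lit 4380410778) (nat_lit 228) (nat_lit 7326683247) (nat_lit 304) (nat_lit 6748086520) (nat_lit 56) (nat_lit 5) (nat_lit 59) (nat_lit 5) (nat_lit 60) (nat_lit 5) (nat_lit 501) (nat_lit 382) (nat_lit 257)) (XT.nd (nat_lit 78) (nat_lit 304) (nat_lit 0) (XT.lf (nat_lit 0) (nat_lit 14033801908) (nat_lit 228) (nat_lit 1994019483) (nat_lit 304) (nat_lit 2682215975) (nat_lit 56) (nat_lit 5) (nat_lit 59) (nat_lit 5) (nat_lit 60) (nat_lit 5) (nat_lit 502) (nat_lit 382) (nat_lit 256)) (XT.lf (nat_lit 0) (nat_lit 1484340931) (nat_lit 304) (nat_lit 14053413270) (nat_lit 76) (nat_lit 3431278541) (nat_lit 52) (nat_lit 5) (nat_lit 56) (nat_lit 5) (nat_lit 53) (nat_lit 5) (nat_lit 503) (nat_lit 382) (nat_lit 255)))))) (XT.nd (nat_lit 390)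 (nat_lit 912) (nat_lit 0) (XT.nd (nat_lit 156) (nat_lit 380) (nat_lit 0) (XT.nd (nat_lit 78) (nat_lit 380) (nat_lit 0) (XT.lf (nat_lit 0) (nat_lit 1184871510) (nat_lit 0) (nat_lit 1184871510) (nat_lit 228) (nat_lit 860109048) (nat_lit 664) (nat_lit 5) (nat_lit 664) (nat_lit 3) (nat_lit 667) (nat_lit 3) (nat_lit 383) (nat_lit 383) (nat_lit 374)) (XT.lf (nat_lit 0) (nat_lit 1073593801) (nat_lit 380) (nat_lit 1001664937) (nat_lit 380) (nat_lit 4391002963) (nat_lit 659) (nat_lit 3) (nat_lit 664) (nat_lit 3) (nat_lit 664) (nat_lit 5) (nat_lit 384) (nat_lit 383) (nat_lit 373))) (XT.nd (nat_lit 78) (nat_lit 380) (nat_lit 0) (XT.lf (nat_lit 76) (nat_lit 2127576275) (nat_lit 0) (nat_lit 1713370899) (nat_lit 380) (nat_lit 2633027442) (nat_lit 660) (nat_lit 5) (nat_lit 659) (nat_lit 3) (nat_lit 664) (nat_lit 5) (nat_lit 385) (nat_lit 383) (nat_lit 372)) (XT.nd (nat_lit 78) (nat_lit 0) (nat_lit 0) (XT.lf (nat_lit 0) (nat_lit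 113704759) (nat_lit 380) (nat_lit 1188065089) (nat_lit 456) (nat_lit 5181425710) (nat_lit 654) (nat_lit 5) (nat_lit 659) (nat_lit 3) (nat_lit 660) (nat_lit 5) (nat_lit 386) (nat_lit 383) (nat_lit 371)) (XT.lf (nat_lit 76) (nat_lit 2004926894) (nat_lit 0) (nat_lit 817177116) (nat_lit 456) (nat_lit 3671370856) (nat_lit 655) (nat_lit 5) (nat_lit 654) (nat_lit 5) (nat_lit 660) (nat_lit 5) (nat_lit 387) (nat_lit 383) (nat_lit 370))))) (XT.nd (nat_lit 234) (nat_lit 532) (nat_lit 0) (XT.nd (nat_lit 78) (nat_lit 380) (nat_lit 0) (XT.lf (nat_lit 76) (nat_lit 5240763434) (nat_lit 0) (nat_lit 281971084) (nat_lit 456) (nat_lit 982524572) (nat_lit 655) (nat_lit 5) (nat_lit 654) (nat_lit 5) (nat_lit 660) (nat_lit 5) (nat_lit 388) (nat_lit 383) (nat_lit 369)) (XT.nd (nat_lit 78) (nat_lit 0) (nat_lit 0) (XT.lf (nat_lit 0) (nat_lit 1683039731) (nat_lit 456) (nat_lit 4518818889) (nat_lit 532) (nat_lit 316329564) (nat_lit 649)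 (nat_lit 5) (nat_lit 655) (nat_lit 5) (nat_lit 656) (nat_lit 5) (nat_lit 389) (nat_lit 383) (nat_lit 368)) (XT.lf (nat_lit 0) (nat_lit 4331442572) (nat_lit 456) (nat_lit 1232722342) (nat_lit 532) (nat_lit 968284491) (nat_lit 649) (nat_lit 5) (nat_lit 655) (nat_lit 5) (nat_lit 656) (nat_lit 5) (nat_lit 390) (nat_lit 383) (nat_lit 367)))) (XT.nd (nat_lit 78) (nat_lit 0) (nat_lit 0) (XT.lf (nat_lit 0) (nat_lit 426323395) (nat_lit 532) (nat_lit 4442136263) (nat_lit 608) (nat_lit 1679590442) (nat_lit 642) (nat_lit 5) (nat_lit 649) (nat_lit 5) (nat_lit 650) (nat_lit 5) (nat_lit 391) (nat_lit 383) (nat_lit 366)) (XT.nd (nat_lit 78) (nat_lit 0) (nat_lit 0) (XT.lf (nat_lit 0) (nat_lit 3019243697) (nat_lit 532) (nat_lit 1089053061) (nat_lit 608) (nat_lit 2456578586) (nat_lit 642) (nat_lit 5) (nat_lit 649) (nat_lit 5) (nat_lit 650) (nat_lit 5) (nat_lit 392) (nat_lit 383) (nat_lit 365)) (XT.lf (nat_lit 76) (nat_lit 2323667786)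 (nat_lit 0) (nat_lit 3290892787) (nat_lit 608) (nat_lit 968518508) (nat_lit 643) (nat_lit 5) (nat_lit 642) (nat_lit 5) (nat_lit 650) (nat_lit 5) (nat_lit 393) (nat_lit 383) (nat_lit 364))))))))
noncomputable def xc105 : XT := (XT.nd (nat_lit 1638) (nat_lit 14288) (nat_lit 0) (XT.nd (nat_lit 780) (nat_lit 8284) (nat_lit 0) (XT.nd (nat_lit 390) (nat_lit 1748) (nat_lit 0) (XT.nd (nat_lit 156) (nat_lit 1292) (nat_lit 0) (XT.nd (nat_lit 78) (nat_lit 0) (nat_lit 0) (XT.lf (nat_lit 0) (nat_lit 1581721252) (nat_lit 608) (nat_lit 831473606) (nat_lit 684) (nat_lit 4189420016) (nat_lit 634) (nat_lit 5) (nat_lit 642) (nat_lit 5) (nat_lit 643) (nat_lit 5) (nat_lit 394) (nat_lit 383) (nat_lit 363)) (XT.lf (nat_lit 76) (nat_lit 2655642725) (nat_lit 0) (nat_lit 1468864659) (nat_lit 684) (nat_lit 2498865470) (nat_lit 635) (nat_lit 5) (nat_lit 634) (nat_lit 5) (nat_lit 643) (nat_lit 5) (nat_lit 395) (nat_lit 383) (nat_lit 362)))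 (XT.nd (nat_lit 78) (nat_lit 608) (nat_lit 0) (XT.lf (nat_lit 0) (nat_lit 16039638) (nat_lit 684) (nat_lit 459598247) (nat_lit 760) (nat_lit 6170078295) (nat_lit 625) (nat_lit 5) (nat_lit 634) (nat_lit 5) (nat_lit 635) (nat_lit 5) (nat_lit 396) (nat_lit 383) (nat_lit 361)) (XT.nd (nat_lit 78) (nat_lit 684) (nat_lit 0) (XT.lf (nat_lit 0) (nat_lit 2510864474) (nat_lit 684) (nat_lit 3567718056) (nat_lit 76) (nat_lit 590378706) (nat_lit 626) (nat_lit 5) (nat_lit 635) (nat_lit 5) (nat_lit 627) (nat_lit 5) (nat_lit 397) (nat_lit 383) (nat_lit 360)) (XT.lf (nat_lit 0) (nat_lit 5003470) (nat_lit 684) (nat_lit 4996974248) (nat_lit 760) (nat_lit 1691811559) (nat_lit 617) (nat_lit 5) (nat_lit 626) (nat_lit 5) (nat_lit 627) (nat_lit 5) (nat_lit 398) (nat_lit 383) (nat_lit 359))))) (XT.nd (nat_lit 156) (nat_lit 912) (nat_lit 0) (XT.nd (nat_lit 78) (nat_lit 760) (nat_lit 0) (XT.lf (nat_lit 0) (nat_lit 777688921) (nat_lit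 760) (nat_lit 3065993440) (nat_lit 76) (nat_lit 2876074809) (nat_lit 616) (nat_lit 5) (nat_lit 626) (nat_lit 5) (nat_lit 617) (nat_lit 5) (nat_lit 399) (nat_lit 383) (nat_lit 358)) (XT.lf (nat_lit 0) (nat_lit 587131482) (nat_lit 760) (nat_lit 2632386652) (nat_lit 836) (nat_lit 3527634063) (nat_lit 606) (nat_lit 5) (nat_lit 616) (nat_lit 5) (nat_lit 617) (nat_lit 5) (nat_lit 400) (nat_lit 383) (nat_lit 357))) (XT.nd (nat_lit 78) (nat_lit 912) (nat_lit 0) (XT.lf (nat_lit 0) (nat_lit 4316513751) (nat_lit 760) (nat_lit 1356896355) (nat_lit 836) (nat_lit 1102462919) (nat_lit 606) (nat_lit 5) (nat_lit 616) (nat_lit 5) (nat_lit 617) (nat_lit 5) (nat_lit 401) (nat_lit 383) (nat_lit 356)) (XT.nd (nat_lit 78) (nat_lit 0) (nat_lit 0) (XT.lf (nat_lit 0) (nat_lit 1284857016) (nat_lit 836) (nat_lit 20075915) (nat_lit 912) (nat_lit 5501063964) (nat_lit 594) (nat_lit 5) (nat_lit 605) (nat_lit 5) (nat_lit 606) (nat_lit 5) (nat_lit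 402) (nat_lit 383) (nat_lit 355)) (XT.lf (nat_lit 0) (nat_lit 3715404225) (nat_lit 912) (nat_lit 1754655303) (nat_lit 76) (nat_lit 1367164157) (nat_lit 594) (nat_lit 5) (nat_lit 606) (nat_lit 5) (nat_lit 595) (nat_lit 5) (nat_lit 403) (nat_lit 383) (nat_lit 354)))))) (XT.nd (nat_lit 390) (nat_lit 5168) (nat_lit 0) (XT.nd (nat_lit 156) (nat_lit 2128) (nat_lit 0) (XT.nd (nat_lit 78) (nat_lit 76) (nat_lit 0) (XT.lf (nat_lit 0) (nat_lit 2075596970) (nat_lit 912) (nat_lit 4057528494) (nat_lit 988) (nat_lit 736807931) (nat_lit 582) (nat_lit 5) (nat_lit 594) (nat_lit 5) (nat_lit 595) (nat_lit 5) (nat_lit 404) (nat_lit 383) (nat_lit 353)) (XT.lf (nat_lit 0) (nat_lit 1631372606) (nat_lit 988) (nat_lit 947065389) (nat_lit 76) (nat_lit 4325522542) (nat_lit 581) (nat_lit 5) (nat_lit 594) (nat_lit 5) (nat_lit 582) (nat_lit 5) (nat_lit 405) (nat_lit 383) (nat_lit 352))) (XT.nd (nat_lit 78) (nat_lit 1140) (nat_lit 0) (XT.lf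 (nat_lit 0) (nat_lit 2972875285) (nat_lit 988) (nat_lit 1030406537) (nat_lit 1064) (nat_lit 2936001310) (nat_lit 568) (nat_lit 5) (nat_lit 581) (nat_lit 5) (nat_lit 582) (nat_lit 5) (nat_lit 406) (nat_lit 383) (nat_lit 351)) (XT.nd (nat_lit 78) (nat_lit 1140) (nat_lit 0) (XT.lf (nat_lit 0) (nat_lit 6380393320) (nat_lit 1064) (nat_lit 34043806) (nat_lit 76) (nat_lit 561755981) (nat_lit 568) (nat_lit 5) (nat_lit 582) (nat_lit 5) (nat_lit 569) (nat_lit 5) (nat_lit 407) (nat_lit 383) (nat_lit 350)) (XT.lf (nat_lit 0) (nat_lit 1749074419) (nat_lit 1140) (nat_lit 3041897496) (nat_lit 76) (nat_lit 2223044363) (nat_lit 553) (nat_lit 5) (nat_lit 568) (nat_lit 5) (nat_lit 554) (nat_lit 5) (nat_lit 408) (nat_lit 383) (nat_lit 349))))) (XT.nd (nat_lit 234) (nat_lit 2736) (nat_lit 0) (XT.nd (nat_lit 78) (nat_lit 1292) (nat_lit 0) (XT.lf (nat_lit 0) (nat_lit 976137642) (nat_lit 1140) (nat_lit 3112520789) (nat_lit 1216) (nat_lit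 2964777038) (nat_lit 538) (nat_lit 5) (nat_lit 553) (nat_lit 5) (nat_lit 554) (nat_lit 5) (nat_lit 409) (nat_lit 383) (nat_lit 348)) (XT.nd (nat_lit 78) (nat_lit 1292) (nat_lit 0) (XT.lf (nat_lit 0) (nat_lit 5077031608) (nat_lit 1140) (nat_lit 1368374462) (nat_lit 1216) (nat_lit 648862988) (nat_lit 538) (nat_lit 5) (nat_lit 553) (nat_lit 5) (nat_lit 554) (nat_lit 5) (nat_lit 410) (nat_lit 383) (nat_lit 347)) (XT.lf (nat_lit 0) (nat_lit 1658027714) (nat_lit 1292) (nat_lit 5037544151) (nat_lit 76) (nat_lit 440814529) (nat_lit 521) (nat_lit 5) (nat_lit 538) (nat_lit 5) (nat_lit 522) (nat_lit 5) (nat_lit 411) (nat_lit 383) (nat_lit 346)))) (XT.nd (nat_lit 78) (nat_lit 2736) (nat_lit 0) (XT.lf (nat_lit 0) (nat_lit 3976434031) (nat_lit 1292) (nat_lit 907419298) (nat_lit 76) (nat_lit 2295957171) (nat_lit 521) (nat_lit 5) (nat_lit 538) (nat_lit 5) (nat_lit 522) (nat_lit 5) (nat_lit 412) (nat_lit 383) (nat_lit 345))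 (XT.nd (nat_lit 78) (nat_lit 1444) (nat_lit 0) (XT.lf (nat_lit 0) (nat_lit 3310010776) (nat_lit 1292) (nat_lit 3005011523) (nat_lit 1368) (nat_lit 909635418) (nat_lit 504) (nat_lit 5) (nat_lit 521) (nat_lit 5) (nat_lit 522) (nat_lit 5) (nat_lit 413) (nat_lit 383) (nat_lit 344)) (XT.lf (nat_lit 0) (nat_lit 309430460) (nat_lit 1368) (nat_lit 1062601264) (nat_lit 1444) (nat_lit 5898998056) (nat_lit 485) (nat_lit 5) (nat_lit 503) (nat_lit 5) (nat_lit 504) (nat_lit 5) (nat_lit 414) (nat_lit 383) (nat_lit 343))))))) (XT.nd (nat_lit 780) (nat_lit 5092) (nat_lit 0) (XT.nd (nat_lit 390) (nat_lit 4560) (nat_lit 0) (XT.nd (nat_lit 156) (nat_lit 3192) (nat_lit 0) (XT.nd (nat_lit 78) (nat_lit 1444) (nat_lit 0) (XT.lf (nat_lit 0) (nat_lit 3672965002) (nat_lit 1444) (nat_lit 2698781326) (nat_lit 76) (nat_lit 946775570) (nat_lit 485) (nat_lit 5) (nat_lit 504) (nat_lit 5) (nat_lit 486) (nat_lit 5) (nat_lit 415) (nat_lit 383)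 (nat_lit 342)) (XT.lf (nat_lit 0) (nat_lit 1624474610) (nat_lit 1444) (nat_lit 4367334027) (nat_lit 1520) (nat_lit 1375745938) (nat_lit 466) (nat_lit 5) (nat_lit 485) (nat_lit 5) (nat_lit 486) (nat_lit 5) (nat_lit 416) (nat_lit 383) (nat_lit 341))) (XT.nd (nat_lit 78) (nat_lit 3116) (nat_lit 0) (XT.lf (nat_lit 0) (nat_lit 899995512) (nat_lit 1520) (nat_lit 1392106785) (nat_lit 76) (nat_lit 5125913951) (nat_lit 465) (nat_lit 5) (nat_lit 485) (nat_lit 5) (nat_lit 466) (nat_lit 5) (nat_lit 417) (nat_lit 383) (nat_lit 340)) (XT.nd (nat_lit 78) (nat_lit 1596) (nat_lit 0) (XT.lf (nat_lit 0) (nat_lit 3037931805) (nat_lit 1520) (nat_lit 140155235) (nat_lit 1596) (nat_lit 4291740015) (nat_lit 445) (nat_lit 5) (nat_lit 465) (nat_lit 5) (nat_lit 466) (nat_lit 5) (nat_lit 418) (nat_lit 383) (nat_lit 339)) (XT.lf (nat_lit 0) (nat_lit 182963) (nat_lit 1596) (nat_lit 5480476571) (nat_lit 1672) (nat_lit 2042462539) (nat_lit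 424) (nat_lit 5) (nat_lit 445) (nat_lit 5) (nat_lit 446) (nat_lit 5) (nat_lit 419) (nat_lit 383) (nat_lit 338))))) (XT.nd (nat_lit 156) (nat_lit 2812) (nat_lit 0) (XT.nd (nat_lit 78) (nat_lit 1672) (nat_lit 0) (XT.lf (nat_lit 0) (nat_lit 235830210) (nat_lit 1672) (nat_lit 3038385343) (nat_lit 76) (nat_lit 4303513451) (nat_lit 423) (nat_lit 5) (nat_lit 445) (nat_lit 5) (nat_lit 424) (nat_lit 5) (nat_lit 420) (nat_lit 383) (nat_lit 337)) (XT.lf (nat_lit 0) (nat_lit 1503110135) (nat_lit 1672) (nat_lit 996335101) (nat_lit 1748) (nat_lit 5134395581) (nat_lit 401) (nat_lit 5) (nat_lit 423) (nat_lit 5) (nat_lit 424) (nat_lit 5) (nat_lit 421) (nat_lit 383) (nat_lit 336))) (XT.nd (nat_lit 78) (nat_lit 2812) (nat_lit 0) (XT.lf (nat_lit 0) (nat_lit 4795401312) (nat_lit 1748) (nat_lit 1562365838) (nat_lit 76) (nat_lit 1333590710) (nat_lit 401) (nat_lit 5) (nat_lit 424) (nat_lit 5) (nat_lit 402) (nat_lit 5) (nat_lit 422)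 (nat_lit 383) (nat_lit 335)) (XT.nd (nat_lit 78) (nat_lit 1064) (nat_lit 0) (XT.lf (nat_lit 0) (nat_lit 3092534130) (nat_lit 1748) (nat_lit 4030172469) (nat_lit 1824) (nat_lit 627633933) (nat_lit 378) (nat_lit 5) (nat_lit 401) (nat_lit 5) (nat_lit 402) (nat_lit 5) (nat_lit 423) (nat_lit 383) (nat_lit 334)) (XT.lf (nat_lit 0) (nat_lit 1312568) (nat_lit 988) (nat_lit 1632210937) (nat_lit 1064) (nat_lit 6177391749) (nat_lit 364) (nat_lit 5) (nat_lit 377) (nat_lit 5) (nat_lit 378) (nat_lit 5) (nat_lit 424) (nat_lit 383) (nat_lit 333)))))) (XT.nd (nat_lit 390) (nat_lit 2432) (nat_lit 0) (XT.nd (nat_lit 156) (nat_lit 1748) (nat_lit 0) (XT.nd (nat_lit 78) (nat_lit 912) (nat_lit 0) (XT.lf (nat_lit 0) (nat_lit 3927835031) (nat_lit 1064) (nat_lit 3104660822) (nat_lit 76) (nat_lit 840218461) (nat_lit 364) (nat_lit 5) (nat_lit 378) (nat_lit 5) (nat_lit 365) (nat_lit 5) (nat_lit 425) (nat_lit 383) (nat_lit 332)) (XT.lf (nat_lit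 0) (nat_lit 1666515886) (nat_lit 912) (nat_lit 4583519532) (nat_lit 988) (nat_lit 1686095952) (nat_lit 352) (nat_lit 5) (nat_lit 364) (nat_lit 5) (nat_lit 365) (nat_lit 5) (nat_lit 426) (nat_lit 383) (nat_lit 331))) (XT.nd (nat_lit 78) (nat_lit 1672) (nat_lit 0) (XT.lf (nat_lit 0) (nat_lit 591350423) (nat_lit 988) (nat_lit 1468548895) (nat_lit 76) (nat_lit 5941226618) (nat_lit 351) (nat_lit 5) (nat_lit 364) (nat_lit 5) (nat_lit 352) (nat_lit 5) (nat_lit 427) (nat_lit 383) (nat_lit 330)) (XT.nd (nat_lit 78) (nat_lit 836) (nat_lit 0) (XT.lf (nat_lit 0) (nat_lit 2878971751) (nat_lit 912) (nat_lit 4647260326) (nat_lit 76) (nat_lit 541242158) (nat_lit 340) (nat_lit 5) (nat_lit 352) (nat_lit 5) (nat_lit 341) (nat_lit 5) (nat_lit 428) (nat_lit 383) (nat_lit 329)) (XT.lf (nat_lit 0) (nat_lit 242215562) (nat_lit 836) (nat_lit 4957163993) (nat_lit 912) (nat_lit 2936049652) (nat_lit 329) (nat_lit 5) (nat_lit 340) (nat_lit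 5) (nat_lit 341) (nat_lit 5) (nat_lit 429) (nat_lit 383) (nat_lit 328))))) (XT.nd (nat_lit 234) (nat_lit 1596) (nat_lit 0) (XT.nd (nat_lit 78) (nat_lit 836) (nat_lit 0) (XT.lf (nat_lit 0) (nat_lit 5253771831) (nat_lit 836) (nat_lit 2306004729) (nat_lit 912) (nat_lit 645115088) (nat_lit 329) (nat_lit 5) (nat_lit 340) (nat_lit 5) (nat_lit 341) (nat_lit 5) (nat_lit 430) (nat_lit 383) (nat_lit 327)) (XT.nd (nat_lit 78) (nat_lit 0) (nat_lit 0) (XT.lf (nat_lit 0) (nat_lit 1648483129) (nat_lit 836) (nat_lit 6211264860) (nat_lit 76) (nat_lit 416214277) (nat_lit 318) (nat_lit 5) (nat_lit 329) (nat_lit 5) (nat_lit 319) (nat_lit 5) (nat_lit 431) (nat_lit 383) (nat_lit 326)) (XT.lf (nat_lit 0) (nat_lit 3977868809) (nat_lit 836) (nat_lit 1185845516) (nat_lit 76) (nat_lit 3184702452) (nat_lit 318) (nat_lit 5) (nat_lit 329) (nat_lit 5) (nat_lit 319) (nat_lit 5) (nat_lit 432) (nat_lit 383) (nat_lit 325)))) (XT.nd (nat_lit 78)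 (nat_lit 836) (nat_lit 0) (XT.lf (nat_lit 0) (nat_lit 3953753576) (nat_lit 760) (nat_lit 2389817098) (nat_lit 836) (nat_lit 2078973605) (nat_lit 308) (nat_lit 5) (nat_lit 318) (nat_lit 5) (nat_lit 319) (nat_lit 5) (nat_lit 433) (nat_lit 383) (nat_lit 324)) (XT.nd (nat_lit 78) (nat_lit 0) (nat_lit 0) (XT.lf (nat_lit 0) (nat_lit 234681541) (nat_lit 836) (nat_lit 7818507292) (nat_lit 76) (nat_lit 445356917) (nat_lit 297) (nat_lit 5) (nat_lit 308) (nat_lit 5) (nat_lit 298) (nat_lit 5) (nat_lit 434) (nat_lit 383) (nat_lit 323)) (XT.lf (nat_lit 0) (nat_lit 2577509307) (nat_lit 836) (nat_lit 2651716710) (nat_lit 76) (nat_lit 3346369056) (nat_lit 297) (nat_lit 5) (nat_lit 308) (nat_lit 5) (nat_lit 298) (nat_lit 5) (nat_lit 435) (nat_lit 383) (nat_lit 322))))))))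
noncomputable def xc106 : XT := (XT.nd (nat_lit 1638) (nat_lit 5548) (nat_lit 0) (XT.nd (nat_lit 780) (nat_lit 4180) (nat_lit 0) (XT.nd (nat_lit 390) (nat_lit 2052) (nat_lit 0) (XT.nd (nat_lit 156) (nat_lit 1444) (nat_lit 0) (XT.nd (nat_lit 78) (nat_lit 0) (nat_lit 0) (XT.lf (nat_lit 0) (nat_lit 2614586910) (nat_lit 760) (nat_lit 2334972365) (nat_lit 836) (nat_lit 3704995856) (nat_lit 287) (nat_lit 5) (nat_lit 297) (nat_lit 5) (nat_lit 298) (nat_lit 5) (nat_lit 436) (nat_lit 383) (nat_lit 321)) (XT.lf (nat_lit 0) (nat_lit 7356768436) (nat_lit 836) (nat_lit 755241223) (nat_lit 76) (nat_lit 623347094) (nat_lit 287) (nat_lit 5) (nat_lit 298) (nat_lit 5) (nat_lit 288) (nat_lit 5) (nat_lit 437) (nat_lit 383) (nat_lit 320))) (XT.nd (nat_lit 78) (nat_lit 684) (nat_lit 0) (XT.lf (nat_lit 0) (nat_lit 993447307) (nat_lit 760) (nat_lit 4181260173) (nat_lit 76) (nat_lit 3642711067) (nat_lit 277) (nat_lit 5) (nat_lit 287)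 (nat_lit 5) (nat_lit 278) (nat_lit 5) (nat_lit 438) (nat_lit 383) (nat_lit 319)) (XT.nd (nat_lit 78) (nat_lit 0) (nat_lit 0) (XT.lf (nat_lit 0) (nat_lit 1213359491) (nat_lit 684) (nat_lit 2160749745) (nat_lit 760) (nat_lit 5527252958) (nat_lit 268) (nat_lit 5) (nat_lit 277) (nat_lit 5) (nat_lit 278) (nat_lit 5) (nat_lit 439) (nat_lit 383) (nat_lit 318)) (XT.lf (nat_lit 0) (nat_lit 5803585440) (nat_lit 760) (nat_lit 2258377770) (nat_lit 76) (nat_lit 925012935) (nat_lit 268) (nat_lit 5) (nat_lit 278) (nat_lit 5) (nat_lit 269) (nat_lit 5) (nat_lit 440) (nat_lit 383) (nat_lit 317))))) (XT.nd (nat_lit 156) (nat_lit 1292) (nat_lit 0) (XT.nd (nat_lit 78) (nat_lit 76) (nat_lit 0) (XT.lf (nat_lit 0) (nat_lit 3270792708) (nat_lit 684) (nat_lit 5014076569) (nat_lit 760) (nat_lit 789383886) (nat_lit 259) (nat_lit 5) (nat_lit 268) (nat_lit 5) (nat_lit 269) (nat_lit 5) (nat_lit 441) (nat_lit 383) (nat_lit 316)) (XT.lf (nat_lit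 0) (nat_lit 1613922788) (nat_lit 760) (nat_lit 270471413) (nat_lit 76) (nat_lit 7279019648) (nat_lit 258) (nat_lit 5) (nat_lit 268) (nat_lit 5) (nat_lit 259) (nat_lit 5) (nat_lit 442) (nat_lit 383) (nat_lit 315))) (XT.nd (nat_lit 78) (nat_lit 608) (nat_lit 0) (XT.lf (nat_lit 0) (nat_lit 4066997513) (nat_lit 760) (nat_lit 3861212113) (nat_lit 76) (nat_lit 1325812608) (nat_lit 249) (nat_lit 5) (nat_lit 259) (nat_lit 5) (nat_lit 250) (nat_lit 5) (nat_lit 443) (nat_lit 383) (nat_lit 314)) (XT.nd (nat_lit 78) (nat_lit 0) (nat_lit 0) (XT.lf (nat_lit 0) (nat_lit 1800293677) (nat_lit 608) (nat_lit 4763645303) (nat_lit 684) (nat_lit 2782621697) (nat_lit 241) (nat_lit 5) (nat_lit 249) (nat_lit 5) (nat_lit 250) (nat_lit 5) (nat_lit 444) (nat_lit 383) (nat_lit 313)) (XT.lf (nat_lit 0) (nat_lit 7590172509) (nat_lit 608) (nat_lit 1515737685) (nat_lit 684) (nat_lit 335151600) (nat_lit 241) (nat_lit 5) (nat_lit 249) (nat_lit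 5) (nat_lit 250) (nat_lit 5) (nat_lit 445) (nat_lit 383) (nat_lit 312)))))) (XT.nd (nat_lit 390) (nat_lit 2204) (nat_lit 0) (XT.nd (nat_lit 156) (nat_lit 684) (nat_lit 0) (XT.nd (nat_lit 78) (nat_lit 608) (nat_lit 0) (XT.lf (nat_lit 0) (nat_lit 2140090066) (nat_lit 684) (nat_lit 5589762430) (nat_lit 76) (nat_lit 1807189627) (nat_lit 232) (nat_lit 5) (nat_lit 241) (nat_lit 5) (nat_lit 233) (nat_lit 5) (nat_lit 446) (nat_lit 383) (nat_lit 311)) (XT.lf (nat_lit 0) (nat_lit 204941697) (nat_lit 608) (nat_lit 4449169844) (nat_lit 684) (nat_lit 4980923887) (nat_lit 224) (nat_lit 5) (nat_lit 232) (nat_lit 5) (nat_lit 233) (nat_lit 5) (nat_lit 447) (nat_lit 383) (nat_lit 310))) (XT.nd (nat_lit 78) (nat_lit 684) (nat_lit 0) (XT.lf (nat_lit 0) (nat_lit 6154341394) (nat_lit 608) (nat_lit 1071819871) (nat_lit 684) (nat_lit 2508685057) (nat_lit 224) (nat_lit 5) (nat_lit 232) (nat_lit 5) (nat_lit 233) (nat_lit 5) (nat_lit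 448) (nat_lit 383) (nat_lit 309)) (XT.nd (nat_lit 78) (nat_lit 0) (nat_lit 0) (XT.lf (nat_lit 0) (nat_lit 14363281) (nat_lit 684) (nat_lit 7471840060) (nat_lit 76) (nat_lit 2350429885) (nat_lit 215) (nat_lit 5) (nat_lit 224) (nat_lit 5) (nat_lit 216) (nat_lit 5) (nat_lit 449) (nat_lit 383) (nat_lit 308)) (XT.lf (nat_lit 0) (nat_lit 2556504672) (nat_lit 684) (nat_lit 1523265448) (nat_lit 76) (nat_lit 5860321578) (nat_lit 215) (nat_lit 5) (nat_lit 224) (nat_lit 5) (nat_lit 216) (nat_lit 5) (nat_lit 450) (nat_lit 383) (nat_lit 307))))) (XT.nd (nat_lit 234) (nat_lit 1064) (nat_lit 0) (XT.nd (nat_lit 78) (nat_lit 608) (nat_lit 0) (XT.lf (nat_lit 0) (nat_lit 4567963893) (nat_lit 532) (nat_lit 582661329) (nat_lit 608) (nat_lit 4894983102) (nat_lit 208) (nat_lit 5) (nat_lit 215) (nat_lit 5) (nat_lit 216) (nat_lit 5) (nat_lit 451) (nat_lit 383) (nat_lit 306)) (XT.nd (nat_lit 78) (nat_lit 76) (nat_lit 0) (XT.lf (nat_lit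 0) (nat_lit 600554368) (nat_lit 532) (nat_lit 7201392343) (nat_lit 608) (nat_lit 2351193684) (nat_lit 201) (nat_lit 5) (nat_lit 208) (nat_lit 5) (nat_lit 209) (nat_lit 5) (nat_lit 452) (nat_lit 383) (nat_lit 305)) (XT.lf (nat_lit 0) (nat_lit 253013712) (nat_lit 608) (nat_lit 3429860285) (nat_lit 76) (nat_lit 6579673822) (nat_lit 200) (nat_lit 5) (nat_lit 208) (nat_lit 5) (nat_lit 201) (nat_lit 5) (nat_lit 453) (nat_lit 383) (nat_lit 304)))) (XT.nd (nat_lit 78) (nat_lit 532) (nat_lit 0) (XT.lf (nat_lit 0) (nat_lit 2800540012) (nat_lit 532) (nat_lit 67921991) (nat_lit 608) (nat_lit 7505568599) (nat_lit 193) (nat_lit 5) (nat_lit 200) (nat_lit 5) (nat_lit 201) (nat_lit 5) (nat_lit 454) (nat_lit 383) (nat_lit 303)) (XT.nd (nat_lit 78) (nat_lit 532) (nat_lit 0) (XT.lf (nat_lit 0) (nat_lit 5555567836) (nat_lit 608) (nat_lit 1345096645) (nat_lit 76) (nat_lit 3586702194) (nat_lit 193) (nat_lit 5) (nat_lit 201) (nat_lit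 5) (nat_lit 194) (nat_lit 5) (nat_lit 455) (nat_lit 383) (nat_lit 302)) (XT.lf (nat_lit 0) (nat_lit 5037996063) (nat_lit 532) (nat_lit 3264796116) (nat_lit 608) (nat_lit 2300060162) (nat_lit 186) (nat_lit 5) (nat_lit 193) (nat_lit 5) (nat_lit 194) (nat_lit 5) (nat_lit 456) (nat_lit 383) (nat_lit 301))))))) (XT.nd (nat_lit 780) (nat_lit 2508) (nat_lit 0) (XT.nd (nat_lit 390) (nat_lit 1444) (nat_lit 0) (XT.nd (nat_lit 156) (nat_lit 1064) (nat_lit 0) (XT.nd (nat_lit 78) (nat_lit 0) (nat_lit 0) (XT.lf (nat_lit 0) (nat_lit 369939539) (nat_lit 532) (nat_lit 9904708882) (nat_lit 76) (nat_lit 446146060) (nat_lit 179) (nat_lit 5) (nat_lit 186) (nat_lit 5) (nat_lit 180) (nat_lit 5) (nat_lit 457) (nat_lit 383) (nat_lit 300)) (XT.lf (nat_lit 0) (nat_lit 3095343847) (nat_lit 532) (nat_lit 3513238843) (nat_lit 76) (nat_lit 4231562457) (nat_lit 179) (nat_lit 5) (nat_lit 186) (nat_lit 5) (nat_lit 180) (nat_lit 5) (nat_lit 458)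 (nat_lit 383) (nat_lit 299))) (XT.nd (nat_lit 78) (nat_lit 532) (nat_lit 0) (XT.lf (nat_lit 0) (nat_lit 3010376549) (nat_lit 532) (nat_lit 2858505486) (nat_lit 608) (nat_lit 5093137883) (nat_lit 172) (nat_lit 5) (nat_lit 179) (nat_lit 5) (nat_lit 180) (nat_lit 5) (nat_lit 459) (nat_lit 383) (nat_lit 298)) (XT.nd (nat_lit 78) (nat_lit 532) (nat_lit 0) (XT.lf (nat_lit 0) (nat_lit 8702199921) (nat_lit 608) (nat_lit 1415601460) (nat_lit 76) (nat_lit 968454045) (nat_lit 172) (nat_lit 5) (nat_lit 180) (nat_lit 5) (nat_lit 173) (nat_lit 5) (nat_lit 460) (nat_lit 383) (nat_lit 297)) (XT.lf (nat_lit 0) (nat_lit 402341132) (nat_lit 532) (nat_lit 5948472155) (nat_lit 76) (nat_lit 4861560048) (nat_lit 165) (nat_lit 5) (nat_lit 172) (nat_lit 5) (nat_lit 166) (nat_lit 5) (nat_lit 461) (nat_lit 383) (nat_lit 296))))) (XT.nd (nat_lit 156) (nat_lit 988) (nat_lit 0) (XT.nd (nat_lit 78) (nat_lit 0) (nat_lit 0) (XT.lf (nat_lit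 0) (nat_lit 714056507) (nat_lit 456) (nat_lit 2487616569) (nat_lit 532) (nat_lit 8139251633) (nat_lit 159) (nat_lit 5) (nat_lit 165) (nat_lit 5) (nat_lit 166) (nat_lit 5) (nat_lit 462) (nat_lit 383) (nat_lit 295)) (XT.lf (nat_lit 0) (nat_lit 6081712005) (nat_lit 532) (nat_lit 3925506241) (nat_lit 76) (nat_lit 1464343159) (nat_lit 159) (nat_lit 5) (nat_lit 166) (nat_lit 5) (nat_lit 160) (nat_lit 5) (nat_lit 463) (nat_lit 383) (nat_lit 294))) (XT.nd (nat_lit 78) (nat_lit 532) (nat_lit 0) (XT.lf (nat_lit 0) (nat_lit 2897061864) (nat_lit 456) (nat_lit 6133167685) (nat_lit 532) (nat_lit 2574372262) (nat_lit 153) (nat_lit 5) (nat_lit 159) (nat_lit 5) (nat_lit 160) (nat_lit 5) (nat_lit 464) (nat_lit 383) (nat_lit 293)) (XT.nd (nat_lit 78) (nat_lit 456) (nat_lit 0) (XT.lf (nat_lit 0) (nat_lit 295713210) (nat_lit 532) (nat_lit 1867036769) (nat_lit 76) (nat_lit 9577478637) (nat_lit 152) (nat_lit 5) (nat_lit 159) (nat_lit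 5) (nat_lit 153) (nat_lit 5) (nat_lit 465) (nat_lit 383) (nat_lit 292)) (XT.lf (nat_lit 0) (nat_lit 3210728247) (nat_lit 532) (nat_lit 6763874251) (nat_lit 76) (nat_lit 1903193191) (nat_lit 146) (nat_lit 5) (nat_lit 153) (nat_lit 5) (nat_lit 147) (nat_lit 5) (nat_lit 466) (nat_lit 383) (nat_lit 291)))))) (XT.nd (nat_lit 390) (nat_lit 1216) (nat_lit 0) (XT.nd (nat_lit 156) (nat_lit 912) (nat_lit 0) (XT.nd (nat_lit 78) (nat_lit 0) (nat_lit 0) (XT.lf (nat_lit 0) (nat_lit 196144984) (nat_lit 380) (nat_lit 5992451270) (nat_lit 456) (nat_lit 5829434679) (nat_lit 141) (nat_lit 5) (nat_lit 146) (nat_lit 5) (nat_lit 147) (nat_lit 5) (nat_lit 467) (nat_lit 383) (nat_lit 290)) (XT.lf (nat_lit 0) (nat_lit 7353309024) (nat_lit 380) (nat_lit 1894691059) (nat_lit 456) (nat_lit 2912638957) (nat_lit 141) (nat_lit 5) (nat_lit 146) (nat_lit 5) (nat_lit 147) (nat_lit 5) (nat_lit 468) (nat_lit 383) (nat_lit 289))) (XT.nd (nat_lit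 78) (nat_lit 380) (nat_lit 0) (XT.lf (nat_lit 0) (nat_lit 68656381) (nat_lit 532) (nat_lit 9976664295) (nat_lit 76) (nat_lit 2260638278) (nat_lit 134) (nat_lit 5) (nat_lit 141) (nat_lit 5) (nat_lit 135) (nat_lit 5) (nat_lit 469) (nat_lit 383) (nat_lit 288)) (XT.nd (nat_lit 78) (nat_lit 380) (nat_lit 0) (XT.lf (nat_lit 0) (nat_lit 3092694571) (nat_lit 532) (nat_lit 2845346683) (nat_lit 76) (nat_lit 6515323901) (nat_lit 134) (nat_lit 5) (nat_lit 141) (nat_lit 5) (nat_lit 135) (nat_lit 5) (nat_lit 470) (nat_lit 383) (nat_lit 287)) (XT.lf (nat_lit 0) (nat_lit 4454099084) (nat_lit 380) (nat_lit 1729542961) (nat_lit 456) (nat_lit 6419956002) (nat_lit 129) (nat_lit 5) (nat_lit 134) (nat_lit 5) (nat_lit 135) (nat_lit 5) (nat_lit 471) (nat_lit 383) (nat_lit 286))))) (XT.nd (nat_lit 234) (nat_lit 380) (nat_lit 0) (XT.nd (nat_lit 78) (nat_lit 836) (nat_lit 0) (XT.lf (nat_lit 0) (nat_lit 9349940689) (nat_lit 456) (nat_lit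 868200931) (nat_lit 76) (nat_lit 2538430331) (nat_lit 129) (nat_lit 5) (nat_lit 135) (nat_lit 5) (nat_lit 130) (nat_lit 5) (nat_lit 472) (nat_lit 383) (nat_lit 285)) (XT.nd (nat_lit 78) (nat_lit 456) (nat_lit 0) (XT.lf (nat_lit 0) (nat_lit 6601414102) (nat_lit 380) (nat_lit 6010574211) (nat_lit 456) (nat_lit 299975422) (nat_lit 124) (nat_lit 5) (nat_lit 129) (nat_lit 5) (nat_lit 130) (nat_lit 5) (nat_lit 473) (nat_lit 383) (nat_lit 284)) (XT.lf (nat_lit 0) (nat_lit 1125421597) (nat_lit 380) (nat_lit 1697116798) (nat_lit 456) (nat_lit 10247732032) (nat_lit 118) (nat_lit 5) (nat_lit 123) (nat_lit 5) (nat_lit 124) (nat_lit 5) (nat_lit 474) (nat_lit 383) (nat_lit 283)))) (XT.nd (nat_lit 78) (nat_lit 380) (nat_lit 0) (XT.lf (nat_lit 0) (nat_lit 6041991155) (nat_lit 456) (nat_lit 4487729193) (nat_lit 76) (nat_lit 2701219607) (nat_lit 118) (nat_lit 5) (nat_lit 124) (nat_lit 5) (nat_lit 119) (nat_lit 5) (nat_lit 475)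 (nat_lit 383) (nat_lit 282)) (XT.nd (nat_lit 78) (nat_lit 0) (nat_lit 0) (XT.lf (nat_lit 0) (nat_lit 3116130774) (nat_lit 380) (nat_lit 6219925223) (nat_lit 456) (nat_lit 4058568756) (nat_lit 113) (nat_lit 5) (nat_lit 118) (nat_lit 5) (nat_lit 119) (nat_lit 5) (nat_lit 476) (nat_lit 383) (nat_lit 281)) (XT.lf (nat_lit 0) (nat_lit 10901079531) (nat_lit 380) (nat_lit 1803999514) (nat_lit 456) (nat_lit 856328877) (nat_lit 113) (nat_lit 5) (nat_lit 118) (nat_lit 5) (nat_lit 119) (nat_lit 5) (nat_lit 477) (nat_lit 383) (nat_lit 280))))))))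
noncomputable def xc107 : XT := (XT.nd (nat_lit 1638) (nat_lit 532) (nat_lit 0) (XT.nd (nat_lit 780) (nat_lit 1672) (nat_lit 0) (XT.nd (nat_lit 390) (nat_lit 988) (nat_lit 0) (XT.nd (nat_lit 156) (nat_lit 760) (nat_lit 0) (XT.nd (nat_lit 78) (nat_lit 0) (nat_lit 0) (XT.lf (nat_lit 0) (nat_lit 2408676742) (nat_lit 380) (nat_lit 8618395139) (nat_lit 76) (nat_lit 2703541349) (nat_lit 108) (nat_lit 5) (nat_lit 113) (nat_lit 5) (nat_lit 109) (nat_lit 5) (nat_lit 478) (nat_lit 383) (nat_lit 279)) (XT.lf (nat_lit 0) (nat_lit 5736810848) (nat_lit 380) (nat_lit 875924252) (nat_lit 76) (nat_lit 7290174300) (nat_lit 108) (nat_lit 5) (nat_lit 113) (nat_lit 5) (nat_lit 109) (nat_lit 5) (nat_lit 479) (nat_lit 383) (nat_lit 278))) (XT.nd (nat_lit 78) (nat_lit 380) (nat_lit 0) (XT.lf (nat_lit 0) (nat_lit 7083295418) (nat_lit 380) (nat_lit 2073972701) (nat_lit 456) (nat_lit 4920873907) (nat_lit 103) (nat_lit 5) (nat_lit 108)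 (nat_lit 5) (nat_lit 109) (nat_lit 5) (nat_lit 480) (nat_lit 383) (nat_lit 277)) (XT.nd (nat_lit 78) (nat_lit 76) (nat_lit 0) (XT.lf (nat_lit 0) (nat_lit 921128762) (nat_lit 304) (nat_lit 11733393467) (nat_lit 380) (nat_lit 1602194950) (nat_lit 99) (nat_lit 5) (nat_lit 103) (nat_lit 5) (nat_lit 104) (nat_lit 5) (nat_lit 481) (nat_lit 383) (nat_lit 276)) (XT.lf (nat_lit 0) (nat_lit 1800413884) (nat_lit 380) (nat_lit 5404504468) (nat_lit 76) (nat_lit 7232900607) (nat_lit 98) (nat_lit 5) (nat_lit 103) (nat_lit 5) (nat_lit 99) (nat_lit 5) (nat_lit 482) (nat_lit 383) (nat_lit 275))))) (XT.nd (nat_lit 156) (nat_lit 684) (nat_lit 0) (XT.nd (nat_lit 78) (nat_lit 0) (nat_lit 0) (XT.lf (nat_lit 0) (nat_lit 2679140978) (nat_lit 304) (nat_lit 2568242323) (nat_lit 380) (nat_lit 9374997732) (nat_lit 94) (nat_lit 5) (nat_lit 98) (nat_lit 5) (nat_lit 99) (nat_lit 5) (nat_lit 483) (nat_lit 383) (nat_lit 274)) (XT.lf (nat_lit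 0) (nat_lit 8794295232) (nat_lit 380) (nat_lit 3857171502) (nat_lit 76) (nat_lit 2158552753) (nat_lit 94) (nat_lit 5) (nat_lit 99) (nat_lit 5) (nat_lit 95) (nat_lit 5) (nat_lit 484) (nat_lit 383) (nat_lit 273))) (XT.nd (nat_lit 78) (nat_lit 380) (nat_lit 0) (XT.lf (nat_lit 0) (nat_lit 4401225811) (nat_lit 304) (nat_lit 8037350695) (nat_lit 380) (nat_lit 2562310679) (nat_lit 90) (nat_lit 5) (nat_lit 94) (nat_lit 5) (nat_lit 95) (nat_lit 5) (nat_lit 485) (nat_lit 383) (nat_lit 272)) (XT.nd (nat_lit 78) (nat_lit 304) (nat_lit 0) (XT.lf (nat_lit 0) (nat_lit 954531400) (nat_lit 380) (nat_lit 2354551936) (nat_lit 76) (nat_lit 11886230059) (nat_lit 89) (nat_lit 5) (nat_lit 94) (nat_lit 5) (nat_lit 90) (nat_lit 5) (nat_lit 486) (nat_lit 383) (nat_lit 271)) (XT.lf (nat_lit 0) (nat_lit 4538369925) (nat_lit 380) (nat_lit 9314239817) (nat_lit 76) (nat_lit 1540065076) (nat_lit 85) (nat_lit 5) (nat_lit 90) (nat_lit 5) (nat_lit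 86) (nat_lit 5) (nat_lit 487) (nat_lit 383) (nat_lit 270)))))) (XT.nd (nat_lit 390) (nat_lit 836) (nat_lit 0) (XT.nd (nat_lit 156) (nat_lit 608) (nat_lit 0) (XT.nd (nat_lit 78) (nat_lit 228) (nat_lit 0) (XT.lf (nat_lit 0) (nat_lit 8213083251) (nat_lit 380) (nat_lit 933375545) (nat_lit 76) (nat_lit 6447145421) (nat_lit 85) (nat_lit 5) (nat_lit 90) (nat_lit 5) (nat_lit 86) (nat_lit 5) (nat_lit 488) (nat_lit 383) (nat_lit 269)) (XT.lf (nat_lit 0) (nat_lit 7686814838) (nat_lit 228) (nat_lit 4306127682) (nat_lit 304) (nat_lit 3804981268) (nat_lit 82) (nat_lit 5) (nat_lit 85) (nat_lit 5) (nat_lit 86) (nat_lit 5) (nat_lit 489) (nat_lit 383) (nat_lit 268))) (XT.nd (nat_lit 78) (nat_lit 304) (nat_lit 0) (XT.lf (nat_lit 0) (nat_lit 458522287) (nat_lit 304) (nat_lit 15385099291) (nat_lit 380) (nat_lit 162808249) (nat_lit 78) (nat_lit 5) (nat_lit 82) (nat_lit 5) (nat_lit 83) (nat_lit 5) (nat_lit 490) (nat_lit 383) (nat_lit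 267)) (XT.nd (nat_lit 78) (nat_lit 228) (nat_lit 0) (XT.lf (nat_lit 0) (nat_lit 3570815863) (nat_lit 380) (nat_lit 6989726662) (nat_lit 76) (nat_lit 5656802638) (nat_lit 77) (nat_lit 5) (nat_lit 82) (nat_lit 5) (nat_lit 78) (nat_lit 5) (nat_lit 491) (nat_lit 383) (nat_lit 266)) (XT.lf (nat_lit 0) (nat_lit 1732573946) (nat_lit 228) (nat_lit 5637852516) (nat_lit 304) (nat_lit 9062165204) (nat_lit 74) (nat_lit 5) (nat_lit 77) (nat_lit 5) (nat_lit 78) (nat_lit 5) (nat_lit 492) (nat_lit 383) (nat_lit 265))))) (XT.nd (nat_lit 234) (nat_lit 456) (nat_lit 0) (XT.nd (nat_lit 78) (nat_lit 380) (nat_lit 0) (XT.lf (nat_lit 0) (nat_lit 10695568185) (nat_lit 228) (nat_lit 579771921) (nat_lit 304) (nat_lit 5376220960) (nat_lit 74) (nat_lit 5) (nat_lit 77) (nat_lit 5) (nat_lit 78) (nat_lit 5) (nat_lit 493) (nat_lit 383) (nat_lit 264)) (XT.nd (nat_lit 78) (nat_lit 76) (nat_lit 0) (XT.lf (nat_lit 0) (nat_lit 2943564067) (nat_lit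 304) (nat_lit 12346314129) (nat_lit 380) (nat_lit 1584405234) (nat_lit 70) (nat_lit 5) (nat_lit 74) (nat_lit 5) (nat_lit 75) (nat_lit 5) (nat_lit 494) (nat_lit 383) (nat_lit 263)) (XT.lf (nat_lit 0) (nat_lit 2280095279) (nat_lit 380) (nat_lit 5046010969) (nat_lit 76) (nat_lit 9774525574) (nat_lit 69) (nat_lit 5) (nat_lit 74) (nat_lit 5) (nat_lit 70) (nat_lit 5) (nat_lit 495) (nat_lit 383) (nat_lit 262)))) (XT.nd (nat_lit 78) (nat_lit 228) (nat_lit 0) (XT.lf (nat_lit 0) (nat_lit 4031052408) (nat_lit 228) (nat_lit 2178870682) (nat_lit 304) (nat_lit 11121193449) (nat_lit 66) (nat_lit 5) (nat_lit 69) (nat_lit 5) (nat_lit 70) (nat_lit 5) (nat_lit 496) (nat_lit 383) (nat_lit 261)) (XT.nd (nat_lit 78) (nat_lit 228) (nat_lit 0) (XT.lf (nat_lit 0) (nat_lit 10255518073) (nat_lit 304) (nat_lit 4255443712) (nat_lit 76) (nat_lit 3054509540) (nat_lit 66) (nat_lit 5) (nat_lit 70) (nat_lit 5) (nat_lit 67) (nat_lit 5) (nat_lit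 497) (nat_lit 383) (nat_lit 260)) (XT.lf (nat_lit 0) (nat_lit 4993878432) (nat_lit 228) (nat_lit 9418474211) (nat_lit 304) (nat_lit 3391557726) (nat_lit 63) (nat_lit 5) (nat_lit 66) (nat_lit 5) (nat_lit 67) (nat_lit 5) (nat_lit 498) (nat_lit 383) (nat_lit 259))))))) (XT.nd (nat_lit 50778) (nat_lit 0) (nat_lit 42484) (XT.nd (nat_lit 50388) (nat_lit 0) (nat_lit 44992) (XT.nd (nat_lit 156) (nat_lit 228) (nat_lit 0) (XT.nd (nat_lit 78) (nat_lit 228) (nat_lit 0) (XT.lf (nat_lit 0) (nat_lit 609524393) (nat_lit 304) (nat_lit 3592094972) (nat_lit 76) (nat_lit 13845178687) (nat_lit 62) (nat_lit 5) (nat_lit 66) (nat_lit 5) (nat_lit 63) (nat_lit 5) (nat_lit 499) (nat_lit 383) (nat_lit 258)) (XT.lf (nat_lit 0) (nat_lit 4674592743) (nat_lit 304) (nat_lit 12463727376) (nat_lit 76) (nat_lit 1155190954) (nat_lit 59) (nat_lit 5) (nat_lit 63) (nat_lit 5) (nat_lit 60) (nat_lit 5) (nat_lit 500) (nat_lit 383) (nat_lit 257))) (XT.nd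 (nat_lit 78) (nat_lit 228) (nat_lit 0) (XT.lf (nat_lit 0) (nat_lit 8856961980) (nat_lit 304) (nat_lit 3110713402) (nat_lit 76) (nat_lit 6576766413) (nat_lit 59) (nat_lit 5) (nat_lit 63) (nat_lit 5) (nat_lit 60) (nat_lit 5) (nat_lit 501) (nat_lit 383) (nat_lit 256)) (XT.nd (nat_lit 78) (nat_lit 0) (nat_lit 0) (XT.lf (nat_lit 0) (nat_lit 6488136327) (nat_lit 228) (nat_lit 6661192796) (nat_lit 304) (nat_lit 5650538363) (nat_lit 56) (nat_lit 5) (nat_lit 59) (nat_lit 5) (nat_lit 60) (nat_lit 5) (nat_lit 502) (nat_lit 383) (nat_lit 255)) (XT.lf (nat_lit 0) (nat_lit 16294985136) (nat_lit 228) (nat_lit 1237797798) (nat_lit 304) (nat_lit 1527517267) (nat_lit 56) (nat_lit 5) (nat_lit 59) (nat_lit 5) (nat_lit 60) (nat_lit 5) (nat_lit 503) (nat_lit 383) (nat_lit 254))))) (XT.nd (nat_lit 156) (nat_lit 456) (nat_lit 0) (XT.nd (nat_lit 78) (nat_lit 380) (nat_lit 0) (XT.lf (nat_lit 0) (nat_lit 1904319342) (nat_lit 380) (nat_lit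 666178449) (nat_lit 380) (nat_lit 666178449) (nat_lit 659) (nat_lit 3) (nat_lit 664) (nat_lit 3) (nat_lit 664) (nat_lit 5) (nat_lit 384) (nat_lit 384) (nat_lit 372)) (XT.lf (nat_lit 0) (nat_lit 55609061) (nat_lit 380) (nat_lit 4708089039) (nat_lit 456) (nat_lit 1718147633) (nat_lit 654) (nat_lit 5) (nat_lit 659) (nat_lit 3) (nat_lit 660) (nat_lit 5) (nat_lit 385) (nat_lit 384) (nat_lit 371))) (XT.nd (nat_lit 78) (nat_lit 456) (nat_lit 0) (XT.lf (nat_lit 0) (nat_lit 2732629611) (nat_lit 380) (nat_lit 1585348989) (nat_lit 456) (nat_lit 2173480345) (nat_lit 654) (nat_lit 5) (nat_lit 659) (nat_lit 3) (nat_lit 660) (nat_lit 5) (nat_lit 386) (nat_lit 384) (nat_lit 370)) (XT.nd (nat_lit 78) (nat_lit 456) (nat_lit 0) (XT.lf (nat_lit 76) (nat_lit 1583987152) (nat_lit 0) (nat_lit 3819819451) (nat_lit 456) (nat_lit 1098706094) (nat_lit 655) (nat_lit 5) (nat_lit 654) (nat_lit 5) (nat_lit 660) (nat_lit 5) (nat_lit 387) (nat_lit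 384) (nat_lit 369)) (XT.lf (nat_lit 0) (nat_lit 1535101539) (nat_lit 456) (nat_lit 1723296420) (nat_lit 532) (nat_lit 3256404983) (nat_lit 648) (nat_lit 5) (nat_lit 654) (nat_lit 5) (nat_lit 655) (nat_lit 5) (nat_lit 388) (nat_lit 384) (nat_lit 368)))))) (XT.nd (nat_lit 390) (nat_lit 1444) (nat_lit 0) (XT.nd (nat_lit 156) (nat_lit 532) (nat_lit 0) (XT.nd (nat_lit 78) (nat_lit 532) (nat_lit 0) (XT.lf (nat_lit 76) (nat_lit 1511752829) (nat_lit 0) (nat_lit 2637252791) (nat_lit 532) (nat_lit 2379402583) (nat_lit 649) (nat_lit 5) (nat_lit 648) (nat_lit 5) (nat_lit 655) (nat_lit 5) (nat_lit 389) (nat_lit 384) (nat_lit 367)) (XT.lf (nat_lit 0) (nat_lit 213861531) (nat_lit 532) (nat_lit 1746380717) (nat_lit 608) (nat_lit 4583171997) (nat_lit 641) (nat_lit 5) (nat_lit 648) (nat_lit 5) (nat_lit 649) (nat_lit 5) (nat_lit 390) (nat_lit 384) (nat_lit 366))) (XT.nd (nat_lit 78) (nat_lit 532) (nat_lit 0) (XT.lf (nat_lit 76)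 (nat_lit 1557358220) (nat_lit 0) (nat_lit 1214127093) (nat_lit 608) (nat_lit 3788087254) (nat_lit 642) (nat_lit 5) (nat_lit 641) (nat_lit 5) (nat_lit 649) (nat_lit 5) (nat_lit 391) (nat_lit 384) (nat_lit 365)) (XT.nd (nat_lit 78) (nat_lit 532) (nat_lit 0) (XT.lf (nat_lit 76) (nat_lit 4914476820) (nat_lit 0) (nat_lit 412771096) (nat_lit 608) (nat_lit 1249919164) (nat_lit 642) (nat_lit 5) (nat_lit 641) (nat_lit 5) (nat_lit 649) (nat_lit 5) (nat_lit 392) (nat_lit 384) (nat_lit 364)) (XT.lf (nat_lit 0) (nat_lit 1271625927) (nat_lit 608) (nat_lit 4878035854) (nat_lit 684) (nat_lit 446325029) (nat_lit 634) (nat_lit 5) (nat_lit 642) (nat_lit 5) (nat_lit 643) (nat_lit 5) (nat_lit 393) (nat_lit 384) (nat_lit 363))))) (XT.nd (nat_lit 234) (nat_lit 760) (nat_lit 0) (XT.nd (nat_lit 78) (nat_lit 684) (nat_lit 0) (XT.lf (nat_lit 0) (nat_lit 3778101870) (nat_lit 608) (nat_lit 1475096981) (nat_lit 684) (nat_lit 1362843827)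 (nat_lit 634) (nat_lit 5) (nat_lit 642) (nat_lit 5) (nat_lit 643) (nat_lit 5) (nat_lit 394) (nat_lit 384) (nat_lit 362)) (XT.nd (nat_lit 78) (nat_lit 684) (nat_lit 0) (XT.lf (nat_lit 76) (nat_lit 1984878479) (nat_lit 0) (nat_lit 4301202001) (nat_lit 684) (nat_lit 351440453) (nat_lit 635) (nat_lit 5) (nat_lit 634) (nat_lit 5) (nat_lit 643) (nat_lit 5) (nat_lit 395) (nat_lit 384) (nat_lit 361)) (XT.lf (nat_lit 0) (nat_lit 2105105263) (nat_lit 684) (nat_lit 1177100546) (nat_lit 760) (nat_lit 3378006699) (nat_lit 625) (nat_lit 5) (nat_lit 634) (nat_lit 5) (nat_lit 635) (nat_lit 5) (nat_lit 396) (nat_lit 384) (nat_lit 360)))) (XT.nd (nat_lit 78) (nat_lit 760) (nat_lit 0) (XT.lf (nat_lit 76) (nat_lit 2359642618) (nat_lit 0) (nat_lit 2201959267) (nat_lit 760) (nat_lit 2122644977) (nat_lit 626) (nat_lit 5) (nat_lit 625) (nat_lit 5) (nat_lit 635) (nat_lit 5) (nat_lit 397) (nat_lit 384) (nat_lit 359)) (XT.nd (nat_lit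 78) (nat_lit 0) (nat_lit 76) (XT.lf (nat_lit 0) (nat_lit 302417546) (nat_lit 760) (nat_lit 765425617) (nat_lit 836) (nat_lit 5641943286) (nat_lit 615) (nat_lit 5) (nat_lit 625) (nat_lit 5) (nat_lit 626) (nat_lit 5) (nat_lit 398) (nat_lit 384) (nat_lit 358)) (XT.lf (nat_lit 0) (nat_lit 2708895175) (nat_lit 760) (nat_lit 3885828988) (nat_lit 76) (nat_lit 141648604) (nat_lit 616) (nat_lit 5) (nat_lit 626) (nat_lit 5) (nat_lit 617) (nat_lit 5) (nat_lit 399) (nat_lit 384) (nat_lit 357))))))))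
noncomputable def xc108 : XT := (XT.nd (nat_lit 1560) (nat_lit 13452) (nat_lit 0) (XT.nd (nat_lit 780) (nat_lit 8208) (nat_lit 0) (XT.nd (nat_lit 390) (nat_lit 2128) (nat_lit 0) (XT.nd (nat_lit 156) (nat_lit 1824) (nat_lit 0) (XT.nd (nat_lit 78) (nat_lit 836) (nat_lit 0) (XT.lf (nat_lit 0) (nat_lit 5118645430) (nat_lit 760) (nat_lit 259148127) (nat_lit 76) (nat_lit 1386636818) (nat_lit 616) (nat_lit 5) (nat_lit 626) (nat_lit 5) (nat_lit 617) (nat_lit 5) (nat_lit 400) (nat_lit 384) (nat_lit 356)) (XT.lf (nat_lit 0) (nat_lit 739409991) (nat_lit 836) (nat_lit 3350457319) (nat_lit 76) (nat_lit 2703797964) (nat_lit 605) (nat_lit 5) (nat_lit 616) (nat_lit 5) (nat_lit 606) (nat_lit 5) (nat_lit 401) (nat_lit 384) (nat_lit 355))) (XT.nd (nat_lit 78) (nat_lit 988) (nat_lit 0) (XT.lf (nat_lit 0) (nat_lit 355775576) (nat_lit 836) (nat_lit 2743050620) (nat_lit 912) (nat_lit 3725509994) (nat_lit 594) (nat_lit 5) (nat_lit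 605) (nat_lit 5) (nat_lit 606) (nat_lit 5) (nat_lit 402) (nat_lit 384) (nat_lit 354)) (XT.nd (nat_lit 78) (nat_lit 988) (nat_lit 0) (XT.lf (nat_lit 0) (nat_lit 4144143561) (nat_lit 836) (nat_lit 1329089751) (nat_lit 912) (nat_lit 1383070354) (nat_lit 594) (nat_lit 5) (nat_lit 605) (nat_lit 5) (nat_lit 606) (nat_lit 5) (nat_lit 403) (nat_lit 384) (nat_lit 353)) (XT.lf (nat_lit 0) (nat_lit 947027252) (nat_lit 988) (nat_lit 5800989205) (nat_lit 76) (nat_lit 141720929) (nat_lit 581) (nat_lit 5) (nat_lit 594) (nat_lit 5) (nat_lit 582) (nat_lit 5) (nat_lit 404) (nat_lit 384) (nat_lit 352))))) (XT.nd (nat_lit 156) (nat_lit 1140) (nat_lit 0) (XT.nd (nat_lit 78) (nat_lit 988) (nat_lit 0) (XT.lf (nat_lit 0) (nat_lit 3279267108) (nat_lit 988) (nat_lit 1977505011) (nat_lit 76) (nat_lit 1667440563) (nat_lit 581) (nat_lit 5) (nat_lit 594) (nat_lit 5) (nat_lit 582) (nat_lit 5) (nat_lit 405) (nat_lit 384) (nat_lit 351)) (XT.lf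 (nat_lit 0) (nat_lit 1909863685) (nat_lit 988) (nat_lit 3708648791) (nat_lit 1064) (nat_lit 1341694005) (nat_lit 568) (nat_lit 5) (nat_lit 581) (nat_lit 5) (nat_lit 582) (nat_lit 5) (nat_lit 406) (nat_lit 384) (nat_lit 350))) (XT.nd (nat_lit 78) (nat_lit 1064) (nat_lit 0) (XT.lf (nat_lit 0) (nat_lit 956129169) (nat_lit 1064) (nat_lit 1139606253) (nat_lit 76) (nat_lit 4901854258) (nat_lit 567) (nat_lit 5) (nat_lit 581) (nat_lit 5) (nat_lit 568) (nat_lit 5) (nat_lit 407) (nat_lit 384) (nat_lit 349)) (XT.nd (nat_lit 78) (nat_lit 0) (nat_lit 0) (XT.lf (nat_lit 0) (nat_lit 2840351725) (nat_lit 1064) (nat_lit 409426261) (nat_lit 1140) (nat_lit 3786442619) (nat_lit 553) (nat_lit 5) (nat_lit 567) (nat_lit 5) (nat_lit 568) (nat_lit 5) (nat_lit 408) (nat_lit 384) (nat_lit 348)) (XT.lf (nat_lit 0) (nat_lit 5555717835) (nat_lit 1140) (nat_lit 206902236) (nat_lit 76) (nat_lit 1313709168) (nat_lit 553) (nat_lit 5) (nat_lit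 568) (nat_lit 5) (nat_lit 554) (nat_lit 5) (nat_lit 409) (nat_lit 384) (nat_lit 347)))))) (XT.nd (nat_lit 390) (nat_lit 4408) (nat_lit 0) (XT.nd (nat_lit 156) (nat_lit 1368) (nat_lit 0) (XT.nd (nat_lit 78) (nat_lit 1216) (nat_lit 0) (XT.lf (nat_lit 0) (nat_lit 759038102) (nat_lit 1216) (nat_lit 3250243629) (nat_lit 76) (nat_lit 3108310422) (nat_lit 537) (nat_lit 5) (nat_lit 553) (nat_lit 5) (nat_lit 538) (nat_lit 5) (nat_lit 410) (nat_lit 384) (nat_lit 346)) (XT.lf (nat_lit 0) (nat_lit 829124186) (nat_lit 1216) (nat_lit 2193147400) (nat_lit 1292) (nat_lit 4138072197) (nat_lit 521) (nat_lit 5) (nat_lit 537) (nat_lit 5) (nat_lit 538) (nat_lit 5) (nat_lit 411) (nat_lit 384) (nat_lit 345))) (XT.nd (nat_lit 78) (nat_lit 1368) (nat_lit 0) (XT.lf (nat_lit 0) (nat_lit 4996479837) (nat_lit 1216) (nat_lit 308358310) (nat_lit 1292) (nat_lit 1899661838) (nat_lit 521) (nat_lit 5) (nat_lit 537) (nat_lit 5) (nat_lit 538) (nat_lit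 5) (nat_lit 412) (nat_lit 384) (nat_lit 344)) (XT.nd (nat_lit 78) (nat_lit 0) (nat_lit 0) (XT.lf (nat_lit 0) (nat_lit 354863351) (nat_lit 1368) (nat_lit 5277255338) (nat_lit 76) (nat_lit 1617872994) (nat_lit 503) (nat_lit 5) (nat_lit 521) (nat_lit 5) (nat_lit 504) (nat_lit 5) (nat_lit 413) (nat_lit 384) (nat_lit 343)) (XT.lf (nat_lit 0) (nat_lit 2599618762) (nat_lit 1368) (nat_lit 1082125206) (nat_lit 76) (nat_lit 3615015710) (nat_lit 503) (nat_lit 5) (nat_lit 521) (nat_lit 5) (nat_lit 504) (nat_lit 5) (nat_lit 414) (nat_lit 384) (nat_lit 342))))) (XT.nd (nat_lit 156) (nat_lit 1596) (nat_lit 0) (XT.nd (nat_lit 78) (nat_lit 1444) (nat_lit 0) (XT.lf (nat_lit 0) (nat_lit 3201299203) (nat_lit 1368) (nat_lit 1663260137) (nat_lit 1444) (nat_lit 2480426444) (nat_lit 485) (nat_lit 5) (nat_lit 503) (nat_lit 5) (nat_lit 504) (nat_lit 5) (nat_lit 415) (nat_lit 384) (nat_lit 341)) (XT.lf (nat_lit 0) (nat_lit 152087325)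 (nat_lit 1444) (nat_lit 6988780396) (nat_lit 1520) (nat_lit 254015302) (nat_lit 466) (nat_lit 5) (nat_lit 485) (nat_lit 5) (nat_lit 486) (nat_lit 5) (nat_lit 416) (nat_lit 384) (nat_lit 340))) (XT.nd (nat_lit 78) (nat_lit 1520) (nat_lit 0) (XT.lf (nat_lit 0) (nat_lit 1984992171) (nat_lit 1520) (nat_lit 2918257110) (nat_lit 76) (nat_lit 2542403521) (nat_lit 465) (nat_lit 5) (nat_lit 485) (nat_lit 5) (nat_lit 466) (nat_lit 5) (nat_lit 417) (nat_lit 384) (nat_lit 339)) (XT.nd (nat_lit 78) (nat_lit 0) (nat_lit 0) (XT.lf (nat_lit 0) (nat_lit 1472474171) (nat_lit 1520) (nat_lit 2758855069) (nat_lit 1596) (nat_lit 3266782515) (nat_lit 445) (nat_lit 5) (nat_lit 465) (nat_lit 5) (nat_lit 466) (nat_lit 5) (nat_lit 418) (nat_lit 384) (nat_lit 338)) (XT.lf (nat_lit 0) (nat_lit 5952899722) (nat_lit 1520) (nat_lit 546274145) (nat_lit 1596) (nat_lit 1052940267) (nat_lit 445) (nat_lit 5) (nat_lit 465) (nat_lit 5) (nat_lit 466)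 (nat_lit 5) (nat_lit 419) (nat_lit 384) (nat_lit 337))))))) (XT.nd (nat_lit 780) (nat_lit 5472) (nat_lit 0) (XT.nd (nat_lit 390) (nat_lit 2812) (nat_lit 0) (XT.nd (nat_lit 156) (nat_lit 3496) (nat_lit 0) (XT.nd (nat_lit 78) (nat_lit 0) (nat_lit 0) (XT.lf (nat_lit 0) (nat_lit 1177108529) (nat_lit 1672) (nat_lit 4710321689) (nat_lit 76) (nat_lit 1719879983) (nat_lit 423) (nat_lit 5) (nat_lit 445) (nat_lit 5) (nat_lit 424) (nat_lit 5) (nat_lit 420) (nat_lit 384) (nat_lit 336)) (XT.lf (nat_lit 0) (nat_lit 3410250060) (nat_lit 1672) (nat_lit 207437401) (nat_lit 76) (nat_lit 4046356085) (nat_lit 423) (nat_lit 5) (nat_lit 445) (nat_lit 5) (nat_lit 424) (nat_lit 5) (nat_lit 421) (nat_lit 384) (nat_lit 335))) (XT.nd (nat_lit 78) (nat_lit 1824) (nat_lit 0) (XT.lf (nat_lit 0) (nat_lit 4405863542) (nat_lit 1672) (nat_lit 1269774218) (nat_lit 1748) (nat_lit 2046546024) (nat_lit 401) (nat_lit 5) (nat_lit 423) (nat_lit 5)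 (nat_lit 424) (nat_lit 5) (nat_lit 422) (nat_lit 384) (nat_lit 334)) (XT.nd (nat_lit 78) (nat_lit 0) (nat_lit 0) (XT.lf (nat_lit 0) (nat_lit 178720536) (nat_lit 1824) (nat_lit 6478605055) (nat_lit 76) (nat_lit 1124626382) (nat_lit 377) (nat_lit 5) (nat_lit 401) (nat_lit 5) (nat_lit 378) (nat_lit 5) (nat_lit 423) (nat_lit 384) (nat_lit 333)) (XT.lf (nat_lit 0) (nat_lit 2411748114) (nat_lit 1824) (nat_lit 1842557847) (nat_lit 76) (nat_lit 3588548347) (nat_lit 377) (nat_lit 5) (nat_lit 401) (nat_lit 5) (nat_lit 378) (nat_lit 5) (nat_lit 424) (nat_lit 384) (nat_lit 332))))) (XT.nd (nat_lit 156) (nat_lit 1824) (nat_lit 0) (XT.nd (nat_lit 78) (nat_lit 0) (nat_lit 0) (XT.lf (nat_lit 0) (nat_lit 2886480092) (nat_lit 988) (nat_lit 1782307472) (nat_lit 1064) (nat_lit 3236622169) (nat_lit 364) (nat_lit 5) (nat_lit 377) (nat_lit 5) (nat_lit 378) (nat_lit 5) (nat_lit 425) (nat_lit 384) (nat_lit 331)) (XT.lf (nat_lit 0) (nat_lit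 6949363310) (nat_lit 1064) (nat_lit 276922982) (nat_lit 76) (nat_lit 743383704) (nat_lit 364) (nat_lit 5) (nat_lit 378) (nat_lit 5) (nat_lit 365) (nat_lit 5) (nat_lit 426) (nat_lit 384) (nat_lit 330))) (XT.nd (nat_lit 78) (nat_lit 836) (nat_lit 0) (XT.lf (nat_lit 0) (nat_lit 1227460480) (nat_lit 988) (nat_lit 3472579042) (nat_lit 76) (nat_lit 3334967827) (nat_lit 351) (nat_lit 5) (nat_lit 364) (nat_lit 5) (nat_lit 352) (nat_lit 5) (nat_lit 427) (nat_lit 384) (nat_lit 329)) (XT.nd (nat_lit 78) (nat_lit 0) (nat_lit 0) (XT.lf (nat_lit 0) (nat_lit 1374283070) (nat_lit 836) (nat_lit 2105192247) (nat_lit 912) (nat_lit 4622602553) (nat_lit 340) (nat_lit 5) (nat_lit 351) (nat_lit 5) (nat_lit 352) (nat_lit 5) (nat_lit 428) (nat_lit 384) (nat_lit 328)) (XT.lf (nat_lit 0) (nat_lit 5766150497) (nat_lit 912) (nat_lit 1846736399) (nat_lit 76) (nat_lit 557830494) (nat_lit 340) (nat_lit 5) (nat_lit 352) (nat_lit 5) (nat_lit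 341) (nat_lit 5) (nat_lit 429) (nat_lit 384) (nat_lit 327)))))) (XT.nd (nat_lit 390) (nat_lit 2964) (nat_lit 0) (XT.nd (nat_lit 156) (nat_lit 1596) (nat_lit 0) (XT.nd (nat_lit 78) (nat_lit 76) (nat_lit 0) (XT.lf (nat_lit 0) (nat_lit 3121493025) (nat_lit 836) (nat_lit 4974653820) (nat_lit 912) (nat_lit 144650704) (nat_lit 329) (nat_lit 5) (nat_lit 340) (nat_lit 5) (nat_lit 341) (nat_lit 5) (nat_lit 430) (nat_lit 384) (nat_lit 326)) (XT.lf (nat_lit 0) (nat_lit 2108200965) (nat_lit 912) (nat_lit 149724316) (nat_lit 76) (nat_lit 6054570882) (nat_lit 328) (nat_lit 5) (nat_lit 340) (nat_lit 5) (nat_lit 329) (nat_lit 5) (nat_lit 431) (nat_lit 384) (nat_lit 325))) (XT.nd (nat_lit 78) (nat_lit 836) (nat_lit 0) (XT.lf (nat_lit 0) (nat_lit 4404142115) (nat_lit 836) (nat_lit 3443046511) (nat_lit 76) (nat_lit 538440081) (nat_lit 318) (nat_lit 5) (nat_lit 329) (nat_lit 5) (nat_lit 319) (nat_lit 5) (nat_lit 432) (nat_lit 384)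 (nat_lit 324)) (XT.nd (nat_lit 78) (nat_lit 76) (nat_lit 0) (XT.lf (nat_lit 0) (nat_lit 1647777535) (nat_lit 760) (nat_lit 5089650372) (nat_lit 836) (nat_lit 1722985586) (nat_lit 308) (nat_lit 5) (nat_lit 318) (nat_lit 5) (nat_lit 319) (nat_lit 5) (nat_lit 433) (nat_lit 384) (nat_lit 323)) (XT.lf (nat_lit 0) (nat_lit 561291712) (nat_lit 836) (nat_lit 1690736497) (nat_lit 76) (nat_lit 6284843323) (nat_lit 307) (nat_lit 5) (nat_lit 318) (nat_lit 5) (nat_lit 308) (nat_lit 5) (nat_lit 434) (nat_lit 384) (nat_lit 322))))) (XT.nd (nat_lit 234) (nat_lit 1444) (nat_lit 0) (XT.nd (nat_lit 78) (nat_lit 760) (nat_lit 0) (XT.lf (nat_lit 0) (nat_lit 2861167231) (nat_lit 836) (nat_lit 5087681683) (nat_lit 76) (nat_lit 665939434) (nat_lit 297) (nat_lit 5) (nat_lit 308) (nat_lit 5) (nat_lit 298) (nat_lit 5) (nat_lit 435) (nat_lit 384) (nat_lit 321)) (XT.nd (nat_lit 78) (nat_lit 0) (nat_lit 0) (XT.lf (nat_lit 0) (nat_lit 127505283)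 (nat_lit 760) (nat_lit 5072766430) (nat_lit 836) (nat_lit 3494143883) (nat_lit 287) (nat_lit 5) (nat_lit 297) (nat_lit 5) (nat_lit 298) (nat_lit 5) (nat_lit 436) (nat_lit 384) (nat_lit 320)) (XT.lf (nat_lit 0) (nat_lit 5478840458) (nat_lit 760) (nat_lit 2107951802) (nat_lit 836) (nat_lit 1188846851) (nat_lit 287) (nat_lit 5) (nat_lit 297) (nat_lit 5) (nat_lit 298) (nat_lit 5) (nat_lit 437) (nat_lit 384) (nat_lit 319)))) (XT.nd (nat_lit 78) (nat_lit 684) (nat_lit 0) (XT.lf (nat_lit 0) (nat_lit 1133671696) (nat_lit 760) (nat_lit 6803454165) (nat_lit 76) (nat_lit 921498779) (nat_lit 277) (nat_lit 5) (nat_lit 287) (nat_lit 5) (nat_lit 278) (nat_lit 5) (nat_lit 438) (nat_lit 384) (nat_lit 318)) (XT.nd (nat_lit 78) (nat_lit 684) (nat_lit 0) (XT.lf (nat_lit 0) (nat_lit 3490268575) (nat_lit 760) (nat_lit 1443187984) (nat_lit 76) (nat_lit 4009600678) (nat_lit 277) (nat_lit 5) (nat_lit 287) (nat_lit 5) (nat_lit 278) (nat_lit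 5) (nat_lit 439) (nat_lit 384) (nat_lit 317)) (XT.lf (nat_lit 0) (nat_lit 4040760274) (nat_lit 684) (nat_lit 1847415578) (nat_lit 760) (nat_lit 3141134215) (nat_lit 268) (nat_lit 5) (nat_lit 277) (nat_lit 5) (nat_lit 278) (nat_lit 5) (nat_lit 440) (nat_lit 384) (nat_lit 316))))))))
noncomputable def xc109 : XT := (XT.nd (nat_lit 1638) (nat_lit 5092) (nat_lit 0) (XT.nd (nat_lit 780) (nat_lit 3724) (nat_lit 0) (XT.nd (nat_lit 390) (nat_lit 1976) (nat_lit 0) (XT.nd (nat_lit 156) (nat_lit 1292) (nat_lit 0) (XT.nd (nat_lit 78) (nat_lit 76) (nat_lit 0) (XT.lf (nat_lit 0) (nat_lit 497983871) (nat_lit 684) (nat_lit 7825788270) (nat_lit 760) (nat_lit 793736049) (nat_lit 259) (nat_lit 5) (nat_lit 268) (nat_lit 5) (nat_lit 269) (nat_lit 5) (nat_lit 441) (nat_lit 384) (nat_lit 315)) (XT.lf (nat_lit 0) (nat_lit 1594017789) (nat_lit 760) (nat_lit 3104866940) (nat_lit 76) (nat_lit 4508103979) (nat_lit 258) (nat_lit 5) (nat_lit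 268) (nat_lit 5) (nat_lit 259) (nat_lit 5) (nat_lit 442) (nat_lit 384) (nat_lit 314))) (XT.nd (nat_lit 78) (nat_lit 608) (nat_lit 0) (XT.lf (nat_lit 0) (nat_lit 2511404739) (nat_lit 684) (nat_lit 1492895724) (nat_lit 760) (nat_lit 5294159399) (nat_lit 249) (nat_lit 5) (nat_lit 258) (nat_lit 5) (nat_lit 259) (nat_lit 5) (nat_lit 443) (nat_lit 384) (nat_lit 313)) (XT.nd (nat_lit 78) (nat_lit 608) (nat_lit 0) (XT.lf (nat_lit 0) (nat_lit 6464722568) (nat_lit 760) (nat_lit 1157640400) (nat_lit 76) (nat_lit 1769372518) (nat_lit 249) (nat_lit 5) (nat_lit 259) (nat_lit 5) (nat_lit 250) (nat_lit 5) (nat_lit 444) (nat_lit 384) (nat_lit 312)) (XT.lf (nat_lit 0) (nat_lit 4598800796) (nat_lit 608) (nat_lit 4385318744) (nat_lit 684) (nat_lit 502575208) (nat_lit 241) (nat_lit 5) (nat_lit 249) (nat_lit 5) (nat_lit 250) (nat_lit 5) (nat_lit 445) (nat_lit 384) (nat_lit 311))))) (XT.nd (nat_lit 156) (nat_lit 1292) (nat_lit 0)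 (XT.nd (nat_lit 78) (nat_lit 0) (nat_lit 0) (XT.lf (nat_lit 0) (nat_lit 865003705) (nat_lit 608) (nat_lit 1063109767) (nat_lit 684) (nat_lit 7655524721) (nat_lit 232) (nat_lit 5) (nat_lit 240) (nat_lit 5) (nat_lit 241) (nat_lit 5) (nat_lit 446) (nat_lit 384) (nat_lit 310)) (XT.lf (nat_lit 0) (nat_lit 4419286868) (nat_lit 684) (nat_lit 2937777357) (nat_lit 76) (nat_lit 2325030512) (nat_lit 232) (nat_lit 5) (nat_lit 241) (nat_lit 5) (nat_lit 233) (nat_lit 5) (nat_lit 447) (nat_lit 384) (nat_lit 309))) (XT.nd (nat_lit 78) (nat_lit 684) (nat_lit 0) (XT.lf (nat_lit 0) (nat_lit 2954638087) (nat_lit 608) (nat_lit 4002926044) (nat_lit 684) (nat_lit 2825023101) (nat_lit 224) (nat_lit 5) (nat_lit 232) (nat_lit 5) (nat_lit 233) (nat_lit 5) (nat_lit 448) (nat_lit 384) (nat_lit 308)) (XT.nd (nat_lit 78) (nat_lit 684) (nat_lit 0) (XT.lf (nat_lit 0) (nat_lit 8969190532) (nat_lit 608) (nat_lit 568523722) (nat_lit 684) (nat_lit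 347565362) (nat_lit 224) (nat_lit 5) (nat_lit 232) (nat_lit 5) (nat_lit 233) (nat_lit 5) (nat_lit 449) (nat_lit 384) (nat_lit 307)) (XT.lf (nat_lit 0) (nat_lit 2175256600) (nat_lit 684) (nat_lit 4877035074) (nat_lit 76) (nat_lit 2936974900) (nat_lit 215) (nat_lit 5) (nat_lit 224) (nat_lit 5) (nat_lit 216) (nat_lit 5) (nat_lit 450) (nat_lit 384) (nat_lit 306)))))) (XT.nd (nat_lit 390) (nat_lit 2052) (nat_lit 0) (XT.nd (nat_lit 156) (nat_lit 1140) (nat_lit 0) (XT.nd (nat_lit 78) (nat_lit 0) (nat_lit 0) (XT.lf (nat_lit 0) (nat_lit 1151808543) (nat_lit 532) (nat_lit 3581545756) (nat_lit 608) (nat_lit 5362155043) (nat_lit 208) (nat_lit 5) (nat_lit 215) (nat_lit 5) (nat_lit 216) (nat_lit 5) (nat_lit 451) (nat_lit 384) (nat_lit 305)) (XT.lf (nat_lit 0) (nat_lit 7332056077) (nat_lit 532) (nat_lit 15641891) (nat_lit 608) (nat_lit 2856088573) (nat_lit 208) (nat_lit 5) (nat_lit 215) (nat_lit 5) (nat_lit 216) (nat_lit 5)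 (nat_lit 452) (nat_lit 384) (nat_lit 304))) (XT.nd (nat_lit 78) (nat_lit 608) (nat_lit 0) (XT.lf (nat_lit 0) (nat_lit 3306434988) (nat_lit 532) (nat_lit 6725724739) (nat_lit 608) (nat_lit 281723970) (nat_lit 201) (nat_lit 5) (nat_lit 208) (nat_lit 5) (nat_lit 209) (nat_lit 5) (nat_lit 453) (nat_lit 384) (nat_lit 303)) (XT.nd (nat_lit 78) (nat_lit 532) (nat_lit 0) (XT.lf (nat_lit 0) (nat_lit 2305853785) (nat_lit 608) (nat_lit 829391454) (nat_lit 76) (nat_lit 7290794382) (nat_lit 200) (nat_lit 5) (nat_lit 208) (nat_lit 5) (nat_lit 201) (nat_lit 5) (nat_lit 454) (nat_lit 384) (nat_lit 302)) (XT.lf (nat_lit 0) (nat_lit 4954292737) (nat_lit 608) (nat_lit 5035788256) (nat_lit 76) (nat_lit 550073187) (nat_lit 193) (nat_lit 5) (nat_lit 201) (nat_lit 5) (nat_lit 194) (nat_lit 5) (nat_lit 455) (nat_lit 384) (nat_lit 301))))) (XT.nd (nat_lit 234) (nat_lit 988) (nat_lit 0) (XT.nd (nat_lit 78) (nat_lit 532) (nat_lit 0) (XT.lf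 (nat_lit 0) (nat_lit 1280801650) (nat_lit 532) (nat_lit 6383322090) (nat_lit 608) (nat_lit 2992269021) (nat_lit 186) (nat_lit 5) (nat_lit 193) (nat_lit 5) (nat_lit 194) (nat_lit 5) (nat_lit 456) (nat_lit 384) (nat_lit 300)) (XT.nd (nat_lit 78) (nat_lit 532) (nat_lit 0) (XT.lf (nat_lit 0) (nat_lit 7757416150) (nat_lit 532) (nat_lit 2678560162) (nat_lit 608) (nat_lit 338833299) (nat_lit 186) (nat_lit 5) (nat_lit 193) (nat_lit 5) (nat_lit 194) (nat_lit 5) (nat_lit 457) (nat_lit 384) (nat_lit 299)) (XT.lf (nat_lit 0) (nat_lit 2340809671) (nat_lit 532) (nat_lit 7438915996) (nat_lit 76) (nat_lit 1115487468) (nat_lit 179) (nat_lit 5) (nat_lit 186) (nat_lit 5) (nat_lit 180) (nat_lit 5) (nat_lit 458) (nat_lit 384) (nat_lit 298)))) (XT.nd (nat_lit 78) (nat_lit 988) (nat_lit 0) (XT.lf (nat_lit 0) (nat_lit 5082222627) (nat_lit 532) (nat_lit 971849636) (nat_lit 76) (nat_lit 4963662811) (nat_lit 179) (nat_lit 5) (nat_lit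 186) (nat_lit 5) (nat_lit 180) (nat_lit 5) (nat_lit 459) (nat_lit 384) (nat_lit 297)) (XT.nd (nat_lit 78) (nat_lit 456) (nat_lit 0) (XT.lf (nat_lit 0) (nat_lit 5665056130) (nat_lit 532) (nat_lit 2225275935) (nat_lit 608) (nat_lit 3252147256) (nat_lit 172) (nat_lit 5) (nat_lit 179) (nat_lit 5) (nat_lit 180) (nat_lit 5) (nat_lit 460) (nat_lit 384) (nat_lit 296)) (XT.lf (nat_lit 0) (nat_lit 1148373630) (nat_lit 456) (nat_lit 9606458569) (nat_lit 532) (nat_lit 514890739) (nat_lit 166) (nat_lit 5) (nat_lit 172) (nat_lit 5) (nat_lit 173) (nat_lit 5) (nat_lit 461) (nat_lit 384) (nat_lit 295))))))) (XT.nd (nat_lit 780) (nat_lit 2660) (nat_lit 0) (XT.nd (nat_lit 390) (nat_lit 912) (nat_lit 0) (XT.nd (nat_lit 156) (nat_lit 988) (nat_lit 0) (XT.nd (nat_lit 78) (nat_lit 456) (nat_lit 0) (XT.lf (nat_lit 0) (nat_lit 2274376620) (nat_lit 532) (nat_lit 3481740412) (nat_lit 76) (nat_lit 5642564798) (nat_lit 165) (nat_lit 5)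 (nat_lit 172) (nat_lit 5) (nat_lit 166) (nat_lit 5) (nat_lit 462) (nat_lit 384) (nat_lit 294)) (XT.lf (nat_lit 0) (nat_lit 3297027631) (nat_lit 456) (nat_lit 1812796413) (nat_lit 532) (nat_lit 6420390535) (nat_lit 159) (nat_lit 5) (nat_lit 165) (nat_lit 5) (nat_lit 166) (nat_lit 5) (nat_lit 463) (nat_lit 384) (nat_lit 293))) (XT.nd (nat_lit 78) (nat_lit 988) (nat_lit 0) (XT.lf (nat_lit 0) (nat_lit 8015916747) (nat_lit 532) (nat_lit 1453512236) (nat_lit 76) (nat_lit 2194678638) (nat_lit 159) (nat_lit 5) (nat_lit 166) (nat_lit 5) (nat_lit 160) (nat_lit 5) (nat_lit 464) (nat_lit 384) (nat_lit 292)) (XT.nd (nat_lit 78) (nat_lit 532) (nat_lit 0) (XT.lf (nat_lit 0) (nat_lit 5488727598) (nat_lit 456) (nat_lit 5515587066) (nat_lit 532) (nat_lit 795888395) (nat_lit 153) (nat_lit 5) (nat_lit 159) (nat_lit 5) (nat_lit 160) (nat_lit 5) (nat_lit 465) (nat_lit 384) (nat_lit 291)) (XT.lf (nat_lit 0) (nat_lit 611817074) (nat_lit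 456) (nat_lit 1464342437) (nat_lit 532) (nat_lit 9862785979) (nat_lit 146) (nat_lit 5) (nat_lit 152) (nat_lit 5) (nat_lit 153) (nat_lit 5) (nat_lit 466) (nat_lit 384) (nat_lit 290))))) (XT.nd (nat_lit 156) (nat_lit 532) (nat_lit 0) (XT.nd (nat_lit 78) (nat_lit 380) (nat_lit 0) (XT.lf (nat_lit 0) (nat_lit 5031765532) (nat_lit 532) (nat_lit 4376658902) (nat_lit 76) (nat_lit 2671205364) (nat_lit 146) (nat_lit 5) (nat_lit 153) (nat_lit 5) (nat_lit 147) (nat_lit 5) (nat_lit 467) (nat_lit 384) (nat_lit 289)) (XT.lf (nat_lit 0) (nat_lit 2705965369) (nat_lit 380) (nat_lit 5345047974) (nat_lit 456) (nat_lit 4172031433) (nat_lit 141) (nat_lit 5) (nat_lit 146) (nat_lit 5) (nat_lit 147) (nat_lit 5) (nat_lit 468) (nat_lit 384) (nat_lit 288))) (XT.nd (nat_lit 78) (nat_lit 532) (nat_lit 0) (XT.lf (nat_lit 0) (nat_lit 9957137445) (nat_lit 380) (nat_lit 1180376721) (nat_lit 456) (nat_lit 1231683952) (nat_lit 141) (nat_lit 5)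 (nat_lit 146) (nat_lit 5) (nat_lit 147) (nat_lit 5) (nat_lit 469) (nat_lit 384) (nat_lit 287)) (XT.nd (nat_lit 78) (nat_lit 0) (nat_lit 0) (XT.lf (nat_lit 0) (nat_lit 1773736409) (nat_lit 532) (nat_lit 7682842096) (nat_lit 76) (nat_lit 3060884717) (nat_lit 134) (nat_lit 5) (nat_lit 141) (nat_lit 5) (nat_lit 135) (nat_lit 5) (nat_lit 470) (nat_lit 384) (nat_lit 286)) (XT.lf (nat_lit 0) (nat_lit 4824849346) (nat_lit 532) (nat_lit 457787454) (nat_lit 76) (nat_lit 7385859471) (nat_lit 134) (nat_lit 5) (nat_lit 141) (nat_lit 5) (nat_lit 135) (nat_lit 5) (nat_lit 471) (nat_lit 384) (nat_lit 285)))))) (XT.nd (nat_lit 390) (nat_lit 1444) (nat_lit 0) (XT.nd (nat_lit 156) (nat_lit 456) (nat_lit 0) (XT.nd (nat_lit 78) (nat_lit 380) (nat_lit 0) (XT.lf (nat_lit 0) (nat_lit 6971565213) (nat_lit 380) (nat_lit 989066238) (nat_lit 456) (nat_lit 4861452451) (nat_lit 129) (nat_lit 5) (nat_lit 134) (nat_lit 5) (nat_lit 135) (nat_lit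 5) (nat_lit 472) (nat_lit 384) (nat_lit 284)) (XT.lf (nat_lit 0) (nat_lit 1543440292) (nat_lit 380) (nat_lit 9629352424) (nat_lit 456) (nat_lit 1805684028) (nat_lit 124) (nat_lit 5) (nat_lit 129) (nat_lit 5) (nat_lit 130) (nat_lit 5) (nat_lit 473) (nat_lit 384) (nat_lit 283))) (XT.nd (nat_lit 78) (nat_lit 380) (nat_lit 0) (XT.lf (nat_lit 0) (nat_lit 1318679402) (nat_lit 456) (nat_lit 4019831146) (nat_lit 76) (nat_lit 7798829570) (nat_lit 123) (nat_lit 5) (nat_lit 129) (nat_lit 5) (nat_lit 124) (nat_lit 5) (nat_lit 474) (nat_lit 384) (nat_lit 282)) (XT.nd (nat_lit 78) (nat_lit 0) (nat_lit 0) (XT.lf (nat_lit 0) (nat_lit 3546985135) (nat_lit 380) (nat_lit 936444420) (nat_lit 456) (nat_lit 8815677282) (nat_lit 118) (nat_lit 5) (nat_lit 123) (nat_lit 5) (nat_lit 124) (nat_lit 5) (nat_lit 475) (nat_lit 384) (nat_lit 281)) (XT.lf (nat_lit 0) (nat_lit 7740869761) (nat_lit 456) (nat_lit 2198596582) (nat_lit 76) (nat_lit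 3524060861) (nat_lit 118) (nat_lit 5) (nat_lit 124) (nat_lit 5) (nat_lit 119) (nat_lit 5) (nat_lit 476) (nat_lit 384) (nat_lit 280))))) (XT.nd (nat_lit 234) (nat_lit 684) (nat_lit 0) (XT.nd (nat_lit 78) (nat_lit 380) (nat_lit 0) (XT.lf (nat_lit 0) (nat_lit 5541690011) (nat_lit 380) (nat_lit 5543527652) (nat_lit 456) (nat_lit 2545589231) (nat_lit 113) (nat_lit 5) (nat_lit 118) (nat_lit 5) (nat_lit 119) (nat_lit 5) (nat_lit 477) (nat_lit 384) (nat_lit 279)) (XT.nd (nat_lit 78) (nat_lit 304) (nat_lit 0) (XT.lf (nat_lit 0) (nat_lit 680395486) (nat_lit 456) (nat_lit 370024014) (nat_lit 76) (nat_lit 12751038472) (nat_lit 112) (nat_lit 5) (nat_lit 118) (nat_lit 5) (nat_lit 113) (nat_lit 5) (nat_lit 478) (nat_lit 384) (nat_lit 278)) (XT.lf (nat_lit 0) (nat_lit 3989244740) (nat_lit 380) (nat_lit 6442487273) (nat_lit 76) (nat_lit 3542410669) (nat_lit 108) (nat_lit 5) (nat_lit 113) (nat_lit 5) (nat_lit 109) (nat_lit 5)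 (nat_lit 479) (nat_lit 384) (nat_lit 277)))) (XT.nd (nat_lit 78) (nat_lit 304) (nat_lit 0) (XT.lf (nat_lit 0) (nat_lit 1427510465) (nat_lit 380) (nat_lit 5935652457) (nat_lit 456) (nat_lit 6787145953) (nat_lit 103) (nat_lit 5) (nat_lit 108) (nat_lit 5) (nat_lit 109) (nat_lit 5) (nat_lit 480) (nat_lit 384) (nat_lit 276)) (XT.nd (nat_lit 78) (nat_lit 304) (nat_lit 0) (XT.lf (nat_lit 0) (nat_lit 9512046215) (nat_lit 380) (nat_lit 1316106257) (nat_lit 456) (nat_lit 3501379580) (nat_lit 103) (nat_lit 5) (nat_lit 108) (nat_lit 5) (nat_lit 109) (nat_lit 5) (nat_lit 481) (nat_lit 384) (nat_lit 275)) (XT.lf (nat_lit 0) (nat_lit 3236408185) (nat_lit 304) (nat_lit 11149772966) (nat_lit 380) (nat_lit 125689164) (nat_lit 99) (nat_lit 5) (nat_lit 103) (nat_lit 5) (nat_lit 104) (nat_lit 5) (nat_lit 482) (nat_lit 384) (nat_lit 274))))))))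
noncomputable def xc110 : XT := (XT.nd (nat_lit 51714) (nat_lit 0) (nat_lit 39900) (XT.nd (nat_lit 780) (nat_lit 1596) (nat_lit 0) (XT.nd (nat_lit 390) (nat_lit 912) (nat_lit 0) (XT.nd (nat_lit 156) (nat_lit 380) (nat_lit 0) (XT.nd (nat_lit 78) (nat_lit 304) (nat_lit 0) (XT.lf (nat_lit 0) (nat_lit 3295995480) (nat_lit 380) (nat_lit 3240983234) (nat_lit 76) (nat_lit 8160011234) (nat_lit 98) (nat_lit 5) (nat_lit 103) (nat_lit 5) (nat_lit 99) (nat_lit 5) (nat_lit 483) (nat_lit 384) (nat_lit 273)) (XT.lf (nat_lit 0) (nat_lit 4989390309) (nat_lit 304) (nat_lit 1808546667) (nat_lit 380) (nat_lit 8087593357) (nat_lit 94) (nat_lit 5) (nat_lit 98) (nat_lit 5) (nat_lit 99) (nat_lit 5) (nat_lit 484) (nat_lit 384) (nat_lit 272))) (XT.nd (nat_lit 78) (nat_lit 380) (nat_lit 0) (XT.lf (nat_lit 0) (nat_lit 10392604619) (nat_lit 380) (nat_lit 1698335629) (nat_lit 76) (nat_lit 2986452532) (nat_lit 94) (nat_lit 5) (nat_lit 99)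 (nat_lit 5) (nat_lit 95) (nat_lit 5) (nat_lit 485) (nat_lit 384) (nat_lit 271)) (XT.nd (nat_lit 78) (nat_lit 76) (nat_lit 0) (XT.lf (nat_lit 0) (nat_lit 6710519240) (nat_lit 304) (nat_lit 7385783573) (nat_lit 380) (nat_lit 1176051817) (nat_lit 90) (nat_lit 5) (nat_lit 94) (nat_lit 5) (nat_lit 95) (nat_lit 5) (nat_lit 486) (nat_lit 384) (nat_lit 270)) (XT.lf (nat_lit 0) (nat_lit 2364457262) (nat_lit 380) (nat_lit 205088097) (nat_lit 76) (nat_lit 12901500811) (nat_lit 89) (nat_lit 5) (nat_lit 94) (nat_lit 5) (nat_lit 90) (nat_lit 5) (nat_lit 487) (nat_lit 384) (nat_lit 269))))) (XT.nd (nat_lit 156) (nat_lit 380) (nat_lit 0) (XT.nd (nat_lit 78) (nat_lit 228) (nat_lit 0) (XT.lf (nat_lit 0) (nat_lit 6012091462) (nat_lit 380) (nat_lit 7295738847) (nat_lit 76) (nat_lit 2364689129) (nat_lit 85) (nat_lit 5) (nat_lit 90) (nat_lit 5) (nat_lit 86) (nat_lit 5) (nat_lit 488) (nat_lit 384) (nat_lit 268)) (XT.lf (nat_lit 0)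 (nat_lit 1225585388) (nat_lit 228) (nat_lit 8515554231) (nat_lit 304) (nat_lit 6136717853) (nat_lit 82) (nat_lit 5) (nat_lit 85) (nat_lit 5) (nat_lit 86) (nat_lit 5) (nat_lit 489) (nat_lit 384) (nat_lit 267))) (XT.nd (nat_lit 78) (nat_lit 380) (nat_lit 0) (XT.lf (nat_lit 0) (nat_lit 9987885053) (nat_lit 228) (nat_lit 3588110577) (nat_lit 304) (nat_lit 2510686539) (nat_lit 82) (nat_lit 5) (nat_lit 85) (nat_lit 5) (nat_lit 86) (nat_lit 5) (nat_lit 490) (nat_lit 384) (nat_lit 266)) (XT.nd (nat_lit 78) (nat_lit 0) (nat_lit 0) (XT.lf (nat_lit 0) (nat_lit 1181254022) (nat_lit 380) (nat_lit 13684546919) (nat_lit 76) (nat_lit 1433553083) (nat_lit 77) (nat_lit 5) (nat_lit 82) (nat_lit 5) (nat_lit 78) (nat_lit 5) (nat_lit 491) (nat_lit 384) (nat_lit 265)) (XT.lf (nat_lit 0) (nat_lit 4960997349) (nat_lit 380) (nat_lit 4998893182) (nat_lit 76) (nat_lit 6555109412) (nat_lit 77) (nat_lit 5) (nat_lit 82) (nat_lit 5) (nat_lit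 78) (nat_lit 5) (nat_lit 492) (nat_lit 384) (nat_lit 264)))))) (XT.nd (nat_lit 390) (nat_lit 760) (nat_lit 0) (XT.nd (nat_lit 156) (nat_lit 608) (nat_lit 0) (XT.nd (nat_lit 78) (nat_lit 0) (nat_lit 0) (XT.lf (nat_lit 0) (nat_lit 3883836148) (nat_lit 228) (nat_lit 4940648313) (nat_lit 304) (nat_lit 7910315443) (nat_lit 74) (nat_lit 5) (nat_lit 77) (nat_lit 5) (nat_lit 78) (nat_lit 5) (nat_lit 493) (nat_lit 384) (nat_lit 263)) (XT.lf (nat_lit 0) (nat_lit 12783191943) (nat_lit 304) (nat_lit 3975395236) (nat_lit 76) (nat_lit 200053692) (nat_lit 74) (nat_lit 5) (nat_lit 78) (nat_lit 5) (nat_lit 75) (nat_lit 5) (nat_lit 494) (nat_lit 384) (nat_lit 262))) (XT.nd (nat_lit 78) (nat_lit 304) (nat_lit 0) (XT.lf (nat_lit 0) (nat_lit 5084524631) (nat_lit 304) (nat_lit 11785634712) (nat_lit 380) (nat_lit 315821540) (nat_lit 70) (nat_lit 5) (nat_lit 74) (nat_lit 5) (nat_lit 75) (nat_lit 5) (nat_lit 495) (nat_lit 384) (nat_lit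 261)) (XT.nd (nat_lit 78) (nat_lit 228) (nat_lit 0) (XT.lf (nat_lit 0) (nat_lit 3583754538) (nat_lit 380) (nat_lit 3088661314) (nat_lit 76) (nat_lit 10744780508) (nat_lit 69) (nat_lit 5) (nat_lit 74) (nat_lit 5) (nat_lit 70) (nat_lit 5) (nat_lit 496) (nat_lit 384) (nat_lit 260)) (XT.lf (nat_lit 0) (nat_lit 6156402082) (nat_lit 228) (nat_lit 1424384767) (nat_lit 304) (nat_lit 10071737390) (nat_lit 66) (nat_lit 5) (nat_lit 69) (nat_lit 5) (nat_lit 70) (nat_lit 5) (nat_lit 497) (nat_lit 384) (nat_lit 259))))) (XT.nd (nat_lit 234) (nat_lit 456) (nat_lit 0) (XT.nd (nat_lit 78) (nat_lit 304) (nat_lit 0) (XT.lf (nat_lit 0) (nat_lit 11687929271) (nat_lit 304) (nat_lit 2316276409) (nat_lit 76) (nat_lit 3887753246) (nat_lit 66) (nat_lit 5) (nat_lit 70) (nat_lit 5) (nat_lit 67) (nat_lit 5) (nat_lit 498) (nat_lit 384) (nat_lit 258)) (XT.nd (nat_lit 78) (nat_lit 76) (nat_lit 0) (XT.lf (nat_lit 0) (nat_lit 7104714571) (nat_lit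 228) (nat_lit 8812177715) (nat_lit 304) (nat_lit 2218500036) (nat_lit 63) (nat_lit 5) (nat_lit 66) (nat_lit 5) (nat_lit 67) (nat_lit 5) (nat_lit 499) (nat_lit 384) (nat_lit 257)) (XT.lf (nat_lit 0) (nat_lit 1822317198) (nat_lit 304) (nat_lit 1676193586) (nat_lit 76) (nat_lit 14884951280) (nat_lit 62) (nat_lit 5) (nat_lit 66) (nat_lit 5) (nat_lit 63) (nat_lit 5) (nat_lit 500) (nat_lit 384) (nat_lit 256)))) (XT.nd (nat_lit 78) (nat_lit 228) (nat_lit 0) (XT.lf (nat_lit 0) (nat_lit 5963061874) (nat_lit 304) (nat_lit 10719378792) (nat_lit 76) (nat_lit 1952786277) (nat_lit 59) (nat_lit 5) (nat_lit 63) (nat_lit 5) (nat_lit 60) (nat_lit 5) (nat_lit 501) (nat_lit 384) (nat_lit 255)) (XT.nd (nat_lit 78) (nat_lit 228) (nat_lit 0) (XT.lf (nat_lit 0) (nat_lit 10205647569) (nat_lit 304) (nat_lit 1218395189) (nat_lit 76) (nat_lit 7467607138) (nat_lit 59) (nat_lit 5) (nat_lit 63) (nat_lit 5) (nat_lit 60) (nat_lit 5) (nat_lit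 502) (nat_lit 384) (nat_lit 254)) (XT.lf (nat_lit 0) (nat_lit 8559572769) (nat_lit 228) (nat_lit 6013924422) (nat_lit 304) (nat_lit 4578899104) (nat_lit 56) (nat_lit 5) (nat_lit 59) (nat_lit 5) (nat_lit 60) (nat_lit 5) (nat_lit 503) (nat_lit 384) (nat_lit 253))))))) (XT.nd (nat_lit 780) (nat_lit 3952) (nat_lit 0) (XT.nd (nat_lit 390) (nat_lit 608) (nat_lit 0) (XT.nd (nat_lit 156) (nat_lit 988) (nat_lit 0) (XT.nd (nat_lit 78) (nat_lit 0) (nat_lit 0) (XT.lf (nat_lit 0) (nat_lit 675125026) (nat_lit 0) (nat_lit 675125026) (nat_lit 380) (nat_lit 1895166564) (nat_lit 654) (nat_lit 5) (nat_lit 654) (nat_lit 3) (nat_lit 659) (nat_lit 3) (nat_lit 385) (nat_lit 385) (nat_lit 370)) (XT.lf (nat_lit 0) (nat_lit 4468358052) (nat_lit 0) (nat_lit 871565424) (nat_lit 380) (nat_lit 1161304909) (nat_lit 654) (nat_lit 5) (nat_lit 654) (nat_lit 3) (nat_lit 659) (nat_lit 3) (nat_lit 386) (nat_lit 385) (nat_lit 369))) (XT.nd (nat_lit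 78) (nat_lit 456) (nat_lit 0) (XT.lf (nat_lit 76) (nat_lit 1106398518) (nat_lit 0) (nat_lit 332112662) (nat_lit 532) (nat_lit 5074418160) (nat_lit 648) (nat_lit 5) (nat_lit 647) (nat_lit 3) (nat_lit 654) (nat_lit 5) (nat_lit 387) (nat_lit 385) (nat_lit 368)) (XT.nd (nat_lit 78) (nat_lit 532) (nat_lit 0) (XT.lf (nat_lit 0) (nat_lit 4022239382) (nat_lit 456) (nat_lit 2234415152) (nat_lit 532) (nat_lit 269164041) (nat_lit 648) (nat_lit 5) (nat_lit 654) (nat_lit 5) (nat_lit 655) (nat_lit 5) (nat_lit 388) (nat_lit 385) (nat_lit 367)) (XT.lf (nat_lit 0) (nat_lit 58847263) (nat_lit 532) (nat_lit 5564740729) (nat_lit 608) (nat_lit 916582533) (nat_lit 641) (nat_lit 5) (nat_lit 648) (nat_lit 5) (nat_lit 649) (nat_lit 5) (nat_lit 389) (nat_lit 385) (nat_lit 366))))) (XT.nd (nat_lit 156) (nat_lit 608) (nat_lit 0) (XT.nd (nat_lit 78) (nat_lit 0) (nat_lit 0) (XT.lf (nat_lit 0) (nat_lit 2588337462) (nat_lit 532) (nat_lit 2328037807)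 (nat_lit 608) (nat_lit 1639170315) (nat_lit 641) (nat_lit 5) (nat_lit 648) (nat_lit 5) (nat_lit 649) (nat_lit 5) (nat_lit 390) (nat_lit 385) (nat_lit 365)) (XT.lf (nat_lit 76) (nat_lit 949967369) (nat_lit 0) (nat_lit 4160121248) (nat_lit 608) (nat_lit 1462358855) (nat_lit 642) (nat_lit 5) (nat_lit 641) (nat_lit 5) (nat_lit 649) (nat_lit 5) (nat_lit 391) (nat_lit 385) (nat_lit 364))) (XT.nd (nat_lit 78) (nat_lit 0) (nat_lit 0) (XT.lf (nat_lit 0) (nat_lit 1030048889) (nat_lit 608) (nat_lit 2308037437) (nat_lit 684) (nat_lit 3252474081) (nat_lit 633) (nat_lit 5) (nat_lit 641) (nat_lit 5) (nat_lit 642) (nat_lit 5) (nat_lit 392) (nat_lit 385) (nat_lit 363)) (XT.nd (nat_lit 78) (nat_lit 0) (nat_lit 0) (XT.lf (nat_lit 76) (nat_lit 1040821882) (nat_lit 0) (nat_lit 2455996710) (nat_lit 684) (nat_lit 3113191496) (nat_lit 634) (nat_lit 5) (nat_lit 633) (nat_lit 5) (nat_lit 642) (nat_lit 5) (nat_lit 393) (nat_lit 385) (nat_lit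 362)) (XT.lf (nat_lit 76) (nat_lit 4452341950) (nat_lit 0) (nat_lit 1514386553) (nat_lit 684) (nat_lit 664092899) (nat_lit 634) (nat_lit 5) (nat_lit 633) (nat_lit 5) (nat_lit 642) (nat_lit 5) (nat_lit 394) (nat_lit 385) (nat_lit 361)))))) (XT.nd (nat_lit 390) (nat_lit 2584) (nat_lit 0) (XT.nd (nat_lit 156) (nat_lit 684) (nat_lit 0) (XT.nd (nat_lit 78) (nat_lit 0) (nat_lit 76) (XT.lf (nat_lit 76) (nat_lit 1248752766) (nat_lit 0) (nat_lit 508368058) (nat_lit 760) (nat_lit 4895793086) (nat_lit 625) (nat_lit 5) (nat_lit 624) (nat_lit 5) (nat_lit 634) (nat_lit 5) (nat_lit 395) (nat_lit 385) (nat_lit 360)) (XT.lf (nat_lit 0) (nat_lit 4176153216) (nat_lit 684) (nat_lit 1945882189) (nat_lit 760) (nat_lit 554205261) (nat_lit 625) (nat_lit 5) (nat_lit 634) (nat_lit 5) (nat_lit 635) (nat_lit 5) (nat_lit 396) (nat_lit 385) (nat_lit 359))) (XT.nd (nat_lit 78) (nat_lit 760) (nat_lit 0) (XT.lf (nat_lit 76) (nat_lit 1562482717)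 (nat_lit 0) (nat_lit 5035968433) (nat_lit 760) (nat_lit 102530133) (nat_lit 626) (nat_lit 5) (nat_lit 625) (nat_lit 5) (nat_lit 635) (nat_lit 5) (nat_lit 397) (nat_lit 385) (nat_lit 358)) (XT.nd (nat_lit 78) (nat_lit 0) (nat_lit 0) (XT.lf (nat_lit 0) (nat_lit 2267257929) (nat_lit 760) (nat_lit 1610645209) (nat_lit 836) (nat_lit 2848952442) (nat_lit 615) (nat_lit 5) (nat_lit 625) (nat_lit 5) (nat_lit 626) (nat_lit 5) (nat_lit 398) (nat_lit 385) (nat_lit 357)) (XT.lf (nat_lit 76) (nat_lit 1976952655) (nat_lit 0) (nat_lit 2661956928) (nat_lit 836) (nat_lit 2115249837) (nat_lit 616) (nat_lit 5) (nat_lit 615) (nat_lit 5) (nat_lit 626) (nat_lit 5) (nat_lit 399) (nat_lit 385) (nat_lit 356))))) (XT.nd (nat_lit 234) (nat_lit 1748) (nat_lit 0) (XT.nd (nat_lit 78) (nat_lit 0) (nat_lit 0) (XT.lf (nat_lit 0) (nat_lit 226721264) (nat_lit 836) (nat_lit 1162137777) (nat_lit 912) (nat_lit 5394068117) (nat_lit 604) (nat_lit 5)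 (nat_lit 615) (nat_lit 5) (nat_lit 616) (nat_lit 5) (nat_lit 400) (nat_lit 385) (nat_lit 355)) (XT.nd (nat_lit 78) (nat_lit 0) (nat_lit 76) (XT.lf (nat_lit 76) (nat_lit 2508221711) (nat_lit 0) (nat_lit 39882777) (nat_lit 912) (nat_lit 4264708190) (nat_lit 605) (nat_lit 5) (nat_lit 604) (nat_lit 5) (nat_lit 616) (nat_lit 5) (nat_lit 401) (nat_lit 385) (nat_lit 354)) (XT.lf (nat_lit 0) (nat_lit 4878002371) (nat_lit 836) (nat_lit 621040095) (nat_lit 76) (nat_lit 1345050897) (nat_lit 605) (nat_lit 5) (nat_lit 616) (nat_lit 5) (nat_lit 606) (nat_lit 5) (nat_lit 402) (nat_lit 385) (nat_lit 353)))) (XT.nd (nat_lit 78) (nat_lit 912) (nat_lit 0) (XT.lf (nat_lit 0) (nat_lit 340566493) (nat_lit 912) (nat_lit 3738013011) (nat_lit 76) (nat_lit 2798068042) (nat_lit 593) (nat_lit 5) (nat_lit 605) (nat_lit 5) (nat_lit 594) (nat_lit 5) (nat_lit 403) (nat_lit 385) (nat_lit 352)) (XT.nd (nat_lit 78) (nat_lit 0) (nat_lit 0) (XT.lf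 (nat_lit 0) (nat_lit 22707403) (nat_lit 912) (nat_lit 2595748246) (nat_lit 988) (nat_lit 4292145690) (nat_lit 581) (nat_lit 5) (nat_lit 593) (nat_lit 5) (nat_lit 594) (nat_lit 5) (nat_lit 404) (nat_lit 385) (nat_lit 351)) (XT.lf (nat_lit 0) (nat_lit 3872859488) (nat_lit 912) (nat_lit 1041985889) (nat_lit 988) (nat_lit 2030966187) (nat_lit 581) (nat_lit 5) (nat_lit 593) (nat_lit 5) (nat_lit 594) (nat_lit 5) (nat_lit 405) (nat_lit 385) (nat_lit 350))))))))
noncomputable def xc111 : XT := (XT.nd (nat_lit 1638) (nat_lit 10032) (nat_lit 0) (XT.nd (nat_lit 780) (nat_lit 9196) (nat_lit 0) (XT.nd (nat_lit 390) (nat_lit 3952) (nat_lit 0) (XT.nd (nat_lit 156) (nat_lit 2280) (nat_lit 0) (XT.nd (nat_lit 78) (nat_lit 0) (nat_lit 0) (XT.lf (nat_lit 0) (nat_lit 229131928) (nat_lit 1064) (nat_lit 6195910424) (nat_lit 76) (nat_lit 557536530) (nat_lit 567) (nat_lit 5) (nat_lit 581) (nat_lit 5) (nat_lit 568) (nat_lit 5) (nat_lit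 406) (nat_lit 385) (nat_lit 349)) (XT.lf (nat_lit 0) (nat_lit 2484297267) (nat_lit 1064) (nat_lit 2312379914) (nat_lit 76) (nat_lit 2223628795) (nat_lit 567) (nat_lit 5) (nat_lit 581) (nat_lit 5) (nat_lit 568) (nat_lit 5) (nat_lit 407) (nat_lit 385) (nat_lit 348))) (XT.nd (nat_lit 78) (nat_lit 1216) (nat_lit 0) (XT.lf (nat_lit 0) (nat_lit 1633619330) (nat_lit 1064) (nat_lit 3111921966) (nat_lit 1140) (nat_lit 2314060261) (nat_lit 553) (nat_lit 5) (nat_lit 567) (nat_lit 5) (nat_lit 568) (nat_lit 5) (nat_lit 408) (nat_lit 385) (nat_lit 347)) (XT.nd (nat_lit 78) (nat_lit 1216) (nat_lit 0) (XT.lf (nat_lit 0) (nat_lit 5653497359) (nat_lit 1064) (nat_lit 1365135894) (nat_lit 1140) (nat_lit 81750133) (nat_lit 553) (nat_lit 5) (nat_lit 567) (nat_lit 5) (nat_lit 568) (nat_lit 5) (nat_lit 409) (nat_lit 385) (nat_lit 346)) (XT.lf (nat_lit 0) (nat_lit 2137969159) (nat_lit 1216) (nat_lit 4550113853) (nat_lit 76) (nat_lit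 454213237) (nat_lit 537) (nat_lit 5) (nat_lit 553) (nat_lit 5) (nat_lit 538) (nat_lit 5) (nat_lit 410) (nat_lit 385) (nat_lit 345))))) (XT.nd (nat_lit 156) (nat_lit 2736) (nat_lit 0) (XT.nd (nat_lit 78) (nat_lit 1216) (nat_lit 0) (XT.lf (nat_lit 0) (nat_lit 4372305587) (nat_lit 1216) (nat_lit 500017945) (nat_lit 76) (nat_lit 2313317589) (nat_lit 537) (nat_lit 5) (nat_lit 553) (nat_lit 5) (nat_lit 538) (nat_lit 5) (nat_lit 411) (nat_lit 385) (nat_lit 344)) (XT.lf (nat_lit 0) (nat_lit 3642415972) (nat_lit 1216) (nat_lit 2985995140) (nat_lit 1292) (nat_lit 601930429) (nat_lit 521) (nat_lit 5) (nat_lit 537) (nat_lit 5) (nat_lit 538) (nat_lit 5) (nat_lit 412) (nat_lit 385) (nat_lit 343))) (XT.nd (nat_lit 78) (nat_lit 1368) (nat_lit 0) (XT.lf (nat_lit 0) (nat_lit 558332524) (nat_lit 1292) (nat_lit 1034462558) (nat_lit 1368) (nat_lit 5683739654) (nat_lit 503) (nat_lit 5) (nat_lit 520) (nat_lit 5) (nat_lit 521) (nat_lit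 5) (nat_lit 413) (nat_lit 385) (nat_lit 342)) (XT.nd (nat_lit 78) (nat_lit 1368) (nat_lit 0) (XT.lf (nat_lit 0) (nat_lit 3808311850) (nat_lit 1368) (nat_lit 2534966525) (nat_lit 76) (nat_lit 980623265) (nat_lit 503) (nat_lit 5) (nat_lit 521) (nat_lit 5) (nat_lit 504) (nat_lit 5) (nat_lit 414) (nat_lit 385) (nat_lit 341)) (XT.lf (nat_lit 0) (nat_lit 1710661967) (nat_lit 1368) (nat_lit 4330831640) (nat_lit 1444) (nat_lit 1331283172) (nat_lit 485) (nat_lit 5) (nat_lit 503) (nat_lit 5) (nat_lit 504) (nat_lit 5) (nat_lit 415) (nat_lit 385) (nat_lit 340)))))) (XT.nd (nat_lit 390) (nat_lit 4484) (nat_lit 0) (XT.nd (nat_lit 156) (nat_lit 3192) (nat_lit 0) (XT.nd (nat_lit 78) (nat_lit 1444) (nat_lit 0) (XT.lf (nat_lit 0) (nat_lit 857788435) (nat_lit 1444) (nat_lit 1389888466) (nat_lit 76) (nat_lit 5175406197) (nat_lit 484) (nat_lit 5) (nat_lit 503) (nat_lit 5) (nat_lit 485) (nat_lit 5) (nat_lit 416) (nat_lit 385) (nat_lit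 339)) (XT.lf (nat_lit 0) (nat_lit 2961304251) (nat_lit 1444) (nat_lit 87338825) (nat_lit 1520) (nat_lit 4426086300) (nat_lit 465) (nat_lit 5) (nat_lit 484) (nat_lit 5) (nat_lit 485) (nat_lit 5) (nat_lit 417) (nat_lit 385) (nat_lit 338))) (XT.nd (nat_lit 78) (nat_lit 3192) (nat_lit 0) (XT.lf (nat_lit 0) (nat_lit 5263685680) (nat_lit 1520) (nat_lit 159846440) (nat_lit 76) (nat_lit 2104294903) (nat_lit 465) (nat_lit 5) (nat_lit 485) (nat_lit 5) (nat_lit 466) (nat_lit 5) (nat_lit 418) (nat_lit 385) (nat_lit 337)) (XT.nd (nat_lit 78) (nat_lit 1672) (nat_lit 0) (XT.lf (nat_lit 0) (nat_lit 4300168047) (nat_lit 1520) (nat_lit 3209439823) (nat_lit 1596) (nat_lit 72672529) (nat_lit 445) (nat_lit 5) (nat_lit 465) (nat_lit 5) (nat_lit 466) (nat_lit 5) (nat_lit 419) (nat_lit 385) (nat_lit 336)) (XT.lf (nat_lit 0) (nat_lit 1178361683) (nat_lit 1596) (nat_lit 923000562) (nat_lit 1672) (nat_lit 5536862147) (nat_lit 423) (nat_lit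 5) (nat_lit 444) (nat_lit 5) (nat_lit 445) (nat_lit 5) (nat_lit 420) (nat_lit 385) (nat_lit 335))))) (XT.nd (nat_lit 234) (nat_lit 2736) (nat_lit 0) (XT.nd (nat_lit 78) (nat_lit 1748) (nat_lit 0) (XT.lf (nat_lit 0) (nat_lit 4308202901) (nat_lit 1672) (nat_lit 1969512780) (nat_lit 76) (nat_lit 1417779901) (nat_lit 423) (nat_lit 5) (nat_lit 445) (nat_lit 5) (nat_lit 424) (nat_lit 5) (nat_lit 421) (nat_lit 385) (nat_lit 334)) (XT.nd (nat_lit 78) (nat_lit 76) (nat_lit 0) (XT.lf (nat_lit 0) (nat_lit 2601965907) (nat_lit 1672) (nat_lit 3940002649) (nat_lit 1748) (nat_lit 1212311300) (nat_lit 401) (nat_lit 5) (nat_lit 423) (nat_lit 5) (nat_lit 424) (nat_lit 5) (nat_lit 422) (nat_lit 385) (nat_lit 333)) (XT.lf (nat_lit 0) (nat_lit 966326099) (nat_lit 1748) (nat_lit 566027264) (nat_lit 76) (nat_lit 6282311260) (nat_lit 400) (nat_lit 5) (nat_lit 423) (nat_lit 5) (nat_lit 401) (nat_lit 5) (nat_lit 423) (nat_lit 385) (nat_lit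 332)))) (XT.nd (nat_lit 78) (nat_lit 988) (nat_lit 0) (XT.lf (nat_lit 0) (nat_lit 3166156285) (nat_lit 1824) (nat_lit 3760875031) (nat_lit 76) (nat_lit 949210515) (nat_lit 377) (nat_lit 5) (nat_lit 401) (nat_lit 5) (nat_lit 378) (nat_lit 5) (nat_lit 424) (nat_lit 385) (nat_lit 331)) (XT.nd (nat_lit 78) (nat_lit 0) (nat_lit 0) (XT.lf (nat_lit 0) (nat_lit 924184513) (nat_lit 988) (nat_lit 4467153234) (nat_lit 1064) (nat_lit 2548107382) (nat_lit 364) (nat_lit 5) (nat_lit 377) (nat_lit 5) (nat_lit 378) (nat_lit 5) (nat_lit 425) (nat_lit 385) (nat_lit 330)) (XT.lf (nat_lit 0) (nat_lit 5717317413) (nat_lit 988) (nat_lit 1930845122) (nat_lit 1064) (nat_lit 356028378) (nat_lit 364) (nat_lit 5) (nat_lit 377) (nat_lit 5) (nat_lit 378) (nat_lit 5) (nat_lit 426) (nat_lit 385) (nat_lit 329))))))) (XT.nd (nat_lit 780) (nat_lit 4940) (nat_lit 0) (XT.nd (nat_lit 390) (nat_lit 2356) (nat_lit 0) (XT.nd (nat_lit 156) (nat_lit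 1748) (nat_lit 0) (XT.nd (nat_lit 78) (nat_lit 0) (nat_lit 0) (XT.lf (nat_lit 0) (nat_lit 1838440837) (nat_lit 988) (nat_lit 5554367490) (nat_lit 76) (nat_lit 677535490) (nat_lit 351) (nat_lit 5) (nat_lit 364) (nat_lit 5) (nat_lit 352) (nat_lit 5) (nat_lit 427) (nat_lit 385) (nat_lit 328)) (XT.lf (nat_lit 0) (nat_lit 4063161776) (nat_lit 988) (nat_lit 743815941) (nat_lit 76) (nat_lit 3330992395) (nat_lit 351) (nat_lit 5) (nat_lit 364) (nat_lit 5) (nat_lit 352) (nat_lit 5) (nat_lit 428) (nat_lit 385) (nat_lit 327))) (XT.nd (nat_lit 78) (nat_lit 912) (nat_lit 0) (XT.lf (nat_lit 0) (nat_lit 4181574106) (nat_lit 836) (nat_lit 2141570516) (nat_lit 912) (nat_lit 1884008562) (nat_lit 340) (nat_lit 5) (nat_lit 351) (nat_lit 5) (nat_lit 352) (nat_lit 5) (nat_lit 429) (nat_lit 385) (nat_lit 326)) (XT.nd (nat_lit 78) (nat_lit 0) (nat_lit 0) (XT.lf (nat_lit 0) (nat_lit 324622516) (nat_lit 912) (nat_lit 7370931750) (nat_lit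 76) (nat_lit 582566687) (nat_lit 328) (nat_lit 5) (nat_lit 340) (nat_lit 5) (nat_lit 329) (nat_lit 5) (nat_lit 430) (nat_lit 385) (nat_lit 325)) (XT.lf (nat_lit 0) (nat_lit 2557909323) (nat_lit 912) (nat_lit 2420589905) (nat_lit 76) (nat_lit 3371664053) (nat_lit 328) (nat_lit 5) (nat_lit 340) (nat_lit 5) (nat_lit 329) (nat_lit 5) (nat_lit 431) (nat_lit 385) (nat_lit 324))))) (XT.nd (nat_lit 156) (nat_lit 1596) (nat_lit 0) (XT.nd (nat_lit 78) (nat_lit 0) (nat_lit 0) (XT.lf (nat_lit 0) (nat_lit 2626972410) (nat_lit 760) (nat_lit 2190956444) (nat_lit 836) (nat_lit 3606094369) (nat_lit 318) (nat_lit 5) (nat_lit 328) (nat_lit 5) (nat_lit 329) (nat_lit 5) (nat_lit 432) (nat_lit 385) (nat_lit 323)) (XT.lf (nat_lit 0) (nat_lit 7109188936) (nat_lit 836) (nat_lit 731780908) (nat_lit 76) (nat_lit 658687466) (nat_lit 318) (nat_lit 5) (nat_lit 329) (nat_lit 5) (nat_lit 319) (nat_lit 5) (nat_lit 433) (nat_lit 385) (nat_lit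 322))) (XT.nd (nat_lit 78) (nat_lit 760) (nat_lit 0) (XT.lf (nat_lit 0) (nat_lit 867597398) (nat_lit 836) (nat_lit 4139770350) (nat_lit 76) (nat_lit 3569149880) (nat_lit 307) (nat_lit 5) (nat_lit 318) (nat_lit 5) (nat_lit 308) (nat_lit 5) (nat_lit 434) (nat_lit 385) (nat_lit 321)) (XT.nd (nat_lit 78) (nat_lit 0) (nat_lit 0) (XT.lf (nat_lit 0) (nat_lit 1031832248) (nat_lit 760) (nat_lit 2098358643) (nat_lit 836) (nat_lit 5524997473) (nat_lit 297) (nat_lit 5) (nat_lit 307) (nat_lit 5) (nat_lit 308) (nat_lit 5) (nat_lit 435) (nat_lit 385) (nat_lit 320)) (XT.lf (nat_lit 0) (nat_lit 5438375254) (nat_lit 836) (nat_lit 2414352891) (nat_lit 76) (nat_lit 882713988) (nat_lit 297) (nat_lit 5) (nat_lit 308) (nat_lit 5) (nat_lit 298) (nat_lit 5) (nat_lit 436) (nat_lit 385) (nat_lit 319)))))) (XT.nd (nat_lit 390) (nat_lit 2736) (nat_lit 0) (XT.nd (nat_lit 156) (nat_lit 1368) (nat_lit 0) (XT.nd (nat_lit 78) (nat_lit 76) (nat_lit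 0) (XT.lf (nat_lit 0) (nat_lit 2886880692) (nat_lit 760) (nat_lit 4905868808) (nat_lit 836) (nat_lit 1024567033) (nat_lit 287) (nat_lit 5) (nat_lit 297) (nat_lit 5) (nat_lit 298) (nat_lit 5) (nat_lit 437) (nat_lit 385) (nat_lit 318)) (XT.lf (nat_lit 0) (nat_lit 1260293968) (nat_lit 836) (nat_lit 618268505) (nat_lit 76) (nat_lit 7022435968) (nat_lit 286) (nat_lit 5) (nat_lit 297) (nat_lit 5) (nat_lit 287) (nat_lit 5) (nat_lit 438) (nat_lit 385) (nat_lit 317))) (XT.nd (nat_lit 78) (nat_lit 684) (nat_lit 0) (XT.lf (nat_lit 0) (nat_lit 3584729760) (nat_lit 760) (nat_lit 4173153256) (nat_lit 76) (nat_lit 1228198744) (nat_lit 277) (nat_lit 5) (nat_lit 287) (nat_lit 5) (nat_lit 278) (nat_lit 5) (nat_lit 439) (nat_lit 385) (nat_lit 316)) (XT.nd (nat_lit 78) (nat_lit 0) (nat_lit 0) (XT.lf (nat_lit 0) (nat_lit 1256555652) (nat_lit 684) (nat_lit 4692445932) (nat_lit 760) (nat_lit 3124013068) (nat_lit 268) (nat_lit 5) (nat_lit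 277) (nat_lit 5) (nat_lit 278) (nat_lit 5) (nat_lit 440) (nat_lit 385) (nat_lit 315)) (XT.lf (nat_lit 0) (nat_lit 6815859980) (nat_lit 684) (nat_lit 1541659966) (nat_lit 760) (nat_lit 804241596) (nat_lit 268) (nat_lit 5) (nat_lit 277) (nat_lit 5) (nat_lit 278) (nat_lit 5) (nat_lit 441) (nat_lit 385) (nat_lit 314))))) (XT.nd (nat_lit 234) (nat_lit 1292) (nat_lit 0) (XT.nd (nat_lit 78) (nat_lit 684) (nat_lit 0) (XT.lf (nat_lit 0) (nat_lit 1542800933) (nat_lit 760) (nat_lit 6032310219) (nat_lit 76) (nat_lit 1676956181) (nat_lit 258) (nat_lit 5) (nat_lit 268) (nat_lit 5) (nat_lit 259) (nat_lit 5) (nat_lit 442) (nat_lit 385) (nat_lit 313)) (XT.nd (nat_lit 78) (nat_lit 684) (nat_lit 0) (XT.lf (nat_lit 0) (nat_lit 3921774138) (nat_lit 760) (nat_lit 466623047) (nat_lit 76) (nat_lit 4955774286) (nat_lit 258) (nat_lit 5) (nat_lit 268) (nat_lit 5) (nat_lit 259) (nat_lit 5) (nat_lit 443) (nat_lit 385) (nat_lit 312)) (XT.lf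 (nat_lit 0) (nat_lit 5244208662) (nat_lit 684) (nat_lit 1108453689) (nat_lit 760) (nat_lit 3085382083) (nat_lit 249) (nat_lit 5) (nat_lit 258) (nat_lit 5) (nat_lit 259) (nat_lit 5) (nat_lit 444) (nat_lit 385) (nat_lit 311)))) (XT.nd (nat_lit 78) (nat_lit 684) (nat_lit 0) (XT.lf (nat_lit 0) (nat_lit 1511849225) (nat_lit 608) (nat_lit 7318420770) (nat_lit 684) (nat_lit 703576016) (nat_lit 241) (nat_lit 5) (nat_lit 249) (nat_lit 5) (nat_lit 250) (nat_lit 5) (nat_lit 445) (nat_lit 385) (nat_lit 310)) (XT.nd (nat_lit 78) (nat_lit 608) (nat_lit 0) (XT.lf (nat_lit 0) (nat_lit 1709653775) (nat_lit 684) (nat_lit 2296689645) (nat_lit 76) (nat_lit 5624880314) (nat_lit 240) (nat_lit 5) (nat_lit 249) (nat_lit 5) (nat_lit 241) (nat_lit 5) (nat_lit 446) (nat_lit 385) (nat_lit 309)) (XT.lf (nat_lit 0) (nat_lit 3550269009) (nat_lit 608) (nat_lit 605843930) (nat_lit 684) (nat_lit 5574467776) (nat_lit 232) (nat_lit 5) (nat_lit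 240) (nat_lit 5) (nat_lit 241) (nat_lit 5) (nat_lit 447) (nat_lit 385) (nat_lit 308))))))))
noncomputable def xc112 : XT := (XT.nd (nat_lit 1560) (nat_lit 4636) (nat_lit 0) (XT.nd (nat_lit 780) (nat_lit 3040) (nat_lit 0) (XT.nd (nat_lit 390) (nat_lit 1672) (nat_lit 0) (XT.nd (nat_lit 156) (nat_lit 1216) (nat_lit 0) (XT.nd (nat_lit 78) (nat_lit 608) (nat_lit 0) (XT.lf (nat_lit 0) (nat_lit 6657225662) (nat_lit 684) (nat_lit 340073541) (nat_lit 76) (nat_lit 2834523330) (nat_lit 232) (nat_lit 5) (nat_lit 241) (nat_lit 5) (nat_lit 233) (nat_lit 5) (nat_lit 448) (nat_lit 385) (nat_lit 307)) (XT.lf (nat_lit 0) (nat_lit 5652713506) (nat_lit 608) (nat_lit 3568540892) (nat_lit 684) (nat_lit 713588861) (nat_lit 224) (nat_lit 5) (nat_lit 232) (nat_lit 5) (nat_lit 233) (nat_lit 5) (nat_lit 449) (nat_lit 385) (nat_lit 306))) (XT.nd (nat_lit 78) (nat_lit 532) (nat_lit 0) (XT.lf (nat_lit 0) (nat_lit 1706251733) (nat_lit 608)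 (nat_lit 52510096) (nat_lit 684) (nat_lit 8281227035) (nat_lit 215) (nat_lit 5) (nat_lit 223) (nat_lit 5) (nat_lit 224) (nat_lit 5) (nat_lit 450) (nat_lit 385) (nat_lit 305)) (XT.nd (nat_lit 78) (nat_lit 532) (nat_lit 0) (XT.lf (nat_lit 0) (nat_lit 4295468819) (nat_lit 684) (nat_lit 2336896242) (nat_lit 76) (nat_lit 3514299958) (nat_lit 215) (nat_lit 5) (nat_lit 224) (nat_lit 5) (nat_lit 216) (nat_lit 5) (nat_lit 451) (nat_lit 385) (nat_lit 304)) (XT.lf (nat_lit 0) (nat_lit 3795171092) (nat_lit 532) (nat_lit 3085850530) (nat_lit 608) (nat_lit 3374501878) (nat_lit 208) (nat_lit 5) (nat_lit 215) (nat_lit 5) (nat_lit 216) (nat_lit 5) (nat_lit 452) (nat_lit 385) (nat_lit 303))))) (XT.nd (nat_lit 156) (nat_lit 1064) (nat_lit 0) (XT.nd (nat_lit 78) (nat_lit 608) (nat_lit 0) (XT.lf (nat_lit 0) (nat_lit 9510904903) (nat_lit 608) (nat_lit 322650751) (nat_lit 76) (nat_lit 533161928) (nat_lit 208) (nat_lit 5) (nat_lit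 216) (nat_lit 5) (nat_lit 209) (nat_lit 5) (nat_lit 453) (nat_lit 385) (nat_lit 302)) (XT.lf (nat_lit 0) (nat_lit 1724037561) (nat_lit 608) (nat_lit 4529000553) (nat_lit 76) (nat_lit 4226220223) (nat_lit 200) (nat_lit 5) (nat_lit 208) (nat_lit 5) (nat_lit 201) (nat_lit 5) (nat_lit 454) (nat_lit 385) (nat_lit 301))) (XT.nd (nat_lit 78) (nat_lit 532) (nat_lit 0) (XT.lf (nat_lit 0) (nat_lit 1742294168) (nat_lit 532) (nat_lit 2589250835) (nat_lit 608) (nat_lit 6262651571) (nat_lit 193) (nat_lit 5) (nat_lit 200) (nat_lit 5) (nat_lit 201) (nat_lit 5) (nat_lit 455) (nat_lit 385) (nat_lit 300)) (XT.nd (nat_lit 78) (nat_lit 532) (nat_lit 0) (XT.lf (nat_lit 0) (nat_lit 7003504801) (nat_lit 608) (nat_lit 2552188055) (nat_lit 76) (nat_lit 1155504670) (nat_lit 193) (nat_lit 5) (nat_lit 201) (nat_lit 5) (nat_lit 194) (nat_lit 5) (nat_lit 456) (nat_lit 385) (nat_lit 299)) (XT.lf (nat_lit 0) (nat_lit 3873731571) (nat_lit 532)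 (nat_lit 5872231789) (nat_lit 608) (nat_lit 1084243748) (nat_lit 186) (nat_lit 5) (nat_lit 193) (nat_lit 5) (nat_lit 194) (nat_lit 5) (nat_lit 457) (nat_lit 385) (nat_lit 298)))))) (XT.nd (nat_lit 390) (nat_lit 1444) (nat_lit 0) (XT.nd (nat_lit 156) (nat_lit 1064) (nat_lit 0) (XT.nd (nat_lit 78) (nat_lit 456) (nat_lit 0) (XT.lf (nat_lit 0) (nat_lit 1562904806) (nat_lit 608) (nat_lit 532506544) (nat_lit 76) (nat_lit 8856146151) (nat_lit 185) (nat_lit 5) (nat_lit 193) (nat_lit 5) (nat_lit 186) (nat_lit 5) (nat_lit 458) (nat_lit 385) (nat_lit 297)) (XT.lf (nat_lit 0) (nat_lit 4274853221) (nat_lit 532) (nat_lit 5027249233) (nat_lit 76) (nat_lit 1772570849) (nat_lit 179) (nat_lit 5) (nat_lit 186) (nat_lit 5) (nat_lit 180) (nat_lit 5) (nat_lit 459) (nat_lit 385) (nat_lit 296))) (XT.nd (nat_lit 78) (nat_lit 532) (nat_lit 0) (XT.lf (nat_lit 0) (nat_lit 1539139742) (nat_lit 532) (nat_lit 5504943351) (nat_lit 608) (nat_lit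 4156116531) (nat_lit 172) (nat_lit 5) (nat_lit 179) (nat_lit 5) (nat_lit 180) (nat_lit 5) (nat_lit 460) (nat_lit 385) (nat_lit 295)) (XT.nd (nat_lit 78) (nat_lit 532) (nat_lit 0) (XT.lf (nat_lit 0) (nat_lit 8272082791) (nat_lit 532) (nat_lit 1606190854) (nat_lit 608) (nat_lit 1449780182) (nat_lit 172) (nat_lit 5) (nat_lit 179) (nat_lit 5) (nat_lit 180) (nat_lit 5) (nat_lit 461) (nat_lit 385) (nat_lit 294)) (XT.lf (nat_lit 0) (nat_lit 1309139255) (nat_lit 532) (nat_lit 7785365260) (nat_lit 76) (nat_lit 2363486008) (nat_lit 165) (nat_lit 5) (nat_lit 172) (nat_lit 5) (nat_lit 166) (nat_lit 5) (nat_lit 462) (nat_lit 385) (nat_lit 293))))) (XT.nd (nat_lit 156) (nat_lit 988) (nat_lit 0) (XT.nd (nat_lit 78) (nat_lit 456) (nat_lit 0) (XT.lf (nat_lit 0) (nat_lit 4111471866) (nat_lit 532) (nat_lit 1066079963) (nat_lit 76) (nat_lit 6412637882) (nat_lit 165) (nat_lit 5) (nat_lit 172) (nat_lit 5) (nat_lit 166) (nat_lit 5)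 (nat_lit 463) (nat_lit 385) (nat_lit 292)) (XT.lf (nat_lit 0) (nat_lit 5831912815) (nat_lit 456) (nat_lit 1152615888) (nat_lit 532) (nat_lit 4740218828) (nat_lit 159) (nat_lit 5) (nat_lit 165) (nat_lit 5) (nat_lit 166) (nat_lit 5) (nat_lit 464) (nat_lit 385) (nat_lit 291))) (XT.nd (nat_lit 78) (nat_lit 532) (nat_lit 0) (XT.lf (nat_lit 0) (nat_lit 981758402) (nat_lit 456) (nat_lit 8943037088) (nat_lit 532) (nat_lit 1937014079) (nat_lit 153) (nat_lit 5) (nat_lit 159) (nat_lit 5) (nat_lit 160) (nat_lit 5) (nat_lit 465) (nat_lit 385) (nat_lit 290)) (XT.nd (nat_lit 78) (nat_lit 456) (nat_lit 0) (XT.lf (nat_lit 0) (nat_lit 934683678) (nat_lit 532) (nat_lit 3973443511) (nat_lit 76) (nat_lit 7092883139) (nat_lit 152) (nat_lit 5) (nat_lit 159) (nat_lit 5) (nat_lit 153) (nat_lit 5) (nat_lit 466) (nat_lit 385) (nat_lit 289)) (XT.lf (nat_lit 0) (nat_lit 3066866520) (nat_lit 456) (nat_lit 768483268) (nat_lit 532) (nat_lit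 8307447398) (nat_lit 146) (nat_lit 5) (nat_lit 152) (nat_lit 5) (nat_lit 153) (nat_lit 5) (nat_lit 467) (nat_lit 385) (nat_lit 288))))))) (XT.nd (nat_lit 780) (nat_lit 2128) (nat_lit 0) (XT.nd (nat_lit 390) (nat_lit 1216) (nat_lit 0) (XT.nd (nat_lit 156) (nat_lit 912) (nat_lit 0) (XT.nd (nat_lit 78) (nat_lit 380) (nat_lit 0) (XT.lf (nat_lit 0) (nat_lit 6821003996) (nat_lit 532) (nat_lit 2039650718) (nat_lit 76) (nat_lit 3426232999) (nat_lit 146) (nat_lit 5) (nat_lit 153) (nat_lit 5) (nat_lit 147) (nat_lit 5) (nat_lit 468) (nat_lit 385) (nat_lit 287)) (XT.lf (nat_lit 0) (nat_lit 5168675109) (nat_lit 380) (nat_lit 4714489955) (nat_lit 456) (nat_lit 2550366391) (nat_lit 141) (nat_lit 5) (nat_lit 146) (nat_lit 5) (nat_lit 147) (nat_lit 5) (nat_lit 469) (nat_lit 385) (nat_lit 286))) (XT.nd (nat_lit 78) (nat_lit 836) (nat_lit 0) (XT.lf (nat_lit 0) (nat_lit 409907144) (nat_lit 456) (nat_lit 68327420) (nat_lit 76) (nat_lit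 12104985526) (nat_lit 140) (nat_lit 5) (nat_lit 146) (nat_lit 5) (nat_lit 141) (nat_lit 5) (nat_lit 470) (nat_lit 385) (nat_lit 285)) (XT.nd (nat_lit 78) (nat_lit 380) (nat_lit 0) (XT.lf (nat_lit 0) (nat_lit 3446761023) (nat_lit 532) (nat_lit 5439963485) (nat_lit 76) (nat_lit 3847817207) (nat_lit 134) (nat_lit 5) (nat_lit 141) (nat_lit 5) (nat_lit 135) (nat_lit 5) (nat_lit 471) (nat_lit 385) (nat_lit 284)) (XT.lf (nat_lit 0) (nat_lit 1907620139) (nat_lit 380) (nat_lit 4631552793) (nat_lit 456) (nat_lit 6349827150) (nat_lit 129) (nat_lit 5) (nat_lit 134) (nat_lit 5) (nat_lit 135) (nat_lit 5) (nat_lit 472) (nat_lit 385) (nat_lit 283))))) (XT.nd (nat_lit 156) (nat_lit 836) (nat_lit 0) (XT.nd (nat_lit 78) (nat_lit 380) (nat_lit 0) (XT.lf (nat_lit 0) (nat_lit 9445083549) (nat_lit 380) (nat_lit 263876800) (nat_lit 456) (nat_lit 3337283315) (nat_lit 129) (nat_lit 5) (nat_lit 134) (nat_lit 5) (nat_lit 135) (nat_lit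 5) (nat_lit 473) (nat_lit 385) (nat_lit 282)) (XT.lf (nat_lit 0) (nat_lit 3920304805) (nat_lit 380) (nat_lit 9053874655) (nat_lit 456) (nat_lit 231818405) (nat_lit 124) (nat_lit 5) (nat_lit 129) (nat_lit 5) (nat_lit 130) (nat_lit 5) (nat_lit 474) (nat_lit 385) (nat_lit 281))) (XT.nd (nat_lit 78) (nat_lit 760) (nat_lit 0) (XT.lf (nat_lit 0) (nat_lit 2902762927) (nat_lit 456) (nat_lit 1779060056) (nat_lit 76) (nat_lit 8686638964) (nat_lit 123) (nat_lit 5) (nat_lit 129) (nat_lit 5) (nat_lit 124) (nat_lit 5) (nat_lit 475) (nat_lit 385) (nat_lit 280)) (XT.nd (nat_lit 78) (nat_lit 380) (nat_lit 0) (XT.lf (nat_lit 0) (nat_lit 5923821710) (nat_lit 380) (nat_lit 191414452) (nat_lit 456) (nat_lit 7418548507) (nat_lit 118) (nat_lit 5) (nat_lit 123) (nat_lit 5) (nat_lit 124) (nat_lit 5) (nat_lit 476) (nat_lit 385) (nat_lit 279)) (XT.lf (nat_lit 0) (nat_lit 44527578) (nat_lit 380) (nat_lit 9368210293) (nat_lit 456) (nat_lit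 4289266368) (nat_lit 113) (nat_lit 5) (nat_lit 118) (nat_lit 5) (nat_lit 119) (nat_lit 5) (nat_lit 477) (nat_lit 385) (nat_lit 278)))))) (XT.nd (nat_lit 390) (nat_lit 1368) (nat_lit 0) (XT.nd (nat_lit 156) (nat_lit 380) (nat_lit 0) (XT.nd (nat_lit 78) (nat_lit 380) (nat_lit 0) (XT.lf (nat_lit 0) (nat_lit 7923993074) (nat_lit 380) (nat_lit 4884698016) (nat_lit 456) (nat_lit 1064252937) (nat_lit 113) (nat_lit 5) (nat_lit 118) (nat_lit 5) (nat_lit 119) (nat_lit 5) (nat_lit 478) (nat_lit 385) (nat_lit 277)) (XT.lf (nat_lit 0) (nat_lit 1894480680) (nat_lit 304) (nat_lit 294325262) (nat_lit 380) (nat_lit 11858358743) (nat_lit 108) (nat_lit 5) (nat_lit 112) (nat_lit 5) (nat_lit 113) (nat_lit 5) (nat_lit 479) (nat_lit 385) (nat_lit 276))) (XT.nd (nat_lit 78) (nat_lit 380) (nat_lit 0) (XT.lf (nat_lit 0) (nat_lit 5541919354) (nat_lit 380) (nat_lit 4314247659) (nat_lit 76) (nat_lit 4367582694) (nat_lit 108) (nat_lit 5)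 (nat_lit 113) (nat_lit 5) (nat_lit 109) (nat_lit 5) (nat_lit 480) (nat_lit 385) (nat_lit 275)) (XT.nd (nat_lit 78) (nat_lit 0) (nat_lit 0) (XT.lf (nat_lit 0) (nat_lit 3698300762) (nat_lit 380) (nat_lit 5270693057) (nat_lit 456) (nat_lit 5434740043) (nat_lit 103) (nat_lit 5) (nat_lit 108) (nat_lit 5) (nat_lit 109) (nat_lit 5) (nat_lit 481) (nat_lit 385) (nat_lit 274)) (XT.lf (nat_lit 0) (nat_lit 11900561735) (nat_lit 380) (nat_lit 574122059) (nat_lit 456) (nat_lit 2112437731) (nat_lit 103) (nat_lit 5) (nat_lit 108) (nat_lit 5) (nat_lit 109) (nat_lit 5) (nat_lit 482) (nat_lit 385) (nat_lit 273))))) (XT.nd (nat_lit 234) (nat_lit 684) (nat_lit 0) (XT.nd (nat_lit 78) (nat_lit 304) (nat_lit 0) (XT.lf (nat_lit 0) (nat_lit 1304432690) (nat_lit 380) (nat_lit 9273069069) (nat_lit 76) (nat_lit 4195617325) (nat_lit 98) (nat_lit 5) (nat_lit 103) (nat_lit 5) (nat_lit 99) (nat_lit 5) (nat_lit 483) (nat_lit 385) (nat_lit 272))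 (XT.nd (nat_lit 78) (nat_lit 304) (nat_lit 0) (XT.lf (nat_lit 0) (nat_lit 4764811698) (nat_lit 380) (nat_lit 1122401011) (nat_lit 76) (nat_lit 9075280485) (nat_lit 98) (nat_lit 5) (nat_lit 103) (nat_lit 5) (nat_lit 99) (nat_lit 5) (nat_lit 484) (nat_lit 385) (nat_lit 271)) (XT.lf (nat_lit 0) (nat_lit 7258215517) (nat_lit 304) (nat_lit 1065151566) (nat_lit 380) (nat_lit 6831713228) (nat_lit 94) (nat_lit 5) (nat_lit 98) (nat_lit 5) (nat_lit 99) (nat_lit 5) (nat_lit 485) (nat_lit 385) (nat_lit 270)))) (XT.nd (nat_lit 78) (nat_lit 380) (nat_lit 0) (XT.lf (nat_lit 0) (nat_lit 422390892) (nat_lit 304) (nat_lit 11547997306) (nat_lit 380) (nat_lit 3380789882) (nat_lit 90) (nat_lit 5) (nat_lit 94) (nat_lit 5) (nat_lit 95) (nat_lit 5) (nat_lit 486) (nat_lit 385) (nat_lit 269)) (XT.nd (nat_lit 78) (nat_lit 304) (nat_lit 0) (XT.lf (nat_lit 0) (nat_lit 179723714) (nat_lit 380) (nat_lit 6571798501) (nat_lit 76) (nat_lit 8798814204)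 (nat_lit 89) (nat_lit 5) (nat_lit 94) (nat_lit 5) (nat_lit 90) (nat_lit 5) (nat_lit 487) (nat_lit 385) (nat_lit 268)) (XT.lf (nat_lit 0) (nat_lit 1927347626) (nat_lit 304) (nat_lit 1833739806) (nat_lit 380) (nat_lit 11992049906) (nat_lit 85) (nat_lit 5) (nat_lit 89) (nat_lit 5) (nat_lit 90) (nat_lit 5) (nat_lit 488) (nat_lit 385) (nat_lit 267))))))))
noncomputable def xc113 : XT := (XT.nd (nat_lit 51792) (nat_lit 0) (nat_lit 35264) (XT.nd (nat_lit 780) (nat_lit 760) (nat_lit 0) (XT.nd (nat_lit 390) (nat_lit 836) (nat_lit 0) (XT.nd (nat_lit 156) (nat_lit 380) (nat_lit 0) (XT.nd (nat_lit 78) (nat_lit 228) (nat_lit 0) (XT.lf (nat_lit 0) (nat_lit 7461585634) (nat_lit 380) (nat_lit 5322482376) (nat_lit 76) (nat_lit 3174980559) (nat_lit 85) (nat_lit 5) (nat_lit 90) (nat_lit 5) (nat_lit 86) (nat_lit 5) (nat_lit 489) (nat_lit 385) (nat_lit 266)) (XT.lf (nat_lit 0) (nat_lit 3355326428) (nat_lit 228) (nat_lit 7897493102)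 (nat_lit 304) (nat_lit 4915928333) (nat_lit 82) (nat_lit 5) (nat_lit 85) (nat_lit 5) (nat_lit 86) (nat_lit 5) (nat_lit 490) (nat_lit 385) (nat_lit 265))) (XT.nd (nat_lit 78) (nat_lit 380) (nat_lit 0) (XT.lf (nat_lit 0) (nat_lit 12251593079) (nat_lit 228) (nat_lit 2886958854) (nat_lit 304) (nat_lit 1243719997) (nat_lit 82) (nat_lit 5) (nat_lit 85) (nat_lit 5) (nat_lit 86) (nat_lit 5) (nat_lit 491) (nat_lit 385) (nat_lit 264)) (XT.nd (nat_lit 78) (nat_lit 0) (nat_lit 0) (XT.lf (nat_lit 0) (nat_lit 2497786131) (nat_lit 380) (nat_lit 11869386864) (nat_lit 76) (nat_lit 2231999362) (nat_lit 77) (nat_lit 5) (nat_lit 82) (nat_lit 5) (nat_lit 78) (nat_lit 5) (nat_lit 492) (nat_lit 385) (nat_lit 263)) (XT.lf (nat_lit 0) (nat_lit 6327773207) (nat_lit 380) (nat_lit 3050977916) (nat_lit 76) (nat_lit 7440893186) (nat_lit 77) (nat_lit 5) (nat_lit 82) (nat_lit 5) (nat_lit 78) (nat_lit 5) (nat_lit 493) (nat_lit 385) (nat_lit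 262))))) (XT.nd (nat_lit 156) (nat_lit 608) (nat_lit 0) (XT.nd (nat_lit 78) (nat_lit 0) (nat_lit 0) (XT.lf (nat_lit 0) (nat_lit 5995933020) (nat_lit 228) (nat_lit 4260951809) (nat_lit 304) (nat_lit 6787194315) (nat_lit 74) (nat_lit 5) (nat_lit 77) (nat_lit 5) (nat_lit 78) (nat_lit 5) (nat_lit 494) (nat_lit 385) (nat_lit 261)) (XT.lf (nat_lit 0) (nat_lit 14275096250) (nat_lit 304) (nat_lit 2040410682) (nat_lit 76) (nat_lit 957289255) (nat_lit 74) (nat_lit 5) (nat_lit 78) (nat_lit 5) (nat_lit 75) (nat_lit 5) (nat_lit 495) (nat_lit 385) (nat_lit 260))) (XT.nd (nat_lit 78) (nat_lit 228) (nat_lit 0) (XT.lf (nat_lit 0) (nat_lit 915476488) (nat_lit 380) (nat_lit 10323482201) (nat_lit 76) (nat_lit 6265834525) (nat_lit 69) (nat_lit 5) (nat_lit 74) (nat_lit 5) (nat_lit 70) (nat_lit 5) (nat_lit 496) (nat_lit 385) (nat_lit 259)) (XT.nd (nat_lit 78) (nat_lit 228) (nat_lit 0) (XT.lf (nat_lit 0) (nat_lit 4864635082) (nat_lit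 380) (nat_lit 1172089793) (nat_lit 76) (nat_lit 11704355494) (nat_lit 69) (nat_lit 5) (nat_lit 74) (nat_lit 5) (nat_lit 70) (nat_lit 5) (nat_lit 497) (nat_lit 385) (nat_lit 258)) (XT.lf (nat_lit 0) (nat_lit 8244859445) (nat_lit 228) (nat_lit 685798905) (nat_lit 304) (nat_lit 9050680858) (nat_lit 66) (nat_lit 5) (nat_lit 69) (nat_lit 5) (nat_lit 70) (nat_lit 5) (nat_lit 498) (nat_lit 385) (nat_lit 257)))))) (XT.nd (nat_lit 50544) (nat_lit 0) (nat_lit 43776) (XT.nd (nat_lit 156) (nat_lit 532) (nat_lit 0) (XT.nd (nat_lit 78) (nat_lit 228) (nat_lit 0) (XT.lf (nat_lit 0) (nat_lit 13101331106) (nat_lit 304) (nat_lit 416930871) (nat_lit 76) (nat_lit 4707678163) (nat_lit 66) (nat_lit 5) (nat_lit 70) (nat_lit 5) (nat_lit 67) (nat_lit 5) (nat_lit 499) (nat_lit 385) (nat_lit 256)) (XT.lf (nat_lit 0) (nat_lit 9179679461) (nat_lit 228) (nat_lit 8224613138) (nat_lit 304) (nat_lit 1070166419) (nat_lit 63) (nat_lit 5) (nat_lit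 66) (nat_lit 5) (nat_lit 67) (nat_lit 5) (nat_lit 500) (nat_lit 385) (nat_lit 255))) (XT.nd (nat_lit 78) (nat_lit 228) (nat_lit 0) (XT.lf (nat_lit 0) (nat_lit 203508380) (nat_lit 228) (nat_lit 2810557939) (nat_lit 304) (nat_lit 15713709122) (nat_lit 59) (nat_lit 5) (nat_lit 62) (nat_lit 5) (nat_lit 63) (nat_lit 5) (nat_lit 501) (nat_lit 385) (nat_lit 254)) (XT.nd (nat_lit 78) (nat_lit 228) (nat_lit 0) (XT.lf (nat_lit 0) (nat_lit 7230897964) (nat_lit 304) (nat_lit 9017558052) (nat_lit 76) (nat_lit 2736259059) (nat_lit 59) (nat_lit 5) (nat_lit 63) (nat_lit 5) (nat_lit 60) (nat_lit 5) (nat_lit 502) (nat_lit 385) (nat_lit 253)) (XT.lf (nat_lit 0) (nat_lit 644322921) (nat_lit 228) (nat_lit 10895674747) (nat_lit 304) (nat_lit 7706640374) (nat_lit 56) (nat_lit 5) (nat_lit 59) (nat_lit 5) (nat_lit 60) (nat_lit 5) (nat_lit 503) (nat_lit 385) (nat_lit 252))))) (XT.nd (nat_lit 234) (nat_lit 1140) (nat_lit 0) (XT.nd (nat_lit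 78) (nat_lit 0) (nat_lit 0) (XT.lf (nat_lit 0) (nat_lit 707148534) (nat_lit 532) (nat_lit 1274462062) (nat_lit 532) (nat_lit 1274462062) (nat_lit 647) (nat_lit 3) (nat_lit 654) (nat_lit 3) (nat_lit 654) (nat_lit 5) (nat_lit 386) (nat_lit 386) (nat_lit 368)) (XT.nd (nat_lit 78) (nat_lit 0) (nat_lit 0) (XT.lf (nat_lit 76) (nat_lit 558516669) (nat_lit 0) (nat_lit 3403301901) (nat_lit 532) (nat_lit 2562646448) (nat_lit 648) (nat_lit 5) (nat_lit 647) (nat_lit 3) (nat_lit 654) (nat_lit 5) (nat_lit 387) (nat_lit 386) (nat_lit 367)) (XT.lf (nat_lit 76) (nat_lit 3728337797) (nat_lit 0) (nat_lit 2782478189) (nat_lit 532) (nat_lit 27260596) (nat_lit 648) (nat_lit 5) (nat_lit 647) (nat_lit 3) (nat_lit 654) (nat_lit 5) (nat_lit 388) (nat_lit 386) (nat_lit 366)))) (XT.nd (nat_lit 78) (nat_lit 608) (nat_lit 0) (XT.lf (nat_lit 76) (nat_lit 363169758) (nat_lit 0) (nat_lit 2098701492) (nat_lit 608) (nat_lit 4091078705) (nat_lit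 641) (nat_lit 5) (nat_lit 640) (nat_lit 5) (nat_lit 648) (nat_lit 5) (nat_lit 389) (nat_lit 386) (nat_lit 365)) (XT.nd (nat_lit 78) (nat_lit 608) (nat_lit 0) (XT.lf (nat_lit 76) (nat_lit 3603093148) (nat_lit 0) (nat_lit 1351487853) (nat_lit 608) (nat_lit 1614505738) (nat_lit 641) (nat_lit 5) (nat_lit 640) (nat_lit 5) (nat_lit 648) (nat_lit 5) (nat_lit 390) (nat_lit 386) (nat_lit 364)) (XT.lf (nat_lit 76) (nat_lit 285521187) (nat_lit 0) (nat_lit 552079249) (nat_lit 684) (nat_lit 5749118999) (nat_lit 633) (nat_lit 5) (nat_lit 632) (nat_lit 5) (nat_lit 641) (nat_lit 5) (nat_lit 391) (nat_lit 386) (nat_lit 363))))))) (XT.nd (nat_lit 780) (nat_lit 6384) (nat_lit 0) (XT.nd (nat_lit 390) (nat_lit 1520) (nat_lit 0) (XT.nd (nat_lit 156) (nat_lit 684) (nat_lit 0) (XT.nd (nat_lit 78) (nat_lit 0) (nat_lit 0) (XT.lf (nat_lit 0) (nat_lit 3276214309) (nat_lit 608) (nat_lit 3010407438) (nat_lit 684) (nat_lit 318737633) (nat_lit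 633) (nat_lit 5) (nat_lit 641) (nat_lit 5) (nat_lit 642) (nat_lit 5) (nat_lit 392) (nat_lit 386) (nat_lit 362)) (XT.lf (nat_lit 76) (nat_lit 311492756) (nat_lit 0) (nat_lit 5396334098) (nat_lit 684) (nat_lit 917709478) (nat_lit 634) (nat_lit 5) (nat_lit 633) (nat_lit 5) (nat_lit 642) (nat_lit 5) (nat_lit 393) (nat_lit 386) (nat_lit 361))) (XT.nd (nat_lit 78) (nat_lit 0) (nat_lit 0) (XT.lf (nat_lit 0) (nat_lit 1481145517) (nat_lit 684) (nat_lit 2950981013) (nat_lit 760) (nat_lit 2214648631) (nat_lit 624) (nat_lit 5) (nat_lit 633) (nat_lit 5) (nat_lit 634) (nat_lit 5) (nat_lit 394) (nat_lit 386) (nat_lit 360)) (XT.nd (nat_lit 78) (nat_lit 0) (nat_lit 0) (XT.lf (nat_lit 76) (nat_lit 444029107) (nat_lit 0) (nat_lit 3414827837) (nat_lit 760) (nat_lit 2810643078) (nat_lit 625) (nat_lit 5) (nat_lit 624) (nat_lit 5) (nat_lit 634) (nat_lit 5) (nat_lit 395) (nat_lit 386) (nat_lit 359)) (XT.lf (nat_lit 76) (nat_lit 3912111742)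 (nat_lit 0) (nat_lit 2333031519) (nat_lit 760) (nat_lit 448360727) (nat_lit 625) (nat_lit 5) (nat_lit 624) (nat_lit 5) (nat_lit 634) (nat_lit 5) (nat_lit 396) (nat_lit 386) (nat_lit 358))))) (XT.nd (nat_lit 156) (nat_lit 760) (nat_lit 0) (XT.nd (nat_lit 78) (nat_lit 0) (nat_lit 76) (XT.lf (nat_lit 76) (nat_lit 692962240) (nat_lit 0) (nat_lit 1188928539) (nat_lit 836) (nat_lit 4836956973) (nat_lit 615) (nat_lit 5) (nat_lit 614) (nat_lit 5) (nat_lit 625) (nat_lit 5) (nat_lit 397) (nat_lit 386) (nat_lit 357)) (XT.lf (nat_lit 0) (nat_lit 4214398858) (nat_lit 760) (nat_lit 2508830835) (nat_lit 836) (nat_lit 22218752) (nat_lit 615) (nat_lit 5) (nat_lit 625) (nat_lit 5) (nat_lit 626) (nat_lit 5) (nat_lit 398) (nat_lit 386) (nat_lit 356))) (XT.nd (nat_lit 78) (nat_lit 836) (nat_lit 0) (XT.lf (nat_lit 76) (nat_lit 1049095765) (nat_lit 0) (nat_lit 5503267766) (nat_lit 836) (nat_lit 221083084) (nat_lit 616) (nat_lit 5)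 (nat_lit 615) (nat_lit 5) (nat_lit 626) (nat_lit 5) (nat_lit 399) (nat_lit 386) (nat_lit 355)) (XT.nd (nat_lit 78) (nat_lit 0) (nat_lit 0) (XT.lf (nat_lit 0) (nat_lit 2068612205) (nat_lit 836) (nat_lit 2139351524) (nat_lit 912) (nat_lit 2594573123) (nat_lit 604) (nat_lit 5) (nat_lit 615) (nat_lit 5) (nat_lit 616) (nat_lit 5) (nat_lit 400) (nat_lit 386) (nat_lit 354)) (XT.lf (nat_lit 76) (nat_lit 1500366751) (nat_lit 0) (nat_lit 2856189451) (nat_lit 912) (nat_lit 2476554358) (nat_lit 605) (nat_lit 5) (nat_lit 604) (nat_lit 5) (nat_lit 616) (nat_lit 5) (nat_lit 401) (nat_lit 386) (nat_lit 353)))))) (XT.nd (nat_lit 390) (nat_lit 4560) (nat_lit 0) (XT.nd (nat_lit 156) (nat_lit 988) (nat_lit 0) (XT.nd (nat_lit 78) (nat_lit 836) (nat_lit 0) (XT.lf (nat_lit 76) (nat_lit 5206915919) (nat_lit 0) (nat_lit 1444208570) (nat_lit 912) (nat_lit 213992371) (nat_lit 605) (nat_lit 5) (nat_lit 604) (nat_lit 5) (nat_lit 616) (nat_lit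 5) (nat_lit 402) (nat_lit 386) (nat_lit 352)) (XT.lf (nat_lit 0) (nat_lit 2027231410) (nat_lit 912) (nat_lit 4830236278) (nat_lit 76) (nat_lit 40843215) (nat_lit 593) (nat_lit 5) (nat_lit 605) (nat_lit 5) (nat_lit 594) (nat_lit 5) (nat_lit 403) (nat_lit 386) (nat_lit 351))) (XT.nd (nat_lit 78) (nat_lit 988) (nat_lit 0) (XT.lf (nat_lit 0) (nat_lit 4279277802) (nat_lit 912) (nat_lit 1087622787) (nat_lit 76) (nat_lit 1565898888) (nat_lit 593) (nat_lit 5) (nat_lit 605) (nat_lit 5) (nat_lit 594) (nat_lit 5) (nat_lit 404) (nat_lit 386) (nat_lit 350)) (XT.nd (nat_lit 78) (nat_lit 76) (nat_lit 0) (XT.lf (nat_lit 0) (nat_lit 2730383414) (nat_lit 912) (nat_lit 3812822330) (nat_lit 988) (nat_lit 425470768) (nat_lit 581) (nat_lit 5) (nat_lit 593) (nat_lit 5) (nat_lit 594) (nat_lit 5) (nat_lit 405) (nat_lit 386) (nat_lit 349)) (XT.lf (nat_lit 0) (nat_lit 1779779640) (nat_lit 988) (nat_lit 413415570) (nat_lit 76) (nat_lit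 4812732860) (nat_lit 580) (nat_lit 5) (nat_lit 593) (nat_lit 5) (nat_lit 581) (nat_lit 5) (nat_lit 406) (nat_lit 386) (nat_lit 348))))) (XT.nd (nat_lit 234) (nat_lit 2432) (nat_lit 0) (XT.nd (nat_lit 78) (nat_lit 1140) (nat_lit 0) (XT.lf (nat_lit 0) (nat_lit 3495950659) (nat_lit 988) (nat_lit 500697772) (nat_lit 1064) (nat_lit 3047789224) (nat_lit 567) (nat_lit 5) (nat_lit 580) (nat_lit 5) (nat_lit 581) (nat_lit 5) (nat_lit 407) (nat_lit 386) (nat_lit 347)) (XT.nd (nat_lit 78) (nat_lit 76) (nat_lit 0) (XT.lf (nat_lit 0) (nat_lit 366366168) (nat_lit 1064) (nat_lit 5855959465) (nat_lit 1140) (nat_lit 862135176) (nat_lit 553) (nat_lit 5) (nat_lit 567) (nat_lit 5) (nat_lit 568) (nat_lit 5) (nat_lit 408) (nat_lit 386) (nat_lit 346)) (XT.lf (nat_lit 0) (nat_lit 1328301535) (nat_lit 1140) (nat_lit 2765887530) (nat_lit 76) (nat_lit 3031369323) (nat_lit 552) (nat_lit 5) (nat_lit 567) (nat_lit 5) (nat_lit 553) (nat_lit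 5) (nat_lit 409) (nat_lit 386) (nat_lit 345)))) (XT.nd (nat_lit 78) (nat_lit 1292) (nat_lit 0) (XT.lf (nat_lit 0) (nat_lit 1240287609) (nat_lit 1140) (nat_lit 2271440987) (nat_lit 1216) (nat_lit 3656451742) (nat_lit 537) (nat_lit 5) (nat_lit 552) (nat_lit 5) (nat_lit 553) (nat_lit 5) (nat_lit 410) (nat_lit 386) (nat_lit 344)) (XT.nd (nat_lit 78) (nat_lit 1292) (nat_lit 0) (XT.lf (nat_lit 0) (nat_lit 5328679812) (nat_lit 1140) (nat_lit 382065355) (nat_lit 1216) (nat_lit 1501501440) (nat_lit 537) (nat_lit 5) (nat_lit 552) (nat_lit 5) (nat_lit 553) (nat_lit 5) (nat_lit 411) (nat_lit 386) (nat_lit 343)) (XT.lf (nat_lit 0) (nat_lit 666067896) (nat_lit 1292) (nat_lit 5036953747) (nat_lit 76) (nat_lit 1554538122) (nat_lit 520) (nat_lit 5) (nat_lit 537) (nat_lit 5) (nat_lit 521) (nat_lit 5) (nat_lit 412) (nat_lit 386) (nat_lit 342))))))))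
noncomputable def xc114 : XT := (XT.nd (nat_lit 1560) (nat_lit 8360) (nat_lit 0) (XT.nd (nat_lit 780) (nat_lit 6308) (nat_lit 0) (XT.nd (nat_lit 390) (nat_lit 4864) (nat_lit 0) (XT.nd (nat_lit 156) (nat_lit 2888) (nat_lit 0) (XT.nd (nat_lit 78) (nat_lit 1292) (nat_lit 0) (XT.lf (nat_lit 0) (nat_lit 2826840529) (nat_lit 1292) (nat_lit 919805726) (nat_lit 76) (nat_lit 3557563847) (nat_lit 520) (nat_lit 5) (nat_lit 537) (nat_lit 5) (nat_lit 521) (nat_lit 5) (nat_lit 413) (nat_lit 386) (nat_lit 341)) (XT.lf (nat_lit 0) (nat_lit 3287391945) (nat_lit 1292) (nat_lit 1720353688) (nat_lit 1368) (nat_lit 2344537462) (nat_lit 503) (nat_lit 5) (nat_lit 520) (nat_lit 5) (nat_lit 521) (nat_lit 5) (nat_lit 414) (nat_lit 386) (nat_lit 340))) (XT.nd (nat_lit 78) (nat_lit 1520) (nat_lit 0) (XT.lf (nat_lit 0) (nat_lit 153597662) (nat_lit 1368) (nat_lit 7044402896) (nat_lit 1444) (nat_lit 204029799) (nat_lit 485) (nat_lit 5) (nat_lit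 503) (nat_lit 5) (nat_lit 504) (nat_lit 5) (nat_lit 415) (nat_lit 386) (nat_lit 339)) (XT.nd (nat_lit 78) (nat_lit 1444) (nat_lit 0) (XT.lf (nat_lit 0) (nat_lit 1948764642) (nat_lit 1444) (nat_lit 3001594408) (nat_lit 76) (nat_lit 2502274168) (nat_lit 484) (nat_lit 5) (nat_lit 503) (nat_lit 5) (nat_lit 485) (nat_lit 5) (nat_lit 416) (nat_lit 386) (nat_lit 338)) (XT.lf (nat_lit 0) (nat_lit 1310229280) (nat_lit 1444) (nat_lit 2797598526) (nat_lit 1520) (nat_lit 3397100321) (nat_lit 465) (nat_lit 5) (nat_lit 484) (nat_lit 5) (nat_lit 485) (nat_lit 5) (nat_lit 417) (nat_lit 386) (nat_lit 337))))) (XT.nd (nat_lit 156) (nat_lit 3268) (nat_lit 0) (XT.nd (nat_lit 78) (nat_lit 1596) (nat_lit 0) (XT.lf (nat_lit 0) (nat_lit 5713428199) (nat_lit 1444) (nat_lit 574825470) (nat_lit 1520) (nat_lit 1270476989) (nat_lit 465) (nat_lit 5) (nat_lit 484) (nat_lit 5) (nat_lit 485) (nat_lit 5) (nat_lit 418) (nat_lit 386) (nat_lit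 336)) (XT.lf (nat_lit 0) (nat_lit 873409507) (nat_lit 1596) (nat_lit 5041480885) (nat_lit 76) (nat_lit 1698896180) (nat_lit 444) (nat_lit 5) (nat_lit 465) (nat_lit 5) (nat_lit 445) (nat_lit 5) (nat_lit 419) (nat_lit 386) (nat_lit 335))) (XT.nd (nat_lit 78) (nat_lit 3268) (nat_lit 0) (XT.lf (nat_lit 0) (nat_lit 3018635334) (nat_lit 1596) (nat_lit 614790144) (nat_lit 76) (nat_lit 4036864594) (nat_lit 444) (nat_lit 5) (nat_lit 465) (nat_lit 5) (nat_lit 445) (nat_lit 5) (nat_lit 420) (nat_lit 386) (nat_lit 334)) (XT.nd (nat_lit 78) (nat_lit 1672) (nat_lit 0) (XT.lf (nat_lit 0) (nat_lit 3916435234) (nat_lit 1596) (nat_lit 1275744455) (nat_lit 1672) (nat_lit 2536059095) (nat_lit 423) (nat_lit 5) (nat_lit 444) (nat_lit 5) (nat_lit 445) (nat_lit 5) (nat_lit 421) (nat_lit 386) (nat_lit 333)) (XT.lf (nat_lit 0) (nat_lit 725540802) (nat_lit 1672) (nat_lit 6660419011) (nat_lit 1748) (nat_lit 401874322) (nat_lit 401) (nat_lit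 5) (nat_lit 423) (nat_lit 5) (nat_lit 424) (nat_lit 5) (nat_lit 422) (nat_lit 386) (nat_lit 332)))))) (XT.nd (nat_lit 390) (nat_lit 2508) (nat_lit 0) (XT.nd (nat_lit 156) (nat_lit 1976) (nat_lit 0) (XT.nd (nat_lit 78) (nat_lit 1748) (nat_lit 0) (XT.lf (nat_lit 0) (nat_lit 1746743882) (nat_lit 1748) (nat_lit 2499227659) (nat_lit 76) (nat_lit 3602540854) (nat_lit 400) (nat_lit 5) (nat_lit 423) (nat_lit 5) (nat_lit 401) (nat_lit 5) (nat_lit 423) (nat_lit 386) (nat_lit 331)) (XT.lf (nat_lit 0) (nat_lit 2145003928) (nat_lit 1748) (nat_lit 1763481104) (nat_lit 1824) (nat_lit 4002377064) (nat_lit 377) (nat_lit 5) (nat_lit 400) (nat_lit 5) (nat_lit 401) (nat_lit 5) (nat_lit 424) (nat_lit 386) (nat_lit 330))) (XT.nd (nat_lit 78) (nat_lit 1976) (nat_lit 0) (XT.lf (nat_lit 0) (nat_lit 6097473776) (nat_lit 1824) (nat_lit 1099354618) (nat_lit 76) (nat_lit 777971356) (nat_lit 377) (nat_lit 5) (nat_lit 401) (nat_lit 5) (nat_lit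 378) (nat_lit 5) (nat_lit 425) (nat_lit 386) (nat_lit 329)) (XT.nd (nat_lit 78) (nat_lit 912) (nat_lit 0) (XT.lf (nat_lit 0) (nat_lit 284721412) (nat_lit 1064) (nat_lit 4380542196) (nat_lit 76) (nat_lit 3374769219) (nat_lit 363) (nat_lit 5) (nat_lit 377) (nat_lit 5) (nat_lit 364) (nat_lit 5) (nat_lit 426) (nat_lit 386) (nat_lit 328)) (XT.lf (nat_lit 0) (nat_lit 378782028) (nat_lit 912) (nat_lit 2059118229) (nat_lit 988) (nat_lit 5668981560) (nat_lit 351) (nat_lit 5) (nat_lit 363) (nat_lit 5) (nat_lit 364) (nat_lit 5) (nat_lit 427) (nat_lit 386) (nat_lit 327))))) (XT.nd (nat_lit 156) (nat_lit 1672) (nat_lit 0) (XT.nd (nat_lit 78) (nat_lit 836) (nat_lit 0) (XT.lf (nat_lit 0) (nat_lit 4631241112) (nat_lit 988) (nat_lit 2922107113) (nat_lit 76) (nat_lit 621797192) (nat_lit 351) (nat_lit 5) (nat_lit 364) (nat_lit 5) (nat_lit 352) (nat_lit 5) (nat_lit 428) (nat_lit 386) (nat_lit 326)) (XT.lf (nat_lit 0) (nat_lit 1956524505)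 (nat_lit 836) (nat_lit 4902595187) (nat_lit 912) (nat_lit 1385860393) (nat_lit 340) (nat_lit 5) (nat_lit 351) (nat_lit 5) (nat_lit 352) (nat_lit 5) (nat_lit 429) (nat_lit 386) (nat_lit 325))) (XT.nd (nat_lit 78) (nat_lit 1596) (nat_lit 0) (XT.lf (nat_lit 0) (nat_lit 788939746) (nat_lit 912) (nat_lit 1384664733) (nat_lit 76) (nat_lit 6142833784) (nat_lit 339) (nat_lit 5) (nat_lit 351) (nat_lit 5) (nat_lit 340) (nat_lit 5) (nat_lit 430) (nat_lit 386) (nat_lit 324)) (XT.nd (nat_lit 78) (nat_lit 760) (nat_lit 0) (XT.lf (nat_lit 0) (nat_lit 2981622789) (nat_lit 912) (nat_lit 4773112388) (nat_lit 76) (nat_lit 634566453) (nat_lit 328) (nat_lit 5) (nat_lit 340) (nat_lit 5) (nat_lit 329) (nat_lit 5) (nat_lit 431) (nat_lit 386) (nat_lit 323)) (XT.lf (nat_lit 0) (nat_lit 225363784) (nat_lit 760) (nat_lit 4983704018) (nat_lit 836) (nat_lit 3254754048) (nat_lit 318) (nat_lit 5) (nat_lit 328) (nat_lit 5) (nat_lit 329) (nat_lit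 5) (nat_lit 432) (nat_lit 386) (nat_lit 322))))))) (XT.nd (nat_lit 780) (nat_lit 3800) (nat_lit 0) (XT.nd (nat_lit 390) (nat_lit 2204) (nat_lit 0) (XT.nd (nat_lit 156) (nat_lit 1520) (nat_lit 0) (XT.nd (nat_lit 78) (nat_lit 836) (nat_lit 0) (XT.lf (nat_lit 0) (nat_lit 5353215016) (nat_lit 760) (nat_lit 2126017242) (nat_lit 836) (nat_lit 1060654207) (nat_lit 318) (nat_lit 5) (nat_lit 328) (nat_lit 5) (nat_lit 329) (nat_lit 5) (nat_lit 433) (nat_lit 386) (nat_lit 321)) (XT.lf (nat_lit 0) (nat_lit 1146354074) (nat_lit 836) (nat_lit 6673992949) (nat_lit 76) (nat_lit 797299852) (nat_lit 307) (nat_lit 5) (nat_lit 318) (nat_lit 5) (nat_lit 308) (nat_lit 5) (nat_lit 434) (nat_lit 386) (nat_lit 320))) (XT.nd (nat_lit 78) (nat_lit 1520) (nat_lit 0) (XT.lf (nat_lit 0) (nat_lit 3385904254) (nat_lit 836) (nat_lit 1533496335) (nat_lit 76) (nat_lit 3777386007) (nat_lit 307) (nat_lit 5) (nat_lit 318) (nat_lit 5) (nat_lit 308)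 (nat_lit 5) (nat_lit 435) (nat_lit 386) (nat_lit 319)) (XT.nd (nat_lit 78) (nat_lit 760) (nat_lit 0) (XT.lf (nat_lit 0) (nat_lit 3723847069) (nat_lit 760) (nat_lit 1938208575) (nat_lit 836) (nat_lit 3115633340) (nat_lit 297) (nat_lit 5) (nat_lit 307) (nat_lit 5) (nat_lit 308) (nat_lit 5) (nat_lit 436) (nat_lit 386) (nat_lit 318)) (XT.lf (nat_lit 0) (nat_lit 207402767) (nat_lit 760) (nat_lit 7763217190) (nat_lit 836) (nat_lit 889867428) (nat_lit 287) (nat_lit 5) (nat_lit 297) (nat_lit 5) (nat_lit 298) (nat_lit 5) (nat_lit 437) (nat_lit 386) (nat_lit 317))))) (XT.nd (nat_lit 156) (nat_lit 1444) (nat_lit 0) (XT.nd (nat_lit 78) (nat_lit 684) (nat_lit 0) (XT.lf (nat_lit 0) (nat_lit 1377484987) (nat_lit 836) (nat_lit 3359325068) (nat_lit 76) (nat_lit 4207664087) (nat_lit 286) (nat_lit 5) (nat_lit 297) (nat_lit 5) (nat_lit 287) (nat_lit 5) (nat_lit 438) (nat_lit 386) (nat_lit 316)) (XT.lf (nat_lit 0) (nat_lit 2026268726)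 (nat_lit 684) (nat_lit 1633992132) (nat_lit 760) (nat_lit 5370137154) (nat_lit 277) (nat_lit 5) (nat_lit 286) (nat_lit 5) (nat_lit 287) (nat_lit 5) (nat_lit 439) (nat_lit 386) (nat_lit 315))) (XT.nd (nat_lit 78) (nat_lit 1444) (nat_lit 0) (XT.lf (nat_lit 0) (nat_lit 5990511849) (nat_lit 760) (nat_lit 1597667847) (nat_lit 76) (nat_lit 1529838833) (nat_lit 277) (nat_lit 5) (nat_lit 287) (nat_lit 5) (nat_lit 278) (nat_lit 5) (nat_lit 440) (nat_lit 386) (nat_lit 314)) (XT.nd (nat_lit 78) (nat_lit 760) (nat_lit 0) (XT.lf (nat_lit 0) (nat_lit 3923142157) (nat_lit 684) (nat_lit 4450310612) (nat_lit 760) (nat_lit 833831267) (nat_lit 268) (nat_lit 5) (nat_lit 277) (nat_lit 5) (nat_lit 278) (nat_lit 5) (nat_lit 441) (nat_lit 386) (nat_lit 313)) (XT.lf (nat_lit 0) (nat_lit 236561266) (nat_lit 684) (nat_lit 1231687805) (nat_lit 760) (nat_lit 7830258398) (nat_lit 258) (nat_lit 5) (nat_lit 267) (nat_lit 5) (nat_lit 268) (nat_lit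 5) (nat_lit 442) (nat_lit 386) (nat_lit 312)))))) (XT.nd (nat_lit 390) (nat_lit 1824) (nat_lit 0) (XT.nd (nat_lit 156) (nat_lit 1292) (nat_lit 0) (XT.nd (nat_lit 78) (nat_lit 684) (nat_lit 0) (XT.lf (nat_lit 0) (nat_lit 3824515770) (nat_lit 760) (nat_lit 3505563060) (nat_lit 76) (nat_lit 2060993567) (nat_lit 258) (nat_lit 5) (nat_lit 268) (nat_lit 5) (nat_lit 259) (nat_lit 5) (nat_lit 443) (nat_lit 386) (nat_lit 311)) (XT.lf (nat_lit 0) (nat_lit 2147695595) (nat_lit 684) (nat_lit 4073182620) (nat_lit 760) (nat_lit 3264764187) (nat_lit 249) (nat_lit 5) (nat_lit 258) (nat_lit 5) (nat_lit 259) (nat_lit 5) (nat_lit 444) (nat_lit 386) (nat_lit 310))) (XT.nd (nat_lit 78) (nat_lit 1292) (nat_lit 0) (XT.lf (nat_lit 0) (nat_lit 7927500975) (nat_lit 684) (nat_lit 732410585) (nat_lit 760) (nat_lit 922310308) (nat_lit 249) (nat_lit 5) (nat_lit 258) (nat_lit 5) (nat_lit 259) (nat_lit 5) (nat_lit 445) (nat_lit 386) (nat_lit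 309)) (XT.nd (nat_lit 78) (nat_lit 608) (nat_lit 0) (XT.lf (nat_lit 0) (nat_lit 1463879536) (nat_lit 684) (nat_lit 5544802892) (nat_lit 76) (nat_lit 2671549892) (nat_lit 240) (nat_lit 5) (nat_lit 249) (nat_lit 5) (nat_lit 241) (nat_lit 5) (nat_lit 446) (nat_lit 386) (nat_lit 308)) (XT.lf (nat_lit 0) (nat_lit 241896514) (nat_lit 608) (nat_lit 3633045395) (nat_lit 684) (nat_lit 5905361360) (nat_lit 232) (nat_lit 5) (nat_lit 240) (nat_lit 5) (nat_lit 241) (nat_lit 5) (nat_lit 447) (nat_lit 386) (nat_lit 307))))) (XT.nd (nat_lit 234) (nat_lit 1140) (nat_lit 0) (XT.nd (nat_lit 78) (nat_lit 684) (nat_lit 0) (XT.lf (nat_lit 0) (nat_lit 6185639277) (nat_lit 608) (nat_lit 158014603) (nat_lit 684) (nat_lit 3538545137) (nat_lit 232) (nat_lit 5) (nat_lit 240) (nat_lit 5) (nat_lit 241) (nat_lit 5) (nat_lit 448) (nat_lit 386) (nat_lit 306)) (XT.nd (nat_lit 78) (nat_lit 76) (nat_lit 0) (XT.lf (nat_lit 0) (nat_lit 2235753100)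 (nat_lit 608) (nat_lit 6635216359) (nat_lit 684) (nat_lit 1114990344) (nat_lit 224) (nat_lit 5) (nat_lit 232) (nat_lit 5) (nat_lit 233) (nat_lit 5) (nat_lit 449) (nat_lit 386) (nat_lit 305)) (XT.lf (nat_lit 0) (nat_lit 1338107769) (nat_lit 684) (nat_lit 1798357334) (nat_lit 76) (nat_lit 6955188343) (nat_lit 223) (nat_lit 5) (nat_lit 232) (nat_lit 5) (nat_lit 224) (nat_lit 5) (nat_lit 450) (nat_lit 386) (nat_lit 304)))) (XT.nd (nat_lit 78) (nat_lit 532) (nat_lit 0) (XT.lf (nat_lit 0) (nat_lit 3829576658) (nat_lit 684) (nat_lit 5914103799) (nat_lit 76) (nat_lit 455559370) (nat_lit 215) (nat_lit 5) (nat_lit 224) (nat_lit 5) (nat_lit 216) (nat_lit 5) (nat_lit 451) (nat_lit 386) (nat_lit 303)) (XT.nd (nat_lit 78) (nat_lit 0) (nat_lit 0) (XT.lf (nat_lit 0) (nat_lit 153636019) (nat_lit 532) (nat_lit 6224805703) (nat_lit 608) (nat_lit 3930395696) (nat_lit 208) (nat_lit 5) (nat_lit 215) (nat_lit 5) (nat_lit 216) (nat_lit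 5) (nat_lit 452) (nat_lit 386) (nat_lit 302)) (XT.lf (nat_lit 0) (nat_lit 6389650426) (nat_lit 532) (nat_lit 2602271365) (nat_lit 608) (nat_lit 1428443025) (nat_lit 208) (nat_lit 5) (nat_lit 215) (nat_lit 5) (nat_lit 216) (nat_lit 5) (nat_lit 453) (nat_lit 386) (nat_lit 301))))))))
noncomputable def xc115 : XT := (XT.nd (nat_lit 1638) (nat_lit 4180) (nat_lit 0) (XT.nd (nat_lit 780) (nat_lit 2736) (nat_lit 0) (XT.nd (nat_lit 390) (nat_lit 1520) (nat_lit 0) (XT.nd (nat_lit 156) (nat_lit 1140) (nat_lit 0) (XT.nd (nat_lit 78) (nat_lit 0) (nat_lit 0) (XT.lf (nat_lit 0) (nat_lit 1104602204) (nat_lit 608) (nat_lit 8336467697) (nat_lit 76) (nat_lit 1093001378) (nat_lit 200) (nat_lit 5) (nat_lit 208) (nat_lit 5) (nat_lit 201) (nat_lit 5) (nat_lit 454) (nat_lit 386) (nat_lit 300)) (XT.lf (nat_lit 0) (nat_lit 3688186952) (nat_lit 608) (nat_lit 2104460025) (nat_lit 76) (nat_lit 4856845942) (nat_lit 200) (nat_lit 5) (nat_lit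 208) (nat_lit 5) (nat_lit 201) (nat_lit 5) (nat_lit 455) (nat_lit 386) (nat_lit 299))) (XT.nd (nat_lit 78) (nat_lit 608) (nat_lit 0) (XT.lf (nat_lit 0) (nat_lit 4275713745) (nat_lit 532) (nat_lit 2050516555) (nat_lit 608) (nat_lit 4440946752) (nat_lit 193) (nat_lit 5) (nat_lit 200) (nat_lit 5) (nat_lit 201) (nat_lit 5) (nat_lit 456) (nat_lit 386) (nat_lit 298)) (XT.nd (nat_lit 78) (nat_lit 608) (nat_lit 0) (XT.lf (nat_lit 0) (nat_lit 9017975329) (nat_lit 608) (nat_lit 119267989) (nat_lit 76) (nat_lit 1749962341) (nat_lit 193) (nat_lit 5) (nat_lit 201) (nat_lit 5) (nat_lit 194) (nat_lit 5) (nat_lit 457) (nat_lit 386) (nat_lit 297)) (XT.lf (nat_lit 0) (nat_lit 775224883) (nat_lit 608) (nat_lit 4595296336) (nat_lit 76) (nat_lit 5638401112) (nat_lit 185) (nat_lit 5) (nat_lit 193) (nat_lit 5) (nat_lit 186) (nat_lit 5) (nat_lit 458) (nat_lit 386) (nat_lit 296))))) (XT.nd (nat_lit 156) (nat_lit 1064) (nat_lit 0) (XT.nd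 (nat_lit 78) (nat_lit 0) (nat_lit 0) (XT.lf (nat_lit 0) (nat_lit 1926351188) (nat_lit 456) (nat_lit 1510366955) (nat_lit 532) (nat_lit 7696333573) (nat_lit 179) (nat_lit 5) (nat_lit 185) (nat_lit 5) (nat_lit 186) (nat_lit 5) (nat_lit 459) (nat_lit 386) (nat_lit 295)) (XT.lf (nat_lit 0) (nat_lit 6174294303) (nat_lit 532) (nat_lit 2666774338) (nat_lit 76) (nat_lit 2418146865) (nat_lit 179) (nat_lit 5) (nat_lit 186) (nat_lit 5) (nat_lit 180) (nat_lit 5) (nat_lit 460) (nat_lit 386) (nat_lit 294))) (XT.nd (nat_lit 78) (nat_lit 532) (nat_lit 0) (XT.lf (nat_lit 0) (nat_lit 4014751496) (nat_lit 532) (nat_lit 4964463198) (nat_lit 608) (nat_lit 2408444725) (nat_lit 172) (nat_lit 5) (nat_lit 179) (nat_lit 5) (nat_lit 180) (nat_lit 5) (nat_lit 461) (nat_lit 386) (nat_lit 293)) (XT.nd (nat_lit 78) (nat_lit 456) (nat_lit 0) (XT.lf (nat_lit 0) (nat_lit 311974450) (nat_lit 608) (nat_lit 686424139) (nat_lit 76) (nat_lit 10520347620)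 (nat_lit 171) (nat_lit 5) (nat_lit 179) (nat_lit 5) (nat_lit 172) (nat_lit 5) (nat_lit 462) (nat_lit 386) (nat_lit 292)) (XT.lf (nat_lit 0) (nat_lit 3091800191) (nat_lit 532) (nat_lit 5504508587) (nat_lit 76) (nat_lit 3055090815) (nat_lit 165) (nat_lit 5) (nat_lit 172) (nat_lit 5) (nat_lit 166) (nat_lit 5) (nat_lit 463) (nat_lit 386) (nat_lit 291)))))) (XT.nd (nat_lit 390) (nat_lit 1292) (nat_lit 0) (XT.nd (nat_lit 156) (nat_lit 988) (nat_lit 0) (XT.nd (nat_lit 78) (nat_lit 0) (nat_lit 0) (XT.lf (nat_lit 0) (nat_lit 1318681394) (nat_lit 456) (nat_lit 4605619065) (nat_lit 532) (nat_lit 5862472064) (nat_lit 159) (nat_lit 5) (nat_lit 165) (nat_lit 5) (nat_lit 166) (nat_lit 5) (nat_lit 464) (nat_lit 386) (nat_lit 290)) (XT.lf (nat_lit 0) (nat_lit 8321623573) (nat_lit 456) (nat_lit 506275228) (nat_lit 532) (nat_lit 3096673033) (nat_lit 159) (nat_lit 5) (nat_lit 165) (nat_lit 5) (nat_lit 166) (nat_lit 5) (nat_lit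 465) (nat_lit 386) (nat_lit 289))) (XT.nd (nat_lit 78) (nat_lit 532) (nat_lit 0) (XT.lf (nat_lit 0) (nat_lit 3388978753) (nat_lit 456) (nat_lit 8424349400) (nat_lit 532) (nat_lit 251331522) (nat_lit 153) (nat_lit 5) (nat_lit 159) (nat_lit 5) (nat_lit 160) (nat_lit 5) (nat_lit 466) (nat_lit 386) (nat_lit 288)) (XT.nd (nat_lit 78) (nat_lit 456) (nat_lit 0) (XT.lf (nat_lit 0) (nat_lit 2621815316) (nat_lit 532) (nat_lit 1689407312) (nat_lit 76) (nat_lit 7895876528) (nat_lit 152) (nat_lit 5) (nat_lit 159) (nat_lit 5) (nat_lit 153) (nat_lit 5) (nat_lit 467) (nat_lit 386) (nat_lit 287)) (XT.lf (nat_lit 0) (nat_lit 5476159545) (nat_lit 456) (nat_lit 86865219) (nat_lit 532) (nat_lit 6789057418) (nat_lit 146) (nat_lit 5) (nat_lit 152) (nat_lit 5) (nat_lit 153) (nat_lit 5) (nat_lit 468) (nat_lit 386) (nat_lit 286))))) (XT.nd (nat_lit 234) (nat_lit 380) (nat_lit 0) (XT.nd (nat_lit 78) (nat_lit 532) (nat_lit 0) (XT.lf (nat_lit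 0) (nat_lit 253271434) (nat_lit 380) (nat_lit 8328829682) (nat_lit 456) (nat_lit 3917490037) (nat_lit 141) (nat_lit 5) (nat_lit 146) (nat_lit 5) (nat_lit 147) (nat_lit 5) (nat_lit 469) (nat_lit 386) (nat_lit 285)) (XT.nd (nat_lit 78) (nat_lit 532) (nat_lit 0) (XT.lf (nat_lit 0) (nat_lit 7587110542) (nat_lit 380) (nat_lit 4099957206) (nat_lit 456) (nat_lit 962479379) (nat_lit 141) (nat_lit 5) (nat_lit 146) (nat_lit 5) (nat_lit 147) (nat_lit 5) (nat_lit 470) (nat_lit 386) (nat_lit 284)) (XT.lf (nat_lit 0) (nat_lit 2019917686) (nat_lit 532) (nat_lit 10552799113) (nat_lit 76) (nat_lit 229621863) (nat_lit 134) (nat_lit 5) (nat_lit 141) (nat_lit 5) (nat_lit 135) (nat_lit 5) (nat_lit 471) (nat_lit 386) (nat_lit 283)))) (XT.nd (nat_lit 78) (nat_lit 380) (nat_lit 0) (XT.lf (nat_lit 0) (nat_lit 5089658072) (nat_lit 532) (nat_lit 3245287694) (nat_lit 76) (nat_lit 4622307957) (nat_lit 134) (nat_lit 5) (nat_lit 141) (nat_lit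 5) (nat_lit 135) (nat_lit 5) (nat_lit 472) (nat_lit 386) (nat_lit 282)) (XT.nd (nat_lit 78) (nat_lit 0) (nat_lit 0) (XT.lf (nat_lit 0) (nat_lit 4234093161) (nat_lit 380) (nat_lit 3993820356) (nat_lit 456) (nat_lit 4887217630) (nat_lit 129) (nat_lit 5) (nat_lit 134) (nat_lit 5) (nat_lit 135) (nat_lit 5) (nat_lit 473) (nat_lit 386) (nat_lit 281)) (XT.lf (nat_lit 0) (nat_lit 11433450000) (nat_lit 456) (nat_lit 1401604856) (nat_lit 76) (nat_lit 441027283) (nat_lit 129) (nat_lit 5) (nat_lit 135) (nat_lit 5) (nat_lit 130) (nat_lit 5) (nat_lit 474) (nat_lit 386) (nat_lit 280))))))) (XT.nd (nat_lit 780) (nat_lit 1824) (nat_lit 0) (XT.nd (nat_lit 390) (nat_lit 1064) (nat_lit 0) (XT.nd (nat_lit 156) (nat_lit 456) (nat_lit 0) (XT.nd (nat_lit 78) (nat_lit 380) (nat_lit 0) (XT.lf (nat_lit 0) (nat_lit 1293812977) (nat_lit 456) (nat_lit 7194217081) (nat_lit 76) (nat_lit 4951113593) (nat_lit 123) (nat_lit 5) (nat_lit 129) (nat_lit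 5) (nat_lit 124) (nat_lit 5) (nat_lit 475) (nat_lit 386) (nat_lit 279)) (XT.lf (nat_lit 0) (nat_lit 421926322) (nat_lit 380) (nat_lit 4038853449) (nat_lit 456) (nat_lit 9144599688) (nat_lit 118) (nat_lit 5) (nat_lit 123) (nat_lit 5) (nat_lit 124) (nat_lit 5) (nat_lit 476) (nat_lit 386) (nat_lit 278))) (XT.nd (nat_lit 78) (nat_lit 456) (nat_lit 0) (XT.lf (nat_lit 0) (nat_lit 7723294430) (nat_lit 456) (nat_lit 5519216039) (nat_lit 76) (nat_lit 531791201) (nat_lit 118) (nat_lit 5) (nat_lit 124) (nat_lit 5) (nat_lit 119) (nat_lit 5) (nat_lit 477) (nat_lit 386) (nat_lit 277)) (XT.nd (nat_lit 78) (nat_lit 76) (nat_lit 0) (XT.lf (nat_lit 0) (nat_lit 2272348779) (nat_lit 380) (nat_lit 8800966471) (nat_lit 456) (nat_lit 2872847698) (nat_lit 113) (nat_lit 5) (nat_lit 118) (nat_lit 5) (nat_lit 119) (nat_lit 5) (nat_lit 478) (nat_lit 386) (nat_lit 276)) (XT.lf (nat_lit 0) (nat_lit 382132678) (nat_lit 456) (nat_lit 3857883195)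 (nat_lit 76) (nat_lit 9881041288) (nat_lit 112) (nat_lit 5) (nat_lit 118) (nat_lit 5) (nat_lit 113) (nat_lit 5) (nat_lit 479) (nat_lit 386) (nat_lit 275))))) (XT.nd (nat_lit 156) (nat_lit 760) (nat_lit 0) (XT.nd (nat_lit 78) (nat_lit 0) (nat_lit 0) (XT.lf (nat_lit 0) (nat_lit 3674642416) (nat_lit 380) (nat_lit 10180955806) (nat_lit 76) (nat_lit 443258711) (nat_lit 108) (nat_lit 5) (nat_lit 113) (nat_lit 5) (nat_lit 109) (nat_lit 5) (nat_lit 480) (nat_lit 386) (nat_lit 274)) (XT.lf (nat_lit 0) (nat_lit 7068453357) (nat_lit 380) (nat_lit 2231088783) (nat_lit 76) (nat_lit 5179966846) (nat_lit 108) (nat_lit 5) (nat_lit 113) (nat_lit 5) (nat_lit 109) (nat_lit 5) (nat_lit 481) (nat_lit 386) (nat_lit 273))) (XT.nd (nat_lit 78) (nat_lit 380) (nat_lit 0) (XT.lf (nat_lit 0) (nat_lit 5927437949) (nat_lit 380) (nat_lit 4622865426) (nat_lit 456) (nat_lit 4113072648) (nat_lit 103) (nat_lit 5) (nat_lit 108) (nat_lit 5) (nat_lit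 109) (nat_lit 5) (nat_lit 482) (nat_lit 386) (nat_lit 272)) (XT.nd (nat_lit 78) (nat_lit 380) (nat_lit 0) (XT.lf (nat_lit 0) (nat_lit 14099610850) (nat_lit 456) (nat_lit 600495573) (nat_lit 76) (nat_lit 150862665) (nat_lit 103) (nat_lit 5) (nat_lit 109) (nat_lit 5) (nat_lit 104) (nat_lit 5) (nat_lit 483) (nat_lit 386) (nat_lit 271)) (XT.lf (nat_lit 0) (nat_lit 2705909881) (nat_lit 380) (nat_lit 7317940365) (nat_lit 76) (nat_lit 5016852246) (nat_lit 98) (nat_lit 5) (nat_lit 103) (nat_lit 5) (nat_lit 99) (nat_lit 5) (nat_lit 484) (nat_lit 386) (nat_lit 270)))))) (XT.nd (nat_lit 390) (nat_lit 836) (nat_lit 0) (XT.nd (nat_lit 156) (nat_lit 684) (nat_lit 0) (XT.nd (nat_lit 78) (nat_lit 0) (nat_lit 0) (XT.lf (nat_lit 0) (nat_lit 966443782) (nat_lit 304) (nat_lit 5248359077) (nat_lit 380) (nat_lit 9019482376) (nat_lit 94) (nat_lit 5) (nat_lit 98) (nat_lit 5) (nat_lit 99) (nat_lit 5) (nat_lit 485) (nat_lit 386) (nat_lit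 269)) (XT.lf (nat_lit 0) (nat_lit 9488190863) (nat_lit 304) (nat_lit 337160061) (nat_lit 380) (nat_lit 5605763874) (nat_lit 94) (nat_lit 5) (nat_lit 98) (nat_lit 5) (nat_lit 99) (nat_lit 5) (nat_lit 486) (nat_lit 386) (nat_lit 268))) (XT.nd (nat_lit 78) (nat_lit 380) (nat_lit 0) (XT.lf (nat_lit 0) (nat_lit 2523990018) (nat_lit 304) (nat_lit 11013495499) (nat_lit 380) (nat_lit 2093812541) (nat_lit 90) (nat_lit 5) (nat_lit 94) (nat_lit 5) (nat_lit 95) (nat_lit 5) (nat_lit 487) (nat_lit 386) (nat_lit 267)) (XT.nd (nat_lit 78) (nat_lit 304) (nat_lit 0) (XT.lf (nat_lit 0) (nat_lit 1493933293) (nat_lit 380) (nat_lit 4633371751) (nat_lit 76) (nat_lit 9707489592) (nat_lit 89) (nat_lit 5) (nat_lit 94) (nat_lit 5) (nat_lit 90) (nat_lit 5) (nat_lit 488) (nat_lit 386) (nat_lit 266)) (XT.lf (nat_lit 0) (nat_lit 4022139781) (nat_lit 304) (nat_lit 1112436677) (nat_lit 380) (nat_lit 10907328664) (nat_lit 85) (nat_lit 5) (nat_lit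 89) (nat_lit 5) (nat_lit 90) (nat_lit 5) (nat_lit 489) (nat_lit 386) (nat_lit 265))))) (XT.nd (nat_lit 234) (nat_lit 608) (nat_lit 0) (XT.nd (nat_lit 78) (nat_lit 228) (nat_lit 0) (XT.lf (nat_lit 0) (nat_lit 8888453202) (nat_lit 380) (nat_lit 3392050778) (nat_lit 76) (nat_lit 3971849689) (nat_lit 85) (nat_lit 5) (nat_lit 90) (nat_lit 5) (nat_lit 86) (nat_lit 5) (nat_lit 490) (nat_lit 386) (nat_lit 264)) (XT.nd (nat_lit 78) (nat_lit 0) (nat_lit 0) (XT.lf (nat_lit 0) (nat_lit 5445913667) (nat_lit 228) (nat_lit 7297684203) (nat_lit 304) (nat_lit 3722893692) (nat_lit 82) (nat_lit 5) (nat_lit 85) (nat_lit 5) (nat_lit 86) (nat_lit 5) (nat_lit 491) (nat_lit 386) (nat_lit 263)) (XT.lf (nat_lit 0) (nat_lit 14480429559) (nat_lit 228) (nat_lit 2201797285) (nat_lit 304) (nat_lit 2561841) (nat_lit 82) (nat_lit 5) (nat_lit 85) (nat_lit 5) (nat_lit 86) (nat_lit 5) (nat_lit 492) (nat_lit 386) (nat_lit 262)))) (XT.nd (nat_lit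 78) (nat_lit 228) (nat_lit 0) (XT.lf (nat_lit 0) (nat_lit 3790443727) (nat_lit 380) (nat_lit 10099036239) (nat_lit 76) (nat_lit 3016523257) (nat_lit 77) (nat_lit 5) (nat_lit 82) (nat_lit 5) (nat_lit 78) (nat_lit 5) (nat_lit 493) (nat_lit 386) (nat_lit 261)) (XT.nd (nat_lit 78) (nat_lit 228) (nat_lit 0) (XT.lf (nat_lit 0) (nat_lit 7672663840) (nat_lit 380) (nat_lit 1143626530) (nat_lit 76) (nat_lit 8315087430) (nat_lit 77) (nat_lit 5) (nat_lit 82) (nat_lit 5) (nat_lit 78) (nat_lit 5) (nat_lit 494) (nat_lit 386) (nat_lit 260)) (XT.lf (nat_lit 0) (nat_lit 8071272815) (nat_lit 228) (nat_lit 3597891845) (nat_lit 304) (nat_lit 5691366271) (nat_lit 74) (nat_lit 5) (nat_lit 77) (nat_lit 5) (nat_lit 78) (nat_lit 5) (nat_lit 495) (nat_lit 386) (nat_lit 259))))))))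
noncomputable def xc116 : XT := (XT.nd (nat_lit 51792) (nat_lit 0) (nat_lit 29260) (XT.nd (nat_lit 51012) (nat_lit 0) (nat_lit 42180) (XT.nd (nat_lit 390) (nat_lit 304) (nat_lit 0) (XT.nd (nat_lit 156) (nat_lit 456) (nat_lit 0) (XT.nd (nat_lit 78) (nat_lit 380) (nat_lit 0) (XT.lf (nat_lit 0) (nat_lit 15748833920) (nat_lit 304) (nat_lit 144951635) (nat_lit 76) (nat_lit 1700420516) (nat_lit 74) (nat_lit 5) (nat_lit 78) (nat_lit 5) (nat_lit 75) (nat_lit 5) (nat_lit 496) (nat_lit 386) (nat_lit 258)) (XT.lf (nat_lit 0) (nat_lit 2119281560) (nat_lit 380) (nat_lit 8590398172) (nat_lit 76) (nat_lit 7121229034) (nat_lit 69) (nat_lit 5) (nat_lit 74) (nat_lit 5) (nat_lit 70) (nat_lit 5) (nat_lit 497) (nat_lit 386) (nat_lit 257))) (XT.nd (nat_lit 78) (nat_lit 228) (nat_lit 0) (XT.lf (nat_lit 0) (nat_lit 715373877) (nat_lit 228) (nat_lit 5413449120) (nat_lit 304) (nat_lit 11943475976) (nat_lit 66) (nat_lit 5) (nat_lit 69)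 (nat_lit 5) (nat_lit 70) (nat_lit 5) (nat_lit 498) (nat_lit 386) (nat_lit 256)) (XT.nd (nat_lit 78) (nat_lit 228) (nat_lit 0) (XT.lf (nat_lit 0) (nat_lit 10261242792) (nat_lit 304) (nat_lit 8019146990) (nat_lit 76) (nat_lit 37276882) (nat_lit 66) (nat_lit 5) (nat_lit 70) (nat_lit 5) (nat_lit 67) (nat_lit 5) (nat_lit 499) (nat_lit 386) (nat_lit 255)) (XT.lf (nat_lit 0) (nat_lit 1464050077) (nat_lit 228) (nat_lit 13042649498) (nat_lit 304) (nat_lit 4060637725) (nat_lit 63) (nat_lit 5) (nat_lit 66) (nat_lit 5) (nat_lit 67) (nat_lit 5) (nat_lit 500) (nat_lit 386) (nat_lit 254))))) (XT.nd (nat_lit 156) (nat_lit 0) (nat_lit 0) (XT.nd (nat_lit 78) (nat_lit 228) (nat_lit 0) (XT.lf (nat_lit 0) (nat_lit 54100764) (nat_lit 304) (nat_lit 7600493061) (nat_lit 76) (nat_lit 11166624119) (nat_lit 62) (nat_lit 5) (nat_lit 66) (nat_lit 5) (nat_lit 63) (nat_lit 5) (nat_lit 501) (nat_lit 386) (nat_lit 253)) (XT.lf (nat_lit 0) (nat_lit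 2068350448) (nat_lit 228) (nat_lit 2127249523) (nat_lit 304) (nat_lit 14884065824) (nat_lit 59) (nat_lit 5) (nat_lit 62) (nat_lit 5) (nat_lit 63) (nat_lit 5) (nat_lit 502) (nat_lit 386) (nat_lit 252))) (XT.nd (nat_lit 50310) (nat_lit 0) (nat_lit 44156) (XT.lf (nat_lit 0) (nat_lit 8479490214) (nat_lit 304) (nat_lit 7356109602) (nat_lit 76) (nat_lit 3506494674) (nat_lit 59) (nat_lit 5) (nat_lit 63) (nat_lit 5) (nat_lit 60) (nat_lit 5) (nat_lit 503) (nat_lit 386) (nat_lit 251)) (XT.nd (nat_lit 78) (nat_lit 532) (nat_lit 0) (XT.lf (nat_lit 0) (nat_lit 3234618946) (nat_lit 532) (nat_lit 17094145) (nat_lit 532) (nat_lit 17094145) (nat_lit 647) (nat_lit 3) (nat_lit 654) (nat_lit 3) (nat_lit 654) (nat_lit 5) (nat_lit 387) (nat_lit 387) (nat_lit 366)) (XT.lf (nat_lit 0) (nat_lit 2401873078) (nat_lit 532) (nat_lit 3449184159) (nat_lit 608) (nat_lit 700530709) (nat_lit 640) (nat_lit 5) (nat_lit 647) (nat_lit 3) (nat_lit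 648) (nat_lit 5) (nat_lit 388) (nat_lit 387) (nat_lit 365)))))) (XT.nd (nat_lit 390) (nat_lit 684) (nat_lit 0) (XT.nd (nat_lit 156) (nat_lit 684) (nat_lit 0) (XT.nd (nat_lit 78) (nat_lit 608) (nat_lit 0) (XT.lf (nat_lit 0) (nat_lit 4856373276) (nat_lit 532) (nat_lit 297996176) (nat_lit 608) (nat_lit 1412799924) (nat_lit 640) (nat_lit 5) (nat_lit 647) (nat_lit 3) (nat_lit 648) (nat_lit 5) (nat_lit 389) (nat_lit 387) (nat_lit 364)) (XT.lf (nat_lit 0) (nat_lit 722128267) (nat_lit 608) (nat_lit 3667452919) (nat_lit 684) (nat_lit 2194322740) (nat_lit 632) (nat_lit 5) (nat_lit 640) (nat_lit 5) (nat_lit 641) (nat_lit 5) (nat_lit 390) (nat_lit 387) (nat_lit 363))) (XT.nd (nat_lit 78) (nat_lit 684) (nat_lit 0) (XT.lf (nat_lit 0) (nat_lit 3120194532) (nat_lit 608) (nat_lit 446945248) (nat_lit 684) (nat_lit 3034869110) (nat_lit 632) (nat_lit 5) (nat_lit 640) (nat_lit 5) (nat_lit 641) (nat_lit 5) (nat_lit 391) (nat_lit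 387) (nat_lit 362)) (XT.nd (nat_lit 78) (nat_lit 684) (nat_lit 0) (XT.lf (nat_lit 76) (nat_lit 2842015128) (nat_lit 0) (nat_lit 2681244147) (nat_lit 684) (nat_lit 1098124668) (nat_lit 633) (nat_lit 5) (nat_lit 632) (nat_lit 5) (nat_lit 641) (nat_lit 5) (nat_lit 392) (nat_lit 387) (nat_lit 361)) (XT.lf (nat_lit 0) (nat_lit 1257899713) (nat_lit 684) (nat_lit 480817643) (nat_lit 760) (nat_lit 4903459929) (nat_lit 623) (nat_lit 5) (nat_lit 632) (nat_lit 5) (nat_lit 633) (nat_lit 5) (nat_lit 393) (nat_lit 387) (nat_lit 360))))) (XT.nd (nat_lit 156) (nat_lit 684) (nat_lit 0) (XT.nd (nat_lit 78) (nat_lit 0) (nat_lit 76) (XT.lf (nat_lit 76) (nat_lit 2881013123) (nat_lit 0) (nat_lit 724367807) (nat_lit 760) (nat_lit 3058725508) (nat_lit 624) (nat_lit 5) (nat_lit 623) (nat_lit 5) (nat_lit 633) (nat_lit 5) (nat_lit 394) (nat_lit 387) (nat_lit 359)) (XT.lf (nat_lit 0) (nat_lit 5946518310) (nat_lit 684) (nat_lit 406219592)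 (nat_lit 760) (nat_lit 334847166) (nat_lit 624) (nat_lit 5) (nat_lit 633) (nat_lit 5) (nat_lit 634) (nat_lit 5) (nat_lit 395) (nat_lit 387) (nat_lit 358))) (XT.nd (nat_lit 78) (nat_lit 0) (nat_lit 0) (XT.lf (nat_lit 0) (nat_lit 1568522961) (nat_lit 760) (nat_lit 3682993562) (nat_lit 836) (nat_lit 1460512016) (nat_lit 614) (nat_lit 5) (nat_lit 624) (nat_lit 5) (nat_lit 625) (nat_lit 5) (nat_lit 396) (nat_lit 387) (nat_lit 357)) (XT.nd (nat_lit 78) (nat_lit 0) (nat_lit 0) (XT.lf (nat_lit 0) (nat_lit 3860218594) (nat_lit 760) (nat_lit 237606461) (nat_lit 836) (nat_lit 2640163542) (nat_lit 614) (nat_lit 5) (nat_lit 624) (nat_lit 5) (nat_lit 625) (nat_lit 5) (nat_lit 397) (nat_lit 387) (nat_lit 356)) (XT.lf (nat_lit 76) (nat_lit 3286183968) (nat_lit 0) (nat_lit 2877099988) (nat_lit 836) (nat_lit 601914777) (nat_lit 615) (nat_lit 5) (nat_lit 614) (nat_lit 5) (nat_lit 625) (nat_lit 5) (nat_lit 398) (nat_lit 387) (nat_lit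 355))))))) (XT.nd (nat_lit 780) (nat_lit 9272) (nat_lit 0) (XT.nd (nat_lit 390) (nat_lit 1976) (nat_lit 0) (XT.nd (nat_lit 156) (nat_lit 836) (nat_lit 0) (XT.nd (nat_lit 78) (nat_lit 0) (nat_lit 0) (XT.lf (nat_lit 76) (nat_lit 46021525) (nat_lit 0) (nat_lit 1597462002) (nat_lit 912) (nat_lit 5150354709) (nat_lit 604) (nat_lit 5) (nat_lit 603) (nat_lit 5) (nat_lit 615) (nat_lit 5) (nat_lit 399) (nat_lit 387) (nat_lit 354)) (XT.lf (nat_lit 76) (nat_lit 3650745582) (nat_lit 0) (nat_lit 243849577) (nat_lit 912) (nat_lit 2929037692) (nat_lit 604) (nat_lit 5) (nat_lit 603) (nat_lit 5) (nat_lit 615) (nat_lit 5) (nat_lit 400) (nat_lit 387) (nat_lit 353))) (XT.nd (nat_lit 78) (nat_lit 912) (nat_lit 0) (XT.lf (nat_lit 76) (nat_lit 437391744) (nat_lit 0) (nat_lit 5710294441) (nat_lit 912) (nat_lit 707236456) (nat_lit 605) (nat_lit 5) (nat_lit 604) (nat_lit 5) (nat_lit 616) (nat_lit 5) (nat_lit 401) (nat_lit 387) (nat_lit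 352)) (XT.nd (nat_lit 78) (nat_lit 0) (nat_lit 0) (XT.lf (nat_lit 0) (nat_lit 1508775471) (nat_lit 912) (nat_lit 2770421070) (nat_lit 988) (nat_lit 2608071754) (nat_lit 592) (nat_lit 5) (nat_lit 604) (nat_lit 5) (nat_lit 605) (nat_lit 5) (nat_lit 402) (nat_lit 387) (nat_lit 351)) (XT.lf (nat_lit 76) (nat_lit 922719121) (nat_lit 0) (nat_lit 2791127784) (nat_lit 988) (nat_lit 3207272488) (nat_lit 593) (nat_lit 5) (nat_lit 592) (nat_lit 5) (nat_lit 605) (nat_lit 5) (nat_lit 403) (nat_lit 387) (nat_lit 350))))) (XT.nd (nat_lit 156) (nat_lit 1064) (nat_lit 0) (XT.nd (nat_lit 78) (nat_lit 912) (nat_lit 0) (XT.lf (nat_lit 76) (nat_lit 4693171984) (nat_lit 0) (nat_lit 1237442251) (nat_lit 988) (nat_lit 1025716887) (nat_lit 593) (nat_lit 5) (nat_lit 592) (nat_lit 5) (nat_lit 605) (nat_lit 5) (nat_lit 404) (nat_lit 387) (nat_lit 349)) (XT.lf (nat_lit 0) (nat_lit 1145754411) (nat_lit 988) (nat_lit 5470552930) (nat_lit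 76) (nat_lit 376577797) (nat_lit 580) (nat_lit 5) (nat_lit 593) (nat_lit 5) (nat_lit 581) (nat_lit 5) (nat_lit 405) (nat_lit 387) (nat_lit 348))) (XT.nd (nat_lit 78) (nat_lit 1064) (nat_lit 0) (XT.lf (nat_lit 0) (nat_lit 3320923245) (nat_lit 988) (nat_lit 1665784960) (nat_lit 76) (nat_lit 2043879832) (nat_lit 580) (nat_lit 5) (nat_lit 593) (nat_lit 5) (nat_lit 581) (nat_lit 5) (nat_lit 406) (nat_lit 387) (nat_lit 347)) (XT.nd (nat_lit 78) (nat_lit 76) (nat_lit 0) (XT.lf (nat_lit 0) (nat_lit 2209704946) (nat_lit 988) (nat_lit 3295714902) (nat_lit 1064) (nat_lit 1564341454) (nat_lit 567) (nat_lit 5) (nat_lit 580) (nat_lit 5) (nat_lit 581) (nat_lit 5) (nat_lit 407) (nat_lit 387) (nat_lit 346)) (XT.lf (nat_lit 0) (nat_lit 578817387) (nat_lit 1064) (nat_lit 963133766) (nat_lit 76) (nat_lit 5568455161) (nat_lit 566) (nat_lit 5) (nat_lit 580) (nat_lit 5) (nat_lit 567) (nat_lit 5) (nat_lit 408) (nat_lit 387) (nat_lit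 345)))))) (XT.nd (nat_lit 390) (nat_lit 5776) (nat_lit 0) (XT.nd (nat_lit 156) (nat_lit 2432) (nat_lit 0) (XT.nd (nat_lit 78) (nat_lit 0) (nat_lit 0) (XT.lf (nat_lit 0) (nat_lit 2718122671) (nat_lit 1140) (nat_lit 4147443659) (nat_lit 76) (nat_lit 286637399) (nat_lit 552) (nat_lit 5) (nat_lit 567) (nat_lit 5) (nat_lit 553) (nat_lit 5) (nat_lit 409) (nat_lit 387) (nat_lit 344)) (XT.lf (nat_lit 0) (nat_lit 4870521833) (nat_lit 1140) (nat_lit 174829426) (nat_lit 76) (nat_lit 2150109976) (nat_lit 552) (nat_lit 5) (nat_lit 567) (nat_lit 5) (nat_lit 553) (nat_lit 5) (nat_lit 410) (nat_lit 387) (nat_lit 343))) (XT.nd (nat_lit 78) (nat_lit 1292) (nat_lit 0) (XT.lf (nat_lit 0) (nat_lit 3894058849) (nat_lit 1140) (nat_lit 3151693176) (nat_lit 1216) (nat_lit 194265911) (nat_lit 537) (nat_lit 5) (nat_lit 552) (nat_lit 5) (nat_lit 553) (nat_lit 5) (nat_lit 411) (nat_lit 387) (nat_lit 342)) (XT.nd (nat_lit 78) (nat_lit 0)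 (nat_lit 0) (XT.lf (nat_lit 0) (nat_lit 723227995) (nat_lit 1216) (nat_lit 1190560340) (nat_lit 1292) (nat_lit 5372234556) (nat_lit 520) (nat_lit 5) (nat_lit 536) (nat_lit 5) (nat_lit 537) (nat_lit 5) (nat_lit 412) (nat_lit 387) (nat_lit 341)) (XT.lf (nat_lit 0) (nat_lit 4044837541) (nat_lit 1292) (nat_lit 2455445703) (nat_lit 76) (nat_lit 832998307) (nat_lit 520) (nat_lit 5) (nat_lit 537) (nat_lit 5) (nat_lit 521) (nat_lit 5) (nat_lit 413) (nat_lit 387) (nat_lit 340))))) (XT.nd (nat_lit 234) (nat_lit 3040) (nat_lit 0) (XT.nd (nat_lit 78) (nat_lit 1444) (nat_lit 0) (XT.lf (nat_lit 0) (nat_lit 1713930706) (nat_lit 1292) (nat_lit 4480033713) (nat_lit 1368) (nat_lit 1188039277) (nat_lit 503) (nat_lit 5) (nat_lit 520) (nat_lit 5) (nat_lit 521) (nat_lit 5) (nat_lit 414) (nat_lit 387) (nat_lit 339)) (XT.nd (nat_lit 78) (nat_lit 1368) (nat_lit 0) (XT.lf (nat_lit 0) (nat_lit 915206737) (nat_lit 1368) (nat_lit 1472783785)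 (nat_lit 76) (nat_lit 5044145210) (nat_lit 502) (nat_lit 5) (nat_lit 520) (nat_lit 5) (nat_lit 503) (nat_lit 5) (nat_lit 415) (nat_lit 387) (nat_lit 338)) (XT.lf (nat_lit 0) (nat_lit 2800879037) (nat_lit 1368) (nat_lit 219542110) (nat_lit 1444) (nat_lit 4463201836) (nat_lit 484) (nat_lit 5) (nat_lit 502) (nat_lit 5) (nat_lit 503) (nat_lit 5) (nat_lit 416) (nat_lit 387) (nat_lit 337)))) (XT.nd (nat_lit 78) (nat_lit 3040) (nat_lit 0) (XT.lf (nat_lit 0) (nat_lit 5148893587) (nat_lit 1444) (nat_lit 404046272) (nat_lit 76) (nat_lit 1983602399) (nat_lit 484) (nat_lit 5) (nat_lit 503) (nat_lit 5) (nat_lit 485) (nat_lit 5) (nat_lit 417) (nat_lit 387) (nat_lit 336)) (XT.nd (nat_lit 78) (nat_lit 1596) (nat_lit 0) (XT.lf (nat_lit 0) (nat_lit 3976529810) (nat_lit 1444) (nat_lit 3329766054) (nat_lit 1520) (nat_lit 284521703) (nat_lit 465) (nat_lit 5) (nat_lit 484) (nat_lit 5) (nat_lit 485) (nat_lit 5) (nat_lit 418) (nat_lit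 387) (nat_lit 335)) (XT.lf (nat_lit 0) (nat_lit 767302892) (nat_lit 1520) (nat_lit 1036050481) (nat_lit 1596) (nat_lit 5843265514) (nat_lit 444) (nat_lit 5) (nat_lit 464) (nat_lit 5) (nat_lit 465) (nat_lit 5) (nat_lit 419) (nat_lit 387) (nat_lit 334))))))))
noncomputable def xc117 : XT := (XT.nd (nat_lit 1638) (nat_lit 7448) (nat_lit 0) (XT.nd (nat_lit 780) (nat_lit 5624) (nat_lit 0) (XT.nd (nat_lit 390) (nat_lit 1976) (nat_lit 0) (XT.nd (nat_lit 156) (nat_lit 3496) (nat_lit 0) (XT.nd (nat_lit 78) (nat_lit 1596) (nat_lit 0) (XT.lf (nat_lit 0) (nat_lit 3922043520) (nat_lit 1596) (nat_lit 2463405423) (nat_lit 76) (nat_lit 1318215751) (nat_lit 444) (nat_lit 5) (nat_lit 465) (nat_lit 5) (nat_lit 445) (nat_lit 5) (nat_lit 420) (nat_lit 387) (nat_lit 333)) (XT.lf (nat_lit 0) (nat_lit 2025861113) (nat_lit 1596) (nat_lit 4038031360) (nat_lit 1672) (nat_lit 1698366210) (nat_lit 423) (nat_lit 5) (nat_lit 444) (nat_lit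 5) (nat_lit 445) (nat_lit 5) (nat_lit 421) (nat_lit 387) (nat_lit 332))) (XT.nd (nat_lit 78) (nat_lit 3420) (nat_lit 0) (XT.lf (nat_lit 0) (nat_lit 398637433) (nat_lit 1672) (nat_lit 1221250074) (nat_lit 76) (nat_lit 6202550168) (nat_lit 422) (nat_lit 5) (nat_lit 444) (nat_lit 5) (nat_lit 423) (nat_lit 5) (nat_lit 422) (nat_lit 387) (nat_lit 331)) (XT.nd (nat_lit 78) (nat_lit 1748) (nat_lit 0) (XT.lf (nat_lit 0) (nat_lit 2504369880) (nat_lit 1748) (nat_lit 4506658155) (nat_lit 76) (nat_lit 872798727) (nat_lit 400) (nat_lit 5) (nat_lit 423) (nat_lit 5) (nat_lit 401) (nat_lit 5) (nat_lit 423) (nat_lit 387) (nat_lit 330)) (XT.lf (nat_lit 0) (nat_lit 93404595) (nat_lit 1748) (nat_lit 4540748866) (nat_lit 1824) (nat_lit 3312672657) (nat_lit 377) (nat_lit 5) (nat_lit 400) (nat_lit 5) (nat_lit 401) (nat_lit 5) (nat_lit 424) (nat_lit 387) (nat_lit 329))))) (XT.nd (nat_lit 156) (nat_lit 912) (nat_lit 0) (XT.nd (nat_lit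 78) (nat_lit 1064) (nat_lit 0) (XT.lf (nat_lit 0) (nat_lit 4811918218) (nat_lit 1748) (nat_lit 1987722626) (nat_lit 1824) (nat_lit 1211603250) (nat_lit 377) (nat_lit 5) (nat_lit 400) (nat_lit 5) (nat_lit 401) (nat_lit 5) (nat_lit 425) (nat_lit 387) (nat_lit 328)) (XT.lf (nat_lit 0) (nat_lit 896642434) (nat_lit 1064) (nat_lit 6554138164) (nat_lit 76) (nat_lit 626521438) (nat_lit 363) (nat_lit 5) (nat_lit 377) (nat_lit 5) (nat_lit 364) (nat_lit 5) (nat_lit 426) (nat_lit 387) (nat_lit 327))) (XT.nd (nat_lit 78) (nat_lit 912) (nat_lit 0) (XT.lf (nat_lit 0) (nat_lit 3029462052) (nat_lit 1064) (nat_lit 1817106569) (nat_lit 76) (nat_lit 3297999291) (nat_lit 363) (nat_lit 5) (nat_lit 377) (nat_lit 5) (nat_lit 364) (nat_lit 5) (nat_lit 427) (nat_lit 387) (nat_lit 326)) (XT.nd (nat_lit 78) (nat_lit 0) (nat_lit 0) (XT.lf (nat_lit 0) (nat_lit 3019963045) (nat_lit 912) (nat_lit 2169133753) (nat_lit 988) (nat_lit 3024418347)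 (nat_lit 351) (nat_lit 5) (nat_lit 363) (nat_lit 5) (nat_lit 364) (nat_lit 5) (nat_lit 428) (nat_lit 387) (nat_lit 325)) (XT.lf (nat_lit 0) (nat_lit 7372877332) (nat_lit 988) (nat_lit 343729064) (nat_lit 76) (nat_lit 567634704) (nat_lit 351) (nat_lit 5) (nat_lit 364) (nat_lit 5) (nat_lit 352) (nat_lit 5) (nat_lit 429) (nat_lit 387) (nat_lit 324)))))) (XT.nd (nat_lit 390) (nat_lit 3040) (nat_lit 0) (XT.nd (nat_lit 156) (nat_lit 836) (nat_lit 0) (XT.nd (nat_lit 78) (nat_lit 836) (nat_lit 0) (XT.lf (nat_lit 0) (nat_lit 1237731514) (nat_lit 912) (nat_lit 3749214408) (nat_lit 76) (nat_lit 3369090340) (nat_lit 339) (nat_lit 5) (nat_lit 351) (nat_lit 5) (nat_lit 340) (nat_lit 5) (nat_lit 430) (nat_lit 387) (nat_lit 323)) (XT.lf (nat_lit 0) (nat_lit 1207232295) (nat_lit 836) (nat_lit 2186471253) (nat_lit 912) (nat_lit 5035939090) (nat_lit 328) (nat_lit 5) (nat_lit 339) (nat_lit 5) (nat_lit 340) (nat_lit 5) (nat_lit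 431) (nat_lit 387) (nat_lit 322))) (XT.nd (nat_lit 78) (nat_lit 836) (nat_lit 0) (XT.lf (nat_lit 0) (nat_lit 5588840619) (nat_lit 912) (nat_lit 2229937575) (nat_lit 76) (nat_lit 686039436) (nat_lit 328) (nat_lit 5) (nat_lit 340) (nat_lit 5) (nat_lit 329) (nat_lit 5) (nat_lit 432) (nat_lit 387) (nat_lit 321)) (XT.nd (nat_lit 78) (nat_lit 76) (nat_lit 0) (XT.lf (nat_lit 0) (nat_lit 2851148665) (nat_lit 760) (nat_lit 4976752284) (nat_lit 836) (nat_lit 753611826) (nat_lit 318) (nat_lit 5) (nat_lit 328) (nat_lit 5) (nat_lit 329) (nat_lit 5) (nat_lit 433) (nat_lit 387) (nat_lit 320)) (XT.lf (nat_lit 0) (nat_lit 1415243788) (nat_lit 836) (nat_lit 639261657) (nat_lit 76) (nat_lit 6605418503) (nat_lit 317) (nat_lit 5) (nat_lit 328) (nat_lit 5) (nat_lit 318) (nat_lit 5) (nat_lit 434) (nat_lit 387) (nat_lit 319))))) (XT.nd (nat_lit 234) (nat_lit 1520) (nat_lit 0) (XT.nd (nat_lit 78) (nat_lit 760) (nat_lit 0) (XT.lf (nat_lit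 0) (nat_lit 3621197731) (nat_lit 836) (nat_lit 4171130237) (nat_lit 76) (nat_lit 947415584) (nat_lit 307) (nat_lit 5) (nat_lit 318) (nat_lit 5) (nat_lit 308) (nat_lit 5) (nat_lit 435) (nat_lit 387) (nat_lit 318)) (XT.nd (nat_lit 78) (nat_lit 0) (nat_lit 0) (XT.lf (nat_lit 0) (nat_lit 1034045002) (nat_lit 760) (nat_lit 4830130822) (nat_lit 836) (nat_lit 2957141385) (nat_lit 297) (nat_lit 5) (nat_lit 307) (nat_lit 5) (nat_lit 308) (nat_lit 5) (nat_lit 436) (nat_lit 387) (nat_lit 317)) (XT.lf (nat_lit 0) (nat_lit 6365969316) (nat_lit 760) (nat_lit 1782703964) (nat_lit 836) (nat_lit 755931318) (nat_lit 297) (nat_lit 5) (nat_lit 307) (nat_lit 5) (nat_lit 308) (nat_lit 5) (nat_lit 437) (nat_lit 387) (nat_lit 316)))) (XT.nd (nat_lit 78) (nat_lit 684) (nat_lit 0) (XT.lf (nat_lit 0) (nat_lit 1465844540) (nat_lit 836) (nat_lit 6189925426) (nat_lit 76) (nat_lit 1333687750) (nat_lit 286) (nat_lit 5) (nat_lit 297) (nat_lit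 5) (nat_lit 287) (nat_lit 5) (nat_lit 438) (nat_lit 387) (nat_lit 315)) (XT.nd (nat_lit 78) (nat_lit 684) (nat_lit 0) (XT.lf (nat_lit 0) (nat_lit 3720333834) (nat_lit 836) (nat_lit 847758900) (nat_lit 76) (nat_lit 4507861792) (nat_lit 286) (nat_lit 5) (nat_lit 297) (nat_lit 5) (nat_lit 287) (nat_lit 5) (nat_lit 439) (nat_lit 387) (nat_lit 314)) (XT.lf (nat_lit 0) (nat_lit 4628581292) (nat_lit 684) (nat_lit 1391418729) (nat_lit 760) (nat_lit 3144193786) (nat_lit 277) (nat_lit 5) (nat_lit 286) (nat_lit 5) (nat_lit 287) (nat_lit 5) (nat_lit 440) (nat_lit 387) (nat_lit 313))))))) (XT.nd (nat_lit 780) (nat_lit 3344) (nat_lit 0) (XT.nd (nat_lit 390) (nat_lit 1976) (nat_lit 0) (XT.nd (nat_lit 156) (nat_lit 1368) (nat_lit 0) (XT.nd (nat_lit 78) (nat_lit 76) (nat_lit 0) (XT.lf (nat_lit 0) (nat_lit 938384136) (nat_lit 684) (nat_lit 7421482594) (nat_lit 760) (nat_lit 894460996) (nat_lit 268) (nat_lit 5) (nat_lit 277) (nat_lit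 5) (nat_lit 278) (nat_lit 5) (nat_lit 441) (nat_lit 387) (nat_lit 312)) (XT.lf (nat_lit 0) (nat_lit 1392294572) (nat_lit 760) (nat_lit 2814741661) (nat_lit 76) (nat_lit 5138851859) (nat_lit 267) (nat_lit 5) (nat_lit 277) (nat_lit 5) (nat_lit 268) (nat_lit 5) (nat_lit 442) (nat_lit 387) (nat_lit 311))) (XT.nd (nat_lit 78) (nat_lit 684) (nat_lit 0) (XT.lf (nat_lit 0) (nat_lit 2793948479) (nat_lit 684) (nat_lit 908129208) (nat_lit 760) (nat_lit 5737311532) (nat_lit 258) (nat_lit 5) (nat_lit 267) (nat_lit 5) (nat_lit 268) (nat_lit 5) (nat_lit 443) (nat_lit 387) (nat_lit 310)) (XT.nd (nat_lit 78) (nat_lit 684) (nat_lit 0) (XT.lf (nat_lit 0) (nat_lit 6064461311) (nat_lit 760) (nat_lit 1031082468) (nat_lit 76) (nat_lit 2439101426) (nat_lit 258) (nat_lit 5) (nat_lit 268) (nat_lit 5) (nat_lit 259) (nat_lit 5) (nat_lit 444) (nat_lit 387) (nat_lit 309)) (XT.lf (nat_lit 0) (nat_lit 4718500625) (nat_lit 684) (nat_lit 3764242177)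 (nat_lit 760) (nat_lit 1148903181) (nat_lit 249) (nat_lit 5) (nat_lit 258) (nat_lit 5) (nat_lit 259) (nat_lit 5) (nat_lit 445) (nat_lit 387) (nat_lit 308))))) (XT.nd (nat_lit 156) (nat_lit 1292) (nat_lit 0) (XT.nd (nat_lit 78) (nat_lit 0) (nat_lit 0) (XT.lf (nat_lit 0) (nat_lit 836517579) (nat_lit 608) (nat_lit 350838494) (nat_lit 684) (nat_lit 8543393867) (nat_lit 240) (nat_lit 5) (nat_lit 248) (nat_lit 5) (nat_lit 249) (nat_lit 5) (nat_lit 446) (nat_lit 387) (nat_lit 307)) (XT.lf (nat_lit 0) (nat_lit 3580926252) (nat_lit 684) (nat_lit 3124966169) (nat_lit 76) (nat_lit 3125284226) (nat_lit 240) (nat_lit 5) (nat_lit 249) (nat_lit 5) (nat_lit 241) (nat_lit 5) (nat_lit 447) (nat_lit 387) (nat_lit 306))) (XT.nd (nat_lit 78) (nat_lit 684) (nat_lit 0) (XT.lf (nat_lit 0) (nat_lit 2760817668) (nat_lit 608) (nat_lit 3254778650) (nat_lit 684) (nat_lit 3918162710) (nat_lit 232) (nat_lit 5) (nat_lit 240) (nat_lit 5) (nat_lit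 241) (nat_lit 5) (nat_lit 448) (nat_lit 387) (nat_lit 305)) (XT.nd (nat_lit 78) (nat_lit 684) (nat_lit 0) (XT.lf (nat_lit 0) (nat_lit 8495052359) (nat_lit 684) (nat_lit 1266203492) (nat_lit 76) (nat_lit 277226840) (nat_lit 232) (nat_lit 5) (nat_lit 241) (nat_lit 5) (nat_lit 233) (nat_lit 5) (nat_lit 449) (nat_lit 387) (nat_lit 304)) (XT.lf (nat_lit 0) (nat_lit 893725990) (nat_lit 684) (nat_lit 5383425561) (nat_lit 76) (nat_lit 3867517098) (nat_lit 223) (nat_lit 5) (nat_lit 232) (nat_lit 5) (nat_lit 224) (nat_lit 5) (nat_lit 450) (nat_lit 387) (nat_lit 303)))))) (XT.nd (nat_lit 390) (nat_lit 1596) (nat_lit 0) (XT.nd (nat_lit 156) (nat_lit 1140) (nat_lit 0) (XT.nd (nat_lit 78) (nat_lit 0) (nat_lit 0) (XT.lf (nat_lit 0) (nat_lit 639157433) (nat_lit 608) (nat_lit 2706431322) (nat_lit 684) (nat_lit 6907463753) (nat_lit 215) (nat_lit 5) (nat_lit 223) (nat_lit 5) (nat_lit 224) (nat_lit 5) (nat_lit 451) (nat_lit 387)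 (nat_lit 302)) (XT.lf (nat_lit 0) (nat_lit 5863095662) (nat_lit 684) (nat_lit 3546841539) (nat_lit 76) (nat_lit 953345314) (nat_lit 215) (nat_lit 5) (nat_lit 224) (nat_lit 5) (nat_lit 216) (nat_lit 5) (nat_lit 452) (nat_lit 387) (nat_lit 301))) (XT.nd (nat_lit 78) (nat_lit 608) (nat_lit 0) (XT.lf (nat_lit 0) (nat_lit 2625900810) (nat_lit 532) (nat_lit 5814697723) (nat_lit 608) (nat_lit 2034936070) (nat_lit 208) (nat_lit 5) (nat_lit 215) (nat_lit 5) (nat_lit 216) (nat_lit 5) (nat_lit 453) (nat_lit 387) (nat_lit 300)) (XT.nd (nat_lit 78) (nat_lit 532) (nat_lit 0) (XT.lf (nat_lit 0) (nat_lit 472074821) (nat_lit 608) (nat_lit 1654952439) (nat_lit 76) (nat_lit 8462977283) (nat_lit 207) (nat_lit 5) (nat_lit 215) (nat_lit 5) (nat_lit 208) (nat_lit 5) (nat_lit 454) (nat_lit 387) (nat_lit 299)) (XT.lf (nat_lit 0) (nat_lit 3018526248) (nat_lit 608) (nat_lit 6037392600) (nat_lit 76) (nat_lit 1650254851) (nat_lit 200) (nat_lit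 5) (nat_lit 208) (nat_lit 5) (nat_lit 201) (nat_lit 5) (nat_lit 455) (nat_lit 387) (nat_lit 298))))) (XT.nd (nat_lit 234) (nat_lit 532) (nat_lit 0) (XT.nd (nat_lit 78) (nat_lit 532) (nat_lit 0) (XT.lf (nat_lit 0) (nat_lit 274506317) (nat_lit 532) (nat_lit 5343963905) (nat_lit 608) (nat_lit 5206154355) (nat_lit 193) (nat_lit 5) (nat_lit 200) (nat_lit 5) (nat_lit 201) (nat_lit 5) (nat_lit 456) (nat_lit 387) (nat_lit 297)) (XT.nd (nat_lit 78) (nat_lit 532) (nat_lit 0) (XT.lf (nat_lit 0) (nat_lit 6762779052) (nat_lit 532) (nat_lit 1523938174) (nat_lit 608) (nat_lit 2658410583) (nat_lit 193) (nat_lit 5) (nat_lit 200) (nat_lit 5) (nat_lit 201) (nat_lit 5) (nat_lit 457) (nat_lit 387) (nat_lit 296)) (XT.lf (nat_lit 0) (nat_lit 2295967157) (nat_lit 532) (nat_lit 8718889799) (nat_lit 608) (nat_lit 53062828) (nat_lit 186) (nat_lit 5) (nat_lit 193) (nat_lit 5) (nat_lit 194) (nat_lit 5) (nat_lit 458) (nat_lit 387) (nat_lit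 295)))) (XT.nd (nat_lit 78) (nat_lit 456) (nat_lit 0) (XT.lf (nat_lit 0) (nat_lit 2584894177) (nat_lit 608) (nat_lit 2290885182) (nat_lit 76) (nat_lit 6316765740) (nat_lit 185) (nat_lit 5) (nat_lit 193) (nat_lit 5) (nat_lit 186) (nat_lit 5) (nat_lit 459) (nat_lit 387) (nat_lit 294)) (XT.nd (nat_lit 78) (nat_lit 0) (nat_lit 0) (XT.lf (nat_lit 0) (nat_lit 4345430049) (nat_lit 456) (nat_lit 934463674) (nat_lit 532) (nat_lit 6039671006) (nat_lit 179) (nat_lit 5) (nat_lit 185) (nat_lit 5) (nat_lit 186) (nat_lit 5) (nat_lit 460) (nat_lit 387) (nat_lit 293)) (XT.lf (nat_lit 0) (nat_lit 8041286550) (nat_lit 532) (nat_lit 354654347) (nat_lit 76) (nat_lit 3052942519) (nat_lit 179) (nat_lit 5) (nat_lit 186) (nat_lit 5) (nat_lit 180) (nat_lit 5) (nat_lit 461) (nat_lit 387) (nat_lit 292))))))))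
noncomputable def xc118 : XT := (XT.nd (nat_lit 1638) (nat_lit 3724) (nat_lit 0) (XT.nd (nat_lit 780) (nat_lit 2432) (nat_lit 0) (XT.nd (nat_lit 390) (nat_lit 1444) (nat_lit 0) (XT.nd (nat_lit 156) (nat_lit 456) (nat_lit 0) (XT.nd (nat_lit 78) (nat_lit 532) (nat_lit 0) (XT.lf (nat_lit 0) (nat_lit 6444939797) (nat_lit 532) (nat_lit 4438436219) (nat_lit 608) (nat_lit 696911450) (nat_lit 172) (nat_lit 5) (nat_lit 179) (nat_lit 5) (nat_lit 180) (nat_lit 5) (nat_lit 462) (nat_lit 387) (nat_lit 291)) (XT.lf (nat_lit 0) (nat_lit 1648520232) (nat_lit 456) (nat_lit 382968914) (nat_lit 532) (nat_lit 9682757485) (nat_lit 165) (nat_lit 5) (nat_lit 171) (nat_lit 5) (nat_lit 172) (nat_lit 5) (nat_lit 463) (nat_lit 387) (nat_lit 290))) (XT.nd (nat_lit 78) (nat_lit 456) (nat_lit 0) (XT.lf (nat_lit 0) (nat_lit 4841908158) (nat_lit 532) (nat_lit 3272649530) (nat_lit 76) (nat_lit 3735507401) (nat_lit 165) (nat_lit 5) (nat_lit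 172) (nat_lit 5) (nat_lit 166) (nat_lit 5) (nat_lit 464) (nat_lit 387) (nat_lit 289)) (XT.nd (nat_lit 78) (nat_lit 0) (nat_lit 0) (XT.lf (nat_lit 0) (nat_lit 3671596691) (nat_lit 456) (nat_lit 4041463822) (nat_lit 532) (nat_lit 4275456631) (nat_lit 159) (nat_lit 5) (nat_lit 165) (nat_lit 5) (nat_lit 166) (nat_lit 5) (nat_lit 465) (nat_lit 387) (nat_lit 288)) (XT.lf (nat_lit 0) (nat_lit 10642804910) (nat_lit 532) (nat_lit 1361584239) (nat_lit 76) (nat_lit 125333286) (nat_lit 159) (nat_lit 5) (nat_lit 166) (nat_lit 5) (nat_lit 160) (nat_lit 5) (nat_lit 466) (nat_lit 387) (nat_lit 287))))) (XT.nd (nat_lit 156) (nat_lit 456) (nat_lit 0) (XT.nd (nat_lit 78) (nat_lit 456) (nat_lit 0) (XT.lf (nat_lit 0) (nat_lit 1382727525) (nat_lit 532) (nat_lit 6530368261) (nat_lit 76) (nat_lit 4359624314) (nat_lit 152) (nat_lit 5) (nat_lit 159) (nat_lit 5) (nat_lit 153) (nat_lit 5) (nat_lit 467) (nat_lit 387) (nat_lit 286)) (XT.lf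 (nat_lit 0) (nat_lit 555821528) (nat_lit 456) (nat_lit 3725689341) (nat_lit 532) (nat_lit 8137044312) (nat_lit 146) (nat_lit 5) (nat_lit 152) (nat_lit 5) (nat_lit 153) (nat_lit 5) (nat_lit 468) (nat_lit 387) (nat_lit 285))) (XT.nd (nat_lit 78) (nat_lit 456) (nat_lit 0) (XT.lf (nat_lit 0) (nat_lit 7264918459) (nat_lit 532) (nat_lit 4728166347) (nat_lit 76) (nat_lit 573696186) (nat_lit 146) (nat_lit 5) (nat_lit 153) (nat_lit 5) (nat_lit 147) (nat_lit 5) (nat_lit 469) (nat_lit 387) (nat_lit 284)) (XT.nd (nat_lit 78) (nat_lit 76) (nat_lit 0) (XT.lf (nat_lit 0) (nat_lit 2528005422) (nat_lit 380) (nat_lit 7800482209) (nat_lit 456) (nat_lit 2389080682) (nat_lit 141) (nat_lit 5) (nat_lit 146) (nat_lit 5) (nat_lit 147) (nat_lit 5) (nat_lit 470) (nat_lit 387) (nat_lit 283)) (XT.lf (nat_lit 0) (nat_lit 585740919) (nat_lit 456) (nat_lit 2910986696) (nat_lit 76) (nat_lit 9374346458) (nat_lit 140) (nat_lit 5) (nat_lit 146)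 (nat_lit 5) (nat_lit 141) (nat_lit 5) (nat_lit 471) (nat_lit 387) (nat_lit 282)))))) (XT.nd (nat_lit 390) (nat_lit 1140) (nat_lit 0) (XT.nd (nat_lit 156) (nat_lit 836) (nat_lit 0) (XT.nd (nat_lit 78) (nat_lit 0) (nat_lit 0) (XT.lf (nat_lit 0) (nat_lit 3603415871) (nat_lit 532) (nat_lit 8505546212) (nat_lit 76) (nat_lit 918071561) (nat_lit 134) (nat_lit 5) (nat_lit 141) (nat_lit 5) (nat_lit 135) (nat_lit 5) (nat_lit 472) (nat_lit 387) (nat_lit 281)) (XT.lf (nat_lit 0) (nat_lit 6704294205) (nat_lit 532) (nat_lit 1096165132) (nat_lit 76) (nat_lit 5385202411) (nat_lit 134) (nat_lit 5) (nat_lit 141) (nat_lit 5) (nat_lit 135) (nat_lit 5) (nat_lit 473) (nat_lit 387) (nat_lit 280))) (XT.nd (nat_lit 78) (nat_lit 456) (nat_lit 0) (XT.lf (nat_lit 0) (nat_lit 6518237365) (nat_lit 380) (nat_lit 3371694174) (nat_lit 456) (nat_lit 3457082259) (nat_lit 129) (nat_lit 5) (nat_lit 134) (nat_lit 5) (nat_lit 135) (nat_lit 5) (nat_lit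 474) (nat_lit 387) (nat_lit 279)) (XT.nd (nat_lit 78) (nat_lit 76) (nat_lit 0) (XT.lf (nat_lit 0) (nat_lit 762048075) (nat_lit 380) (nat_lit 12377584938) (nat_lit 456) (nat_lit 371958943) (nat_lit 124) (nat_lit 5) (nat_lit 129) (nat_lit 5) (nat_lit 130) (nat_lit 5) (nat_lit 475) (nat_lit 387) (nat_lit 278)) (XT.lf (nat_lit 0) (nat_lit 2787554100) (nat_lit 456) (nat_lit 5150813245) (nat_lit 76) (nat_lit 5739758260) (nat_lit 123) (nat_lit 5) (nat_lit 129) (nat_lit 5) (nat_lit 124) (nat_lit 5) (nat_lit 476) (nat_lit 387) (nat_lit 277))))) (XT.nd (nat_lit 234) (nat_lit 380) (nat_lit 0) (XT.nd (nat_lit 78) (nat_lit 380) (nat_lit 0) (XT.lf (nat_lit 0) (nat_lit 2603262972) (nat_lit 380) (nat_lit 3399923490) (nat_lit 456) (nat_lit 7844801841) (nat_lit 118) (nat_lit 5) (nat_lit 123) (nat_lit 5) (nat_lit 124) (nat_lit 5) (nat_lit 477) (nat_lit 387) (nat_lit 276)) (XT.nd (nat_lit 78) (nat_lit 380) (nat_lit 0) (XT.lf (nat_lit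 0) (nat_lit 9307038663) (nat_lit 456) (nat_lit 3474968934) (nat_lit 76) (nat_lit 1238768144) (nat_lit 118) (nat_lit 5) (nat_lit 124) (nat_lit 5) (nat_lit 119) (nat_lit 5) (nat_lit 478) (nat_lit 387) (nat_lit 275)) (XT.lf (nat_lit 0) (nat_lit 4458251974) (nat_lit 380) (nat_lit 8251680122) (nat_lit 456) (nat_lit 1486433066) (nat_lit 113) (nat_lit 5) (nat_lit 118) (nat_lit 5) (nat_lit 119) (nat_lit 5) (nat_lit 479) (nat_lit 387) (nat_lit 274)))) (XT.nd (nat_lit 78) (nat_lit 304) (nat_lit 0) (XT.lf (nat_lit 0) (nat_lit 1786770381) (nat_lit 456) (nat_lit 1817587239) (nat_lit 76) (nat_lit 10770778981) (nat_lit 112) (nat_lit 5) (nat_lit 118) (nat_lit 5) (nat_lit 113) (nat_lit 5) (nat_lit 480) (nat_lit 387) (nat_lit 273)) (XT.nd (nat_lit 78) (nat_lit 0) (nat_lit 0) (XT.lf (nat_lit 0) (nat_lit 5136072143) (nat_lit 380) (nat_lit 8257669208) (nat_lit 76) (nat_lit 1162940060) (nat_lit 108) (nat_lit 5) (nat_lit 113) (nat_lit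 5) (nat_lit 109) (nat_lit 5) (nat_lit 481) (nat_lit 387) (nat_lit 272)) (XT.lf (nat_lit 0) (nat_lit 8570544854) (nat_lit 380) (nat_lit 190508878) (nat_lit 76) (nat_lit 5980444786) (nat_lit 108) (nat_lit 5) (nat_lit 113) (nat_lit 5) (nat_lit 109) (nat_lit 5) (nat_lit 482) (nat_lit 387) (nat_lit 271))))))) (XT.nd (nat_lit 780) (nat_lit 1748) (nat_lit 0) (XT.nd (nat_lit 390) (nat_lit 912) (nat_lit 0) (XT.nd (nat_lit 156) (nat_lit 304) (nat_lit 0) (XT.nd (nat_lit 78) (nat_lit 380) (nat_lit 0) (XT.lf (nat_lit 0) (nat_lit 8117469957) (nat_lit 380) (nat_lit 3991330526) (nat_lit 456) (nat_lit 2820514612) (nat_lit 103) (nat_lit 5) (nat_lit 108) (nat_lit 5) (nat_lit 109) (nat_lit 5) (nat_lit 483) (nat_lit 387) (nat_lit 270)) (XT.lf (nat_lit 0) (nat_lit 588029684) (nat_lit 380) (nat_lit 13665094125) (nat_lit 76) (nat_lit 867712978) (nat_lit 98) (nat_lit 5) (nat_lit 103) (nat_lit 5) (nat_lit 99) (nat_lit 5) (nat_lit 484)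 (nat_lit 387) (nat_lit 269))) (XT.nd (nat_lit 78) (nat_lit 304) (nat_lit 0) (XT.lf (nat_lit 0) (nat_lit 4082008602) (nat_lit 380) (nat_lit 5406830809) (nat_lit 76) (nat_lit 5825880732) (nat_lit 98) (nat_lit 5) (nat_lit 103) (nat_lit 5) (nat_lit 99) (nat_lit 5) (nat_lit 485) (nat_lit 387) (nat_lit 268)) (XT.nd (nat_lit 78) (nat_lit 0) (nat_lit 0) (XT.lf (nat_lit 0) (nat_lit 3029705046) (nat_lit 304) (nat_lit 4618723773) (nat_lit 380) (nat_lit 7864005730) (nat_lit 94) (nat_lit 5) (nat_lit 98) (nat_lit 5) (nat_lit 99) (nat_lit 5) (nat_lit 486) (nat_lit 387) (nat_lit 267)) (XT.lf (nat_lit 0) (nat_lit 11307957868) (nat_lit 380) (nat_lit 4034354221) (nat_lit 76) (nat_lit 371360072) (nat_lit 94) (nat_lit 5) (nat_lit 99) (nat_lit 5) (nat_lit 95) (nat_lit 5) (nat_lit 487) (nat_lit 387) (nat_lit 266))))) (XT.nd (nat_lit 156) (nat_lit 532) (nat_lit 0) (XT.nd (nat_lit 78) (nat_lit 76) (nat_lit 0) (XT.lf (nat_lit 0) (nat_lit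 4586341510) (nat_lit 304) (nat_lit 10498027469) (nat_lit 380) (nat_lit 833696155) (nat_lit 90) (nat_lit 5) (nat_lit 94) (nat_lit 5) (nat_lit 95) (nat_lit 5) (nat_lit 488) (nat_lit 387) (nat_lit 265)) (XT.lf (nat_lit 0) (nat_lit 2783534281) (nat_lit 380) (nat_lit 2736551757) (nat_lit 76) (nat_lit 10605886888) (nat_lit 89) (nat_lit 5) (nat_lit 94) (nat_lit 5) (nat_lit 90) (nat_lit 5) (nat_lit 489) (nat_lit 387) (nat_lit 264))) (XT.nd (nat_lit 78) (nat_lit 228) (nat_lit 0) (XT.lf (nat_lit 0) (nat_lit 6078981272) (nat_lit 304) (nat_lit 406140691) (nat_lit 380) (nat_lit 9852347364) (nat_lit 85) (nat_lit 5) (nat_lit 89) (nat_lit 5) (nat_lit 90) (nat_lit 5) (nat_lit 490) (nat_lit 387) (nat_lit 263)) (XT.nd (nat_lit 78) (nat_lit 228) (nat_lit 0) (XT.lf (nat_lit 0) (nat_lit 10294245964) (nat_lit 380) (nat_lit 1502105130) (nat_lit 76) (nat_lit 4756178569) (nat_lit 85) (nat_lit 5) (nat_lit 90) (nat_lit 5) (nat_lit 86)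 (nat_lit 5) (nat_lit 491) (nat_lit 387) (nat_lit 262)) (XT.lf (nat_lit 0) (nat_lit 7499738429) (nat_lit 228) (nat_lit 6715303823) (nat_lit 304) (nat_lit 2556143177) (nat_lit 82) (nat_lit 5) (nat_lit 85) (nat_lit 5) (nat_lit 86) (nat_lit 5) (nat_lit 492) (nat_lit 387) (nat_lit 261)))))) (XT.nd (nat_lit 390) (nat_lit 836) (nat_lit 0) (XT.nd (nat_lit 156) (nat_lit 532) (nat_lit 0) (XT.nd (nat_lit 78) (nat_lit 304) (nat_lit 0) (XT.lf (nat_lit 0) (nat_lit 1198332680) (nat_lit 304) (nat_lit 325406103) (nat_lit 76) (nat_lit 15470435094) (nat_lit 81) (nat_lit 5) (nat_lit 85) (nat_lit 5) (nat_lit 82) (nat_lit 5) (nat_lit 493) (nat_lit 387) (nat_lit 260)) (XT.lf (nat_lit 0) (nat_lit 5060698846) (nat_lit 380) (nat_lit 8371241529) (nat_lit 76) (nat_lit 3788007035) (nat_lit 77) (nat_lit 5) (nat_lit 82) (nat_lit 5) (nat_lit 78) (nat_lit 5) (nat_lit 494) (nat_lit 387) (nat_lit 259))) (XT.nd (nat_lit 78) (nat_lit 304) (nat_lit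 0) (XT.lf (nat_lit 0) (nat_lit 735078324) (nat_lit 228) (nat_lit 8266837139) (nat_lit 304) (nat_lit 8448292601) (nat_lit 74) (nat_lit 5) (nat_lit 77) (nat_lit 5) (nat_lit 78) (nat_lit 5) (nat_lit 495) (nat_lit 387) (nat_lit 258)) (XT.nd (nat_lit 78) (nat_lit 304) (nat_lit 0) (XT.lf (nat_lit 0) (nat_lit 10112188021) (nat_lit 228) (nat_lit 2950627268) (nat_lit 304) (nat_lit 4621445105) (nat_lit 74) (nat_lit 5) (nat_lit 77) (nat_lit 5) (nat_lit 78) (nat_lit 5) (nat_lit 496) (nat_lit 387) (nat_lit 257)) (XT.lf (nat_lit 0) (nat_lit 1735996886) (nat_lit 304) (nat_lit 15481180057) (nat_lit 380) (nat_lit 705575521) (nat_lit 70) (nat_lit 5) (nat_lit 74) (nat_lit 5) (nat_lit 75) (nat_lit 5) (nat_lit 497) (nat_lit 387) (nat_lit 256))))) (XT.nd (nat_lit 234) (nat_lit 532) (nat_lit 0) (XT.nd (nat_lit 78) (nat_lit 228) (nat_lit 0) (XT.lf (nat_lit 0) (nat_lit 3301128497) (nat_lit 380) (nat_lit 6897967695) (nat_lit 76) (nat_lit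 7965381623) (nat_lit 69) (nat_lit 5) (nat_lit 74) (nat_lit 5) (nat_lit 70) (nat_lit 5) (nat_lit 498) (nat_lit 387) (nat_lit 255)) (XT.nd (nat_lit 78) (nat_lit 0) (nat_lit 0) (XT.lf (nat_lit 0) (nat_lit 2581655068) (nat_lit 228) (nat_lit 4798887557) (nat_lit 304) (nat_lit 11030364658) (nat_lit 66) (nat_lit 5) (nat_lit 69) (nat_lit 5) (nat_lit 70) (nat_lit 5) (nat_lit 499) (nat_lit 387) (nat_lit 254)) (XT.lf (nat_lit 0) (nat_lit 11578071828) (nat_lit 304) (nat_lit 6346080629) (nat_lit 76) (nat_lit 737385648) (nat_lit 66) (nat_lit 5) (nat_lit 70) (nat_lit 5) (nat_lit 67) (nat_lit 5) (nat_lit 500) (nat_lit 387) (nat_lit 253)))) (XT.nd (nat_lit 78) (nat_lit 304) (nat_lit 0) (XT.lf (nat_lit 0) (nat_lit 3314718214) (nat_lit 228) (nat_lit 12583749027) (nat_lit 304) (nat_lit 3017939222) (nat_lit 63) (nat_lit 5) (nat_lit 66) (nat_lit 5) (nat_lit 67) (nat_lit 5) (nat_lit 501) (nat_lit 387) (nat_lit 252)) (XT.nd (nat_lit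 78) (nat_lit 228) (nat_lit 0) (XT.lf (nat_lit 0) (nat_lit 1142605289) (nat_lit 304) (nat_lit 5952142587) (nat_lit 76) (nat_lit 12080910576) (nat_lit 62) (nat_lit 5) (nat_lit 66) (nat_lit 5) (nat_lit 63) (nat_lit 5) (nat_lit 502) (nat_lit 387) (nat_lit 251)) (XT.lf (nat_lit 0) (nat_lit 3898233316) (nat_lit 228) (nat_lit 1458991385) (nat_lit 304) (nat_lit 14082249371) (nat_lit 59) (nat_lit 5) (nat_lit 62) (nat_lit 5) (nat_lit 63) (nat_lit 5) (nat_lit 503) (nat_lit 387) (nat_lit 250))))))))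
noncomputable def xc119 : XT := (XT.nd (nat_lit 1638) (nat_lit 16340) (nat_lit 0) (XT.nd (nat_lit 780) (nat_lit 3572) (nat_lit 0) (XT.nd (nat_lit 390) (nat_lit 760) (nat_lit 0) (XT.nd (nat_lit 156) (nat_lit 608) (nat_lit 0) (XT.nd (nat_lit 78) (nat_lit 684) (nat_lit 0) (XT.lf (nat_lit 0) (nat_lit 1207608813) (nat_lit 0) (nat_lit 1207608813) (nat_lit 532) (nat_lit 867979607) (nat_lit 640) (nat_lit 5) (nat_lit 640) (nat_lit 3) (nat_lit 647) (nat_lit 3) (nat_lit 388) (nat_lit 388) (nat_lit 364)) (XT.lf (nat_lit 0) (nat_lit 657397649) (nat_lit 684) (nat_lit 1015977451) (nat_lit 684) (nat_lit 4909261464) (nat_lit 631) (nat_lit 3) (nat_lit 640) (nat_lit 3) (nat_lit 640) (nat_lit 5) (nat_lit 389) (nat_lit 388) (nat_lit 363))) (XT.nd (nat_lit 78) (nat_lit 608) (nat_lit 0) (XT.lf (nat_lit 76) (nat_lit 2166881995) (nat_lit 0) (nat_lit 859954933) (nat_lit 684) (nat_lit 3573157596) (nat_lit 632) (nat_lit 5) (nat_lit 631)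 (nat_lit 3) (nat_lit 640) (nat_lit 5) (nat_lit 390) (nat_lit 388) (nat_lit 362)) (XT.nd (nat_lit 78) (nat_lit 684) (nat_lit 0) (XT.lf (nat_lit 0) (nat_lit 5388916285) (nat_lit 608) (nat_lit 1223472444) (nat_lit 684) (nat_lit 6454623) (nat_lit 632) (nat_lit 5) (nat_lit 640) (nat_lit 5) (nat_lit 641) (nat_lit 5) (nat_lit 391) (nat_lit 388) (nat_lit 361)) (XT.lf (nat_lit 0) (nat_lit 1103353333) (nat_lit 684) (nat_lit 4607375867) (nat_lit 760) (nat_lit 928068125) (nat_lit 623) (nat_lit 5) (nat_lit 632) (nat_lit 5) (nat_lit 633) (nat_lit 5) (nat_lit 392) (nat_lit 388) (nat_lit 360))))) (XT.nd (nat_lit 156) (nat_lit 760) (nat_lit 0) (XT.nd (nat_lit 78) (nat_lit 0) (nat_lit 0) (XT.lf (nat_lit 0) (nat_lit 3415431576) (nat_lit 684) (nat_lit 1332392114) (nat_lit 760) (nat_lit 1912237996) (nat_lit 623) (nat_lit 5) (nat_lit 632) (nat_lit 5) (nat_lit 633) (nat_lit 5) (nat_lit 393) (nat_lit 388) (nat_lit 359)) (XT.lf (nat_lit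 76) (nat_lit 2001792151) (nat_lit 0) (nat_lit 3726447414) (nat_lit 760) (nat_lit 954467028) (nat_lit 624) (nat_lit 5) (nat_lit 623) (nat_lit 5) (nat_lit 633) (nat_lit 5) (nat_lit 394) (nat_lit 388) (nat_lit 358))) (XT.nd (nat_lit 78) (nat_lit 0) (nat_lit 0) (XT.lf (nat_lit 0) (nat_lit 1314384624) (nat_lit 760) (nat_lit 1327086248) (nat_lit 836) (nat_lit 4065177330) (nat_lit 613) (nat_lit 5) (nat_lit 623) (nat_lit 5) (nat_lit 624) (nat_lit 5) (nat_lit 395) (nat_lit 388) (nat_lit 357)) (XT.nd (nat_lit 78) (nat_lit 0) (nat_lit 0) (XT.lf (nat_lit 76) (nat_lit 2082304513) (nat_lit 0) (nat_lit 1490200971) (nat_lit 836) (nat_lit 3159345955) (nat_lit 614) (nat_lit 5) (nat_lit 613) (nat_lit 5) (nat_lit 624) (nat_lit 5) (nat_lit 396) (nat_lit 388) (nat_lit 356)) (XT.lf (nat_lit 76) (nat_lit 5545583108) (nat_lit 0) (nat_lit 283157185) (nat_lit 836) (nat_lit 929801012) (nat_lit 614) (nat_lit 5) (nat_lit 613) (nat_lit 5)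 (nat_lit 624) (nat_lit 5) (nat_lit 397) (nat_lit 388) (nat_lit 355)))))) (XT.nd (nat_lit 390) (nat_lit 1900) (nat_lit 0) (XT.nd (nat_lit 156) (nat_lit 912) (nat_lit 0) (XT.nd (nat_lit 78) (nat_lit 0) (nat_lit 0) (XT.lf (nat_lit 0) (nat_lit 1292713210) (nat_lit 836) (nat_lit 4511777637) (nat_lit 912) (nat_lit 981819342) (nat_lit 603) (nat_lit 5) (nat_lit 614) (nat_lit 5) (nat_lit 615) (nat_lit 5) (nat_lit 398) (nat_lit 388) (nat_lit 354)) (XT.lf (nat_lit 0) (nat_lit 3503066009) (nat_lit 836) (nat_lit 1007831036) (nat_lit 912) (nat_lit 2304536915) (nat_lit 603) (nat_lit 5) (nat_lit 614) (nat_lit 5) (nat_lit 615) (nat_lit 5) (nat_lit 399) (nat_lit 388) (nat_lit 353))) (XT.nd (nat_lit 78) (nat_lit 912) (nat_lit 0) (XT.lf (nat_lit 76) (nat_lit 2567030462) (nat_lit 0) (nat_lit 3154083819) (nat_lit 912) (nat_lit 1124794583) (nat_lit 604) (nat_lit 5) (nat_lit 603) (nat_lit 5) (nat_lit 615) (nat_lit 5) (nat_lit 400)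 (nat_lit 388) (nat_lit 352)) (XT.nd (nat_lit 78) (nat_lit 0) (nat_lit 0) (XT.lf (nat_lit 0) (nat_lit 1046094431) (nat_lit 912) (nat_lit 690389329) (nat_lit 988) (nat_lit 5141321225) (nat_lit 591) (nat_lit 5) (nat_lit 603) (nat_lit 5) (nat_lit 604) (nat_lit 5) (nat_lit 401) (nat_lit 388) (nat_lit 351)) (XT.lf (nat_lit 76) (nat_lit 2968656178) (nat_lit 0) (nat_lit 244275217) (nat_lit 988) (nat_lit 3697943322) (nat_lit 592) (nat_lit 5) (nat_lit 591) (nat_lit 5) (nat_lit 604) (nat_lit 5) (nat_lit 402) (nat_lit 388) (nat_lit 350))))) (XT.nd (nat_lit 234) (nat_lit 988) (nat_lit 0) (XT.nd (nat_lit 78) (nat_lit 988) (nat_lit 0) (XT.lf (nat_lit 0) (nat_lit 5385289745) (nat_lit 912) (nat_lit 276255681) (nat_lit 988) (nat_lit 1283852225) (nat_lit 592) (nat_lit 5) (nat_lit 604) (nat_lit 5) (nat_lit 605) (nat_lit 5) (nat_lit 403) (nat_lit 388) (nat_lit 349)) (XT.nd (nat_lit 78) (nat_lit 0) (nat_lit 0) (XT.lf (nat_lit 0)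 (nat_lit 586536087) (nat_lit 988) (nat_lit 3511042964) (nat_lit 1064) (nat_lit 2883501749) (nat_lit 579) (nat_lit 5) (nat_lit 592) (nat_lit 5) (nat_lit 593) (nat_lit 5) (nat_lit 404) (nat_lit 388) (nat_lit 348)) (XT.lf (nat_lit 76) (nat_lit 236854440) (nat_lit 0) (nat_lit 2472417573) (nat_lit 1064) (nat_lit 4308951828) (nat_lit 580) (nat_lit 5) (nat_lit 579) (nat_lit 5) (nat_lit 593) (nat_lit 5) (nat_lit 405) (nat_lit 388) (nat_lit 347)))) (XT.nd (nat_lit 78) (nat_lit 988) (nat_lit 0) (XT.lf (nat_lit 76) (nat_lit 4074053860) (nat_lit 0) (nat_lit 775347454) (nat_lit 1064) (nat_lit 2207242452) (nat_lit 580) (nat_lit 5) (nat_lit 579) (nat_lit 5) (nat_lit 593) (nat_lit 5) (nat_lit 406) (nat_lit 388) (nat_lit 346)) (XT.nd (nat_lit 78) (nat_lit 76) (nat_lit 0) (XT.lf (nat_lit 0) (nat_lit 863606231) (nat_lit 988) (nat_lit 6132967824) (nat_lit 1064) (nat_lit 100005372) (nat_lit 567) (nat_lit 5) (nat_lit 580) (nat_lit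 5) (nat_lit 581) (nat_lit 5) (nat_lit 407) (nat_lit 388) (nat_lit 345)) (XT.lf (nat_lit 0) (nat_lit 2000583616) (nat_lit 1064) (nat_lit 2362447669) (nat_lit 76) (nat_lit 2774485602) (nat_lit 566) (nat_lit 5) (nat_lit 580) (nat_lit 5) (nat_lit 567) (nat_lit 5) (nat_lit 408) (nat_lit 388) (nat_lit 344))))))) (XT.nd (nat_lit 780) (nat_lit 8588) (nat_lit 0) (XT.nd (nat_lit 390) (nat_lit 4256) (nat_lit 0) (XT.nd (nat_lit 156) (nat_lit 2432) (nat_lit 0) (XT.nd (nat_lit 78) (nat_lit 0) (nat_lit 0) (XT.lf (nat_lit 0) (nat_lit 1571995004) (nat_lit 1064) (nat_lit 2533786486) (nat_lit 1140) (nat_lit 3074229959) (nat_lit 552) (nat_lit 5) (nat_lit 566) (nat_lit 5) (nat_lit 567) (nat_lit 5) (nat_lit 409) (nat_lit 388) (nat_lit 343)) (XT.lf (nat_lit 0) (nat_lit 5583922109) (nat_lit 1064) (nat_lit 639434517) (nat_lit 1140) (nat_lit 1000623516) (nat_lit 552) (nat_lit 5) (nat_lit 566) (nat_lit 5) (nat_lit 567) (nat_lit 5) (nat_lit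 410) (nat_lit 388) (nat_lit 342))) (XT.nd (nat_lit 78) (nat_lit 1216) (nat_lit 0) (XT.lf (nat_lit 0) (nat_lit 1079020498) (nat_lit 1216) (nat_lit 4879647937) (nat_lit 76) (nat_lit 1310459975) (nat_lit 536) (nat_lit 5) (nat_lit 552) (nat_lit 5) (nat_lit 537) (nat_lit 5) (nat_lit 411) (nat_lit 388) (nat_lit 341)) (XT.nd (nat_lit 78) (nat_lit 1216) (nat_lit 0) (XT.lf (nat_lit 0) (nat_lit 3157916008) (nat_lit 1216) (nat_lit 838025914) (nat_lit 76) (nat_lit 3319712292) (nat_lit 536) (nat_lit 5) (nat_lit 552) (nat_lit 5) (nat_lit 537) (nat_lit 5) (nat_lit 412) (nat_lit 388) (nat_lit 340)) (XT.lf (nat_lit 0) (nat_lit 3294327028) (nat_lit 1216) (nat_lit 1962050607) (nat_lit 1292) (nat_lit 2107200577) (nat_lit 520) (nat_lit 5) (nat_lit 536) (nat_lit 5) (nat_lit 537) (nat_lit 5) (nat_lit 413) (nat_lit 388) (nat_lit 339))))) (XT.nd (nat_lit 156) (nat_lit 2888) (nat_lit 0) (XT.nd (nat_lit 78) (nat_lit 76) (nat_lit 0) (XT.lf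 (nat_lit 0) (nat_lit 74514851) (nat_lit 1292) (nat_lit 7286467069) (nat_lit 1368) (nat_lit 52222207) (nat_lit 503) (nat_lit 5) (nat_lit 520) (nat_lit 5) (nat_lit 521) (nat_lit 5) (nat_lit 414) (nat_lit 388) (nat_lit 338)) (XT.lf (nat_lit 0) (nat_lit 2015142850) (nat_lit 1368) (nat_lit 3167803454) (nat_lit 76) (nat_lit 2280674861) (nat_lit 502) (nat_lit 5) (nat_lit 520) (nat_lit 5) (nat_lit 503) (nat_lit 5) (nat_lit 415) (nat_lit 388) (nat_lit 337))) (XT.nd (nat_lit 78) (nat_lit 1520) (nat_lit 0) (XT.lf (nat_lit 0) (nat_lit 1066416574) (nat_lit 1368) (nat_lit 3022106355) (nat_lit 1444) (nat_lit 3427234725) (nat_lit 484) (nat_lit 5) (nat_lit 502) (nat_lit 5) (nat_lit 503) (nat_lit 5) (nat_lit 416) (nat_lit 388) (nat_lit 336)) (XT.nd (nat_lit 78) (nat_lit 1520) (nat_lit 0) (XT.lf (nat_lit 0) (nat_lit 5394759370) (nat_lit 1368) (nat_lit 788908644) (nat_lit 1444) (nat_lit 1385687767) (nat_lit 484) (nat_lit 5) (nat_lit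 502) (nat_lit 5) (nat_lit 503) (nat_lit 5) (nat_lit 417) (nat_lit 388) (nat_lit 335)) (XT.lf (nat_lit 0) (nat_lit 671072044) (nat_lit 1520) (nat_lit 5458066953) (nat_lit 76) (nat_lit 1495149914) (nat_lit 464) (nat_lit 5) (nat_lit 484) (nat_lit 5) (nat_lit 465) (nat_lit 5) (nat_lit 418) (nat_lit 388) (nat_lit 334)))))) (XT.nd (nat_lit 390) (nat_lit 3724) (nat_lit 0) (XT.nd (nat_lit 156) (nat_lit 3344) (nat_lit 0) (XT.nd (nat_lit 78) (nat_lit 1520) (nat_lit 0) (XT.lf (nat_lit 0) (nat_lit 2730517849) (nat_lit 1520) (nat_lit 1105243840) (nat_lit 76) (nat_lit 3844797146) (nat_lit 464) (nat_lit 5) (nat_lit 484) (nat_lit 5) (nat_lit 465) (nat_lit 5) (nat_lit 419) (nat_lit 388) (nat_lit 333)) (XT.lf (nat_lit 0) (nat_lit 3345124336) (nat_lit 1520) (nat_lit 1468701827) (nat_lit 1596) (nat_lit 2924497484) (nat_lit 444) (nat_lit 5) (nat_lit 464) (nat_lit 5) (nat_lit 465) (nat_lit 5) (nat_lit 420) (nat_lit 388) (nat_lit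 332))) (XT.nd (nat_lit 78) (nat_lit 1748) (nat_lit 0) (XT.lf (nat_lit 0) (nat_lit 63033087) (nat_lit 1596) (nat_lit 6851322515) (nat_lit 1672) (nat_lit 883399568) (nat_lit 423) (nat_lit 5) (nat_lit 444) (nat_lit 5) (nat_lit 445) (nat_lit 5) (nat_lit 421) (nat_lit 388) (nat_lit 331)) (XT.nd (nat_lit 78) (nat_lit 1672) (nat_lit 0) (XT.lf (nat_lit 0) (nat_lit 1184005568) (nat_lit 1672) (nat_lit 3241844285) (nat_lit 76) (nat_lit 3432367396) (nat_lit 422) (nat_lit 5) (nat_lit 444) (nat_lit 5) (nat_lit 423) (nat_lit 5) (nat_lit 422) (nat_lit 388) (nat_lit 330)) (XT.lf (nat_lit 0) (nat_lit 1318712008) (nat_lit 1672) (nat_lit 1933341731) (nat_lit 1748) (nat_lit 4668316786) (nat_lit 400) (nat_lit 5) (nat_lit 422) (nat_lit 5) (nat_lit 423) (nat_lit 5) (nat_lit 423) (nat_lit 388) (nat_lit 329))))) (XT.nd (nat_lit 234) (nat_lit 1900) (nat_lit 0) (XT.nd (nat_lit 78) (nat_lit 1824) (nat_lit 0) (XT.lf (nat_lit 0) (nat_lit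 5350406549) (nat_lit 1748) (nat_lit 2007191524) (nat_lit 76) (nat_lit 626410718) (nat_lit 400) (nat_lit 5) (nat_lit 423) (nat_lit 5) (nat_lit 401) (nat_lit 5) (nat_lit 424) (nat_lit 388) (nat_lit 328)) (XT.nd (nat_lit 78) (nat_lit 76) (nat_lit 0) (XT.lf (nat_lit 0) (nat_lit 2667835640) (nat_lit 1748) (nat_lit 4816830412) (nat_lit 1824) (nat_lit 564395369) (nat_lit 377) (nat_lit 5) (nat_lit 400) (nat_lit 5) (nat_lit 401) (nat_lit 5) (nat_lit 425) (nat_lit 388) (nat_lit 327)) (XT.lf (nat_lit 0) (nat_lit 1503527458) (nat_lit 1824) (nat_lit 695494051) (nat_lit 76) (nat_lit 5916660205) (nat_lit 376) (nat_lit 5) (nat_lit 400) (nat_lit 5) (nat_lit 377) (nat_lit 5) (nat_lit 426) (nat_lit 388) (nat_lit 326)))) (XT.nd (nat_lit 78) (nat_lit 912) (nat_lit 0) (XT.lf (nat_lit 0) (nat_lit 3599914705) (nat_lit 1064) (nat_lit 4086155759) (nat_lit 76) (nat_lit 497615286) (nat_lit 363) (nat_lit 5) (nat_lit 377) (nat_lit 5) (nat_lit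 364) (nat_lit 5) (nat_lit 427) (nat_lit 388) (nat_lit 325)) (XT.nd (nat_lit 78) (nat_lit 0) (nat_lit 0) (XT.lf (nat_lit 0) (nat_lit 703885996) (nat_lit 912) (nat_lit 5023421100) (nat_lit 988) (nat_lit 2525980061) (nat_lit 351) (nat_lit 5) (nat_lit 363) (nat_lit 5) (nat_lit 364) (nat_lit 5) (nat_lit 428) (nat_lit 388) (nat_lit 324)) (XT.lf (nat_lit 0) (nat_lit 5611701576) (nat_lit 912) (nat_lit 2278676712) (nat_lit 988) (nat_lit 434058152) (nat_lit 351) (nat_lit 5) (nat_lit 363) (nat_lit 5) (nat_lit 364) (nat_lit 5) (nat_lit 429) (nat_lit 388) (nat_lit 323))))))))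
noncomputable def xc120 : XT := (XT.nd (nat_lit 1560) (nat_lit 6536) (nat_lit 0) (XT.nd (nat_lit 780) (nat_lit 4104) (nat_lit 0) (XT.nd (nat_lit 390) (nat_lit 2356) (nat_lit 0) (XT.nd (nat_lit 156) (nat_lit 1672) (nat_lit 0) (XT.nd (nat_lit 78) (nat_lit 0) (nat_lit 0) (XT.lf (nat_lit 0) (nat_lit 1661425684) (nat_lit 912) (nat_lit 6195426987) (nat_lit 76) (nat_lit 540272770) (nat_lit 339) (nat_lit 5) (nat_lit 351) (nat_lit 5) (nat_lit 340) (nat_lit 5) (nat_lit 430) (nat_lit 388) (nat_lit 322)) (XT.lf (nat_lit 0) (nat_lit 3793022275) (nat_lit 912) (nat_lit 1271495505) (nat_lit 76) (nat_lit 3406710159) (nat_lit 339) (nat_lit 5) (nat_lit 351) (nat_lit 5) (nat_lit 340) (nat_lit 5) (nat_lit 431) (nat_lit 388) (nat_lit 321))) (XT.nd (nat_lit 78) (nat_lit 836) (nat_lit 0) (XT.lf (nat_lit 0) (nat_lit 3767286032) (nat_lit 836) (nat_lit 2191674166) (nat_lit 912) (nat_lit 2588035165) (nat_lit 328) (nat_lit 5) (nat_lit 339)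 (nat_lit 5) (nat_lit 340) (nat_lit 5) (nat_lit 432) (nat_lit 388) (nat_lit 320)) (XT.nd (nat_lit 78) (nat_lit 76) (nat_lit 0) (XT.lf (nat_lit 0) (nat_lit 265116287) (nat_lit 760) (nat_lit 7885881983) (nat_lit 836) (nat_lit 473640963) (nat_lit 318) (nat_lit 5) (nat_lit 328) (nat_lit 5) (nat_lit 329) (nat_lit 5) (nat_lit 433) (nat_lit 388) (nat_lit 319)) (XT.lf (nat_lit 0) (nat_lit 1675634813) (nat_lit 836) (nat_lit 3286922721) (nat_lit 76) (nat_lit 3740782635) (nat_lit 317) (nat_lit 5) (nat_lit 328) (nat_lit 5) (nat_lit 318) (nat_lit 5) (nat_lit 434) (nat_lit 388) (nat_lit 318))))) (XT.nd (nat_lit 156) (nat_lit 1596) (nat_lit 0) (XT.nd (nat_lit 78) (nat_lit 0) (nat_lit 0) (XT.lf (nat_lit 0) (nat_lit 1875549181) (nat_lit 760) (nat_lit 1966684093) (nat_lit 836) (nat_lit 4941721413) (nat_lit 307) (nat_lit 5) (nat_lit 317) (nat_lit 5) (nat_lit 318) (nat_lit 5) (nat_lit 435) (nat_lit 388) (nat_lit 317)) (XT.lf (nat_lit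 0) (nat_lit 6050327353) (nat_lit 836) (nat_lit 1720582666) (nat_lit 76) (nat_lit 1095323656) (nat_lit 307) (nat_lit 5) (nat_lit 318) (nat_lit 5) (nat_lit 308) (nat_lit 5) (nat_lit 436) (nat_lit 388) (nat_lit 316))) (XT.nd (nat_lit 78) (nat_lit 836) (nat_lit 0) (XT.lf (nat_lit 0) (nat_lit 3572025222) (nat_lit 760) (nat_lit 4736273848) (nat_lit 836) (nat_lit 641760008) (nat_lit 297) (nat_lit 5) (nat_lit 307) (nat_lit 5) (nat_lit 308) (nat_lit 5) (nat_lit 437) (nat_lit 388) (nat_lit 315)) (XT.nd (nat_lit 78) (nat_lit 760) (nat_lit 0) (XT.lf (nat_lit 0) (nat_lit 1536495741) (nat_lit 836) (nat_lit 84826518) (nat_lit 76) (nat_lit 7414422774) (nat_lit 296) (nat_lit 5) (nat_lit 307) (nat_lit 5) (nat_lit 297) (nat_lit 5) (nat_lit 438) (nat_lit 388) (nat_lit 314)) (XT.lf (nat_lit 0) (nat_lit 3765062555) (nat_lit 836) (nat_lit 3785535043) (nat_lit 76) (nat_lit 1572169763) (nat_lit 286) (nat_lit 5) (nat_lit 297) (nat_lit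 5) (nat_lit 287) (nat_lit 5) (nat_lit 439) (nat_lit 388) (nat_lit 313)))))) (XT.nd (nat_lit 390) (nat_lit 1976) (nat_lit 0) (XT.nd (nat_lit 156) (nat_lit 1444) (nat_lit 0) (XT.nd (nat_lit 78) (nat_lit 0) (nat_lit 0) (XT.lf (nat_lit 0) (nat_lit 1635350397) (nat_lit 684) (nat_lit 4395401153) (nat_lit 760) (nat_lit 3180941566) (nat_lit 277) (nat_lit 5) (nat_lit 286) (nat_lit 5) (nat_lit 287) (nat_lit 5) (nat_lit 440) (nat_lit 388) (nat_lit 312)) (XT.lf (nat_lit 0) (nat_lit 7183462791) (nat_lit 684) (nat_lit 1154682278) (nat_lit 760) (nat_lit 964338224) (nat_lit 277) (nat_lit 5) (nat_lit 286) (nat_lit 5) (nat_lit 287) (nat_lit 5) (nat_lit 441) (nat_lit 388) (nat_lit 311))) (XT.nd (nat_lit 78) (nat_lit 684) (nat_lit 0) (XT.lf (nat_lit 0) (nat_lit 1287505519) (nat_lit 760) (nat_lit 5957161435) (nat_lit 76) (nat_lit 2150108872) (nat_lit 267) (nat_lit 5) (nat_lit 277) (nat_lit 5) (nat_lit 268) (nat_lit 5) (nat_lit 442)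 (nat_lit 388) (nat_lit 310)) (XT.nd (nat_lit 78) (nat_lit 684) (nat_lit 0) (XT.lf (nat_lit 0) (nat_lit 3565130757) (nat_lit 760) (nat_lit 401254685) (nat_lit 76) (nat_lit 5522541071) (nat_lit 267) (nat_lit 5) (nat_lit 277) (nat_lit 5) (nat_lit 268) (nat_lit 5) (nat_lit 443) (nat_lit 388) (nat_lit 309)) (XT.lf (nat_lit 0) (nat_lit 5303360694) (nat_lit 684) (nat_lit 591620173) (nat_lit 760) (nat_lit 3689858577) (nat_lit 258) (nat_lit 5) (nat_lit 267) (nat_lit 5) (nat_lit 268) (nat_lit 5) (nat_lit 444) (nat_lit 388) (nat_lit 308))))) (XT.nd (nat_lit 156) (nat_lit 1216) (nat_lit 0) (XT.nd (nat_lit 78) (nat_lit 76) (nat_lit 0) (XT.lf (nat_lit 0) (nat_lit 1412604697) (nat_lit 684) (nat_lit 6861763030) (nat_lit 760) (nat_lit 1408256540) (nat_lit 249) (nat_lit 5) (nat_lit 258) (nat_lit 5) (nat_lit 259) (nat_lit 5) (nat_lit 445) (nat_lit 388) (nat_lit 307)) (XT.lf (nat_lit 0) (nat_lit 912452080) (nat_lit 760) (nat_lit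 2545707677) (nat_lit 76) (nat_lit 6323987100) (nat_lit 248) (nat_lit 5) (nat_lit 258) (nat_lit 5) (nat_lit 249) (nat_lit 5) (nat_lit 446) (nat_lit 388) (nat_lit 306))) (XT.nd (nat_lit 78) (nat_lit 608) (nat_lit 0) (XT.lf (nat_lit 0) (nat_lit 3255612235) (nat_lit 684) (nat_lit 6588683005) (nat_lit 76) (nat_lit 39292322) (nat_lit 240) (nat_lit 5) (nat_lit 249) (nat_lit 5) (nat_lit 241) (nat_lit 5) (nat_lit 447) (nat_lit 388) (nat_lit 305)) (XT.nd (nat_lit 78) (nat_lit 608) (nat_lit 0) (XT.lf (nat_lit 0) (nat_lit 5659243281) (nat_lit 684) (nat_lit 755004149) (nat_lit 76) (nat_lit 3572548980) (nat_lit 240) (nat_lit 5) (nat_lit 249) (nat_lit 5) (nat_lit 241) (nat_lit 5) (nat_lit 448) (nat_lit 388) (nat_lit 304)) (XT.lf (nat_lit 0) (nat_lit 5232492330) (nat_lit 608) (nat_lit 2886456641) (nat_lit 684) (nat_lit 1972971680) (nat_lit 232) (nat_lit 5) (nat_lit 240) (nat_lit 5) (nat_lit 241) (nat_lit 5) (nat_lit 449) (nat_lit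 388) (nat_lit 303))))))) (XT.nd (nat_lit 780) (nat_lit 2964) (nat_lit 0) (XT.nd (nat_lit 390) (nat_lit 1748) (nat_lit 0) (XT.nd (nat_lit 156) (nat_lit 1140) (nat_lit 0) (XT.nd (nat_lit 78) (nat_lit 0) (nat_lit 0) (XT.lf (nat_lit 0) (nat_lit 414364109) (nat_lit 684) (nat_lit 9072736653) (nat_lit 76) (nat_lit 712176063) (nat_lit 223) (nat_lit 5) (nat_lit 232) (nat_lit 5) (nat_lit 224) (nat_lit 5) (nat_lit 450) (nat_lit 388) (nat_lit 302)) (XT.lf (nat_lit 0) (nat_lit 2849413252) (nat_lit 684) (nat_lit 3074330102) (nat_lit 76) (nat_lit 4384258853) (nat_lit 223) (nat_lit 5) (nat_lit 232) (nat_lit 5) (nat_lit 224) (nat_lit 5) (nat_lit 451) (nat_lit 388) (nat_lit 301))) (XT.nd (nat_lit 78) (nat_lit 532) (nat_lit 0) (XT.lf (nat_lit 0) (nat_lit 3052804789) (nat_lit 608) (nat_lit 2275100158) (nat_lit 684) (nat_lit 5091112719) (nat_lit 215) (nat_lit 5) (nat_lit 223) (nat_lit 5) (nat_lit 224) (nat_lit 5) (nat_lit 452) (nat_lit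 388) (nat_lit 300)) (XT.nd (nat_lit 78) (nat_lit 532) (nat_lit 0) (XT.lf (nat_lit 0) (nat_lit 7861295167) (nat_lit 684) (nat_lit 1228750749) (nat_lit 76) (nat_lit 1442111139) (nat_lit 215) (nat_lit 5) (nat_lit 224) (nat_lit 5) (nat_lit 216) (nat_lit 5) (nat_lit 453) (nat_lit 388) (nat_lit 299)) (XT.lf (nat_lit 0) (nat_lit 5051729159) (nat_lit 532) (nat_lit 5417146912) (nat_lit 608) (nat_lit 178222701) (nat_lit 208) (nat_lit 5) (nat_lit 215) (nat_lit 5) (nat_lit 216) (nat_lit 5) (nat_lit 454) (nat_lit 388) (nat_lit 298))))) (XT.nd (nat_lit 156) (nat_lit 1140) (nat_lit 0) (XT.nd (nat_lit 78) (nat_lit 0) (nat_lit 0) (XT.lf (nat_lit 0) (nat_lit 672670310) (nat_lit 532) (nat_lit 1649024400) (nat_lit 608) (nat_lit 8442578547) (nat_lit 200) (nat_lit 5) (nat_lit 207) (nat_lit 5) (nat_lit 208) (nat_lit 5) (nat_lit 455) (nat_lit 388) (nat_lit 297)) (XT.lf (nat_lit 0) (nat_lit 4897266631) (nat_lit 608) (nat_lit 3788086194)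 (nat_lit 76) (nat_lit 2197863414) (nat_lit 200) (nat_lit 5) (nat_lit 208) (nat_lit 5) (nat_lit 201) (nat_lit 5) (nat_lit 456) (nat_lit 388) (nat_lit 296))) (XT.nd (nat_lit 78) (nat_lit 608) (nat_lit 0) (XT.lf (nat_lit 0) (nat_lit 2634458240) (nat_lit 532) (nat_lit 4894383662) (nat_lit 608) (nat_lit 3475615575) (nat_lit 193) (nat_lit 5) (nat_lit 200) (nat_lit 5) (nat_lit 201) (nat_lit 5) (nat_lit 457) (nat_lit 388) (nat_lit 295)) (XT.nd (nat_lit 78) (nat_lit 608) (nat_lit 0) (XT.lf (nat_lit 0) (nat_lit 9206330511) (nat_lit 532) (nat_lit 1008868387) (nat_lit 608) (nat_lit 912890689) (nat_lit 193) (nat_lit 5) (nat_lit 200) (nat_lit 5) (nat_lit 201) (nat_lit 5) (nat_lit 458) (nat_lit 388) (nat_lit 294)) (XT.lf (nat_lit 0) (nat_lit 1705570856) (nat_lit 608) (nat_lit 6597709799) (nat_lit 76) (nat_lit 2950165651) (nat_lit 185) (nat_lit 5) (nat_lit 193) (nat_lit 5) (nat_lit 186) (nat_lit 5) (nat_lit 459) (nat_lit 388)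 (nat_lit 293)))))) (XT.nd (nat_lit 390) (nat_lit 1444) (nat_lit 0) (XT.nd (nat_lit 156) (nat_lit 1064) (nat_lit 0) (XT.nd (nat_lit 78) (nat_lit 456) (nat_lit 0) (XT.lf (nat_lit 0) (nat_lit 4361087251) (nat_lit 608) (nat_lit 33437718) (nat_lit 76) (nat_lit 6986734854) (nat_lit 185) (nat_lit 5) (nat_lit 193) (nat_lit 5) (nat_lit 186) (nat_lit 5) (nat_lit 460) (nat_lit 388) (nat_lit 292)) (XT.lf (nat_lit 0) (nat_lit 6720450757) (nat_lit 456) (nat_lit 370578340) (nat_lit 532) (nat_lit 4420182573) (nat_lit 179) (nat_lit 5) (nat_lit 185) (nat_lit 5) (nat_lit 186) (nat_lit 5) (nat_lit 461) (nat_lit 388) (nat_lit 291))) (XT.nd (nat_lit 78) (nat_lit 532) (nat_lit 0) (XT.lf (nat_lit 0) (nat_lit 1937262065) (nat_lit 532) (nat_lit 7953232090) (nat_lit 608) (nat_lit 1752978114) (nat_lit 172) (nat_lit 5) (nat_lit 179) (nat_lit 5) (nat_lit 180) (nat_lit 5) (nat_lit 462) (nat_lit 388) (nat_lit 290)) (XT.nd (nat_lit 78) (nat_lit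 456) (nat_lit 0) (XT.lf (nat_lit 0) (nat_lit 967661399) (nat_lit 608) (nat_lit 2952015574) (nat_lit 76) (nat_lit 7858327728) (nat_lit 171) (nat_lit 5) (nat_lit 179) (nat_lit 5) (nat_lit 172) (nat_lit 5) (nat_lit 463) (nat_lit 388) (nat_lit 289)) (XT.lf (nat_lit 0) (nat_lit 3724751303) (nat_lit 532) (nat_lit 7968476054) (nat_lit 76) (nat_lit 221666210) (nat_lit 165) (nat_lit 5) (nat_lit 172) (nat_lit 5) (nat_lit 166) (nat_lit 5) (nat_lit 464) (nat_lit 388) (nat_lit 288))))) (XT.nd (nat_lit 234) (nat_lit 456) (nat_lit 0) (XT.nd (nat_lit 78) (nat_lit 988) (nat_lit 0) (XT.lf (nat_lit 0) (nat_lit 6561460627) (nat_lit 532) (nat_lit 1087094034) (nat_lit 76) (nat_lit 4405483571) (nat_lit 165) (nat_lit 5) (nat_lit 172) (nat_lit 5) (nat_lit 166) (nat_lit 5) (nat_lit 465) (nat_lit 388) (nat_lit 287)) (XT.nd (nat_lit 78) (nat_lit 532) (nat_lit 0) (XT.lf (nat_lit 0) (nat_lit 5981227844) (nat_lit 456) (nat_lit 3491509145)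 (nat_lit 532) (nat_lit 2722879572) (nat_lit 159) (nat_lit 5) (nat_lit 165) (nat_lit 5) (nat_lit 166) (nat_lit 5) (nat_lit 466) (nat_lit 388) (nat_lit 286)) (XT.lf (nat_lit 0) (nat_lit 97688366) (nat_lit 532) (nat_lit 11498137248) (nat_lit 76) (nat_lit 744258379) (nat_lit 152) (nat_lit 5) (nat_lit 159) (nat_lit 5) (nat_lit 153) (nat_lit 5) (nat_lit 467) (nat_lit 388) (nat_lit 285)))) (XT.nd (nat_lit 78) (nat_lit 456) (nat_lit 0) (XT.lf (nat_lit 0) (nat_lit 2982588433) (nat_lit 532) (nat_lit 4433792011) (nat_lit 76) (nat_lit 5069819761) (nat_lit 152) (nat_lit 5) (nat_lit 159) (nat_lit 5) (nat_lit 153) (nat_lit 5) (nat_lit 468) (nat_lit 388) (nat_lit 284)) (XT.nd (nat_lit 78) (nat_lit 0) (nat_lit 0) (XT.lf (nat_lit 0) (nat_lit 2779469050) (nat_lit 456) (nat_lit 3143416038) (nat_lit 532) (nat_lit 6712406543) (nat_lit 146) (nat_lit 5) (nat_lit 152) (nat_lit 5) (nat_lit 153) (nat_lit 5) (nat_lit 469) (nat_lit 388)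 (nat_lit 283)) (XT.lf (nat_lit 0) (nat_lit 8939636729) (nat_lit 532) (nat_lit 2626747862) (nat_lit 76) (nat_lit 1220634041) (nat_lit 146) (nat_lit 5) (nat_lit 153) (nat_lit 5) (nat_lit 147) (nat_lit 5) (nat_lit 470) (nat_lit 388) (nat_lit 282))))))))
noncomputable def xc121 : XT := (XT.nd (nat_lit 1638) (nat_lit 1748) (nat_lit 0) (XT.nd (nat_lit 780) (nat_lit 2128) (nat_lit 0) (XT.nd (nat_lit 390) (nat_lit 1216) (nat_lit 0) (XT.nd (nat_lit 156) (nat_lit 836) (nat_lit 0) (XT.nd (nat_lit 78) (nat_lit 76) (nat_lit 0) (XT.lf (nat_lit 0) (nat_lit 4760100093) (nat_lit 380) (nat_lit 7288552535) (nat_lit 456) (nat_lit 892495555) (nat_lit 141) (nat_lit 5) (nat_lit 146) (nat_lit 5) (nat_lit 147) (nat_lit 5) (nat_lit 471) (nat_lit 388) (nat_lit 281)) (XT.lf (nat_lit 0) (nat_lit 2091683279) (nat_lit 456) (nat_lit 810109366) (nat_lit 76) (nat_lit 10196338167) (nat_lit 140) (nat_lit 5) (nat_lit 146) (nat_lit 5) (nat_lit 141)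 (nat_lit 5) (nat_lit 472) (nat_lit 388) (nat_lit 280))) (XT.nd (nat_lit 78) (nat_lit 380) (nat_lit 0) (XT.lf (nat_lit 0) (nat_lit 5158663572) (nat_lit 532) (nat_lit 6505041140) (nat_lit 76) (nat_lit 1593735242) (nat_lit 134) (nat_lit 5) (nat_lit 141) (nat_lit 5) (nat_lit 135) (nat_lit 5) (nat_lit 473) (nat_lit 388) (nat_lit 279)) (XT.nd (nat_lit 78) (nat_lit 0) (nat_lit 0) (XT.lf (nat_lit 0) (nat_lit 1023388386) (nat_lit 380) (nat_lit 7275733654) (nat_lit 456) (nat_lit 5120576559) (nat_lit 129) (nat_lit 5) (nat_lit 134) (nat_lit 5) (nat_lit 135) (nat_lit 5) (nat_lit 474) (nat_lit 388) (nat_lit 278)) (XT.lf (nat_lit 0) (nat_lit 8762656650) (nat_lit 380) (nat_lit 2764385086) (nat_lit 456) (nat_lit 2057673614) (nat_lit 129) (nat_lit 5) (nat_lit 134) (nat_lit 5) (nat_lit 135) (nat_lit 5) (nat_lit 475) (nat_lit 388) (nat_lit 277))))) (XT.nd (nat_lit 156) (nat_lit 760) (nat_lit 0) (XT.nd (nat_lit 78) (nat_lit 0) (nat_lit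 0) (XT.lf (nat_lit 0) (nat_lit 1064660952) (nat_lit 456) (nat_lit 10857671281) (nat_lit 76) (nat_lit 1830324242) (nat_lit 123) (nat_lit 5) (nat_lit 129) (nat_lit 5) (nat_lit 124) (nat_lit 5) (nat_lit 476) (nat_lit 388) (nat_lit 276)) (XT.lf (nat_lit 0) (nat_lit 4254171064) (nat_lit 456) (nat_lit 3151476398) (nat_lit 76) (nat_lit 6517396941) (nat_lit 123) (nat_lit 5) (nat_lit 129) (nat_lit 5) (nat_lit 124) (nat_lit 5) (nat_lit 477) (nat_lit 388) (nat_lit 275))) (XT.nd (nat_lit 78) (nat_lit 380) (nat_lit 0) (XT.lf (nat_lit 0) (nat_lit 4743850073) (nat_lit 380) (nat_lit 2776162033) (nat_lit 456) (nat_lit 6576582690) (nat_lit 118) (nat_lit 5) (nat_lit 123) (nat_lit 5) (nat_lit 124) (nat_lit 5) (nat_lit 478) (nat_lit 388) (nat_lit 274)) (XT.nd (nat_lit 78) (nat_lit 380) (nat_lit 0) (XT.lf (nat_lit 0) (nat_lit 10866957160) (nat_lit 456) (nat_lit 1473503852) (nat_lit 76) (nat_lit 1932844851) (nat_lit 118) (nat_lit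 5) (nat_lit 124) (nat_lit 5) (nat_lit 119) (nat_lit 5) (nat_lit 479) (nat_lit 388) (nat_lit 273)) (XT.lf (nat_lit 0) (nat_lit 6604756708) (nat_lit 380) (nat_lit 7719572550) (nat_lit 456) (nat_lit 128357435) (nat_lit 113) (nat_lit 5) (nat_lit 118) (nat_lit 5) (nat_lit 119) (nat_lit 5) (nat_lit 480) (nat_lit 388) (nat_lit 272)))))) (XT.nd (nat_lit 390) (nat_lit 988) (nat_lit 0) (XT.nd (nat_lit 156) (nat_lit 760) (nat_lit 0) (XT.nd (nat_lit 78) (nat_lit 0) (nat_lit 0) (XT.lf (nat_lit 0) (nat_lit 183700597) (nat_lit 304) (nat_lit 2982745926) (nat_lit 380) (nat_lit 11468927795) (nat_lit 108) (nat_lit 5) (nat_lit 112) (nat_lit 5) (nat_lit 113) (nat_lit 5) (nat_lit 481) (nat_lit 388) (nat_lit 271)) (XT.lf (nat_lit 0) (nat_lit 6572835184) (nat_lit 380) (nat_lit 6378507219) (nat_lit 76) (nat_lit 1869413178) (nat_lit 108) (nat_lit 5) (nat_lit 113) (nat_lit 5) (nat_lit 109) (nat_lit 5) (nat_lit 482) (nat_lit 388) (nat_lit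 270))) (XT.nd (nat_lit 78) (nat_lit 380) (nat_lit 0) (XT.lf (nat_lit 0) (nat_lit 1833964476) (nat_lit 380) (nat_lit 8227782508) (nat_lit 456) (nat_lit 4947814476) (nat_lit 103) (nat_lit 5) (nat_lit 108) (nat_lit 5) (nat_lit 109) (nat_lit 5) (nat_lit 483) (nat_lit 388) (nat_lit 269)) (XT.nd (nat_lit 78) (nat_lit 380) (nat_lit 0) (XT.lf (nat_lit 0) (nat_lit 10270864385) (nat_lit 380) (nat_lit 3375278429) (nat_lit 456) (nat_lit 1555491332) (nat_lit 103) (nat_lit 5) (nat_lit 108) (nat_lit 5) (nat_lit 109) (nat_lit 5) (nat_lit 484) (nat_lit 388) (nat_lit 268)) (XT.lf (nat_lit 0) (nat_lit 1895849615) (nat_lit 380) (nat_lit 11921270161) (nat_lit 76) (nat_lit 1579862768) (nat_lit 98) (nat_lit 5) (nat_lit 103) (nat_lit 5) (nat_lit 99) (nat_lit 5) (nat_lit 485) (nat_lit 388) (nat_lit 267))))) (XT.nd (nat_lit 234) (nat_lit 684) (nat_lit 0) (XT.nd (nat_lit 78) (nat_lit 304) (nat_lit 0) (XT.lf (nat_lit 0) (nat_lit 5434295183)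 (nat_lit 380) (nat_lit 3537393065) (nat_lit 76) (nat_lit 6623570435) (nat_lit 98) (nat_lit 5) (nat_lit 103) (nat_lit 5) (nat_lit 99) (nat_lit 5) (nat_lit 486) (nat_lit 388) (nat_lit 266)) (XT.nd (nat_lit 78) (nat_lit 0) (nat_lit 0) (XT.lf (nat_lit 0) (nat_lit 5054863149) (nat_lit 304) (nat_lit 4005021272) (nat_lit 380) (nat_lit 6737292868) (nat_lit 94) (nat_lit 5) (nat_lit 98) (nat_lit 5) (nat_lit 99) (nat_lit 5) (nat_lit 487) (nat_lit 388) (nat_lit 265)) (XT.lf (nat_lit 0) (nat_lit 12772422267) (nat_lit 380) (nat_lit 2168486764) (nat_lit 76) (nat_lit 1061940851) (nat_lit 94) (nat_lit 5) (nat_lit 99) (nat_lit 5) (nat_lit 95) (nat_lit 5) (nat_lit 488) (nat_lit 388) (nat_lit 264)))) (XT.nd (nat_lit 78) (nat_lit 304) (nat_lit 0) (XT.lf (nat_lit 0) (nat_lit 395804562) (nat_lit 380) (nat_lit 9602359060) (nat_lit 76) (nat_lit 6213355982) (nat_lit 89) (nat_lit 5) (nat_lit 94) (nat_lit 5) (nat_lit 90) (nat_lit 5) (nat_lit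 489) (nat_lit 388) (nat_lit 263)) (XT.nd (nat_lit 78) (nat_lit 304) (nat_lit 0) (XT.lf (nat_lit 0) (nat_lit 4050010737) (nat_lit 380) (nat_lit 879049586) (nat_lit 76) (nat_lit 11494905342) (nat_lit 89) (nat_lit 5) (nat_lit 94) (nat_lit 5) (nat_lit 90) (nat_lit 5) (nat_lit 490) (nat_lit 388) (nat_lit 262)) (XT.lf (nat_lit 0) (nat_lit 7816079531) (nat_lit 380) (nat_lit 8541569453) (nat_lit 76) (nat_lit 282240111) (nat_lit 85) (nat_lit 5) (nat_lit 90) (nat_lit 5) (nat_lit 86) (nat_lit 5) (nat_lit 491) (nat_lit 388) (nat_lit 261))))))) (XT.nd (nat_lit 780) (nat_lit 304) (nat_lit 0) (XT.nd (nat_lit 390) (nat_lit 608) (nat_lit 0) (XT.nd (nat_lit 156) (nat_lit 608) (nat_lit 0) (XT.nd (nat_lit 78) (nat_lit 0) (nat_lit 0) (XT.lf (nat_lit 0) (nat_lit 354262403) (nat_lit 228) (nat_lit 11328506627) (nat_lit 304) (nat_lit 5176859918) (nat_lit 82) (nat_lit 5) (nat_lit 85) (nat_lit 5) (nat_lit 86) (nat_lit 5) (nat_lit 492)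 (nat_lit 388) (nat_lit 260)) (XT.lf (nat_lit 0) (nat_lit 9519116597) (nat_lit 228) (nat_lit 6149557935) (nat_lit 304) (nat_lit 1414255286) (nat_lit 82) (nat_lit 5) (nat_lit 85) (nat_lit 5) (nat_lit 86) (nat_lit 5) (nat_lit 493) (nat_lit 388) (nat_lit 259))) (XT.nd (nat_lit 78) (nat_lit 228) (nat_lit 0) (XT.lf (nat_lit 0) (nat_lit 1536588310) (nat_lit 304) (nat_lit 849966206) (nat_lit 380) (nat_lit 14923936411) (nat_lit 77) (nat_lit 5) (nat_lit 81) (nat_lit 5) (nat_lit 82) (nat_lit 5) (nat_lit 494) (nat_lit 388) (nat_lit 258)) (XT.nd (nat_lit 78) (nat_lit 228) (nat_lit 0) (XT.lf (nat_lit 0) (nat_lit 6309977264) (nat_lit 380) (nat_lit 6683826456) (nat_lit 76) (nat_lit 4547305540) (nat_lit 77) (nat_lit 5) (nat_lit 82) (nat_lit 5) (nat_lit 78) (nat_lit 5) (nat_lit 495) (nat_lit 388) (nat_lit 257)) (XT.lf (nat_lit 0) (nat_lit 2592416899) (nat_lit 228) (nat_lit 7727053868) (nat_lit 304) (nat_lit 7456720716) (nat_lit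 74) (nat_lit 5) (nat_lit 77) (nat_lit 5) (nat_lit 78) (nat_lit 5) (nat_lit 496) (nat_lit 388) (nat_lit 256))))) (XT.nd (nat_lit 156) (nat_lit 228) (nat_lit 0) (XT.nd (nat_lit 78) (nat_lit 380) (nat_lit 0) (XT.lf (nat_lit 0) (nat_lit 12120938653) (nat_lit 228) (nat_lit 2318345683) (nat_lit 304) (nat_lit 3576091913) (nat_lit 74) (nat_lit 5) (nat_lit 77) (nat_lit 5) (nat_lit 78) (nat_lit 5) (nat_lit 497) (nat_lit 388) (nat_lit 255)) (XT.lf (nat_lit 0) (nat_lit 406870719) (nat_lit 380) (nat_lit 14678133259) (nat_lit 76) (nat_lit 3173699805) (nat_lit 69) (nat_lit 5) (nat_lit 74) (nat_lit 5) (nat_lit 70) (nat_lit 5) (nat_lit 498) (nat_lit 388) (nat_lit 254))) (XT.nd (nat_lit 78) (nat_lit 228) (nat_lit 0) (XT.lf (nat_lit 0) (nat_lit 4462365701) (nat_lit 380) (nat_lit 5244079258) (nat_lit 76) (nat_lit 8799168309) (nat_lit 69) (nat_lit 5) (nat_lit 74) (nat_lit 5) (nat_lit 70) (nat_lit 5) (nat_lit 499) (nat_lit 388) (nat_lit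 253)) (XT.nd (nat_lit 78) (nat_lit 0) (nat_lit 0) (XT.lf (nat_lit 0) (nat_lit 4413347487) (nat_lit 228) (nat_lit 4200103154) (nat_lit 304) (nat_lit 10143723934) (nat_lit 66) (nat_lit 5) (nat_lit 69) (nat_lit 5) (nat_lit 70) (nat_lit 5) (nat_lit 500) (nat_lit 388) (nat_lit 252)) (XT.lf (nat_lit 0) (nat_lit 12878072500) (nat_lit 304) (nat_lit 4710748011) (nat_lit 76) (nat_lit 1424339463) (nat_lit 66) (nat_lit 5) (nat_lit 70) (nat_lit 5) (nat_lit 67) (nat_lit 5) (nat_lit 501) (nat_lit 388) (nat_lit 251)))))) (XT.nd (nat_lit 50778) (nat_lit 0) (nat_lit 41040) (XT.nd (nat_lit 50544) (nat_lit 0) (nat_lit 42560) (XT.nd (nat_lit 78) (nat_lit 76) (nat_lit 0) (XT.lf (nat_lit 0) (nat_lit 5131673031) (nat_lit 228) (nat_lit 12143619450) (nat_lit 304) (nat_lit 1998029593) (nat_lit 63) (nat_lit 5) (nat_lit 66) (nat_lit 5) (nat_lit 67) (nat_lit 5) (nat_lit 502) (nat_lit 388) (nat_lit 250)) (XT.lf (nat_lit 0) (nat_lit 2210653963)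 (nat_lit 304) (nat_lit 4340735290) (nat_lit 76) (nat_lit 12986652177) (nat_lit 62) (nat_lit 5) (nat_lit 66) (nat_lit 5) (nat_lit 63) (nat_lit 5) (nat_lit 503) (nat_lit 388) (nat_lit 249))) (XT.nd (nat_lit 78) (nat_lit 684) (nat_lit 0) (XT.lf (nat_lit 0) (nat_lit 1498490876) (nat_lit 684) (nat_lit 900579051) (nat_lit 684) (nat_lit 900579051) (nat_lit 631) (nat_lit 3) (nat_lit 640) (nat_lit 3) (nat_lit 640) (nat_lit 5) (nat_lit 389) (nat_lit 389) (nat_lit 362)) (XT.nd (nat_lit 78) (nat_lit 684) (nat_lit 0) (XT.lf (nat_lit 76) (nat_lit 1355545790) (nat_lit 0) (nat_lit 3975210116) (nat_lit 684) (nat_lit 1286637440) (nat_lit 632) (nat_lit 5) (nat_lit 631) (nat_lit 3) (nat_lit 640) (nat_lit 5) (nat_lit 390) (nat_lit 389) (nat_lit 361)) (XT.lf (nat_lit 0) (nat_lit 1012570131) (nat_lit 684) (nat_lit 2074860997) (nat_lit 760) (nat_lit 3549300344) (nat_lit 622) (nat_lit 5) (nat_lit 631) (nat_lit 3) (nat_lit 632) (nat_lit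 5) (nat_lit 391) (nat_lit 389) (nat_lit 360))))) (XT.nd (nat_lit 234) (nat_lit 760) (nat_lit 0) (XT.nd (nat_lit 78) (nat_lit 760) (nat_lit 0) (XT.lf (nat_lit 76) (nat_lit 1151079303) (nat_lit 0) (nat_lit 2137289192) (nat_lit 760) (nat_lit 3369007002) (nat_lit 623) (nat_lit 5) (nat_lit 622) (nat_lit 5) (nat_lit 632) (nat_lit 5) (nat_lit 392) (nat_lit 389) (nat_lit 359)) (XT.nd (nat_lit 78) (nat_lit 760) (nat_lit 0) (XT.lf (nat_lit 76) (nat_lit 4438508202) (nat_lit 0) (nat_lit 1126410498) (nat_lit 760) (nat_lit 1114454007) (nat_lit 623) (nat_lit 5) (nat_lit 622) (nat_lit 5) (nat_lit 632) (nat_lit 5) (nat_lit 393) (nat_lit 389) (nat_lit 358)) (XT.lf (nat_lit 76) (nat_lit 1064787501) (nat_lit 0) (nat_lit 53810472) (nat_lit 836) (nat_lit 5584122223) (nat_lit 613) (nat_lit 5) (nat_lit 612) (nat_lit 5) (nat_lit 623) (nat_lit 5) (nat_lit 394) (nat_lit 389) (nat_lit 357)))) (XT.nd (nat_lit 78) (nat_lit 836) (nat_lit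 0) (XT.lf (nat_lit 0) (nat_lit 3346434147) (nat_lit 760) (nat_lit 2306042666) (nat_lit 836) (nat_lit 1074652004) (nat_lit 613) (nat_lit 5) (nat_lit 623) (nat_lit 5) (nat_lit 624) (nat_lit 5) (nat_lit 395) (nat_lit 389) (nat_lit 356)) (XT.nd (nat_lit 78) (nat_lit 836) (nat_lit 0) (XT.lf (nat_lit 76) (nat_lit 1074353633) (nat_lit 0) (nat_lit 4496060913) (nat_lit 836) (nat_lit 1182620909) (nat_lit 614) (nat_lit 5) (nat_lit 613) (nat_lit 5) (nat_lit 624) (nat_lit 5) (nat_lit 396) (nat_lit 389) (nat_lit 355)) (XT.lf (nat_lit 0) (nat_lit 1005836845) (nat_lit 836) (nat_lit 2264944986) (nat_lit 912) (nat_lit 3509374466) (nat_lit 602) (nat_lit 5) (nat_lit 613) (nat_lit 5) (nat_lit 614) (nat_lit 5) (nat_lit 397) (nat_lit 389) (nat_lit 354))))))))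
noncomputable def xc122 : XT := (XT.nd (nat_lit 1638) (nat_lit 13528) (nat_lit 0) (XT.nd (nat_lit 780) (nat_lit 7676) (nat_lit 0) (XT.nd (nat_lit 390) (nat_lit 1976) (nat_lit 0) (XT.nd (nat_lit 156) (nat_lit 836) (nat_lit 0) (XT.nd (nat_lit 78) (nat_lit 0) (nat_lit 0) (XT.lf (nat_lit 76) (nat_lit 1193087880) (nat_lit 0) (nat_lit 1982724922) (nat_lit 912) (nat_lit 3632817921) (nat_lit 603) (nat_lit 5) (nat_lit 602) (nat_lit 5) (nat_lit 614) (nat_lit 5) (nat_lit 398) (nat_lit 389) (nat_lit 353)) (XT.lf (nat_lit 76) (nat_lit 4719398161) (nat_lit 0) (nat_lit 631669529) (nat_lit 912) (nat_lit 1487407786) (nat_lit 603) (nat_lit 5) (nat_lit 602) (nat_lit 5) (nat_lit 614) (nat_lit 5) (nat_lit 399) (nat_lit 389) (nat_lit 352))) (XT.nd (nat_lit 78) (nat_lit 0) (nat_lit 0) (XT.lf (nat_lit 0) (nat_lit 653417695) (nat_lit 912) (nat_lit 5444987890) (nat_lit 988) (nat_lit 771223462) (nat_lit 591) (nat_lit 5) (nat_lit 603)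 (nat_lit 5) (nat_lit 604) (nat_lit 5) (nat_lit 400) (nat_lit 389) (nat_lit 351)) (XT.nd (nat_lit 78) (nat_lit 0) (nat_lit 0) (XT.lf (nat_lit 0) (nat_lit 2783962057) (nat_lit 912) (nat_lit 1879989271) (nat_lit 988) (nat_lit 2237957562) (nat_lit 591) (nat_lit 5) (nat_lit 603) (nat_lit 5) (nat_lit 604) (nat_lit 5) (nat_lit 401) (nat_lit 389) (nat_lit 350)) (XT.lf (nat_lit 76) (nat_lit 1747166034) (nat_lit 0) (nat_lit 3170611312) (nat_lit 988) (nat_lit 2017879284) (nat_lit 592) (nat_lit 5) (nat_lit 591) (nat_lit 5) (nat_lit 604) (nat_lit 5) (nat_lit 402) (nat_lit 389) (nat_lit 349))))) (XT.nd (nat_lit 156) (nat_lit 988) (nat_lit 0) (XT.nd (nat_lit 78) (nat_lit 0) (nat_lit 76) (XT.lf (nat_lit 0) (nat_lit 84998631) (nat_lit 988) (nat_lit 1530917530) (nat_lit 1064) (nat_lit 5354932403) (nat_lit 578) (nat_lit 5) (nat_lit 591) (nat_lit 5) (nat_lit 592) (nat_lit 5) (nat_lit 403) (nat_lit 389) (nat_lit 348)) (XT.lf (nat_lit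 0) (nat_lit 2167938068) (nat_lit 988) (nat_lit 4824146530) (nat_lit 1064) (nat_lit 15125961) (nat_lit 579) (nat_lit 5) (nat_lit 592) (nat_lit 5) (nat_lit 593) (nat_lit 5) (nat_lit 404) (nat_lit 389) (nat_lit 347))) (XT.nd (nat_lit 78) (nat_lit 1064) (nat_lit 0) (XT.lf (nat_lit 0) (nat_lit 4265172606) (nat_lit 988) (nat_lit 1095599561) (nat_lit 1064) (nat_lit 1684107696) (nat_lit 579) (nat_lit 5) (nat_lit 592) (nat_lit 5) (nat_lit 593) (nat_lit 5) (nat_lit 405) (nat_lit 389) (nat_lit 346)) (XT.nd (nat_lit 78) (nat_lit 1064) (nat_lit 0) (XT.lf (nat_lit 76) (nat_lit 2710902737) (nat_lit 0) (nat_lit 3663592807) (nat_lit 1064) (nat_lit 709436290) (nat_lit 580) (nat_lit 5) (nat_lit 579) (nat_lit 5) (nat_lit 593) (nat_lit 5) (nat_lit 406) (nat_lit 389) (nat_lit 345)) (XT.lf (nat_lit 0) (nat_lit 1344175367) (nat_lit 1064) (nat_lit 556998992) (nat_lit 1140) (nat_lit 5223232786) (nat_lit 565) (nat_lit 5) (nat_lit 579)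 (nat_lit 5) (nat_lit 580) (nat_lit 5) (nat_lit 407) (nat_lit 389) (nat_lit 344)))))) (XT.nd (nat_lit 390) (nat_lit 5472) (nat_lit 0) (XT.nd (nat_lit 156) (nat_lit 1216) (nat_lit 0) (XT.nd (nat_lit 78) (nat_lit 988) (nat_lit 0) (XT.lf (nat_lit 76) (nat_lit 3342516213) (nat_lit 0) (nat_lit 62402606) (nat_lit 1140) (nat_lit 3761198477) (nat_lit 566) (nat_lit 5) (nat_lit 565) (nat_lit 5) (nat_lit 580) (nat_lit 5) (nat_lit 408) (nat_lit 389) (nat_lit 343)) (XT.lf (nat_lit 0) (nat_lit 75384657) (nat_lit 1064) (nat_lit 5402152354) (nat_lit 1140) (nat_lit 1731741148) (nat_lit 552) (nat_lit 5) (nat_lit 566) (nat_lit 5) (nat_lit 567) (nat_lit 5) (nat_lit 409) (nat_lit 389) (nat_lit 342))) (XT.nd (nat_lit 78) (nat_lit 1140) (nat_lit 0) (XT.lf (nat_lit 0) (nat_lit 315099040) (nat_lit 1140) (nat_lit 3184591940) (nat_lit 76) (nat_lit 3753971266) (nat_lit 551) (nat_lit 5) (nat_lit 566) (nat_lit 5) (nat_lit 552) (nat_lit 5)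 (nat_lit 410) (nat_lit 389) (nat_lit 341)) (XT.nd (nat_lit 78) (nat_lit 0) (nat_lit 0) (XT.lf (nat_lit 0) (nat_lit 810302255) (nat_lit 1140) (nat_lit 1530540110) (nat_lit 1216) (nat_lit 4958667619) (nat_lit 536) (nat_lit 5) (nat_lit 551) (nat_lit 5) (nat_lit 552) (nat_lit 5) (nat_lit 411) (nat_lit 389) (nat_lit 340)) (XT.lf (nat_lit 0) (nat_lit 4388315075) (nat_lit 1216) (nat_lit 2454137143) (nat_lit 76) (nat_lit 504225611) (nat_lit 536) (nat_lit 5) (nat_lit 552) (nat_lit 5) (nat_lit 537) (nat_lit 5) (nat_lit 412) (nat_lit 389) (nat_lit 339))))) (XT.nd (nat_lit 234) (nat_lit 2888) (nat_lit 0) (XT.nd (nat_lit 78) (nat_lit 1368) (nat_lit 0) (XT.lf (nat_lit 0) (nat_lit 1640358290) (nat_lit 1216) (nat_lit 4814615515) (nat_lit 1292) (nat_lit 940277400) (nat_lit 520) (nat_lit 5) (nat_lit 536) (nat_lit 5) (nat_lit 537) (nat_lit 5) (nat_lit 413) (nat_lit 389) (nat_lit 338)) (XT.nd (nat_lit 78) (nat_lit 1292) (nat_lit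 0) (XT.lf (nat_lit 0) (nat_lit 1077852531) (nat_lit 1292) (nat_lit 1634851902) (nat_lit 76) (nat_lit 4732485320) (nat_lit 519) (nat_lit 5) (nat_lit 536) (nat_lit 5) (nat_lit 520) (nat_lit 5) (nat_lit 414) (nat_lit 389) (nat_lit 337)) (XT.lf (nat_lit 0) (nat_lit 2562593001) (nat_lit 1292) (nat_lit 536409852) (nat_lit 1368) (nat_lit 4397520305) (nat_lit 502) (nat_lit 5) (nat_lit 519) (nat_lit 5) (nat_lit 520) (nat_lit 5) (nat_lit 415) (nat_lit 389) (nat_lit 336)))) (XT.nd (nat_lit 78) (nat_lit 2888) (nat_lit 0) (XT.lf (nat_lit 0) (nat_lit 5141806663) (nat_lit 1368) (nat_lit 726581297) (nat_lit 76) (nat_lit 1680895516) (nat_lit 502) (nat_lit 5) (nat_lit 520) (nat_lit 5) (nat_lit 503) (nat_lit 5) (nat_lit 416) (nat_lit 389) (nat_lit 335)) (XT.nd (nat_lit 78) (nat_lit 1520) (nat_lit 0) (XT.lf (nat_lit 0) (nat_lit 3575845644) (nat_lit 1368) (nat_lit 3636446220) (nat_lit 1444) (nat_lit 391095002) (nat_lit 484) (nat_lit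 5) (nat_lit 502) (nat_lit 5) (nat_lit 503) (nat_lit 5) (nat_lit 417) (nat_lit 389) (nat_lit 334)) (XT.lf (nat_lit 0) (nat_lit 275713261) (nat_lit 1444) (nat_lit 1335100503) (nat_lit 1520) (nat_lit 6048224810) (nat_lit 464) (nat_lit 5) (nat_lit 483) (nat_lit 5) (nat_lit 484) (nat_lit 5) (nat_lit 418) (nat_lit 389) (nat_lit 333))))))) (XT.nd (nat_lit 780) (nat_lit 5852) (nat_lit 0) (XT.nd (nat_lit 390) (nat_lit 4484) (nat_lit 0) (XT.nd (nat_lit 156) (nat_lit 1672) (nat_lit 0) (XT.nd (nat_lit 78) (nat_lit 1520) (nat_lit 0) (XT.lf (nat_lit 0) (nat_lit 3642261919) (nat_lit 1520) (nat_lit 3038360231) (nat_lit 76) (nat_lit 1035257669) (nat_lit 464) (nat_lit 5) (nat_lit 484) (nat_lit 5) (nat_lit 465) (nat_lit 5) (nat_lit 419) (nat_lit 389) (nat_lit 332)) (XT.lf (nat_lit 0) (nat_lit 1369900183) (nat_lit 1520) (nat_lit 4323895298) (nat_lit 1596) (nat_lit 2080495791) (nat_lit 444) (nat_lit 5) (nat_lit 464) (nat_lit 5)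 (nat_lit 465) (nat_lit 5) (nat_lit 420) (nat_lit 389) (nat_lit 331))) (XT.nd (nat_lit 78) (nat_lit 1672) (nat_lit 0) (XT.lf (nat_lit 0) (nat_lit 5874998168) (nat_lit 1520) (nat_lit 1894010444) (nat_lit 1596) (nat_lit 65231436) (nat_lit 444) (nat_lit 5) (nat_lit 464) (nat_lit 5) (nat_lit 465) (nat_lit 5) (nat_lit 421) (nat_lit 389) (nat_lit 330)) (XT.nd (nat_lit 78) (nat_lit 0) (nat_lit 0) (XT.lf (nat_lit 0) (nat_lit 1947631708) (nat_lit 1672) (nat_lit 5336474258) (nat_lit 76) (nat_lit 611376652) (nat_lit 422) (nat_lit 5) (nat_lit 444) (nat_lit 5) (nat_lit 423) (nat_lit 5) (nat_lit 422) (nat_lit 389) (nat_lit 329)) (XT.lf (nat_lit 0) (nat_lit 3988942155) (nat_lit 1672) (nat_lit 809532210) (nat_lit 76) (nat_lit 3159706579) (nat_lit 422) (nat_lit 5) (nat_lit 444) (nat_lit 5) (nat_lit 423) (nat_lit 5) (nat_lit 423) (nat_lit 389) (nat_lit 328))))) (XT.nd (nat_lit 156) (nat_lit 988) (nat_lit 0) (XT.nd (nat_lit 78)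 (nat_lit 1824) (nat_lit 0) (XT.lf (nat_lit 0) (nat_lit 3825806597) (nat_lit 1672) (nat_lit 2234116733) (nat_lit 1748) (nat_lit 1962453407) (nat_lit 400) (nat_lit 5) (nat_lit 422) (nat_lit 5) (nat_lit 423) (nat_lit 5) (nat_lit 424) (nat_lit 389) (nat_lit 327)) (XT.lf (nat_lit 0) (nat_lit 58552741) (nat_lit 1824) (nat_lit 7641176963) (nat_lit 76) (nat_lit 388631515) (nat_lit 376) (nat_lit 5) (nat_lit 400) (nat_lit 5) (nat_lit 377) (nat_lit 5) (nat_lit 425) (nat_lit 389) (nat_lit 326))) (XT.nd (nat_lit 78) (nat_lit 988) (nat_lit 0) (XT.lf (nat_lit 0) (nat_lit 2101626296) (nat_lit 1824) (nat_lit 2975510147) (nat_lit 76) (nat_lit 3078130235) (nat_lit 376) (nat_lit 5) (nat_lit 400) (nat_lit 5) (nat_lit 377) (nat_lit 5) (nat_lit 426) (nat_lit 389) (nat_lit 325)) (XT.nd (nat_lit 78) (nat_lit 0) (nat_lit 0) (XT.lf (nat_lit 0) (nat_lit 1774260353) (nat_lit 988) (nat_lit 2388268490) (nat_lit 1064) (nat_lit 4061460891)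 (nat_lit 363) (nat_lit 5) (nat_lit 376) (nat_lit 5) (nat_lit 377) (nat_lit 5) (nat_lit 427) (nat_lit 389) (nat_lit 324)) (XT.lf (nat_lit 0) (nat_lit 6252977420) (nat_lit 1064) (nat_lit 1669738574) (nat_lit 76) (nat_lit 371623166) (nat_lit 363) (nat_lit 5) (nat_lit 377) (nat_lit 5) (nat_lit 364) (nat_lit 5) (nat_lit 428) (nat_lit 389) (nat_lit 323)))))) (XT.nd (nat_lit 390) (nat_lit 3192) (nat_lit 0) (XT.nd (nat_lit 156) (nat_lit 1672) (nat_lit 0) (XT.nd (nat_lit 78) (nat_lit 0) (nat_lit 0) (XT.lf (nat_lit 0) (nat_lit 22078071) (nat_lit 988) (nat_lit 5166526319) (nat_lit 76) (nat_lit 3177442656) (nat_lit 350) (nat_lit 5) (nat_lit 363) (nat_lit 5) (nat_lit 351) (nat_lit 5) (nat_lit 429) (nat_lit 389) (nat_lit 322)) (XT.lf (nat_lit 0) (nat_lit 2077563835) (nat_lit 988) (nat_lit 296336064) (nat_lit 76) (nat_lit 6065474505) (nat_lit 350) (nat_lit 5) (nat_lit 363) (nat_lit 5) (nat_lit 351) (nat_lit 5) (nat_lit 430)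 (nat_lit 389) (nat_lit 321))) (XT.nd (nat_lit 78) (nat_lit 836) (nat_lit 0) (XT.lf (nat_lit 0) (nat_lit 4175571974) (nat_lit 912) (nat_lit 3816685339) (nat_lit 76) (nat_lit 521899806) (nat_lit 339) (nat_lit 5) (nat_lit 351) (nat_lit 5) (nat_lit 340) (nat_lit 5) (nat_lit 431) (nat_lit 389) (nat_lit 320)) (XT.nd (nat_lit 78) (nat_lit 0) (nat_lit 0) (XT.lf (nat_lit 0) (nat_lit 1172024511) (nat_lit 836) (nat_lit 5136740099) (nat_lit 912) (nat_lit 2281823118) (nat_lit 328) (nat_lit 5) (nat_lit 339) (nat_lit 5) (nat_lit 340) (nat_lit 5) (nat_lit 432) (nat_lit 389) (nat_lit 319)) (XT.lf (nat_lit 0) (nat_lit 6280068403) (nat_lit 836) (nat_lit 2198477170) (nat_lit 912) (nat_lit 190139287) (nat_lit 328) (nat_lit 5) (nat_lit 339) (nat_lit 5) (nat_lit 340) (nat_lit 5) (nat_lit 433) (nat_lit 389) (nat_lit 318))))) (XT.nd (nat_lit 234) (nat_lit 1596) (nat_lit 0) (XT.nd (nat_lit 78) (nat_lit 760) (nat_lit 0) (XT.lf (nat_lit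 0) (nat_lit 1909729642) (nat_lit 836) (nat_lit 6020578804) (nat_lit 76) (nat_lit 817962113) (nat_lit 317) (nat_lit 5) (nat_lit 328) (nat_lit 5) (nat_lit 318) (nat_lit 5) (nat_lit 434) (nat_lit 389) (nat_lit 317)) (XT.nd (nat_lit 78) (nat_lit 760) (nat_lit 0) (XT.lf (nat_lit 0) (nat_lit 4048860550) (nat_lit 836) (nat_lit 898741659) (nat_lit 76) (nat_lit 3881839868) (nat_lit 317) (nat_lit 5) (nat_lit 328) (nat_lit 5) (nat_lit 318) (nat_lit 5) (nat_lit 435) (nat_lit 389) (nat_lit 316)) (XT.lf (nat_lit 0) (nat_lit 4350835473) (nat_lit 760) (nat_lit 1877906434) (nat_lit 836) (nat_lit 2683550913) (nat_lit 307) (nat_lit 5) (nat_lit 317) (nat_lit 5) (nat_lit 318) (nat_lit 5) (nat_lit 436) (nat_lit 389) (nat_lit 315)))) (XT.nd (nat_lit 78) (nat_lit 836) (nat_lit 0) (XT.lf (nat_lit 0) (nat_lit 689623237) (nat_lit 760) (nat_lit 7751380067) (nat_lit 836) (nat_lit 556036478) (nat_lit 297) (nat_lit 5) (nat_lit 307) (nat_lit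 5) (nat_lit 308) (nat_lit 5) (nat_lit 437) (nat_lit 389) (nat_lit 314)) (XT.nd (nat_lit 78) (nat_lit 760) (nat_lit 0) (XT.lf (nat_lit 0) (nat_lit 1606375442) (nat_lit 836) (nat_lit 3030780445) (nat_lit 76) (nat_lit 4445860178) (nat_lit 296) (nat_lit 5) (nat_lit 307) (nat_lit 5) (nat_lit 297) (nat_lit 5) (nat_lit 438) (nat_lit 389) (nat_lit 313)) (XT.lf (nat_lit 0) (nat_lit 2346768996) (nat_lit 760) (nat_lit 1443914537) (nat_lit 836) (nat_lit 5380246964) (nat_lit 286) (nat_lit 5) (nat_lit 296) (nat_lit 5) (nat_lit 297) (nat_lit 5) (nat_lit 439) (nat_lit 389) (nat_lit 312))))))))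
noncomputable def xc123 : XT := (XT.nd (nat_lit 1638) (nat_lit 5548) (nat_lit 0) (XT.nd (nat_lit 780) (nat_lit 3572) (nat_lit 0) (XT.nd (nat_lit 390) (nat_lit 1976) (nat_lit 0) (XT.nd (nat_lit 156) (nat_lit 1444) (nat_lit 0) (XT.nd (nat_lit 78) (nat_lit 684) (nat_lit 0) (XT.lf (nat_lit 0) (nat_lit 6022121904) (nat_lit 836) (nat_lit 1431229508) (nat_lit 76) (nat_lit 1807196645) (nat_lit 286) (nat_lit 5) (nat_lit 297) (nat_lit 5) (nat_lit 287) (nat_lit 5) (nat_lit 440) (nat_lit 389) (nat_lit 311)) (XT.lf (nat_lit 0) (nat_lit 4082086692) (nat_lit 684) (nat_lit 4223931895) (nat_lit 760) (nat_lit 1045796243) (nat_lit 277) (nat_lit 5) (nat_lit 286) (nat_lit 5) (nat_lit 287) (nat_lit 5) (nat_lit 441) (nat_lit 389) (nat_lit 310))) (XT.nd (nat_lit 78) (nat_lit 684) (nat_lit 0) (XT.lf (nat_lit 0) (nat_lit 244133960) (nat_lit 684) (nat_lit 914105928) (nat_lit 760) (nat_lit 8286861973) (nat_lit 267) (nat_lit 5) (nat_lit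 276) (nat_lit 5) (nat_lit 277) (nat_lit 5) (nat_lit 442) (nat_lit 389) (nat_lit 309)) (XT.nd (nat_lit 78) (nat_lit 684) (nat_lit 0) (XT.lf (nat_lit 0) (nat_lit 3416187289) (nat_lit 760) (nat_lit 3654949949) (nat_lit 76) (nat_lit 2468515142) (nat_lit 267) (nat_lit 5) (nat_lit 277) (nat_lit 5) (nat_lit 268) (nat_lit 5) (nat_lit 443) (nat_lit 389) (nat_lit 308)) (XT.lf (nat_lit 0) (nat_lit 1990705857) (nat_lit 684) (nat_lit 3720350203) (nat_lit 760) (nat_lit 3925215031) (nat_lit 258) (nat_lit 5) (nat_lit 267) (nat_lit 5) (nat_lit 268) (nat_lit 5) (nat_lit 444) (nat_lit 389) (nat_lit 307))))) (XT.nd (nat_lit 156) (nat_lit 1216) (nat_lit 0) (XT.nd (nat_lit 78) (nat_lit 760) (nat_lit 0) (XT.lf (nat_lit 0) (nat_lit 7767687466) (nat_lit 684) (nat_lit 281776664) (nat_lit 760) (nat_lit 1685417392) (nat_lit 258) (nat_lit 5) (nat_lit 267) (nat_lit 5) (nat_lit 268) (nat_lit 5) (nat_lit 445) (nat_lit 389) (nat_lit 306)) (XT.lf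 (nat_lit 0) (nat_lit 610813229) (nat_lit 760) (nat_lit 6016199683) (nat_lit 76) (nat_lit 3207995249) (nat_lit 248) (nat_lit 5) (nat_lit 258) (nat_lit 5) (nat_lit 249) (nat_lit 5) (nat_lit 446) (nat_lit 389) (nat_lit 305))) (XT.nd (nat_lit 78) (nat_lit 1216) (nat_lit 0) (XT.lf (nat_lit 0) (nat_lit 2919324624) (nat_lit 760) (nat_lit 233980580) (nat_lit 76) (nat_lit 6783842322) (nat_lit 248) (nat_lit 5) (nat_lit 258) (nat_lit 5) (nat_lit 249) (nat_lit 5) (nat_lit 447) (nat_lit 389) (nat_lit 304)) (XT.nd (nat_lit 78) (nat_lit 608) (nat_lit 0) (XT.lf (nat_lit 0) (nat_lit 5288075955) (nat_lit 684) (nat_lit 4335690642) (nat_lit 76) (nat_lit 417292943) (nat_lit 240) (nat_lit 5) (nat_lit 249) (nat_lit 5) (nat_lit 241) (nat_lit 5) (nat_lit 448) (nat_lit 389) (nat_lit 303)) (XT.lf (nat_lit 0) (nat_lit 1588738260) (nat_lit 608) (nat_lit 6122780986) (nat_lit 684) (nat_lit 2435395247) (nat_lit 232) (nat_lit 5) (nat_lit 240)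 (nat_lit 5) (nat_lit 241) (nat_lit 5) (nat_lit 449) (nat_lit 389) (nat_lit 302)))))) (XT.nd (nat_lit 390) (nat_lit 1748) (nat_lit 0) (XT.nd (nat_lit 156) (nat_lit 1140) (nat_lit 0) (XT.nd (nat_lit 78) (nat_lit 684) (nat_lit 0) (XT.lf (nat_lit 0) (nat_lit 7659766463) (nat_lit 608) (nat_lit 2527598324) (nat_lit 684) (nat_lit 67453909) (nat_lit 232) (nat_lit 5) (nat_lit 240) (nat_lit 5) (nat_lit 241) (nat_lit 5) (nat_lit 450) (nat_lit 389) (nat_lit 301)) (XT.lf (nat_lit 0) (nat_lit 2322467805) (nat_lit 684) (nat_lit 6884814944) (nat_lit 76) (nat_lit 1157195479) (nat_lit 223) (nat_lit 5) (nat_lit 232) (nat_lit 5) (nat_lit 224) (nat_lit 5) (nat_lit 451) (nat_lit 389) (nat_lit 300))) (XT.nd (nat_lit 78) (nat_lit 1140) (nat_lit 0) (XT.lf (nat_lit 0) (nat_lit 4768966629) (nat_lit 684) (nat_lit 812898624) (nat_lit 76) (nat_lit 4894273339) (nat_lit 223) (nat_lit 5) (nat_lit 232) (nat_lit 5) (nat_lit 224) (nat_lit 5) (nat_lit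 452) (nat_lit 389) (nat_lit 299)) (XT.nd (nat_lit 78) (nat_lit 532) (nat_lit 0) (XT.lf (nat_lit 0) (nat_lit 5421496608) (nat_lit 608) (nat_lit 1853993366) (nat_lit 684) (nat_lit 3314330293) (nat_lit 215) (nat_lit 5) (nat_lit 223) (nat_lit 5) (nat_lit 224) (nat_lit 5) (nat_lit 453) (nat_lit 389) (nat_lit 298)) (XT.lf (nat_lit 0) (nat_lit 1056793031) (nat_lit 532) (nat_lit 8776487933) (nat_lit 608) (nat_lit 872481670) (nat_lit 208) (nat_lit 5) (nat_lit 215) (nat_lit 5) (nat_lit 216) (nat_lit 5) (nat_lit 454) (nat_lit 389) (nat_lit 297))))) (XT.nd (nat_lit 234) (nat_lit 1140) (nat_lit 0) (XT.nd (nat_lit 78) (nat_lit 532) (nat_lit 0) (XT.lf (nat_lit 0) (nat_lit 1620411693) (nat_lit 608) (nat_lit 3400312795) (nat_lit 76) (nat_lit 5802630034) (nat_lit 207) (nat_lit 5) (nat_lit 215) (nat_lit 5) (nat_lit 208) (nat_lit 5) (nat_lit 455) (nat_lit 389) (nat_lit 296)) (XT.nd (nat_lit 78) (nat_lit 0) (nat_lit 0) (XT.lf (nat_lit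 0) (nat_lit 2976738014) (nat_lit 532) (nat_lit 1170786971) (nat_lit 608) (nat_lit 6795746262) (nat_lit 200) (nat_lit 5) (nat_lit 207) (nat_lit 5) (nat_lit 208) (nat_lit 5) (nat_lit 456) (nat_lit 389) (nat_lit 295)) (XT.lf (nat_lit 0) (nat_lit 6742972303) (nat_lit 608) (nat_lit 1585825755) (nat_lit 76) (nat_lit 2736441467) (nat_lit 200) (nat_lit 5) (nat_lit 208) (nat_lit 5) (nat_lit 201) (nat_lit 5) (nat_lit 457) (nat_lit 389) (nat_lit 294)))) (XT.nd (nat_lit 78) (nat_lit 608) (nat_lit 0) (XT.lf (nat_lit 0) (nat_lit 4950182580) (nat_lit 532) (nat_lit 4457419815) (nat_lit 608) (nat_lit 1781708176) (nat_lit 193) (nat_lit 5) (nat_lit 200) (nat_lit 5) (nat_lit 201) (nat_lit 5) (nat_lit 458) (nat_lit 389) (nat_lit 293)) (XT.nd (nat_lit 78) (nat_lit 0) (nat_lit 0) (XT.lf (nat_lit 0) (nat_lit 291658827) (nat_lit 532) (nat_lit 497467260) (nat_lit 608) (nat_lit 10526838684) (nat_lit 185) (nat_lit 5) (nat_lit 192) (nat_lit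 5) (nat_lit 193) (nat_lit 5) (nat_lit 459) (nat_lit 389) (nat_lit 292)) (XT.lf (nat_lit 0) (nat_lit 3430363833) (nat_lit 608) (nat_lit 4471560890) (nat_lit 76) (nat_lit 3542143278) (nat_lit 185) (nat_lit 5) (nat_lit 193) (nat_lit 5) (nat_lit 186) (nat_lit 5) (nat_lit 460) (nat_lit 389) (nat_lit 291))))))) (XT.nd (nat_lit 780) (nat_lit 2584) (nat_lit 0) (XT.nd (nat_lit 390) (nat_lit 1444) (nat_lit 0) (XT.nd (nat_lit 156) (nat_lit 1064) (nat_lit 0) (XT.nd (nat_lit 78) (nat_lit 0) (nat_lit 0) (XT.lf (nat_lit 0) (nat_lit 2208687434) (nat_lit 456) (nat_lit 3911492766) (nat_lit 532) (nat_lit 5454646218) (nat_lit 179) (nat_lit 5) (nat_lit 185) (nat_lit 5) (nat_lit 186) (nat_lit 5) (nat_lit 461) (nat_lit 389) (nat_lit 290)) (XT.lf (nat_lit 0) (nat_lit 8873340503) (nat_lit 532) (nat_lit 2655100443) (nat_lit 76) (nat_lit 179576144) (nat_lit 179) (nat_lit 5) (nat_lit 186) (nat_lit 5) (nat_lit 180) (nat_lit 5) (nat_lit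 462) (nat_lit 389) (nat_lit 289))) (XT.nd (nat_lit 78) (nat_lit 532) (nat_lit 0) (XT.lf (nat_lit 0) (nat_lit 4190364219) (nat_lit 532) (nat_lit 7523047269) (nat_lit 608) (nat_lit 129831020) (nat_lit 172) (nat_lit 5) (nat_lit 179) (nat_lit 5) (nat_lit 180) (nat_lit 5) (nat_lit 463) (nat_lit 389) (nat_lit 288)) (XT.nd (nat_lit 78) (nat_lit 456) (nat_lit 0) (XT.lf (nat_lit 0) (nat_lit 2591386174) (nat_lit 608) (nat_lit 818222610) (nat_lit 76) (nat_lit 8571294708) (nat_lit 171) (nat_lit 5) (nat_lit 179) (nat_lit 5) (nat_lit 172) (nat_lit 5) (nat_lit 464) (nat_lit 389) (nat_lit 287)) (XT.lf (nat_lit 0) (nat_lit 5390142707) (nat_lit 532) (nat_lit 5920974510) (nat_lit 76) (nat_lit 809693674) (nat_lit 165) (nat_lit 5) (nat_lit 172) (nat_lit 5) (nat_lit 166) (nat_lit 5) (nat_lit 465) (nat_lit 389) (nat_lit 286))))) (XT.nd (nat_lit 156) (nat_lit 988) (nat_lit 0) (XT.nd (nat_lit 78) (nat_lit 0) (nat_lit 0) (XT.lf (nat_lit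 0) (nat_lit 1068780415) (nat_lit 456) (nat_lit 7190550987) (nat_lit 532) (nat_lit 4003903176) (nat_lit 159) (nat_lit 5) (nat_lit 165) (nat_lit 5) (nat_lit 166) (nat_lit 5) (nat_lit 466) (nat_lit 389) (nat_lit 285)) (XT.lf (nat_lit 0) (nat_lit 8250217280) (nat_lit 456) (nat_lit 2955049484) (nat_lit 532) (nat_lit 1202859855) (nat_lit 159) (nat_lit 5) (nat_lit 165) (nat_lit 5) (nat_lit 166) (nat_lit 5) (nat_lit 467) (nat_lit 389) (nat_lit 284))) (XT.nd (nat_lit 78) (nat_lit 456) (nat_lit 0) (XT.lf (nat_lit 0) (nat_lit 1641020915) (nat_lit 532) (nat_lit 9544586644) (nat_lit 76) (nat_lit 1369930764) (nat_lit 152) (nat_lit 5) (nat_lit 159) (nat_lit 5) (nat_lit 153) (nat_lit 5) (nat_lit 468) (nat_lit 389) (nat_lit 283)) (XT.nd (nat_lit 78) (nat_lit 456) (nat_lit 0) (XT.lf (nat_lit 0) (nat_lit 4553395871) (nat_lit 532) (nat_lit 2381768490) (nat_lit 76) (nat_lit 5770027153) (nat_lit 152) (nat_lit 5) (nat_lit 159) (nat_lit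 5) (nat_lit 153) (nat_lit 5) (nat_lit 469) (nat_lit 389) (nat_lit 282)) (XT.lf (nat_lit 0) (nat_lit 4961674244) (nat_lit 456) (nat_lit 2575001112) (nat_lit 532) (nat_lit 5320915867) (nat_lit 146) (nat_lit 5) (nat_lit 152) (nat_lit 5) (nat_lit 153) (nat_lit 5) (nat_lit 470) (nat_lit 389) (nat_lit 281)))))) (XT.nd (nat_lit 390) (nat_lit 1292) (nat_lit 0) (XT.nd (nat_lit 156) (nat_lit 836) (nat_lit 0) (XT.nd (nat_lit 78) (nat_lit 456) (nat_lit 0) (XT.lf (nat_lit 0) (nat_lit 10588460126) (nat_lit 532) (nat_lit 568573658) (nat_lit 76) (nat_lit 1855834813) (nat_lit 146) (nat_lit 5) (nat_lit 153) (nat_lit 5) (nat_lit 147) (nat_lit 5) (nat_lit 471) (nat_lit 389) (nat_lit 280)) (XT.lf (nat_lit 0) (nat_lit 566522840) (nat_lit 456) (nat_lit 6221996658) (nat_lit 76) (nat_lit 6381800505) (nat_lit 140) (nat_lit 5) (nat_lit 146) (nat_lit 5) (nat_lit 141) (nat_lit 5) (nat_lit 472) (nat_lit 389) (nat_lit 279))) (XT.nd (nat_lit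 78) (nat_lit 380) (nat_lit 0) (XT.lf (nat_lit 0) (nat_lit 1265542962) (nat_lit 456) (nat_lit 2312395591) (nat_lit 532) (nat_lit 9752804899) (nat_lit 134) (nat_lit 5) (nat_lit 140) (nat_lit 5) (nat_lit 141) (nat_lit 5) (nat_lit 473) (nat_lit 389) (nat_lit 278)) (XT.nd (nat_lit 78) (nat_lit 380) (nat_lit 0) (XT.lf (nat_lit 0) (nat_lit 6687422564) (nat_lit 532) (nat_lit 4548813631) (nat_lit 76) (nat_lit 2257388349) (nat_lit 134) (nat_lit 5) (nat_lit 141) (nat_lit 5) (nat_lit 135) (nat_lit 5) (nat_lit 474) (nat_lit 389) (nat_lit 277)) (XT.lf (nat_lit 0) (nat_lit 3116458642) (nat_lit 380) (nat_lit 6759735609) (nat_lit 456) (nat_lit 3783232903) (nat_lit 129) (nat_lit 5) (nat_lit 134) (nat_lit 5) (nat_lit 135) (nat_lit 5) (nat_lit 475) (nat_lit 389) (nat_lit 276))))) (XT.nd (nat_lit 234) (nat_lit 836) (nat_lit 0) (XT.nd (nat_lit 78) (nat_lit 456) (nat_lit 0) (XT.lf (nat_lit 0) (nat_lit 10969873006) (nat_lit 380) (nat_lit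 2171130907) (nat_lit 456) (nat_lit 687302393) (nat_lit 129) (nat_lit 5) (nat_lit 134) (nat_lit 5) (nat_lit 135) (nat_lit 5) (nat_lit 476) (nat_lit 389) (nat_lit 275)) (XT.nd (nat_lit 78) (nat_lit 0) (nat_lit 0) (XT.lf (nat_lit 0) (nat_lit 2469156016) (nat_lit 456) (nat_lit 9013694205) (nat_lit 76) (nat_lit 2516777311) (nat_lit 123) (nat_lit 5) (nat_lit 129) (nat_lit 5) (nat_lit 124) (nat_lit 5) (nat_lit 477) (nat_lit 389) (nat_lit 274)) (XT.lf (nat_lit 0) (nat_lit 5695334726) (nat_lit 456) (nat_lit 1193789748) (nat_lit 76) (nat_lit 7284849375) (nat_lit 123) (nat_lit 5) (nat_lit 129) (nat_lit 5) (nat_lit 124) (nat_lit 5) (nat_lit 478) (nat_lit 389) (nat_lit 273)))) (XT.nd (nat_lit 78) (nat_lit 456) (nat_lit 0) (XT.lf (nat_lit 0) (nat_lit 6846149068) (nat_lit 380) (nat_lit 2166787227) (nat_lit 456) (nat_lit 5338338116) (nat_lit 118) (nat_lit 5) (nat_lit 123) (nat_lit 5) (nat_lit 124) (nat_lit 5) (nat_lit 479)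 (nat_lit 389) (nat_lit 272)) (XT.nd (nat_lit 78) (nat_lit 76) (nat_lit 0) (XT.lf (nat_lit 0) (nat_lit 494052038) (nat_lit 380) (nat_lit 11913884239) (nat_lit 456) (nat_lit 2123968980) (nat_lit 113) (nat_lit 5) (nat_lit 118) (nat_lit 5) (nat_lit 119) (nat_lit 5) (nat_lit 480) (nat_lit 389) (nat_lit 271)) (XT.lf (nat_lit 0) (nat_lit 1187212151) (nat_lit 456) (nat_lit 6008714697) (nat_lit 76) (nat_lit 7519123559) (nat_lit 112) (nat_lit 5) (nat_lit 118) (nat_lit 5) (nat_lit 113) (nat_lit 5) (nat_lit 481) (nat_lit 389) (nat_lit 270))))))))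
noncomputable def xc124 : XT := (XT.nd (nat_lit 1560) (nat_lit 228) (nat_lit 0) (XT.nd (nat_lit 780) (nat_lit 1444) (nat_lit 0) (XT.nd (nat_lit 390) (nat_lit 988) (nat_lit 0) (XT.nd (nat_lit 156) (nat_lit 760) (nat_lit 0) (XT.nd (nat_lit 78) (nat_lit 0) (nat_lit 0) (XT.lf (nat_lit 0) (nat_lit 2169571317) (nat_lit 304) (nat_lit 2363681359) (nat_lit 380) (nat_lit 10368388381) (nat_lit 108) (nat_lit 5) (nat_lit 112) (nat_lit 5) (nat_lit 113) (nat_lit 5) (nat_lit 482) (nat_lit 389) (nat_lit 269)) (XT.lf (nat_lit 0) (nat_lit 7986531024) (nat_lit 380) (nat_lit 4541145247) (nat_lit 76) (nat_lit 2563485714) (nat_lit 108) (nat_lit 5) (nat_lit 113) (nat_lit 5) (nat_lit 109) (nat_lit 5) (nat_lit 483) (nat_lit 389) (nat_lit 268))) (XT.nd (nat_lit 78) (nat_lit 380) (nat_lit 0) (XT.lf (nat_lit 0) (nat_lit 3822648696) (nat_lit 380) (nat_lit 7710104131) (nat_lit 456) (nat_lit 3751247656) (nat_lit 103) (nat_lit 5) (nat_lit 108)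 (nat_lit 5) (nat_lit 109) (nat_lit 5) (nat_lit 484) (nat_lit 389) (nat_lit 267)) (XT.nd (nat_lit 78) (nat_lit 380) (nat_lit 0) (XT.lf (nat_lit 0) (nat_lit 12390011998) (nat_lit 380) (nat_lit 2773927108) (nat_lit 456) (nat_lit 316480462) (nat_lit 103) (nat_lit 5) (nat_lit 108) (nat_lit 5) (nat_lit 109) (nat_lit 5) (nat_lit 485) (nat_lit 389) (nat_lit 266)) (XT.lf (nat_lit 0) (nat_lit 3179498381) (nat_lit 380) (nat_lit 10220897172) (nat_lit 76) (nat_lit 2279275796) (nat_lit 98) (nat_lit 5) (nat_lit 103) (nat_lit 5) (nat_lit 99) (nat_lit 5) (nat_lit 486) (nat_lit 389) (nat_lit 265))))) (XT.nd (nat_lit 156) (nat_lit 684) (nat_lit 0) (XT.nd (nat_lit 78) (nat_lit 304) (nat_lit 0) (XT.lf (nat_lit 0) (nat_lit 6764286747) (nat_lit 380) (nat_lit 1707358189) (nat_lit 76) (nat_lit 7410763189) (nat_lit 98) (nat_lit 5) (nat_lit 103) (nat_lit 5) (nat_lit 99) (nat_lit 5) (nat_lit 487) (nat_lit 389) (nat_lit 264)) (XT.lf (nat_lit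 0) (nat_lit 7044237999) (nat_lit 304) (nat_lit 3406462551) (nat_lit 380) (nat_lit 5637904761) (nat_lit 94) (nat_lit 5) (nat_lit 98) (nat_lit 5) (nat_lit 99) (nat_lit 5) (nat_lit 488) (nat_lit 389) (nat_lit 263))) (XT.nd (nat_lit 78) (nat_lit 684) (nat_lit 0) (XT.lf (nat_lit 0) (nat_lit 14218091052) (nat_lit 380) (nat_lit 340889043) (nat_lit 76) (nat_lit 1739805560) (nat_lit 94) (nat_lit 5) (nat_lit 99) (nat_lit 5) (nat_lit 95) (nat_lit 5) (nat_lit 489) (nat_lit 389) (nat_lit 262)) (XT.nd (nat_lit 78) (nat_lit 304) (nat_lit 0) (XT.lf (nat_lit 0) (nat_lit 1590785133) (nat_lit 380) (nat_lit 7919667803) (nat_lit 76) (nat_lit 7001251255) (nat_lit 89) (nat_lit 5) (nat_lit 94) (nat_lit 5) (nat_lit 90) (nat_lit 5) (nat_lit 490) (nat_lit 389) (nat_lit 261)) (XT.lf (nat_lit 0) (nat_lit 953858306) (nat_lit 304) (nat_lit 4347134432) (nat_lit 380) (nat_lit 11427754059) (nat_lit 85) (nat_lit 5) (nat_lit 89) (nat_lit 5) (nat_lit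 90) (nat_lit 5) (nat_lit 491) (nat_lit 389) (nat_lit 260)))))) (XT.nd (nat_lit 390) (nat_lit 836) (nat_lit 0) (XT.nd (nat_lit 156) (nat_lit 380) (nat_lit 0) (XT.nd (nat_lit 78) (nat_lit 228) (nat_lit 0) (XT.lf (nat_lit 0) (nat_lit 9129595279) (nat_lit 380) (nat_lit 6867534742) (nat_lit 76) (nat_lit 952120281) (nat_lit 85) (nat_lit 5) (nat_lit 90) (nat_lit 5) (nat_lit 86) (nat_lit 5) (nat_lit 492) (nat_lit 389) (nat_lit 259)) (XT.lf (nat_lit 0) (nat_lit 2194076474) (nat_lit 228) (nat_lit 10868751304) (nat_lit 304) (nat_lit 4110778730) (nat_lit 82) (nat_lit 5) (nat_lit 85) (nat_lit 5) (nat_lit 86) (nat_lit 5) (nat_lit 493) (nat_lit 389) (nat_lit 258))) (XT.nd (nat_lit 78) (nat_lit 380) (nat_lit 0) (XT.lf (nat_lit 0) (nat_lit 11506291893) (nat_lit 228) (nat_lit 5599681000) (nat_lit 304) (nat_lit 295855699) (nat_lit 82) (nat_lit 5) (nat_lit 85) (nat_lit 5) (nat_lit 86) (nat_lit 5) (nat_lit 494) (nat_lit 389) (nat_lit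 257)) (XT.nd (nat_lit 78) (nat_lit 0) (nat_lit 0) (XT.lf (nat_lit 0) (nat_lit 3367506063) (nat_lit 304) (nat_lit 187924129) (nat_lit 380) (nat_lit 14078577259) (nat_lit 77) (nat_lit 5) (nat_lit 81) (nat_lit 5) (nat_lit 82) (nat_lit 5) (nat_lit 495) (nat_lit 389) (nat_lit 256)) (XT.lf (nat_lit 0) (nat_lit 7539660509) (nat_lit 380) (nat_lit 5034688776) (nat_lit 76) (nat_lit 5295247387) (nat_lit 77) (nat_lit 5) (nat_lit 82) (nat_lit 5) (nat_lit 78) (nat_lit 5) (nat_lit 496) (nat_lit 389) (nat_lit 255))))) (XT.nd (nat_lit 156) (nat_lit 608) (nat_lit 0) (XT.nd (nat_lit 78) (nat_lit 0) (nat_lit 0) (XT.lf (nat_lit 0) (nat_lit 4415350405) (nat_lit 228) (nat_lit 7203855602) (nat_lit 304) (nat_lit 6490382489) (nat_lit 74) (nat_lit 5) (nat_lit 77) (nat_lit 5) (nat_lit 78) (nat_lit 5) (nat_lit 497) (nat_lit 389) (nat_lit 254)) (XT.lf (nat_lit 0) (nat_lit 14099715434) (nat_lit 228) (nat_lit 1700262259) (nat_lit 304) (nat_lit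 2554013122) (nat_lit 74) (nat_lit 5) (nat_lit 77) (nat_lit 5) (nat_lit 78) (nat_lit 5) (nat_lit 498) (nat_lit 389) (nat_lit 253))) (XT.nd (nat_lit 78) (nat_lit 228) (nat_lit 0) (XT.lf (nat_lit 0) (nat_lit 1488747971) (nat_lit 380) (nat_lit 13214982405) (nat_lit 76) (nat_lit 3898427776) (nat_lit 69) (nat_lit 5) (nat_lit 74) (nat_lit 5) (nat_lit 70) (nat_lit 5) (nat_lit 499) (nat_lit 389) (nat_lit 252)) (XT.nd (nat_lit 78) (nat_lit 228) (nat_lit 0) (XT.lf (nat_lit 0) (nat_lit 5604299131) (nat_lit 380) (nat_lit 3626692687) (nat_lit 76) (nat_lit 9623439886) (nat_lit 69) (nat_lit 5) (nat_lit 74) (nat_lit 5) (nat_lit 70) (nat_lit 5) (nat_lit 500) (nat_lit 389) (nat_lit 251)) (XT.lf (nat_lit 0) (nat_lit 6212551882) (nat_lit 228) (nat_lit 3616321524) (nat_lit 304) (nat_lit 9282346185) (nat_lit 66) (nat_lit 5) (nat_lit 69) (nat_lit 5) (nat_lit 70) (nat_lit 5) (nat_lit 501) (nat_lit 389) (nat_lit 250))))))) (XT.nd (nat_lit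 51246) (nat_lit 0) (nat_lit 38152) (XT.nd (nat_lit 50856) (nat_lit 0) (nat_lit 40888) (XT.nd (nat_lit 50622) (nat_lit 0) (nat_lit 42484) (XT.nd (nat_lit 78) (nat_lit 228) (nat_lit 0) (XT.lf (nat_lit 0) (nat_lit 14162584388) (nat_lit 304) (nat_lit 3111139220) (nat_lit 76) (nat_lit 2098929771) (nat_lit 66) (nat_lit 5) (nat_lit 70) (nat_lit 5) (nat_lit 67) (nat_lit 5) (nat_lit 502) (nat_lit 389) (nat_lit 249)) (XT.lf (nat_lit 0) (nat_lit 6916986665) (nat_lit 228) (nat_lit 11721550896) (nat_lit 304) (nat_lit 999669910) (nat_lit 63) (nat_lit 5) (nat_lit 66) (nat_lit 5) (nat_lit 67) (nat_lit 5) (nat_lit 503) (nat_lit 389) (nat_lit 248))) (XT.nd (nat_lit 78) (nat_lit 0) (nat_lit 0) (XT.lf (nat_lit 0) (nat_lit 243553569) (nat_lit 0) (nat_lit 243553569) (nat_lit 684) (nat_lit 2830995321) (nat_lit 622) (nat_lit 5) (nat_lit 622) (nat_lit 3) (nat_lit 631) (nat_lit 3) (nat_lit 390) (nat_lit 390) (nat_lit 360)) (XT.nd (nat_lit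 78) (nat_lit 0) (nat_lit 0) (XT.lf (nat_lit 0) (nat_lit 3223852589) (nat_lit 684) (nat_lit 2982827958) (nat_lit 760) (nat_lit 449372055) (nat_lit 622) (nat_lit 5) (nat_lit 631) (nat_lit 3) (nat_lit 632) (nat_lit 5) (nat_lit 391) (nat_lit 390) (nat_lit 359)) (XT.lf (nat_lit 76) (nat_lit 215622427) (nat_lit 0) (nat_lit 5249001823) (nat_lit 760) (nat_lit 1212795198) (nat_lit 623) (nat_lit 5) (nat_lit 622) (nat_lit 5) (nat_lit 632) (nat_lit 5) (nat_lit 392) (nat_lit 390) (nat_lit 358))))) (XT.nd (nat_lit 156) (nat_lit 836) (nat_lit 0) (XT.nd (nat_lit 78) (nat_lit 0) (nat_lit 0) (XT.lf (nat_lit 0) (nat_lit 999401193) (nat_lit 760) (nat_lit 3218652955) (nat_lit 836) (nat_lit 2481822533) (nat_lit 612) (nat_lit 5) (nat_lit 622) (nat_lit 5) (nat_lit 623) (nat_lit 5) (nat_lit 393) (nat_lit 390) (nat_lit 357)) (XT.lf (nat_lit 76) (nat_lit 51251115) (nat_lit 0) (nat_lit 3131874104) (nat_lit 836) (nat_lit 3540669473) (nat_lit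 613) (nat_lit 5) (nat_lit 612) (nat_lit 5) (nat_lit 623) (nat_lit 5) (nat_lit 394) (nat_lit 390) (nat_lit 356))) (XT.nd (nat_lit 78) (nat_lit 836) (nat_lit 0) (XT.lf (nat_lit 76) (nat_lit 3399641924) (nat_lit 0) (nat_lit 1976571676) (nat_lit 836) (nat_lit 1372705260) (nat_lit 613) (nat_lit 5) (nat_lit 612) (nat_lit 5) (nat_lit 623) (nat_lit 5) (nat_lit 395) (nat_lit 390) (nat_lit 355)) (XT.nd (nat_lit 78) (nat_lit 0) (nat_lit 76) (XT.lf (nat_lit 76) (nat_lit 4351281) (nat_lit 0) (nat_lit 768080610) (nat_lit 912) (nat_lit 6003148456) (nat_lit 602) (nat_lit 5) (nat_lit 601) (nat_lit 5) (nat_lit 613) (nat_lit 5) (nat_lit 396) (nat_lit 390) (nat_lit 354)) (XT.lf (nat_lit 0) (nat_lit 2913572284) (nat_lit 836) (nat_lit 3375923475) (nat_lit 912) (nat_lit 513707409) (nat_lit 602) (nat_lit 5) (nat_lit 613) (nat_lit 5) (nat_lit 614) (nat_lit 5) (nat_lit 397) (nat_lit 390) (nat_lit 353)))))) (XT.nd (nat_lit 390) (nat_lit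 1900) (nat_lit 0) (XT.nd (nat_lit 156) (nat_lit 0) (nat_lit 0) (XT.nd (nat_lit 78) (nat_lit 912) (nat_lit 0) (XT.lf (nat_lit 76) (nat_lit 51708850) (nat_lit 0) (nat_lit 4998134499) (nat_lit 912) (nat_lit 1782527365) (nat_lit 603) (nat_lit 5) (nat_lit 602) (nat_lit 5) (nat_lit 614) (nat_lit 5) (nat_lit 398) (nat_lit 390) (nat_lit 352)) (XT.lf (nat_lit 0) (nat_lit 332055455) (nat_lit 912) (nat_lit 3302246755) (nat_lit 988) (nat_lit 3228405780) (nat_lit 590) (nat_lit 5) (nat_lit 602) (nat_lit 5) (nat_lit 603) (nat_lit 5) (nat_lit 399) (nat_lit 390) (nat_lit 351))) (XT.nd (nat_lit 78) (nat_lit 0) (nat_lit 0) (XT.lf (nat_lit 76) (nat_lit 205546663) (nat_lit 0) (nat_lit 2209247138) (nat_lit 988) (nat_lit 4479664132) (nat_lit 591) (nat_lit 5) (nat_lit 590) (nat_lit 5) (nat_lit 603) (nat_lit 5) (nat_lit 400) (nat_lit 390) (nat_lit 350)) (XT.nd (nat_lit 78) (nat_lit 0) (nat_lit 76) (XT.lf (nat_lit 76) (nat_lit 3797382299)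 (nat_lit 0) (nat_lit 713151266) (nat_lit 988) (nat_lit 2416917877) (nat_lit 591) (nat_lit 5) (nat_lit 590) (nat_lit 5) (nat_lit 603) (nat_lit 5) (nat_lit 401) (nat_lit 390) (nat_lit 349)) (XT.lf (nat_lit 76) (nat_lit 469399311) (nat_lit 0) (nat_lit 6137424213) (nat_lit 988) (nat_lit 355143395) (nat_lit 592) (nat_lit 5) (nat_lit 591) (nat_lit 5) (nat_lit 604) (nat_lit 5) (nat_lit 402) (nat_lit 390) (nat_lit 348))))) (XT.nd (nat_lit 234) (nat_lit 988) (nat_lit 0) (XT.nd (nat_lit 78) (nat_lit 0) (nat_lit 0) (XT.lf (nat_lit 0) (nat_lit 1701533399) (nat_lit 988) (nat_lit 2861587470) (nat_lit 1064) (nat_lit 2434326514) (nat_lit 578) (nat_lit 5) (nat_lit 591) (nat_lit 5) (nat_lit 592) (nat_lit 5) (nat_lit 403) (nat_lit 390) (nat_lit 347)) (XT.nd (nat_lit 78) (nat_lit 0) (nat_lit 0) (XT.lf (nat_lit 76) (nat_lit 819118276) (nat_lit 0) (nat_lit 2932483021) (nat_lit 1064) (nat_lit 3282881748) (nat_lit 579) (nat_lit 5)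 (nat_lit 578) (nat_lit 5) (nat_lit 592) (nat_lit 5) (nat_lit 404) (nat_lit 390) (nat_lit 346)) (XT.lf (nat_lit 76) (nat_lit 4581148595) (nat_lit 0) (nat_lit 1233160412) (nat_lit 1064) (nat_lit 1258549796) (nat_lit 579) (nat_lit 5) (nat_lit 578) (nat_lit 5) (nat_lit 592) (nat_lit 5) (nat_lit 405) (nat_lit 390) (nat_lit 345)))) (XT.nd (nat_lit 78) (nat_lit 0) (nat_lit 0) (XT.lf (nat_lit 0) (nat_lit 760518666) (nat_lit 1064) (nat_lit 5829204636) (nat_lit 1140) (nat_lit 522908500) (nat_lit 565) (nat_lit 5) (nat_lit 579) (nat_lit 5) (nat_lit 580) (nat_lit 5) (nat_lit 406) (nat_lit 390) (nat_lit 344)) (XT.nd (nat_lit 78) (nat_lit 0) (nat_lit 0) (XT.lf (nat_lit 0) (nat_lit 2781978514) (nat_lit 1064) (nat_lit 2033609844) (nat_lit 1140) (nat_lit 2337898580) (nat_lit 565) (nat_lit 5) (nat_lit 579) (nat_lit 5) (nat_lit 580) (nat_lit 5) (nat_lit 407) (nat_lit 390) (nat_lit 343)) (XT.lf (nat_lit 76) (nat_lit 1830556937)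 (nat_lit 0) (nat_lit 2979948950) (nat_lit 1140) (nat_lit 2385350230) (nat_lit 566) (nat_lit 5) (nat_lit 565) (nat_lit 5) (nat_lit 580) (nat_lit 5) (nat_lit 408) (nat_lit 390) (nat_lit 342))))))))
noncomputable def xc125 : XT := (XT.nd (nat_lit 1638) (nat_lit 8968) (nat_lit 0) (XT.nd (nat_lit 780) (nat_lit 10108) (nat_lit 0) (XT.nd (nat_lit 390) (nat_lit 3952) (nat_lit 0) (XT.nd (nat_lit 156) (nat_lit 1216) (nat_lit 0) (XT.nd (nat_lit 78) (nat_lit 1064) (nat_lit 0) (XT.lf (nat_lit 76) (nat_lit 5768431417) (nat_lit 0) (nat_lit 1080257121) (nat_lit 1140) (nat_lit 391031569) (nat_lit 566) (nat_lit 5) (nat_lit 565) (nat_lit 5) (nat_lit 580) (nat_lit 5) (nat_lit 409) (nat_lit 390) (nat_lit 341)) (XT.lf (nat_lit 0) (nat_lit 1599621875) (nat_lit 1140) (nat_lit 4799195343) (nat_lit 76) (nat_lit 885898799) (nat_lit 551) (nat_lit 5) (nat_lit 566) (nat_lit 5) (nat_lit 552) (nat_lit 5) (nat_lit 410) (nat_lit 390) (nat_lit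 340))) (XT.nd (nat_lit 78) (nat_lit 1216) (nat_lit 0) (XT.lf (nat_lit 0) (nat_lit 3598686813) (nat_lit 1140) (nat_lit 830727363) (nat_lit 76) (nat_lit 2901696733) (nat_lit 551) (nat_lit 5) (nat_lit 566) (nat_lit 5) (nat_lit 552) (nat_lit 5) (nat_lit 411) (nat_lit 390) (nat_lit 339)) (XT.nd (nat_lit 78) (nat_lit 76) (nat_lit 0) (XT.lf (nat_lit 0) (nat_lit 3228159740) (nat_lit 1140) (nat_lit 2388117873) (nat_lit 1216) (nat_lit 1762612098) (nat_lit 536) (nat_lit 5) (nat_lit 551) (nat_lit 5) (nat_lit 552) (nat_lit 5) (nat_lit 412) (nat_lit 390) (nat_lit 338)) (XT.lf (nat_lit 0) (nat_lit 206885836) (nat_lit 1216) (nat_lit 81332739) (nat_lit 76) (nat_lit 7140128878) (nat_lit 535) (nat_lit 5) (nat_lit 551) (nat_lit 5) (nat_lit 536) (nat_lit 5) (nat_lit 413) (nat_lit 390) (nat_lit 337))))) (XT.nd (nat_lit 156) (nat_lit 1444) (nat_lit 0) (XT.nd (nat_lit 78) (nat_lit 1292) (nat_lit 0) (XT.lf (nat_lit 0) (nat_lit 2189778027)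 (nat_lit 1292) (nat_lit 3410989912) (nat_lit 76) (nat_lit 1877866630) (nat_lit 519) (nat_lit 5) (nat_lit 536) (nat_lit 5) (nat_lit 520) (nat_lit 5) (nat_lit 414) (nat_lit 390) (nat_lit 336)) (XT.lf (nat_lit 0) (nat_lit 746927400) (nat_lit 1292) (nat_lit 3432118426) (nat_lit 1368) (nat_lit 3351572104) (nat_lit 502) (nat_lit 5) (nat_lit 519) (nat_lit 5) (nat_lit 520) (nat_lit 5) (nat_lit 415) (nat_lit 390) (nat_lit 335))) (XT.nd (nat_lit 78) (nat_lit 1444) (nat_lit 0) (XT.lf (nat_lit 0) (nat_lit 5002704850) (nat_lit 1292) (nat_lit 1188284885) (nat_lit 1368) (nat_lit 1393017776) (nat_lit 502) (nat_lit 5) (nat_lit 519) (nat_lit 5) (nat_lit 520) (nat_lit 5) (nat_lit 416) (nat_lit 390) (nat_lit 334)) (XT.nd (nat_lit 78) (nat_lit 0) (nat_lit 0) (XT.lf (nat_lit 0) (nat_lit 575559757) (nat_lit 1444) (nat_lit 5954343909) (nat_lit 76) (nat_lit 1108930457) (nat_lit 483) (nat_lit 5) (nat_lit 502) (nat_lit 5) (nat_lit 484)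 (nat_lit 5) (nat_lit 417) (nat_lit 390) (nat_lit 333)) (XT.lf (nat_lit 0) (nat_lit 2551303356) (nat_lit 1444) (nat_lit 1673140412) (nat_lit 76) (nat_lit 3470423365) (nat_lit 483) (nat_lit 5) (nat_lit 502) (nat_lit 5) (nat_lit 484) (nat_lit 5) (nat_lit 418) (nat_lit 390) (nat_lit 332)))))) (XT.nd (nat_lit 390) (nat_lit 5472) (nat_lit 0) (XT.nd (nat_lit 156) (nat_lit 3192) (nat_lit 0) (XT.nd (nat_lit 78) (nat_lit 0) (nat_lit 0) (XT.lf (nat_lit 0) (nat_lit 2697586749) (nat_lit 1444) (nat_lit 1848375419) (nat_lit 1520) (nat_lit 3206493141) (nat_lit 464) (nat_lit 5) (nat_lit 483) (nat_lit 5) (nat_lit 484) (nat_lit 5) (nat_lit 419) (nat_lit 390) (nat_lit 331)) (XT.lf (nat_lit 0) (nat_lit 6558021838) (nat_lit 1520) (nat_lit 668458403) (nat_lit 76) (nat_lit 585186925) (nat_lit 464) (nat_lit 5) (nat_lit 484) (nat_lit 5) (nat_lit 465) (nat_lit 5) (nat_lit 420) (nat_lit 390) (nat_lit 330))) (XT.nd (nat_lit 78) (nat_lit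 1596) (nat_lit 0) (XT.lf (nat_lit 0) (nat_lit 728754623) (nat_lit 1596) (nat_lit 4064899410) (nat_lit 76) (nat_lit 3078331025) (nat_lit 443) (nat_lit 5) (nat_lit 464) (nat_lit 5) (nat_lit 444) (nat_lit 5) (nat_lit 421) (nat_lit 390) (nat_lit 329)) (XT.nd (nat_lit 78) (nat_lit 0) (nat_lit 0) (XT.lf (nat_lit 0) (nat_lit 413110932) (nat_lit 1596) (nat_lit 2291582856) (nat_lit 1672) (nat_lit 5229257035) (nat_lit 422) (nat_lit 5) (nat_lit 443) (nat_lit 5) (nat_lit 444) (nat_lit 5) (nat_lit 422) (nat_lit 390) (nat_lit 328)) (XT.lf (nat_lit 0) (nat_lit 4713306377) (nat_lit 1672) (nat_lit 2995018488) (nat_lit 76) (nat_lit 288988337) (nat_lit 422) (nat_lit 5) (nat_lit 444) (nat_lit 5) (nat_lit 423) (nat_lit 5) (nat_lit 423) (nat_lit 390) (nat_lit 327))))) (XT.nd (nat_lit 234) (nat_lit 1976) (nat_lit 0) (XT.nd (nat_lit 78) (nat_lit 1824) (nat_lit 0) (XT.lf (nat_lit 0) (nat_lit 1595382496) (nat_lit 1672) (nat_lit 5156953681)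 (nat_lit 1748) (nat_lit 1309821742) (nat_lit 400) (nat_lit 5) (nat_lit 422) (nat_lit 5) (nat_lit 423) (nat_lit 5) (nat_lit 424) (nat_lit 390) (nat_lit 326)) (XT.nd (nat_lit 78) (nat_lit 1748) (nat_lit 0) (XT.lf (nat_lit 0) (nat_lit 679795612) (nat_lit 1748) (nat_lit 1846371858) (nat_lit 76) (nat_lit 5602356285) (nat_lit 399) (nat_lit 5) (nat_lit 422) (nat_lit 5) (nat_lit 400) (nat_lit 5) (nat_lit 425) (nat_lit 390) (nat_lit 325)) (XT.lf (nat_lit 0) (nat_lit 2677134957) (nat_lit 1824) (nat_lit 5333605960) (nat_lit 76) (nat_lit 185612306) (nat_lit 376) (nat_lit 5) (nat_lit 400) (nat_lit 5) (nat_lit 377) (nat_lit 5) (nat_lit 426) (nat_lit 390) (nat_lit 324)))) (XT.nd (nat_lit 78) (nat_lit 1976) (nat_lit 0) (XT.lf (nat_lit 0) (nat_lit 4709748196) (nat_lit 1824) (nat_lit 622868838) (nat_lit 76) (nat_lit 2933034173) (nat_lit 376) (nat_lit 5) (nat_lit 400) (nat_lit 5) (nat_lit 377) (nat_lit 5) (nat_lit 427) (nat_lit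 390) (nat_lit 323)) (XT.nd (nat_lit 78) (nat_lit 988) (nat_lit 0) (XT.lf (nat_lit 0) (nat_lit 4206027654) (nat_lit 988) (nat_lit 2571083915) (nat_lit 1064) (nat_lit 1559359732) (nat_lit 363) (nat_lit 5) (nat_lit 376) (nat_lit 5) (nat_lit 377) (nat_lit 5) (nat_lit 428) (nat_lit 390) (nat_lit 322)) (XT.lf (nat_lit 0) (nat_lit 448336824) (nat_lit 988) (nat_lit 7704845035) (nat_lit 76) (nat_lit 255931788) (nat_lit 350) (nat_lit 5) (nat_lit 363) (nat_lit 5) (nat_lit 351) (nat_lit 5) (nat_lit 429) (nat_lit 390) (nat_lit 321))))))) (XT.nd (nat_lit 780) (nat_lit 4864) (nat_lit 0) (XT.nd (nat_lit 390) (nat_lit 2356) (nat_lit 0) (XT.nd (nat_lit 156) (nat_lit 912) (nat_lit 0) (XT.nd (nat_lit 78) (nat_lit 836) (nat_lit 0) (XT.lf (nat_lit 0) (nat_lit 2487712324) (nat_lit 988) (nat_lit 2850465726) (nat_lit 76) (nat_lit 3144593606) (nat_lit 350) (nat_lit 5) (nat_lit 363) (nat_lit 5) (nat_lit 351) (nat_lit 5) (nat_lit 430)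 (nat_lit 390) (nat_lit 320)) (XT.lf (nat_lit 0) (nat_lit 2097194373) (nat_lit 836) (nat_lit 2452392696) (nat_lit 912) (nat_lit 4008698251) (nat_lit 339) (nat_lit 5) (nat_lit 350) (nat_lit 5) (nat_lit 351) (nat_lit 5) (nat_lit 431) (nat_lit 390) (nat_lit 319))) (XT.nd (nat_lit 78) (nat_lit 912) (nat_lit 0) (XT.lf (nat_lit 0) (nat_lit 6643664128) (nat_lit 912) (nat_lit 1487549815) (nat_lit 76) (nat_lit 504292416) (nat_lit 339) (nat_lit 5) (nat_lit 351) (nat_lit 5) (nat_lit 340) (nat_lit 5) (nat_lit 432) (nat_lit 390) (nat_lit 318)) (XT.nd (nat_lit 78) (nat_lit 0) (nat_lit 0) (XT.lf (nat_lit 0) (nat_lit 73191837) (nat_lit 912) (nat_lit 5129487516) (nat_lit 76) (nat_lit 3511425783) (nat_lit 327) (nat_lit 5) (nat_lit 339) (nat_lit 5) (nat_lit 328) (nat_lit 5) (nat_lit 433) (nat_lit 390) (nat_lit 317)) (XT.lf (nat_lit 0) (nat_lit 2132254812) (nat_lit 912) (nat_lit 60290807) (nat_lit 76) (nat_lit 6601894421) (nat_lit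 327) (nat_lit 5) (nat_lit 339) (nat_lit 5) (nat_lit 328) (nat_lit 5) (nat_lit 434) (nat_lit 390) (nat_lit 316))))) (XT.nd (nat_lit 156) (nat_lit 836) (nat_lit 0) (XT.nd (nat_lit 78) (nat_lit 760) (nat_lit 0) (XT.lf (nat_lit 0) (nat_lit 4241760548) (nat_lit 836) (nat_lit 3735186932) (nat_lit 76) (nat_lit 899264081) (nat_lit 317) (nat_lit 5) (nat_lit 328) (nat_lit 5) (nat_lit 318) (nat_lit 5) (nat_lit 435) (nat_lit 390) (nat_lit 315)) (XT.lf (nat_lit 0) (nat_lit 1461076620) (nat_lit 760) (nat_lit 4927106550) (nat_lit 836) (nat_lit 2571555663) (nat_lit 307) (nat_lit 5) (nat_lit 317) (nat_lit 5) (nat_lit 318) (nat_lit 5) (nat_lit 436) (nat_lit 390) (nat_lit 314))) (XT.nd (nat_lit 78) (nat_lit 836) (nat_lit 0) (XT.lf (nat_lit 0) (nat_lit 6780965706) (nat_lit 760) (nat_lit 1792327941) (nat_lit 836) (nat_lit 471742376) (nat_lit 307) (nat_lit 5) (nat_lit 317) (nat_lit 5) (nat_lit 318) (nat_lit 5) (nat_lit 437) (nat_lit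 390) (nat_lit 313)) (XT.nd (nat_lit 78) (nat_lit 0) (nat_lit 0) (XT.lf (nat_lit 0) (nat_lit 1648502256) (nat_lit 836) (nat_lit 6067368768) (nat_lit 76) (nat_lit 1415958500) (nat_lit 296) (nat_lit 5) (nat_lit 307) (nat_lit 5) (nat_lit 297) (nat_lit 5) (nat_lit 438) (nat_lit 390) (nat_lit 312)) (XT.lf (nat_lit 0) (nat_lit 3803425594) (nat_lit 836) (nat_lit 735990420) (nat_lit 76) (nat_lit 4680922430) (nat_lit 296) (nat_lit 5) (nat_lit 307) (nat_lit 5) (nat_lit 297) (nat_lit 5) (nat_lit 439) (nat_lit 390) (nat_lit 311)))))) (XT.nd (nat_lit 390) (nat_lit 2660) (nat_lit 0) (XT.nd (nat_lit 156) (nat_lit 760) (nat_lit 0) (XT.nd (nat_lit 78) (nat_lit 684) (nat_lit 0) (XT.lf (nat_lit 0) (nat_lit 4733613921) (nat_lit 760) (nat_lit 1270548707) (nat_lit 836) (nat_lit 3306414062) (nat_lit 286) (nat_lit 5) (nat_lit 296) (nat_lit 5) (nat_lit 297) (nat_lit 5) (nat_lit 440) (nat_lit 390) (nat_lit 310)) (XT.lf (nat_lit 0) (nat_lit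 887440588) (nat_lit 684) (nat_lit 7357923378) (nat_lit 760) (nat_lit 1157339933) (nat_lit 277) (nat_lit 5) (nat_lit 286) (nat_lit 5) (nat_lit 287) (nat_lit 5) (nat_lit 441) (nat_lit 390) (nat_lit 309))) (XT.nd (nat_lit 78) (nat_lit 684) (nat_lit 0) (XT.lf (nat_lit 0) (nat_lit 1032944012) (nat_lit 760) (nat_lit 3019229578) (nat_lit 76) (nat_lit 5444142403) (nat_lit 276) (nat_lit 5) (nat_lit 286) (nat_lit 5) (nat_lit 277) (nat_lit 5) (nat_lit 442) (nat_lit 390) (nat_lit 308)) (XT.nd (nat_lit 78) (nat_lit 0) (nat_lit 0) (XT.lf (nat_lit 0) (nat_lit 2582530227) (nat_lit 684) (nat_lit 658795823) (nat_lit 760) (nat_lit 6350537923) (nat_lit 267) (nat_lit 5) (nat_lit 276) (nat_lit 5) (nat_lit 277) (nat_lit 5) (nat_lit 443) (nat_lit 390) (nat_lit 307)) (XT.lf (nat_lit 0) (nat_lit 5505783296) (nat_lit 760) (nat_lit 1400718388) (nat_lit 76) (nat_lit 2782595262) (nat_lit 267) (nat_lit 5) (nat_lit 277) (nat_lit 5) (nat_lit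 268) (nat_lit 5) (nat_lit 444) (nat_lit 390) (nat_lit 306))))) (XT.nd (nat_lit 234) (nat_lit 1216) (nat_lit 0) (XT.nd (nat_lit 78) (nat_lit 760) (nat_lit 0) (XT.lf (nat_lit 0) (nat_lit 4342539149) (nat_lit 684) (nat_lit 3479388666) (nat_lit 760) (nat_lit 1966230747) (nat_lit 258) (nat_lit 5) (nat_lit 267) (nat_lit 5) (nat_lit 268) (nat_lit 5) (nat_lit 445) (nat_lit 390) (nat_lit 305)) (XT.nd (nat_lit 78) (nat_lit 0) (nat_lit 0) (XT.lf (nat_lit 0) (nat_lit 276890004) (nat_lit 760) (nat_lit 9587290493) (nat_lit 76) (nat_lit 25282708) (nat_lit 248) (nat_lit 5) (nat_lit 258) (nat_lit 5) (nat_lit 249) (nat_lit 5) (nat_lit 446) (nat_lit 390) (nat_lit 304)) (XT.lf (nat_lit 0) (nat_lit 2572660379) (nat_lit 760) (nat_lit 3820208724) (nat_lit 76) (nat_lit 3598993859) (nat_lit 248) (nat_lit 5) (nat_lit 258) (nat_lit 5) (nat_lit 249) (nat_lit 5) (nat_lit 447) (nat_lit 390) (nat_lit 303)))) (XT.nd (nat_lit 78) (nat_lit 608)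 (nat_lit 0) (XT.lf (nat_lit 0) (nat_lit 2059244177) (nat_lit 608) (nat_lit 2843239746) (nat_lit 684) (nat_lit 5194075073) (nat_lit 240) (nat_lit 5) (nat_lit 248) (nat_lit 5) (nat_lit 249) (nat_lit 5) (nat_lit 448) (nat_lit 390) (nat_lit 302)) (XT.nd (nat_lit 78) (nat_lit 608) (nat_lit 0) (XT.lf (nat_lit 0) (nat_lit 7284794294) (nat_lit 684) (nat_lit 2130241804) (nat_lit 76) (nat_lit 788205866) (nat_lit 240) (nat_lit 5) (nat_lit 249) (nat_lit 5) (nat_lit 241) (nat_lit 5) (nat_lit 449) (nat_lit 390) (nat_lit 301)) (XT.lf (nat_lit 0) (nat_lit 3897595659) (nat_lit 608) (nat_lit 5836817537) (nat_lit 684) (nat_lit 577262755) (nat_lit 232) (nat_lit 5) (nat_lit 240) (nat_lit 5) (nat_lit 241) (nat_lit 5) (nat_lit 450) (nat_lit 390) (nat_lit 300))))))))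
noncomputable def xc126 : XT := (XT.nd (nat_lit 1638) (nat_lit 4636) (nat_lit 0) (XT.nd (nat_lit 780) (nat_lit 2964) (nat_lit 0) (XT.nd (nat_lit 390) (nat_lit 1672) (nat_lit 0) (XT.nd (nat_lit 156) (nat_lit 1216) (nat_lit 0) (XT.nd (nat_lit 78) (nat_lit 608) (nat_lit 0) (XT.lf (nat_lit 0) (nat_lit 1777032554) (nat_lit 684) (nat_lit 388782061) (nat_lit 76) (nat_lit 8256438369) (nat_lit 231) (nat_lit 5) (nat_lit 240) (nat_lit 5) (nat_lit 232) (nat_lit 5) (nat_lit 451) (nat_lit 390) (nat_lit 299)) (XT.lf (nat_lit 0) (nat_lit 4194961388) (nat_lit 684) (nat_lit 4745140577) (nat_lit 76) (nat_lit 1594387731) (nat_lit 223) (nat_lit 5) (nat_lit 232) (nat_lit 5) (nat_lit 224) (nat_lit 5) (nat_lit 452) (nat_lit 390) (nat_lit 298))) (XT.nd (nat_lit 78) (nat_lit 608) (nat_lit 0) (XT.lf (nat_lit 0) (nat_lit 1422212313) (nat_lit 608) (nat_lit 5241607033) (nat_lit 684) (nat_lit 3985110186) (nat_lit 215) (nat_lit 5) (nat_lit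 223) (nat_lit 5) (nat_lit 224) (nat_lit 5) (nat_lit 453) (nat_lit 390) (nat_lit 297)) (XT.nd (nat_lit 78) (nat_lit 608) (nat_lit 0) (XT.lf (nat_lit 0) (nat_lit 7747953957) (nat_lit 608) (nat_lit 1442583427) (nat_lit 684) (nat_lit 1574960729) (nat_lit 215) (nat_lit 5) (nat_lit 223) (nat_lit 5) (nat_lit 224) (nat_lit 5) (nat_lit 454) (nat_lit 390) (nat_lit 296)) (XT.lf (nat_lit 0) (nat_lit 886264498) (nat_lit 608) (nat_lit 7575598492) (nat_lit 76) (nat_lit 2422140426) (nat_lit 207) (nat_lit 5) (nat_lit 215) (nat_lit 5) (nat_lit 208) (nat_lit 5) (nat_lit 455) (nat_lit 390) (nat_lit 295))))) (XT.nd (nat_lit 156) (nat_lit 1140) (nat_lit 0) (XT.nd (nat_lit 78) (nat_lit 532) (nat_lit 0) (XT.lf (nat_lit 0) (nat_lit 3382745607) (nat_lit 608) (nat_lit 1252071522) (nat_lit 76) (nat_lit 6369720138) (nat_lit 207) (nat_lit 5) (nat_lit 215) (nat_lit 5) (nat_lit 208) (nat_lit 5) (nat_lit 456) (nat_lit 390) (nat_lit 294)) (XT.lf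 (nat_lit 0) (nat_lit 5237939726) (nat_lit 532) (nat_lit 702836009) (nat_lit 608) (nat_lit 5186482549) (nat_lit 200) (nat_lit 5) (nat_lit 207) (nat_lit 5) (nat_lit 208) (nat_lit 5) (nat_lit 457) (nat_lit 390) (nat_lit 293))) (XT.nd (nat_lit 78) (nat_lit 608) (nat_lit 0) (XT.lf (nat_lit 0) (nat_lit 579623380) (nat_lit 532) (nat_lit 7981864345) (nat_lit 608) (nat_lit 2690724274) (nat_lit 193) (nat_lit 5) (nat_lit 200) (nat_lit 5) (nat_lit 201) (nat_lit 5) (nat_lit 458) (nat_lit 390) (nat_lit 292)) (XT.nd (nat_lit 78) (nat_lit 608) (nat_lit 0) (XT.lf (nat_lit 0) (nat_lit 7224344992) (nat_lit 532) (nat_lit 4032485627) (nat_lit 608) (nat_lit 122398365) (nat_lit 193) (nat_lit 5) (nat_lit 200) (nat_lit 5) (nat_lit 201) (nat_lit 5) (nat_lit 459) (nat_lit 390) (nat_lit 291)) (XT.lf (nat_lit 0) (nat_lit 2459145064) (nat_lit 608) (nat_lit 9027671004) (nat_lit 76) (nat_lit 21762091) (nat_lit 185) (nat_lit 5) (nat_lit 193)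 (nat_lit 5) (nat_lit 186) (nat_lit 5) (nat_lit 460) (nat_lit 390) (nat_lit 290)))))) (XT.nd (nat_lit 390) (nat_lit 1444) (nat_lit 0) (XT.nd (nat_lit 156) (nat_lit 1064) (nat_lit 0) (XT.nd (nat_lit 78) (nat_lit 456) (nat_lit 0) (XT.lf (nat_lit 0) (nat_lit 5124001443) (nat_lit 608) (nat_lit 2390573898) (nat_lit 76) (nat_lit 4125264415) (nat_lit 185) (nat_lit 5) (nat_lit 193) (nat_lit 5) (nat_lit 186) (nat_lit 5) (nat_lit 461) (nat_lit 390) (nat_lit 289)) (XT.lf (nat_lit 0) (nat_lit 4409000326) (nat_lit 456) (nat_lit 3440749557) (nat_lit 532) (nat_lit 3923832684) (nat_lit 179) (nat_lit 5) (nat_lit 185) (nat_lit 5) (nat_lit 186) (nat_lit 5) (nat_lit 462) (nat_lit 390) (nat_lit 288))) (XT.nd (nat_lit 78) (nat_lit 1064) (nat_lit 0) (XT.lf (nat_lit 0) (nat_lit 10629954741) (nat_lit 532) (nat_lit 565736546) (nat_lit 76) (nat_lit 714317846) (nat_lit 179) (nat_lit 5) (nat_lit 186) (nat_lit 5) (nat_lit 180) (nat_lit 5)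 (nat_lit 463) (nat_lit 390) (nat_lit 287)) (XT.nd (nat_lit 78) (nat_lit 456) (nat_lit 0) (XT.lf (nat_lit 0) (nat_lit 1442222452) (nat_lit 608) (nat_lit 5655239502) (nat_lit 76) (nat_lit 4950641714) (nat_lit 171) (nat_lit 5) (nat_lit 179) (nat_lit 5) (nat_lit 172) (nat_lit 5) (nat_lit 464) (nat_lit 390) (nat_lit 286)) (XT.lf (nat_lit 0) (nat_lit 1290014598) (nat_lit 456) (nat_lit 2903646774) (nat_lit 532) (nat_lit 7995299652) (nat_lit 165) (nat_lit 5) (nat_lit 171) (nat_lit 5) (nat_lit 172) (nat_lit 5) (nat_lit 465) (nat_lit 390) (nat_lit 285))))) (XT.nd (nat_lit 234) (nat_lit 912) (nat_lit 0) (XT.nd (nat_lit 78) (nat_lit 532) (nat_lit 0) (XT.lf (nat_lit 0) (nat_lit 7027065493) (nat_lit 532) (nat_lit 3918218428) (nat_lit 76) (nat_lit 1386820015) (nat_lit 165) (nat_lit 5) (nat_lit 172) (nat_lit 5) (nat_lit 166) (nat_lit 5) (nat_lit 466) (nat_lit 390) (nat_lit 284)) (XT.nd (nat_lit 78) (nat_lit 76) (nat_lit 0)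 (XT.lf (nat_lit 0) (nat_lit 3197376492) (nat_lit 456) (nat_lit 6739960199) (nat_lit 532) (nat_lit 2540376035) (nat_lit 159) (nat_lit 5) (nat_lit 165) (nat_lit 5) (nat_lit 166) (nat_lit 5) (nat_lit 467) (nat_lit 390) (nat_lit 283)) (XT.lf (nat_lit 0) (nat_lit 282664915) (nat_lit 532) (nat_lit 2146841858) (nat_lit 76) (nat_lit 10196562301) (nat_lit 158) (nat_lit 5) (nat_lit 165) (nat_lit 5) (nat_lit 159) (nat_lit 5) (nat_lit 468) (nat_lit 390) (nat_lit 282)))) (XT.nd (nat_lit 78) (nat_lit 456) (nat_lit 0) (XT.lf (nat_lit 0) (nat_lit 3155366499) (nat_lit 532) (nat_lit 7636753513) (nat_lit 76) (nat_lit 1984398984) (nat_lit 152) (nat_lit 5) (nat_lit 159) (nat_lit 5) (nat_lit 153) (nat_lit 5) (nat_lit 469) (nat_lit 390) (nat_lit 281)) (XT.nd (nat_lit 78) (nat_lit 456) (nat_lit 0) (XT.lf (nat_lit 0) (nat_lit 6096939440) (nat_lit 532) (nat_lit 371830464) (nat_lit 76) (nat_lit 6460986132) (nat_lit 152) (nat_lit 5) (nat_lit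 159) (nat_lit 5) (nat_lit 153) (nat_lit 5) (nat_lit 470) (nat_lit 390) (nat_lit 280)) (XT.lf (nat_lit 0) (nat_lit 7104944457) (nat_lit 456) (nat_lit 2019731385) (nat_lit 532) (nat_lit 3960841674) (nat_lit 146) (nat_lit 5) (nat_lit 152) (nat_lit 5) (nat_lit 153) (nat_lit 5) (nat_lit 471) (nat_lit 390) (nat_lit 279))))))) (XT.nd (nat_lit 780) (nat_lit 2128) (nat_lit 0) (XT.nd (nat_lit 390) (nat_lit 1216) (nat_lit 0) (XT.nd (nat_lit 156) (nat_lit 836) (nat_lit 0) (XT.nd (nat_lit 78) (nat_lit 76) (nat_lit 0) (XT.lf (nat_lit 0) (nat_lit 1468056445) (nat_lit 380) (nat_lit 10754652059) (nat_lit 456) (nat_lit 1021497106) (nat_lit 141) (nat_lit 5) (nat_lit 146) (nat_lit 5) (nat_lit 147) (nat_lit 5) (nat_lit 472) (nat_lit 390) (nat_lit 278)) (XT.lf (nat_lit 0) (nat_lit 1985897282) (nat_lit 456) (nat_lit 4311871206) (nat_lit 76) (nat_lit 7107344542) (nat_lit 140) (nat_lit 5) (nat_lit 146) (nat_lit 5) (nat_lit 141) (nat_lit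 5) (nat_lit 473) (nat_lit 390) (nat_lit 277))) (XT.nd (nat_lit 78) (nat_lit 380) (nat_lit 0) (XT.lf (nat_lit 0) (nat_lit 3312033909) (nat_lit 456) (nat_lit 1731021538) (nat_lit 532) (nat_lit 8525988091) (nat_lit 134) (nat_lit 5) (nat_lit 140) (nat_lit 5) (nat_lit 141) (nat_lit 5) (nat_lit 474) (nat_lit 390) (nat_lit 276)) (XT.nd (nat_lit 78) (nat_lit 380) (nat_lit 0) (XT.lf (nat_lit 0) (nat_lit 8191399506) (nat_lit 532) (nat_lit 2634476243) (nat_lit 76) (nat_lit 2909781793) (nat_lit 134) (nat_lit 5) (nat_lit 141) (nat_lit 5) (nat_lit 135) (nat_lit 5) (nat_lit 475) (nat_lit 390) (nat_lit 275)) (XT.lf (nat_lit 0) (nat_lit 5170908622) (nat_lit 380) (nat_lit 6259104948) (nat_lit 456) (nat_lit 2475049823) (nat_lit 129) (nat_lit 5) (nat_lit 134) (nat_lit 5) (nat_lit 135) (nat_lit 5) (nat_lit 476) (nat_lit 390) (nat_lit 274))))) (XT.nd (nat_lit 156) (nat_lit 760) (nat_lit 0) (XT.nd (nat_lit 78) (nat_lit 380) (nat_lit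 0) (XT.lf (nat_lit 0) (nat_lit 647065863) (nat_lit 456) (nat_lit 939787301) (nat_lit 76) (nat_lit 12490922065) (nat_lit 128) (nat_lit 5) (nat_lit 134) (nat_lit 5) (nat_lit 129) (nat_lit 5) (nat_lit 477) (nat_lit 390) (nat_lit 273)) (XT.lf (nat_lit 0) (nat_lit 3848029568) (nat_lit 456) (nat_lit 7212873796) (nat_lit 76) (nat_lit 3191725107) (nat_lit 123) (nat_lit 5) (nat_lit 129) (nat_lit 5) (nat_lit 124) (nat_lit 5) (nat_lit 478) (nat_lit 390) (nat_lit 272))) (XT.nd (nat_lit 78) (nat_lit 380) (nat_lit 0) (XT.lf (nat_lit 0) (nat_lit 734213099) (nat_lit 380) (nat_lit 6383217311) (nat_lit 456) (nat_lit 7313465212) (nat_lit 118) (nat_lit 5) (nat_lit 123) (nat_lit 5) (nat_lit 124) (nat_lit 5) (nat_lit 479) (nat_lit 390) (nat_lit 271)) (XT.nd (nat_lit 78) (nat_lit 380) (nat_lit 0) (XT.lf (nat_lit 0) (nat_lit 8912543399) (nat_lit 380) (nat_lit 1571043727) (nat_lit 456) (nat_lit 4128518731) (nat_lit 118) (nat_lit 5)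 (nat_lit 123) (nat_lit 5) (nat_lit 124) (nat_lit 5) (nat_lit 480) (nat_lit 390) (nat_lit 270)) (XT.lf (nat_lit 0) (nat_lit 2442610224) (nat_lit 380) (nat_lit 11495230224) (nat_lit 456) (nat_lit 858689379) (nat_lit 113) (nat_lit 5) (nat_lit 118) (nat_lit 5) (nat_lit 119) (nat_lit 5) (nat_lit 481) (nat_lit 390) (nat_lit 269)))))) (XT.nd (nat_lit 390) (nat_lit 1292) (nat_lit 0) (XT.nd (nat_lit 156) (nat_lit 456) (nat_lit 0) (XT.nd (nat_lit 78) (nat_lit 304) (nat_lit 0) (XT.lf (nat_lit 0) (nat_lit 2476257852) (nat_lit 456) (nat_lit 4211046009) (nat_lit 76) (nat_lit 8296377601) (nat_lit 112) (nat_lit 5) (nat_lit 118) (nat_lit 5) (nat_lit 113) (nat_lit 5) (nat_lit 482) (nat_lit 390) (nat_lit 268)) (XT.lf (nat_lit 0) (nat_lit 4118188337) (nat_lit 304) (nat_lit 1758591006) (nat_lit 380) (nat_lit 9297480515) (nat_lit 108) (nat_lit 5) (nat_lit 112) (nat_lit 5) (nat_lit 113) (nat_lit 5) (nat_lit 483) (nat_lit 390) (nat_lit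 267))) (XT.nd (nat_lit 78) (nat_lit 456) (nat_lit 0) (XT.lf (nat_lit 0) (nat_lit 9378709873) (nat_lit 380) (nat_lit 2743336745) (nat_lit 76) (nat_lit 3245939849) (nat_lit 108) (nat_lit 5) (nat_lit 113) (nat_lit 5) (nat_lit 109) (nat_lit 5) (nat_lit 484) (nat_lit 390) (nat_lit 266)) (XT.nd (nat_lit 78) (nat_lit 76) (nat_lit 0) (XT.lf (nat_lit 0) (nat_lit 5775307871) (nat_lit 380) (nat_lit 7208564165) (nat_lit 456) (nat_lit 2581056240) (nat_lit 103) (nat_lit 5) (nat_lit 108) (nat_lit 5) (nat_lit 109) (nat_lit 5) (nat_lit 485) (nat_lit 390) (nat_lit 265)) (XT.lf (nat_lit 0) (nat_lit 886212986) (nat_lit 456) (nat_lit 1294361347) (nat_lit 76) (nat_lit 13585070139) (nat_lit 102) (nat_lit 5) (nat_lit 108) (nat_lit 5) (nat_lit 103) (nat_lit 5) (nat_lit 486) (nat_lit 390) (nat_lit 264))))) (XT.nd (nat_lit 234) (nat_lit 684) (nat_lit 0) (XT.nd (nat_lit 78) (nat_lit 304) (nat_lit 0) (XT.lf (nat_lit 0) (nat_lit 4440446839)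 (nat_lit 380) (nat_lit 8561802628) (nat_lit 76) (nat_lit 2966744985) (nat_lit 98) (nat_lit 5) (nat_lit 103) (nat_lit 5) (nat_lit 99) (nat_lit 5) (nat_lit 487) (nat_lit 390) (nat_lit 263)) (XT.nd (nat_lit 78) (nat_lit 0) (nat_lit 0) (XT.lf (nat_lit 0) (nat_lit 86603493) (nat_lit 304) (nat_lit 7987412149) (nat_lit 380) (nat_lit 8102234965) (nat_lit 94) (nat_lit 5) (nat_lit 98) (nat_lit 5) (nat_lit 99) (nat_lit 5) (nat_lit 488) (nat_lit 390) (nat_lit 262)) (XT.lf (nat_lit 0) (nat_lit 9000076227) (nat_lit 304) (nat_lit 2822285817) (nat_lit 380) (nat_lit 4564451818) (nat_lit 94) (nat_lit 5) (nat_lit 98) (nat_lit 5) (nat_lit 99) (nat_lit 5) (nat_lit 489) (nat_lit 390) (nat_lit 261)))) (XT.nd (nat_lit 78) (nat_lit 380) (nat_lit 0) (XT.lf (nat_lit 0) (nat_lit 1469886511) (nat_lit 304) (nat_lit 14186112472) (nat_lit 380) (nat_lit 945386946) (nat_lit 90) (nat_lit 5) (nat_lit 94) (nat_lit 5) (nat_lit 95) (nat_lit 5) (nat_lit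 490) (nat_lit 390) (nat_lit 260)) (XT.nd (nat_lit 78) (nat_lit 304) (nat_lit 0) (XT.lf (nat_lit 0) (nat_lit 2763570155) (nat_lit 380) (nat_lit 6276121100) (nat_lit 76) (nat_lit 7779134943) (nat_lit 89) (nat_lit 5) (nat_lit 94) (nat_lit 5) (nat_lit 90) (nat_lit 5) (nat_lit 491) (nat_lit 390) (nat_lit 259)) (XT.lf (nat_lit 0) (nat_lit 2763020662) (nat_lit 304) (nat_lit 3774211722) (nat_lit 380) (nat_lit 10503198000) (nat_lit 85) (nat_lit 5) (nat_lit 89) (nat_lit 5) (nat_lit 90) (nat_lit 5) (nat_lit 492) (nat_lit 390) (nat_lit 258))))))))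
noncomputable def xc127 : XT := (XT.nd (nat_lit 52182) (nat_lit 0) (nat_lit 28652) (XT.nd (nat_lit 780) (nat_lit 0) (nat_lit 0) (XT.nd (nat_lit 390) (nat_lit 836) (nat_lit 0) (XT.nd (nat_lit 156) (nat_lit 380) (nat_lit 0) (XT.nd (nat_lit 78) (nat_lit 228) (nat_lit 0) (XT.lf (nat_lit 0) (nat_lit 10424446083) (nat_lit 380) (nat_lit 5231657736) (nat_lit 76) (nat_lit 1609604986) (nat_lit 85) (nat_lit 5) (nat_lit 90) (nat_lit 5) (nat_lit 86) (nat_lit 5) (nat_lit 493) (nat_lit 390) (nat_lit 257)) (XT.lf (nat_lit 0) (nat_lit 3999519733) (nat_lit 228) (nat_lit 10426451728) (nat_lit 304) (nat_lit 3068793625) (nat_lit 82) (nat_lit 5) (nat_lit 85) (nat_lit 5) (nat_lit 86) (nat_lit 5) (nat_lit 494) (nat_lit 390) (nat_lit 256))) (XT.nd (nat_lit 78) (nat_lit 304) (nat_lit 0) (XT.lf (nat_lit 0) (nat_lit 789887525) (nat_lit 304) (nat_lit 4269746728) (nat_lit 76) (nat_lit 12668250947) (nat_lit 81) (nat_lit 5) (nat_lit 85) (nat_lit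 5) (nat_lit 82) (nat_lit 5) (nat_lit 495) (nat_lit 390) (nat_lit 255)) (XT.nd (nat_lit 78) (nat_lit 0) (nat_lit 0) (XT.lf (nat_lit 0) (nat_lit 4707141030) (nat_lit 380) (nat_lit 12802729818) (nat_lit 76) (nat_lit 454944806) (nat_lit 77) (nat_lit 5) (nat_lit 82) (nat_lit 5) (nat_lit 78) (nat_lit 5) (nat_lit 496) (nat_lit 390) (nat_lit 254)) (XT.lf (nat_lit 0) (nat_lit 8751087802) (nat_lit 380) (nat_lit 3421797191) (nat_lit 76) (nat_lit 6032636125) (nat_lit 77) (nat_lit 5) (nat_lit 82) (nat_lit 5) (nat_lit 78) (nat_lit 5) (nat_lit 497) (nat_lit 390) (nat_lit 253))))) (XT.nd (nat_lit 156) (nat_lit 608) (nat_lit 0) (XT.nd (nat_lit 78) (nat_lit 0) (nat_lit 0) (XT.lf (nat_lit 0) (nat_lit 6205969186) (nat_lit 228) (nat_lit 6696510814) (nat_lit 304) (nat_lit 5548032659) (nat_lit 74) (nat_lit 5) (nat_lit 77) (nat_lit 5) (nat_lit 78) (nat_lit 5) (nat_lit 498) (nat_lit 390) (nat_lit 252)) (XT.lf (nat_lit 0) (nat_lit 16050642853)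 (nat_lit 228) (nat_lit 1095618584) (nat_lit 304) (nat_lit 1553958600) (nat_lit 74) (nat_lit 5) (nat_lit 77) (nat_lit 5) (nat_lit 78) (nat_lit 5) (nat_lit 499) (nat_lit 390) (nat_lit 251))) (XT.nd (nat_lit 78) (nat_lit 228) (nat_lit 0) (XT.lf (nat_lit 0) (nat_lit 2550568142) (nat_lit 380) (nat_lit 11790783860) (nat_lit 76) (nat_lit 4611973008) (nat_lit 69) (nat_lit 5) (nat_lit 74) (nat_lit 5) (nat_lit 70) (nat_lit 5) (nat_lit 500) (nat_lit 390) (nat_lit 250)) (XT.nd (nat_lit 78) (nat_lit 228) (nat_lit 0) (XT.lf (nat_lit 0) (nat_lit 6728194144) (nat_lit 380) (nat_lit 2043836156) (nat_lit 76) (nat_lit 10439023072) (nat_lit 69) (nat_lit 5) (nat_lit 74) (nat_lit 5) (nat_lit 70) (nat_lit 5) (nat_lit 501) (nat_lit 390) (nat_lit 249)) (XT.lf (nat_lit 0) (nat_lit 7981302578) (nat_lit 228) (nat_lit 3046795116) (nat_lit 304) (nat_lit 8445067093) (nat_lit 66) (nat_lit 5) (nat_lit 69) (nat_lit 5) (nat_lit 70) (nat_lit 5)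 (nat_lit 502) (nat_lit 390) (nat_lit 248)))))) (XT.nd (nat_lit 50934) (nat_lit 0) (nat_lit 39748) (XT.nd (nat_lit 50700) (nat_lit 0) (nat_lit 41420) (XT.nd (nat_lit 50622) (nat_lit 0) (nat_lit 42256) (XT.lf (nat_lit 0) (nat_lit 15432908776) (nat_lit 304) (nat_lit 1545311495) (nat_lit 76) (nat_lit 2761922899) (nat_lit 66) (nat_lit 5) (nat_lit 70) (nat_lit 5) (nat_lit 67) (nat_lit 5) (nat_lit 503) (nat_lit 390) (nat_lit 247)) (XT.lf (nat_lit 0) (nat_lit 1359632678) (nat_lit 0) (nat_lit 1359632678) (nat_lit 684) (nat_lit 619045530) (nat_lit 622) (nat_lit 5) (nat_lit 622) (nat_lit 3) (nat_lit 631) (nat_lit 3) (nat_lit 391) (nat_lit 391) (nat_lit 358))) (XT.nd (nat_lit 78) (nat_lit 0) (nat_lit 0) (XT.lf (nat_lit 0) (nat_lit 931871941) (nat_lit 836) (nat_lit 776263144) (nat_lit 836) (nat_lit 4990478967) (nat_lit 611) (nat_lit 3) (nat_lit 622) (nat_lit 3) (nat_lit 622) (nat_lit 5) (nat_lit 392) (nat_lit 391) (nat_lit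 357)) (XT.nd (nat_lit 78) (nat_lit 0) (nat_lit 76) (XT.lf (nat_lit 76) (nat_lit 2463566748) (nat_lit 0) (nat_lit 624286539) (nat_lit 836) (nat_lit 3633887696) (nat_lit 612) (nat_lit 5) (nat_lit 611) (nat_lit 3) (nat_lit 622) (nat_lit 5) (nat_lit 393) (nat_lit 391) (nat_lit 356)) (XT.lf (nat_lit 0) (nat_lit 5239611727) (nat_lit 760) (nat_lit 999810079) (nat_lit 836) (nat_lit 506897091) (nat_lit 612) (nat_lit 5) (nat_lit 622) (nat_lit 5) (nat_lit 623) (nat_lit 5) (nat_lit 394) (nat_lit 391) (nat_lit 355))))) (XT.nd (nat_lit 234) (nat_lit 912) (nat_lit 0) (XT.nd (nat_lit 78) (nat_lit 0) (nat_lit 0) (XT.lf (nat_lit 0) (nat_lit 618628640) (nat_lit 836) (nat_lit 4455736519) (nat_lit 912) (nat_lit 1697690949) (nat_lit 601) (nat_lit 5) (nat_lit 612) (nat_lit 5) (nat_lit 613) (nat_lit 5) (nat_lit 395) (nat_lit 391) (nat_lit 354)) (XT.nd (nat_lit 78) (nat_lit 0) (nat_lit 0) (XT.lf (nat_lit 0) (nat_lit 2718935600) (nat_lit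 836) (nat_lit 1125985645) (nat_lit 912) (nat_lit 2954174042) (nat_lit 601) (nat_lit 5) (nat_lit 612) (nat_lit 5) (nat_lit 613) (nat_lit 5) (nat_lit 396) (nat_lit 391) (nat_lit 353)) (XT.lf (nat_lit 76) (nat_lit 2270616570) (nat_lit 0) (nat_lit 2552302613) (nat_lit 912) (nat_lit 2004561084) (nat_lit 602) (nat_lit 5) (nat_lit 601) (nat_lit 5) (nat_lit 613) (nat_lit 5) (nat_lit 397) (nat_lit 391) (nat_lit 352)))) (XT.nd (nat_lit 78) (nat_lit 0) (nat_lit 76) (XT.lf (nat_lit 0) (nat_lit 66074699) (nat_lit 912) (nat_lit 1136713761) (nat_lit 988) (nat_lit 5654566780) (nat_lit 589) (nat_lit 5) (nat_lit 601) (nat_lit 5) (nat_lit 602) (nat_lit 5) (nat_lit 398) (nat_lit 391) (nat_lit 351)) (XT.nd (nat_lit 78) (nat_lit 0) (nat_lit 0) (XT.lf (nat_lit 0) (nat_lit 2116385242) (nat_lit 912) (nat_lit 4550010924) (nat_lit 988) (nat_lit 221900691) (nat_lit 590) (nat_lit 5) (nat_lit 602) (nat_lit 5) (nat_lit 603) (nat_lit 5) (nat_lit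 399) (nat_lit 391) (nat_lit 350)) (XT.lf (nat_lit 0) (nat_lit 4172733256) (nat_lit 912) (nat_lit 1059998199) (nat_lit 988) (nat_lit 1687860727) (nat_lit 590) (nat_lit 5) (nat_lit 602) (nat_lit 5) (nat_lit 603) (nat_lit 5) (nat_lit 400) (nat_lit 391) (nat_lit 349))))))) (XT.nd (nat_lit 780) (nat_lit 8132) (nat_lit 0) (XT.nd (nat_lit 390) (nat_lit 1064) (nat_lit 0) (XT.nd (nat_lit 156) (nat_lit 988) (nat_lit 0) (XT.nd (nat_lit 78) (nat_lit 988) (nat_lit 0) (XT.lf (nat_lit 76) (nat_lit 2502764947) (nat_lit 0) (nat_lit 3734072606) (nat_lit 988) (nat_lit 717398078) (nat_lit 591) (nat_lit 5) (nat_lit 590) (nat_lit 5) (nat_lit 603) (nat_lit 5) (nat_lit 401) (nat_lit 391) (nat_lit 348)) (XT.lf (nat_lit 0) (nat_lit 1293881445) (nat_lit 988) (nat_lit 876458580) (nat_lit 1064) (nat_lit 4818910335) (nat_lit 577) (nat_lit 5) (nat_lit 590) (nat_lit 5) (nat_lit 591) (nat_lit 5) (nat_lit 402) (nat_lit 391) (nat_lit 347))) (XT.nd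 (nat_lit 78) (nat_lit 988) (nat_lit 0) (XT.lf (nat_lit 76) (nat_lit 2771887210) (nat_lit 0) (nat_lit 533666803) (nat_lit 1064) (nat_lit 3719953859) (nat_lit 578) (nat_lit 5) (nat_lit 577) (nat_lit 5) (nat_lit 591) (nat_lit 5) (nat_lit 403) (nat_lit 391) (nat_lit 346)) (XT.nd (nat_lit 78) (nat_lit 1064) (nat_lit 0) (XT.lf (nat_lit 0) (nat_lit 5323391943) (nat_lit 988) (nat_lit 595376794) (nat_lit 1064) (nat_lit 1144435313) (nat_lit 578) (nat_lit 5) (nat_lit 591) (nat_lit 5) (nat_lit 592) (nat_lit 5) (nat_lit 404) (nat_lit 391) (nat_lit 345)) (XT.lf (nat_lit 0) (nat_lit 253592155) (nat_lit 1064) (nat_lit 3960146563) (nat_lit 1140) (nat_lit 2888363369) (nat_lit 564) (nat_lit 5) (nat_lit 578) (nat_lit 5) (nat_lit 579) (nat_lit 5) (nat_lit 405) (nat_lit 391) (nat_lit 344))))) (XT.nd (nat_lit 156) (nat_lit 1064) (nat_lit 0) (XT.nd (nat_lit 78) (nat_lit 0) (nat_lit 0) (XT.lf (nat_lit 0) (nat_lit 2221561360) (nat_lit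 1064) (nat_lit 221656153) (nat_lit 1140) (nat_lit 4699201007) (nat_lit 564) (nat_lit 5) (nat_lit 578) (nat_lit 5) (nat_lit 579) (nat_lit 5) (nat_lit 406) (nat_lit 391) (nat_lit 343)) (XT.lf (nat_lit 76) (nat_lit 3609020785) (nat_lit 0) (nat_lit 598153687) (nat_lit 1140) (nat_lit 2976830826) (nat_lit 565) (nat_lit 5) (nat_lit 564) (nat_lit 5) (nat_lit 579) (nat_lit 5) (nat_lit 407) (nat_lit 391) (nat_lit 342))) (XT.nd (nat_lit 78) (nat_lit 1140) (nat_lit 0) (XT.lf (nat_lit 76) (nat_lit 257216721) (nat_lit 0) (nat_lit 5942426113) (nat_lit 1140) (nat_lit 1027467239) (nat_lit 566) (nat_lit 5) (nat_lit 565) (nat_lit 5) (nat_lit 580) (nat_lit 5) (nat_lit 408) (nat_lit 391) (nat_lit 341)) (XT.nd (nat_lit 78) (nat_lit 0) (nat_lit 0) (XT.lf (nat_lit 0) (nat_lit 932386039) (nat_lit 1140) (nat_lit 3097578091) (nat_lit 1216) (nat_lit 3241333940) (nat_lit 550) (nat_lit 5) (nat_lit 565) (nat_lit 5) (nat_lit 566) (nat_lit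 5) (nat_lit 409) (nat_lit 391) (nat_lit 340)) (XT.lf (nat_lit 76) (nat_lit 825674659) (nat_lit 0) (nat_lit 2054234879) (nat_lit 1216) (nat_lit 4437107283) (nat_lit 551) (nat_lit 5) (nat_lit 550) (nat_lit 5) (nat_lit 566) (nat_lit 5) (nat_lit 410) (nat_lit 391) (nat_lit 339)))))) (XT.nd (nat_lit 390) (nat_lit 5776) (nat_lit 0) (XT.nd (nat_lit 156) (nat_lit 1292) (nat_lit 0) (XT.nd (nat_lit 78) (nat_lit 1064) (nat_lit 0) (XT.lf (nat_lit 76) (nat_lit 4839048560) (nat_lit 0) (nat_lit 5627578) (nat_lit 1216) (nat_lit 2519434860) (nat_lit 551) (nat_lit 5) (nat_lit 550) (nat_lit 5) (nat_lit 566) (nat_lit 5) (nat_lit 411) (nat_lit 391) (nat_lit 338)) (XT.lf (nat_lit 0) (nat_lit 1495957595) (nat_lit 1140) (nat_lit 5334440493) (nat_lit 1216) (nat_lit 582142147) (nat_lit 536) (nat_lit 5) (nat_lit 551) (nat_lit 5) (nat_lit 552) (nat_lit 5) (nat_lit 412) (nat_lit 391) (nat_lit 337))) (XT.nd (nat_lit 78) (nat_lit 1216) (nat_lit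 0) (XT.lf (nat_lit 0) (nat_lit 1351446762) (nat_lit 1216) (nat_lit 1870219376) (nat_lit 76) (nat_lit 4240599640) (nat_lit 535) (nat_lit 5) (nat_lit 551) (nat_lit 5) (nat_lit 536) (nat_lit 5) (nat_lit 413) (nat_lit 391) (nat_lit 336)) (XT.nd (nat_lit 78) (nat_lit 0) (nat_lit 0) (XT.lf (nat_lit 0) (nat_lit 2252317674) (nat_lit 1216) (nat_lit 1037772348) (nat_lit 1292) (nat_lit 4223360156) (nat_lit 519) (nat_lit 5) (nat_lit 535) (nat_lit 5) (nat_lit 536) (nat_lit 5) (nat_lit 414) (nat_lit 391) (nat_lit 335)) (XT.lf (nat_lit 0) (nat_lit 5248070349) (nat_lit 1292) (nat_lit 1121680050) (nat_lit 76) (nat_lit 1196320953) (nat_lit 519) (nat_lit 5) (nat_lit 536) (nat_lit 5) (nat_lit 520) (nat_lit 5) (nat_lit 415) (nat_lit 391) (nat_lit 334))))) (XT.nd (nat_lit 234) (nat_lit 3040) (nat_lit 0) (XT.nd (nat_lit 78) (nat_lit 1444) (nat_lit 0) (XT.lf (nat_lit 0) (nat_lit 3103885545) (nat_lit 1292) (nat_lit 4129336124) (nat_lit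 1368) (nat_lit 386786944) (nat_lit 502) (nat_lit 5) (nat_lit 519) (nat_lit 5) (nat_lit 520) (nat_lit 5) (nat_lit 416) (nat_lit 391) (nat_lit 333)) (XT.nd (nat_lit 78) (nat_lit 1368) (nat_lit 0) (XT.lf (nat_lit 0) (nat_lit 1531143001) (nat_lit 1368) (nat_lit 286883129) (nat_lit 76) (nat_lit 5857438813) (nat_lit 501) (nat_lit 5) (nat_lit 519) (nat_lit 5) (nat_lit 502) (nat_lit 5) (nat_lit 417) (nat_lit 391) (nat_lit 332)) (XT.lf (nat_lit 0) (nat_lit 3474314474) (nat_lit 1444) (nat_lit 3688762550) (nat_lit 76) (nat_lit 569083517) (nat_lit 483) (nat_lit 5) (nat_lit 502) (nat_lit 5) (nat_lit 484) (nat_lit 5) (nat_lit 418) (nat_lit 391) (nat_lit 331)))) (XT.nd (nat_lit 78) (nat_lit 1596) (nat_lit 0) (XT.lf (nat_lit 0) (nat_lit 639696550) (nat_lit 1444) (nat_lit 4797417110) (nat_lit 1520) (nat_lit 2353283176) (nat_lit 464) (nat_lit 5) (nat_lit 483) (nat_lit 5) (nat_lit 484) (nat_lit 5) (nat_lit 419) (nat_lit 391) (nat_lit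 330)) (XT.nd (nat_lit 78) (nat_lit 1596) (nat_lit 0) (XT.lf (nat_lit 0) (nat_lit 5074067533) (nat_lit 1444) (nat_lit 2353021615) (nat_lit 1520) (nat_lit 422971942) (nat_lit 464) (nat_lit 5) (nat_lit 483) (nat_lit 5) (nat_lit 484) (nat_lit 5) (nat_lit 420) (nat_lit 391) (nat_lit 329)) (XT.lf (nat_lit 0) (nat_lit 1501212001) (nat_lit 1596) (nat_lit 6244859302) (nat_lit 76) (nat_lit 165156540) (nat_lit 443) (nat_lit 5) (nat_lit 464) (nat_lit 5) (nat_lit 444) (nat_lit 5) (nat_lit 421) (nat_lit 391) (nat_lit 328))))))))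
noncomputable def xc128 : XT := (XT.nd (nat_lit 1560) (nat_lit 7676) (nat_lit 0) (XT.nd (nat_lit 780) (nat_lit 4864) (nat_lit 0) (XT.nd (nat_lit 390) (nat_lit 1976) (nat_lit 0) (XT.nd (nat_lit 156) (nat_lit 3496) (nat_lit 0) (XT.nd (nat_lit 78) (nat_lit 1596) (nat_lit 0) (XT.lf (nat_lit 0) (nat_lit 3456736609) (nat_lit 1596) (nat_lit 1787680114) (nat_lit 76) (nat_lit 2729195271) (nat_lit 443) (nat_lit 5) (nat_lit 464) (nat_lit 5) (nat_lit 444) (nat_lit 5) (nat_lit 422) (nat_lit 391) (nat_lit 327)) (XT.lf (nat_lit 0) (nat_lit 2764373875) (nat_lit 1596) (nat_lit 2669828942) (nat_lit 1672) (nat_lit 2603404379) (nat_lit 422) (nat_lit 5) (nat_lit 443) (nat_lit 5) (nat_lit 444) (nat_lit 5) (nat_lit 423) (nat_lit 391) (nat_lit 326))) (XT.nd (nat_lit 78) (nat_lit 3496) (nat_lit 0) (XT.lf (nat_lit 0) (nat_lit 7401378191) (nat_lit 1596) (nat_lit 27211081) (nat_lit 1672) (nat_lit 674765210) (nat_lit 422) (nat_lit 5) (nat_lit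 443) (nat_lit 5) (nat_lit 444) (nat_lit 5) (nat_lit 424) (nat_lit 391) (nat_lit 325)) (XT.nd (nat_lit 78) (nat_lit 1748) (nat_lit 0) (XT.lf (nat_lit 0) (nat_lit 1284685705) (nat_lit 1748) (nat_lit 4213776512) (nat_lit 76) (nat_lit 2671621713) (nat_lit 399) (nat_lit 5) (nat_lit 422) (nat_lit 5) (nat_lit 400) (nat_lit 5) (nat_lit 425) (nat_lit 391) (nat_lit 324)) (XT.lf (nat_lit 0) (nat_lit 449716566) (nat_lit 1748) (nat_lit 2798733801) (nat_lit 1824) (nat_lit 4990143669) (nat_lit 376) (nat_lit 5) (nat_lit 399) (nat_lit 5) (nat_lit 400) (nat_lit 5) (nat_lit 426) (nat_lit 391) (nat_lit 323))))) (XT.nd (nat_lit 156) (nat_lit 988) (nat_lit 0) (XT.nd (nat_lit 78) (nat_lit 988) (nat_lit 0) (XT.lf (nat_lit 0) (nat_lit 5233080440) (nat_lit 1748) (nat_lit 13458494) (nat_lit 1824) (nat_lit 3062052544) (nat_lit 376) (nat_lit 5) (nat_lit 399) (nat_lit 5) (nat_lit 400) (nat_lit 5) (nat_lit 427) (nat_lit 391) (nat_lit 322))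 (XT.lf (nat_lit 0) (nat_lit 1705526803) (nat_lit 988) (nat_lit 5575934763) (nat_lit 1064) (nat_lit 1098607606) (nat_lit 363) (nat_lit 5) (nat_lit 376) (nat_lit 5) (nat_lit 377) (nat_lit 5) (nat_lit 428) (nat_lit 391) (nat_lit 321))) (XT.nd (nat_lit 78) (nat_lit 912) (nat_lit 0) (XT.lf (nat_lit 0) (nat_lit 880764683) (nat_lit 1064) (nat_lit 1865636411) (nat_lit 76) (nat_lit 5706704668) (nat_lit 362) (nat_lit 5) (nat_lit 376) (nat_lit 5) (nat_lit 363) (nat_lit 5) (nat_lit 429) (nat_lit 391) (nat_lit 320)) (XT.nd (nat_lit 78) (nat_lit 0) (nat_lit 0) (XT.lf (nat_lit 0) (nat_lit 2874159141) (nat_lit 988) (nat_lit 5486989858) (nat_lit 76) (nat_lit 166542676) (nat_lit 350) (nat_lit 5) (nat_lit 363) (nat_lit 5) (nat_lit 351) (nat_lit 5) (nat_lit 430) (nat_lit 391) (nat_lit 319)) (XT.lf (nat_lit 0) (nat_lit 4906932826) (nat_lit 988) (nat_lit 582031828) (nat_lit 76) (nat_lit 3114830824) (nat_lit 350) (nat_lit 5) (nat_lit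 363) (nat_lit 5) (nat_lit 351) (nat_lit 5) (nat_lit 431) (nat_lit 391) (nat_lit 318)))))) (XT.nd (nat_lit 390) (nat_lit 2356) (nat_lit 0) (XT.nd (nat_lit 156) (nat_lit 760) (nat_lit 0) (XT.nd (nat_lit 78) (nat_lit 912) (nat_lit 0) (XT.lf (nat_lit 0) (nat_lit 4449282505) (nat_lit 836) (nat_lit 2529301427) (nat_lit 912) (nat_lit 1702889064) (nat_lit 339) (nat_lit 5) (nat_lit 350) (nat_lit 5) (nat_lit 351) (nat_lit 5) (nat_lit 432) (nat_lit 391) (nat_lit 317)) (XT.lf (nat_lit 0) (nat_lit 308571710) (nat_lit 912) (nat_lit 7957785179) (nat_lit 76) (nat_lit 494680684) (nat_lit 327) (nat_lit 5) (nat_lit 339) (nat_lit 5) (nat_lit 328) (nat_lit 5) (nat_lit 433) (nat_lit 391) (nat_lit 316))) (XT.nd (nat_lit 78) (nat_lit 760) (nat_lit 0) (XT.lf (nat_lit 0) (nat_lit 2352747145) (nat_lit 912) (nat_lit 2903803954) (nat_lit 76) (nat_lit 3585126629) (nat_lit 327) (nat_lit 5) (nat_lit 339) (nat_lit 5) (nat_lit 328) (nat_lit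 5) (nat_lit 434) (nat_lit 391) (nat_lit 315)) (XT.nd (nat_lit 78) (nat_lit 0) (nat_lit 0) (XT.lf (nat_lit 0) (nat_lit 2250641844) (nat_lit 760) (nat_lit 2172293735) (nat_lit 836) (nat_lit 4501307370) (nat_lit 317) (nat_lit 5) (nat_lit 327) (nat_lit 5) (nat_lit 328) (nat_lit 5) (nat_lit 435) (nat_lit 391) (nat_lit 314)) (XT.lf (nat_lit 0) (nat_lit 6531359613) (nat_lit 836) (nat_lit 1497507504) (nat_lit 76) (nat_lit 979670284) (nat_lit 317) (nat_lit 5) (nat_lit 328) (nat_lit 5) (nat_lit 318) (nat_lit 5) (nat_lit 436) (nat_lit 391) (nat_lit 313))))) (XT.nd (nat_lit 156) (nat_lit 1520) (nat_lit 0) (XT.nd (nat_lit 78) (nat_lit 76) (nat_lit 0) (XT.lf (nat_lit 0) (nat_lit 3787468273) (nat_lit 760) (nat_lit 4904926503) (nat_lit 836) (nat_lit 401928389) (nat_lit 307) (nat_lit 5) (nat_lit 317) (nat_lit 5) (nat_lit 318) (nat_lit 5) (nat_lit 437) (nat_lit 391) (nat_lit 312)) (XT.lf (nat_lit 0) (nat_lit 1674083312) (nat_lit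 836) (nat_lit 24502131) (nat_lit 76) (nat_lit 7483395296) (nat_lit 306) (nat_lit 5) (nat_lit 317) (nat_lit 5) (nat_lit 307) (nat_lit 5) (nat_lit 438) (nat_lit 391) (nat_lit 311))) (XT.nd (nat_lit 78) (nat_lit 760) (nat_lit 0) (XT.lf (nat_lit 0) (nat_lit 3803945480) (nat_lit 836) (nat_lit 3879494933) (nat_lit 76) (nat_lit 1587557129) (nat_lit 296) (nat_lit 5) (nat_lit 307) (nat_lit 5) (nat_lit 297) (nat_lit 5) (nat_lit 439) (nat_lit 391) (nat_lit 310)) (XT.nd (nat_lit 78) (nat_lit 0) (nat_lit 0) (XT.lf (nat_lit 0) (nat_lit 1533342193) (nat_lit 760) (nat_lit 4436963445) (nat_lit 836) (nat_lit 3391624218) (nat_lit 286) (nat_lit 5) (nat_lit 296) (nat_lit 5) (nat_lit 297) (nat_lit 5) (nat_lit 440) (nat_lit 391) (nat_lit 309)) (XT.lf (nat_lit 0) (nat_lit 7077334205) (nat_lit 760) (nat_lit 1101568946) (nat_lit 836) (nat_lit 1275812393) (nat_lit 286) (nat_lit 5) (nat_lit 296) (nat_lit 5) (nat_lit 297) (nat_lit 5) (nat_lit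 441) (nat_lit 391) (nat_lit 308))))))) (XT.nd (nat_lit 780) (nat_lit 3496) (nat_lit 0) (XT.nd (nat_lit 390) (nat_lit 2052) (nat_lit 0) (XT.nd (nat_lit 156) (nat_lit 1368) (nat_lit 0) (XT.nd (nat_lit 78) (nat_lit 0) (nat_lit 0) (XT.lf (nat_lit 0) (nat_lit 879766209) (nat_lit 760) (nat_lit 6374994938) (nat_lit 76) (nat_lit 2294313209) (nat_lit 276) (nat_lit 5) (nat_lit 286) (nat_lit 5) (nat_lit 277) (nat_lit 5) (nat_lit 442) (nat_lit 391) (nat_lit 307)) (XT.lf (nat_lit 0) (nat_lit 3058279996) (nat_lit 760) (nat_lit 821860113) (nat_lit 76) (nat_lit 5765085624) (nat_lit 276) (nat_lit 5) (nat_lit 286) (nat_lit 5) (nat_lit 277) (nat_lit 5) (nat_lit 443) (nat_lit 391) (nat_lit 306))) (XT.nd (nat_lit 78) (nat_lit 684) (nat_lit 0) (XT.lf (nat_lit 0) (nat_lit 4877081243) (nat_lit 684) (nat_lit 409003434) (nat_lit 760) (nat_lit 4457112994) (nat_lit 267) (nat_lit 5) (nat_lit 276) (nat_lit 5) (nat_lit 277) (nat_lit 5) (nat_lit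 444) (nat_lit 391) (nat_lit 305)) (XT.nd (nat_lit 78) (nat_lit 0) (nat_lit 0) (XT.lf (nat_lit 0) (nat_lit 818965603) (nat_lit 684) (nat_lit 6745034422) (nat_lit 760) (nat_lit 2279029643) (nat_lit 258) (nat_lit 5) (nat_lit 267) (nat_lit 5) (nat_lit 268) (nat_lit 5) (nat_lit 445) (nat_lit 391) (nat_lit 304)) (XT.lf (nat_lit 0) (nat_lit 6651630584) (nat_lit 684) (nat_lit 3245854042) (nat_lit 760) (nat_lit 47184942) (nat_lit 258) (nat_lit 5) (nat_lit 267) (nat_lit 5) (nat_lit 268) (nat_lit 5) (nat_lit 446) (nat_lit 391) (nat_lit 303))))) (XT.nd (nat_lit 156) (nat_lit 1292) (nat_lit 0) (XT.nd (nat_lit 78) (nat_lit 0) (nat_lit 0) (XT.lf (nat_lit 0) (nat_lit 2193830633) (nat_lit 760) (nat_lit 7508139291) (nat_lit 76) (nat_lit 346218466) (nat_lit 248) (nat_lit 5) (nat_lit 258) (nat_lit 5) (nat_lit 249) (nat_lit 5) (nat_lit 447) (nat_lit 391) (nat_lit 302)) (XT.lf (nat_lit 0) (nat_lit 4498037928) (nat_lit 760) (nat_lit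 1670243279) (nat_lit 76) (nat_lit 3985120897) (nat_lit 248) (nat_lit 5) (nat_lit 258) (nat_lit 5) (nat_lit 249) (nat_lit 5) (nat_lit 448) (nat_lit 391) (nat_lit 301))) (XT.nd (nat_lit 78) (nat_lit 684) (nat_lit 0) (XT.lf (nat_lit 0) (nat_lit 4312151512) (nat_lit 608) (nat_lit 2539922787) (nat_lit 684) (nat_lit 3408581504) (nat_lit 240) (nat_lit 5) (nat_lit 248) (nat_lit 5) (nat_lit 249) (nat_lit 5) (nat_lit 449) (nat_lit 391) (nat_lit 300)) (XT.nd (nat_lit 78) (nat_lit 76) (nat_lit 0) (XT.lf (nat_lit 0) (nat_lit 30711326) (nat_lit 608) (nat_lit 9217506914) (nat_lit 684) (nat_lit 1121946198) (nat_lit 232) (nat_lit 5) (nat_lit 240) (nat_lit 5) (nat_lit 241) (nat_lit 5) (nat_lit 450) (nat_lit 391) (nat_lit 299)) (XT.lf (nat_lit 0) (nat_lit 1227672330) (nat_lit 684) (nat_lit 4325083572) (nat_lit 76) (nat_lit 4928297655) (nat_lit 231) (nat_lit 5) (nat_lit 240) (nat_lit 5) (nat_lit 232) (nat_lit 5) (nat_lit 451) (nat_lit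 391) (nat_lit 298)))))) (XT.nd (nat_lit 390) (nat_lit 1672) (nat_lit 0) (XT.nd (nat_lit 156) (nat_lit 1216) (nat_lit 0) (XT.nd (nat_lit 78) (nat_lit 0) (nat_lit 0) (XT.lf (nat_lit 0) (nat_lit 1797065442) (nat_lit 608) (nat_lit 1800467678) (nat_lit 684) (nat_lit 6996723360) (nat_lit 223) (nat_lit 5) (nat_lit 231) (nat_lit 5) (nat_lit 232) (nat_lit 5) (nat_lit 452) (nat_lit 391) (nat_lit 297)) (XT.lf (nat_lit 0) (nat_lit 6033997320) (nat_lit 684) (nat_lit 2651105800) (nat_lit 76) (nat_lit 2024245827) (nat_lit 223) (nat_lit 5) (nat_lit 232) (nat_lit 5) (nat_lit 224) (nat_lit 5) (nat_lit 453) (nat_lit 391) (nat_lit 296))) (XT.nd (nat_lit 78) (nat_lit 608) (nat_lit 0) (XT.lf (nat_lit 0) (nat_lit 3625193242) (nat_lit 608) (nat_lit 4906743284) (nat_lit 684) (nat_lit 2294561242) (nat_lit 215) (nat_lit 5) (nat_lit 223) (nat_lit 5) (nat_lit 224) (nat_lit 5) (nat_lit 454) (nat_lit 391) (nat_lit 295)) (XT.nd (nat_lit 78)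 (nat_lit 532) (nat_lit 0) (XT.lf (nat_lit 0) (nat_lit 127387484) (nat_lit 684) (nat_lit 912118373) (nat_lit 76) (nat_lit 9906569424) (nat_lit 214) (nat_lit 5) (nat_lit 223) (nat_lit 5) (nat_lit 215) (nat_lit 5) (nat_lit 455) (nat_lit 391) (nat_lit 294)) (XT.lf (nat_lit 0) (nat_lit 2599995357) (nat_lit 608) (nat_lit 5554318768) (nat_lit 76) (nat_lit 2912776865) (nat_lit 207) (nat_lit 5) (nat_lit 215) (nat_lit 5) (nat_lit 208) (nat_lit 5) (nat_lit 456) (nat_lit 391) (nat_lit 293))))) (XT.nd (nat_lit 234) (nat_lit 608) (nat_lit 0) (XT.nd (nat_lit 78) (nat_lit 532) (nat_lit 0) (XT.lf (nat_lit 0) (nat_lit 864411899) (nat_lit 532) (nat_lit 4254351512) (nat_lit 608) (nat_lit 6071838145) (nat_lit 200) (nat_lit 5) (nat_lit 207) (nat_lit 5) (nat_lit 208) (nat_lit 5) (nat_lit 457) (nat_lit 391) (nat_lit 292)) (XT.nd (nat_lit 78) (nat_lit 532) (nat_lit 0) (XT.lf (nat_lit 0) (nat_lit 7458872062) (nat_lit 532) (nat_lit 244606396)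 (nat_lit 608) (nat_lit 3612800974) (nat_lit 200) (nat_lit 5) (nat_lit 207) (nat_lit 5) (nat_lit 208) (nat_lit 5) (nat_lit 458) (nat_lit 391) (nat_lit 291)) (XT.lf (nat_lit 0) (nat_lit 2723724437) (nat_lit 532) (nat_lit 7637499098) (nat_lit 608) (nat_lit 1082828980) (nat_lit 193) (nat_lit 5) (nat_lit 200) (nat_lit 5) (nat_lit 201) (nat_lit 5) (nat_lit 459) (nat_lit 391) (nat_lit 290)))) (XT.nd (nat_lit 78) (nat_lit 532) (nat_lit 0) (XT.lf (nat_lit 0) (nat_lit 1484551986) (nat_lit 608) (nat_lit 2124501097) (nat_lit 76) (nat_lit 7965012475) (nat_lit 192) (nat_lit 5) (nat_lit 200) (nat_lit 5) (nat_lit 193) (nat_lit 5) (nat_lit 460) (nat_lit 391) (nat_lit 289)) (XT.nd (nat_lit 78) (nat_lit 0) (nat_lit 0) (XT.lf (nat_lit 0) (nat_lit 4101494960) (nat_lit 608) (nat_lit 7080363433) (nat_lit 76) (nat_lit 524430932) (nat_lit 185) (nat_lit 5) (nat_lit 193) (nat_lit 5) (nat_lit 186) (nat_lit 5) (nat_lit 461) (nat_lit 391)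 (nat_lit 288)) (XT.lf (nat_lit 0) (nat_lit 6788409897) (nat_lit 608) (nat_lit 352247150) (nat_lit 76) (nat_lit 4700155585) (nat_lit 185) (nat_lit 5) (nat_lit 193) (nat_lit 5) (nat_lit 186) (nat_lit 5) (nat_lit 462) (nat_lit 391) (nat_lit 287))))))))
noncomputable def xc129 : XT := (XT.nd (nat_lit 1638) (nat_lit 3268) (nat_lit 0) (XT.nd (nat_lit 780) (nat_lit 2584) (nat_lit 0) (XT.nd (nat_lit 390) (nat_lit 1444) (nat_lit 0) (XT.nd (nat_lit 156) (nat_lit 456) (nat_lit 0) (XT.nd (nat_lit 78) (nat_lit 608) (nat_lit 0) (XT.lf (nat_lit 0) (nat_lit 6569593964) (nat_lit 456) (nat_lit 2981908778) (nat_lit 532) (nat_lit 2426082447) (nat_lit 179) (nat_lit 5) (nat_lit 185) (nat_lit 5) (nat_lit 186) (nat_lit 5) (nat_lit 463) (nat_lit 391) (nat_lit 286)) (XT.lf (nat_lit 0) (nat_lit 249718737) (nat_lit 608) (nat_lit 10616820020) (nat_lit 76) (nat_lit 1250523508) (nat_lit 171) (nat_lit 5) (nat_lit 179) (nat_lit 5) (nat_lit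 172) (nat_lit 5) (nat_lit 464) (nat_lit 391) (nat_lit 285))) (XT.nd (nat_lit 78) (nat_lit 456) (nat_lit 0) (XT.lf (nat_lit 0) (nat_lit 2982902043) (nat_lit 608) (nat_lit 3701988520) (nat_lit 76) (nat_lit 5573397704) (nat_lit 171) (nat_lit 5) (nat_lit 179) (nat_lit 5) (nat_lit 172) (nat_lit 5) (nat_lit 465) (nat_lit 391) (nat_lit 284)) (XT.nd (nat_lit 78) (nat_lit 0) (nat_lit 0) (XT.lf (nat_lit 0) (nat_lit 3368576216) (nat_lit 456) (nat_lit 2404477587) (nat_lit 532) (nat_lit 6629245889) (nat_lit 165) (nat_lit 5) (nat_lit 171) (nat_lit 5) (nat_lit 172) (nat_lit 5) (nat_lit 466) (nat_lit 391) (nat_lit 283)) (XT.lf (nat_lit 0) (nat_lit 8637349145) (nat_lit 532) (nat_lit 1957775058) (nat_lit 76) (nat_lit 1953707192) (nat_lit 165) (nat_lit 5) (nat_lit 172) (nat_lit 5) (nat_lit 166) (nat_lit 5) (nat_lit 467) (nat_lit 391) (nat_lit 282))))) (XT.nd (nat_lit 156) (nat_lit 912) (nat_lit 0) (XT.nd (nat_lit 78) (nat_lit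 76) (nat_lit 0) (XT.lf (nat_lit 0) (nat_lit 5286718553) (nat_lit 456) (nat_lit 6303438942) (nat_lit 532) (nat_lit 1107518423) (nat_lit 159) (nat_lit 5) (nat_lit 165) (nat_lit 5) (nat_lit 166) (nat_lit 5) (nat_lit 468) (nat_lit 391) (nat_lit 281)) (XT.lf (nat_lit 0) (nat_lit 1723814877) (nat_lit 532) (nat_lit 184530993) (nat_lit 76) (nat_lit 10941044856) (nat_lit 158) (nat_lit 5) (nat_lit 165) (nat_lit 5) (nat_lit 159) (nat_lit 5) (nat_lit 469) (nat_lit 391) (nat_lit 280))) (XT.nd (nat_lit 78) (nat_lit 456) (nat_lit 0) (XT.lf (nat_lit 0) (nat_lit 4642469567) (nat_lit 532) (nat_lit 5772259764) (nat_lit 76) (nat_lit 2588359940) (nat_lit 152) (nat_lit 5) (nat_lit 159) (nat_lit 5) (nat_lit 153) (nat_lit 5) (nat_lit 470) (nat_lit 391) (nat_lit 279)) (XT.nd (nat_lit 78) (nat_lit 0) (nat_lit 0) (XT.lf (nat_lit 0) (nat_lit 1619650244) (nat_lit 456) (nat_lit 6005818081) (nat_lit 532) (nat_lit 5534280255) (nat_lit 146)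 (nat_lit 5) (nat_lit 152) (nat_lit 5) (nat_lit 153) (nat_lit 5) (nat_lit 471) (nat_lit 391) (nat_lit 278)) (XT.lf (nat_lit 0) (nat_lit 9211707638) (nat_lit 456) (nat_lit 1476917873) (nat_lit 532) (nat_lit 2630511689) (nat_lit 146) (nat_lit 5) (nat_lit 152) (nat_lit 5) (nat_lit 153) (nat_lit 5) (nat_lit 472) (nat_lit 391) (nat_lit 277)))))) (XT.nd (nat_lit 390) (nat_lit 1292) (nat_lit 0) (XT.nd (nat_lit 156) (nat_lit 836) (nat_lit 0) (XT.nd (nat_lit 78) (nat_lit 0) (nat_lit 0) (XT.lf (nat_lit 0) (nat_lit 352173291) (nat_lit 456) (nat_lit 10010235321) (nat_lit 76) (nat_lit 3118764080) (nat_lit 140) (nat_lit 5) (nat_lit 146) (nat_lit 5) (nat_lit 141) (nat_lit 5) (nat_lit 473) (nat_lit 391) (nat_lit 276)) (XT.lf (nat_lit 0) (nat_lit 3378983149) (nat_lit 456) (nat_lit 2442547898) (nat_lit 76) (nat_lit 7824181961) (nat_lit 140) (nat_lit 5) (nat_lit 146) (nat_lit 5) (nat_lit 141) (nat_lit 5) (nat_lit 474) (nat_lit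 391) (nat_lit 275))) (XT.nd (nat_lit 78) (nat_lit 380) (nat_lit 0) (XT.lf (nat_lit 0) (nat_lit 5320969788) (nat_lit 456) (nat_lit 1162391329) (nat_lit 532) (nat_lit 7329848004) (nat_lit 134) (nat_lit 5) (nat_lit 140) (nat_lit 5) (nat_lit 141) (nat_lit 5) (nat_lit 475) (nat_lit 391) (nat_lit 274)) (XT.nd (nat_lit 78) (nat_lit 380) (nat_lit 0) (XT.lf (nat_lit 0) (nat_lit 9672248343) (nat_lit 532) (nat_lit 759720881) (nat_lit 76) (nat_lit 3551643016) (nat_lit 134) (nat_lit 5) (nat_lit 141) (nat_lit 5) (nat_lit 135) (nat_lit 5) (nat_lit 476) (nat_lit 391) (nat_lit 273)) (XT.lf (nat_lit 0) (nat_lit 7189091122) (nat_lit 380) (nat_lit 5773151548) (nat_lit 456) (nat_lit 1194439575) (nat_lit 129) (nat_lit 5) (nat_lit 134) (nat_lit 5) (nat_lit 135) (nat_lit 5) (nat_lit 477) (nat_lit 391) (nat_lit 272))))) (XT.nd (nat_lit 234) (nat_lit 456) (nat_lit 0) (XT.nd (nat_lit 78) (nat_lit 380) (nat_lit 0) (XT.lf (nat_lit 0) (nat_lit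 948574122) (nat_lit 380) (nat_lit 1004519865) (nat_lit 456) (nat_lit 12379981086) (nat_lit 123) (nat_lit 5) (nat_lit 128) (nat_lit 5) (nat_lit 129) (nat_lit 5) (nat_lit 478) (nat_lit 391) (nat_lit 271)) (XT.nd (nat_lit 78) (nat_lit 380) (nat_lit 0) (XT.lf (nat_lit 0) (nat_lit 5202854858) (nat_lit 456) (nat_lit 5452965286) (nat_lit 76) (nat_lit 3855917404) (nat_lit 123) (nat_lit 5) (nat_lit 129) (nat_lit 5) (nat_lit 124) (nat_lit 5) (nat_lit 479) (nat_lit 391) (nat_lit 270)) (XT.lf (nat_lit 0) (nat_lit 2640535940) (nat_lit 380) (nat_lit 5884333379) (nat_lit 456) (nat_lit 6168963784) (nat_lit 118) (nat_lit 5) (nat_lit 123) (nat_lit 5) (nat_lit 124) (nat_lit 5) (nat_lit 480) (nat_lit 391) (nat_lit 269)))) (XT.nd (nat_lit 78) (nat_lit 456) (nat_lit 0) (XT.lf (nat_lit 0) (nat_lit 10945341894) (nat_lit 380) (nat_lit 988201583) (nat_lit 456) (nat_lit 2945627603) (nat_lit 118) (nat_lit 5) (nat_lit 123) (nat_lit 5) (nat_lit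 124) (nat_lit 5) (nat_lit 481) (nat_lit 391) (nat_lit 268)) (XT.nd (nat_lit 78) (nat_lit 0) (nat_lit 0) (XT.lf (nat_lit 0) (nat_lit 376115560) (nat_lit 456) (nat_lit 10715073093) (nat_lit 76) (nat_lit 3976218882) (nat_lit 112) (nat_lit 5) (nat_lit 118) (nat_lit 5) (nat_lit 113) (nat_lit 5) (nat_lit 482) (nat_lit 391) (nat_lit 267)) (XT.lf (nat_lit 0) (nat_lit 3741951269) (nat_lit 456) (nat_lit 2451896127) (nat_lit 76) (nat_lit 9064834537) (nat_lit 112) (nat_lit 5) (nat_lit 118) (nat_lit 5) (nat_lit 113) (nat_lit 5) (nat_lit 483) (nat_lit 391) (nat_lit 266))))))) (XT.nd (nat_lit 780) (nat_lit 1216) (nat_lit 0) (XT.nd (nat_lit 390) (nat_lit 988) (nat_lit 0) (XT.nd (nat_lit 156) (nat_lit 760) (nat_lit 0) (XT.nd (nat_lit 78) (nat_lit 0) (nat_lit 0) (XT.lf (nat_lit 0) (nat_lit 6031795466) (nat_lit 304) (nat_lit 1166730934) (nat_lit 380) (nat_lit 8254791492) (nat_lit 108) (nat_lit 5) (nat_lit 112) (nat_lit 5) (nat_lit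 113) (nat_lit 5) (nat_lit 484) (nat_lit 391) (nat_lit 265)) (XT.lf (nat_lit 0) (nat_lit 10750874832) (nat_lit 380) (nat_lit 982909932) (nat_lit 76) (nat_lit 3917533407) (nat_lit 108) (nat_lit 5) (nat_lit 113) (nat_lit 5) (nat_lit 109) (nat_lit 5) (nat_lit 485) (nat_lit 391) (nat_lit 264))) (XT.nd (nat_lit 78) (nat_lit 380) (nat_lit 0) (XT.lf (nat_lit 0) (nat_lit 7694164855) (nat_lit 380) (nat_lit 6722456662) (nat_lit 456) (nat_lit 1435814265) (nat_lit 103) (nat_lit 5) (nat_lit 108) (nat_lit 5) (nat_lit 109) (nat_lit 5) (nat_lit 486) (nat_lit 391) (nat_lit 263)) (XT.nd (nat_lit 78) (nat_lit 0) (nat_lit 0) (XT.lf (nat_lit 0) (nat_lit 469607526) (nat_lit 304) (nat_lit 1595384629) (nat_lit 380) (nat_lit 13992427289) (nat_lit 98) (nat_lit 5) (nat_lit 102) (nat_lit 5) (nat_lit 103) (nat_lit 5) (nat_lit 487) (nat_lit 391) (nat_lit 262)) (XT.lf (nat_lit 0) (nat_lit 5680119376) (nat_lit 380) (nat_lit 6941888655) (nat_lit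 76) (nat_lit 3643038431) (nat_lit 98) (nat_lit 5) (nat_lit 103) (nat_lit 5) (nat_lit 99) (nat_lit 5) (nat_lit 488) (nat_lit 391) (nat_lit 261))))) (XT.nd (nat_lit 156) (nat_lit 684) (nat_lit 0) (XT.nd (nat_lit 78) (nat_lit 0) (nat_lit 0) (XT.lf (nat_lit 0) (nat_lit 1867701707) (nat_lit 304) (nat_lit 7507644721) (nat_lit 380) (nat_lit 7101327666) (nat_lit 94) (nat_lit 5) (nat_lit 98) (nat_lit 5) (nat_lit 99) (nat_lit 5) (nat_lit 489) (nat_lit 391) (nat_lit 260)) (XT.lf (nat_lit 0) (nat_lit 10924554363) (nat_lit 304) (nat_lit 2251755385) (nat_lit 380) (nat_lit 3515591837) (nat_lit 94) (nat_lit 5) (nat_lit 98) (nat_lit 5) (nat_lit 99) (nat_lit 5) (nat_lit 490) (nat_lit 391) (nat_lit 259))) (XT.nd (nat_lit 78) (nat_lit 304) (nat_lit 0) (XT.lf (nat_lit 0) (nat_lit 166949584) (nat_lit 380) (nat_lit 13661260665) (nat_lit 76) (nat_lit 3082669717) (nat_lit 89) (nat_lit 5) (nat_lit 94) (nat_lit 5) (nat_lit 90) (nat_lit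 5) (nat_lit 491) (nat_lit 391) (nat_lit 258)) (XT.nd (nat_lit 78) (nat_lit 304) (nat_lit 0) (XT.lf (nat_lit 0) (nat_lit 3915505648) (nat_lit 380) (nat_lit 4669674991) (nat_lit 76) (nat_lit 8547807475) (nat_lit 89) (nat_lit 5) (nat_lit 94) (nat_lit 5) (nat_lit 90) (nat_lit 5) (nat_lit 492) (nat_lit 391) (nat_lit 257)) (XT.lf (nat_lit 0) (nat_lit 4538855077) (nat_lit 304) (nat_lit 3215453936) (nat_lit 380) (nat_lit 9604927531) (nat_lit 85) (nat_lit 5) (nat_lit 89) (nat_lit 5) (nat_lit 90) (nat_lit 5) (nat_lit 493) (nat_lit 391) (nat_lit 256)))))) (XT.nd (nat_lit 390) (nat_lit 608) (nat_lit 0) (XT.nd (nat_lit 156) (nat_lit 380) (nat_lit 0) (XT.nd (nat_lit 78) (nat_lit 228) (nat_lit 0) (XT.lf (nat_lit 0) (nat_lit 11702003534) (nat_lit 380) (nat_lit 3631919783) (nat_lit 76) (nat_lit 2255447892) (nat_lit 85) (nat_lit 5) (nat_lit 90) (nat_lit 5) (nat_lit 86) (nat_lit 5) (nat_lit 494) (nat_lit 391) (nat_lit 255)) (XT.lf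 (nat_lit 0) (nat_lit 5772668268) (nat_lit 228) (nat_lit 10000922130) (nat_lit 304) (nat_lit 2049622901) (nat_lit 82) (nat_lit 5) (nat_lit 85) (nat_lit 5) (nat_lit 86) (nat_lit 5) (nat_lit 495) (nat_lit 391) (nat_lit 254))) (XT.nd (nat_lit 78) (nat_lit 304) (nat_lit 0) (XT.lf (nat_lit 0) (nat_lit 1851150995) (nat_lit 304) (nat_lit 2681034207) (nat_lit 76) (nat_lit 13529093582) (nat_lit 81) (nat_lit 5) (nat_lit 85) (nat_lit 5) (nat_lit 82) (nat_lit 5) (nat_lit 496) (nat_lit 391) (nat_lit 253)) (XT.nd (nat_lit 78) (nat_lit 0) (nat_lit 0) (XT.lf (nat_lit 0) (nat_lit 5841121187) (nat_lit 380) (nat_lit 11378798767) (nat_lit 76) (nat_lit 1083145458) (nat_lit 77) (nat_lit 5) (nat_lit 82) (nat_lit 5) (nat_lit 78) (nat_lit 5) (nat_lit 497) (nat_lit 391) (nat_lit 252)) (XT.lf (nat_lit 0) (nat_lit 9945557927) (nat_lit 380) (nat_lit 1843188382) (nat_lit 76) (nat_lit 6760251353) (nat_lit 77) (nat_lit 5) (nat_lit 82) (nat_lit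 5) (nat_lit 78) (nat_lit 5) (nat_lit 498) (nat_lit 391) (nat_lit 251))))) (XT.nd (nat_lit 234) (nat_lit 0) (nat_lit 0) (XT.nd (nat_lit 78) (nat_lit 380) (nat_lit 0) (XT.lf (nat_lit 0) (nat_lit 7966297502) (nat_lit 228) (nat_lit 6204314638) (nat_lit 304) (nat_lit 4628469014) (nat_lit 74) (nat_lit 5) (nat_lit 77) (nat_lit 5) (nat_lit 78) (nat_lit 5) (nat_lit 499) (nat_lit 391) (nat_lit 250)) (XT.nd (nat_lit 78) (nat_lit 380) (nat_lit 0) (XT.lf (nat_lit 0) (nat_lit 17975782114) (nat_lit 228) (nat_lit 503681550) (nat_lit 304) (nat_lit 574719833) (nat_lit 74) (nat_lit 5) (nat_lit 77) (nat_lit 5) (nat_lit 78) (nat_lit 5) (nat_lit 500) (nat_lit 391) (nat_lit 249)) (XT.lf (nat_lit 0) (nat_lit 3593549142) (nat_lit 380) (nat_lit 10403667787) (nat_lit 76) (nat_lit 5315108928) (nat_lit 69) (nat_lit 5) (nat_lit 74) (nat_lit 5) (nat_lit 70) (nat_lit 5) (nat_lit 501) (nat_lit 391) (nat_lit 248)))) (XT.nd (nat_lit 50778) (nat_lit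 0) (nat_lit 41192) (XT.lf (nat_lit 0) (nat_lit 7835277279) (nat_lit 380) (nat_lit 493603320) (nat_lit 76) (nat_lit 11246721631) (nat_lit 69) (nat_lit 5) (nat_lit 74) (nat_lit 5) (nat_lit 70) (nat_lit 5) (nat_lit 502) (nat_lit 391) (nat_lit 247)) (XT.nd (nat_lit 78) (nat_lit 0) (nat_lit 0) (XT.lf (nat_lit 0) (nat_lit 1528735835) (nat_lit 836) (nat_lit 915889350) (nat_lit 836) (nat_lit 915889350) (nat_lit 611) (nat_lit 3) (nat_lit 622) (nat_lit 3) (nat_lit 622) (nat_lit 5) (nat_lit 392) (nat_lit 392) (nat_lit 356)) (XT.lf (nat_lit 76) (nat_lit 1379763883) (nat_lit 0) (nat_lit 3799078359) (nat_lit 836) (nat_lit 1566026567) (nat_lit 612) (nat_lit 5) (nat_lit 611) (nat_lit 3) (nat_lit 622) (nat_lit 5) (nat_lit 393) (nat_lit 392) (nat_lit 355))))))))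
noncomputable def xc130 : XT := (XT.nd (nat_lit 1560) (nat_lit 15732) (nat_lit 0) (XT.nd (nat_lit 780) (nat_lit 3268) (nat_lit 0) (XT.nd (nat_lit 390) (nat_lit 912) (nat_lit 0) (XT.nd (nat_lit 156) (nat_lit 836) (nat_lit 0) (XT.nd (nat_lit 78) (nat_lit 0) (nat_lit 0) (XT.lf (nat_lit 0) (nat_lit 523113725) (nat_lit 836) (nat_lit 2121390583) (nat_lit 912) (nat_lit 4125502952) (nat_lit 600) (nat_lit 5) (nat_lit 611) (nat_lit 3) (nat_lit 612) (nat_lit 5) (nat_lit 394) (nat_lit 392) (nat_lit 354)) (XT.lf (nat_lit 76) (nat_lit 1163643312) (nat_lit 0) (nat_lit 1422887592) (nat_lit 912) (nat_lit 4209880476) (nat_lit 601) (nat_lit 5) (nat_lit 600) (nat_lit 5) (nat_lit 612) (nat_lit 5) (nat_lit 395) (nat_lit 392) (nat_lit 353))) (XT.nd (nat_lit 78) (nat_lit 836) (nat_lit 0) (XT.lf (nat_lit 76) (nat_lit 4514875943) (nat_lit 0) (nat_lit 137342107) (nat_lit 912) (nat_lit 2171943929) (nat_lit 601) (nat_lit 5) (nat_lit 600)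 (nat_lit 5) (nat_lit 612) (nat_lit 5) (nat_lit 396) (nat_lit 392) (nat_lit 352)) (XT.nd (nat_lit 78) (nat_lit 912) (nat_lit 0) (XT.lf (nat_lit 76) (nat_lit 1057975005) (nat_lit 0) (nat_lit 5663703600) (nat_lit 912) (nat_lit 131577465) (nat_lit 602) (nat_lit 5) (nat_lit 601) (nat_lit 5) (nat_lit 613) (nat_lit 5) (nat_lit 397) (nat_lit 392) (nat_lit 351)) (XT.lf (nat_lit 0) (nat_lit 1888962505) (nat_lit 912) (nat_lit 2401883613) (nat_lit 988) (nat_lit 2592570264) (nat_lit 589) (nat_lit 5) (nat_lit 601) (nat_lit 5) (nat_lit 602) (nat_lit 5) (nat_lit 398) (nat_lit 392) (nat_lit 350))))) (XT.nd (nat_lit 156) (nat_lit 912) (nat_lit 0) (XT.nd (nat_lit 78) (nat_lit 0) (nat_lit 0) (XT.lf (nat_lit 76) (nat_lit 1043295878) (nat_lit 0) (nat_lit 2861069014) (nat_lit 988) (nat_lit 3010708845) (nat_lit 590) (nat_lit 5) (nat_lit 589) (nat_lit 5) (nat_lit 602) (nat_lit 5) (nat_lit 399) (nat_lit 392) (nat_lit 349)) (XT.lf (nat_lit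 76) (nat_lit 4561229689) (nat_lit 0) (nat_lit 1365206586) (nat_lit 988) (nat_lit 1021635548) (nat_lit 590) (nat_lit 5) (nat_lit 589) (nat_lit 5) (nat_lit 602) (nat_lit 5) (nat_lit 400) (nat_lit 392) (nat_lit 348))) (XT.nd (nat_lit 78) (nat_lit 0) (nat_lit 0) (XT.lf (nat_lit 0) (nat_lit 953588480) (nat_lit 988) (nat_lit 5836262290) (nat_lit 1064) (nat_lit 192590181) (nat_lit 577) (nat_lit 5) (nat_lit 590) (nat_lit 5) (nat_lit 591) (nat_lit 5) (nat_lit 401) (nat_lit 392) (nat_lit 347)) (XT.nd (nat_lit 78) (nat_lit 0) (nat_lit 0) (XT.lf (nat_lit 0) (nat_lit 2931581727) (nat_lit 988) (nat_lit 2280645324) (nat_lit 1064) (nat_lit 1805629259) (nat_lit 577) (nat_lit 5) (nat_lit 590) (nat_lit 5) (nat_lit 591) (nat_lit 5) (nat_lit 402) (nat_lit 392) (nat_lit 346)) (XT.lf (nat_lit 76) (nat_lit 1334399205) (nat_lit 0) (nat_lit 3576112678) (nat_lit 1064) (nat_lit 2144272704) (nat_lit 578) (nat_lit 5) (nat_lit 577) (nat_lit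 5) (nat_lit 591) (nat_lit 5) (nat_lit 403) (nat_lit 392) (nat_lit 345)))))) (XT.nd (nat_lit 390) (nat_lit 1140) (nat_lit 0) (XT.nd (nat_lit 156) (nat_lit 1064) (nat_lit 0) (XT.nd (nat_lit 78) (nat_lit 1064) (nat_lit 0) (XT.lf (nat_lit 76) (nat_lit 5023665723) (nat_lit 0) (nat_lit 1874111438) (nat_lit 1064) (nat_lit 195330664) (nat_lit 578) (nat_lit 5) (nat_lit 577) (nat_lit 5) (nat_lit 591) (nat_lit 5) (nat_lit 404) (nat_lit 392) (nat_lit 344)) (XT.lf (nat_lit 76) (nat_lit 1635261776) (nat_lit 0) (nat_lit 98467671) (nat_lit 1140) (nat_lit 5398972617) (nat_lit 564) (nat_lit 5) (nat_lit 563) (nat_lit 5) (nat_lit 578) (nat_lit 5) (nat_lit 405) (nat_lit 392) (nat_lit 343))) (XT.nd (nat_lit 78) (nat_lit 1140) (nat_lit 0) (XT.lf (nat_lit 0) (nat_lit 3678709022) (nat_lit 1064) (nat_lit 1773120579) (nat_lit 1140) (nat_lit 1721663395) (nat_lit 564) (nat_lit 5) (nat_lit 578) (nat_lit 5) (nat_lit 579) (nat_lit 5) (nat_lit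 406) (nat_lit 392) (nat_lit 342)) (XT.nd (nat_lit 78) (nat_lit 1140) (nat_lit 0) (XT.lf (nat_lit 76) (nat_lit 2022225629) (nat_lit 0) (nat_lit 3609881905) (nat_lit 1140) (nat_lit 1583630948) (nat_lit 565) (nat_lit 5) (nat_lit 564) (nat_lit 5) (nat_lit 579) (nat_lit 5) (nat_lit 407) (nat_lit 392) (nat_lit 341)) (XT.lf (nat_lit 0) (nat_lit 329025214) (nat_lit 1140) (nat_lit 1373278578) (nat_lit 1216) (nat_lit 5557144048) (nat_lit 549) (nat_lit 5) (nat_lit 564) (nat_lit 5) (nat_lit 565) (nat_lit 5) (nat_lit 408) (nat_lit 392) (nat_lit 340))))) (XT.nd (nat_lit 156) (nat_lit 1216) (nat_lit 0) (XT.nd (nat_lit 78) (nat_lit 0) (nat_lit 0) (XT.lf (nat_lit 0) (nat_lit 2233898234) (nat_lit 1140) (nat_lit 4789516162) (nat_lit 1216) (nat_lit 280931703) (nat_lit 550) (nat_lit 5) (nat_lit 565) (nat_lit 5) (nat_lit 566) (nat_lit 5) (nat_lit 409) (nat_lit 392) (nat_lit 339)) (XT.lf (nat_lit 0) (nat_lit 4155121891) (nat_lit 1140)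 (nat_lit 891911380) (nat_lit 1216) (nat_lit 2303570895) (nat_lit 550) (nat_lit 5) (nat_lit 565) (nat_lit 5) (nat_lit 566) (nat_lit 5) (nat_lit 410) (nat_lit 392) (nat_lit 338))) (XT.nd (nat_lit 78) (nat_lit 1216) (nat_lit 0) (XT.lf (nat_lit 76) (nat_lit 3094887884) (nat_lit 0) (nat_lit 2998508739) (nat_lit 1216) (nat_lit 1304844615) (nat_lit 551) (nat_lit 5) (nat_lit 550) (nat_lit 5) (nat_lit 566) (nat_lit 5) (nat_lit 411) (nat_lit 392) (nat_lit 337)) (XT.nd (nat_lit 78) (nat_lit 0) (nat_lit 76) (XT.lf (nat_lit 0) (nat_lit 580312253) (nat_lit 1216) (nat_lit 307013246) (nat_lit 1292) (nat_lit 6560152226) (nat_lit 534) (nat_lit 5) (nat_lit 550) (nat_lit 5) (nat_lit 551) (nat_lit 5) (nat_lit 412) (nat_lit 392) (nat_lit 336)) (XT.lf (nat_lit 0) (nat_lit 2478445537) (nat_lit 1216) (nat_lit 3725321529) (nat_lit 76) (nat_lit 1293929327) (nat_lit 535) (nat_lit 5) (nat_lit 551) (nat_lit 5) (nat_lit 536) (nat_lit 5) (nat_lit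 413) (nat_lit 392) (nat_lit 335))))))) (XT.nd (nat_lit 780) (nat_lit 7220) (nat_lit 0) (XT.nd (nat_lit 390) (nat_lit 4636) (nat_lit 0) (XT.nd (nat_lit 156) (nat_lit 2736) (nat_lit 0) (XT.nd (nat_lit 78) (nat_lit 0) (nat_lit 0) (XT.lf (nat_lit 0) (nat_lit 357593112) (nat_lit 1216) (nat_lit 4027560131) (nat_lit 1292) (nat_lit 3164378327) (nat_lit 519) (nat_lit 5) (nat_lit 535) (nat_lit 5) (nat_lit 536) (nat_lit 5) (nat_lit 414) (nat_lit 392) (nat_lit 334)) (XT.lf (nat_lit 0) (nat_lit 4543019118) (nat_lit 1216) (nat_lit 1772899864) (nat_lit 1292) (nat_lit 1286789879) (nat_lit 519) (nat_lit 5) (nat_lit 535) (nat_lit 5) (nat_lit 536) (nat_lit 5) (nat_lit 415) (nat_lit 392) (nat_lit 333))) (XT.nd (nat_lit 78) (nat_lit 1368) (nat_lit 0) (XT.lf (nat_lit 0) (nat_lit 592457145) (nat_lit 1368) (nat_lit 6524640490) (nat_lit 76) (nat_lit 540346479) (nat_lit 501) (nat_lit 5) (nat_lit 519) (nat_lit 5) (nat_lit 502) (nat_lit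 5) (nat_lit 416) (nat_lit 392) (nat_lit 332)) (XT.nd (nat_lit 78) (nat_lit 1368) (nat_lit 0) (XT.lf (nat_lit 0) (nat_lit 2486520240) (nat_lit 1368) (nat_lit 2312883730) (nat_lit 76) (nat_lit 2913833277) (nat_lit 501) (nat_lit 5) (nat_lit 519) (nat_lit 5) (nat_lit 502) (nat_lit 5) (nat_lit 417) (nat_lit 392) (nat_lit 331)) (XT.lf (nat_lit 0) (nat_lit 1979418357) (nat_lit 1368) (nat_lit 2414678306) (nat_lit 1444) (nat_lit 3376559008) (nat_lit 483) (nat_lit 5) (nat_lit 501) (nat_lit 5) (nat_lit 502) (nat_lit 5) (nat_lit 418) (nat_lit 392) (nat_lit 330))))) (XT.nd (nat_lit 156) (nat_lit 3116) (nat_lit 0) (XT.nd (nat_lit 78) (nat_lit 1520) (nat_lit 0) (XT.lf (nat_lit 0) (nat_lit 6318929100) (nat_lit 1444) (nat_lit 1470469138) (nat_lit 76) (nat_lit 40263775) (nat_lit 483) (nat_lit 5) (nat_lit 502) (nat_lit 5) (nat_lit 484) (nat_lit 5) (nat_lit 419) (nat_lit 392) (nat_lit 329)) (XT.lf (nat_lit 0) (nat_lit 386331781)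 (nat_lit 1520) (nat_lit 4962949698) (nat_lit 76) (nat_lit 2540555474) (nat_lit 463) (nat_lit 5) (nat_lit 483) (nat_lit 5) (nat_lit 464) (nat_lit 5) (nat_lit 420) (nat_lit 392) (nat_lit 328))) (XT.nd (nat_lit 78) (nat_lit 3116) (nat_lit 0) (XT.lf (nat_lit 0) (nat_lit 2275403011) (nat_lit 1520) (nat_lit 558928037) (nat_lit 76) (nat_lit 5117219136) (nat_lit 463) (nat_lit 5) (nat_lit 483) (nat_lit 5) (nat_lit 464) (nat_lit 5) (nat_lit 421) (nat_lit 392) (nat_lit 327)) (XT.nd (nat_lit 78) (nat_lit 1596) (nat_lit 0) (XT.lf (nat_lit 0) (nat_lit 3955677826) (nat_lit 1520) (nat_lit 237301974) (nat_lit 1596) (nat_lit 3821723388) (nat_lit 443) (nat_lit 5) (nat_lit 463) (nat_lit 5) (nat_lit 464) (nat_lit 5) (nat_lit 422) (nat_lit 392) (nat_lit 326)) (XT.lf (nat_lit 0) (nat_lit 449393342) (nat_lit 1596) (nat_lit 5687437756) (nat_lit 1672) (nat_lit 1942549292) (nat_lit 422) (nat_lit 5) (nat_lit 443) (nat_lit 5) (nat_lit 444)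 (nat_lit 5) (nat_lit 423) (nat_lit 392) (nat_lit 325)))))) (XT.nd (nat_lit 390) (nat_lit 3724) (nat_lit 0) (XT.nd (nat_lit 156) (nat_lit 1748) (nat_lit 0) (XT.nd (nat_lit 78) (nat_lit 1748) (nat_lit 0) (XT.lf (nat_lit 0) (nat_lit 5071680502) (nat_lit 1596) (nat_lit 3042731891) (nat_lit 1672) (nat_lit 31060898) (nat_lit 422) (nat_lit 5) (nat_lit 443) (nat_lit 5) (nat_lit 444) (nat_lit 5) (nat_lit 424) (nat_lit 392) (nat_lit 324)) (XT.lf (nat_lit 0) (nat_lit 1551810767) (nat_lit 1672) (nat_lit 318238546) (nat_lit 1748) (nat_lit 6343076951) (nat_lit 399) (nat_lit 5) (nat_lit 421) (nat_lit 5) (nat_lit 422) (nat_lit 5) (nat_lit 425) (nat_lit 392) (nat_lit 323))) (XT.nd (nat_lit 78) (nat_lit 1748) (nat_lit 0) (XT.lf (nat_lit 0) (nat_lit 3812476464) (nat_lit 1748) (nat_lit 2016564053) (nat_lit 76) (nat_lit 2453031566) (nat_lit 399) (nat_lit 5) (nat_lit 422) (nat_lit 5) (nat_lit 400) (nat_lit 5) (nat_lit 426) (nat_lit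 392) (nat_lit 322)) (XT.nd (nat_lit 78) (nat_lit 0) (nat_lit 0) (XT.lf (nat_lit 0) (nat_lit 2725189097) (nat_lit 1748) (nat_lit 3055982075) (nat_lit 1824) (nat_lit 2571495017) (nat_lit 376) (nat_lit 5) (nat_lit 399) (nat_lit 5) (nat_lit 400) (nat_lit 5) (nat_lit 427) (nat_lit 392) (nat_lit 321)) (XT.lf (nat_lit 0) (nat_lit 7559779499) (nat_lit 1748) (nat_lit 211054721) (nat_lit 1824) (nat_lit 654223472) (nat_lit 376) (nat_lit 5) (nat_lit 399) (nat_lit 5) (nat_lit 400) (nat_lit 5) (nat_lit 428) (nat_lit 392) (nat_lit 320))))) (XT.nd (nat_lit 234) (nat_lit 1748) (nat_lit 0) (XT.nd (nat_lit 78) (nat_lit 912) (nat_lit 0) (XT.lf (nat_lit 0) (nat_lit 1296520083) (nat_lit 1064) (nat_lit 4509493726) (nat_lit 76) (nat_lit 2692487060) (nat_lit 362) (nat_lit 5) (nat_lit 376) (nat_lit 5) (nat_lit 363) (nat_lit 5) (nat_lit 429) (nat_lit 392) (nat_lit 319)) (XT.nd (nat_lit 78) (nat_lit 0) (nat_lit 0) (XT.lf (nat_lit 0) (nat_lit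 347951506) (nat_lit 912) (nat_lit 2907984893) (nat_lit 988) (nat_lit 5317838063) (nat_lit 350) (nat_lit 5) (nat_lit 362) (nat_lit 5) (nat_lit 363) (nat_lit 5) (nat_lit 430) (nat_lit 392) (nat_lit 318)) (XT.lf (nat_lit 0) (nat_lit 5254648457) (nat_lit 988) (nat_lit 3316883368) (nat_lit 76) (nat_lit 79035633) (nat_lit 350) (nat_lit 5) (nat_lit 363) (nat_lit 5) (nat_lit 351) (nat_lit 5) (nat_lit 431) (nat_lit 392) (nat_lit 317)))) (XT.nd (nat_lit 78) (nat_lit 912) (nat_lit 0) (XT.lf (nat_lit 0) (nat_lit 1663285239) (nat_lit 836) (nat_lit 5630042387) (nat_lit 912) (nat_lit 1435584591) (nat_lit 339) (nat_lit 5) (nat_lit 350) (nat_lit 5) (nat_lit 351) (nat_lit 5) (nat_lit 432) (nat_lit 392) (nat_lit 316)) (XT.nd (nat_lit 78) (nat_lit 836) (nat_lit 0) (XT.lf (nat_lit 0) (nat_lit 549088575) (nat_lit 912) (nat_lit 2053893211) (nat_lit 76) (nat_lit 6205933435) (nat_lit 338) (nat_lit 5) (nat_lit 350) (nat_lit 5) (nat_lit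 339) (nat_lit 5) (nat_lit 433) (nat_lit 392) (nat_lit 315)) (XT.lf (nat_lit 0) (nat_lit 2548166156) (nat_lit 912) (nat_lit 5834319988) (nat_lit 76) (nat_lit 507978543) (nat_lit 327) (nat_lit 5) (nat_lit 339) (nat_lit 5) (nat_lit 328) (nat_lit 5) (nat_lit 434) (nat_lit 392) (nat_lit 314))))))))
noncomputable def xc131 : XT := (XT.nd (nat_lit 1638) (nat_lit 6156) (nat_lit 0) (XT.nd (nat_lit 780) (nat_lit 3952) (nat_lit 0) (XT.nd (nat_lit 390) (nat_lit 2204) (nat_lit 0) (XT.nd (nat_lit 156) (nat_lit 1596) (nat_lit 0) (XT.nd (nat_lit 78) (nat_lit 760) (nat_lit 0) (XT.lf (nat_lit 0) (nat_lit 4589432491) (nat_lit 912) (nat_lit 724016410) (nat_lit 76) (nat_lit 3660166658) (nat_lit 327) (nat_lit 5) (nat_lit 339) (nat_lit 5) (nat_lit 328) (nat_lit 5) (nat_lit 435) (nat_lit 392) (nat_lit 313)) (XT.lf (nat_lit 0) (nat_lit 4518795516) (nat_lit 760) (nat_lit 2153729353) (nat_lit 836) (nat_lit 2385898842) (nat_lit 317) (nat_lit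 5) (nat_lit 327) (nat_lit 5) (nat_lit 328) (nat_lit 5) (nat_lit 436) (nat_lit 392) (nat_lit 312))) (XT.nd (nat_lit 78) (nat_lit 836) (nat_lit 0) (XT.lf (nat_lit 0) (nat_lit 704370806) (nat_lit 760) (nat_lit 8081339428) (nat_lit 836) (nat_lit 359463166) (nat_lit 307) (nat_lit 5) (nat_lit 317) (nat_lit 5) (nat_lit 318) (nat_lit 5) (nat_lit 437) (nat_lit 392) (nat_lit 311)) (XT.nd (nat_lit 78) (nat_lit 760) (nat_lit 0) (XT.lf (nat_lit 0) (nat_lit 1702223372) (nat_lit 836) (nat_lit 3173344457) (nat_lit 76) (nat_lit 4357539656) (nat_lit 306) (nat_lit 5) (nat_lit 317) (nat_lit 5) (nat_lit 307) (nat_lit 5) (nat_lit 438) (nat_lit 392) (nat_lit 310)) (XT.lf (nat_lit 0) (nat_lit 2196944437) (nat_lit 760) (nat_lit 1590388031) (nat_lit 836) (nat_lit 5535693410) (nat_lit 296) (nat_lit 5) (nat_lit 306) (nat_lit 5) (nat_lit 307) (nat_lit 5) (nat_lit 439) (nat_lit 392) (nat_lit 309))))) (XT.nd (nat_lit 156) (nat_lit 1444) (nat_lit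 0) (XT.nd (nat_lit 78) (nat_lit 760) (nat_lit 0) (XT.lf (nat_lit 0) (nat_lit 5920079349) (nat_lit 836) (nat_lit 1737533495) (nat_lit 76) (nat_lit 1757024015) (nat_lit 296) (nat_lit 5) (nat_lit 307) (nat_lit 5) (nat_lit 297) (nat_lit 5) (nat_lit 440) (nat_lit 392) (nat_lit 308)) (XT.lf (nat_lit 0) (nat_lit 3768958062) (nat_lit 760) (nat_lit 4335123562) (nat_lit 836) (nat_lit 1403839103) (nat_lit 286) (nat_lit 5) (nat_lit 296) (nat_lit 5) (nat_lit 297) (nat_lit 5) (nat_lit 441) (nat_lit 392) (nat_lit 307))) (XT.nd (nat_lit 78) (nat_lit 1368) (nat_lit 0) (XT.lf (nat_lit 0) (nat_lit 704618718) (nat_lit 836) (nat_lit 227410938) (nat_lit 76) (nat_lit 8671248539) (nat_lit 285) (nat_lit 5) (nat_lit 296) (nat_lit 5) (nat_lit 286) (nat_lit 5) (nat_lit 442) (nat_lit 392) (nat_lit 306)) (XT.nd (nat_lit 78) (nat_lit 684) (nat_lit 0) (XT.lf (nat_lit 0) (nat_lit 2862731243) (nat_lit 760) (nat_lit 4289010468) (nat_lit 76) (nat_lit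 2548101800) (nat_lit 276) (nat_lit 5) (nat_lit 286) (nat_lit 5) (nat_lit 277) (nat_lit 5) (nat_lit 443) (nat_lit 392) (nat_lit 305)) (XT.lf (nat_lit 0) (nat_lit 1349484125) (nat_lit 684) (nat_lit 3705556265) (nat_lit 760) (nat_lit 4743490767) (nat_lit 267) (nat_lit 5) (nat_lit 276) (nat_lit 5) (nat_lit 277) (nat_lit 5) (nat_lit 444) (nat_lit 392) (nat_lit 304)))))) (XT.nd (nat_lit 390) (nat_lit 1900) (nat_lit 0) (XT.nd (nat_lit 156) (nat_lit 1368) (nat_lit 0) (XT.nd (nat_lit 78) (nat_lit 684) (nat_lit 0) (XT.lf (nat_lit 0) (nat_lit 7130428723) (nat_lit 684) (nat_lit 164426578) (nat_lit 760) (nat_lit 2604275546) (nat_lit 267) (nat_lit 5) (nat_lit 276) (nat_lit 5) (nat_lit 277) (nat_lit 5) (nat_lit 445) (nat_lit 392) (nat_lit 303)) (XT.lf (nat_lit 0) (nat_lit 3014012221) (nat_lit 684) (nat_lit 6582756290) (nat_lit 760) (nat_lit 404639236) (nat_lit 258) (nat_lit 5) (nat_lit 267) (nat_lit 5) (nat_lit 268) (nat_lit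 5) (nat_lit 446) (nat_lit 392) (nat_lit 302))) (XT.nd (nat_lit 78) (nat_lit 1292) (nat_lit 0) (XT.lf (nat_lit 0) (nat_lit 1810140060) (nat_lit 760) (nat_lit 1197132286) (nat_lit 76) (nat_lit 7098324483) (nat_lit 257) (nat_lit 5) (nat_lit 267) (nat_lit 5) (nat_lit 258) (nat_lit 5) (nat_lit 447) (nat_lit 392) (nat_lit 301)) (XT.nd (nat_lit 78) (nat_lit 608) (nat_lit 0) (XT.lf (nat_lit 0) (nat_lit 4074887972) (nat_lit 760) (nat_lit 5475586764) (nat_lit 76) (nat_lit 661130247) (nat_lit 248) (nat_lit 5) (nat_lit 258) (nat_lit 5) (nat_lit 249) (nat_lit 5) (nat_lit 448) (nat_lit 392) (nat_lit 300)) (XT.lf (nat_lit 0) (nat_lit 442066611) (nat_lit 608) (nat_lit 5949959841) (nat_lit 684) (nat_lit 3927575336) (nat_lit 240) (nat_lit 5) (nat_lit 248) (nat_lit 5) (nat_lit 249) (nat_lit 5) (nat_lit 449) (nat_lit 392) (nat_lit 299))))) (XT.nd (nat_lit 234) (nat_lit 1216) (nat_lit 0) (XT.nd (nat_lit 78) (nat_lit 684) (nat_lit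 0) (XT.lf (nat_lit 0) (nat_lit 6524233115) (nat_lit 608) (nat_lit 2244525784) (nat_lit 684) (nat_lit 1660744801) (nat_lit 240) (nat_lit 5) (nat_lit 248) (nat_lit 5) (nat_lit 249) (nat_lit 5) (nat_lit 450) (nat_lit 392) (nat_lit 298)) (XT.nd (nat_lit 78) (nat_lit 0) (nat_lit 0) (XT.lf (nat_lit 0) (nat_lit 643915868) (nat_lit 684) (nat_lit 8368757759) (nat_lit 76) (nat_lit 1528834493) (nat_lit 231) (nat_lit 5) (nat_lit 240) (nat_lit 5) (nat_lit 232) (nat_lit 5) (nat_lit 451) (nat_lit 392) (nat_lit 297)) (XT.lf (nat_lit 0) (nat_lit 2990747516) (nat_lit 684) (nat_lit 2284081019) (nat_lit 76) (nat_lit 5380347848) (nat_lit 231) (nat_lit 5) (nat_lit 240) (nat_lit 5) (nat_lit 232) (nat_lit 5) (nat_lit 452) (nat_lit 392) (nat_lit 296)))) (XT.nd (nat_lit 78) (nat_lit 608) (nat_lit 0) (XT.lf (nat_lit 0) (nat_lit 3946514236) (nat_lit 608) (nat_lit 1441124917) (nat_lit 684) (nat_lit 5383425811) (nat_lit 223) (nat_lit 5)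 (nat_lit 231) (nat_lit 5) (nat_lit 232) (nat_lit 5) (nat_lit 453) (nat_lit 392) (nat_lit 295)) (XT.nd (nat_lit 78) (nat_lit 608) (nat_lit 0) (XT.lf (nat_lit 0) (nat_lit 7841659874) (nat_lit 684) (nat_lit 600189443) (nat_lit 76) (nat_lit 2447247411) (nat_lit 223) (nat_lit 5) (nat_lit 232) (nat_lit 5) (nat_lit 224) (nat_lit 5) (nat_lit 454) (nat_lit 392) (nat_lit 294)) (XT.lf (nat_lit 0) (nat_lit 5787793880) (nat_lit 608) (nat_lit 4582256188) (nat_lit 684) (nat_lit 638942329) (nat_lit 215) (nat_lit 5) (nat_lit 223) (nat_lit 5) (nat_lit 224) (nat_lit 5) (nat_lit 455) (nat_lit 392) (nat_lit 293))))))) (XT.nd (nat_lit 780) (nat_lit 2812) (nat_lit 0) (XT.nd (nat_lit 390) (nat_lit 1596) (nat_lit 0) (XT.nd (nat_lit 156) (nat_lit 1140) (nat_lit 0) (XT.nd (nat_lit 78) (nat_lit 0) (nat_lit 0) (XT.lf (nat_lit 0) (nat_lit 1156458148) (nat_lit 532) (nat_lit 627254722) (nat_lit 608) (nat_lit 9347549164) (nat_lit 207) (nat_lit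 5) (nat_lit 214) (nat_lit 5) (nat_lit 215) (nat_lit 5) (nat_lit 456) (nat_lit 392) (nat_lit 292)) (XT.lf (nat_lit 0) (nat_lit 4282142870) (nat_lit 608) (nat_lit 3576985598) (nat_lit 76) (nat_lit 3396055116) (nat_lit 207) (nat_lit 5) (nat_lit 215) (nat_lit 5) (nat_lit 208) (nat_lit 5) (nat_lit 457) (nat_lit 392) (nat_lit 291))) (XT.nd (nat_lit 78) (nat_lit 608) (nat_lit 0) (XT.lf (nat_lit 0) (nat_lit 2956380080) (nat_lit 532) (nat_lit 3876412725) (nat_lit 608) (nat_lit 4548754098) (nat_lit 200) (nat_lit 5) (nat_lit 207) (nat_lit 5) (nat_lit 208) (nat_lit 5) (nat_lit 458) (nat_lit 392) (nat_lit 290)) (XT.nd (nat_lit 78) (nat_lit 608) (nat_lit 0) (XT.lf (nat_lit 0) (nat_lit 9438928506) (nat_lit 608) (nat_lit 1869660750) (nat_lit 76) (nat_lit 201766978) (nat_lit 200) (nat_lit 5) (nat_lit 208) (nat_lit 5) (nat_lit 201) (nat_lit 5) (nat_lit 459) (nat_lit 392) (nat_lit 289)) (XT.lf (nat_lit 0) (nat_lit 486236179) (nat_lit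 608) (nat_lit 6816318500) (nat_lit 76) (nat_lit 4338400527) (nat_lit 192) (nat_lit 5) (nat_lit 200) (nat_lit 5) (nat_lit 193) (nat_lit 5) (nat_lit 460) (nat_lit 392) (nat_lit 288))))) (XT.nd (nat_lit 156) (nat_lit 1064) (nat_lit 0) (XT.nd (nat_lit 78) (nat_lit 532) (nat_lit 0) (XT.lf (nat_lit 0) (nat_lit 3059572647) (nat_lit 608) (nat_lit 136358680) (nat_lit 76) (nat_lit 8578123601) (nat_lit 192) (nat_lit 5) (nat_lit 200) (nat_lit 5) (nat_lit 193) (nat_lit 5) (nat_lit 461) (nat_lit 392) (nat_lit 287)) (XT.lf (nat_lit 0) (nat_lit 5714827237) (nat_lit 608) (nat_lit 5176737148) (nat_lit 76) (nat_lit 1017650808) (nat_lit 185) (nat_lit 5) (nat_lit 193) (nat_lit 5) (nat_lit 186) (nat_lit 5) (nat_lit 462) (nat_lit 392) (nat_lit 286))) (XT.nd (nat_lit 78) (nat_lit 608) (nat_lit 0) (XT.lf (nat_lit 0) (nat_lit 1667711174) (nat_lit 456) (nat_lit 6768571649) (nat_lit 532) (nat_lit 3610541348) (nat_lit 179) (nat_lit 5) (nat_lit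 185) (nat_lit 5) (nat_lit 186) (nat_lit 5) (nat_lit 463) (nat_lit 392) (nat_lit 285)) (XT.nd (nat_lit 78) (nat_lit 608) (nat_lit 0) (XT.lf (nat_lit 0) (nat_lit 8692925129) (nat_lit 456) (nat_lit 2534380700) (nat_lit 532) (nat_lit 959584016) (nat_lit 179) (nat_lit 5) (nat_lit 185) (nat_lit 5) (nat_lit 186) (nat_lit 5) (nat_lit 464) (nat_lit 392) (nat_lit 284)) (XT.lf (nat_lit 0) (nat_lit 1736904427) (nat_lit 608) (nat_lit 8803317428) (nat_lit 76) (nat_lit 1789007659) (nat_lit 171) (nat_lit 5) (nat_lit 179) (nat_lit 5) (nat_lit 172) (nat_lit 5) (nat_lit 465) (nat_lit 392) (nat_lit 283)))))) (XT.nd (nat_lit 390) (nat_lit 1368) (nat_lit 0) (XT.nd (nat_lit 156) (nat_lit 988) (nat_lit 0) (XT.nd (nat_lit 78) (nat_lit 456) (nat_lit 0) (XT.lf (nat_lit 0) (nat_lit 4495688824) (nat_lit 608) (nat_lit 1789911632) (nat_lit 76) (nat_lit 6188271227) (nat_lit 171) (nat_lit 5) (nat_lit 179) (nat_lit 5) (nat_lit 172) (nat_lit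 5) (nat_lit 466) (nat_lit 392) (nat_lit 282)) (XT.lf (nat_lit 0) (nat_lit 5408997842) (nat_lit 456) (nat_lit 1916963406) (nat_lit 532) (nat_lit 5295125927) (nat_lit 165) (nat_lit 5) (nat_lit 171) (nat_lit 5) (nat_lit 172) (nat_lit 5) (nat_lit 467) (nat_lit 392) (nat_lit 281))) (XT.nd (nat_lit 78) (nat_lit 988) (nat_lit 0) (XT.lf (nat_lit 0) (nat_lit 10222766584) (nat_lit 532) (nat_lit 37292209) (nat_lit 76) (nat_lit 2510996230) (nat_lit 165) (nat_lit 5) (nat_lit 172) (nat_lit 5) (nat_lit 166) (nat_lit 5) (nat_lit 468) (nat_lit 392) (nat_lit 280)) (XT.nd (nat_lit 78) (nat_lit 456) (nat_lit 0) (XT.lf (nat_lit 0) (nat_lit 292496688) (nat_lit 532) (nat_lit 5585912834) (nat_lit 76) (nat_lit 7044739420) (nat_lit 158) (nat_lit 5) (nat_lit 165) (nat_lit 5) (nat_lit 159) (nat_lit 5) (nat_lit 469) (nat_lit 392) (nat_lit 279)) (XT.lf (nat_lit 0) (nat_lit 1762272395) (nat_lit 456) (nat_lit 1387215201) (nat_lit 532) (nat_lit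 9928596243) (nat_lit 152) (nat_lit 5) (nat_lit 158) (nat_lit 5) (nat_lit 159) (nat_lit 5) (nat_lit 470) (nat_lit 392) (nat_lit 278))))) (XT.nd (nat_lit 234) (nat_lit 912) (nat_lit 0) (XT.nd (nat_lit 78) (nat_lit 456) (nat_lit 0) (XT.lf (nat_lit 0) (nat_lit 6104019206) (nat_lit 532) (nat_lit 3948807594) (nat_lit 76) (nat_lit 3182488708) (nat_lit 152) (nat_lit 5) (nat_lit 159) (nat_lit 5) (nat_lit 153) (nat_lit 5) (nat_lit 471) (nat_lit 392) (nat_lit 277)) (XT.nd (nat_lit 78) (nat_lit 0) (nat_lit 0) (XT.lf (nat_lit 0) (nat_lit 3578184711) (nat_lit 456) (nat_lit 5554161757) (nat_lit 532) (nat_lit 4263057214) (nat_lit 146) (nat_lit 5) (nat_lit 152) (nat_lit 5) (nat_lit 153) (nat_lit 5) (nat_lit 472) (nat_lit 392) (nat_lit 276)) (XT.lf (nat_lit 0) (nat_lit 11284315773) (nat_lit 456) (nat_lit 945894773) (nat_lit 532) (nat_lit 1328309525) (nat_lit 146) (nat_lit 5) (nat_lit 152) (nat_lit 5) (nat_lit 153) (nat_lit 5)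 (nat_lit 473) (nat_lit 392) (nat_lit 275)))) (XT.nd (nat_lit 78) (nat_lit 456) (nat_lit 0) (XT.lf (nat_lit 0) (nat_lit 1686048052) (nat_lit 456) (nat_lit 8293223624) (nat_lit 76) (nat_lit 3744561449) (nat_lit 140) (nat_lit 5) (nat_lit 146) (nat_lit 5) (nat_lit 141) (nat_lit 5) (nat_lit 474) (nat_lit 392) (nat_lit 274)) (XT.nd (nat_lit 78) (nat_lit 456) (nat_lit 0) (XT.lf (nat_lit 0) (nat_lit 4747377808) (nat_lit 456) (nat_lit 611774931) (nat_lit 76) (nat_lit 8533040195) (nat_lit 140) (nat_lit 5) (nat_lit 146) (nat_lit 5) (nat_lit 141) (nat_lit 5) (nat_lit 475) (nat_lit 392) (nat_lit 273)) (XT.lf (nat_lit 0) (nat_lit 7294647162) (nat_lit 456) (nat_lit 605813473) (nat_lit 532) (nat_lit 6162854184) (nat_lit 134) (nat_lit 5) (nat_lit 140) (nat_lit 5) (nat_lit 141) (nat_lit 5) (nat_lit 476) (nat_lit 392) (nat_lit 272))))))))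
noncomputable def xc132 : XT := (XT.nd (nat_lit 1560) (nat_lit 988) (nat_lit 0) (XT.nd (nat_lit 780) (nat_lit 1596) (nat_lit 0) (XT.nd (nat_lit 390) (nat_lit 1140) (nat_lit 0) (XT.nd (nat_lit 156) (nat_lit 760) (nat_lit 0) (XT.nd (nat_lit 78) (nat_lit 76) (nat_lit 0) (XT.lf (nat_lit 0) (nat_lit 1092006413) (nat_lit 380) (nat_lit 10046656249) (nat_lit 456) (nat_lit 3098760633) (nat_lit 129) (nat_lit 5) (nat_lit 134) (nat_lit 5) (nat_lit 135) (nat_lit 5) (nat_lit 477) (nat_lit 392) (nat_lit 271)) (XT.lf (nat_lit 0) (nat_lit 59344381) (nat_lit 456) (nat_lit 5241467603) (nat_lit 76) (nat_lit 9113542027) (nat_lit 128) (nat_lit 5) (nat_lit 134) (nat_lit 5) (nat_lit 129) (nat_lit 5) (nat_lit 478) (nat_lit 392) (nat_lit 270))) (XT.nd (nat_lit 78) (nat_lit 380) (nat_lit 0) (XT.lf (nat_lit 0) (nat_lit 2812889928) (nat_lit 380) (nat_lit 428202190) (nat_lit 456) (nat_lit 11353287105) (nat_lit 123) (nat_lit 5) (nat_lit 128)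 (nat_lit 5) (nat_lit 129) (nat_lit 5) (nat_lit 479) (nat_lit 392) (nat_lit 269)) (XT.nd (nat_lit 78) (nat_lit 380) (nat_lit 0) (XT.lf (nat_lit 0) (nat_lit 6535155609) (nat_lit 456) (nat_lit 3731799691) (nat_lit 76) (nat_lit 4510080923) (nat_lit 123) (nat_lit 5) (nat_lit 129) (nat_lit 5) (nat_lit 124) (nat_lit 5) (nat_lit 480) (nat_lit 392) (nat_lit 268)) (XT.lf (nat_lit 0) (nat_lit 4511530606) (nat_lit 380) (nat_lit 5399801400) (nat_lit 456) (nat_lit 5051694527) (nat_lit 118) (nat_lit 5) (nat_lit 123) (nat_lit 5) (nat_lit 124) (nat_lit 5) (nat_lit 481) (nat_lit 392) (nat_lit 267))))) (XT.nd (nat_lit 156) (nat_lit 684) (nat_lit 0) (XT.nd (nat_lit 78) (nat_lit 456) (nat_lit 0) (XT.lf (nat_lit 0) (nat_lit 12946782013) (nat_lit 380) (nat_lit 417555178) (nat_lit 456) (nat_lit 1788218064) (nat_lit 118) (nat_lit 5) (nat_lit 123) (nat_lit 5) (nat_lit 124) (nat_lit 5) (nat_lit 482) (nat_lit 392) (nat_lit 266)) (XT.lf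 (nat_lit 0) (nat_lit 1575959695) (nat_lit 456) (nat_lit 9122148279) (nat_lit 76) (nat_lit 4646458341) (nat_lit 112) (nat_lit 5) (nat_lit 118) (nat_lit 5) (nat_lit 113) (nat_lit 5) (nat_lit 483) (nat_lit 392) (nat_lit 265))) (XT.nd (nat_lit 78) (nat_lit 684) (nat_lit 0) (XT.lf (nat_lit 0) (nat_lit 4985733258) (nat_lit 456) (nat_lit 729143583) (nat_lit 76) (nat_lit 9825263661) (nat_lit 112) (nat_lit 5) (nat_lit 118) (nat_lit 5) (nat_lit 113) (nat_lit 5) (nat_lit 484) (nat_lit 392) (nat_lit 264)) (XT.nd (nat_lit 78) (nat_lit 380) (nat_lit 0) (XT.lf (nat_lit 0) (nat_lit 7912565326) (nat_lit 304) (nat_lit 587382073) (nat_lit 380) (nat_lit 7238958224) (nat_lit 108) (nat_lit 5) (nat_lit 112) (nat_lit 5) (nat_lit 113) (nat_lit 5) (nat_lit 485) (nat_lit 392) (nat_lit 263)) (XT.lf (nat_lit 0) (nat_lit 752099272) (nat_lit 380) (nat_lit 11357267841) (nat_lit 456) (nat_lit 3831784771) (nat_lit 103) (nat_lit 5) (nat_lit 108)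 (nat_lit 5) (nat_lit 109) (nat_lit 5) (nat_lit 486) (nat_lit 392) (nat_lit 262)))))) (XT.nd (nat_lit 390) (nat_lit 912) (nat_lit 0) (XT.nd (nat_lit 156) (nat_lit 304) (nat_lit 0) (XT.nd (nat_lit 78) (nat_lit 380) (nat_lit 0) (XT.lf (nat_lit 0) (nat_lit 9581372669) (nat_lit 380) (nat_lit 6251101503) (nat_lit 456) (nat_lit 314143103) (nat_lit 103) (nat_lit 5) (nat_lit 108) (nat_lit 5) (nat_lit 109) (nat_lit 5) (nat_lit 487) (nat_lit 392) (nat_lit 261)) (XT.lf (nat_lit 0) (nat_lit 2216217584) (nat_lit 304) (nat_lit 1014392712) (nat_lit 380) (nat_lit 13125166656) (nat_lit 98) (nat_lit 5) (nat_lit 102) (nat_lit 5) (nat_lit 103) (nat_lit 5) (nat_lit 488) (nat_lit 392) (nat_lit 260))) (XT.nd (nat_lit 78) (nat_lit 304) (nat_lit 0) (XT.lf (nat_lit 0) (nat_lit 6899895928) (nat_lit 380) (nat_lit 5359128940) (nat_lit 76) (nat_lit 4308900495) (nat_lit 98) (nat_lit 5) (nat_lit 103) (nat_lit 5) (nat_lit 99) (nat_lit 5) (nat_lit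 489) (nat_lit 392) (nat_lit 259)) (XT.nd (nat_lit 78) (nat_lit 0) (nat_lit 0) (XT.lf (nat_lit 0) (nat_lit 3615326930) (nat_lit 304) (nat_lit 7043115117) (nat_lit 380) (nat_lit 6125561064) (nat_lit 94) (nat_lit 5) (nat_lit 98) (nat_lit 5) (nat_lit 99) (nat_lit 5) (nat_lit 490) (nat_lit 392) (nat_lit 258)) (XT.lf (nat_lit 0) (nat_lit 12819781910) (nat_lit 304) (nat_lit 1694160592) (nat_lit 380) (nat_lit 2490028031) (nat_lit 94) (nat_lit 5) (nat_lit 98) (nat_lit 5) (nat_lit 99) (nat_lit 5) (nat_lit 491) (nat_lit 392) (nat_lit 257))))) (XT.nd (nat_lit 156) (nat_lit 532) (nat_lit 0) (XT.nd (nat_lit 78) (nat_lit 0) (nat_lit 0) (XT.lf (nat_lit 0) (nat_lit 1245449448) (nat_lit 380) (nat_lit 12236477515) (nat_lit 76) (nat_lit 3745391575) (nat_lit 89) (nat_lit 5) (nat_lit 94) (nat_lit 5) (nat_lit 90) (nat_lit 5) (nat_lit 492) (nat_lit 392) (nat_lit 256)) (XT.lf (nat_lit 0) (nat_lit 5047895048) (nat_lit 380) (nat_lit 3098354409)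 (nat_lit 76) (nat_lit 9308046433) (nat_lit 89) (nat_lit 5) (nat_lit 94) (nat_lit 5) (nat_lit 90) (nat_lit 5) (nat_lit 493) (nat_lit 392) (nat_lit 255))) (XT.nd (nat_lit 78) (nat_lit 228) (nat_lit 0) (XT.lf (nat_lit 0) (nat_lit 6283394194) (nat_lit 304) (nat_lit 2670149384) (nat_lit 380) (nat_lit 8731729629) (nat_lit 85) (nat_lit 5) (nat_lit 89) (nat_lit 5) (nat_lit 90) (nat_lit 5) (nat_lit 494) (nat_lit 392) (nat_lit 254)) (XT.nd (nat_lit 78) (nat_lit 228) (nat_lit 0) (XT.lf (nat_lit 0) (nat_lit 12963598901) (nat_lit 380) (nat_lit 2066369878) (nat_lit 76) (nat_lit 2890378848) (nat_lit 85) (nat_lit 5) (nat_lit 90) (nat_lit 5) (nat_lit 86) (nat_lit 5) (nat_lit 495) (nat_lit 392) (nat_lit 253)) (XT.lf (nat_lit 0) (nat_lit 7515532379) (nat_lit 228) (nat_lit 9591503209) (nat_lit 304) (nat_lit 1052027703) (nat_lit 82) (nat_lit 5) (nat_lit 85) (nat_lit 5) (nat_lit 86) (nat_lit 5) (nat_lit 496) (nat_lit 392) (nat_lit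 252))))))) (XT.nd (nat_lit 51558) (nat_lit 0) (nat_lit 37544) (XT.nd (nat_lit 390) (nat_lit 0) (nat_lit 0) (XT.nd (nat_lit 156) (nat_lit 608) (nat_lit 0) (XT.nd (nat_lit 78) (nat_lit 304) (nat_lit 0) (XT.lf (nat_lit 0) (nat_lit 2893043027) (nat_lit 304) (nat_lit 1125555069) (nat_lit 76) (nat_lit 14383563974) (nat_lit 81) (nat_lit 5) (nat_lit 85) (nat_lit 5) (nat_lit 82) (nat_lit 5) (nat_lit 497) (nat_lit 392) (nat_lit 251)) (XT.lf (nat_lit 0) (nat_lit 6957402796) (nat_lit 380) (nat_lit 9991624985) (nat_lit 76) (nat_lit 1699869647) (nat_lit 77) (nat_lit 5) (nat_lit 82) (nat_lit 5) (nat_lit 78) (nat_lit 5) (nat_lit 498) (nat_lit 392) (nat_lit 250))) (XT.nd (nat_lit 78) (nat_lit 608) (nat_lit 0) (XT.lf (nat_lit 0) (nat_lit 11124331032) (nat_lit 380) (nat_lit 296964153) (nat_lit 76) (nat_lit 7478849792) (nat_lit 77) (nat_lit 5) (nat_lit 82) (nat_lit 5) (nat_lit 78) (nat_lit 5) (nat_lit 499) (nat_lit 392) (nat_lit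 249)) (XT.nd (nat_lit 78) (nat_lit 380) (nat_lit 0) (XT.lf (nat_lit 0) (nat_lit 9698296396) (nat_lit 228) (nat_lit 5726587788) (nat_lit 304) (nat_lit 3730530611) (nat_lit 74) (nat_lit 5) (nat_lit 77) (nat_lit 5) (nat_lit 78) (nat_lit 5) (nat_lit 500) (nat_lit 392) (nat_lit 248)) (XT.lf (nat_lit 0) (nat_lit 383373122) (nat_lit 380) (nat_lit 18951700112) (nat_lit 76) (nat_lit 80810250) (nat_lit 69) (nat_lit 5) (nat_lit 74) (nat_lit 5) (nat_lit 70) (nat_lit 5) (nat_lit 501) (nat_lit 392) (nat_lit 247))))) (XT.nd (nat_lit 50934) (nat_lit 0) (nat_lit 40356) (XT.nd (nat_lit 50856) (nat_lit 0) (nat_lit 40356) (XT.lf (nat_lit 0) (nat_lit 4618870373) (nat_lit 380) (nat_lit 9051829811) (nat_lit 76) (nat_lit 6008585712) (nat_lit 69) (nat_lit 5) (nat_lit 74) (nat_lit 5) (nat_lit 70) (nat_lit 5) (nat_lit 502) (nat_lit 392) (nat_lit 246)) (XT.lf (nat_lit 0) (nat_lit 120610021) (nat_lit 0) (nat_lit 120610021) (nat_lit 836)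 (nat_lit 3143530551) (nat_lit 600) (nat_lit 5) (nat_lit 600) (nat_lit 3) (nat_lit 611) (nat_lit 3) (nat_lit 393) (nat_lit 393) (nat_lit 354))) (XT.nd (nat_lit 78) (nat_lit 0) (nat_lit 0) (XT.lf (nat_lit 0) (nat_lit 2522687594) (nat_lit 836) (nat_lit 3307250052) (nat_lit 912) (nat_lit 965085124) (nat_lit 600) (nat_lit 5) (nat_lit 611) (nat_lit 3) (nat_lit 612) (nat_lit 5) (nat_lit 394) (nat_lit 393) (nat_lit 353)) (XT.nd (nat_lit 78) (nat_lit 0) (nat_lit 0) (XT.lf (nat_lit 0) (nat_lit 4552286979) (nat_lit 836) (nat_lit 51283162) (nat_lit 912) (nat_lit 2218552130) (nat_lit 600) (nat_lit 5) (nat_lit 611) (nat_lit 3) (nat_lit 612) (nat_lit 5) (nat_lit 395) (nat_lit 393) (nat_lit 352)) (XT.lf (nat_lit 76) (nat_lit 3285553153) (nat_lit 0) (nat_lit 3306246838) (nat_lit 912) (nat_lit 258615011) (nat_lit 601) (nat_lit 5) (nat_lit 600) (nat_lit 5) (nat_lit 612) (nat_lit 5) (nat_lit 396) (nat_lit 393) (nat_lit 351))))))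 (XT.nd (nat_lit 390) (nat_lit 988) (nat_lit 0) (XT.nd (nat_lit 156) (nat_lit 912) (nat_lit 0) (XT.nd (nat_lit 78) (nat_lit 0) (nat_lit 0) (XT.lf (nat_lit 0) (nat_lit 1718120621) (nat_lit 912) (nat_lit 228969711) (nat_lit 988) (nat_lit 4933010577) (nat_lit 588) (nat_lit 5) (nat_lit 600) (nat_lit 5) (nat_lit 601) (nat_lit 5) (nat_lit 397) (nat_lit 393) (nat_lit 350)) (XT.lf (nat_lit 76) (nat_lit 3186382429) (nat_lit 0) (nat_lit 514705470) (nat_lit 988) (nat_lit 3209890751) (nat_lit 589) (nat_lit 5) (nat_lit 588) (nat_lit 5) (nat_lit 601) (nat_lit 5) (nat_lit 398) (nat_lit 393) (nat_lit 349))) (XT.nd (nat_lit 78) (nat_lit 988) (nat_lit 0) (XT.lf (nat_lit 0) (nat_lit 5681834824) (nat_lit 912) (nat_lit 303783146) (nat_lit 988) (nat_lit 957728373) (nat_lit 589) (nat_lit 5) (nat_lit 601) (nat_lit 5) (nat_lit 602) (nat_lit 5) (nat_lit 399) (nat_lit 393) (nat_lit 348)) (XT.nd (nat_lit 78) (nat_lit 0) (nat_lit 0) (XT.lf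 (nat_lit 0) (nat_lit 691682093) (nat_lit 988) (nat_lit 3785254214) (nat_lit 1064) (nat_lit 2499856959) (nat_lit 576) (nat_lit 5) (nat_lit 589) (nat_lit 5) (nat_lit 590) (nat_lit 5) (nat_lit 400) (nat_lit 393) (nat_lit 347)) (XT.lf (nat_lit 0) (nat_lit 2620941210) (nat_lit 988) (nat_lit 286616381) (nat_lit 1064) (nat_lit 4104139696) (nat_lit 576) (nat_lit 5) (nat_lit 589) (nat_lit 5) (nat_lit 590) (nat_lit 5) (nat_lit 401) (nat_lit 393) (nat_lit 346))))) (XT.nd (nat_lit 234) (nat_lit 0) (nat_lit 0) (XT.nd (nat_lit 78) (nat_lit 988) (nat_lit 0) (XT.lf (nat_lit 76) (nat_lit 3297530440) (nat_lit 0) (nat_lit 1265434857) (nat_lit 1064) (nat_lit 2484882649) (nat_lit 577) (nat_lit 5) (nat_lit 576) (nat_lit 5) (nat_lit 590) (nat_lit 5) (nat_lit 402) (nat_lit 393) (nat_lit 345)) (XT.nd (nat_lit 78) (nat_lit 1064) (nat_lit 0) (XT.lf (nat_lit 0) (nat_lit 6502065328) (nat_lit 988) (nat_lit 158722866) (nat_lit 1064) (nat_lit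 424800239) (nat_lit 577) (nat_lit 5) (nat_lit 590) (nat_lit 5) (nat_lit 591) (nat_lit 5) (nat_lit 403) (nat_lit 393) (nat_lit 344)) (XT.lf (nat_lit 0) (nat_lit 1323703723) (nat_lit 1064) (nat_lit 3618745812) (nat_lit 1140) (nat_lit 2181775980) (nat_lit 563) (nat_lit 5) (nat_lit 577) (nat_lit 5) (nat_lit 578) (nat_lit 5) (nat_lit 404) (nat_lit 393) (nat_lit 343)))) (XT.nd (nat_lit 78) (nat_lit 0) (nat_lit 0) (XT.lf (nat_lit 76) (nat_lit 49788957) (nat_lit 0) (nat_lit 3167808991) (nat_lit 1140) (nat_lit 3946863229) (nat_lit 564) (nat_lit 5) (nat_lit 563) (nat_lit 5) (nat_lit 578) (nat_lit 5) (nat_lit 405) (nat_lit 393) (nat_lit 342)) (XT.nd (nat_lit 78) (nat_lit 0) (nat_lit 76) (XT.lf (nat_lit 76) (nat_lit 3812438544) (nat_lit 0) (nat_lit 1316848560) (nat_lit 1140) (nat_lit 2076645231) (nat_lit 564) (nat_lit 5) (nat_lit 563) (nat_lit 5) (nat_lit 578) (nat_lit 5) (nat_lit 406) (nat_lit 393) (nat_lit 341)) (XT.lf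 (nat_lit 76) (nat_lit 374557886) (nat_lit 0) (nat_lit 6667397701) (nat_lit 1140) (nat_lit 207050969) (nat_lit 565) (nat_lit 5) (nat_lit 564) (nat_lit 5) (nat_lit 579) (nat_lit 5) (nat_lit 407) (nat_lit 393) (nat_lit 340))))))))
noncomputable def xc133 : XT := (XT.nd (nat_lit 1638) (nat_lit 9728) (nat_lit 0) (XT.nd (nat_lit 780) (nat_lit 9500) (nat_lit 0) (XT.nd (nat_lit 390) (nat_lit 2508) (nat_lit 0) (XT.nd (nat_lit 156) (nat_lit 1140) (nat_lit 0) (XT.nd (nat_lit 78) (nat_lit 0) (nat_lit 0) (XT.lf (nat_lit 0) (nat_lit 1666244323) (nat_lit 1140) (nat_lit 3077590082) (nat_lit 1216) (nat_lit 2549142476) (nat_lit 549) (nat_lit 5) (nat_lit 564) (nat_lit 5) (nat_lit 565) (nat_lit 5) (nat_lit 408) (nat_lit 393) (nat_lit 339)) (XT.lf (nat_lit 76) (nat_lit 775411199) (nat_lit 0) (nat_lit 2761663212) (nat_lit 1216) (nat_lit 3801494907) (nat_lit 550) (nat_lit 5) (nat_lit 549) (nat_lit 5) (nat_lit 565) (nat_lit 5) (nat_lit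 409) (nat_lit 393) (nat_lit 338))) (XT.nd (nat_lit 78) (nat_lit 1140) (nat_lit 0) (XT.lf (nat_lit 76) (nat_lit 4718785227) (nat_lit 0) (nat_lit 705635298) (nat_lit 1216) (nat_lit 1961097469) (nat_lit 550) (nat_lit 5) (nat_lit 549) (nat_lit 5) (nat_lit 565) (nat_lit 5) (nat_lit 410) (nat_lit 393) (nat_lit 337)) (XT.nd (nat_lit 78) (nat_lit 1216) (nat_lit 0) (XT.lf (nat_lit 76) (nat_lit 1286689447) (nat_lit 0) (nat_lit 6039558406) (nat_lit 1216) (nat_lit 107648964) (nat_lit 551) (nat_lit 5) (nat_lit 550) (nat_lit 5) (nat_lit 566) (nat_lit 5) (nat_lit 411) (nat_lit 393) (nat_lit 336)) (XT.lf (nat_lit 0) (nat_lit 1741839630) (nat_lit 1216) (nat_lit 2173067849) (nat_lit 1292) (nat_lit 3568482006) (nat_lit 534) (nat_lit 5) (nat_lit 550) (nat_lit 5) (nat_lit 551) (nat_lit 5) (nat_lit 412) (nat_lit 393) (nat_lit 335))))) (XT.nd (nat_lit 156) (nat_lit 2508) (nat_lit 0) (XT.nd (nat_lit 78) (nat_lit 0) (nat_lit 76) (XT.lf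 (nat_lit 76) (nat_lit 1875871645) (nat_lit 0) (nat_lit 1723643512) (nat_lit 1292) (nat_lit 3934914216) (nat_lit 535) (nat_lit 5) (nat_lit 534) (nat_lit 5) (nat_lit 551) (nat_lit 5) (nat_lit 413) (nat_lit 393) (nat_lit 334)) (XT.lf (nat_lit 0) (nat_lit 5473461324) (nat_lit 1216) (nat_lit 1583625040) (nat_lit 76) (nat_lit 529845242) (nat_lit 535) (nat_lit 5) (nat_lit 551) (nat_lit 5) (nat_lit 536) (nat_lit 5) (nat_lit 414) (nat_lit 393) (nat_lit 333))) (XT.nd (nat_lit 78) (nat_lit 1368) (nat_lit 0) (XT.lf (nat_lit 0) (nat_lit 2566367612) (nat_lit 1216) (nat_lit 4808476107) (nat_lit 1292) (nat_lit 265864442) (nat_lit 519) (nat_lit 5) (nat_lit 535) (nat_lit 5) (nat_lit 536) (nat_lit 5) (nat_lit 415) (nat_lit 393) (nat_lit 332)) (XT.nd (nat_lit 78) (nat_lit 1292) (nat_lit 0) (XT.lf (nat_lit 0) (nat_lit 1570332345) (nat_lit 1292) (nat_lit 914119890) (nat_lit 76) (nat_lit 5211462965) (nat_lit 518) (nat_lit 5) (nat_lit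 535) (nat_lit 5) (nat_lit 519) (nat_lit 5) (nat_lit 416) (nat_lit 393) (nat_lit 331)) (XT.lf (nat_lit 0) (nat_lit 3342937970) (nat_lit 1292) (nat_lit 81375769) (nat_lit 1368) (nat_lit 4328207154) (nat_lit 501) (nat_lit 5) (nat_lit 518) (nat_lit 5) (nat_lit 519) (nat_lit 5) (nat_lit 417) (nat_lit 393) (nat_lit 330)))))) (XT.nd (nat_lit 390) (nat_lit 5092) (nat_lit 0) (XT.nd (nat_lit 156) (nat_lit 3040) (nat_lit 0) (XT.nd (nat_lit 78) (nat_lit 1368) (nat_lit 0) (XT.lf (nat_lit 0) (nat_lit 5300445847) (nat_lit 1368) (nat_lit 157103441) (nat_lit 76) (nat_lit 2353029628) (nat_lit 501) (nat_lit 5) (nat_lit 519) (nat_lit 5) (nat_lit 502) (nat_lit 5) (nat_lit 418) (nat_lit 393) (nat_lit 329)) (XT.lf (nat_lit 0) (nat_lit 4206557596) (nat_lit 1368) (nat_lit 2999619328) (nat_lit 1444) (nat_lit 663800864) (nat_lit 483) (nat_lit 5) (nat_lit 501) (nat_lit 5) (nat_lit 502) (nat_lit 5) (nat_lit 419) (nat_lit 393) (nat_lit 328)))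 (XT.nd (nat_lit 78) (nat_lit 1520) (nat_lit 0) (XT.lf (nat_lit 0) (nat_lit 701550634) (nat_lit 1444) (nat_lit 472019382) (nat_lit 1520) (nat_lit 6757454552) (nat_lit 463) (nat_lit 5) (nat_lit 482) (nat_lit 5) (nat_lit 483) (nat_lit 5) (nat_lit 420) (nat_lit 393) (nat_lit 327)) (XT.nd (nat_lit 78) (nat_lit 1520) (nat_lit 0) (XT.lf (nat_lit 0) (nat_lit 3042270272) (nat_lit 1520) (nat_lit 2836930014) (nat_lit 76) (nat_lit 2113954828) (nat_lit 463) (nat_lit 5) (nat_lit 483) (nat_lit 5) (nat_lit 464) (nat_lit 5) (nat_lit 421) (nat_lit 393) (nat_lit 326)) (XT.lf (nat_lit 0) (nat_lit 1632955671) (nat_lit 1520) (nat_lit 3294843763) (nat_lit 1596) (nat_lit 3129159338) (nat_lit 443) (nat_lit 5) (nat_lit 463) (nat_lit 5) (nat_lit 464) (nat_lit 5) (nat_lit 422) (nat_lit 393) (nat_lit 325))))) (XT.nd (nat_lit 234) (nat_lit 3420) (nat_lit 0) (XT.nd (nat_lit 78) (nat_lit 1672) (nat_lit 0) (XT.lf (nat_lit 0) (nat_lit 6202084213)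 (nat_lit 1520) (nat_lit 634205247) (nat_lit 1596) (nat_lit 1286063253) (nat_lit 443) (nat_lit 5) (nat_lit 463) (nat_lit 5) (nat_lit 464) (nat_lit 5) (nat_lit 423) (nat_lit 393) (nat_lit 324)) (XT.nd (nat_lit 78) (nat_lit 0) (nat_lit 0) (XT.lf (nat_lit 0) (nat_lit 583793926) (nat_lit 1672) (nat_lit 5526716561) (nat_lit 76) (nat_lit 2078531630) (nat_lit 421) (nat_lit 5) (nat_lit 443) (nat_lit 5) (nat_lit 422) (nat_lit 5) (nat_lit 424) (nat_lit 393) (nat_lit 323)) (XT.lf (nat_lit 0) (nat_lit 2458152795) (nat_lit 1672) (nat_lit 936037783) (nat_lit 76) (nat_lit 4863036319) (nat_lit 421) (nat_lit 5) (nat_lit 443) (nat_lit 5) (nat_lit 422) (nat_lit 5) (nat_lit 425) (nat_lit 393) (nat_lit 322)))) (XT.nd (nat_lit 78) (nat_lit 1748) (nat_lit 0) (XT.lf (nat_lit 0) (nat_lit 3767404872) (nat_lit 1672) (nat_lit 594836277) (nat_lit 1748) (nat_lit 3964707132) (nat_lit 399) (nat_lit 5) (nat_lit 421) (nat_lit 5) (nat_lit 422)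 (nat_lit 5) (nat_lit 426) (nat_lit 393) (nat_lit 321)) (XT.nd (nat_lit 78) (nat_lit 0) (nat_lit 0) (XT.lf (nat_lit 0) (nat_lit 137807058) (nat_lit 1748) (nat_lit 6156751235) (nat_lit 1824) (nat_lit 2103720260) (nat_lit 376) (nat_lit 5) (nat_lit 399) (nat_lit 5) (nat_lit 400) (nat_lit 5) (nat_lit 427) (nat_lit 393) (nat_lit 320)) (XT.lf (nat_lit 0) (nat_lit 4958160968) (nat_lit 1748) (nat_lit 3310559616) (nat_lit 1824) (nat_lit 202267934) (nat_lit 376) (nat_lit 5) (nat_lit 399) (nat_lit 5) (nat_lit 400) (nat_lit 5) (nat_lit 428) (nat_lit 393) (nat_lit 319))))))) (XT.nd (nat_lit 780) (nat_lit 4408) (nat_lit 0) (XT.nd (nat_lit 390) (nat_lit 2432) (nat_lit 0) (XT.nd (nat_lit 156) (nat_lit 1824) (nat_lit 0) (XT.nd (nat_lit 78) (nat_lit 0) (nat_lit 0) (XT.lf (nat_lit 0) (nat_lit 1307010698) (nat_lit 988) (nat_lit 384987469) (nat_lit 1064) (nat_lit 6853393958) (nat_lit 362) (nat_lit 5) (nat_lit 375) (nat_lit 5) (nat_lit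 376) (nat_lit 5) (nat_lit 429) (nat_lit 393) (nat_lit 318)) (XT.lf (nat_lit 0) (nat_lit 3631565477) (nat_lit 1064) (nat_lit 2397392227) (nat_lit 76) (nat_lit 2592112954) (nat_lit 362) (nat_lit 5) (nat_lit 376) (nat_lit 5) (nat_lit 363) (nat_lit 5) (nat_lit 430) (nat_lit 393) (nat_lit 317))) (XT.nd (nat_lit 78) (nat_lit 912) (nat_lit 0) (XT.lf (nat_lit 0) (nat_lit 2542713151) (nat_lit 912) (nat_lit 3056384870) (nat_lit 988) (nat_lit 3099397026) (nat_lit 350) (nat_lit 5) (nat_lit 362) (nat_lit 5) (nat_lit 363) (nat_lit 5) (nat_lit 431) (nat_lit 393) (nat_lit 316)) (XT.nd (nat_lit 78) (nat_lit 912) (nat_lit 0) (XT.lf (nat_lit 0) (nat_lit 7585803273) (nat_lit 912) (nat_lit 6783166) (nat_lit 988) (nat_lit 1185164832) (nat_lit 350) (nat_lit 5) (nat_lit 362) (nat_lit 5) (nat_lit 363) (nat_lit 5) (nat_lit 432) (nat_lit 393) (nat_lit 315)) (XT.lf (nat_lit 0) (nat_lit 773785726) (nat_lit 912) (nat_lit 4989918926) (nat_lit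 76) (nat_lit 3094473226) (nat_lit 338) (nat_lit 5) (nat_lit 350) (nat_lit 5) (nat_lit 339) (nat_lit 5) (nat_lit 433) (nat_lit 393) (nat_lit 314))))) (XT.nd (nat_lit 156) (nat_lit 1596) (nat_lit 0) (XT.nd (nat_lit 78) (nat_lit 0) (nat_lit 0) (XT.lf (nat_lit 0) (nat_lit 70178156) (nat_lit 836) (nat_lit 2665717932) (nat_lit 912) (nat_lit 6204577808) (nat_lit 327) (nat_lit 5) (nat_lit 338) (nat_lit 5) (nat_lit 339) (nat_lit 5) (nat_lit 434) (nat_lit 393) (nat_lit 313)) (XT.lf (nat_lit 0) (nat_lit 4745825952) (nat_lit 912) (nat_lit 3757022444) (nat_lit 76) (nat_lit 521410169) (nat_lit 327) (nat_lit 5) (nat_lit 339) (nat_lit 5) (nat_lit 328) (nat_lit 5) (nat_lit 435) (nat_lit 393) (nat_lit 312))) (XT.nd (nat_lit 78) (nat_lit 836) (nat_lit 0) (XT.lf (nat_lit 0) (nat_lit 1431238866) (nat_lit 760) (nat_lit 5363879212) (nat_lit 836) (nat_lit 2314631573) (nat_lit 317) (nat_lit 5) (nat_lit 327) (nat_lit 5) (nat_lit 328)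 (nat_lit 5) (nat_lit 436) (nat_lit 393) (nat_lit 311)) (XT.nd (nat_lit 78) (nat_lit 836) (nat_lit 0) (XT.lf (nat_lit 0) (nat_lit 6745984994) (nat_lit 760) (nat_lit 2137201617) (nat_lit 836) (nat_lit 313821859) (nat_lit 317) (nat_lit 5) (nat_lit 327) (nat_lit 5) (nat_lit 328) (nat_lit 5) (nat_lit 437) (nat_lit 393) (nat_lit 310)) (XT.lf (nat_lit 0) (nat_lit 1703659753) (nat_lit 836) (nat_lit 6414114806) (nat_lit 76) (nat_lit 1168040726) (nat_lit 306) (nat_lit 5) (nat_lit 317) (nat_lit 5) (nat_lit 307) (nat_lit 5) (nat_lit 438) (nat_lit 393) (nat_lit 309)))))) (XT.nd (nat_lit 390) (nat_lit 2128) (nat_lit 0) (XT.nd (nat_lit 156) (nat_lit 1520) (nat_lit 0) (XT.nd (nat_lit 78) (nat_lit 760) (nat_lit 0) (XT.lf (nat_lit 0) (nat_lit 3761271242) (nat_lit 836) (nat_lit 1086690473) (nat_lit 76) (nat_lit 4528328316) (nat_lit 306) (nat_lit 5) (nat_lit 317) (nat_lit 5) (nat_lit 307) (nat_lit 5) (nat_lit 439) (nat_lit 393)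 (nat_lit 308)) (XT.lf (nat_lit 0) (nat_lit 4376858666) (nat_lit 760) (nat_lit 1485386073) (nat_lit 836) (nat_lit 3606298016) (nat_lit 296) (nat_lit 5) (nat_lit 306) (nat_lit 5) (nat_lit 307) (nat_lit 5) (nat_lit 440) (nat_lit 393) (nat_lit 307))) (XT.nd (nat_lit 78) (nat_lit 760) (nat_lit 0) (XT.lf (nat_lit 0) (nat_lit 365877841) (nat_lit 760) (nat_lit 7635815755) (nat_lit 836) (nat_lit 1561030249) (nat_lit 286) (nat_lit 5) (nat_lit 296) (nat_lit 5) (nat_lit 297) (nat_lit 5) (nat_lit 441) (nat_lit 393) (nat_lit 306)) (XT.nd (nat_lit 78) (nat_lit 684) (nat_lit 0) (XT.lf (nat_lit 0) (nat_lit 536746497) (nat_lit 836) (nat_lit 3698298952) (nat_lit 76) (nat_lit 5423317041) (nat_lit 285) (nat_lit 5) (nat_lit 296) (nat_lit 5) (nat_lit 286) (nat_lit 5) (nat_lit 442) (nat_lit 393) (nat_lit 305)) (XT.lf (nat_lit 0) (nat_lit 1896984865) (nat_lit 684) (nat_lit 745692269) (nat_lit 760) (nat_lit 7113300109) (nat_lit 276)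 (nat_lit 5) (nat_lit 285) (nat_lit 5) (nat_lit 286) (nat_lit 5) (nat_lit 443) (nat_lit 393) (nat_lit 304))))) (XT.nd (nat_lit 234) (nat_lit 1444) (nat_lit 0) (XT.nd (nat_lit 78) (nat_lit 684) (nat_lit 0) (XT.lf (nat_lit 0) (nat_lit 4809037876) (nat_lit 760) (nat_lit 2247258604) (nat_lit 76) (nat_lit 2798893062) (nat_lit 276) (nat_lit 5) (nat_lit 286) (nat_lit 5) (nat_lit 277) (nat_lit 5) (nat_lit 444) (nat_lit 393) (nat_lit 303)) (XT.nd (nat_lit 78) (nat_lit 0) (nat_lit 0) (XT.lf (nat_lit 0) (nat_lit 3490008959) (nat_lit 684) (nat_lit 3531866483) (nat_lit 760) (nat_lit 2934458908) (nat_lit 267) (nat_lit 5) (nat_lit 276) (nat_lit 5) (nat_lit 277) (nat_lit 5) (nat_lit 445) (nat_lit 393) (nat_lit 302)) (XT.lf (nat_lit 0) (nat_lit 9270392051) (nat_lit 760) (nat_lit 715052256) (nat_lit 76) (nat_lit 74240340) (nat_lit 267) (nat_lit 5) (nat_lit 277) (nat_lit 5) (nat_lit 268) (nat_lit 5) (nat_lit 446) (nat_lit 393)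 (nat_lit 301)))) (XT.nd (nat_lit 78) (nat_lit 684) (nat_lit 0) (XT.lf (nat_lit 0) (nat_lit 1413894254) (nat_lit 760) (nat_lit 5005390183) (nat_lit 76) (nat_lit 3744977237) (nat_lit 257) (nat_lit 5) (nat_lit 267) (nat_lit 5) (nat_lit 258) (nat_lit 5) (nat_lit 447) (nat_lit 393) (nat_lit 300)) (XT.nd (nat_lit 78) (nat_lit 0) (nat_lit 0) (XT.lf (nat_lit 0) (nat_lit 867829876) (nat_lit 684) (nat_lit 2769650670) (nat_lit 760) (nat_lit 6633617663) (nat_lit 248) (nat_lit 5) (nat_lit 257) (nat_lit 5) (nat_lit 258) (nat_lit 5) (nat_lit 448) (nat_lit 393) (nat_lit 299)) (XT.lf (nat_lit 0) (nat_lit 5922226492) (nat_lit 760) (nat_lit 3487140682) (nat_lit 76) (nat_lit 970380737) (nat_lit 248) (nat_lit 5) (nat_lit 258) (nat_lit 5) (nat_lit 249) (nat_lit 5) (nat_lit 449) (nat_lit 393) (nat_lit 298))))))))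
noncomputable def xc134 : XT := (XT.nd (nat_lit 1638) (nat_lit 4864) (nat_lit 0) (XT.nd (nat_lit 780) (nat_lit 3192) (nat_lit 0) (XT.nd (nat_lit 390) (nat_lit 1748) (nat_lit 0) (XT.nd (nat_lit 156) (nat_lit 1216) (nat_lit 0) (XT.nd (nat_lit 78) (nat_lit 76) (nat_lit 0) (XT.lf (nat_lit 0) (nat_lit 2535063406) (nat_lit 608) (nat_lit 5729551725) (nat_lit 684) (nat_lit 2225726516) (nat_lit 240) (nat_lit 5) (nat_lit 248) (nat_lit 5) (nat_lit 249) (nat_lit 5) (nat_lit 450) (nat_lit 393) (nat_lit 297)) (XT.lf (nat_lit 0) (nat_lit 50854982) (nat_lit 684) (nat_lit 1905467787) (nat_lit 76) (nat_lit 8646811201) (nat_lit 239) (nat_lit 5) (nat_lit 248) (nat_lit 5) (nat_lit 240) (nat_lit 5) (nat_lit 451) (nat_lit 393) (nat_lit 296))) (XT.nd (nat_lit 78) (nat_lit 608) (nat_lit 0) (XT.lf (nat_lit 0) (nat_lit 2361227264) (nat_lit 684) (nat_lit 6450344459) (nat_lit 76) (nat_lit 1905964360) (nat_lit 231) (nat_lit 5) (nat_lit 240)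 (nat_lit 5) (nat_lit 232) (nat_lit 5) (nat_lit 452) (nat_lit 393) (nat_lit 295)) (XT.nd (nat_lit 78) (nat_lit 608) (nat_lit 0) (XT.lf (nat_lit 0) (nat_lit 4721575289) (nat_lit 684) (nat_lit 284871998) (nat_lit 76) (nat_lit 5827712821) (nat_lit 231) (nat_lit 5) (nat_lit 240) (nat_lit 5) (nat_lit 232) (nat_lit 5) (nat_lit 453) (nat_lit 393) (nat_lit 294)) (XT.lf (nat_lit 0) (nat_lit 6056881935) (nat_lit 608) (nat_lit 1089947305) (nat_lit 684) (nat_lit 3805942447) (nat_lit 223) (nat_lit 5) (nat_lit 231) (nat_lit 5) (nat_lit 232) (nat_lit 5) (nat_lit 454) (nat_lit 393) (nat_lit 293))))) (XT.nd (nat_lit 156) (nat_lit 1064) (nat_lit 0) (XT.nd (nat_lit 78) (nat_lit 76) (nat_lit 0) (XT.lf (nat_lit 0) (nat_lit 1428785525) (nat_lit 608) (nat_lit 8200459185) (nat_lit 684) (nat_lit 1444346536) (nat_lit 215) (nat_lit 5) (nat_lit 223) (nat_lit 5) (nat_lit 224) (nat_lit 5) (nat_lit 455) (nat_lit 393) (nat_lit 292)) (XT.lf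 (nat_lit 0) (nat_lit 970815620) (nat_lit 684) (nat_lit 3290359971) (nat_lit 76) (nat_lit 6935155221) (nat_lit 214) (nat_lit 5) (nat_lit 223) (nat_lit 5) (nat_lit 215) (nat_lit 5) (nat_lit 456) (nat_lit 393) (nat_lit 291))) (XT.nd (nat_lit 78) (nat_lit 532) (nat_lit 0) (XT.lf (nat_lit 0) (nat_lit 3197256375) (nat_lit 532) (nat_lit 217573304) (nat_lit 608) (nat_lit 7906515142) (nat_lit 207) (nat_lit 5) (nat_lit 214) (nat_lit 5) (nat_lit 215) (nat_lit 5) (nat_lit 457) (nat_lit 393) (nat_lit 290)) (XT.nd (nat_lit 78) (nat_lit 532) (nat_lit 0) (XT.lf (nat_lit 0) (nat_lit 5934632714) (nat_lit 608) (nat_lit 1641201642) (nat_lit 76) (nat_lit 3872494782) (nat_lit 207) (nat_lit 5) (nat_lit 215) (nat_lit 5) (nat_lit 208) (nat_lit 5) (nat_lit 458) (nat_lit 393) (nat_lit 289)) (XT.lf (nat_lit 0) (nat_lit 5009625273) (nat_lit 532) (nat_lit 3508895019) (nat_lit 608) (nat_lit 3059067118) (nat_lit 200) (nat_lit 5) (nat_lit 207)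 (nat_lit 5) (nat_lit 208) (nat_lit 5) (nat_lit 459) (nat_lit 393) (nat_lit 288)))))) (XT.nd (nat_lit 390) (nat_lit 1596) (nat_lit 0) (XT.nd (nat_lit 156) (nat_lit 988) (nat_lit 0) (XT.nd (nat_lit 78) (nat_lit 76) (nat_lit 0) (XT.lf (nat_lit 0) (nat_lit 77112763) (nat_lit 532) (nat_lit 11072625533) (nat_lit 608) (nat_lit 559787381) (nat_lit 193) (nat_lit 5) (nat_lit 200) (nat_lit 5) (nat_lit 201) (nat_lit 5) (nat_lit 460) (nat_lit 393) (nat_lit 287)) (XT.lf (nat_lit 0) (nat_lit 2010989942) (nat_lit 608) (nat_lit 4961828753) (nat_lit 76) (nat_lit 4870081162) (nat_lit 192) (nat_lit 5) (nat_lit 200) (nat_lit 5) (nat_lit 193) (nat_lit 5) (nat_lit 461) (nat_lit 393) (nat_lit 286))) (XT.nd (nat_lit 78) (nat_lit 456) (nat_lit 0) (XT.lf (nat_lit 0) (nat_lit 1836784411) (nat_lit 532) (nat_lit 2781227899) (nat_lit 608) (nat_lit 7361016132) (nat_lit 185) (nat_lit 5) (nat_lit 192) (nat_lit 5) (nat_lit 193) (nat_lit 5) (nat_lit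 462) (nat_lit 393) (nat_lit 285)) (XT.nd (nat_lit 78) (nat_lit 456) (nat_lit 0) (XT.lf (nat_lit 0) (nat_lit 7300963822) (nat_lit 608) (nat_lit 3314457247) (nat_lit 76) (nat_lit 1501990038) (nat_lit 185) (nat_lit 5) (nat_lit 193) (nat_lit 5) (nat_lit 186) (nat_lit 5) (nat_lit 463) (nat_lit 393) (nat_lit 284)) (XT.lf (nat_lit 0) (nat_lit 3653947050) (nat_lit 456) (nat_lit 6406721265) (nat_lit 532) (nat_lit 2197438371) (nat_lit 179) (nat_lit 5) (nat_lit 185) (nat_lit 5) (nat_lit 186) (nat_lit 5) (nat_lit 464) (nat_lit 393) (nat_lit 283))))) (XT.nd (nat_lit 234) (nat_lit 532) (nat_lit 0) (XT.nd (nat_lit 78) (nat_lit 988) (nat_lit 0) (XT.lf (nat_lit 0) (nat_lit 471152933) (nat_lit 532) (nat_lit 1623281327) (nat_lit 76) (nat_lit 10307058869) (nat_lit 178) (nat_lit 5) (nat_lit 185) (nat_lit 5) (nat_lit 179) (nat_lit 5) (nat_lit 465) (nat_lit 393) (nat_lit 282)) (XT.nd (nat_lit 78) (nat_lit 456) (nat_lit 0) (XT.lf (nat_lit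 0) (nat_lit 3196278536) (nat_lit 608) (nat_lit 7032210582) (nat_lit 76) (nat_lit 2318322685) (nat_lit 171) (nat_lit 5) (nat_lit 179) (nat_lit 5) (nat_lit 172) (nat_lit 5) (nat_lit 466) (nat_lit 393) (nat_lit 281)) (XT.lf (nat_lit 0) (nat_lit 84390256) (nat_lit 456) (nat_lit 5898462242) (nat_lit 532) (nat_lit 6712052031) (nat_lit 165) (nat_lit 5) (nat_lit 171) (nat_lit 5) (nat_lit 172) (nat_lit 5) (nat_lit 467) (nat_lit 393) (nat_lit 280)))) (XT.nd (nat_lit 78) (nat_lit 532) (nat_lit 0) (XT.lf (nat_lit 0) (nat_lit 7413611961) (nat_lit 456) (nat_lit 1440497088) (nat_lit 532) (nat_lit 3991277504) (nat_lit 165) (nat_lit 5) (nat_lit 171) (nat_lit 5) (nat_lit 172) (nat_lit 5) (nat_lit 468) (nat_lit 393) (nat_lit 279)) (XT.nd (nat_lit 78) (nat_lit 76) (nat_lit 0) (XT.lf (nat_lit 0) (nat_lit 1870030942) (nat_lit 456) (nat_lit 9927147194) (nat_lit 532) (nat_lit 1201418672) (nat_lit 159) (nat_lit 5) (nat_lit 165) (nat_lit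 5) (nat_lit 166) (nat_lit 5) (nat_lit 469) (nat_lit 393) (nat_lit 278)) (XT.lf (nat_lit 0) (nat_lit 1651047190) (nat_lit 532) (nat_lit 3808041395) (nat_lit 76) (nat_lit 7695007781) (nat_lit 158) (nat_lit 5) (nat_lit 165) (nat_lit 5) (nat_lit 159) (nat_lit 5) (nat_lit 470) (nat_lit 393) (nat_lit 277))))))) (XT.nd (nat_lit 780) (nat_lit 2204) (nat_lit 0) (XT.nd (nat_lit 390) (nat_lit 1292) (nat_lit 0) (XT.nd (nat_lit 156) (nat_lit 912) (nat_lit 0) (XT.nd (nat_lit 78) (nat_lit 0) (nat_lit 0) (XT.lf (nat_lit 0) (nat_lit 3674676027) (nat_lit 456) (nat_lit 876166104) (nat_lit 532) (nat_lit 8761583594) (nat_lit 152) (nat_lit 5) (nat_lit 158) (nat_lit 5) (nat_lit 159) (nat_lit 5) (nat_lit 471) (nat_lit 393) (nat_lit 276)) (XT.lf (nat_lit 0) (nat_lit 7541651539) (nat_lit 532) (nat_lit 2164176127) (nat_lit 76) (nat_lit 3767439490) (nat_lit 152) (nat_lit 5) (nat_lit 159) (nat_lit 5) (nat_lit 153) (nat_lit 5) (nat_lit 472)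 (nat_lit 393) (nat_lit 275))) (XT.nd (nat_lit 78) (nat_lit 456) (nat_lit 0) (XT.lf (nat_lit 0) (nat_lit 5501095447) (nat_lit 456) (nat_lit 5115674936) (nat_lit 532) (nat_lit 3020070910) (nat_lit 146) (nat_lit 5) (nat_lit 152) (nat_lit 5) (nat_lit 153) (nat_lit 5) (nat_lit 473) (nat_lit 393) (nat_lit 274)) (XT.nd (nat_lit 78) (nat_lit 456) (nat_lit 0) (XT.lf (nat_lit 0) (nat_lit 13325048208) (nat_lit 456) (nat_lit 426018496) (nat_lit 532) (nat_lit 52672334) (nat_lit 146) (nat_lit 5) (nat_lit 152) (nat_lit 5) (nat_lit 153) (nat_lit 5) (nat_lit 474) (nat_lit 393) (nat_lit 273)) (XT.lf (nat_lit 0) (nat_lit 2995077833) (nat_lit 456) (nat_lit 6616319542) (nat_lit 76) (nat_lit 4360996398) (nat_lit 140) (nat_lit 5) (nat_lit 146) (nat_lit 5) (nat_lit 141) (nat_lit 5) (nat_lit 475) (nat_lit 393) (nat_lit 272))))) (XT.nd (nat_lit 156) (nat_lit 836) (nat_lit 0) (XT.nd (nat_lit 78) (nat_lit 0) (nat_lit 0) (XT.lf (nat_lit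 0) (nat_lit 1198341877) (nat_lit 456) (nat_lit 4902066681) (nat_lit 532) (nat_lit 8044064769) (nat_lit 134) (nat_lit 5) (nat_lit 140) (nat_lit 5) (nat_lit 141) (nat_lit 5) (nat_lit 476) (nat_lit 393) (nat_lit 271)) (XT.lf (nat_lit 0) (nat_lit 9235290181) (nat_lit 456) (nat_lit 60619399) (nat_lit 532) (nat_lit 5023528818) (nat_lit 134) (nat_lit 5) (nat_lit 140) (nat_lit 5) (nat_lit 141) (nat_lit 5) (nat_lit 477) (nat_lit 393) (nat_lit 270))) (XT.nd (nat_lit 78) (nat_lit 456) (nat_lit 0) (XT.lf (nat_lit 0) (nat_lit 2918171733) (nat_lit 380) (nat_lit 9671702745) (nat_lit 456) (nat_lit 1907342313) (nat_lit 129) (nat_lit 5) (nat_lit 134) (nat_lit 5) (nat_lit 135) (nat_lit 5) (nat_lit 478) (nat_lit 393) (nat_lit 269)) (XT.nd (nat_lit 78) (nat_lit 380) (nat_lit 0) (XT.lf (nat_lit 0) (nat_lit 1273232299) (nat_lit 456) (nat_lit 3560863327) (nat_lit 76) (nat_lit 9843920242) (nat_lit 128) (nat_lit 5) (nat_lit 134) (nat_lit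 5) (nat_lit 129) (nat_lit 5) (nat_lit 479) (nat_lit 393) (nat_lit 268)) (XT.lf (nat_lit 0) (nat_lit 4507238630) (nat_lit 456) (nat_lit 10219945167) (nat_lit 76) (nat_lit 134692592) (nat_lit 123) (nat_lit 5) (nat_lit 129) (nat_lit 5) (nat_lit 124) (nat_lit 5) (nat_lit 480) (nat_lit 393) (nat_lit 267)))))) (XT.nd (nat_lit 390) (nat_lit 1064) (nat_lit 0) (XT.nd (nat_lit 156) (nat_lit 760) (nat_lit 0) (XT.nd (nat_lit 78) (nat_lit 380) (nat_lit 0) (XT.lf (nat_lit 0) (nat_lit 7846408178) (nat_lit 456) (nat_lit 2047280647) (nat_lit 76) (nat_lit 5154920344) (nat_lit 123) (nat_lit 5) (nat_lit 129) (nat_lit 5) (nat_lit 124) (nat_lit 5) (nat_lit 481) (nat_lit 393) (nat_lit 266)) (XT.lf (nat_lit 0) (nat_lit 6349342867) (nat_lit 380) (nat_lit 4928963667) (nat_lit 456) (nat_lit 3960255780) (nat_lit 118) (nat_lit 5) (nat_lit 123) (nat_lit 5) (nat_lit 124) (nat_lit 5) (nat_lit 482) (nat_lit 393) (nat_lit 265))) (XT.nd (nat_lit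 78) (nat_lit 760) (nat_lit 0) (XT.lf (nat_lit 0) (nat_lit 14778374414) (nat_lit 456) (nat_lit 514233023) (nat_lit 76) (nat_lit 139720979) (nat_lit 118) (nat_lit 5) (nat_lit 124) (nat_lit 5) (nat_lit 119) (nat_lit 5) (nat_lit 483) (nat_lit 393) (nat_lit 264)) (XT.nd (nat_lit 78) (nat_lit 304) (nat_lit 0) (XT.lf (nat_lit 0) (nat_lit 2753501402) (nat_lit 456) (nat_lit 7567541768) (nat_lit 76) (nat_lit 5307164404) (nat_lit 112) (nat_lit 5) (nat_lit 118) (nat_lit 5) (nat_lit 113) (nat_lit 5) (nat_lit 484) (nat_lit 393) (nat_lit 263)) (XT.lf (nat_lit 0) (nat_lit 972011331) (nat_lit 304) (nat_lit 5243299018) (nat_lit 380) (nat_lit 9612712560) (nat_lit 108) (nat_lit 5) (nat_lit 112) (nat_lit 5) (nat_lit 113) (nat_lit 5) (nat_lit 485) (nat_lit 393) (nat_lit 262))))) (XT.nd (nat_lit 234) (nat_lit 608) (nat_lit 0) (XT.nd (nat_lit 78) (nat_lit 456) (nat_lit 0) (XT.lf (nat_lit 0) (nat_lit 9762602436) (nat_lit 304) (nat_lit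 19849168) (nat_lit 380) (nat_lit 6248665206) (nat_lit 108) (nat_lit 5) (nat_lit 112) (nat_lit 5) (nat_lit 113) (nat_lit 5) (nat_lit 486) (nat_lit 393) (nat_lit 261)) (XT.nd (nat_lit 78) (nat_lit 76) (nat_lit 0) (XT.lf (nat_lit 0) (nat_lit 2466479019) (nat_lit 380) (nat_lit 10990487421) (nat_lit 456) (nat_lit 2780589636) (nat_lit 103) (nat_lit 5) (nat_lit 108) (nat_lit 5) (nat_lit 109) (nat_lit 5) (nat_lit 487) (nat_lit 393) (nat_lit 260)) (XT.lf (nat_lit 0) (nat_lit 774991308) (nat_lit 456) (nat_lit 5013651452) (nat_lit 76) (nat_lit 10658825628) (nat_lit 102) (nat_lit 5) (nat_lit 108) (nat_lit 5) (nat_lit 103) (nat_lit 5) (nat_lit 488) (nat_lit 393) (nat_lit 259)))) (XT.nd (nat_lit 78) (nat_lit 304) (nat_lit 0) (XT.lf (nat_lit 0) (nat_lit 3930301553) (nat_lit 304) (nat_lit 445580596) (nat_lit 380) (nat_lit 12285104458) (nat_lit 98) (nat_lit 5) (nat_lit 102) (nat_lit 5) (nat_lit 103) (nat_lit 5) (nat_lit 489)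 (nat_lit 393) (nat_lit 258)) (XT.nd (nat_lit 78) (nat_lit 304) (nat_lit 0) (XT.lf (nat_lit 0) (nat_lit 8101113921) (nat_lit 380) (nat_lit 3811565760) (nat_lit 76) (nat_lit 4965052837) (nat_lit 98) (nat_lit 5) (nat_lit 103) (nat_lit 5) (nat_lit 99) (nat_lit 5) (nat_lit 490) (nat_lit 393) (nat_lit 257)) (XT.lf (nat_lit 0) (nat_lit 5331492742) (nat_lit 304) (nat_lit 6593163791) (nat_lit 380) (nat_lit 5173684401) (nat_lit 94) (nat_lit 5) (nat_lit 98) (nat_lit 5) (nat_lit 99) (nat_lit 5) (nat_lit 491) (nat_lit 393) (nat_lit 256))))))))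
noncomputable def xc135 : XT := (XT.nd (nat_lit 52494) (nat_lit 0) (nat_lit 26752) (XT.nd (nat_lit 780) (nat_lit 380) (nat_lit 0) (XT.nd (nat_lit 390) (nat_lit 836) (nat_lit 0) (XT.nd (nat_lit 156) (nat_lit 304) (nat_lit 0) (XT.nd (nat_lit 78) (nat_lit 380) (nat_lit 0) (XT.lf (nat_lit 0) (nat_lit 14687804287) (nat_lit 304) (nat_lit 1148814757) (nat_lit 380) (nat_lit 1486507136) (nat_lit 94) (nat_lit 5) (nat_lit 98) (nat_lit 5) (nat_lit 99) (nat_lit 5) (nat_lit 492) (nat_lit 393) (nat_lit 255)) (XT.lf (nat_lit 0) (nat_lit 2303769503) (nat_lit 380) (nat_lit 10849134436) (nat_lit 76) (nat_lit 4398027650) (nat_lit 89) (nat_lit 5) (nat_lit 94) (nat_lit 5) (nat_lit 90) (nat_lit 5) (nat_lit 493) (nat_lit 393) (nat_lit 254))) (XT.nd (nat_lit 78) (nat_lit 304) (nat_lit 0) (XT.lf (nat_lit 0) (nat_lit 6162001053) (nat_lit 380) (nat_lit 1560250292) (nat_lit 76) (nat_lit 10060607600) (nat_lit 89) (nat_lit 5) (nat_lit 94)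 (nat_lit 5) (nat_lit 90) (nat_lit 5) (nat_lit 494) (nat_lit 393) (nat_lit 253)) (XT.nd (nat_lit 78) (nat_lit 0) (nat_lit 0) (XT.lf (nat_lit 0) (nat_lit 7998606499) (nat_lit 304) (nat_lit 2137610782) (nat_lit 380) (nat_lit 7882434529) (nat_lit 85) (nat_lit 5) (nat_lit 89) (nat_lit 5) (nat_lit 90) (nat_lit 5) (nat_lit 495) (nat_lit 393) (nat_lit 252)) (XT.lf (nat_lit 0) (nat_lit 14210524950) (nat_lit 380) (nat_lit 533121823) (nat_lit 76) (nat_lit 3515104916) (nat_lit 85) (nat_lit 5) (nat_lit 90) (nat_lit 5) (nat_lit 86) (nat_lit 5) (nat_lit 496) (nat_lit 393) (nat_lit 251))))) (XT.nd (nat_lit 156) (nat_lit 228) (nat_lit 0) (XT.nd (nat_lit 78) (nat_lit 380) (nat_lit 0) (XT.lf (nat_lit 0) (nat_lit 9230059430) (nat_lit 228) (nat_lit 9197561105) (nat_lit 304) (nat_lit 74810226) (nat_lit 82) (nat_lit 5) (nat_lit 85) (nat_lit 5) (nat_lit 86) (nat_lit 5) (nat_lit 497) (nat_lit 393) (nat_lit 250)) (XT.lf (nat_lit 0) (nat_lit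 403846868) (nat_lit 304) (nat_lit 3515527783) (nat_lit 380) (nat_lit 14831225843) (nat_lit 77) (nat_lit 5) (nat_lit 81) (nat_lit 5) (nat_lit 82) (nat_lit 5) (nat_lit 498) (nat_lit 393) (nat_lit 249))) (XT.nd (nat_lit 78) (nat_lit 228) (nat_lit 0) (XT.lf (nat_lit 0) (nat_lit 8057199819) (nat_lit 380) (nat_lit 8639410429) (nat_lit 76) (nat_lit 2305821365) (nat_lit 77) (nat_lit 5) (nat_lit 82) (nat_lit 5) (nat_lit 78) (nat_lit 5) (nat_lit 499) (nat_lit 393) (nat_lit 248)) (XT.nd (nat_lit 78) (nat_lit 0) (nat_lit 0) (XT.lf (nat_lit 0) (nat_lit 1234907356) (nat_lit 228) (nat_lit 11061740846) (nat_lit 304) (nat_lit 6962276803) (nat_lit 74) (nat_lit 5) (nat_lit 77) (nat_lit 5) (nat_lit 78) (nat_lit 5) (nat_lit 500) (nat_lit 393) (nat_lit 247)) (XT.lf (nat_lit 0) (nat_lit 11403866462) (nat_lit 228) (nat_lit 5262675540) (nat_lit 304) (nat_lit 2853096064) (nat_lit 74) (nat_lit 5) (nat_lit 77) (nat_lit 5) (nat_lit 78)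 (nat_lit 5) (nat_lit 501) (nat_lit 393) (nat_lit 246)))))) (XT.nd (nat_lit 51246) (nat_lit 0) (nat_lit 37468) (XT.nd (nat_lit 51012) (nat_lit 0) (nat_lit 39444) (XT.nd (nat_lit 50934) (nat_lit 0) (nat_lit 40356) (XT.lf (nat_lit 0) (nat_lit 1325795730) (nat_lit 380) (nat_lit 17801409279) (nat_lit 76) (nat_lit 658087833) (nat_lit 69) (nat_lit 5) (nat_lit 74) (nat_lit 5) (nat_lit 70) (nat_lit 5) (nat_lit 502) (nat_lit 393) (nat_lit 245)) (XT.lf (nat_lit 0) (nat_lit 1130972106) (nat_lit 0) (nat_lit 1130972106) (nat_lit 836) (nat_lit 1148727941) (nat_lit 600) (nat_lit 5) (nat_lit 600) (nat_lit 3) (nat_lit 611) (nat_lit 3) (nat_lit 394) (nat_lit 394) (nat_lit 352))) (XT.nd (nat_lit 78) (nat_lit 912) (nat_lit 0) (XT.lf (nat_lit 0) (nat_lit 5540506249) (nat_lit 0) (nat_lit 978903512) (nat_lit 836) (nat_lit 329734258) (nat_lit 600) (nat_lit 5) (nat_lit 600) (nat_lit 3) (nat_lit 611) (nat_lit 3) (nat_lit 395) (nat_lit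 394) (nat_lit 351)) (XT.nd (nat_lit 78) (nat_lit 0) (nat_lit 0) (XT.lf (nat_lit 0) (nat_lit 1619234554) (nat_lit 912) (nat_lit 4884422970) (nat_lit 988) (nat_lit 374382776) (nat_lit 588) (nat_lit 5) (nat_lit 600) (nat_lit 5) (nat_lit 601) (nat_lit 5) (nat_lit 396) (nat_lit 394) (nat_lit 350)) (XT.lf (nat_lit 0) (nat_lit 3567562782) (nat_lit 912) (nat_lit 1563742177) (nat_lit 988) (nat_lit 1776905552) (nat_lit 588) (nat_lit 5) (nat_lit 600) (nat_lit 5) (nat_lit 601) (nat_lit 5) (nat_lit 397) (nat_lit 394) (nat_lit 349))))) (XT.nd (nat_lit 234) (nat_lit 988) (nat_lit 0) (XT.nd (nat_lit 78) (nat_lit 988) (nat_lit 0) (XT.lf (nat_lit 76) (nat_lit 1820428322) (nat_lit 0) (nat_lit 3696707939) (nat_lit 988) (nat_lit 1422637097) (nat_lit 589) (nat_lit 5) (nat_lit 588) (nat_lit 5) (nat_lit 601) (nat_lit 5) (nat_lit 398) (nat_lit 394) (nat_lit 348)) (XT.nd (nat_lit 78) (nat_lit 0) (nat_lit 0) (XT.lf (nat_lit 0) (nat_lit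 488198081) (nat_lit 988) (nat_lit 1709122061) (nat_lit 1064) (nat_lit 4775382178) (nat_lit 575) (nat_lit 5) (nat_lit 588) (nat_lit 5) (nat_lit 589) (nat_lit 5) (nat_lit 399) (nat_lit 394) (nat_lit 347)) (XT.lf (nat_lit 76) (nat_lit 1756142739) (nat_lit 0) (nat_lit 625342006) (nat_lit 1064) (nat_lit 4625384163) (nat_lit 576) (nat_lit 5) (nat_lit 575) (nat_lit 5) (nat_lit 589) (nat_lit 5) (nat_lit 400) (nat_lit 394) (nat_lit 346)))) (XT.nd (nat_lit 78) (nat_lit 1064) (nat_lit 0) (XT.lf (nat_lit 0) (nat_lit 4283302556) (nat_lit 988) (nat_lit 1761746751) (nat_lit 1064) (nat_lit 997288365) (nat_lit 576) (nat_lit 5) (nat_lit 589) (nat_lit 5) (nat_lit 590) (nat_lit 5) (nat_lit 401) (nat_lit 394) (nat_lit 345)) (XT.nd (nat_lit 78) (nat_lit 1064) (nat_lit 0) (XT.lf (nat_lit 76) (nat_lit 1789168067) (nat_lit 0) (nat_lit 4403442570) (nat_lit 1064) (nat_lit 886547620) (nat_lit 577) (nat_lit 5) (nat_lit 576) (nat_lit 5)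 (nat_lit 590) (nat_lit 5) (nat_lit 402) (nat_lit 394) (nat_lit 344)) (XT.lf (nat_lit 0) (nat_lit 975964731) (nat_lit 1064) (nat_lit 1715849207) (nat_lit 1140) (nat_lit 4425478784) (nat_lit 562) (nat_lit 5) (nat_lit 576) (nat_lit 5) (nat_lit 577) (nat_lit 5) (nat_lit 403) (nat_lit 394) (nat_lit 343))))))) (XT.nd (nat_lit 780) (nat_lit 8512) (nat_lit 0) (XT.nd (nat_lit 390) (nat_lit 1140) (nat_lit 0) (XT.nd (nat_lit 156) (nat_lit 1064) (nat_lit 0) (XT.nd (nat_lit 78) (nat_lit 0) (nat_lit 76) (XT.lf (nat_lit 76) (nat_lit 1922023154) (nat_lit 0) (nat_lit 909320020) (nat_lit 1140) (nat_lit 4325409472) (nat_lit 563) (nat_lit 5) (nat_lit 562) (nat_lit 5) (nat_lit 577) (nat_lit 5) (nat_lit 404) (nat_lit 394) (nat_lit 342)) (XT.lf (nat_lit 0) (nat_lit 4697137534) (nat_lit 1064) (nat_lit 1574774325) (nat_lit 1140) (nat_lit 925652863) (nat_lit 563) (nat_lit 5) (nat_lit 577) (nat_lit 5) (nat_lit 578) (nat_lit 5) (nat_lit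 405) (nat_lit 394) (nat_lit 341))) (XT.nd (nat_lit 78) (nat_lit 1140) (nat_lit 0) (XT.lf (nat_lit 76) (nat_lit 2153207808) (nat_lit 0) (nat_lit 4423725500) (nat_lit 1140) (nat_lit 662754574) (nat_lit 564) (nat_lit 5) (nat_lit 563) (nat_lit 5) (nat_lit 578) (nat_lit 5) (nat_lit 406) (nat_lit 394) (nat_lit 340)) (XT.nd (nat_lit 78) (nat_lit 0) (nat_lit 0) (XT.lf (nat_lit 0) (nat_lit 1163463884) (nat_lit 1140) (nat_lit 1341090985) (nat_lit 1216) (nat_lit 4778615065) (nat_lit 548) (nat_lit 5) (nat_lit 563) (nat_lit 5) (nat_lit 564) (nat_lit 5) (nat_lit 407) (nat_lit 394) (nat_lit 339)) (XT.lf (nat_lit 76) (nat_lit 2480080805) (nat_lit 0) (nat_lit 511250614) (nat_lit 1216) (nat_lit 4336649517) (nat_lit 549) (nat_lit 5) (nat_lit 548) (nat_lit 5) (nat_lit 564) (nat_lit 5) (nat_lit 408) (nat_lit 394) (nat_lit 338))))) (XT.nd (nat_lit 156) (nat_lit 1216) (nat_lit 0) (XT.nd (nat_lit 78) (nat_lit 0) (nat_lit 0) (XT.lf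 (nat_lit 0) (nat_lit 4833328238) (nat_lit 1140) (nat_lit 1015626500) (nat_lit 1216) (nat_lit 1525208359) (nat_lit 549) (nat_lit 5) (nat_lit 564) (nat_lit 5) (nat_lit 565) (nat_lit 5) (nat_lit 409) (nat_lit 394) (nat_lit 337)) (XT.lf (nat_lit 76) (nat_lit 2900464312) (nat_lit 0) (nat_lit 3793360926) (nat_lit 1216) (nat_lit 727836318) (nat_lit 550) (nat_lit 5) (nat_lit 549) (nat_lit 5) (nat_lit 565) (nat_lit 5) (nat_lit 410) (nat_lit 394) (nat_lit 336))) (XT.nd (nat_lit 78) (nat_lit 0) (nat_lit 76) (XT.lf (nat_lit 0) (nat_lit 1073346262) (nat_lit 1216) (nat_lit 596517110) (nat_lit 1292) (nat_lit 5800793213) (nat_lit 533) (nat_lit 5) (nat_lit 549) (nat_lit 5) (nat_lit 550) (nat_lit 5) (nat_lit 411) (nat_lit 394) (nat_lit 335)) (XT.nd (nat_lit 78) (nat_lit 0) (nat_lit 0) (XT.lf (nat_lit 0) (nat_lit 2887055385) (nat_lit 1216) (nat_lit 4105015847) (nat_lit 1292) (nat_lit 528763460) (nat_lit 534) (nat_lit 5) (nat_lit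 550) (nat_lit 5) (nat_lit 551) (nat_lit 5) (nat_lit 412) (nat_lit 394) (nat_lit 334)) (XT.lf (nat_lit 0) (nat_lit 4713360007) (nat_lit 1216) (nat_lit 94546105) (nat_lit 1292) (nat_lit 2764607713) (nat_lit 534) (nat_lit 5) (nat_lit 550) (nat_lit 5) (nat_lit 551) (nat_lit 5) (nat_lit 413) (nat_lit 394) (nat_lit 333)))))) (XT.nd (nat_lit 390) (nat_lit 6080) (nat_lit 0) (XT.nd (nat_lit 156) (nat_lit 1216) (nat_lit 0) (XT.nd (nat_lit 78) (nat_lit 1292) (nat_lit 0) (XT.lf (nat_lit 76) (nat_lit 4021411763) (nat_lit 0) (nat_lit 2542881931) (nat_lit 1292) (nat_lit 1061194209) (nat_lit 535) (nat_lit 5) (nat_lit 534) (nat_lit 5) (nat_lit 551) (nat_lit 5) (nat_lit 414) (nat_lit 394) (nat_lit 332)) (XT.lf (nat_lit 76) (nat_lit 515394076) (nat_lit 0) (nat_lit 213471826) (nat_lit 1368) (nat_lit 6951252218) (nat_lit 518) (nat_lit 5) (nat_lit 517) (nat_lit 5) (nat_lit 535) (nat_lit 5) (nat_lit 415) (nat_lit 394) (nat_lit 331)))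 (XT.nd (nat_lit 78) (nat_lit 1292) (nat_lit 0) (XT.lf (nat_lit 0) (nat_lit 2541829779) (nat_lit 1292) (nat_lit 3018927589) (nat_lit 76) (nat_lit 2174939116) (nat_lit 518) (nat_lit 5) (nat_lit 535) (nat_lit 5) (nat_lit 519) (nat_lit 5) (nat_lit 416) (nat_lit 394) (nat_lit 330)) (XT.nd (nat_lit 78) (nat_lit 0) (nat_lit 0) (XT.lf (nat_lit 0) (nat_lit 1196167108) (nat_lit 1292) (nat_lit 3167705756) (nat_lit 1368) (nat_lit 3429078791) (nat_lit 501) (nat_lit 5) (nat_lit 518) (nat_lit 5) (nat_lit 519) (nat_lit 5) (nat_lit 417) (nat_lit 394) (nat_lit 329)) (XT.lf (nat_lit 0) (nat_lit 5508777644) (nat_lit 1292) (nat_lit 698010702) (nat_lit 1368) (nat_lit 1644896168) (nat_lit 501) (nat_lit 5) (nat_lit 518) (nat_lit 5) (nat_lit 519) (nat_lit 5) (nat_lit 418) (nat_lit 394) (nat_lit 328))))) (XT.nd (nat_lit 234) (nat_lit 3192) (nat_lit 0) (XT.nd (nat_lit 78) (nat_lit 1444) (nat_lit 0) (XT.lf (nat_lit 0) (nat_lit 162207136)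 (nat_lit 1444) (nat_lit 5930604931) (nat_lit 76) (nat_lit 1818986996) (nat_lit 482) (nat_lit 5) (nat_lit 501) (nat_lit 5) (nat_lit 483) (nat_lit 5) (nat_lit 419) (nat_lit 394) (nat_lit 327)) (XT.nd (nat_lit 78) (nat_lit 1444) (nat_lit 0) (XT.lf (nat_lit 0) (nat_lit 1969082351) (nat_lit 1444) (nat_lit 1593124565) (nat_lit 76) (nat_lit 4410998422) (nat_lit 482) (nat_lit 5) (nat_lit 501) (nat_lit 5) (nat_lit 483) (nat_lit 5) (nat_lit 420) (nat_lit 394) (nat_lit 326)) (XT.lf (nat_lit 0) (nat_lit 2840676172) (nat_lit 1444) (nat_lit 955730658) (nat_lit 1520) (nat_lit 4239766273) (nat_lit 463) (nat_lit 5) (nat_lit 482) (nat_lit 5) (nat_lit 483) (nat_lit 5) (nat_lit 421) (nat_lit 394) (nat_lit 325)))) (XT.nd (nat_lit 78) (nat_lit 3192) (nat_lit 0) (XT.lf (nat_lit 0) (nat_lit 5648494238) (nat_lit 1520) (nat_lit 754800219) (nat_lit 76) (nat_lit 1697360650) (nat_lit 463) (nat_lit 5) (nat_lit 483) (nat_lit 5) (nat_lit 464)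 (nat_lit 5) (nat_lit 422) (nat_lit 394) (nat_lit 324)) (XT.nd (nat_lit 78) (nat_lit 1672) (nat_lit 0) (XT.lf (nat_lit 0) (nat_lit 3790411677) (nat_lit 1520) (nat_lit 3745208515) (nat_lit 1596) (nat_lit 630865463) (nat_lit 443) (nat_lit 5) (nat_lit 463) (nat_lit 5) (nat_lit 464) (nat_lit 5) (nat_lit 423) (nat_lit 394) (nat_lit 323)) (XT.lf (nat_lit 0) (nat_lit 169499724) (nat_lit 1596) (nat_lit 1014756529) (nat_lit 1672) (nat_lit 7049765538) (nat_lit 421) (nat_lit 5) (nat_lit 442) (nat_lit 5) (nat_lit 443) (nat_lit 5) (nat_lit 424) (nat_lit 394) (nat_lit 322))))))))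
noncomputable def xc136 : XT := (XT.nd (nat_lit 1560) (nat_lit 7372) (nat_lit 0) (XT.nd (nat_lit 780) (nat_lit 4712) (nat_lit 0) (XT.nd (nat_lit 390) (nat_lit 2812) (nat_lit 0) (XT.nd (nat_lit 156) (nat_lit 1824) (nat_lit 0) (XT.nd (nat_lit 78) (nat_lit 1672) (nat_lit 0) (XT.lf (nat_lit 0) (nat_lit 3036077055) (nat_lit 1672) (nat_lit 3481343872) (nat_lit 76) (nat_lit 1785245196) (nat_lit 421) (nat_lit 5) (nat_lit 443) (nat_lit 5) (nat_lit 422) (nat_lit 5) (nat_lit 425) (nat_lit 394) (nat_lit 321)) (XT.lf (nat_lit 0) (nat_lit 1174276643) (nat_lit 1672) (nat_lit 3733415597) (nat_lit 1748) (nat_lit 3465353343) (nat_lit 399) (nat_lit 5) (nat_lit 421) (nat_lit 5) (nat_lit 422) (nat_lit 5) (nat_lit 426) (nat_lit 394) (nat_lit 320))) (XT.nd (nat_lit 78) (nat_lit 1824) (nat_lit 0) (XT.lf (nat_lit 0) (nat_lit 5942481814) (nat_lit 1672) (nat_lit 866472486) (nat_lit 1748) (nat_lit 1636051104) (nat_lit 399) (nat_lit 5)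 (nat_lit 421) (nat_lit 5) (nat_lit 422) (nat_lit 5) (nat_lit 427) (nat_lit 394) (nat_lit 319)) (XT.nd (nat_lit 78) (nat_lit 0) (nat_lit 0) (XT.lf (nat_lit 0) (nat_lit 224416083) (nat_lit 1824) (nat_lit 6243628833) (nat_lit 76) (nat_lit 2050394194) (nat_lit 375) (nat_lit 5) (nat_lit 399) (nat_lit 5) (nat_lit 376) (nat_lit 5) (nat_lit 428) (nat_lit 394) (nat_lit 318)) (XT.lf (nat_lit 0) (nat_lit 2092537901) (nat_lit 1824) (nat_lit 1456136569) (nat_lit 76) (nat_lit 5044619773) (nat_lit 375) (nat_lit 5) (nat_lit 399) (nat_lit 5) (nat_lit 376) (nat_lit 5) (nat_lit 429) (nat_lit 394) (nat_lit 317))))) (XT.nd (nat_lit 156) (nat_lit 1824) (nat_lit 0) (XT.nd (nat_lit 78) (nat_lit 0) (nat_lit 0) (XT.lf (nat_lit 0) (nat_lit 3444774658) (nat_lit 988) (nat_lit 545896435) (nat_lit 1064) (nat_lit 4679138167) (nat_lit 362) (nat_lit 5) (nat_lit 375) (nat_lit 5) (nat_lit 376) (nat_lit 5) (nat_lit 430) (nat_lit 394) (nat_lit 316))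 (XT.lf (nat_lit 0) (nat_lit 5923646028) (nat_lit 1064) (nat_lit 328566357) (nat_lit 76) (nat_lit 2495720067) (nat_lit 362) (nat_lit 5) (nat_lit 376) (nat_lit 5) (nat_lit 363) (nat_lit 5) (nat_lit 431) (nat_lit 394) (nat_lit 315))) (XT.nd (nat_lit 78) (nat_lit 912) (nat_lit 0) (XT.lf (nat_lit 0) (nat_lit 4696414986) (nat_lit 912) (nat_lit 3204248706) (nat_lit 988) (nat_lit 926861900) (nat_lit 350) (nat_lit 5) (nat_lit 362) (nat_lit 5) (nat_lit 363) (nat_lit 5) (nat_lit 432) (nat_lit 394) (nat_lit 314)) (XT.nd (nat_lit 78) (nat_lit 0) (nat_lit 0) (XT.lf (nat_lit 0) (nat_lit 895253144) (nat_lit 836) (nat_lit 79523174) (nat_lit 912) (nat_lit 7934228040) (nat_lit 338) (nat_lit 5) (nat_lit 349) (nat_lit 5) (nat_lit 350) (nat_lit 5) (nat_lit 433) (nat_lit 394) (nat_lit 313)) (XT.lf (nat_lit 0) (nat_lit 2921977223) (nat_lit 912) (nat_lit 2967924330) (nat_lit 76) (nat_lit 3101704080) (nat_lit 338) (nat_lit 5) (nat_lit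 350) (nat_lit 5) (nat_lit 339) (nat_lit 5) (nat_lit 434) (nat_lit 394) (nat_lit 312)))))) (XT.nd (nat_lit 390) (nat_lit 2280) (nat_lit 0) (XT.nd (nat_lit 156) (nat_lit 1596) (nat_lit 0) (XT.nd (nat_lit 78) (nat_lit 0) (nat_lit 0) (XT.lf (nat_lit 0) (nat_lit 2179415528) (nat_lit 836) (nat_lit 2715781763) (nat_lit 912) (nat_lit 4180934137) (nat_lit 327) (nat_lit 5) (nat_lit 338) (nat_lit 5) (nat_lit 339) (nat_lit 5) (nat_lit 435) (nat_lit 394) (nat_lit 311)) (XT.lf (nat_lit 0) (nat_lit 6904080105) (nat_lit 912) (nat_lit 1723374020) (nat_lit 76) (nat_lit 534983369) (nat_lit 327) (nat_lit 5) (nat_lit 339) (nat_lit 5) (nat_lit 328) (nat_lit 5) (nat_lit 436) (nat_lit 394) (nat_lit 310))) (XT.nd (nat_lit 78) (nat_lit 836) (nat_lit 0) (XT.lf (nat_lit 0) (nat_lit 3554778906) (nat_lit 760) (nat_lit 5412723146) (nat_lit 836) (nat_lit 282693852) (nat_lit 317) (nat_lit 5) (nat_lit 327) (nat_lit 5) (nat_lit 328) (nat_lit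 5) (nat_lit 437) (nat_lit 394) (nat_lit 309)) (XT.nd (nat_lit 78) (nat_lit 760) (nat_lit 0) (XT.lf (nat_lit 0) (nat_lit 1694858661) (nat_lit 836) (nat_lit 416425703) (nat_lit 76) (nat_lit 7228511131) (nat_lit 316) (nat_lit 5) (nat_lit 327) (nat_lit 5) (nat_lit 317) (nat_lit 5) (nat_lit 438) (nat_lit 394) (nat_lit 308)) (XT.lf (nat_lit 0) (nat_lit 3723030401) (nat_lit 836) (nat_lit 4434435462) (nat_lit 76) (nat_lit 1273399450) (nat_lit 306) (nat_lit 5) (nat_lit 317) (nat_lit 5) (nat_lit 307) (nat_lit 5) (nat_lit 439) (nat_lit 394) (nat_lit 307))))) (XT.nd (nat_lit 156) (nat_lit 1520) (nat_lit 0) (XT.nd (nat_lit 78) (nat_lit 0) (nat_lit 0) (XT.lf (nat_lit 0) (nat_lit 970938812) (nat_lit 760) (nat_lit 4818231885) (nat_lit 836) (nat_lit 3734650155) (nat_lit 296) (nat_lit 5) (nat_lit 306) (nat_lit 5) (nat_lit 307) (nat_lit 5) (nat_lit 440) (nat_lit 394) (nat_lit 306)) (XT.lf (nat_lit 0) (nat_lit 6517428655) (nat_lit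 760) (nat_lit 1383596564) (nat_lit 836) (nat_lit 1717534642) (nat_lit 296) (nat_lit 5) (nat_lit 306) (nat_lit 5) (nat_lit 307) (nat_lit 5) (nat_lit 441) (nat_lit 394) (nat_lit 305))) (XT.nd (nat_lit 78) (nat_lit 684) (nat_lit 0) (XT.lf (nat_lit 0) (nat_lit 340281360) (nat_lit 836) (nat_lit 7266380251) (nat_lit 76) (nat_lit 2108403283) (nat_lit 285) (nat_lit 5) (nat_lit 296) (nat_lit 5) (nat_lit 286) (nat_lit 5) (nat_lit 442) (nat_lit 394) (nat_lit 304)) (XT.nd (nat_lit 78) (nat_lit 684) (nat_lit 0) (XT.lf (nat_lit 0) (nat_lit 2421647661) (nat_lit 836) (nat_lit 1709456378) (nat_lit 76) (nat_lit 5682072578) (nat_lit 285) (nat_lit 5) (nat_lit 296) (nat_lit 5) (nat_lit 286) (nat_lit 5) (nat_lit 443) (nat_lit 394) (nat_lit 303)) (XT.lf (nat_lit 0) (nat_lit 3984162006) (nat_lit 684) (nat_lit 562091555) (nat_lit 760) (nat_lit 5366976024) (nat_lit 276) (nat_lit 5) (nat_lit 285) (nat_lit 5) (nat_lit 286) (nat_lit 5)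 (nat_lit 444) (nat_lit 394) (nat_lit 302))))))) (XT.nd (nat_lit 780) (nat_lit 3344) (nat_lit 0) (XT.nd (nat_lit 390) (nat_lit 1900) (nat_lit 0) (XT.nd (nat_lit 156) (nat_lit 1444) (nat_lit 0) (XT.nd (nat_lit 78) (nat_lit 684) (nat_lit 0) (XT.lf (nat_lit 0) (nat_lit 6720916450) (nat_lit 760) (nat_lit 247286366) (nat_lit 76) (nat_lit 3046940536) (nat_lit 276) (nat_lit 5) (nat_lit 286) (nat_lit 5) (nat_lit 277) (nat_lit 5) (nat_lit 445) (nat_lit 394) (nat_lit 301)) (XT.lf (nat_lit 0) (nat_lit 5591273144) (nat_lit 684) (nat_lit 3364325318) (nat_lit 760) (nat_lit 1163177235) (nat_lit 267) (nat_lit 5) (nat_lit 276) (nat_lit 5) (nat_lit 277) (nat_lit 5) (nat_lit 446) (nat_lit 394) (nat_lit 300))) (XT.nd (nat_lit 78) (nat_lit 684) (nat_lit 0) (XT.lf (nat_lit 0) (nat_lit 986153303) (nat_lit 760) (nat_lit 8917238388) (nat_lit 76) (nat_lit 321189928) (nat_lit 257) (nat_lit 5) (nat_lit 267) (nat_lit 5) (nat_lit 258) (nat_lit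 5) (nat_lit 447) (nat_lit 394) (nat_lit 299)) (XT.nd (nat_lit 78) (nat_lit 684) (nat_lit 0) (XT.lf (nat_lit 0) (nat_lit 3192665431) (nat_lit 760) (nat_lit 3068710669) (nat_lit 76) (nat_lit 4070388584) (nat_lit 257) (nat_lit 5) (nat_lit 267) (nat_lit 5) (nat_lit 258) (nat_lit 5) (nat_lit 448) (nat_lit 394) (nat_lit 298)) (XT.lf (nat_lit 0) (nat_lit 2908573874) (nat_lit 684) (nat_lit 2530963350) (nat_lit 760) (nat_lit 5001639595) (nat_lit 248) (nat_lit 5) (nat_lit 257) (nat_lit 5) (nat_lit 258) (nat_lit 5) (nat_lit 449) (nat_lit 394) (nat_lit 297))))) (XT.nd (nat_lit 156) (nat_lit 1292) (nat_lit 0) (XT.nd (nat_lit 78) (nat_lit 608) (nat_lit 0) (XT.lf (nat_lit 0) (nat_lit 7737942033) (nat_lit 760) (nat_lit 1540391937) (nat_lit 76) (nat_lit 1274321113) (nat_lit 248) (nat_lit 5) (nat_lit 258) (nat_lit 5) (nat_lit 249) (nat_lit 5) (nat_lit 450) (nat_lit 394) (nat_lit 296)) (XT.lf (nat_lit 0) (nat_lit 4588989841) (nat_lit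 608) (nat_lit 5517915047) (nat_lit 684) (nat_lit 558975834) (nat_lit 240) (nat_lit 5) (nat_lit 248) (nat_lit 5) (nat_lit 249) (nat_lit 5) (nat_lit 451) (nat_lit 394) (nat_lit 295))) (XT.nd (nat_lit 78) (nat_lit 608) (nat_lit 0) (XT.lf (nat_lit 0) (nat_lit 43644533) (nat_lit 608) (nat_lit 1664218429) (nat_lit 684) (nat_lit 9073514322) (nat_lit 231) (nat_lit 5) (nat_lit 239) (nat_lit 5) (nat_lit 240) (nat_lit 5) (nat_lit 452) (nat_lit 394) (nat_lit 294)) (XT.nd (nat_lit 78) (nat_lit 608) (nat_lit 0) (XT.lf (nat_lit 0) (nat_lit 4046699674) (nat_lit 684) (nat_lit 4574556601) (nat_lit 76) (nat_lit 2277179742) (nat_lit 231) (nat_lit 5) (nat_lit 240) (nat_lit 5) (nat_lit 232) (nat_lit 5) (nat_lit 453) (nat_lit 394) (nat_lit 293)) (XT.lf (nat_lit 0) (nat_lit 1697174355) (nat_lit 608) (nat_lit 4735976979) (nat_lit 684) (nat_lit 4584676703) (nat_lit 223) (nat_lit 5) (nat_lit 231) (nat_lit 5) (nat_lit 232) (nat_lit 5)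 (nat_lit 454) (nat_lit 394) (nat_lit 292)))))) (XT.nd (nat_lit 390) (nat_lit 1596) (nat_lit 0) (XT.nd (nat_lit 156) (nat_lit 1064) (nat_lit 0) (XT.nd (nat_lit 78) (nat_lit 684) (nat_lit 0) (XT.lf (nat_lit 0) (nat_lit 8130573798) (nat_lit 608) (nat_lit 746502008) (nat_lit 684) (nat_lit 2262345916) (nat_lit 223) (nat_lit 5) (nat_lit 231) (nat_lit 5) (nat_lit 232) (nat_lit 5) (nat_lit 455) (nat_lit 394) (nat_lit 291)) (XT.lf (nat_lit 0) (nat_lit 128430761) (nat_lit 684) (nat_lit 7836929655) (nat_lit 76) (nat_lit 3297613507) (nat_lit 214) (nat_lit 5) (nat_lit 223) (nat_lit 5) (nat_lit 215) (nat_lit 5) (nat_lit 456) (nat_lit 394) (nat_lit 290))) (XT.nd (nat_lit 78) (nat_lit 1064) (nat_lit 0) (XT.lf (nat_lit 0) (nat_lit 2541548116) (nat_lit 684) (nat_lit 1404003473) (nat_lit 76) (nat_lit 7443058338) (nat_lit 214) (nat_lit 5) (nat_lit 223) (nat_lit 5) (nat_lit 215) (nat_lit 5) (nat_lit 457) (nat_lit 394) (nat_lit 289))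 (XT.nd (nat_lit 78) (nat_lit 532) (nat_lit 0) (XT.lf (nat_lit 0) (nat_lit 5017809888) (nat_lit 608) (nat_lit 6317164953) (nat_lit 76) (nat_lit 181494208) (nat_lit 207) (nat_lit 5) (nat_lit 215) (nat_lit 5) (nat_lit 208) (nat_lit 5) (nat_lit 458) (nat_lit 394) (nat_lit 288)) (XT.lf (nat_lit 0) (nat_lit 258744651) (nat_lit 532) (nat_lit 7302265068) (nat_lit 608) (nat_lit 4085535259) (nat_lit 200) (nat_lit 5) (nat_lit 207) (nat_lit 5) (nat_lit 208) (nat_lit 5) (nat_lit 459) (nat_lit 394) (nat_lit 287))))) (XT.nd (nat_lit 234) (nat_lit 988) (nat_lit 0) (XT.nd (nat_lit 78) (nat_lit 608) (nat_lit 0) (XT.lf (nat_lit 0) (nat_lit 7026501354) (nat_lit 532) (nat_lit 3151308636) (nat_lit 608) (nat_lit 1600965433) (nat_lit 200) (nat_lit 5) (nat_lit 207) (nat_lit 5) (nat_lit 208) (nat_lit 5) (nat_lit 460) (nat_lit 394) (nat_lit 286)) (XT.nd (nat_lit 78) (nat_lit 0) (nat_lit 0) (XT.lf (nat_lit 0) (nat_lit 921828005) (nat_lit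 608) (nat_lit 9909573465) (nat_lit 76) (nat_lit 1082119793) (nat_lit 192) (nat_lit 5) (nat_lit 200) (nat_lit 5) (nat_lit 193) (nat_lit 5) (nat_lit 461) (nat_lit 394) (nat_lit 285)) (XT.lf (nat_lit 0) (nat_lit 3507408357) (nat_lit 608) (nat_lit 3147555027) (nat_lit 76) (nat_lit 5395118910) (nat_lit 192) (nat_lit 5) (nat_lit 200) (nat_lit 5) (nat_lit 193) (nat_lit 5) (nat_lit 462) (nat_lit 394) (nat_lit 284)))) (XT.nd (nat_lit 78) (nat_lit 456) (nat_lit 0) (XT.lf (nat_lit 0) (nat_lit 3774441516) (nat_lit 532) (nat_lit 2375918784) (nat_lit 608) (nat_lit 6038908183) (nat_lit 185) (nat_lit 5) (nat_lit 192) (nat_lit 5) (nat_lit 193) (nat_lit 5) (nat_lit 463) (nat_lit 394) (nat_lit 283)) (XT.nd (nat_lit 78) (nat_lit 456) (nat_lit 0) (XT.lf (nat_lit 0) (nat_lit 8861669796) (nat_lit 608) (nat_lit 1491266728) (nat_lit 76) (nat_lit 1977998902) (nat_lit 185) (nat_lit 5) (nat_lit 193) (nat_lit 5) (nat_lit 186) (nat_lit 5)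 (nat_lit 464) (nat_lit 394) (nat_lit 282)) (XT.lf (nat_lit 0) (nat_lit 5604074868) (nat_lit 456) (nat_lit 6056941602) (nat_lit 532) (nat_lit 813749879) (nat_lit 179) (nat_lit 5) (nat_lit 185) (nat_lit 5) (nat_lit 186) (nat_lit 5) (nat_lit 465) (nat_lit 394) (nat_lit 281))))))))
noncomputable def xc137 : XT := (XT.nd (nat_lit 1638) (nat_lit 2584) (nat_lit 0) (XT.nd (nat_lit 780) (nat_lit 2432) (nat_lit 0) (XT.nd (nat_lit 390) (nat_lit 1368) (nat_lit 0) (XT.nd (nat_lit 156) (nat_lit 988) (nat_lit 0) (XT.nd (nat_lit 78) (nat_lit 0) (nat_lit 0) (XT.lf (nat_lit 0) (nat_lit 206055678) (nat_lit 532) (nat_lit 1657145946) (nat_lit 608) (nat_lit 10758169263) (nat_lit 171) (nat_lit 5) (nat_lit 178) (nat_lit 5) (nat_lit 179) (nat_lit 5) (nat_lit 466) (nat_lit 394) (nat_lit 280)) (XT.lf (nat_lit 0) (nat_lit 4629519774) (nat_lit 608) (nat_lit 5301292707) (nat_lit 76) (nat_lit 2839059450) (nat_lit 171) (nat_lit 5) (nat_lit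 179) (nat_lit 5) (nat_lit 172) (nat_lit 5) (nat_lit 467) (nat_lit 394) (nat_lit 279))) (XT.nd (nat_lit 78) (nat_lit 532) (nat_lit 0) (XT.lf (nat_lit 0) (nat_lit 1945327239) (nat_lit 456) (nat_lit 5511720128) (nat_lit 532) (nat_lit 5464184305) (nat_lit 165) (nat_lit 5) (nat_lit 171) (nat_lit 5) (nat_lit 172) (nat_lit 5) (nat_lit 468) (nat_lit 394) (nat_lit 278)) (XT.nd (nat_lit 78) (nat_lit 532) (nat_lit 0) (XT.lf (nat_lit 0) (nat_lit 9384677512) (nat_lit 456) (nat_lit 974491972) (nat_lit 532) (nat_lit 2716094460) (nat_lit 165) (nat_lit 5) (nat_lit 171) (nat_lit 5) (nat_lit 172) (nat_lit 5) (nat_lit 469) (nat_lit 394) (nat_lit 277)) (XT.lf (nat_lit 0) (nat_lit 116801939) (nat_lit 532) (nat_lit 9490641852) (nat_lit 76) (nat_lit 3624308047) (nat_lit 158) (nat_lit 5) (nat_lit 165) (nat_lit 5) (nat_lit 159) (nat_lit 5) (nat_lit 470) (nat_lit 394) (nat_lit 276))))) (XT.nd (nat_lit 156) (nat_lit 912) (nat_lit 0) (XT.nd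 (nat_lit 78) (nat_lit 456) (nat_lit 0) (XT.lf (nat_lit 0) (nat_lit 2984241691) (nat_lit 532) (nat_lit 2067987598) (nat_lit 76) (nat_lit 8338501911) (nat_lit 158) (nat_lit 5) (nat_lit 165) (nat_lit 5) (nat_lit 159) (nat_lit 5) (nat_lit 471) (nat_lit 394) (nat_lit 275)) (XT.lf (nat_lit 0) (nat_lit 5552435392) (nat_lit 456) (nat_lit 375818030) (nat_lit 532) (nat_lit 7624258005) (nat_lit 152) (nat_lit 5) (nat_lit 158) (nat_lit 5) (nat_lit 159) (nat_lit 5) (nat_lit 472) (nat_lit 394) (nat_lit 274))) (XT.nd (nat_lit 78) (nat_lit 912) (nat_lit 0) (XT.lf (nat_lit 0) (nat_lit 8956952033) (nat_lit 532) (nat_lit 416218187) (nat_lit 76) (nat_lit 4343846535) (nat_lit 152) (nat_lit 5) (nat_lit 159) (nat_lit 5) (nat_lit 153) (nat_lit 5) (nat_lit 473) (nat_lit 394) (nat_lit 273)) (XT.nd (nat_lit 78) (nat_lit 456) (nat_lit 0) (XT.lf (nat_lit 0) (nat_lit 7390574335) (nat_lit 456) (nat_lit 4689758853) (nat_lit 532) (nat_lit 1803802347)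 (nat_lit 146) (nat_lit 5) (nat_lit 152) (nat_lit 5) (nat_lit 153) (nat_lit 5) (nat_lit 474) (nat_lit 394) (nat_lit 272)) (XT.lf (nat_lit 0) (nat_lit 1191226750) (nat_lit 456) (nat_lit 12764804244) (nat_lit 76) (nat_lit 98503040) (nat_lit 140) (nat_lit 5) (nat_lit 146) (nat_lit 5) (nat_lit 141) (nat_lit 5) (nat_lit 475) (nat_lit 394) (nat_lit 271)))))) (XT.nd (nat_lit 390) (nat_lit 1520) (nat_lit 0) (XT.nd (nat_lit 156) (nat_lit 456) (nat_lit 0) (XT.nd (nat_lit 78) (nat_lit 456) (nat_lit 0) (XT.lf (nat_lit 0) (nat_lit 4280766413) (nat_lit 456) (nat_lit 4977434327) (nat_lit 76) (nat_lit 4968731244) (nat_lit 140) (nat_lit 5) (nat_lit 146) (nat_lit 5) (nat_lit 141) (nat_lit 5) (nat_lit 476) (nat_lit 394) (nat_lit 270)) (XT.lf (nat_lit 0) (nat_lit 2981867612) (nat_lit 456) (nat_lit 4453725324) (nat_lit 532) (nat_lit 6967120133) (nat_lit 134) (nat_lit 5) (nat_lit 140) (nat_lit 5) (nat_lit 141) (nat_lit 5) (nat_lit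 477) (nat_lit 394) (nat_lit 269))) (XT.nd (nat_lit 78) (nat_lit 456) (nat_lit 0) (XT.lf (nat_lit 0) (nat_lit 10674292678) (nat_lit 532) (nat_lit 3439683510) (nat_lit 76) (nat_lit 467623052) (nat_lit 134) (nat_lit 5) (nat_lit 141) (nat_lit 5) (nat_lit 135) (nat_lit 5) (nat_lit 478) (nat_lit 394) (nat_lit 268)) (XT.nd (nat_lit 78) (nat_lit 76) (nat_lit 0) (XT.lf (nat_lit 0) (nat_lit 4710796214) (nat_lit 380) (nat_lit 9311612549) (nat_lit 456) (nat_lit 740766425) (nat_lit 129) (nat_lit 5) (nat_lit 134) (nat_lit 5) (nat_lit 135) (nat_lit 5) (nat_lit 479) (nat_lit 394) (nat_lit 267)) (XT.lf (nat_lit 0) (nat_lit 2464307317) (nat_lit 456) (nat_lit 1915977530) (nat_lit 76) (nat_lit 10567622343) (nat_lit 128) (nat_lit 5) (nat_lit 134) (nat_lit 5) (nat_lit 129) (nat_lit 5) (nat_lit 480) (nat_lit 394) (nat_lit 266))))) (XT.nd (nat_lit 234) (nat_lit 760) (nat_lit 0) (XT.nd (nat_lit 78) (nat_lit 380) (nat_lit 0) (XT.lf (nat_lit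 0) (nat_lit 5754784830) (nat_lit 456) (nat_lit 8699682270) (nat_lit 76) (nat_lit 681148996) (nat_lit 123) (nat_lit 5) (nat_lit 129) (nat_lit 5) (nat_lit 124) (nat_lit 5) (nat_lit 481) (nat_lit 394) (nat_lit 265)) (XT.nd (nat_lit 78) (nat_lit 380) (nat_lit 0) (XT.lf (nat_lit 0) (nat_lit 9138043623) (nat_lit 456) (nat_lit 397381357) (nat_lit 76) (nat_lit 5791119292) (nat_lit 123) (nat_lit 5) (nat_lit 129) (nat_lit 5) (nat_lit 124) (nat_lit 5) (nat_lit 482) (nat_lit 394) (nat_lit 264)) (XT.lf (nat_lit 0) (nat_lit 8156050648) (nat_lit 380) (nat_lit 4471185999) (nat_lit 456) (nat_lit 2893293424) (nat_lit 118) (nat_lit 5) (nat_lit 123) (nat_lit 5) (nat_lit 124) (nat_lit 5) (nat_lit 483) (nat_lit 394) (nat_lit 263)))) (XT.nd (nat_lit 78) (nat_lit 304) (nat_lit 0) (XT.lf (nat_lit 0) (nat_lit 461793032) (nat_lit 456) (nat_lit 14565188893) (nat_lit 76) (nat_lit 691354966) (nat_lit 112) (nat_lit 5) (nat_lit 118) (nat_lit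 5) (nat_lit 113) (nat_lit 5) (nat_lit 484) (nat_lit 394) (nat_lit 262)) (XT.nd (nat_lit 78) (nat_lit 304) (nat_lit 0) (XT.lf (nat_lit 0) (nat_lit 3910092493) (nat_lit 456) (nat_lit 6049294874) (nat_lit 76) (nat_lit 5959037119) (nat_lit 112) (nat_lit 5) (nat_lit 118) (nat_lit 5) (nat_lit 113) (nat_lit 5) (nat_lit 485) (nat_lit 394) (nat_lit 261)) (XT.lf (nat_lit 0) (nat_lit 2650065091) (nat_lit 304) (nat_lit 4780242895) (nat_lit 380) (nat_lit 8692150947) (nat_lit 108) (nat_lit 5) (nat_lit 112) (nat_lit 5) (nat_lit 113) (nat_lit 5) (nat_lit 486) (nat_lit 394) (nat_lit 260))))))) (XT.nd (nat_lit 780) (nat_lit 836) (nat_lit 0) (XT.nd (nat_lit 390) (nat_lit 988) (nat_lit 0) (XT.nd (nat_lit 156) (nat_lit 380) (nat_lit 0) (XT.nd (nat_lit 78) (nat_lit 380) (nat_lit 0) (XT.lf (nat_lit 0) (nat_lit 11050889536) (nat_lit 380) (nat_lit 4749585916) (nat_lit 76) (nat_lit 529503402) (nat_lit 108) (nat_lit 5) (nat_lit 113) (nat_lit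 5) (nat_lit 109) (nat_lit 5) (nat_lit 487) (nat_lit 394) (nat_lit 259)) (XT.lf (nat_lit 0) (nat_lit 4149159004) (nat_lit 380) (nat_lit 10639434255) (nat_lit 456) (nat_lit 1752165644) (nat_lit 103) (nat_lit 5) (nat_lit 108) (nat_lit 5) (nat_lit 109) (nat_lit 5) (nat_lit 488) (nat_lit 394) (nat_lit 258))) (XT.nd (nat_lit 78) (nat_lit 304) (nat_lit 0) (XT.lf (nat_lit 0) (nat_lit 1839332762) (nat_lit 456) (nat_lit 3498375049) (nat_lit 76) (nat_lit 11417446159) (nat_lit 102) (nat_lit 5) (nat_lit 108) (nat_lit 5) (nat_lit 103) (nat_lit 5) (nat_lit 489) (nat_lit 394) (nat_lit 257)) (XT.nd (nat_lit 78) (nat_lit 0) (nat_lit 0) (XT.lf (nat_lit 0) (nat_lit 5502821549) (nat_lit 380) (nat_lit 11360048127) (nat_lit 76) (nat_lit 110266903) (nat_lit 98) (nat_lit 5) (nat_lit 103) (nat_lit 5) (nat_lit 99) (nat_lit 5) (nat_lit 490) (nat_lit 394) (nat_lit 256)) (XT.lf (nat_lit 0) (nat_lit 9285070142) (nat_lit 380) (nat_lit 2297307110)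 (nat_lit 76) (nat_lit 5612195428) (nat_lit 98) (nat_lit 5) (nat_lit 103) (nat_lit 5) (nat_lit 99) (nat_lit 5) (nat_lit 491) (nat_lit 394) (nat_lit 255))))) (XT.nd (nat_lit 156) (nat_lit 684) (nat_lit 0) (XT.nd (nat_lit 78) (nat_lit 0) (nat_lit 0) (XT.lf (nat_lit 0) (nat_lit 7018148812) (nat_lit 304) (nat_lit 6157155453) (nat_lit 380) (nat_lit 4244489996) (nat_lit 94) (nat_lit 5) (nat_lit 98) (nat_lit 5) (nat_lit 99) (nat_lit 5) (nat_lit 492) (nat_lit 394) (nat_lit 254)) (XT.lf (nat_lit 0) (nat_lit 16530605682) (nat_lit 304) (nat_lit 615054176) (nat_lit 380) (nat_lit 503817580) (nat_lit 94) (nat_lit 5) (nat_lit 98) (nat_lit 5) (nat_lit 99) (nat_lit 5) (nat_lit 493) (nat_lit 394) (nat_lit 253))) (XT.nd (nat_lit 78) (nat_lit 304) (nat_lit 0) (XT.lf (nat_lit 0) (nat_lit 3343127347) (nat_lit 380) (nat_lit 9497419864) (nat_lit 76) (nat_lit 5041282554) (nat_lit 89) (nat_lit 5) (nat_lit 94) (nat_lit 5) (nat_lit 90)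 (nat_lit 5) (nat_lit 494) (nat_lit 394) (nat_lit 252)) (XT.nd (nat_lit 78) (nat_lit 304) (nat_lit 0) (XT.lf (nat_lit 0) (nat_lit 7259047402) (nat_lit 380) (nat_lit 53516807) (nat_lit 76) (nat_lit 10806225979) (nat_lit 89) (nat_lit 5) (nat_lit 94) (nat_lit 5) (nat_lit 90) (nat_lit 5) (nat_lit 495) (nat_lit 394) (nat_lit 251)) (XT.lf (nat_lit 0) (nat_lit 9686399103) (nat_lit 304) (nat_lit 1617174234) (nat_lit 380) (nat_lit 7055913964) (nat_lit 85) (nat_lit 5) (nat_lit 89) (nat_lit 5) (nat_lit 90) (nat_lit 5) (nat_lit 496) (nat_lit 394) (nat_lit 250)))))) (XT.nd (nat_lit 390) (nat_lit 0) (nat_lit 0) (XT.nd (nat_lit 156) (nat_lit 532) (nat_lit 0) (XT.nd (nat_lit 78) (nat_lit 76) (nat_lit 0) (XT.lf (nat_lit 0) (nat_lit 982534626) (nat_lit 228) (nat_lit 14467882348) (nat_lit 304) (nat_lit 3154156008) (nat_lit 82) (nat_lit 5) (nat_lit 85) (nat_lit 5) (nat_lit 86) (nat_lit 5) (nat_lit 497) (nat_lit 394) (nat_lit 249))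 (XT.lf (nat_lit 0) (nat_lit 871604853) (nat_lit 304) (nat_lit 7941032626) (nat_lit 76) (nat_lit 10040682812) (nat_lit 81) (nat_lit 5) (nat_lit 85) (nat_lit 5) (nat_lit 82) (nat_lit 5) (nat_lit 498) (nat_lit 394) (nat_lit 248))) (XT.nd (nat_lit 78) (nat_lit 228) (nat_lit 0) (XT.lf (nat_lit 0) (nat_lit 1918238910) (nat_lit 304) (nat_lit 3017646871) (nat_lit 380) (nat_lit 14170737991) (nat_lit 77) (nat_lit 5) (nat_lit 81) (nat_lit 5) (nat_lit 82) (nat_lit 5) (nat_lit 499) (nat_lit 394) (nat_lit 247)) (XT.nd (nat_lit 78) (nat_lit 228) (nat_lit 0) (XT.lf (nat_lit 0) (nat_lit 9141689612) (nat_lit 380) (nat_lit 7320419460) (nat_lit 76) (nat_lit 2901682434) (nat_lit 77) (nat_lit 5) (nat_lit 82) (nat_lit 5) (nat_lit 78) (nat_lit 5) (nat_lit 500) (nat_lit 394) (nat_lit 246)) (XT.lf (nat_lit 0) (nat_lit 2741570344) (nat_lit 228) (nat_lit 10715873698) (nat_lit 304) (nat_lit 6168144732) (nat_lit 74) (nat_lit 5) (nat_lit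 77) (nat_lit 5) (nat_lit 78) (nat_lit 5) (nat_lit 501) (nat_lit 394) (nat_lit 245))))) (XT.nd (nat_lit 51168) (nat_lit 0) (nat_lit 38076) (XT.nd (nat_lit 51012) (nat_lit 0) (nat_lit 38988) (XT.lf (nat_lit 0) (nat_lit 13084850498) (nat_lit 228) (nat_lit 4811946732) (nat_lit 304) (nat_lit 1995081899) (nat_lit 74) (nat_lit 5) (nat_lit 77) (nat_lit 5) (nat_lit 78) (nat_lit 5) (nat_lit 502) (nat_lit 394) (nat_lit 244)) (XT.nd (nat_lit 78) (nat_lit 0) (nat_lit 0) (XT.lf (nat_lit 0) (nat_lit 795497025) (nat_lit 988) (nat_lit 1321566281) (nat_lit 988) (nat_lit 1321566281) (nat_lit 587) (nat_lit 3) (nat_lit 600) (nat_lit 3) (nat_lit 600) (nat_lit 5) (nat_lit 395) (nat_lit 395) (nat_lit 350)) (XT.lf (nat_lit 76) (nat_lit 628796983) (nat_lit 0) (nat_lit 2870490079) (nat_lit 988) (nat_lit 3407570177) (nat_lit 588) (nat_lit 5) (nat_lit 587) (nat_lit 3) (nat_lit 600) (nat_lit 5) (nat_lit 396) (nat_lit 395) (nat_lit 349))))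 (XT.nd (nat_lit 78) (nat_lit 912) (nat_lit 0) (XT.lf (nat_lit 76) (nat_lit 3976379433) (nat_lit 0) (nat_lit 1437406206) (nat_lit 988) (nat_lit 1523935635) (nat_lit 588) (nat_lit 5) (nat_lit 587) (nat_lit 3) (nat_lit 600) (nat_lit 5) (nat_lit 397) (nat_lit 395) (nat_lit 348)) (XT.nd (nat_lit 78) (nat_lit 0) (nat_lit 0) (XT.lf (nat_lit 0) (nat_lit 346012135) (nat_lit 988) (nat_lit 6571897033) (nat_lit 1064) (nat_lit 52198230) (nat_lit 575) (nat_lit 5) (nat_lit 588) (nat_lit 5) (nat_lit 589) (nat_lit 5) (nat_lit 398) (nat_lit 395) (nat_lit 347)) (XT.lf (nat_lit 0) (nat_lit 2214359491) (nat_lit 988) (nat_lit 3184164882) (nat_lit 1064) (nat_lit 1604820083) (nat_lit 575) (nat_lit 5) (nat_lit 588) (nat_lit 5) (nat_lit 589) (nat_lit 5) (nat_lit 399) (nat_lit 395) (nat_lit 346))))))))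
noncomputable def xc138 : XT := (XT.nd (nat_lit 1560) (nat_lit 14744) (nat_lit 0) (XT.nd (nat_lit 780) (nat_lit 3572) (nat_lit 0) (XT.nd (nat_lit 390) (nat_lit 1064) (nat_lit 0) (XT.nd (nat_lit 156) (nat_lit 1064) (nat_lit 0) (XT.nd (nat_lit 78) (nat_lit 0) (nat_lit 0) (XT.lf (nat_lit 76) (nat_lit 248330452) (nat_lit 0) (nat_lit 3826163551) (nat_lit 1064) (nat_lit 2963696001) (nat_lit 576) (nat_lit 5) (nat_lit 575) (nat_lit 5) (nat_lit 589) (nat_lit 5) (nat_lit 400) (nat_lit 395) (nat_lit 345)) (XT.lf (nat_lit 76) (nat_lit 3766562216) (nat_lit 0) (nat_lit 2180200331) (nat_lit 1064) (nat_lit 1127502813) (nat_lit 576) (nat_lit 5) (nat_lit 575) (nat_lit 5) (nat_lit 589) (nat_lit 5) (nat_lit 401) (nat_lit 395) (nat_lit 344))) (XT.nd (nat_lit 78) (nat_lit 0) (nat_lit 76) (XT.lf (nat_lit 76) (nat_lit 215883918) (nat_lit 0) (nat_lit 475298175) (nat_lit 1140) (nat_lit 6420702753) (nat_lit 562) (nat_lit 5) (nat_lit 561)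 (nat_lit 5) (nat_lit 576) (nat_lit 5) (nat_lit 402) (nat_lit 395) (nat_lit 343)) (XT.nd (nat_lit 78) (nat_lit 0) (nat_lit 0) (XT.lf (nat_lit 0) (nat_lit 2516702337) (nat_lit 1064) (nat_lit 3337939922) (nat_lit 1140) (nat_lit 1295783932) (nat_lit 562) (nat_lit 5) (nat_lit 576) (nat_lit 5) (nat_lit 577) (nat_lit 5) (nat_lit 403) (nat_lit 395) (nat_lit 342)) (XT.lf (nat_lit 76) (nat_lit 265054055) (nat_lit 0) (nat_lit 4074426499) (nat_lit 1140) (nat_lit 2851071983) (nat_lit 563) (nat_lit 5) (nat_lit 562) (nat_lit 5) (nat_lit 577) (nat_lit 5) (nat_lit 404) (nat_lit 395) (nat_lit 341))))) (XT.nd (nat_lit 156) (nat_lit 0) (nat_lit 76) (XT.nd (nat_lit 78) (nat_lit 1140) (nat_lit 0) (XT.lf (nat_lit 76) (nat_lit 3958972474) (nat_lit 0) (nat_lit 2218714014) (nat_lit 1140) (nat_lit 1054244029) (nat_lit 563) (nat_lit 5) (nat_lit 562) (nat_lit 5) (nat_lit 577) (nat_lit 5) (nat_lit 405) (nat_lit 395) (nat_lit 340)) (XT.lf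 (nat_lit 76) (nat_lit 426712785) (nat_lit 0) (nat_lit 301482514) (nat_lit 1216) (nat_lit 6546669402) (nat_lit 548) (nat_lit 5) (nat_lit 547) (nat_lit 5) (nat_lit 563) (nat_lit 5) (nat_lit 406) (nat_lit 395) (nat_lit 339))) (XT.nd (nat_lit 78) (nat_lit 0) (nat_lit 0) (XT.lf (nat_lit 0) (nat_lit 2522916845) (nat_lit 1140) (nat_lit 3118604822) (nat_lit 1216) (nat_lit 1677208440) (nat_lit 548) (nat_lit 5) (nat_lit 563) (nat_lit 5) (nat_lit 564) (nat_lit 5) (nat_lit 407) (nat_lit 395) (nat_lit 338)) (XT.nd (nat_lit 78) (nat_lit 0) (nat_lit 0) (XT.lf (nat_lit 76) (nat_lit 665537158) (nat_lit 0) (nat_lit 3653027428) (nat_lit 1216) (nat_lit 3045633977) (nat_lit 549) (nat_lit 5) (nat_lit 548) (nat_lit 5) (nat_lit 564) (nat_lit 5) (nat_lit 408) (nat_lit 395) (nat_lit 337)) (XT.lf (nat_lit 76) (nat_lit 4541083210) (nat_lit 0) (nat_lit 1589320770) (nat_lit 1216) (nat_lit 1280592695) (nat_lit 549) (nat_lit 5) (nat_lit 548)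 (nat_lit 5) (nat_lit 564) (nat_lit 5) (nat_lit 409) (nat_lit 395) (nat_lit 336)))))) (XT.nd (nat_lit 390) (nat_lit 2508) (nat_lit 0) (XT.nd (nat_lit 156) (nat_lit 0) (nat_lit 0) (XT.nd (nat_lit 78) (nat_lit 0) (nat_lit 0) (XT.lf (nat_lit 0) (nat_lit 482909029) (nat_lit 1216) (nat_lit 6444054014) (nat_lit 1292) (nat_lit 532325545) (nat_lit 533) (nat_lit 5) (nat_lit 549) (nat_lit 5) (nat_lit 550) (nat_lit 5) (nat_lit 410) (nat_lit 395) (nat_lit 335)) (XT.lf (nat_lit 0) (nat_lit 2255021154) (nat_lit 1216) (nat_lit 2537621756) (nat_lit 1292) (nat_lit 2715948754) (nat_lit 533) (nat_lit 5) (nat_lit 549) (nat_lit 5) (nat_lit 550) (nat_lit 5) (nat_lit 411) (nat_lit 395) (nat_lit 334))) (XT.nd (nat_lit 78) (nat_lit 0) (nat_lit 0) (XT.lf (nat_lit 76) (nat_lit 1439032904) (nat_lit 0) (nat_lit 2594219108) (nat_lit 1292) (nat_lit 3526239152) (nat_lit 534) (nat_lit 5) (nat_lit 533) (nat_lit 5) (nat_lit 550) (nat_lit 5) (nat_lit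 412) (nat_lit 395) (nat_lit 333)) (XT.nd (nat_lit 78) (nat_lit 0) (nat_lit 76) (XT.lf (nat_lit 76) (nat_lit 5503015551) (nat_lit 0) (nat_lit 322979491) (nat_lit 1292) (nat_lit 1785858081) (nat_lit 534) (nat_lit 5) (nat_lit 533) (nat_lit 5) (nat_lit 550) (nat_lit 5) (nat_lit 413) (nat_lit 395) (nat_lit 332)) (XT.lf (nat_lit 76) (nat_lit 1968970282) (nat_lit 0) (nat_lit 5674089367) (nat_lit 1292) (nat_lit 22456302) (nat_lit 535) (nat_lit 5) (nat_lit 534) (nat_lit 5) (nat_lit 551) (nat_lit 5) (nat_lit 414) (nat_lit 395) (nat_lit 331))))) (XT.nd (nat_lit 156) (nat_lit 1292) (nat_lit 0) (XT.nd (nat_lit 78) (nat_lit 0) (nat_lit 0) (XT.lf (nat_lit 0) (nat_lit 1732332411) (nat_lit 1292) (nat_lit 1604074443) (nat_lit 1368) (nat_lit 4384048320) (nat_lit 517) (nat_lit 5) (nat_lit 534) (nat_lit 5) (nat_lit 535) (nat_lit 5) (nat_lit 415) (nat_lit 395) (nat_lit 330)) (XT.lf (nat_lit 76) (nat_lit 2577171511) (nat_lit 0) (nat_lit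 925232776) (nat_lit 1368) (nat_lit 4274497803) (nat_lit 518) (nat_lit 5) (nat_lit 517) (nat_lit 5) (nat_lit 535) (nat_lit 5) (nat_lit 416) (nat_lit 395) (nat_lit 329))) (XT.nd (nat_lit 78) (nat_lit 1368) (nat_lit 0) (XT.lf (nat_lit 0) (nat_lit 5293026730) (nat_lit 1292) (nat_lit 1007853739) (nat_lit 76) (nat_lit 1533915707) (nat_lit 518) (nat_lit 5) (nat_lit 535) (nat_lit 5) (nat_lit 519) (nat_lit 5) (nat_lit 417) (nat_lit 395) (nat_lit 328)) (XT.nd (nat_lit 78) (nat_lit 76) (nat_lit 0) (XT.lf (nat_lit 0) (nat_lit 3277914876) (nat_lit 1292) (nat_lit 3834008319) (nat_lit 1368) (nat_lit 782096515) (nat_lit 501) (nat_lit 5) (nat_lit 518) (nat_lit 5) (nat_lit 519) (nat_lit 5) (nat_lit 418) (nat_lit 395) (nat_lit 327)) (XT.lf (nat_lit 0) (nat_lit 971611209) (nat_lit 1368) (nat_lit 324965614) (nat_lit 76) (nat_lit 6658296892) (nat_lit 500) (nat_lit 5) (nat_lit 518) (nat_lit 5) (nat_lit 501) (nat_lit 5) (nat_lit 419)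 (nat_lit 395) (nat_lit 326))))))) (XT.nd (nat_lit 780) (nat_lit 5244) (nat_lit 0) (XT.nd (nat_lit 390) (nat_lit 5092) (nat_lit 0) (XT.nd (nat_lit 156) (nat_lit 1596) (nat_lit 0) (XT.nd (nat_lit 78) (nat_lit 1444) (nat_lit 0) (XT.lf (nat_lit 0) (nat_lit 2751019169) (nat_lit 1444) (nat_lit 3951993501) (nat_lit 76) (nat_lit 1313826368) (nat_lit 482) (nat_lit 5) (nat_lit 501) (nat_lit 5) (nat_lit 483) (nat_lit 5) (nat_lit 420) (nat_lit 395) (nat_lit 325)) (XT.lf (nat_lit 0) (nat_lit 436843726) (nat_lit 1444) (nat_lit 4109327032) (nat_lit 1520) (nat_lit 3534289014) (nat_lit 463) (nat_lit 5) (nat_lit 482) (nat_lit 5) (nat_lit 483) (nat_lit 5) (nat_lit 421) (nat_lit 395) (nat_lit 324))) (XT.nd (nat_lit 78) (nat_lit 1596) (nat_lit 0) (XT.lf (nat_lit 0) (nat_lit 4940064211) (nat_lit 1444) (nat_lit 1430699643) (nat_lit 1520) (nat_lit 1774737136) (nat_lit 463) (nat_lit 5) (nat_lit 482) (nat_lit 5) (nat_lit 483) (nat_lit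 5) (nat_lit 422) (nat_lit 395) (nat_lit 323)) (XT.nd (nat_lit 78) (nat_lit 0) (nat_lit 0) (XT.lf (nat_lit 0) (nat_lit 4236981) (nat_lit 1596) (nat_lit 6909190632) (nat_lit 76) (nat_lit 1298741054) (nat_lit 442) (nat_lit 5) (nat_lit 463) (nat_lit 5) (nat_lit 443) (nat_lit 5) (nat_lit 423) (nat_lit 395) (nat_lit 322)) (XT.lf (nat_lit 0) (nat_lit 1794109539) (nat_lit 1596) (nat_lit 2383502246) (nat_lit 76) (nat_lit 4102359392) (nat_lit 442) (nat_lit 5) (nat_lit 463) (nat_lit 5) (nat_lit 443) (nat_lit 5) (nat_lit 424) (nat_lit 395) (nat_lit 321))))) (XT.nd (nat_lit 156) (nat_lit 3496) (nat_lit 0) (XT.nd (nat_lit 78) (nat_lit 0) (nat_lit 0) (XT.lf (nat_lit 0) (nat_lit 2235147676) (nat_lit 1596) (nat_lit 1367705720) (nat_lit 1672) (nat_lit 4746632266) (nat_lit 421) (nat_lit 5) (nat_lit 442) (nat_lit 5) (nat_lit 443) (nat_lit 5) (nat_lit 425) (nat_lit 395) (nat_lit 320)) (XT.lf (nat_lit 0) (nat_lit 5442634092) (nat_lit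 1672) (nat_lit 1478780226) (nat_lit 76) (nat_lit 1499095941) (nat_lit 421) (nat_lit 5) (nat_lit 443) (nat_lit 5) (nat_lit 422) (nat_lit 5) (nat_lit 426) (nat_lit 395) (nat_lit 319))) (XT.nd (nat_lit 78) (nat_lit 1824) (nat_lit 0) (XT.lf (nat_lit 0) (nat_lit 3256319867) (nat_lit 1672) (nat_lit 4062730462) (nat_lit 1748) (nat_lit 1173924948) (nat_lit 399) (nat_lit 5) (nat_lit 421) (nat_lit 5) (nat_lit 422) (nat_lit 5) (nat_lit 427) (nat_lit 395) (nat_lit 318)) (XT.nd (nat_lit 78) (nat_lit 1748) (nat_lit 0) (XT.lf (nat_lit 0) (nat_lit 637206269) (nat_lit 1748) (nat_lit 491973161) (nat_lit 76) (nat_lit 7438043007) (nat_lit 398) (nat_lit 5) (nat_lit 421) (nat_lit 5) (nat_lit 399) (nat_lit 5) (nat_lit 428) (nat_lit 395) (nat_lit 317)) (XT.lf (nat_lit 0) (nat_lit 2480027306) (nat_lit 1824) (nat_lit 4284571989) (nat_lit 76) (nat_lit 1877992093) (nat_lit 375) (nat_lit 5) (nat_lit 399) (nat_lit 5) (nat_lit 376) (nat_lit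 5) (nat_lit 429) (nat_lit 395) (nat_lit 316)))))) (XT.nd (nat_lit 390) (nat_lit 2432) (nat_lit 0) (XT.nd (nat_lit 156) (nat_lit 1824) (nat_lit 0) (XT.nd (nat_lit 78) (nat_lit 0) (nat_lit 0) (XT.lf (nat_lit 0) (nat_lit 565221743) (nat_lit 988) (nat_lit 3779819946) (nat_lit 1064) (nat_lit 4374734743) (nat_lit 362) (nat_lit 5) (nat_lit 375) (nat_lit 5) (nat_lit 376) (nat_lit 5) (nat_lit 430) (nat_lit 395) (nat_lit 315)) (XT.lf (nat_lit 0) (nat_lit 5543296974) (nat_lit 988) (nat_lit 704074280) (nat_lit 1064) (nat_lit 2551148776) (nat_lit 362) (nat_lit 5) (nat_lit 375) (nat_lit 5) (nat_lit 376) (nat_lit 5) (nat_lit 431) (nat_lit 395) (nat_lit 314))) (XT.nd (nat_lit 78) (nat_lit 912) (nat_lit 0) (XT.lf (nat_lit 0) (nat_lit 1722023778) (nat_lit 912) (nat_lit 6464541014) (nat_lit 988) (nat_lit 692312214) (nat_lit 350) (nat_lit 5) (nat_lit 362) (nat_lit 5) (nat_lit 363) (nat_lit 5) (nat_lit 432) (nat_lit 395) (nat_lit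 313)) (XT.nd (nat_lit 78) (nat_lit 836) (nat_lit 0) (XT.lf (nat_lit 0) (nat_lit 1186585575) (nat_lit 988) (nat_lit 2157153559) (nat_lit 76) (nat_lit 5616986534) (nat_lit 349) (nat_lit 5) (nat_lit 362) (nat_lit 5) (nat_lit 350) (nat_lit 5) (nat_lit 433) (nat_lit 395) (nat_lit 312)) (XT.lf (nat_lit 0) (nat_lit 2950109564) (nat_lit 836) (nat_lit 135412652) (nat_lit 912) (nat_lit 5958776942) (nat_lit 338) (nat_lit 5) (nat_lit 349) (nat_lit 5) (nat_lit 350) (nat_lit 5) (nat_lit 434) (nat_lit 395) (nat_lit 311))))) (XT.nd (nat_lit 234) (nat_lit 836) (nat_lit 0) (XT.nd (nat_lit 78) (nat_lit 1596) (nat_lit 0) (XT.lf (nat_lit 0) (nat_lit 5030316597) (nat_lit 912) (nat_lit 987881650) (nat_lit 76) (nat_lit 3111202012) (nat_lit 338) (nat_lit 5) (nat_lit 350) (nat_lit 5) (nat_lit 339) (nat_lit 5) (nat_lit 435) (nat_lit 395) (nat_lit 310)) (XT.nd (nat_lit 78) (nat_lit 760) (nat_lit 0) (XT.lf (nat_lit 0) (nat_lit 4248987892)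 (nat_lit 836) (nat_lit 2766973092) (nat_lit 912) (nat_lit 2200216769) (nat_lit 327) (nat_lit 5) (nat_lit 338) (nat_lit 5) (nat_lit 339) (nat_lit 5) (nat_lit 436) (nat_lit 395) (nat_lit 309)) (XT.lf (nat_lit 0) (nat_lit 272636203) (nat_lit 760) (nat_lit 8754511357) (nat_lit 836) (nat_lit 277839841) (nat_lit 317) (nat_lit 5) (nat_lit 327) (nat_lit 5) (nat_lit 328) (nat_lit 5) (nat_lit 437) (nat_lit 395) (nat_lit 308)))) (XT.nd (nat_lit 78) (nat_lit 760) (nat_lit 0) (XT.lf (nat_lit 0) (nat_lit 1686766171) (nat_lit 836) (nat_lit 3766727749) (nat_lit 76) (nat_lit 3941356373) (nat_lit 316) (nat_lit 5) (nat_lit 327) (nat_lit 5) (nat_lit 317) (nat_lit 5) (nat_lit 438) (nat_lit 395) (nat_lit 307)) (XT.nd (nat_lit 78) (nat_lit 0) (nat_lit 0) (XT.lf (nat_lit 0) (nat_lit 1596900642) (nat_lit 760) (nat_lit 2074901926) (nat_lit 836) (nat_lit 5814986403) (nat_lit 306) (nat_lit 5) (nat_lit 316) (nat_lit 5) (nat_lit 317) (nat_lit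 5) (nat_lit 439) (nat_lit 395) (nat_lit 306)) (XT.lf (nat_lit 0) (nat_lit 5705696943) (nat_lit 836) (nat_lit 2497017250) (nat_lit 76) (nat_lit 1377681269) (nat_lit 306) (nat_lit 5) (nat_lit 317) (nat_lit 5) (nat_lit 307) (nat_lit 5) (nat_lit 440) (nat_lit 395) (nat_lit 305))))))))
noncomputable def xc139 : XT := (XT.nd (nat_lit 1638) (nat_lit 5852) (nat_lit 0) (XT.nd (nat_lit 780) (nat_lit 3648) (nat_lit 0) (XT.nd (nat_lit 390) (nat_lit 2128) (nat_lit 0) (XT.nd (nat_lit 156) (nat_lit 1444) (nat_lit 0) (XT.nd (nat_lit 78) (nat_lit 76) (nat_lit 0) (XT.lf (nat_lit 0) (nat_lit 3003134858) (nat_lit 760) (nat_lit 4785677669) (nat_lit 836) (nat_lit 1886902635) (nat_lit 296) (nat_lit 5) (nat_lit 306) (nat_lit 5) (nat_lit 307) (nat_lit 5) (nat_lit 441) (nat_lit 395) (nat_lit 304)) (XT.lf (nat_lit 0) (nat_lit 131117788) (nat_lit 836) (nat_lit 1152879804) (nat_lit 76) (nat_lit 8489090618) (nat_lit 295) (nat_lit 5) (nat_lit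 306) (nat_lit 5) (nat_lit 296) (nat_lit 5) (nat_lit 442) (nat_lit 395) (nat_lit 303))) (XT.nd (nat_lit 78) (nat_lit 684) (nat_lit 0) (XT.lf (nat_lit 0) (nat_lit 2184504863) (nat_lit 836) (nat_lit 5389346530) (nat_lit 76) (nat_lit 2297913698) (nat_lit 285) (nat_lit 5) (nat_lit 296) (nat_lit 5) (nat_lit 286) (nat_lit 5) (nat_lit 443) (nat_lit 395) (nat_lit 302)) (XT.nd (nat_lit 78) (nat_lit 0) (nat_lit 0) (XT.lf (nat_lit 0) (nat_lit 242238681) (nat_lit 684) (nat_lit 4030804782) (nat_lit 760) (nat_lit 5699501406) (nat_lit 276) (nat_lit 5) (nat_lit 285) (nat_lit 5) (nat_lit 286) (nat_lit 5) (nat_lit 444) (nat_lit 395) (nat_lit 301)) (XT.lf (nat_lit 0) (nat_lit 6033508304) (nat_lit 684) (nat_lit 382527388) (nat_lit 760) (nat_lit 3659061713) (nat_lit 276) (nat_lit 5) (nat_lit 285) (nat_lit 5) (nat_lit 286) (nat_lit 5) (nat_lit 445) (nat_lit 395) (nat_lit 300))))) (XT.nd (nat_lit 156) (nat_lit 1368) (nat_lit 0) (XT.nd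 (nat_lit 78) (nat_lit 76) (nat_lit 0) (XT.lf (nat_lit 0) (nat_lit 1736047252) (nat_lit 684) (nat_lit 6875751154) (nat_lit 760) (nat_lit 1567714981) (nat_lit 267) (nat_lit 5) (nat_lit 276) (nat_lit 5) (nat_lit 277) (nat_lit 5) (nat_lit 446) (nat_lit 395) (nat_lit 299)) (XT.lf (nat_lit 0) (nat_lit 564962025) (nat_lit 760) (nat_lit 2633928872) (nat_lit 76) (nat_lit 7086925172) (nat_lit 266) (nat_lit 5) (nat_lit 276) (nat_lit 5) (nat_lit 267) (nat_lit 5) (nat_lit 447) (nat_lit 395) (nat_lit 298))) (XT.nd (nat_lit 78) (nat_lit 684) (nat_lit 0) (XT.lf (nat_lit 0) (nat_lit 2722046263) (nat_lit 760) (nat_lit 7098732845) (nat_lit 76) (nat_lit 573213533) (nat_lit 257) (nat_lit 5) (nat_lit 267) (nat_lit 5) (nat_lit 258) (nat_lit 5) (nat_lit 448) (nat_lit 395) (nat_lit 297)) (XT.nd (nat_lit 78) (nat_lit 684) (nat_lit 0) (XT.lf (nat_lit 0) (nat_lit 4939038243) (nat_lit 760) (nat_lit 1172388500) (nat_lit 76) (nat_lit 4392580480)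 (nat_lit 257) (nat_lit 5) (nat_lit 267) (nat_lit 5) (nat_lit 258) (nat_lit 5) (nat_lit 449) (nat_lit 395) (nat_lit 296)) (XT.lf (nat_lit 0) (nat_lit 4911562153) (nat_lit 684) (nat_lit 2298921781) (nat_lit 760) (nat_lit 3405545493) (nat_lit 248) (nat_lit 5) (nat_lit 257) (nat_lit 5) (nat_lit 258) (nat_lit 5) (nat_lit 450) (nat_lit 395) (nat_lit 295)))))) (XT.nd (nat_lit 390) (nat_lit 1748) (nat_lit 0) (XT.nd (nat_lit 156) (nat_lit 1216) (nat_lit 0) (XT.nd (nat_lit 78) (nat_lit 76) (nat_lit 0) (XT.lf (nat_lit 0) (nat_lit 371866047) (nat_lit 608) (nat_lit 9154613137) (nat_lit 684) (nat_lit 1203839897) (nat_lit 240) (nat_lit 5) (nat_lit 248) (nat_lit 5) (nat_lit 249) (nat_lit 5) (nat_lit 451) (nat_lit 395) (nat_lit 294)) (XT.lf (nat_lit 0) (nat_lit 1060564996) (nat_lit 684) (nat_lit 4247031510) (nat_lit 76) (nat_lit 5538525184) (nat_lit 239) (nat_lit 5) (nat_lit 248) (nat_lit 5) (nat_lit 240) (nat_lit 5) (nat_lit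 452) (nat_lit 395) (nat_lit 293))) (XT.nd (nat_lit 78) (nat_lit 608) (nat_lit 0) (XT.lf (nat_lit 0) (nat_lit 1979399002) (nat_lit 608) (nat_lit 1366598124) (nat_lit 684) (nat_lit 7618255783) (nat_lit 231) (nat_lit 5) (nat_lit 239) (nat_lit 5) (nat_lit 240) (nat_lit 5) (nat_lit 453) (nat_lit 395) (nat_lit 292)) (XT.nd (nat_lit 78) (nat_lit 608) (nat_lit 0) (XT.lf (nat_lit 0) (nat_lit 5702266371) (nat_lit 684) (nat_lit 2739101609) (nat_lit 76) (nat_lit 2642884904) (nat_lit 231) (nat_lit 5) (nat_lit 240) (nat_lit 5) (nat_lit 232) (nat_lit 5) (nat_lit 454) (nat_lit 395) (nat_lit 291)) (XT.lf (nat_lit 0) (nat_lit 3645386688) (nat_lit 608) (nat_lit 4472613927) (nat_lit 684) (nat_lit 3088413983) (nat_lit 223) (nat_lit 5) (nat_lit 231) (nat_lit 5) (nat_lit 232) (nat_lit 5) (nat_lit 455) (nat_lit 395) (nat_lit 290))))) (XT.nd (nat_lit 234) (nat_lit 532) (nat_lit 0) (XT.nd (nat_lit 78) (nat_lit 1216) (nat_lit 0) (XT.lf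 (nat_lit 0) (nat_lit 10169919437) (nat_lit 608) (nat_lit 410370685) (nat_lit 684) (nat_lit 750772978) (nat_lit 223) (nat_lit 5) (nat_lit 231) (nat_lit 5) (nat_lit 232) (nat_lit 5) (nat_lit 456) (nat_lit 395) (nat_lit 289)) (XT.nd (nat_lit 78) (nat_lit 532) (nat_lit 0) (XT.lf (nat_lit 0) (nat_lit 1651897595) (nat_lit 684) (nat_lit 6079782271) (nat_lit 76) (nat_lit 3725526574) (nat_lit 214) (nat_lit 5) (nat_lit 223) (nat_lit 5) (nat_lit 215) (nat_lit 5) (nat_lit 457) (nat_lit 395) (nat_lit 288)) (XT.lf (nat_lit 0) (nat_lit 450179443) (nat_lit 532) (nat_lit 3636199183) (nat_lit 608) (nat_lit 7499526452) (nat_lit 207) (nat_lit 5) (nat_lit 214) (nat_lit 5) (nat_lit 215) (nat_lit 5) (nat_lit 458) (nat_lit 395) (nat_lit 287)))) (XT.nd (nat_lit 78) (nat_lit 532) (nat_lit 0) (XT.lf (nat_lit 0) (nat_lit 6594640997) (nat_lit 608) (nat_lit 4551962326) (nat_lit 76) (nat_lit 570080258) (nat_lit 207) (nat_lit 5) (nat_lit 215)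 (nat_lit 5) (nat_lit 208) (nat_lit 5) (nat_lit 459) (nat_lit 395) (nat_lit 286)) (XT.nd (nat_lit 78) (nat_lit 0) (nat_lit 0) (XT.lf (nat_lit 0) (nat_lit 2143021088) (nat_lit 532) (nat_lit 7028933621) (nat_lit 608) (nat_lit 2677752800) (nat_lit 200) (nat_lit 5) (nat_lit 207) (nat_lit 5) (nat_lit 208) (nat_lit 5) (nat_lit 460) (nat_lit 395) (nat_lit 285)) (XT.lf (nat_lit 0) (nat_lit 9009287797) (nat_lit 532) (nat_lit 2803181134) (nat_lit 608) (nat_lit 172697326) (nat_lit 200) (nat_lit 5) (nat_lit 207) (nat_lit 5) (nat_lit 208) (nat_lit 5) (nat_lit 461) (nat_lit 395) (nat_lit 284))))))) (XT.nd (nat_lit 780) (nat_lit 2660) (nat_lit 0) (XT.nd (nat_lit 390) (nat_lit 1520) (nat_lit 0) (XT.nd (nat_lit 156) (nat_lit 1064) (nat_lit 0) (XT.nd (nat_lit 78) (nat_lit 0) (nat_lit 0) (XT.lf (nat_lit 0) (nat_lit 2367910267) (nat_lit 608) (nat_lit 8231774443) (nat_lit 76) (nat_lit 1523013291) (nat_lit 192) (nat_lit 5) (nat_lit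 200) (nat_lit 5) (nat_lit 193) (nat_lit 5) (nat_lit 462) (nat_lit 395) (nat_lit 283)) (XT.lf (nat_lit 0) (nat_lit 4977209173) (nat_lit 608) (nat_lit 1371299763) (nat_lit 76) (nat_lit 5914051781) (nat_lit 192) (nat_lit 5) (nat_lit 200) (nat_lit 5) (nat_lit 193) (nat_lit 5) (nat_lit 463) (nat_lit 395) (nat_lit 282))) (XT.nd (nat_lit 78) (nat_lit 532) (nat_lit 0) (XT.lf (nat_lit 0) (nat_lit 5677036669) (nat_lit 532) (nat_lit 1980402104) (nat_lit 608) (nat_lit 4747413882) (nat_lit 185) (nat_lit 5) (nat_lit 192) (nat_lit 5) (nat_lit 193) (nat_lit 5) (nat_lit 464) (nat_lit 395) (nat_lit 281)) (XT.nd (nat_lit 78) (nat_lit 76) (nat_lit 0) (XT.lf (nat_lit 0) (nat_lit 298937421) (nat_lit 456) (nat_lit 10101659359) (nat_lit 532) (nat_lit 2149213900) (nat_lit 179) (nat_lit 5) (nat_lit 185) (nat_lit 5) (nat_lit 186) (nat_lit 5) (nat_lit 465) (nat_lit 395) (nat_lit 280)) (XT.lf (nat_lit 0) (nat_lit 535064757) (nat_lit 532)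 (nat_lit 5180069008) (nat_lit 76) (nat_lit 6981661823) (nat_lit 178) (nat_lit 5) (nat_lit 185) (nat_lit 5) (nat_lit 179) (nat_lit 5) (nat_lit 466) (nat_lit 395) (nat_lit 279))))) (XT.nd (nat_lit 156) (nat_lit 988) (nat_lit 0) (XT.nd (nat_lit 78) (nat_lit 0) (nat_lit 0) (XT.lf (nat_lit 0) (nat_lit 2020832922) (nat_lit 532) (nat_lit 1219039411) (nat_lit 608) (nat_lit 9606657648) (nat_lit 171) (nat_lit 5) (nat_lit 178) (nat_lit 5) (nat_lit 179) (nat_lit 5) (nat_lit 467) (nat_lit 395) (nat_lit 278)) (XT.lf (nat_lit 0) (nat_lit 6038253640) (nat_lit 608) (nat_lit 3608431511) (nat_lit 76) (nat_lit 3351790574) (nat_lit 171) (nat_lit 5) (nat_lit 179) (nat_lit 5) (nat_lit 172) (nat_lit 5) (nat_lit 468) (nat_lit 395) (nat_lit 277))) (XT.nd (nat_lit 78) (nat_lit 532) (nat_lit 0) (XT.lf (nat_lit 0) (nat_lit 3771286051) (nat_lit 456) (nat_lit 5136841728) (nat_lit 532) (nat_lit 4245028193) (nat_lit 165) (nat_lit 5) (nat_lit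 171) (nat_lit 5) (nat_lit 172) (nat_lit 5) (nat_lit 469) (nat_lit 395) (nat_lit 276)) (XT.nd (nat_lit 78) (nat_lit 532) (nat_lit 0) (XT.lf (nat_lit 0) (nat_lit 11324383088) (nat_lit 456) (nat_lit 518381026) (nat_lit 532) (nat_lit 1468024390) (nat_lit 165) (nat_lit 5) (nat_lit 171) (nat_lit 5) (nat_lit 172) (nat_lit 5) (nat_lit 470) (nat_lit 395) (nat_lit 275)) (XT.lf (nat_lit 0) (nat_lit 1393817936) (nat_lit 532) (nat_lit 7899852115) (nat_lit 76) (nat_lit 4176788301) (nat_lit 158) (nat_lit 5) (nat_lit 165) (nat_lit 5) (nat_lit 159) (nat_lit 5) (nat_lit 471) (nat_lit 395) (nat_lit 274)))))) (XT.nd (nat_lit 390) (nat_lit 1292) (nat_lit 0) (XT.nd (nat_lit 156) (nat_lit 912) (nat_lit 0) (XT.nd (nat_lit 78) (nat_lit 456) (nat_lit 0) (XT.lf (nat_lit 0) (nat_lit 4293612757) (nat_lit 532) (nat_lit 363658552) (nat_lit 76) (nat_lit 8975854394) (nat_lit 158) (nat_lit 5) (nat_lit 165) (nat_lit 5) (nat_lit 159) (nat_lit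 5) (nat_lit 472) (nat_lit 395) (nat_lit 273)) (XT.lf (nat_lit 0) (nat_lit 7284003613) (nat_lit 532) (nat_lit 6401469613) (nat_lit 76) (nat_lit 112926691) (nat_lit 152) (nat_lit 5) (nat_lit 159) (nat_lit 5) (nat_lit 153) (nat_lit 5) (nat_lit 473) (nat_lit 395) (nat_lit 272))) (XT.nd (nat_lit 78) (nat_lit 456) (nat_lit 0) (XT.lf (nat_lit 0) (nat_lit 1314381168) (nat_lit 456) (nat_lit 9045610390) (nat_lit 532) (nat_lit 3606477683) (nat_lit 146) (nat_lit 5) (nat_lit 152) (nat_lit 5) (nat_lit 153) (nat_lit 5) (nat_lit 474) (nat_lit 395) (nat_lit 271)) (XT.nd (nat_lit 78) (nat_lit 456) (nat_lit 0) (XT.lf (nat_lit 0) (nat_lit 9248744318) (nat_lit 456) (nat_lit 4275836248) (nat_lit 532) (nat_lit 612783063) (nat_lit 146) (nat_lit 5) (nat_lit 152) (nat_lit 5) (nat_lit 153) (nat_lit 5) (nat_lit 475) (nat_lit 395) (nat_lit 270)) (XT.lf (nat_lit 0) (nat_lit 2416803269) (nat_lit 456) (nat_lit 11283618363) (nat_lit 76) (nat_lit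 610781844) (nat_lit 140) (nat_lit 5) (nat_lit 146) (nat_lit 5) (nat_lit 141) (nat_lit 5) (nat_lit 476) (nat_lit 395) (nat_lit 269))))) (XT.nd (nat_lit 234) (nat_lit 836) (nat_lit 0) (XT.nd (nat_lit 78) (nat_lit 456) (nat_lit 0) (XT.lf (nat_lit 0) (nat_lit 5544569960) (nat_lit 456) (nat_lit 3374549713) (nat_lit 76) (nat_lit 5568408558) (nat_lit 140) (nat_lit 5) (nat_lit 146) (nat_lit 5) (nat_lit 141) (nat_lit 5) (nat_lit 477) (nat_lit 395) (nat_lit 268)) (XT.nd (nat_lit 78) (nat_lit 0) (nat_lit 0) (XT.lf (nat_lit 0) (nat_lit 4732738045) (nat_lit 456) (nat_lit 4017633846) (nat_lit 532) (nat_lit 5916702894) (nat_lit 134) (nat_lit 5) (nat_lit 140) (nat_lit 5) (nat_lit 141) (nat_lit 5) (nat_lit 478) (nat_lit 395) (nat_lit 267)) (XT.lf (nat_lit 0) (nat_lit 12034324436) (nat_lit 532) (nat_lit 1830520416) (nat_lit 76) (nat_lit 985091531) (nat_lit 134) (nat_lit 5) (nat_lit 141) (nat_lit 5) (nat_lit 135) (nat_lit 5) (nat_lit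 479) (nat_lit 395) (nat_lit 266)))) (XT.nd (nat_lit 78) (nat_lit 380) (nat_lit 0) (XT.lf (nat_lit 0) (nat_lit 397083102) (nat_lit 456) (nat_lit 8566066832) (nat_lit 76) (nat_lit 6072181974) (nat_lit 128) (nat_lit 5) (nat_lit 134) (nat_lit 5) (nat_lit 129) (nat_lit 5) (nat_lit 480) (nat_lit 395) (nat_lit 265)) (XT.nd (nat_lit 78) (nat_lit 380) (nat_lit 0) (XT.lf (nat_lit 0) (nat_lit 3633941763) (nat_lit 456) (nat_lit 304832390) (nat_lit 76) (nat_lit 11285341280) (nat_lit 128) (nat_lit 5) (nat_lit 134) (nat_lit 5) (nat_lit 129) (nat_lit 5) (nat_lit 481) (nat_lit 395) (nat_lit 264)) (XT.lf (nat_lit 0) (nat_lit 6982338647) (nat_lit 456) (nat_lit 7215984834) (nat_lit 76) (nat_lit 1217419565) (nat_lit 123) (nat_lit 5) (nat_lit 129) (nat_lit 5) (nat_lit 124) (nat_lit 5) (nat_lit 482) (nat_lit 395) (nat_lit 263))))))))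
noncomputable def xc140 : XT := (XT.nd (nat_lit 52572) (nat_lit 0) (nat_lit 33592) (XT.nd (nat_lit 780) (nat_lit 1824) (nat_lit 0) (XT.nd (nat_lit 390) (nat_lit 760) (nat_lit 0) (XT.nd (nat_lit 156) (nat_lit 760) (nat_lit 0) (XT.nd (nat_lit 78) (nat_lit 0) (nat_lit 0) (XT.lf (nat_lit 0) (nat_lit 1236069625) (nat_lit 380) (nat_lit 9183405470) (nat_lit 456) (nat_lit 5191297034) (nat_lit 118) (nat_lit 5) (nat_lit 123) (nat_lit 5) (nat_lit 124) (nat_lit 5) (nat_lit 483) (nat_lit 395) (nat_lit 262)) (XT.lf (nat_lit 0) (nat_lit 9933666973) (nat_lit 380) (nat_lit 4025856796) (nat_lit 456) (nat_lit 1849498900) (nat_lit 118) (nat_lit 5) (nat_lit 123) (nat_lit 5) (nat_lit 124) (nat_lit 5) (nat_lit 484) (nat_lit 395) (nat_lit 261))) (XT.nd (nat_lit 78) (nat_lit 304) (nat_lit 0) (XT.lf (nat_lit 0) (nat_lit 1550951503) (nat_lit 456) (nat_lit 13219632152) (nat_lit 76) (nat_lit 1240210915) (nat_lit 112) (nat_lit 5) (nat_lit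 118) (nat_lit 5) (nat_lit 113) (nat_lit 5) (nat_lit 485) (nat_lit 395) (nat_lit 260)) (XT.nd (nat_lit 78) (nat_lit 304) (nat_lit 0) (XT.lf (nat_lit 0) (nat_lit 5047042000) (nat_lit 456) (nat_lit 4565515557) (nat_lit 76) (nat_lit 6602755949) (nat_lit 112) (nat_lit 5) (nat_lit 118) (nat_lit 5) (nat_lit 113) (nat_lit 5) (nat_lit 486) (nat_lit 395) (nat_lit 259)) (XT.lf (nat_lit 0) (nat_lit 4297273941) (nat_lit 304) (nat_lit 4329978756) (nat_lit 380) (nat_lit 7796390098) (nat_lit 108) (nat_lit 5) (nat_lit 112) (nat_lit 5) (nat_lit 113) (nat_lit 5) (nat_lit 487) (nat_lit 395) (nat_lit 258))))) (XT.nd (nat_lit 156) (nat_lit 380) (nat_lit 0) (XT.nd (nat_lit 78) (nat_lit 380) (nat_lit 0) (XT.lf (nat_lit 0) (nat_lit 12303164871) (nat_lit 380) (nat_lit 3264255359) (nat_lit 76) (nat_lit 1068240358) (nat_lit 108) (nat_lit 5) (nat_lit 113) (nat_lit 5) (nat_lit 109) (nat_lit 5) (nat_lit 488) (nat_lit 395) (nat_lit 257)) (XT.lf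 (nat_lit 0) (nat_lit 5802067603) (nat_lit 380) (nat_lit 10303527328) (nat_lit 456) (nat_lit 745267603) (nat_lit 103) (nat_lit 5) (nat_lit 108) (nat_lit 5) (nat_lit 109) (nat_lit 5) (nat_lit 489) (nat_lit 395) (nat_lit 256))) (XT.nd (nat_lit 78) (nat_lit 304) (nat_lit 0) (XT.lf (nat_lit 0) (nat_lit 2884233246) (nat_lit 456) (nat_lit 2015526872) (nat_lit 76) (nat_lit 12170058846) (nat_lit 102) (nat_lit 5) (nat_lit 108) (nat_lit 5) (nat_lit 103) (nat_lit 5) (nat_lit 490) (nat_lit 395) (nat_lit 255)) (XT.nd (nat_lit 78) (nat_lit 0) (nat_lit 0) (XT.lf (nat_lit 0) (nat_lit 6614774002) (nat_lit 380) (nat_lit 10027945203) (nat_lit 76) (nat_lit 649571784) (nat_lit 98) (nat_lit 5) (nat_lit 103) (nat_lit 5) (nat_lit 99) (nat_lit 5) (nat_lit 491) (nat_lit 395) (nat_lit 254)) (XT.lf (nat_lit 0) (nat_lit 10453022546) (nat_lit 380) (nat_lit 814523952) (nat_lit 76) (nat_lit 6251007516) (nat_lit 98) (nat_lit 5) (nat_lit 103)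 (nat_lit 5) (nat_lit 99) (nat_lit 5) (nat_lit 492) (nat_lit 395) (nat_lit 253)))))) (XT.nd (nat_lit 390) (nat_lit 836) (nat_lit 0) (XT.nd (nat_lit 156) (nat_lit 304) (nat_lit 0) (XT.nd (nat_lit 78) (nat_lit 380) (nat_lit 0) (XT.lf (nat_lit 0) (nat_lit 8677183660) (nat_lit 304) (nat_lit 5734478094) (nat_lit 380) (nat_lit 3336811463) (nat_lit 94) (nat_lit 5) (nat_lit 98) (nat_lit 5) (nat_lit 99) (nat_lit 5) (nat_lit 493) (nat_lit 395) (nat_lit 252)) (XT.lf (nat_lit 0) (nat_lit 368830895) (nat_lit 304) (nat_lit 86753424) (nat_lit 380) (nat_lit 17527444820) (nat_lit 89) (nat_lit 5) (nat_lit 93) (nat_lit 5) (nat_lit 94) (nat_lit 5) (nat_lit 494) (nat_lit 395) (nat_lit 251))) (XT.nd (nat_lit 78) (nat_lit 304) (nat_lit 0) (XT.lf (nat_lit 0) (nat_lit 4364701981) (nat_lit 380) (nat_lit 8179585428) (nat_lit 76) (nat_lit 5675839800) (nat_lit 89) (nat_lit 5) (nat_lit 94) (nat_lit 5) (nat_lit 90) (nat_lit 5) (nat_lit 495)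 (nat_lit 395) (nat_lit 250)) (XT.nd (nat_lit 78) (nat_lit 0) (nat_lit 0) (XT.lf (nat_lit 0) (nat_lit 1442550631) (nat_lit 304) (nat_lit 6907035955) (nat_lit 380) (nat_lit 10112432132) (nat_lit 85) (nat_lit 5) (nat_lit 89) (nat_lit 5) (nat_lit 90) (nat_lit 5) (nat_lit 496) (nat_lit 395) (nat_lit 249)) (XT.lf (nat_lit 0) (nat_lit 11348620428) (nat_lit 304) (nat_lit 1108198261) (nat_lit 380) (nat_lit 6251079480) (nat_lit 85) (nat_lit 5) (nat_lit 89) (nat_lit 5) (nat_lit 90) (nat_lit 5) (nat_lit 497) (nat_lit 395) (nat_lit 248))))) (XT.nd (nat_lit 156) (nat_lit 532) (nat_lit 0) (XT.nd (nat_lit 78) (nat_lit 76) (nat_lit 0) (XT.lf (nat_lit 0) (nat_lit 2476181372) (nat_lit 228) (nat_lit 14205253798) (nat_lit 304) (nat_lit 2276558290) (nat_lit 82) (nat_lit 5) (nat_lit 85) (nat_lit 5) (nat_lit 86) (nat_lit 5) (nat_lit 498) (nat_lit 395) (nat_lit 247)) (XT.lf (nat_lit 0) (nat_lit 1799177774) (nat_lit 304) (nat_lit 6642441993)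 (nat_lit 76) (nat_lit 10770342290) (nat_lit 81) (nat_lit 5) (nat_lit 85) (nat_lit 5) (nat_lit 82) (nat_lit 5) (nat_lit 499) (nat_lit 395) (nat_lit 246))) (XT.nd (nat_lit 78) (nat_lit 228) (nat_lit 0) (XT.lf (nat_lit 0) (nat_lit 3404426742) (nat_lit 304) (nat_lit 2531871908) (nat_lit 380) (nat_lit 13534206222) (nat_lit 77) (nat_lit 5) (nat_lit 81) (nat_lit 5) (nat_lit 82) (nat_lit 5) (nat_lit 500) (nat_lit 395) (nat_lit 245)) (XT.nd (nat_lit 78) (nat_lit 228) (nat_lit 0) (XT.lf (nat_lit 0) (nat_lit 10212014558) (nat_lit 380) (nat_lit 6032976275) (nat_lit 76) (nat_lit 3488113470) (nat_lit 77) (nat_lit 5) (nat_lit 82) (nat_lit 5) (nat_lit 78) (nat_lit 5) (nat_lit 501) (nat_lit 395) (nat_lit 244)) (XT.lf (nat_lit 0) (nat_lit 4220820091) (nat_lit 228) (nat_lit 10385110467) (nat_lit 304) (nat_lit 5394374210) (nat_lit 74) (nat_lit 5) (nat_lit 77) (nat_lit 5) (nat_lit 78) (nat_lit 5) (nat_lit 502) (nat_lit 395) (nat_lit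 243))))))) (XT.nd (nat_lit 780) (nat_lit 2356) (nat_lit 0) (XT.nd (nat_lit 390) (nat_lit 2052) (nat_lit 0) (XT.nd (nat_lit 156) (nat_lit 0) (nat_lit 0) (XT.nd (nat_lit 78) (nat_lit 988) (nat_lit 0) (XT.lf (nat_lit 0) (nat_lit 2687447370) (nat_lit 988) (nat_lit 390557874) (nat_lit 988) (nat_lit 390557874) (nat_lit 587) (nat_lit 3) (nat_lit 600) (nat_lit 3) (nat_lit 600) (nat_lit 5) (nat_lit 396) (nat_lit 396) (nat_lit 348)) (XT.lf (nat_lit 0) (nat_lit 287718302) (nat_lit 988) (nat_lit 4426830734) (nat_lit 1064) (nat_lit 2254005452) (nat_lit 574) (nat_lit 5) (nat_lit 587) (nat_lit 3) (nat_lit 588) (nat_lit 5) (nat_lit 397) (nat_lit 396) (nat_lit 347))) (XT.nd (nat_lit 78) (nat_lit 0) (nat_lit 0) (XT.lf (nat_lit 0) (nat_lit 2110928124) (nat_lit 988) (nat_lit 1094570469) (nat_lit 1064) (nat_lit 3795795393) (nat_lit 574) (nat_lit 5) (nat_lit 587) (nat_lit 3) (nat_lit 588) (nat_lit 5) (nat_lit 398) (nat_lit 396) (nat_lit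 346)) (XT.nd (nat_lit 78) (nat_lit 0) (nat_lit 76) (XT.lf (nat_lit 76) (nat_lit 2309833131) (nat_lit 0) (nat_lit 1628592785) (nat_lit 1064) (nat_lit 3096938037) (nat_lit 575) (nat_lit 5) (nat_lit 574) (nat_lit 5) (nat_lit 588) (nat_lit 5) (nat_lit 399) (nat_lit 396) (nat_lit 345)) (XT.lf (nat_lit 0) (nat_lit 5763469852) (nat_lit 988) (nat_lit 1298457928) (nat_lit 1064) (nat_lit 8999138) (nat_lit 575) (nat_lit 5) (nat_lit 588) (nat_lit 5) (nat_lit 589) (nat_lit 5) (nat_lit 400) (nat_lit 396) (nat_lit 344))))) (XT.nd (nat_lit 156) (nat_lit 1064) (nat_lit 0) (XT.nd (nat_lit 78) (nat_lit 0) (nat_lit 0) (XT.lf (nat_lit 0) (nat_lit 490500827) (nat_lit 1064) (nat_lit 4921003775) (nat_lit 1140) (nat_lit 1696070030) (nat_lit 561) (nat_lit 5) (nat_lit 575) (nat_lit 5) (nat_lit 576) (nat_lit 5) (nat_lit 401) (nat_lit 396) (nat_lit 343)) (XT.lf (nat_lit 0) (nat_lit 2270740040) (nat_lit 1064) (nat_lit 1420286533) (nat_lit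 1140) (nat_lit 3454509006) (nat_lit 561) (nat_lit 5) (nat_lit 575) (nat_lit 5) (nat_lit 576) (nat_lit 5) (nat_lit 402) (nat_lit 396) (nat_lit 342))) (XT.nd (nat_lit 78) (nat_lit 1064) (nat_lit 0) (XT.lf (nat_lit 76) (nat_lit 2153502050) (nat_lit 0) (nat_lit 1902987091) (nat_lit 1140) (nat_lit 3128397624) (nat_lit 562) (nat_lit 5) (nat_lit 561) (nat_lit 5) (nat_lit 576) (nat_lit 5) (nat_lit 403) (nat_lit 396) (nat_lit 341)) (XT.nd (nat_lit 78) (nat_lit 1064) (nat_lit 0) (XT.lf (nat_lit 76) (nat_lit 5792997897) (nat_lit 0) (nat_lit 51111140) (nat_lit 1140) (nat_lit 1381621374) (nat_lit 562) (nat_lit 5) (nat_lit 561) (nat_lit 5) (nat_lit 576) (nat_lit 5) (nat_lit 404) (nat_lit 396) (nat_lit 340)) (XT.lf (nat_lit 0) (nat_lit 378710606) (nat_lit 1140) (nat_lit 5040552872) (nat_lit 1216) (nat_lit 1848425591) (nat_lit 547) (nat_lit 5) (nat_lit 562) (nat_lit 5) (nat_lit 563) (nat_lit 5) (nat_lit 405) (nat_lit 396) (nat_lit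 339)))))) (XT.nd (nat_lit 390) (nat_lit 1216) (nat_lit 0) (XT.nd (nat_lit 156) (nat_lit 1140) (nat_lit 0) (XT.nd (nat_lit 78) (nat_lit 0) (nat_lit 0) (XT.lf (nat_lit 0) (nat_lit 2123738791) (nat_lit 1140) (nat_lit 1366166526) (nat_lit 1216) (nat_lit 3821066049) (nat_lit 547) (nat_lit 5) (nat_lit 562) (nat_lit 5) (nat_lit 563) (nat_lit 5) (nat_lit 406) (nat_lit 396) (nat_lit 338)) (XT.lf (nat_lit 76) (nat_lit 2387586569) (nat_lit 0) (nat_lit 1490362803) (nat_lit 1216) (nat_lit 3477710678) (nat_lit 548) (nat_lit 5) (nat_lit 547) (nat_lit 5) (nat_lit 563) (nat_lit 5) (nat_lit 407) (nat_lit 396) (nat_lit 337))) (XT.nd (nat_lit 78) (nat_lit 1216) (nat_lit 0) (XT.lf (nat_lit 0) (nat_lit 5639561766) (nat_lit 1140) (nat_lit 1195956013) (nat_lit 1216) (nat_lit 566304236) (nat_lit 548) (nat_lit 5) (nat_lit 563) (nat_lit 5) (nat_lit 564) (nat_lit 5) (nat_lit 408) (nat_lit 396) (nat_lit 336)) (XT.nd (nat_lit 78) (nat_lit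 1216) (nat_lit 0) (XT.lf (nat_lit 76) (nat_lit 2650809459) (nat_lit 0) (nat_lit 4772994981) (nat_lit 1216) (nat_lit 25380173) (nat_lit 549) (nat_lit 5) (nat_lit 548) (nat_lit 5) (nat_lit 564) (nat_lit 5) (nat_lit 409) (nat_lit 396) (nat_lit 335)) (XT.lf (nat_lit 0) (nat_lit 1692060314) (nat_lit 1216) (nat_lit 944071672) (nat_lit 1292) (nat_lit 4861785589) (nat_lit 532) (nat_lit 5) (nat_lit 548) (nat_lit 5) (nat_lit 549) (nat_lit 5) (nat_lit 410) (nat_lit 396) (nat_lit 334))))) (XT.nd (nat_lit 234) (nat_lit 1216) (nat_lit 0) (XT.nd (nat_lit 78) (nat_lit 0) (nat_lit 76) (XT.lf (nat_lit 76) (nat_lit 3000950373) (nat_lit 0) (nat_lit 423461899) (nat_lit 1292) (nat_lit 4123615408) (nat_lit 533) (nat_lit 5) (nat_lit 532) (nat_lit 5) (nat_lit 549) (nat_lit 5) (nat_lit 411) (nat_lit 396) (nat_lit 333)) (XT.nd (nat_lit 78) (nat_lit 0) (nat_lit 0) (XT.lf (nat_lit 0) (nat_lit 5171783997) (nat_lit 1216) (nat_lit 599543621)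 (nat_lit 1292) (nat_lit 1828228340) (nat_lit 533) (nat_lit 5) (nat_lit 549) (nat_lit 5) (nat_lit 550) (nat_lit 5) (nat_lit 412) (nat_lit 396) (nat_lit 332)) (XT.lf (nat_lit 76) (nat_lit 3443559721) (nat_lit 0) (nat_lit 3498540499) (nat_lit 1292) (nat_lit 710277601) (nat_lit 534) (nat_lit 5) (nat_lit 533) (nat_lit 5) (nat_lit 550) (nat_lit 5) (nat_lit 413) (nat_lit 396) (nat_lit 331)))) (XT.nd (nat_lit 78) (nat_lit 0) (nat_lit 76) (XT.lf (nat_lit 0) (nat_lit 995089108) (nat_lit 1292) (nat_lit 163394959) (nat_lit 1368) (nat_lit 6548315220) (nat_lit 516) (nat_lit 5) (nat_lit 533) (nat_lit 5) (nat_lit 534) (nat_lit 5) (nat_lit 414) (nat_lit 396) (nat_lit 330)) (XT.nd (nat_lit 78) (nat_lit 0) (nat_lit 0) (XT.lf (nat_lit 0) (nat_lit 2723036546) (nat_lit 1292) (nat_lit 3785763705) (nat_lit 1368) (nat_lit 1253476991) (nat_lit 517) (nat_lit 5) (nat_lit 534) (nat_lit 5) (nat_lit 535) (nat_lit 5) (nat_lit 415) (nat_lit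 396) (nat_lit 329)) (XT.lf (nat_lit 76) (nat_lit 353345076) (nat_lit 0) (nat_lit 4107733590) (nat_lit 1368) (nat_lit 3358296589) (nat_lit 518) (nat_lit 5) (nat_lit 517) (nat_lit 5) (nat_lit 535) (nat_lit 5) (nat_lit 416) (nat_lit 396) (nat_lit 328))))))))
noncomputable def xc141 : XT := (XT.nd (nat_lit 1638) (nat_lit 8588) (nat_lit 0) (XT.nd (nat_lit 780) (nat_lit 7144) (nat_lit 0) (XT.nd (nat_lit 390) (nat_lit 4636) (nat_lit 0) (XT.nd (nat_lit 156) (nat_lit 1368) (nat_lit 0) (XT.nd (nat_lit 78) (nat_lit 1292) (nat_lit 0) (XT.lf (nat_lit 76) (nat_lit 4600523432) (nat_lit 0) (nat_lit 1623756187) (nat_lit 1368) (nat_lit 1653548448) (nat_lit 518) (nat_lit 5) (nat_lit 517) (nat_lit 5) (nat_lit 535) (nat_lit 5) (nat_lit 417) (nat_lit 396) (nat_lit 327)) (XT.lf (nat_lit 0) (nat_lit 61990353) (nat_lit 1368) (nat_lit 6962516160) (nat_lit 76) (nat_lit 913396049) (nat_lit 500) (nat_lit 5) (nat_lit 518) (nat_lit 5) (nat_lit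 501) (nat_lit 5) (nat_lit 418) (nat_lit 396) (nat_lit 326))) (XT.nd (nat_lit 78) (nat_lit 1368) (nat_lit 0) (XT.lf (nat_lit 0) (nat_lit 1788607105) (nat_lit 1368) (nat_lit 2689614111) (nat_lit 76) (nat_lit 3520780168) (nat_lit 500) (nat_lit 5) (nat_lit 518) (nat_lit 5) (nat_lit 501) (nat_lit 5) (nat_lit 419) (nat_lit 396) (nat_lit 325)) (XT.nd (nat_lit 78) (nat_lit 0) (nat_lit 0) (XT.lf (nat_lit 0) (nat_lit 1664515865) (nat_lit 1368) (nat_lit 1862710266) (nat_lit 1444) (nat_lit 4534565867) (nat_lit 482) (nat_lit 5) (nat_lit 500) (nat_lit 5) (nat_lit 501) (nat_lit 5) (nat_lit 420) (nat_lit 396) (nat_lit 324)) (XT.lf (nat_lit 0) (nat_lit 5291206691) (nat_lit 1444) (nat_lit 2015247588) (nat_lit 76) (nat_lit 819591199) (nat_lit 482) (nat_lit 5) (nat_lit 501) (nat_lit 5) (nat_lit 483) (nat_lit 5) (nat_lit 421) (nat_lit 396) (nat_lit 323))))) (XT.nd (nat_lit 156) (nat_lit 3116) (nat_lit 0) (XT.nd (nat_lit 78) (nat_lit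 76) (nat_lit 0) (XT.lf (nat_lit 0) (nat_lit 2448104634) (nat_lit 1444) (nat_lit 4638429624) (nat_lit 1520) (nat_lit 1105146891) (nat_lit 463) (nat_lit 5) (nat_lit 482) (nat_lit 5) (nat_lit 483) (nat_lit 5) (nat_lit 422) (nat_lit 396) (nat_lit 322)) (XT.lf (nat_lit 0) (nat_lit 632178471) (nat_lit 1520) (nat_lit 1261045904) (nat_lit 76) (nat_lit 6365703630) (nat_lit 462) (nat_lit 5) (nat_lit 482) (nat_lit 5) (nat_lit 463) (nat_lit 5) (nat_lit 423) (nat_lit 396) (nat_lit 321))) (XT.nd (nat_lit 78) (nat_lit 1596) (nat_lit 0) (XT.lf (nat_lit 0) (nat_lit 2385844192) (nat_lit 1596) (nat_lit 5012163371) (nat_lit 76) (nat_lit 929455703) (nat_lit 442) (nat_lit 5) (nat_lit 463) (nat_lit 5) (nat_lit 443) (nat_lit 5) (nat_lit 424) (nat_lit 396) (nat_lit 320)) (XT.nd (nat_lit 78) (nat_lit 1596) (nat_lit 0) (XT.lf (nat_lit 0) (nat_lit 4164817682) (nat_lit 1596) (nat_lit 435867317) (nat_lit 76) (nat_lit 3796896607) (nat_lit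 442) (nat_lit 5) (nat_lit 463) (nat_lit 5) (nat_lit 443) (nat_lit 5) (nat_lit 425) (nat_lit 396) (nat_lit 319)) (XT.lf (nat_lit 0) (nat_lit 4262028597) (nat_lit 1596) (nat_lit 1714796531) (nat_lit 1672) (nat_lit 2492344820) (nat_lit 421) (nat_lit 5) (nat_lit 442) (nat_lit 5) (nat_lit 443) (nat_lit 5) (nat_lit 426) (nat_lit 396) (nat_lit 318)))))) (XT.nd (nat_lit 390) (nat_lit 2660) (nat_lit 0) (XT.nd (nat_lit 156) (nat_lit 2736) (nat_lit 0) (XT.nd (nat_lit 78) (nat_lit 76) (nat_lit 0) (XT.lf (nat_lit 0) (nat_lit 489792728) (nat_lit 1672) (nat_lit 7319617950) (nat_lit 1748) (nat_lit 733109021) (nat_lit 399) (nat_lit 5) (nat_lit 421) (nat_lit 5) (nat_lit 422) (nat_lit 5) (nat_lit 427) (nat_lit 396) (nat_lit 317)) (XT.lf (nat_lit 0) (nat_lit 1057606742) (nat_lit 1748) (nat_lit 3324039549) (nat_lit 76) (nat_lit 4235363811) (nat_lit 398) (nat_lit 5) (nat_lit 421) (nat_lit 5) (nat_lit 399) (nat_lit 5) (nat_lit 428)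 (nat_lit 396) (nat_lit 316))) (XT.nd (nat_lit 78) (nat_lit 988) (nat_lit 0) (XT.lf (nat_lit 0) (nat_lit 1487872296) (nat_lit 1748) (nat_lit 1367136418) (nat_lit 1824) (nat_lit 5838286370) (nat_lit 375) (nat_lit 5) (nat_lit 398) (nat_lit 5) (nat_lit 399) (nat_lit 5) (nat_lit 429) (nat_lit 396) (nat_lit 315)) (XT.nd (nat_lit 78) (nat_lit 988) (nat_lit 0) (XT.lf (nat_lit 0) (nat_lit 4693336907) (nat_lit 1824) (nat_lit 2367255527) (nat_lit 76) (nat_lit 1710428919) (nat_lit 375) (nat_lit 5) (nat_lit 399) (nat_lit 5) (nat_lit 376) (nat_lit 5) (nat_lit 430) (nat_lit 396) (nat_lit 314)) (XT.lf (nat_lit 0) (nat_lit 2566356397) (nat_lit 988) (nat_lit 3999788811) (nat_lit 1064) (nat_lit 2284217521) (nat_lit 362) (nat_lit 5) (nat_lit 375) (nat_lit 5) (nat_lit 376) (nat_lit 5) (nat_lit 431) (nat_lit 396) (nat_lit 313))))) (XT.nd (nat_lit 234) (nat_lit 1672) (nat_lit 0) (XT.nd (nat_lit 78) (nat_lit 988) (nat_lit 0) (XT.lf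 (nat_lit 0) (nat_lit 7604976854) (nat_lit 988) (nat_lit 859697399) (nat_lit 1064) (nat_lit 466865951) (nat_lit 362) (nat_lit 5) (nat_lit 375) (nat_lit 5) (nat_lit 376) (nat_lit 5) (nat_lit 432) (nat_lit 396) (nat_lit 312)) (XT.nd (nat_lit 78) (nat_lit 0) (nat_lit 0) (XT.lf (nat_lit 0) (nat_lit 1381128068) (nat_lit 988) (nat_lit 5285169070) (nat_lit 76) (nat_lit 2347628322) (nat_lit 349) (nat_lit 5) (nat_lit 362) (nat_lit 5) (nat_lit 350) (nat_lit 5) (nat_lit 433) (nat_lit 396) (nat_lit 311)) (XT.lf (nat_lit 0) (nat_lit 3247596828) (nat_lit 988) (nat_lit 229476656) (nat_lit 76) (nat_lit 5621081616) (nat_lit 349) (nat_lit 5) (nat_lit 362) (nat_lit 5) (nat_lit 350) (nat_lit 5) (nat_lit 434) (nat_lit 396) (nat_lit 310)))) (XT.nd (nat_lit 78) (nat_lit 836) (nat_lit 0) (XT.lf (nat_lit 0) (nat_lit 4966965808) (nat_lit 836) (nat_lit 190311423) (nat_lit 912) (nat_lit 4026687911) (nat_lit 338) (nat_lit 5) (nat_lit 349)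 (nat_lit 5) (nat_lit 350) (nat_lit 5) (nat_lit 435) (nat_lit 396) (nat_lit 309)) (XT.nd (nat_lit 78) (nat_lit 0) (nat_lit 0) (XT.lf (nat_lit 0) (nat_lit 965228596) (nat_lit 836) (nat_lit 6142260958) (nat_lit 912) (nat_lit 2163968252) (nat_lit 327) (nat_lit 5) (nat_lit 338) (nat_lit 5) (nat_lit 339) (nat_lit 5) (nat_lit 436) (nat_lit 396) (nat_lit 308)) (XT.lf (nat_lit 0) (nat_lit 6281280274) (nat_lit 836) (nat_lit 2819309568) (nat_lit 912) (nat_lit 260045739) (nat_lit 327) (nat_lit 5) (nat_lit 338) (nat_lit 5) (nat_lit 339) (nat_lit 5) (nat_lit 437) (nat_lit 396) (nat_lit 307))))))) (XT.nd (nat_lit 780) (nat_lit 3952) (nat_lit 0) (XT.nd (nat_lit 390) (nat_lit 2280) (nat_lit 0) (XT.nd (nat_lit 156) (nat_lit 1520) (nat_lit 0) (XT.nd (nat_lit 78) (nat_lit 0) (nat_lit 0) (XT.lf (nat_lit 0) (nat_lit 1652998755) (nat_lit 836) (nat_lit 7210447003) (nat_lit 76) (nat_lit 588083120) (nat_lit 316) (nat_lit 5) (nat_lit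 327) (nat_lit 5) (nat_lit 317) (nat_lit 5) (nat_lit 438) (nat_lit 396) (nat_lit 306)) (XT.lf (nat_lit 0) (nat_lit 3615284431) (nat_lit 836) (nat_lit 1880580716) (nat_lit 76) (nat_lit 4048063455) (nat_lit 316) (nat_lit 5) (nat_lit 327) (nat_lit 5) (nat_lit 317) (nat_lit 5) (nat_lit 439) (nat_lit 396) (nat_lit 305))) (XT.nd (nat_lit 78) (nat_lit 760) (nat_lit 0) (XT.lf (nat_lit 0) (nat_lit 3577415759) (nat_lit 760) (nat_lit 2038104646) (nat_lit 836) (nat_lit 4022693771) (nat_lit 306) (nat_lit 5) (nat_lit 316) (nat_lit 5) (nat_lit 317) (nat_lit 5) (nat_lit 440) (nat_lit 396) (nat_lit 304)) (XT.nd (nat_lit 78) (nat_lit 760) (nat_lit 0) (XT.lf (nat_lit 0) (nat_lit 7653918853) (nat_lit 836) (nat_lit 599526876) (nat_lit 76) (nat_lit 1480988288) (nat_lit 306) (nat_lit 5) (nat_lit 317) (nat_lit 5) (nat_lit 307) (nat_lit 5) (nat_lit 441) (nat_lit 396) (nat_lit 303)) (XT.lf (nat_lit 0) (nat_lit 4997816231) (nat_lit 760)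 (nat_lit 4757478445) (nat_lit 836) (nat_lit 76850873) (nat_lit 296) (nat_lit 5) (nat_lit 306) (nat_lit 5) (nat_lit 307) (nat_lit 5) (nat_lit 442) (nat_lit 396) (nat_lit 302))))) (XT.nd (nat_lit 156) (nat_lit 1444) (nat_lit 0) (XT.nd (nat_lit 78) (nat_lit 0) (nat_lit 0) (XT.lf (nat_lit 0) (nat_lit 755247725) (nat_lit 760) (nat_lit 1171195712) (nat_lit 836) (nat_lit 8005416448) (nat_lit 285) (nat_lit 5) (nat_lit 295) (nat_lit 5) (nat_lit 296) (nat_lit 5) (nat_lit 443) (nat_lit 396) (nat_lit 301)) (XT.lf (nat_lit 0) (nat_lit 3994263660) (nat_lit 836) (nat_lit 3553302888) (nat_lit 76) (nat_lit 2485492839) (nat_lit 285) (nat_lit 5) (nat_lit 296) (nat_lit 5) (nat_lit 286) (nat_lit 5) (nat_lit 444) (nat_lit 396) (nat_lit 300))) (XT.nd (nat_lit 78) (nat_lit 760) (nat_lit 0) (XT.lf (nat_lit 0) (nat_lit 2178125667) (nat_lit 684) (nat_lit 3924356174) (nat_lit 760) (nat_lit 4033830815) (nat_lit 276) (nat_lit 5) (nat_lit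 285) (nat_lit 5) (nat_lit 286) (nat_lit 5) (nat_lit 445) (nat_lit 396) (nat_lit 299)) (XT.nd (nat_lit 78) (nat_lit 760) (nat_lit 0) (XT.lf (nat_lit 0) (nat_lit 8047357110) (nat_lit 684) (nat_lit 206781168) (nat_lit 760) (nat_lit 1987477634) (nat_lit 276) (nat_lit 5) (nat_lit 285) (nat_lit 5) (nat_lit 286) (nat_lit 5) (nat_lit 446) (nat_lit 396) (nat_lit 298)) (XT.lf (nat_lit 0) (nat_lit 123709095) (nat_lit 760) (nat_lit 6664286012) (nat_lit 76) (nat_lit 3560522853) (nat_lit 266) (nat_lit 5) (nat_lit 276) (nat_lit 5) (nat_lit 267) (nat_lit 5) (nat_lit 447) (nat_lit 396) (nat_lit 297)))))) (XT.nd (nat_lit 390) (nat_lit 1900) (nat_lit 0) (XT.nd (nat_lit 156) (nat_lit 1368) (nat_lit 0) (XT.nd (nat_lit 78) (nat_lit 684) (nat_lit 0) (XT.lf (nat_lit 0) (nat_lit 2244698809) (nat_lit 760) (nat_lit 786933698) (nat_lit 76) (nat_lit 7425788767) (nat_lit 266) (nat_lit 5) (nat_lit 276) (nat_lit 5) (nat_lit 267) (nat_lit 5)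 (nat_lit 448) (nat_lit 396) (nat_lit 296)) (XT.lf (nat_lit 0) (nat_lit 4426016113) (nat_lit 760) (nat_lit 5321397323) (nat_lit 76) (nat_lit 820740670) (nat_lit 257) (nat_lit 5) (nat_lit 267) (nat_lit 5) (nat_lit 258) (nat_lit 5) (nat_lit 449) (nat_lit 396) (nat_lit 295))) (XT.nd (nat_lit 78) (nat_lit 684) (nat_lit 0) (XT.lf (nat_lit 0) (nat_lit 694954834) (nat_lit 684) (nat_lit 5964561502) (nat_lit 760) (nat_lit 4021423546) (nat_lit 248) (nat_lit 5) (nat_lit 257) (nat_lit 5) (nat_lit 258) (nat_lit 5) (nat_lit 450) (nat_lit 396) (nat_lit 294)) (XT.nd (nat_lit 78) (nat_lit 684) (nat_lit 0) (XT.lf (nat_lit 0) (nat_lit 6879090591) (nat_lit 684) (nat_lit 2073215446) (nat_lit 760) (nat_lit 1843392183) (nat_lit 248) (nat_lit 5) (nat_lit 257) (nat_lit 5) (nat_lit 258) (nat_lit 5) (nat_lit 451) (nat_lit 396) (nat_lit 293)) (XT.lf (nat_lit 0) (nat_lit 379602023) (nat_lit 684) (nat_lit 8648144387) (nat_lit 76) (nat_lit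 1884837831) (nat_lit 239) (nat_lit 5) (nat_lit 248) (nat_lit 5) (nat_lit 240) (nat_lit 5) (nat_lit 452) (nat_lit 396) (nat_lit 292))))) (XT.nd (nat_lit 234) (nat_lit 1292) (nat_lit 0) (XT.nd (nat_lit 78) (nat_lit 608) (nat_lit 0) (XT.lf (nat_lit 0) (nat_lit 2641986463) (nat_lit 684) (nat_lit 2459908162) (nat_lit 76) (nat_lit 5929286097) (nat_lit 239) (nat_lit 5) (nat_lit 248) (nat_lit 5) (nat_lit 240) (nat_lit 5) (nat_lit 453) (nat_lit 396) (nat_lit 291)) (XT.nd (nat_lit 78) (nat_lit 0) (nat_lit 0) (XT.lf (nat_lit 0) (nat_lit 3878734750) (nat_lit 608) (nat_lit 1075874846) (nat_lit 684) (nat_lit 6197448248) (nat_lit 231) (nat_lit 5) (nat_lit 239) (nat_lit 5) (nat_lit 240) (nat_lit 5) (nat_lit 454) (nat_lit 396) (nat_lit 290)) (XT.lf (nat_lit 0) (nat_lit 7329799495) (nat_lit 684) (nat_lit 941763184) (nat_lit 76) (nat_lit 3003471905) (nat_lit 231) (nat_lit 5) (nat_lit 240) (nat_lit 5) (nat_lit 232) (nat_lit 5)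 (nat_lit 455) (nat_lit 396) (nat_lit 289)))) (XT.nd (nat_lit 78) (nat_lit 684) (nat_lit 0) (XT.lf (nat_lit 0) (nat_lit 5558229876) (nat_lit 608) (nat_lit 4217888398) (nat_lit 684) (nat_lit 1623888285) (nat_lit 223) (nat_lit 5) (nat_lit 231) (nat_lit 5) (nat_lit 232) (nat_lit 5) (nat_lit 456) (nat_lit 396) (nat_lit 288)) (XT.nd (nat_lit 78) (nat_lit 0) (nat_lit 0) (XT.lf (nat_lit 0) (nat_lit 653253469) (nat_lit 608) (nat_lit 71984427) (nat_lit 684) (nat_lit 10802329191) (nat_lit 214) (nat_lit 5) (nat_lit 222) (nat_lit 5) (nat_lit 223) (nat_lit 5) (nat_lit 457) (nat_lit 396) (nat_lit 287)) (XT.lf (nat_lit 0) (nat_lit 3146775434) (nat_lit 684) (nat_lit 4361810463) (nat_lit 76) (nat_lit 4147942524) (nat_lit 214) (nat_lit 5) (nat_lit 223) (nat_lit 5) (nat_lit 215) (nat_lit 5) (nat_lit 458) (nat_lit 396) (nat_lit 286))))))))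
noncomputable def xc142 : XT := (XT.nd (nat_lit 1638) (nat_lit 4028) (nat_lit 0) (XT.nd (nat_lit 780) (nat_lit 2812) (nat_lit 0) (XT.nd (nat_lit 390) (nat_lit 1596) (nat_lit 0) (XT.nd (nat_lit 156) (nat_lit 1140) (nat_lit 0) (XT.nd (nat_lit 78) (nat_lit 0) (nat_lit 0) (XT.lf (nat_lit 0) (nat_lit 2286648067) (nat_lit 532) (nat_lit 3326499606) (nat_lit 608) (nat_lit 6175000804) (nat_lit 207) (nat_lit 5) (nat_lit 214) (nat_lit 5) (nat_lit 215) (nat_lit 5) (nat_lit 459) (nat_lit 396) (nat_lit 285)) (XT.lf (nat_lit 0) (nat_lit 8145675407) (nat_lit 608) (nat_lit 2824906681) (nat_lit 76) (nat_lit 951489713) (nat_lit 207) (nat_lit 5) (nat_lit 215) (nat_lit 5) (nat_lit 208) (nat_lit 5) (nat_lit 460) (nat_lit 396) (nat_lit 284))) (XT.nd (nat_lit 78) (nat_lit 608) (nat_lit 0) (XT.lf (nat_lit 0) (nat_lit 3992015251) (nat_lit 532) (nat_lit 6766420455) (nat_lit 608) (nat_lit 1299653526) (nat_lit 200) (nat_lit 5) (nat_lit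 207) (nat_lit 5) (nat_lit 208) (nat_lit 5) (nat_lit 461) (nat_lit 396) (nat_lit 283)) (XT.nd (nat_lit 78) (nat_lit 532) (nat_lit 0) (XT.lf (nat_lit 0) (nat_lit 1211333419) (nat_lit 608) (nat_lit 1244594576) (nat_lit 76) (nat_lit 9740730803) (nat_lit 199) (nat_lit 5) (nat_lit 207) (nat_lit 5) (nat_lit 200) (nat_lit 5) (nat_lit 462) (nat_lit 396) (nat_lit 282)) (XT.lf (nat_lit 0) (nat_lit 3787476952) (nat_lit 608) (nat_lit 6593266438) (nat_lit 76) (nat_lit 1956444628) (nat_lit 192) (nat_lit 5) (nat_lit 200) (nat_lit 5) (nat_lit 193) (nat_lit 5) (nat_lit 463) (nat_lit 396) (nat_lit 281))))) (XT.nd (nat_lit 156) (nat_lit 1064) (nat_lit 0) (XT.nd (nat_lit 78) (nat_lit 0) (nat_lit 0) (XT.lf (nat_lit 0) (nat_lit 373966619) (nat_lit 532) (nat_lit 6050517207) (nat_lit 608) (nat_lit 6055863914) (nat_lit 185) (nat_lit 5) (nat_lit 192) (nat_lit 5) (nat_lit 193) (nat_lit 5) (nat_lit 464) (nat_lit 396) (nat_lit 280)) (XT.lf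 (nat_lit 0) (nat_lit 7546734959) (nat_lit 532) (nat_lit 1594178680) (nat_lit 608) (nat_lit 3484929956) (nat_lit 185) (nat_lit 5) (nat_lit 192) (nat_lit 5) (nat_lit 193) (nat_lit 5) (nat_lit 465) (nat_lit 396) (nat_lit 279))) (XT.nd (nat_lit 78) (nat_lit 608) (nat_lit 0) (XT.lf (nat_lit 0) (nat_lit 2073701250) (nat_lit 456) (nat_lit 9853343427) (nat_lit 532) (nat_lit 846903704) (nat_lit 179) (nat_lit 5) (nat_lit 185) (nat_lit 5) (nat_lit 186) (nat_lit 5) (nat_lit 466) (nat_lit 396) (nat_lit 278)) (XT.nd (nat_lit 78) (nat_lit 532) (nat_lit 0) (XT.lf (nat_lit 0) (nat_lit 1847384381) (nat_lit 532) (nat_lit 3531798771) (nat_lit 76) (nat_lit 7545045206) (nat_lit 178) (nat_lit 5) (nat_lit 185) (nat_lit 5) (nat_lit 179) (nat_lit 5) (nat_lit 467) (nat_lit 396) (nat_lit 277)) (XT.lf (nat_lit 0) (nat_lit 3801595727) (nat_lit 532) (nat_lit 790469935) (nat_lit 608) (nat_lit 8485185456) (nat_lit 171) (nat_lit 5) (nat_lit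 178) (nat_lit 5) (nat_lit 179) (nat_lit 5) (nat_lit 468) (nat_lit 396) (nat_lit 276)))))) (XT.nd (nat_lit 390) (nat_lit 1368) (nat_lit 0) (XT.nd (nat_lit 156) (nat_lit 988) (nat_lit 0) (XT.nd (nat_lit 78) (nat_lit 456) (nat_lit 0) (XT.lf (nat_lit 0) (nat_lit 7424054729) (nat_lit 608) (nat_lit 1951566068) (nat_lit 76) (nat_lit 3857071228) (nat_lit 171) (nat_lit 5) (nat_lit 179) (nat_lit 5) (nat_lit 172) (nat_lit 5) (nat_lit 469) (nat_lit 396) (nat_lit 275)) (XT.lf (nat_lit 0) (nat_lit 5564370621) (nat_lit 456) (nat_lit 4773303282) (nat_lit 532) (nat_lit 3053073895) (nat_lit 165) (nat_lit 5) (nat_lit 171) (nat_lit 5) (nat_lit 172) (nat_lit 5) (nat_lit 470) (nat_lit 396) (nat_lit 274))) (XT.nd (nat_lit 78) (nat_lit 988) (nat_lit 0) (XT.lf (nat_lit 0) (nat_lit 13234850014) (nat_lit 456) (nat_lit 71616018) (nat_lit 532) (nat_lit 245566386) (nat_lit 165) (nat_lit 5) (nat_lit 171) (nat_lit 5) (nat_lit 172) (nat_lit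 5) (nat_lit 471) (nat_lit 396) (nat_lit 273)) (XT.nd (nat_lit 78) (nat_lit 456) (nat_lit 0) (XT.lf (nat_lit 0) (nat_lit 2646876875) (nat_lit 532) (nat_lit 6346389552) (nat_lit 76) (nat_lit 4721679405) (nat_lit 158) (nat_lit 5) (nat_lit 165) (nat_lit 5) (nat_lit 159) (nat_lit 5) (nat_lit 472) (nat_lit 396) (nat_lit 272)) (XT.lf (nat_lit 0) (nat_lit 1324338791) (nat_lit 456) (nat_lit 4264904100) (nat_lit 532) (nat_lit 8291940331) (nat_lit 152) (nat_lit 5) (nat_lit 158) (nat_lit 5) (nat_lit 159) (nat_lit 5) (nat_lit 473) (nat_lit 396) (nat_lit 271))))) (XT.nd (nat_lit 234) (nat_lit 836) (nat_lit 0) (XT.nd (nat_lit 78) (nat_lit 532) (nat_lit 0) (XT.lf (nat_lit 0) (nat_lit 8621219618) (nat_lit 532) (nat_lit 4841572168) (nat_lit 76) (nat_lit 587343610) (nat_lit 152) (nat_lit 5) (nat_lit 159) (nat_lit 5) (nat_lit 153) (nat_lit 5) (nat_lit 474) (nat_lit 396) (nat_lit 270)) (XT.nd (nat_lit 78) (nat_lit 76) (nat_lit 0)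 (XT.lf (nat_lit 0) (nat_lit 3017490846) (nat_lit 456) (nat_lit 8728760066) (nat_lit 532) (nat_lit 2475572600) (nat_lit 146) (nat_lit 5) (nat_lit 152) (nat_lit 5) (nat_lit 153) (nat_lit 5) (nat_lit 475) (nat_lit 396) (nat_lit 269)) (XT.lf (nat_lit 0) (nat_lit 547135850) (nat_lit 532) (nat_lit 3322543070) (nat_lit 76) (nat_lit 10526854976) (nat_lit 145) (nat_lit 5) (nat_lit 152) (nat_lit 5) (nat_lit 146) (nat_lit 5) (nat_lit 476) (nat_lit 396) (nat_lit 268)))) (XT.nd (nat_lit 78) (nat_lit 456) (nat_lit 0) (XT.lf (nat_lit 0) (nat_lit 3620225824) (nat_lit 456) (nat_lit 9840238475) (nat_lit 76) (nat_lit 1113490314) (nat_lit 140) (nat_lit 5) (nat_lit 146) (nat_lit 5) (nat_lit 141) (nat_lit 5) (nat_lit 477) (nat_lit 396) (nat_lit 267)) (XT.nd (nat_lit 78) (nat_lit 456) (nat_lit 0) (XT.lf (nat_lit 0) (nat_lit 6787899095) (nat_lit 456) (nat_lit 1805714967) (nat_lit 76) (nat_lit 6160652056) (nat_lit 140) (nat_lit 5) (nat_lit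 146) (nat_lit 5) (nat_lit 141) (nat_lit 5) (nat_lit 478) (nat_lit 396) (nat_lit 266)) (XT.lf (nat_lit 0) (nat_lit 6452953245) (nat_lit 456) (nat_lit 3593213374) (nat_lit 532) (nat_lit 4891477127) (nat_lit 134) (nat_lit 5) (nat_lit 140) (nat_lit 5) (nat_lit 141) (nat_lit 5) (nat_lit 479) (nat_lit 396) (nat_lit 265))))))) (XT.nd (nat_lit 780) (nat_lit 2052) (nat_lit 0) (XT.nd (nat_lit 390) (nat_lit 760) (nat_lit 0) (XT.nd (nat_lit 156) (nat_lit 760) (nat_lit 0) (XT.nd (nat_lit 78) (nat_lit 456) (nat_lit 0) (XT.lf (nat_lit 0) (nat_lit 13377035054) (nat_lit 532) (nat_lit 254331165) (nat_lit 76) (nat_lit 1493178615) (nat_lit 134) (nat_lit 5) (nat_lit 141) (nat_lit 5) (nat_lit 135) (nat_lit 5) (nat_lit 480) (nat_lit 396) (nat_lit 264)) (XT.lf (nat_lit 0) (nat_lit 1503405451) (nat_lit 456) (nat_lit 7120265923) (nat_lit 76) (nat_lit 6690063349) (nat_lit 128) (nat_lit 5) (nat_lit 134) (nat_lit 5) (nat_lit 129) (nat_lit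 5) (nat_lit 481) (nat_lit 396) (nat_lit 263))) (XT.nd (nat_lit 78) (nat_lit 380) (nat_lit 0) (XT.lf (nat_lit 0) (nat_lit 1291422162) (nat_lit 380) (nat_lit 3500427016) (nat_lit 456) (nat_lit 10714714374) (nat_lit 123) (nat_lit 5) (nat_lit 128) (nat_lit 5) (nat_lit 129) (nat_lit 5) (nat_lit 482) (nat_lit 396) (nat_lit 262)) (XT.nd (nat_lit 78) (nat_lit 380) (nat_lit 0) (XT.lf (nat_lit 0) (nat_lit 8191245435) (nat_lit 456) (nat_lit 5766983614) (nat_lit 76) (nat_lit 1744120502) (nat_lit 123) (nat_lit 5) (nat_lit 129) (nat_lit 5) (nat_lit 124) (nat_lit 5) (nat_lit 483) (nat_lit 396) (nat_lit 261)) (XT.lf (nat_lit 0) (nat_lit 2843629559) (nat_lit 380) (nat_lit 8842806008) (nat_lit 456) (nat_lit 4215063767) (nat_lit 118) (nat_lit 5) (nat_lit 123) (nat_lit 5) (nat_lit 124) (nat_lit 5) (nat_lit 484) (nat_lit 396) (nat_lit 260))))) (XT.nd (nat_lit 156) (nat_lit 304) (nat_lit 0) (XT.nd (nat_lit 78) (nat_lit 456) (nat_lit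 0) (XT.lf (nat_lit 0) (nat_lit 11684142805) (nat_lit 380) (nat_lit 3592386116) (nat_lit 456) (nat_lit 827607302) (nat_lit 118) (nat_lit 5) (nat_lit 123) (nat_lit 5) (nat_lit 124) (nat_lit 5) (nat_lit 485) (nat_lit 396) (nat_lit 259)) (XT.lf (nat_lit 0) (nat_lit 2619958432) (nat_lit 456) (nat_lit 11910725566) (nat_lit 76) (nat_lit 1779268160) (nat_lit 112) (nat_lit 5) (nat_lit 118) (nat_lit 5) (nat_lit 113) (nat_lit 5) (nat_lit 486) (nat_lit 396) (nat_lit 258))) (XT.nd (nat_lit 78) (nat_lit 304) (nat_lit 0) (XT.lf (nat_lit 0) (nat_lit 6165618036) (nat_lit 456) (nat_lit 3114375643) (nat_lit 76) (nat_lit 7238980703) (nat_lit 112) (nat_lit 5) (nat_lit 118) (nat_lit 5) (nat_lit 113) (nat_lit 5) (nat_lit 487) (nat_lit 396) (nat_lit 257)) (XT.nd (nat_lit 78) (nat_lit 0) (nat_lit 0) (XT.lf (nat_lit 0) (nat_lit 5915521946) (nat_lit 304) (nat_lit 3891906094) (nat_lit 380) (nat_lit 6924248054) (nat_lit 108) (nat_lit 5)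 (nat_lit 112) (nat_lit 5) (nat_lit 113) (nat_lit 5) (nat_lit 488) (nat_lit 396) (nat_lit 256)) (XT.lf (nat_lit 0) (nat_lit 13540440726) (nat_lit 380) (nat_lit 1810584031) (nat_lit 76) (nat_lit 1597243466) (nat_lit 108) (nat_lit 5) (nat_lit 113) (nat_lit 5) (nat_lit 109) (nat_lit 5) (nat_lit 489) (nat_lit 396) (nat_lit 255)))))) (XT.nd (nat_lit 390) (nat_lit 988) (nat_lit 0) (XT.nd (nat_lit 156) (nat_lit 608) (nat_lit 0) (XT.nd (nat_lit 78) (nat_lit 0) (nat_lit 0) (XT.lf (nat_lit 0) (nat_lit 238143741) (nat_lit 456) (nat_lit 9742466970) (nat_lit 76) (nat_lit 7187330444) (nat_lit 102) (nat_lit 5) (nat_lit 108) (nat_lit 5) (nat_lit 103) (nat_lit 5) (nat_lit 490) (nat_lit 396) (nat_lit 254)) (XT.lf (nat_lit 0) (nat_lit 3910885452) (nat_lit 456) (nat_lit 563319457) (nat_lit 76) (nat_lit 12917365985) (nat_lit 102) (nat_lit 5) (nat_lit 108) (nat_lit 5) (nat_lit 103) (nat_lit 5) (nat_lit 491) (nat_lit 396) (nat_lit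 253))) (XT.nd (nat_lit 78) (nat_lit 304) (nat_lit 0) (XT.lf (nat_lit 0) (nat_lit 7710060660) (nat_lit 380) (nat_lit 8729749890) (nat_lit 76) (nat_lit 1178806533) (nat_lit 98) (nat_lit 5) (nat_lit 103) (nat_lit 5) (nat_lit 99) (nat_lit 5) (nat_lit 492) (nat_lit 396) (nat_lit 252)) (XT.nd (nat_lit 78) (nat_lit 0) (nat_lit 0) (XT.lf (nat_lit 0) (nat_lit 647038473) (nat_lit 304) (nat_lit 10963354525) (nat_lit 380) (nat_lit 6239311091) (nat_lit 94) (nat_lit 5) (nat_lit 98) (nat_lit 5) (nat_lit 99) (nat_lit 5) (nat_lit 493) (nat_lit 396) (nat_lit 251)) (XT.lf (nat_lit 0) (nat_lit 10310427324) (nat_lit 304) (nat_lit 5324542062) (nat_lit 380) (nat_lit 2449521997) (nat_lit 94) (nat_lit 5) (nat_lit 98) (nat_lit 5) (nat_lit 99) (nat_lit 5) (nat_lit 494) (nat_lit 396) (nat_lit 250))))) (XT.nd (nat_lit 234) (nat_lit 304) (nat_lit 0) (XT.nd (nat_lit 78) (nat_lit 304) (nat_lit 0) (XT.lf (nat_lit 0) (nat_lit 1400113721) (nat_lit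 380) (nat_lit 16487689219) (nat_lit 76) (nat_lit 435938319) (nat_lit 89) (nat_lit 5) (nat_lit 94) (nat_lit 5) (nat_lit 90) (nat_lit 5) (nat_lit 495) (nat_lit 396) (nat_lit 249)) (XT.nd (nat_lit 78) (nat_lit 304) (nat_lit 0) (XT.lf (nat_lit 0) (nat_lit 5369635472) (nat_lit 380) (nat_lit 6893943348) (nat_lit 76) (nat_lit 6302362743) (nat_lit 89) (nat_lit 5) (nat_lit 94) (nat_lit 5) (nat_lit 90) (nat_lit 5) (nat_lit 496) (nat_lit 396) (nat_lit 248)) (XT.lf (nat_lit 0) (nat_lit 2911100999) (nat_lit 304) (nat_lit 6514471324) (nat_lit 380) (nat_lit 9387276104) (nat_lit 85) (nat_lit 5) (nat_lit 89) (nat_lit 5) (nat_lit 90) (nat_lit 5) (nat_lit 497) (nat_lit 396) (nat_lit 247)))) (XT.nd (nat_lit 78) (nat_lit 304) (nat_lit 0) (XT.lf (nat_lit 0) (nat_lit 12987062793) (nat_lit 304) (nat_lit 610062863) (nat_lit 380) (nat_lit 5466880805) (nat_lit 85) (nat_lit 5) (nat_lit 89) (nat_lit 5) (nat_lit 90) (nat_lit 5) (nat_lit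 498) (nat_lit 396) (nat_lit 246)) (XT.nd (nat_lit 78) (nat_lit 76) (nat_lit 0) (XT.lf (nat_lit 0) (nat_lit 3942463989) (nat_lit 228) (nat_lit 13958806974) (nat_lit 304) (nat_lit 1417936401) (nat_lit 82) (nat_lit 5) (nat_lit 85) (nat_lit 5) (nat_lit 86) (nat_lit 5) (nat_lit 499) (nat_lit 396) (nat_lit 245)) (XT.lf (nat_lit 0) (nat_lit 2709960275) (nat_lit 304) (nat_lit 5374472604) (nat_lit 76) (nat_lit 11494059230) (nat_lit 81) (nat_lit 5) (nat_lit 85) (nat_lit 5) (nat_lit 82) (nat_lit 5) (nat_lit 500) (nat_lit 396) (nat_lit 244))))))))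
noncomputable def xc143 : XT := (XT.nd (nat_lit 52728) (nat_lit 0) (nat_lit 19836) (XT.nd (nat_lit 51870) (nat_lit 0) (nat_lit 33364) (XT.nd (nat_lit 51480) (nat_lit 0) (nat_lit 35644) (XT.nd (nat_lit 51246) (nat_lit 0) (nat_lit 37772) (XT.nd (nat_lit 78) (nat_lit 0) (nat_lit 0) (XT.lf (nat_lit 0) (nat_lit 4864117596) (nat_lit 304) (nat_lit 2057588257) (nat_lit 380) (nat_lit 12920666462) (nat_lit 77) (nat_lit 5) (nat_lit 81) (nat_lit 5) (nat_lit 82) (nat_lit 5) (nat_lit 501) (nat_lit 396) (nat_lit 243)) (XT.lf (nat_lit 0) (nat_lit 11269283640) (nat_lit 380) (nat_lit 4775462431) (nat_lit 76) (nat_lit 4065754812) (nat_lit 77) (nat_lit 5) (nat_lit 82) (nat_lit 5) (nat_lit 78) (nat_lit 5) (nat_lit 502) (nat_lit 396) (nat_lit 242))) (XT.nd (nat_lit 78) (nat_lit 0) (nat_lit 0) (XT.lf (nat_lit 0) (nat_lit 518458647) (nat_lit 0) (nat_lit 518458647) (nat_lit 988) (nat_lit 2463414208) (nat_lit 574) (nat_lit 5) (nat_lit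 574) (nat_lit 3) (nat_lit 587) (nat_lit 3) (nat_lit 397) (nat_lit 397) (nat_lit 346)) (XT.nd (nat_lit 78) (nat_lit 0) (nat_lit 0) (XT.lf (nat_lit 0) (nat_lit 3866958990) (nat_lit 988) (nat_lit 2637028212) (nat_lit 1064) (nat_lit 530032927) (nat_lit 574) (nat_lit 5) (nat_lit 587) (nat_lit 3) (nat_lit 588) (nat_lit 5) (nat_lit 398) (nat_lit 397) (nat_lit 345)) (XT.lf (nat_lit 76) (nat_lit 734682572) (nat_lit 0) (nat_lit 4926652124) (nat_lit 1064) (nat_lit 1407433447) (nat_lit 575) (nat_lit 5) (nat_lit 574) (nat_lit 5) (nat_lit 588) (nat_lit 5) (nat_lit 399) (nat_lit 397) (nat_lit 344))))) (XT.nd (nat_lit 156) (nat_lit 1064) (nat_lit 0) (XT.nd (nat_lit 78) (nat_lit 0) (nat_lit 0) (XT.lf (nat_lit 0) (nat_lit 354289179) (nat_lit 1064) (nat_lit 2921705358) (nat_lit 1140) (nat_lit 3828756915) (nat_lit 560) (nat_lit 5) (nat_lit 574) (nat_lit 5) (nat_lit 575) (nat_lit 5) (nat_lit 400) (nat_lit 397) (nat_lit 343)) (XT.lf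 (nat_lit 76) (nat_lit 532279730) (nat_lit 0) (nat_lit 1558663140) (nat_lit 1140) (nat_lit 5051184357) (nat_lit 561) (nat_lit 5) (nat_lit 560) (nat_lit 5) (nat_lit 575) (nat_lit 5) (nat_lit 401) (nat_lit 397) (nat_lit 342))) (XT.nd (nat_lit 78) (nat_lit 1140) (nat_lit 0) (XT.lf (nat_lit 0) (nat_lit 3839241981) (nat_lit 1064) (nat_lit 3111478980) (nat_lit 1140) (nat_lit 230020432) (nat_lit 561) (nat_lit 5) (nat_lit 575) (nat_lit 5) (nat_lit 576) (nat_lit 5) (nat_lit 402) (nat_lit 397) (nat_lit 341)) (XT.nd (nat_lit 78) (nat_lit 1140) (nat_lit 0) (XT.lf (nat_lit 76) (nat_lit 427447979) (nat_lit 0) (nat_lit 5164944037) (nat_lit 1140) (nat_lit 1628366680) (nat_lit 562) (nat_lit 5) (nat_lit 561) (nat_lit 5) (nat_lit 576) (nat_lit 5) (nat_lit 403) (nat_lit 397) (nat_lit 340)) (XT.lf (nat_lit 0) (nat_lit 95651750) (nat_lit 1140) (nat_lit 3207866389) (nat_lit 1216) (nat_lit 3958506508) (nat_lit 546) (nat_lit 5) (nat_lit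 561) (nat_lit 5) (nat_lit 562) (nat_lit 5) (nat_lit 404) (nat_lit 397) (nat_lit 339)))))) (XT.nd (nat_lit 390) (nat_lit 1140) (nat_lit 0) (XT.nd (nat_lit 156) (nat_lit 1140) (nat_lit 0) (XT.nd (nat_lit 78) (nat_lit 0) (nat_lit 76) (XT.lf (nat_lit 76) (nat_lit 419368777) (nat_lit 0) (nat_lit 1373727210) (nat_lit 1216) (nat_lit 5511616581) (nat_lit 547) (nat_lit 5) (nat_lit 546) (nat_lit 5) (nat_lit 562) (nat_lit 5) (nat_lit 405) (nat_lit 397) (nat_lit 338)) (XT.lf (nat_lit 0) (nat_lit 3508799102) (nat_lit 1140) (nat_lit 3214629685) (nat_lit 1216) (nat_lit 625165637) (nat_lit 547) (nat_lit 5) (nat_lit 562) (nat_lit 5) (nat_lit 563) (nat_lit 5) (nat_lit 406) (nat_lit 397) (nat_lit 337))) (XT.nd (nat_lit 78) (nat_lit 1216) (nat_lit 0) (XT.lf (nat_lit 76) (nat_lit 502049757) (nat_lit 0) (nat_lit 4728711964) (nat_lit 1216) (nat_lit 2163179149) (nat_lit 548) (nat_lit 5) (nat_lit 547) (nat_lit 5) (nat_lit 563) (nat_lit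 5) (nat_lit 407) (nat_lit 397) (nat_lit 336)) (XT.nd (nat_lit 78) (nat_lit 1216) (nat_lit 0) (XT.lf (nat_lit 76) (nat_lit 4311866106) (nat_lit 0) (nat_lit 2657089166) (nat_lit 1216) (nat_lit 471628491) (nat_lit 548) (nat_lit 5) (nat_lit 547) (nat_lit 5) (nat_lit 563) (nat_lit 5) (nat_lit 408) (nat_lit 397) (nat_lit 335)) (XT.lf (nat_lit 76) (nat_lit 685740143) (nat_lit 0) (nat_lit 516739133) (nat_lit 1292) (nat_lit 6286238415) (nat_lit 532) (nat_lit 5) (nat_lit 531) (nat_lit 5) (nat_lit 548) (nat_lit 5) (nat_lit 409) (nat_lit 397) (nat_lit 334))))) (XT.nd (nat_lit 234) (nat_lit 1216) (nat_lit 0) (XT.nd (nat_lit 78) (nat_lit 0) (nat_lit 0) (XT.lf (nat_lit 0) (nat_lit 2897131898) (nat_lit 1216) (nat_lit 2958136031) (nat_lit 1292) (nat_lit 1682640356) (nat_lit 532) (nat_lit 5) (nat_lit 548) (nat_lit 5) (nat_lit 549) (nat_lit 5) (nat_lit 410) (nat_lit 397) (nat_lit 333)) (XT.nd (nat_lit 78) (nat_lit 0) (nat_lit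 0) (XT.lf (nat_lit 76) (nat_lit 947551204) (nat_lit 0) (nat_lit 3649875145) (nat_lit 1292) (nat_lit 2991244788) (nat_lit 533) (nat_lit 5) (nat_lit 532) (nat_lit 5) (nat_lit 549) (nat_lit 5) (nat_lit 411) (nat_lit 397) (nat_lit 332)) (XT.lf (nat_lit 76) (nat_lit 4946559038) (nat_lit 0) (nat_lit 1367772900) (nat_lit 1292) (nat_lit 1326488167) (nat_lit 533) (nat_lit 5) (nat_lit 532) (nat_lit 5) (nat_lit 549) (nat_lit 5) (nat_lit 412) (nat_lit 397) (nat_lit 331)))) (XT.nd (nat_lit 78) (nat_lit 0) (nat_lit 0) (XT.lf (nat_lit 0) (nat_lit 344874246) (nat_lit 1292) (nat_lit 6379391914) (nat_lit 1368) (nat_lit 970156039) (nat_lit 516) (nat_lit 5) (nat_lit 533) (nat_lit 5) (nat_lit 534) (nat_lit 5) (nat_lit 413) (nat_lit 397) (nat_lit 330)) (XT.nd (nat_lit 78) (nat_lit 0) (nat_lit 0) (XT.lf (nat_lit 0) (nat_lit 2023032361) (nat_lit 1292) (nat_lit 2351239177) (nat_lit 1368) (nat_lit 3374848469) (nat_lit 516) (nat_lit 5)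 (nat_lit 533) (nat_lit 5) (nat_lit 534) (nat_lit 5) (nat_lit 414) (nat_lit 397) (nat_lit 329)) (XT.lf (nat_lit 76) (nat_lit 1755429981) (nat_lit 0) (nat_lit 1955285569) (nat_lit 1368) (nat_lit 4094698199) (nat_lit 517) (nat_lit 5) (nat_lit 516) (nat_lit 5) (nat_lit 534) (nat_lit 5) (nat_lit 415) (nat_lit 397) (nat_lit 328))))))) (XT.nd (nat_lit 780) (nat_lit 7904) (nat_lit 0) (XT.nd (nat_lit 390) (nat_lit 4332) (nat_lit 0) (XT.nd (nat_lit 156) (nat_lit 1368) (nat_lit 0) (XT.nd (nat_lit 78) (nat_lit 0) (nat_lit 0) (XT.lf (nat_lit 0) (nat_lit 5416522234) (nat_lit 1292) (nat_lit 1915531111) (nat_lit 1368) (nat_lit 531113421) (nat_lit 517) (nat_lit 5) (nat_lit 534) (nat_lit 5) (nat_lit 535) (nat_lit 5) (nat_lit 416) (nat_lit 397) (nat_lit 327)) (XT.lf (nat_lit 76) (nat_lit 2293557556) (nat_lit 0) (nat_lit 4856573316) (nat_lit 1368) (nat_lit 772090647) (nat_lit 518) (nat_lit 5) (nat_lit 517) (nat_lit 5) (nat_lit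 535) (nat_lit 5) (nat_lit 417) (nat_lit 397) (nat_lit 326))) (XT.nd (nat_lit 78) (nat_lit 0) (nat_lit 76) (XT.lf (nat_lit 0) (nat_lit 902728767) (nat_lit 1368) (nat_lit 1401057557) (nat_lit 1444) (nat_lit 5678988111) (nat_lit 499) (nat_lit 5) (nat_lit 517) (nat_lit 5) (nat_lit 518) (nat_lit 5) (nat_lit 418) (nat_lit 397) (nat_lit 325)) (XT.nd (nat_lit 78) (nat_lit 0) (nat_lit 0) (XT.lf (nat_lit 0) (nat_lit 2588605717) (nat_lit 1368) (nat_lit 5127616117) (nat_lit 76) (nat_lit 328475731) (nat_lit 500) (nat_lit 5) (nat_lit 518) (nat_lit 5) (nat_lit 501) (nat_lit 5) (nat_lit 419) (nat_lit 397) (nat_lit 324)) (XT.lf (nat_lit 0) (nat_lit 4300237636) (nat_lit 1368) (nat_lit 807964857) (nat_lit 76) (nat_lit 2999834753) (nat_lit 500) (nat_lit 5) (nat_lit 518) (nat_lit 5) (nat_lit 501) (nat_lit 5) (nat_lit 420) (nat_lit 397) (nat_lit 323))))) (XT.nd (nat_lit 156) (nat_lit 3040) (nat_lit 0) (XT.nd (nat_lit 78) (nat_lit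 0) (nat_lit 0) (XT.lf (nat_lit 0) (nat_lit 3620514550) (nat_lit 1368) (nat_lit 2417051748) (nat_lit 1444) (nat_lit 2135266610) (nat_lit 482) (nat_lit 5) (nat_lit 500) (nat_lit 5) (nat_lit 501) (nat_lit 5) (nat_lit 421) (nat_lit 397) (nat_lit 322)) (XT.lf (nat_lit 0) (nat_lit 7785695894) (nat_lit 1444) (nat_lit 118042176) (nat_lit 76) (nat_lit 335683432) (nat_lit 482) (nat_lit 5) (nat_lit 501) (nat_lit 5) (nat_lit 483) (nat_lit 5) (nat_lit 422) (nat_lit 397) (nat_lit 321))) (XT.nd (nat_lit 78) (nat_lit 1520) (nat_lit 0) (XT.lf (nat_lit 0) (nat_lit 1258778210) (nat_lit 1520) (nat_lit 3893534697) (nat_lit 76) (nat_lit 3154605038) (nat_lit 462) (nat_lit 5) (nat_lit 482) (nat_lit 5) (nat_lit 463) (nat_lit 5) (nat_lit 423) (nat_lit 397) (nat_lit 320)) (XT.nd (nat_lit 78) (nat_lit 0) (nat_lit 0) (XT.lf (nat_lit 0) (nat_lit 641354951) (nat_lit 1520) (nat_lit 2332380167) (nat_lit 1596) (nat_lit 5402500710) (nat_lit 442)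 (nat_lit 5) (nat_lit 462) (nat_lit 5) (nat_lit 463) (nat_lit 5) (nat_lit 424) (nat_lit 397) (nat_lit 319)) (XT.lf (nat_lit 0) (nat_lit 4722606126) (nat_lit 1596) (nat_lit 3156225292) (nat_lit 76) (nat_lit 568133080) (nat_lit 442) (nat_lit 5) (nat_lit 463) (nat_lit 5) (nat_lit 443) (nat_lit 5) (nat_lit 425) (nat_lit 397) (nat_lit 318)))))) (XT.nd (nat_lit 390) (nat_lit 2812) (nat_lit 0) (XT.nd (nat_lit 156) (nat_lit 3496) (nat_lit 0) (XT.nd (nat_lit 78) (nat_lit 0) (nat_lit 0) (XT.lf (nat_lit 0) (nat_lit 1492818773) (nat_lit 1596) (nat_lit 5009149446) (nat_lit 1672) (nat_lit 2017245648) (nat_lit 421) (nat_lit 5) (nat_lit 442) (nat_lit 5) (nat_lit 443) (nat_lit 5) (nat_lit 426) (nat_lit 397) (nat_lit 317)) (XT.lf (nat_lit 0) (nat_lit 6252476751) (nat_lit 1596) (nat_lit 2056413393) (nat_lit 1672) (nat_lit 284194705) (nat_lit 421) (nat_lit 5) (nat_lit 442) (nat_lit 5) (nat_lit 443) (nat_lit 5) (nat_lit 427) (nat_lit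 397) (nat_lit 316))) (XT.nd (nat_lit 78) (nat_lit 1748) (nat_lit 0) (XT.lf (nat_lit 0) (nat_lit 1457434018) (nat_lit 1748) (nat_lit 6238755275) (nat_lit 76) (nat_lit 972199304) (nat_lit 398) (nat_lit 5) (nat_lit 421) (nat_lit 5) (nat_lit 399) (nat_lit 5) (nat_lit 428) (nat_lit 397) (nat_lit 315)) (XT.nd (nat_lit 78) (nat_lit 1748) (nat_lit 0) (XT.lf (nat_lit 0) (nat_lit 3231109922) (nat_lit 1748) (nat_lit 1458979939) (nat_lit 76) (nat_lit 4055065740) (nat_lit 398) (nat_lit 5) (nat_lit 421) (nat_lit 5) (nat_lit 399) (nat_lit 5) (nat_lit 429) (nat_lit 397) (nat_lit 314)) (XT.lf (nat_lit 0) (nat_lit 3436462640) (nat_lit 1748) (nat_lit 1598252668) (nat_lit 1824) (nat_lit 3788868371) (nat_lit 375) (nat_lit 5) (nat_lit 398) (nat_lit 5) (nat_lit 399) (nat_lit 5) (nat_lit 430) (nat_lit 397) (nat_lit 313))))) (XT.nd (nat_lit 234) (nat_lit 836) (nat_lit 0) (XT.nd (nat_lit 78) (nat_lit 1976) (nat_lit 0) (XT.lf (nat_lit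 0) (nat_lit 6866893240) (nat_lit 1824) (nat_lit 489371973) (nat_lit 76) (nat_lit 1547479659) (nat_lit 375) (nat_lit 5) (nat_lit 399) (nat_lit 5) (nat_lit 376) (nat_lit 5) (nat_lit 431) (nat_lit 397) (nat_lit 312)) (XT.nd (nat_lit 78) (nat_lit 988) (nat_lit 0) (XT.lf (nat_lit 0) (nat_lit 4530246211) (nat_lit 988) (nat_lit 4218550895) (nat_lit 1064) (nat_lit 236464813) (nat_lit 362) (nat_lit 5) (nat_lit 375) (nat_lit 5) (nat_lit 376) (nat_lit 5) (nat_lit 432) (nat_lit 397) (nat_lit 311)) (XT.lf (nat_lit 0) (nat_lit 560364897) (nat_lit 912) (nat_lit 998787403) (nat_lit 988) (nat_lit 7509458853) (nat_lit 349) (nat_lit 5) (nat_lit 361) (nat_lit 5) (nat_lit 362) (nat_lit 5) (nat_lit 433) (nat_lit 397) (nat_lit 310)))) (XT.nd (nat_lit 78) (nat_lit 836) (nat_lit 0) (XT.lf (nat_lit 0) (nat_lit 3406083513) (nat_lit 988) (nat_lit 3458696006) (nat_lit 76) (nat_lit 2288458685) (nat_lit 349) (nat_lit 5) (nat_lit 362) (nat_lit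 5) (nat_lit 350) (nat_lit 5) (nat_lit 434) (nat_lit 397) (nat_lit 309)) (XT.nd (nat_lit 78) (nat_lit 0) (nat_lit 0) (XT.lf (nat_lit 0) (nat_lit 1682287951) (nat_lit 836) (nat_lit 3599352836) (nat_lit 912) (nat_lit 3958096449) (nat_lit 338) (nat_lit 5) (nat_lit 349) (nat_lit 5) (nat_lit 350) (nat_lit 5) (nat_lit 435) (nat_lit 397) (nat_lit 308)) (XT.lf (nat_lit 0) (nat_lit 6948133319) (nat_lit 836) (nat_lit 244281547) (nat_lit 912) (nat_lit 2135610202) (nat_lit 338) (nat_lit 5) (nat_lit 349) (nat_lit 5) (nat_lit 350) (nat_lit 5) (nat_lit 436) (nat_lit 397) (nat_lit 307))))))))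
noncomputable def xc144 : XT := (XT.nd (nat_lit 1560) (nat_lit 5928) (nat_lit 0) (XT.nd (nat_lit 780) (nat_lit 4028) (nat_lit 0) (XT.nd (nat_lit 390) (nat_lit 2280) (nat_lit 0) (XT.nd (nat_lit 156) (nat_lit 1520) (nat_lit 0) (XT.nd (nat_lit 78) (nat_lit 76) (nat_lit 0) (XT.lf (nat_lit 0) (nat_lit 2893663191) (nat_lit 836) (nat_lit 6262162074) (nat_lit 912) (nat_lit 261977651) (nat_lit 327) (nat_lit 5) (nat_lit 338) (nat_lit 5) (nat_lit 339) (nat_lit 5) (nat_lit 437) (nat_lit 397) (nat_lit 306)) (XT.lf (nat_lit 0) (nat_lit 1620347202) (nat_lit 912) (nat_lit 1241588798) (nat_lit 76) (nat_lit 6647381395) (nat_lit 326) (nat_lit 5) (nat_lit 338) (nat_lit 5) (nat_lit 327) (nat_lit 5) (nat_lit 438) (nat_lit 397) (nat_lit 305))) (XT.nd (nat_lit 78) (nat_lit 760) (nat_lit 0) (XT.lf (nat_lit 0) (nat_lit 3543689061) (nat_lit 836) (nat_lit 5431634778) (nat_lit 76) (nat_lit 627178071) (nat_lit 316) (nat_lit 5) (nat_lit 327)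 (nat_lit 5) (nat_lit 317) (nat_lit 5) (nat_lit 439) (nat_lit 397) (nat_lit 304)) (XT.nd (nat_lit 78) (nat_lit 760) (nat_lit 0) (XT.lf (nat_lit 0) (nat_lit 5508796327) (nat_lit 836) (nat_lit 32877462) (nat_lit 76) (nat_lit 4155822067) (nat_lit 316) (nat_lit 5) (nat_lit 327) (nat_lit 5) (nat_lit 317) (nat_lit 5) (nat_lit 440) (nat_lit 397) (nat_lit 303)) (XT.lf (nat_lit 0) (nat_lit 5521875555) (nat_lit 760) (nat_lit 2003611723) (nat_lit 836) (nat_lit 2268668253) (nat_lit 306) (nat_lit 5) (nat_lit 316) (nat_lit 5) (nat_lit 317) (nat_lit 5) (nat_lit 441) (nat_lit 397) (nat_lit 302))))) (XT.nd (nat_lit 156) (nat_lit 1444) (nat_lit 0) (XT.nd (nat_lit 78) (nat_lit 76) (nat_lit 0) (XT.lf (nat_lit 0) (nat_lit 1277040817) (nat_lit 760) (nat_lit 8301135133) (nat_lit 836) (nat_lit 314670430) (nat_lit 296) (nat_lit 5) (nat_lit 306) (nat_lit 5) (nat_lit 307) (nat_lit 5) (nat_lit 442) (nat_lit 397) (nat_lit 301)) (XT.lf (nat_lit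 0) (nat_lit 1675385008) (nat_lit 836) (nat_lit 3046899198) (nat_lit 76) (nat_lit 5270639906) (nat_lit 295) (nat_lit 5) (nat_lit 306) (nat_lit 5) (nat_lit 296) (nat_lit 5) (nat_lit 443) (nat_lit 397) (nat_lit 300))) (XT.nd (nat_lit 78) (nat_lit 684) (nat_lit 0) (XT.lf (nat_lit 0) (nat_lit 2641568285) (nat_lit 760) (nat_lit 1053930476) (nat_lit 836) (nat_lit 6399584233) (nat_lit 285) (nat_lit 5) (nat_lit 295) (nat_lit 5) (nat_lit 296) (nat_lit 5) (nat_lit 444) (nat_lit 397) (nat_lit 299)) (XT.nd (nat_lit 78) (nat_lit 684) (nat_lit 0) (XT.lf (nat_lit 0) (nat_lit 5771639034) (nat_lit 836) (nat_lit 1756019685) (nat_lit 76) (nat_lit 2671324251) (nat_lit 285) (nat_lit 5) (nat_lit 296) (nat_lit 5) (nat_lit 286) (nat_lit 5) (nat_lit 445) (nat_lit 397) (nat_lit 298)) (XT.lf (nat_lit 0) (nat_lit 4077745670) (nat_lit 684) (nat_lit 3823042545) (nat_lit 760) (nat_lit 2403953203) (nat_lit 276) (nat_lit 5) (nat_lit 285) (nat_lit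 5) (nat_lit 286) (nat_lit 5) (nat_lit 446) (nat_lit 397) (nat_lit 297)))))) (XT.nd (nat_lit 390) (nat_lit 1900) (nat_lit 0) (XT.nd (nat_lit 156) (nat_lit 1368) (nat_lit 0) (XT.nd (nat_lit 78) (nat_lit 760) (nat_lit 0) (XT.lf (nat_lit 0) (nat_lit 10027968458) (nat_lit 684) (nat_lit 34641544) (nat_lit 760) (nat_lit 350213237) (nat_lit 276) (nat_lit 5) (nat_lit 285) (nat_lit 5) (nat_lit 286) (nat_lit 5) (nat_lit 447) (nat_lit 397) (nat_lit 296)) (XT.lf (nat_lit 0) (nat_lit 1761906360) (nat_lit 760) (nat_lit 4935146486) (nat_lit 76) (nat_lit 3824993204) (nat_lit 266) (nat_lit 5) (nat_lit 276) (nat_lit 5) (nat_lit 267) (nat_lit 5) (nat_lit 448) (nat_lit 397) (nat_lit 295))) (XT.nd (nat_lit 78) (nat_lit 684) (nat_lit 0) (XT.lf (nat_lit 0) (nat_lit 1036832983) (nat_lit 684) (nat_lit 2863141690) (nat_lit 760) (nat_lit 6733673851) (nat_lit 257) (nat_lit 5) (nat_lit 266) (nat_lit 5) (nat_lit 267) (nat_lit 5) (nat_lit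 449) (nat_lit 397) (nat_lit 294)) (XT.nd (nat_lit 78) (nat_lit 684) (nat_lit 0) (XT.lf (nat_lit 0) (nat_lit 6100012143) (nat_lit 760) (nat_lit 3583044243) (nat_lit 76) (nat_lit 1064051741) (nat_lit 257) (nat_lit 5) (nat_lit 267) (nat_lit 5) (nat_lit 258) (nat_lit 5) (nat_lit 450) (nat_lit 397) (nat_lit 293)) (XT.lf (nat_lit 0) (nat_lit 2541498239) (nat_lit 684) (nat_lit 5817495114) (nat_lit 760) (nat_lit 2503553763) (nat_lit 248) (nat_lit 5) (nat_lit 257) (nat_lit 5) (nat_lit 258) (nat_lit 5) (nat_lit 451) (nat_lit 397) (nat_lit 292))))) (XT.nd (nat_lit 156) (nat_lit 1216) (nat_lit 0) (XT.nd (nat_lit 78) (nat_lit 684) (nat_lit 0) (XT.lf (nat_lit 0) (nat_lit 8813382510) (nat_lit 684) (nat_lit 1853544834) (nat_lit 760) (nat_lit 313300953) (nat_lit 248) (nat_lit 5) (nat_lit 257) (nat_lit 5) (nat_lit 258) (nat_lit 5) (nat_lit 452) (nat_lit 397) (nat_lit 291)) (XT.lf (nat_lit 0) (nat_lit 1916811874) (nat_lit 684)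 (nat_lit 6985750433) (nat_lit 76) (nat_lit 2197034989) (nat_lit 239) (nat_lit 5) (nat_lit 248) (nat_lit 5) (nat_lit 240) (nat_lit 5) (nat_lit 453) (nat_lit 397) (nat_lit 290))) (XT.nd (nat_lit 78) (nat_lit 1216) (nat_lit 0) (XT.lf (nat_lit 0) (nat_lit 4194451497) (nat_lit 684) (nat_lit 709736872) (nat_lit 76) (nat_lit 6316989859) (nat_lit 239) (nat_lit 5) (nat_lit 248) (nat_lit 5) (nat_lit 240) (nat_lit 5) (nat_lit 454) (nat_lit 397) (nat_lit 289)) (XT.nd (nat_lit 78) (nat_lit 608) (nat_lit 0) (XT.lf (nat_lit 0) (nat_lit 5743840940) (nat_lit 608) (nat_lit 791687574) (nat_lit 684) (nat_lit 4809312773) (nat_lit 231) (nat_lit 5) (nat_lit 239) (nat_lit 5) (nat_lit 240) (nat_lit 5) (nat_lit 455) (nat_lit 397) (nat_lit 288)) (XT.lf (nat_lit 0) (nat_lit 830493992) (nat_lit 608) (nat_lit 8106010832) (nat_lit 684) (nat_lit 2534219268) (nat_lit 223) (nat_lit 5) (nat_lit 231) (nat_lit 5) (nat_lit 232) (nat_lit 5) (nat_lit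 456) (nat_lit 397) (nat_lit 287))))))) (XT.nd (nat_lit 780) (nat_lit 3040) (nat_lit 0) (XT.nd (nat_lit 390) (nat_lit 1672) (nat_lit 0) (XT.nd (nat_lit 156) (nat_lit 532) (nat_lit 0) (XT.nd (nat_lit 78) (nat_lit 684) (nat_lit 0) (XT.lf (nat_lit 0) (nat_lit 7437882992) (nat_lit 608) (nat_lit 3971433202) (nat_lit 684) (nat_lit 189339929) (nat_lit 223) (nat_lit 5) (nat_lit 231) (nat_lit 5) (nat_lit 232) (nat_lit 5) (nat_lit 457) (nat_lit 397) (nat_lit 286)) (XT.lf (nat_lit 0) (nat_lit 2172442296) (nat_lit 684) (nat_lit 9287825671) (nat_lit 76) (nat_lit 268622597) (nat_lit 214) (nat_lit 5) (nat_lit 223) (nat_lit 5) (nat_lit 215) (nat_lit 5) (nat_lit 458) (nat_lit 397) (nat_lit 285))) (XT.nd (nat_lit 78) (nat_lit 532) (nat_lit 0) (XT.lf (nat_lit 0) (nat_lit 4614785805) (nat_lit 684) (nat_lit 2680911866) (nat_lit 76) (nat_lit 4565297201) (nat_lit 214) (nat_lit 5) (nat_lit 223) (nat_lit 5) (nat_lit 215) (nat_lit 5)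 (nat_lit 459) (nat_lit 397) (nat_lit 284)) (XT.nd (nat_lit 78) (nat_lit 0) (nat_lit 0) (XT.lf (nat_lit 0) (nat_lit 4088883369) (nat_lit 532) (nat_lit 3025456011) (nat_lit 608) (nat_lit 4881241904) (nat_lit 207) (nat_lit 5) (nat_lit 214) (nat_lit 5) (nat_lit 215) (nat_lit 5) (nat_lit 460) (nat_lit 397) (nat_lit 283)) (XT.lf (nat_lit 0) (nat_lit 9672623509) (nat_lit 608) (nat_lit 1133908763) (nat_lit 76) (nat_lit 1326159501) (nat_lit 207) (nat_lit 5) (nat_lit 215) (nat_lit 5) (nat_lit 208) (nat_lit 5) (nat_lit 461) (nat_lit 397) (nat_lit 282))))) (XT.nd (nat_lit 156) (nat_lit 532) (nat_lit 0) (XT.nd (nat_lit 78) (nat_lit 532) (nat_lit 0) (XT.lf (nat_lit 0) (nat_lit 49753649) (nat_lit 608) (nat_lit 6464222051) (nat_lit 76) (nat_lit 5757767400) (nat_lit 199) (nat_lit 5) (nat_lit 207) (nat_lit 5) (nat_lit 200) (nat_lit 5) (nat_lit 462) (nat_lit 397) (nat_lit 281)) (XT.lf (nat_lit 0) (nat_lit 456665958) (nat_lit 532)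 (nat_lit 2113245532) (nat_lit 608) (nat_lit 9843483874) (nat_lit 192) (nat_lit 5) (nat_lit 199) (nat_lit 5) (nat_lit 200) (nat_lit 5) (nat_lit 463) (nat_lit 397) (nat_lit 280))) (XT.nd (nat_lit 78) (nat_lit 532) (nat_lit 0) (XT.lf (nat_lit 0) (nat_lit 5182150442) (nat_lit 608) (nat_lit 4992006532) (nat_lit 76) (nat_lit 2382896734) (nat_lit 192) (nat_lit 5) (nat_lit 200) (nat_lit 5) (nat_lit 193) (nat_lit 5) (nat_lit 464) (nat_lit 397) (nat_lit 279)) (XT.nd (nat_lit 78) (nat_lit 0) (nat_lit 0) (XT.lf (nat_lit 0) (nat_lit 2103169046) (nat_lit 532) (nat_lit 5754045722) (nat_lit 608) (nat_lit 4846165306) (nat_lit 185) (nat_lit 5) (nat_lit 192) (nat_lit 5) (nat_lit 193) (nat_lit 5) (nat_lit 465) (nat_lit 397) (nat_lit 278)) (XT.lf (nat_lit 0) (nat_lit 9385633476) (nat_lit 532) (nat_lit 1216766343) (nat_lit 608) (nat_lit 2249907098) (nat_lit 185) (nat_lit 5) (nat_lit 192) (nat_lit 5) (nat_lit 193) (nat_lit 5) (nat_lit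 466) (nat_lit 397) (nat_lit 277)))))) (XT.nd (nat_lit 390) (nat_lit 1520) (nat_lit 0) (XT.nd (nat_lit 156) (nat_lit 988) (nat_lit 0) (XT.nd (nat_lit 78) (nat_lit 0) (nat_lit 0) (XT.lf (nat_lit 0) (nat_lit 423584063) (nat_lit 532) (nat_lit 9191122246) (nat_lit 76) (nat_lit 3388849739) (nat_lit 178) (nat_lit 5) (nat_lit 185) (nat_lit 5) (nat_lit 179) (nat_lit 5) (nat_lit 467) (nat_lit 397) (nat_lit 276)) (XT.lf (nat_lit 0) (nat_lit 3135406972) (nat_lit 532) (nat_lit 1918590439) (nat_lit 76) (nat_lit 8103241522) (nat_lit 178) (nat_lit 5) (nat_lit 185) (nat_lit 5) (nat_lit 179) (nat_lit 5) (nat_lit 468) (nat_lit 397) (nat_lit 275))) (XT.nd (nat_lit 78) (nat_lit 456) (nat_lit 0) (XT.lf (nat_lit 0) (nat_lit 5550394026) (nat_lit 532) (nat_lit 370917681) (nat_lit 608) (nat_lit 7392292717) (nat_lit 171) (nat_lit 5) (nat_lit 178) (nat_lit 5) (nat_lit 179) (nat_lit 5) (nat_lit 469) (nat_lit 397) (nat_lit 274)) (XT.nd (nat_lit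 78) (nat_lit 456) (nat_lit 0) (XT.lf (nat_lit 0) (nat_lit 8788448949) (nat_lit 608) (nat_lit 328703817) (nat_lit 76) (nat_lit 4355439914) (nat_lit 171) (nat_lit 5) (nat_lit 179) (nat_lit 5) (nat_lit 172) (nat_lit 5) (nat_lit 470) (nat_lit 397) (nat_lit 273)) (XT.lf (nat_lit 0) (nat_lit 7326618096) (nat_lit 456) (nat_lit 4420600105) (nat_lit 532) (nat_lit 1886862341) (nat_lit 165) (nat_lit 5) (nat_lit 171) (nat_lit 5) (nat_lit 172) (nat_lit 5) (nat_lit 471) (nat_lit 397) (nat_lit 272))))) (XT.nd (nat_lit 234) (nat_lit 532) (nat_lit 0) (XT.nd (nat_lit 78) (nat_lit 456) (nat_lit 0) (XT.lf (nat_lit 0) (nat_lit 951349904) (nat_lit 532) (nat_lit 12470924964) (nat_lit 76) (nat_lit 376450033) (nat_lit 158) (nat_lit 5) (nat_lit 165) (nat_lit 5) (nat_lit 159) (nat_lit 5) (nat_lit 472) (nat_lit 397) (nat_lit 271)) (XT.nd (nat_lit 78) (nat_lit 456) (nat_lit 0) (XT.lf (nat_lit 0) (nat_lit 3877421661) (nat_lit 532) (nat_lit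 4828315800) (nat_lit 76) (nat_lit 5259553340) (nat_lit 158) (nat_lit 5) (nat_lit 165) (nat_lit 5) (nat_lit 159) (nat_lit 5) (nat_lit 473) (nat_lit 397) (nat_lit 270)) (XT.lf (nat_lit 0) (nat_lit 2985004731) (nat_lit 456) (nat_lit 3881150103) (nat_lit 532) (nat_lit 7268955587) (nat_lit 152) (nat_lit 5) (nat_lit 158) (nat_lit 5) (nat_lit 159) (nat_lit 5) (nat_lit 474) (nat_lit 397) (nat_lit 269)))) (XT.nd (nat_lit 78) (nat_lit 532) (nat_lit 0) (XT.lf (nat_lit 0) (nat_lit 9938911150) (nat_lit 532) (nat_lit 3316021031) (nat_lit 76) (nat_lit 1052914381) (nat_lit 152) (nat_lit 5) (nat_lit 159) (nat_lit 5) (nat_lit 153) (nat_lit 5) (nat_lit 475) (nat_lit 397) (nat_lit 268)) (XT.nd (nat_lit 78) (nat_lit 76) (nat_lit 0) (XT.lf (nat_lit 0) (nat_lit 4689549675) (nat_lit 456) (nat_lit 8424901461) (nat_lit 532) (nat_lit 1368764715) (nat_lit 146) (nat_lit 5) (nat_lit 152) (nat_lit 5) (nat_lit 153) (nat_lit 5) (nat_lit 476)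 (nat_lit 397) (nat_lit 267)) (XT.lf (nat_lit 0) (nat_lit 1676856999) (nat_lit 532) (nat_lit 1793655157) (nat_lit 76) (nat_lit 11191212926) (nat_lit 145) (nat_lit 5) (nat_lit 152) (nat_lit 5) (nat_lit 146) (nat_lit 5) (nat_lit 477) (nat_lit 397) (nat_lit 266))))))))
noncomputable def xc145 : XT := (XT.nd (nat_lit 1638) (nat_lit 608) (nat_lit 0) (XT.nd (nat_lit 780) (nat_lit 2052) (nat_lit 0) (XT.nd (nat_lit 390) (nat_lit 1216) (nat_lit 0) (XT.nd (nat_lit 156) (nat_lit 912) (nat_lit 0) (XT.nd (nat_lit 78) (nat_lit 0) (nat_lit 0) (XT.lf (nat_lit 0) (nat_lit 4802863414) (nat_lit 456) (nat_lit 8432802322) (nat_lit 76) (nat_lit 1607206518) (nat_lit 140) (nat_lit 5) (nat_lit 146) (nat_lit 5) (nat_lit 141) (nat_lit 5) (nat_lit 478) (nat_lit 397) (nat_lit 265)) (XT.lf (nat_lit 0) (nat_lit 8012120874) (nat_lit 456) (nat_lit 269044049) (nat_lit 76) (nat_lit 6746067448) (nat_lit 140) (nat_lit 5) (nat_lit 146) (nat_lit 5)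 (nat_lit 141) (nat_lit 5) (nat_lit 479) (nat_lit 397) (nat_lit 264))) (XT.nd (nat_lit 78) (nat_lit 456) (nat_lit 0) (XT.lf (nat_lit 0) (nat_lit 8144450257) (nat_lit 456) (nat_lit 3179905449) (nat_lit 532) (nat_lit 3890152667) (nat_lit 134) (nat_lit 5) (nat_lit 140) (nat_lit 5) (nat_lit 141) (nat_lit 5) (nat_lit 480) (nat_lit 397) (nat_lit 263)) (XT.nd (nat_lit 78) (nat_lit 76) (nat_lit 0) (XT.lf (nat_lit 0) (nat_lit 1307908346) (nat_lit 380) (nat_lit 13404390407) (nat_lit 456) (nat_lit 693046309) (nat_lit 129) (nat_lit 5) (nat_lit 134) (nat_lit 5) (nat_lit 135) (nat_lit 5) (nat_lit 481) (nat_lit 397) (nat_lit 262)) (XT.lf (nat_lit 0) (nat_lit 2589202786) (nat_lit 456) (nat_lit 5708343823) (nat_lit 76) (nat_lit 7301025069) (nat_lit 128) (nat_lit 5) (nat_lit 134) (nat_lit 5) (nat_lit 129) (nat_lit 5) (nat_lit 482) (nat_lit 397) (nat_lit 261))))) (XT.nd (nat_lit 156) (nat_lit 836) (nat_lit 0) (XT.nd (nat_lit 78)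 (nat_lit 0) (nat_lit 0) (XT.lf (nat_lit 0) (nat_lit 2861352185) (nat_lit 380) (nat_lit 3071387961) (nat_lit 456) (nat_lit 9862736780) (nat_lit 123) (nat_lit 5) (nat_lit 128) (nat_lit 5) (nat_lit 129) (nat_lit 5) (nat_lit 483) (nat_lit 397) (nat_lit 260)) (XT.lf (nat_lit 0) (nat_lit 9382809689) (nat_lit 456) (nat_lit 4350872963) (nat_lit 76) (nat_lit 2261848497) (nat_lit 123) (nat_lit 5) (nat_lit 129) (nat_lit 5) (nat_lit 124) (nat_lit 5) (nat_lit 484) (nat_lit 397) (nat_lit 259))) (XT.nd (nat_lit 78) (nat_lit 456) (nat_lit 0) (XT.lf (nat_lit 0) (nat_lit 4421877142) (nat_lit 380) (nat_lit 8515752505) (nat_lit 456) (nat_lit 3261245850) (nat_lit 118) (nat_lit 5) (nat_lit 123) (nat_lit 5) (nat_lit 124) (nat_lit 5) (nat_lit 485) (nat_lit 397) (nat_lit 258)) (XT.nd (nat_lit 78) (nat_lit 380) (nat_lit 0) (XT.lf (nat_lit 0) (nat_lit 171327611) (nat_lit 456) (nat_lit 2997727486) (nat_lit 76) (nat_lit 13236892461) (nat_lit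 117) (nat_lit 5) (nat_lit 123) (nat_lit 5) (nat_lit 118) (nat_lit 5) (nat_lit 486) (nat_lit 397) (nat_lit 257)) (XT.lf (nat_lit 0) (nat_lit 3670039165) (nat_lit 456) (nat_lit 10636733974) (nat_lit 76) (nat_lit 2309137479) (nat_lit 112) (nat_lit 5) (nat_lit 118) (nat_lit 5) (nat_lit 113) (nat_lit 5) (nat_lit 487) (nat_lit 397) (nat_lit 256)))))) (XT.nd (nat_lit 390) (nat_lit 988) (nat_lit 0) (XT.nd (nat_lit 156) (nat_lit 760) (nat_lit 0) (XT.nd (nat_lit 78) (nat_lit 304) (nat_lit 0) (XT.lf (nat_lit 0) (nat_lit 7267049577) (nat_lit 456) (nat_lit 1694108153) (nat_lit 76) (nat_lit 7868352430) (nat_lit 112) (nat_lit 5) (nat_lit 118) (nat_lit 5) (nat_lit 113) (nat_lit 5) (nat_lit 488) (nat_lit 397) (nat_lit 255)) (XT.lf (nat_lit 0) (nat_lit 7506633737) (nat_lit 304) (nat_lit 3465445641) (nat_lit 380) (nat_lit 6074584373) (nat_lit 108) (nat_lit 5) (nat_lit 112) (nat_lit 5) (nat_lit 113) (nat_lit 5) (nat_lit 489) (nat_lit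 397) (nat_lit 254))) (XT.nd (nat_lit 78) (nat_lit 760) (nat_lit 0) (XT.lf (nat_lit 0) (nat_lit 14763972107) (nat_lit 380) (nat_lit 386822206) (nat_lit 76) (nat_lit 2117114423) (nat_lit 108) (nat_lit 5) (nat_lit 113) (nat_lit 5) (nat_lit 109) (nat_lit 5) (nat_lit 490) (nat_lit 397) (nat_lit 253)) (XT.nd (nat_lit 78) (nat_lit 304) (nat_lit 0) (XT.lf (nat_lit 0) (nat_lit 1192874793) (nat_lit 456) (nat_lit 8474063415) (nat_lit 76) (nat_lit 7825102507) (nat_lit 102) (nat_lit 5) (nat_lit 108) (nat_lit 5) (nat_lit 103) (nat_lit 5) (nat_lit 491) (nat_lit 397) (nat_lit 252)) (XT.lf (nat_lit 0) (nat_lit 871404441) (nat_lit 304) (nat_lit 4054697805) (nat_lit 380) (nat_lit 12794305278) (nat_lit 98) (nat_lit 5) (nat_lit 102) (nat_lit 5) (nat_lit 103) (nat_lit 5) (nat_lit 492) (nat_lit 397) (nat_lit 251))))) (XT.nd (nat_lit 234) (nat_lit 684) (nat_lit 0) (XT.nd (nat_lit 78) (nat_lit 304) (nat_lit 0) (XT.lf (nat_lit 0) (nat_lit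 8789858931) (nat_lit 380) (nat_lit 7463789124) (nat_lit 76) (nat_lit 1698579620) (nat_lit 98) (nat_lit 5) (nat_lit 103) (nat_lit 5) (nat_lit 99) (nat_lit 5) (nat_lit 493) (nat_lit 397) (nat_lit 250)) (XT.nd (nat_lit 78) (nat_lit 0) (nat_lit 0) (XT.lf (nat_lit 0) (nat_lit 2091057665) (nat_lit 304) (nat_lit 10668282798) (nat_lit 380) (nat_lit 5428778004) (nat_lit 94) (nat_lit 5) (nat_lit 98) (nat_lit 5) (nat_lit 99) (nat_lit 5) (nat_lit 494) (nat_lit 397) (nat_lit 249)) (XT.lf (nat_lit 0) (nat_lit 11919653933) (nat_lit 304) (nat_lit 4926779161) (nat_lit 380) (nat_lit 1581532723) (nat_lit 94) (nat_lit 5) (nat_lit 98) (nat_lit 5) (nat_lit 99) (nat_lit 5) (nat_lit 495) (nat_lit 397) (nat_lit 248)))) (XT.nd (nat_lit 78) (nat_lit 304) (nat_lit 0) (XT.lf (nat_lit 0) (nat_lit 2327762518) (nat_lit 380) (nat_lit 15396625563) (nat_lit 76) (nat_lit 947604288) (nat_lit 89) (nat_lit 5) (nat_lit 94) (nat_lit 5) (nat_lit 90)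 (nat_lit 5) (nat_lit 496) (nat_lit 397) (nat_lit 247)) (XT.nd (nat_lit 78) (nat_lit 304) (nat_lit 0) (XT.lf (nat_lit 0) (nat_lit 6359034576) (nat_lit 380) (nat_lit 5638863941) (nat_lit 76) (nat_lit 6921495490) (nat_lit 89) (nat_lit 5) (nat_lit 94) (nat_lit 5) (nat_lit 90) (nat_lit 5) (nat_lit 497) (nat_lit 397) (nat_lit 246)) (XT.lf (nat_lit 0) (nat_lit 4353117094) (nat_lit 304) (nat_lit 6134663335) (nat_lit 380) (nat_lit 8683629210) (nat_lit 85) (nat_lit 5) (nat_lit 89) (nat_lit 5) (nat_lit 90) (nat_lit 5) (nat_lit 498) (nat_lit 397) (nat_lit 245))))))) (XT.nd (nat_lit 51948) (nat_lit 0) (nat_lit 33288) (XT.nd (nat_lit 51558) (nat_lit 0) (nat_lit 36632) (XT.nd (nat_lit 156) (nat_lit 380) (nat_lit 0) (XT.nd (nat_lit 78) (nat_lit 228) (nat_lit 0) (XT.lf (nat_lit 0) (nat_lit 14603464907) (nat_lit 304) (nat_lit 122168615) (nat_lit 380) (nat_lit 4702304288) (nat_lit 85) (nat_lit 5) (nat_lit 89) (nat_lit 5) (nat_lit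 90) (nat_lit 5) (nat_lit 499) (nat_lit 397) (nat_lit 244)) (XT.lf (nat_lit 0) (nat_lit 5383057780) (nat_lit 228) (nat_lit 13728033191) (nat_lit 304) (nat_lit 577251439) (nat_lit 82) (nat_lit 5) (nat_lit 85) (nat_lit 5) (nat_lit 86) (nat_lit 5) (nat_lit 500) (nat_lit 397) (nat_lit 243))) (XT.nd (nat_lit 78) (nat_lit 304) (nat_lit 0) (XT.lf (nat_lit 0) (nat_lit 3604988918) (nat_lit 304) (nat_lit 4135539306) (nat_lit 76) (nat_lit 12212512209) (nat_lit 81) (nat_lit 5) (nat_lit 85) (nat_lit 5) (nat_lit 82) (nat_lit 5) (nat_lit 501) (nat_lit 397) (nat_lit 242)) (XT.nd (nat_lit 51246) (nat_lit 0) (nat_lit 37772) (XT.lf (nat_lit 0) (nat_lit 6298964653) (nat_lit 304) (nat_lit 1594202259) (nat_lit 380) (nat_lit 12329191397) (nat_lit 77) (nat_lit 5) (nat_lit 81) (nat_lit 5) (nat_lit 82) (nat_lit 5) (nat_lit 502) (nat_lit 397) (nat_lit 241)) (XT.lf (nat_lit 0) (nat_lit 1407534885) (nat_lit 0) (nat_lit 1407534885) (nat_lit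 988) (nat_lit 718926097) (nat_lit 574) (nat_lit 5) (nat_lit 574) (nat_lit 3) (nat_lit 587) (nat_lit 3) (nat_lit 398) (nat_lit 398) (nat_lit 344))))) (XT.nd (nat_lit 156) (nat_lit 0) (nat_lit 76) (XT.nd (nat_lit 78) (nat_lit 0) (nat_lit 76) (XT.lf (nat_lit 0) (nat_lit 279425682) (nat_lit 1140) (nat_lit 893835932) (nat_lit 1140) (nat_lit 5930213945) (nat_lit 559) (nat_lit 3) (nat_lit 574) (nat_lit 3) (nat_lit 574) (nat_lit 5) (nat_lit 399) (nat_lit 398) (nat_lit 343)) (XT.lf (nat_lit 0) (nat_lit 1986909272) (nat_lit 1064) (nat_lit 4610440103) (nat_lit 1140) (nat_lit 542657046) (nat_lit 560) (nat_lit 5) (nat_lit 574) (nat_lit 5) (nat_lit 575) (nat_lit 5) (nat_lit 400) (nat_lit 398) (nat_lit 342))) (XT.nd (nat_lit 78) (nat_lit 0) (nat_lit 0) (XT.lf (nat_lit 0) (nat_lit 3698299934) (nat_lit 1064) (nat_lit 1175231202) (nat_lit 1140) (nat_lit 2304370736) (nat_lit 560) (nat_lit 5) (nat_lit 574) (nat_lit 5) (nat_lit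 575) (nat_lit 5) (nat_lit 401) (nat_lit 398) (nat_lit 341)) (XT.nd (nat_lit 78) (nat_lit 0) (nat_lit 0) (XT.lf (nat_lit 76) (nat_lit 2335959191) (nat_lit 0) (nat_lit 3079939172) (nat_lit 1140) (nat_lit 1801245824) (nat_lit 561) (nat_lit 5) (nat_lit 560) (nat_lit 5) (nat_lit 575) (nat_lit 5) (nat_lit 402) (nat_lit 398) (nat_lit 340)) (XT.lf (nat_lit 76) (nat_lit 5910098431) (nat_lit 0) (nat_lit 1223146238) (nat_lit 1140) (nat_lit 124646752) (nat_lit 561) (nat_lit 5) (nat_lit 560) (nat_lit 5) (nat_lit 575) (nat_lit 5) (nat_lit 403) (nat_lit 398) (nat_lit 339)))))) (XT.nd (nat_lit 390) (nat_lit 1216) (nat_lit 0) (XT.nd (nat_lit 156) (nat_lit 1140) (nat_lit 0) (XT.nd (nat_lit 78) (nat_lit 0) (nat_lit 0) (XT.lf (nat_lit 0) (nat_lit 1541993787) (nat_lit 1140) (nat_lit 5052287011) (nat_lit 1216) (nat_lit 705447758) (nat_lit 546) (nat_lit 5) (nat_lit 561) (nat_lit 5) (nat_lit 562) (nat_lit 5) (nat_lit 404) (nat_lit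 398) (nat_lit 338)) (XT.lf (nat_lit 0) (nat_lit 3216333758) (nat_lit 1140) (nat_lit 1442507997) (nat_lit 1216) (nat_lit 2684049865) (nat_lit 546) (nat_lit 5) (nat_lit 561) (nat_lit 5) (nat_lit 562) (nat_lit 5) (nat_lit 405) (nat_lit 398) (nat_lit 337))) (XT.nd (nat_lit 78) (nat_lit 1140) (nat_lit 0) (XT.lf (nat_lit 76) (nat_lit 2245235585) (nat_lit 0) (nat_lit 2653139244) (nat_lit 1216) (nat_lit 2489084690) (nat_lit 547) (nat_lit 5) (nat_lit 546) (nat_lit 5) (nat_lit 562) (nat_lit 5) (nat_lit 406) (nat_lit 398) (nat_lit 336)) (XT.nd (nat_lit 78) (nat_lit 1140) (nat_lit 0) (XT.lf (nat_lit 76) (nat_lit 6002765710) (nat_lit 0) (nat_lit 581246460) (nat_lit 1216) (nat_lit 849532850) (nat_lit 547) (nat_lit 5) (nat_lit 546) (nat_lit 5) (nat_lit 562) (nat_lit 5) (nat_lit 407) (nat_lit 398) (nat_lit 335)) (XT.lf (nat_lit 0) (nat_lit 798278373) (nat_lit 1216) (nat_lit 5134277537) (nat_lit 1292) (nat_lit 1548188653) (nat_lit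 531) (nat_lit 5) (nat_lit 547) (nat_lit 5) (nat_lit 548) (nat_lit 5) (nat_lit 408) (nat_lit 398) (nat_lit 334))))) (XT.nd (nat_lit 234) (nat_lit 1216) (nat_lit 0) (XT.nd (nat_lit 78) (nat_lit 0) (nat_lit 0) (XT.lf (nat_lit 0) (nat_lit 2442682662) (nat_lit 1216) (nat_lit 1343927752) (nat_lit 1292) (nat_lit 3742689022) (nat_lit 531) (nat_lit 5) (nat_lit 547) (nat_lit 5) (nat_lit 548) (nat_lit 5) (nat_lit 409) (nat_lit 398) (nat_lit 333)) (XT.nd (nat_lit 78) (nat_lit 0) (nat_lit 76) (XT.lf (nat_lit 76) (nat_lit 2531562673) (nat_lit 0) (nat_lit 1567091371) (nat_lit 1292) (nat_lit 3480621206) (nat_lit 532) (nat_lit 5) (nat_lit 531) (nat_lit 5) (nat_lit 548) (nat_lit 5) (nat_lit 410) (nat_lit 398) (nat_lit 332)) (XT.lf (nat_lit 0) (nat_lit 5764263457) (nat_lit 1216) (nat_lit 1156438942) (nat_lit 1292) (nat_lit 710040772) (nat_lit 532) (nat_lit 5) (nat_lit 548) (nat_lit 5) (nat_lit 549) (nat_lit 5) (nat_lit 411) (nat_lit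 398) (nat_lit 331)))) (XT.nd (nat_lit 78) (nat_lit 1292) (nat_lit 0) (XT.lf (nat_lit 76) (nat_lit 2815119539) (nat_lit 0) (nat_lit 4640364572) (nat_lit 1292) (nat_lit 227932871) (nat_lit 533) (nat_lit 5) (nat_lit 532) (nat_lit 5) (nat_lit 549) (nat_lit 5) (nat_lit 412) (nat_lit 398) (nat_lit 330)) (XT.nd (nat_lit 78) (nat_lit 0) (nat_lit 76) (XT.lf (nat_lit 0) (nat_lit 1396208383) (nat_lit 1292) (nat_lit 889052567) (nat_lit 1368) (nat_lit 5452282454) (nat_lit 515) (nat_lit 5) (nat_lit 532) (nat_lit 5) (nat_lit 533) (nat_lit 5) (nat_lit 413) (nat_lit 398) (nat_lit 329)) (XT.lf (nat_lit 0) (nat_lit 3036098975) (nat_lit 1292) (nat_lit 4607909692) (nat_lit 1368) (nat_lit 149008399) (nat_lit 516) (nat_lit 5) (nat_lit 533) (nat_lit 5) (nat_lit 534) (nat_lit 5) (nat_lit 414) (nat_lit 398) (nat_lit 328))))))))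
noncomputable def xc146 : XT := (XT.nd (nat_lit 1560) (nat_lit 8968) (nat_lit 0) (XT.nd (nat_lit 780) (nat_lit 8588) (nat_lit 0) (XT.nd (nat_lit 390) (nat_lit 2736) (nat_lit 0) (XT.nd (nat_lit 156) (nat_lit 1368) (nat_lit 0) (XT.nd (nat_lit 78) (nat_lit 0) (nat_lit 0) (XT.lf (nat_lit 0) (nat_lit 4695186385) (nat_lit 1292) (nat_lit 536430568) (nat_lit 1368) (nat_lit 2618276066) (nat_lit 516) (nat_lit 5) (nat_lit 533) (nat_lit 5) (nat_lit 534) (nat_lit 5) (nat_lit 415) (nat_lit 398) (nat_lit 327)) (XT.lf (nat_lit 76) (nat_lit 3640123069) (nat_lit 0) (nat_lit 2736907067) (nat_lit 1368) (nat_lit 1531105255) (nat_lit 517) (nat_lit 5) (nat_lit 516) (nat_lit 5) (nat_lit 534) (nat_lit 5) (nat_lit 416) (nat_lit 398) (nat_lit 326))) (XT.nd (nat_lit 78) (nat_lit 0) (nat_lit 76) (XT.lf (nat_lit 0) (nat_lit 93163763) (nat_lit 1368) (nat_lit 85232640) (nat_lit 1444) (nat_lit 7789752885) (nat_lit 498) (nat_lit 5) (nat_lit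 516) (nat_lit 5) (nat_lit 517) (nat_lit 5) (nat_lit 417) (nat_lit 398) (nat_lit 325)) (XT.nd (nat_lit 78) (nat_lit 0) (nat_lit 0) (XT.lf (nat_lit 0) (nat_lit 1739686235) (nat_lit 1368) (nat_lit 3843141198) (nat_lit 1444) (nat_lit 2446147441) (nat_lit 499) (nat_lit 5) (nat_lit 517) (nat_lit 5) (nat_lit 518) (nat_lit 5) (nat_lit 418) (nat_lit 398) (nat_lit 324)) (XT.lf (nat_lit 76) (nat_lit 432458614) (nat_lit 0) (nat_lit 2958671816) (nat_lit 1444) (nat_lit 4700465555) (nat_lit 500) (nat_lit 5) (nat_lit 499) (nat_lit 5) (nat_lit 518) (nat_lit 5) (nat_lit 419) (nat_lit 398) (nat_lit 323))))) (XT.nd (nat_lit 156) (nat_lit 1520) (nat_lit 0) (XT.nd (nat_lit 78) (nat_lit 1292) (nat_lit 0) (XT.lf (nat_lit 76) (nat_lit 4821327316) (nat_lit 0) (nat_lit 247972664) (nat_lit 1444) (nat_lit 3086314076) (nat_lit 500) (nat_lit 5) (nat_lit 499) (nat_lit 5) (nat_lit 518) (nat_lit 5) (nat_lit 420) (nat_lit 398) (nat_lit 322))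 (XT.lf (nat_lit 0) (nat_lit 1049931872) (nat_lit 1368) (nat_lit 5722845161) (nat_lit 1444) (nat_lit 1448318680) (nat_lit 482) (nat_lit 5) (nat_lit 500) (nat_lit 5) (nat_lit 501) (nat_lit 5) (nat_lit 421) (nat_lit 398) (nat_lit 321))) (XT.nd (nat_lit 78) (nat_lit 1444) (nat_lit 0) (XT.lf (nat_lit 0) (nat_lit 212505180) (nat_lit 1444) (nat_lit 2748469728) (nat_lit 76) (nat_lit 5327040897) (nat_lit 481) (nat_lit 5) (nat_lit 500) (nat_lit 5) (nat_lit 482) (nat_lit 5) (nat_lit 422) (nat_lit 398) (nat_lit 320)) (XT.nd (nat_lit 78) (nat_lit 0) (nat_lit 0) (XT.lf (nat_lit 0) (nat_lit 1751720066) (nat_lit 1444) (nat_lit 116255935) (nat_lit 1520) (nat_lit 6488507422) (nat_lit 462) (nat_lit 5) (nat_lit 481) (nat_lit 5) (nat_lit 482) (nat_lit 5) (nat_lit 423) (nat_lit 398) (nat_lit 319)) (XT.lf (nat_lit 0) (nat_lit 3563119437) (nat_lit 1520) (nat_lit 2089826676) (nat_lit 76) (nat_lit 2773259744) (nat_lit 462) (nat_lit 5)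 (nat_lit 482) (nat_lit 5) (nat_lit 463) (nat_lit 5) (nat_lit 424) (nat_lit 398) (nat_lit 318)))))) (XT.nd (nat_lit 390) (nat_lit 3724) (nat_lit 0) (XT.nd (nat_lit 156) (nat_lit 3344) (nat_lit 0) (XT.nd (nat_lit 78) (nat_lit 0) (nat_lit 0) (XT.lf (nat_lit 0) (nat_lit 2523381958) (nat_lit 1520) (nat_lit 2756440088) (nat_lit 1596) (nat_lit 3217763967) (nat_lit 442) (nat_lit 5) (nat_lit 462) (nat_lit 5) (nat_lit 463) (nat_lit 5) (nat_lit 425) (nat_lit 398) (nat_lit 317)) (XT.lf (nat_lit 0) (nat_lit 7017216890) (nat_lit 1596) (nat_lit 1339129356) (nat_lit 76) (nat_lit 214336440) (nat_lit 442) (nat_lit 5) (nat_lit 463) (nat_lit 5) (nat_lit 443) (nat_lit 5) (nat_lit 426) (nat_lit 398) (nat_lit 316))) (XT.nd (nat_lit 78) (nat_lit 1672) (nat_lit 0) (XT.lf (nat_lit 0) (nat_lit 154084300) (nat_lit 1672) (nat_lit 5255509179) (nat_lit 76) (nat_lit 3235407431) (nat_lit 420) (nat_lit 5) (nat_lit 442) (nat_lit 5) (nat_lit 421)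 (nat_lit 5) (nat_lit 427) (nat_lit 398) (nat_lit 315)) (XT.nd (nat_lit 78) (nat_lit 1672) (nat_lit 0) (XT.lf (nat_lit 0) (nat_lit 1855775358) (nat_lit 1672) (nat_lit 524700359) (nat_lit 76) (nat_lit 6340523747) (nat_lit 420) (nat_lit 5) (nat_lit 442) (nat_lit 5) (nat_lit 421) (nat_lit 5) (nat_lit 428) (nat_lit 398) (nat_lit 314)) (XT.lf (nat_lit 0) (nat_lit 3596730783) (nat_lit 1748) (nat_lit 4469863321) (nat_lit 76) (nat_lit 731834126) (nat_lit 398) (nat_lit 5) (nat_lit 421) (nat_lit 5) (nat_lit 399) (nat_lit 5) (nat_lit 429) (nat_lit 398) (nat_lit 313))))) (XT.nd (nat_lit 156) (nat_lit 1976) (nat_lit 0) (XT.nd (nat_lit 78) (nat_lit 0) (nat_lit 0) (XT.lf (nat_lit 0) (nat_lit 373272328) (nat_lit 1748) (nat_lit 4993655955) (nat_lit 1824) (nat_lit 3510603391) (nat_lit 375) (nat_lit 5) (nat_lit 398) (nat_lit 5) (nat_lit 399) (nat_lit 5) (nat_lit 430) (nat_lit 398) (nat_lit 312)) (XT.lf (nat_lit 0) (nat_lit 5349514171)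 (nat_lit 1748) (nat_lit 1826078469) (nat_lit 1824) (nat_lit 1782577566) (nat_lit 375) (nat_lit 5) (nat_lit 398) (nat_lit 5) (nat_lit 399) (nat_lit 5) (nat_lit 431) (nat_lit 398) (nat_lit 311))) (XT.nd (nat_lit 78) (nat_lit 988) (nat_lit 0) (XT.lf (nat_lit 0) (nat_lit 1369268477) (nat_lit 988) (nat_lit 7642785540) (nat_lit 1064) (nat_lit 28549014) (nat_lit 362) (nat_lit 5) (nat_lit 375) (nat_lit 5) (nat_lit 376) (nat_lit 5) (nat_lit 432) (nat_lit 398) (nat_lit 310)) (XT.nd (nat_lit 78) (nat_lit 912) (nat_lit 0) (XT.lf (nat_lit 0) (nat_lit 1747725880) (nat_lit 1064) (nat_lit 2676845715) (nat_lit 76) (nat_lit 4699692640) (nat_lit 361) (nat_lit 5) (nat_lit 375) (nat_lit 5) (nat_lit 362) (nat_lit 5) (nat_lit 433) (nat_lit 398) (nat_lit 309)) (XT.lf (nat_lit 0) (nat_lit 2425002139) (nat_lit 912) (nat_lit 1124187183) (nat_lit 988) (nat_lit 5660617848) (nat_lit 349) (nat_lit 5) (nat_lit 361) (nat_lit 5) (nat_lit 362)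 (nat_lit 5) (nat_lit 434) (nat_lit 398) (nat_lit 308))))))) (XT.nd (nat_lit 780) (nat_lit 4864) (nat_lit 0) (XT.nd (nat_lit 390) (nat_lit 1596) (nat_lit 0) (XT.nd (nat_lit 156) (nat_lit 1672) (nat_lit 0) (XT.nd (nat_lit 78) (nat_lit 836) (nat_lit 0) (XT.lf (nat_lit 0) (nat_lit 5393979197) (nat_lit 988) (nat_lit 1670722247) (nat_lit 76) (nat_lit 2232226509) (nat_lit 349) (nat_lit 5) (nat_lit 362) (nat_lit 5) (nat_lit 350) (nat_lit 5) (nat_lit 435) (nat_lit 398) (nat_lit 307)) (XT.lf (nat_lit 0) (nat_lit 3560863313) (nat_lit 836) (nat_lit 3720520183) (nat_lit 912) (nat_lit 2104305959) (nat_lit 338) (nat_lit 5) (nat_lit 349) (nat_lit 5) (nat_lit 350) (nat_lit 5) (nat_lit 436) (nat_lit 398) (nat_lit 306))) (XT.nd (nat_lit 78) (nat_lit 1672) (nat_lit 0) (XT.lf (nat_lit 0) (nat_lit 8895850497) (nat_lit 836) (nat_lit 297383149) (nat_lit 912) (nat_lit 283271015) (nat_lit 338) (nat_lit 5) (nat_lit 349) (nat_lit 5) (nat_lit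 350) (nat_lit 5) (nat_lit 437) (nat_lit 398) (nat_lit 305)) (XT.nd (nat_lit 78) (nat_lit 760) (nat_lit 0) (XT.lf (nat_lit 0) (nat_lit 1581498278) (nat_lit 912) (nat_lit 4792464570) (nat_lit 76) (nat_lit 3194421668) (nat_lit 326) (nat_lit 5) (nat_lit 338) (nat_lit 5) (nat_lit 327) (nat_lit 5) (nat_lit 438) (nat_lit 398) (nat_lit 304)) (XT.lf (nat_lit 0) (nat_lit 564932735) (nat_lit 760) (nat_lit 2900519605) (nat_lit 836) (nat_lit 6196910245) (nat_lit 316) (nat_lit 5) (nat_lit 326) (nat_lit 5) (nat_lit 327) (nat_lit 5) (nat_lit 439) (nat_lit 398) (nat_lit 303))))) (XT.nd (nat_lit 156) (nat_lit 836) (nat_lit 0) (XT.nd (nat_lit 78) (nat_lit 760) (nat_lit 0) (XT.lf (nat_lit 0) (nat_lit 5400059124) (nat_lit 836) (nat_lit 3691919564) (nat_lit 76) (nat_lit 665993536) (nat_lit 316) (nat_lit 5) (nat_lit 327) (nat_lit 5) (nat_lit 317) (nat_lit 5) (nat_lit 440) (nat_lit 398) (nat_lit 302)) (XT.lf (nat_lit 0) (nat_lit 1802207051)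 (nat_lit 760) (nat_lit 5578952876) (nat_lit 836) (nat_lit 2474189349) (nat_lit 306) (nat_lit 5) (nat_lit 316) (nat_lit 5) (nat_lit 317) (nat_lit 5) (nat_lit 441) (nat_lit 398) (nat_lit 301))) (XT.nd (nat_lit 78) (nat_lit 836) (nat_lit 0) (XT.lf (nat_lit 0) (nat_lit 7432497111) (nat_lit 760) (nat_lit 1971351186) (nat_lit 836) (nat_lit 550797296) (nat_lit 306) (nat_lit 5) (nat_lit 316) (nat_lit 5) (nat_lit 317) (nat_lit 5) (nat_lit 442) (nat_lit 398) (nat_lit 300)) (XT.nd (nat_lit 78) (nat_lit 0) (nat_lit 0) (XT.lf (nat_lit 0) (nat_lit 1401622942) (nat_lit 836) (nat_lit 6939363488) (nat_lit 76) (nat_lit 1714587450) (nat_lit 295) (nat_lit 5) (nat_lit 306) (nat_lit 5) (nat_lit 296) (nat_lit 5) (nat_lit 443) (nat_lit 398) (nat_lit 299)) (XT.lf (nat_lit 0) (nat_lit 3393576318) (nat_lit 836) (nat_lit 1297372205) (nat_lit 76) (nat_lit 5467352595) (nat_lit 295) (nat_lit 5) (nat_lit 306) (nat_lit 5) (nat_lit 296) (nat_lit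 5) (nat_lit 444) (nat_lit 398) (nat_lit 298)))))) (XT.nd (nat_lit 390) (nat_lit 2660) (nat_lit 0) (XT.nd (nat_lit 156) (nat_lit 760) (nat_lit 0) (XT.nd (nat_lit 78) (nat_lit 684) (nat_lit 0) (XT.lf (nat_lit 0) (nat_lit 4492953673) (nat_lit 760) (nat_lit 939783067) (nat_lit 836) (nat_lit 4830208997) (nat_lit 285) (nat_lit 5) (nat_lit 295) (nat_lit 5) (nat_lit 296) (nat_lit 5) (nat_lit 445) (nat_lit 398) (nat_lit 297)) (XT.lf (nat_lit 0) (nat_lit 4720818) (nat_lit 684) (nat_lit 7513956138) (nat_lit 760) (nat_lit 2850896358) (nat_lit 276) (nat_lit 5) (nat_lit 285) (nat_lit 5) (nat_lit 286) (nat_lit 5) (nat_lit 446) (nat_lit 398) (nat_lit 296))) (XT.nd (nat_lit 78) (nat_lit 760) (nat_lit 0) (XT.lf (nat_lit 0) (nat_lit 5943285100) (nat_lit 684) (nat_lit 3726684525) (nat_lit 760) (nat_lit 807900944) (nat_lit 276) (nat_lit 5) (nat_lit 285) (nat_lit 5) (nat_lit 286) (nat_lit 5) (nat_lit 447) (nat_lit 398) (nat_lit 295))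 (XT.nd (nat_lit 78) (nat_lit 0) (nat_lit 0) (XT.lf (nat_lit 0) (nat_lit 1248288454) (nat_lit 760) (nat_lit 9190427126) (nat_lit 76) (nat_lit 149680551) (nat_lit 266) (nat_lit 5) (nat_lit 276) (nat_lit 5) (nat_lit 267) (nat_lit 5) (nat_lit 448) (nat_lit 398) (nat_lit 294)) (XT.lf (nat_lit 0) (nat_lit 3369350448) (nat_lit 760) (nat_lit 3243744411) (nat_lit 76) (nat_lit 4087248445) (nat_lit 266) (nat_lit 5) (nat_lit 276) (nat_lit 5) (nat_lit 267) (nat_lit 5) (nat_lit 449) (nat_lit 398) (nat_lit 293))))) (XT.nd (nat_lit 234) (nat_lit 1292) (nat_lit 0) (XT.nd (nat_lit 78) (nat_lit 684) (nat_lit 0) (XT.lf (nat_lit 0) (nat_lit 2835897641) (nat_lit 684) (nat_lit 2695001005) (nat_lit 760) (nat_lit 5283678529) (nat_lit 257) (nat_lit 5) (nat_lit 266) (nat_lit 5) (nat_lit 267) (nat_lit 5) (nat_lit 450) (nat_lit 398) (nat_lit 292)) (XT.nd (nat_lit 78) (nat_lit 684) (nat_lit 0) (XT.lf (nat_lit 0) (nat_lit 7745922138) (nat_lit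 760) (nat_lit 1881559197) (nat_lit 76) (nat_lit 1303418376) (nat_lit 257) (nat_lit 5) (nat_lit 267) (nat_lit 5) (nat_lit 258) (nat_lit 5) (nat_lit 451) (nat_lit 398) (nat_lit 291)) (XT.lf (nat_lit 0) (nat_lit 4353808701) (nat_lit 684) (nat_lit 5677830389) (nat_lit 760) (nat_lit 1017390452) (nat_lit 248) (nat_lit 5) (nat_lit 257) (nat_lit 5) (nat_lit 258) (nat_lit 5) (nat_lit 452) (nat_lit 398) (nat_lit 290)))) (XT.nd (nat_lit 78) (nat_lit 1216) (nat_lit 0) (XT.lf (nat_lit 0) (nat_lit 1170983416) (nat_lit 760) (nat_lit 460779667) (nat_lit 76) (nat_lit 9537750492) (nat_lit 247) (nat_lit 5) (nat_lit 257) (nat_lit 5) (nat_lit 248) (nat_lit 5) (nat_lit 453) (nat_lit 398) (nat_lit 289)) (XT.nd (nat_lit 78) (nat_lit 608) (nat_lit 0) (XT.lf (nat_lit 0) (nat_lit 3425368999) (nat_lit 684) (nat_lit 5361377743) (nat_lit 76) (nat_lit 2504816905) (nat_lit 239) (nat_lit 5) (nat_lit 248) (nat_lit 5) (nat_lit 240) (nat_lit 5)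 (nat_lit 454) (nat_lit 398) (nat_lit 288)) (XT.lf (nat_lit 0) (nat_lit 1018929578) (nat_lit 608) (nat_lit 4707419542) (nat_lit 684) (nat_lit 5689683504) (nat_lit 231) (nat_lit 5) (nat_lit 239) (nat_lit 5) (nat_lit 240) (nat_lit 5) (nat_lit 455) (nat_lit 398) (nat_lit 287))))))))
noncomputable def xc147 : XT := (XT.nd (nat_lit 1638) (nat_lit 4788) (nat_lit 0) (XT.nd (nat_lit 780) (nat_lit 3040) (nat_lit 0) (XT.nd (nat_lit 390) (nat_lit 1672) (nat_lit 0) (XT.nd (nat_lit 156) (nat_lit 684) (nat_lit 0) (XT.nd (nat_lit 78) (nat_lit 608) (nat_lit 0) (XT.lf (nat_lit 0) (nat_lit 7576837228) (nat_lit 608) (nat_lit 513687446) (nat_lit 684) (nat_lit 3452130671) (nat_lit 231) (nat_lit 5) (nat_lit 239) (nat_lit 5) (nat_lit 240) (nat_lit 5) (nat_lit 456) (nat_lit 398) (nat_lit 286)) (XT.lf (nat_lit 0) (nat_lit 2580916144) (nat_lit 608) (nat_lit 7943804613) (nat_lit 684) (nat_lit 1146642750) (nat_lit 223) (nat_lit 5) (nat_lit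 231) (nat_lit 5) (nat_lit 232) (nat_lit 5) (nat_lit 457) (nat_lit 398) (nat_lit 285))) (XT.nd (nat_lit 78) (nat_lit 608) (nat_lit 0) (XT.lf (nat_lit 0) (nat_lit 1200972687) (nat_lit 684) (nat_lit 2523862927) (nat_lit 76) (nat_lit 8077424760) (nat_lit 222) (nat_lit 5) (nat_lit 231) (nat_lit 5) (nat_lit 223) (nat_lit 5) (nat_lit 458) (nat_lit 398) (nat_lit 284)) (XT.nd (nat_lit 78) (nat_lit 0) (nat_lit 0) (XT.lf (nat_lit 0) (nat_lit 3593415517) (nat_lit 684) (nat_lit 7740116688) (nat_lit 76) (nat_lit 601834095) (nat_lit 214) (nat_lit 5) (nat_lit 223) (nat_lit 5) (nat_lit 215) (nat_lit 5) (nat_lit 459) (nat_lit 398) (nat_lit 283)) (XT.lf (nat_lit 0) (nat_lit 6057595614) (nat_lit 684) (nat_lit 1035054127) (nat_lit 76) (nat_lit 4978013974) (nat_lit 214) (nat_lit 5) (nat_lit 223) (nat_lit 5) (nat_lit 215) (nat_lit 5) (nat_lit 460) (nat_lit 398) (nat_lit 282))))) (XT.nd (nat_lit 156) (nat_lit 608) (nat_lit 0) (XT.nd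 (nat_lit 78) (nat_lit 532) (nat_lit 0) (XT.lf (nat_lit 0) (nat_lit 5858956250) (nat_lit 532) (nat_lit 2732664874) (nat_lit 608) (nat_lit 3616641716) (nat_lit 207) (nat_lit 5) (nat_lit 214) (nat_lit 5) (nat_lit 215) (nat_lit 5) (nat_lit 461) (nat_lit 398) (nat_lit 281)) (XT.lf (nat_lit 0) (nat_lit 530002793) (nat_lit 532) (nat_lit 10650581783) (nat_lit 608) (nat_lit 1167951087) (nat_lit 200) (nat_lit 5) (nat_lit 207) (nat_lit 5) (nat_lit 208) (nat_lit 5) (nat_lit 462) (nat_lit 398) (nat_lit 280))) (XT.nd (nat_lit 78) (nat_lit 532) (nat_lit 0) (XT.lf (nat_lit 0) (nat_lit 1356029531) (nat_lit 608) (nat_lit 4907072011) (nat_lit 76) (nat_lit 6227471214) (nat_lit 199) (nat_lit 5) (nat_lit 207) (nat_lit 5) (nat_lit 200) (nat_lit 5) (nat_lit 463) (nat_lit 398) (nat_lit 279)) (XT.nd (nat_lit 78) (nat_lit 0) (nat_lit 0) (XT.lf (nat_lit 0) (nat_lit 2141138794) (nat_lit 532) (nat_lit 1770735408) (nat_lit 608) (nat_lit 8723487984)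 (nat_lit 192) (nat_lit 5) (nat_lit 199) (nat_lit 5) (nat_lit 200) (nat_lit 5) (nat_lit 464) (nat_lit 398) (nat_lit 278)) (XT.lf (nat_lit 0) (nat_lit 6553501978) (nat_lit 608) (nat_lit 3426020793) (nat_lit 76) (nat_lit 2802837650) (nat_lit 192) (nat_lit 5) (nat_lit 200) (nat_lit 5) (nat_lit 193) (nat_lit 5) (nat_lit 465) (nat_lit 398) (nat_lit 277)))))) (XT.nd (nat_lit 390) (nat_lit 1444) (nat_lit 0) (XT.nd (nat_lit 156) (nat_lit 1064) (nat_lit 0) (XT.nd (nat_lit 78) (nat_lit 0) (nat_lit 0) (XT.lf (nat_lit 0) (nat_lit 3800098916) (nat_lit 532) (nat_lit 5467856136) (nat_lit 608) (nat_lit 3663949930) (nat_lit 185) (nat_lit 5) (nat_lit 192) (nat_lit 5) (nat_lit 193) (nat_lit 5) (nat_lit 466) (nat_lit 398) (nat_lit 276)) (XT.lf (nat_lit 0) (nat_lit 11195764272) (nat_lit 532) (nat_lit 847699218) (nat_lit 608) (nat_lit 1040847708) (nat_lit 185) (nat_lit 5) (nat_lit 192) (nat_lit 5) (nat_lit 193) (nat_lit 5) (nat_lit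 467) (nat_lit 398) (nat_lit 275))) (XT.nd (nat_lit 78) (nat_lit 532) (nat_lit 0) (XT.lf (nat_lit 0) (nat_lit 1658599766) (nat_lit 532) (nat_lit 7724116939) (nat_lit 76) (nat_lit 3855935961) (nat_lit 178) (nat_lit 5) (nat_lit 185) (nat_lit 5) (nat_lit 179) (nat_lit 5) (nat_lit 468) (nat_lit 398) (nat_lit 274)) (XT.nd (nat_lit 78) (nat_lit 532) (nat_lit 0) (XT.lf (nat_lit 0) (nat_lit 4400609251) (nat_lit 532) (nat_lit 338503667) (nat_lit 76) (nat_lit 8656785988) (nat_lit 178) (nat_lit 5) (nat_lit 185) (nat_lit 5) (nat_lit 179) (nat_lit 5) (nat_lit 469) (nat_lit 398) (nat_lit 273)) (XT.lf (nat_lit 0) (nat_lit 7229353225) (nat_lit 608) (nat_lit 6286710774) (nat_lit 76) (nat_lit 39593813) (nat_lit 171) (nat_lit 5) (nat_lit 179) (nat_lit 5) (nat_lit 172) (nat_lit 5) (nat_lit 470) (nat_lit 398) (nat_lit 272))))) (XT.nd (nat_lit 234) (nat_lit 456) (nat_lit 0) (XT.nd (nat_lit 78) (nat_lit 532) (nat_lit 0) (XT.lf (nat_lit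 0) (nat_lit 1278854736) (nat_lit 456) (nat_lit 8862364101) (nat_lit 532) (nat_lit 3576867642) (nat_lit 165) (nat_lit 5) (nat_lit 171) (nat_lit 5) (nat_lit 172) (nat_lit 5) (nat_lit 471) (nat_lit 398) (nat_lit 271)) (XT.nd (nat_lit 78) (nat_lit 532) (nat_lit 0) (XT.lf (nat_lit 0) (nat_lit 9060001729) (nat_lit 456) (nat_lit 4078245822) (nat_lit 532) (nat_lit 744983064) (nat_lit 165) (nat_lit 5) (nat_lit 171) (nat_lit 5) (nat_lit 172) (nat_lit 5) (nat_lit 472) (nat_lit 398) (nat_lit 270)) (XT.lf (nat_lit 0) (nat_lit 2124893813) (nat_lit 532) (nat_lit 11107596853) (nat_lit 76) (nat_lit 818724472) (nat_lit 158) (nat_lit 5) (nat_lit 165) (nat_lit 5) (nat_lit 159) (nat_lit 5) (nat_lit 473) (nat_lit 398) (nat_lit 269)))) (XT.nd (nat_lit 78) (nat_lit 456) (nat_lit 0) (XT.lf (nat_lit 0) (nat_lit 5086849418) (nat_lit 532) (nat_lit 3343757988) (nat_lit 76) (nat_lit 5790965426) (nat_lit 158) (nat_lit 5) (nat_lit 165) (nat_lit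 5) (nat_lit 159) (nat_lit 5) (nat_lit 474) (nat_lit 398) (nat_lit 268)) (XT.nd (nat_lit 78) (nat_lit 0) (nat_lit 0) (XT.lf (nat_lit 0) (nat_lit 4615426821) (nat_lit 456) (nat_lit 3507934890) (nat_lit 532) (nat_lit 6271674616) (nat_lit 152) (nat_lit 5) (nat_lit 158) (nat_lit 5) (nat_lit 159) (nat_lit 5) (nat_lit 475) (nat_lit 398) (nat_lit 267)) (XT.lf (nat_lit 0) (nat_lit 11238484393) (nat_lit 532) (nat_lit 1822957964) (nat_lit 76) (nat_lit 1510174032) (nat_lit 152) (nat_lit 5) (nat_lit 159) (nat_lit 5) (nat_lit 153) (nat_lit 5) (nat_lit 476) (nat_lit 398) (nat_lit 266))))))) (XT.nd (nat_lit 780) (nat_lit 2204) (nat_lit 0) (XT.nd (nat_lit 390) (nat_lit 1216) (nat_lit 0) (XT.nd (nat_lit 156) (nat_lit 836) (nat_lit 0) (XT.nd (nat_lit 78) (nat_lit 76) (nat_lit 0) (XT.lf (nat_lit 0) (nat_lit 6332465054) (nat_lit 456) (nat_lit 8133543852) (nat_lit 532) (nat_lit 284721962) (nat_lit 146) (nat_lit 5) (nat_lit 152) (nat_lit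 5) (nat_lit 153) (nat_lit 5) (nat_lit 477) (nat_lit 398) (nat_lit 265)) (XT.lf (nat_lit 0) (nat_lit 2785729040) (nat_lit 532) (nat_lit 296138434) (nat_lit 76) (nat_lit 11851235618) (nat_lit 145) (nat_lit 5) (nat_lit 152) (nat_lit 5) (nat_lit 146) (nat_lit 5) (nat_lit 478) (nat_lit 398) (nat_lit 264))) (XT.nd (nat_lit 78) (nat_lit 456) (nat_lit 0) (XT.lf (nat_lit 0) (nat_lit 5966042053) (nat_lit 456) (nat_lit 7059512077) (nat_lit 76) (nat_lit 2092490209) (nat_lit 140) (nat_lit 5) (nat_lit 146) (nat_lit 5) (nat_lit 141) (nat_lit 5) (nat_lit 479) (nat_lit 398) (nat_lit 263)) (XT.nd (nat_lit 78) (nat_lit 0) (nat_lit 0) (XT.lf (nat_lit 0) (nat_lit 1253730014) (nat_lit 456) (nat_lit 7972970746) (nat_lit 532) (nat_lit 6079653300) (nat_lit 134) (nat_lit 5) (nat_lit 140) (nat_lit 5) (nat_lit 141) (nat_lit 5) (nat_lit 480) (nat_lit 398) (nat_lit 262)) (XT.lf (nat_lit 0) (nat_lit 9809105838) (nat_lit 456) (nat_lit 2777171192)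 (nat_lit 532) (nat_lit 2911483207) (nat_lit 134) (nat_lit 5) (nat_lit 140) (nat_lit 5) (nat_lit 141) (nat_lit 5) (nat_lit 481) (nat_lit 398) (nat_lit 261))))) (XT.nd (nat_lit 156) (nat_lit 760) (nat_lit 0) (XT.nd (nat_lit 78) (nat_lit 0) (nat_lit 0) (XT.lf (nat_lit 0) (nat_lit 337392632) (nat_lit 456) (nat_lit 12850945330) (nat_lit 76) (nat_lit 2504188403) (nat_lit 128) (nat_lit 5) (nat_lit 134) (nat_lit 5) (nat_lit 129) (nat_lit 5) (nat_lit 482) (nat_lit 398) (nat_lit 260)) (XT.lf (nat_lit 0) (nat_lit 3655720815) (nat_lit 456) (nat_lit 4328539709) (nat_lit 76) (nat_lit 7905677302) (nat_lit 128) (nat_lit 5) (nat_lit 134) (nat_lit 5) (nat_lit 129) (nat_lit 5) (nat_lit 483) (nat_lit 398) (nat_lit 259))) (XT.nd (nat_lit 78) (nat_lit 380) (nat_lit 0) (XT.lf (nat_lit 0) (nat_lit 4402721462) (nat_lit 380) (nat_lit 2653146751) (nat_lit 456) (nat_lit 9035124270) (nat_lit 123) (nat_lit 5) (nat_lit 128) (nat_lit 5) (nat_lit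 129) (nat_lit 5) (nat_lit 484) (nat_lit 398) (nat_lit 258)) (XT.nd (nat_lit 78) (nat_lit 380) (nat_lit 0) (XT.lf (nat_lit 0) (nat_lit 10558296857) (nat_lit 456) (nat_lit 2965908182) (nat_lit 76) (nat_lit 2771181569) (nat_lit 123) (nat_lit 5) (nat_lit 129) (nat_lit 5) (nat_lit 124) (nat_lit 5) (nat_lit 485) (nat_lit 398) (nat_lit 257)) (XT.lf (nat_lit 0) (nat_lit 5972612832) (nat_lit 380) (nat_lit 8201725357) (nat_lit 456) (nat_lit 2328663008) (nat_lit 118) (nat_lit 5) (nat_lit 123) (nat_lit 5) (nat_lit 124) (nat_lit 5) (nat_lit 486) (nat_lit 398) (nat_lit 256)))))) (XT.nd (nat_lit 390) (nat_lit 1064) (nat_lit 0) (XT.nd (nat_lit 156) (nat_lit 684) (nat_lit 0) (XT.nd (nat_lit 78) (nat_lit 380) (nat_lit 0) (XT.lf (nat_lit 0) (nat_lit 1140167233) (nat_lit 456) (nat_lit 1610945244) (nat_lit 76) (nat_lit 13963364445) (nat_lit 117) (nat_lit 5) (nat_lit 123) (nat_lit 5) (nat_lit 118) (nat_lit 5) (nat_lit 487) (nat_lit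 398) (nat_lit 255)) (XT.lf (nat_lit 0) (nat_lit 4702380321) (nat_lit 456) (nat_lit 9395983356) (nat_lit 76) (nat_lit 2830410536) (nat_lit 112) (nat_lit 5) (nat_lit 118) (nat_lit 5) (nat_lit 113) (nat_lit 5) (nat_lit 488) (nat_lit 398) (nat_lit 254))) (XT.nd (nat_lit 78) (nat_lit 684) (nat_lit 0) (XT.lf (nat_lit 0) (nat_lit 8352528189) (nat_lit 456) (nat_lit 303004731) (nat_lit 76) (nat_lit 8491494289) (nat_lit 112) (nat_lit 5) (nat_lit 118) (nat_lit 5) (nat_lit 113) (nat_lit 5) (nat_lit 489) (nat_lit 398) (nat_lit 253)) (XT.nd (nat_lit 78) (nat_lit 380) (nat_lit 0) (XT.lf (nat_lit 0) (nat_lit 9072377092) (nat_lit 304) (nat_lit 3050038506) (nat_lit 380) (nat_lit 5246298436) (nat_lit 108) (nat_lit 5) (nat_lit 112) (nat_lit 5) (nat_lit 113) (nat_lit 5) (nat_lit 490) (nat_lit 398) (nat_lit 252)) (XT.lf (nat_lit 0) (nat_lit 1022127692) (nat_lit 380) (nat_lit 14959487375) (nat_lit 456) (nat_lit 1612944672) (nat_lit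 103) (nat_lit 5) (nat_lit 108) (nat_lit 5) (nat_lit 109) (nat_lit 5) (nat_lit 491) (nat_lit 398) (nat_lit 251))))) (XT.nd (nat_lit 234) (nat_lit 684) (nat_lit 0) (XT.nd (nat_lit 78) (nat_lit 304) (nat_lit 0) (XT.lf (nat_lit 0) (nat_lit 2129812043) (nat_lit 456) (nat_lit 7237111681) (nat_lit 76) (nat_lit 8456446400) (nat_lit 102) (nat_lit 5) (nat_lit 108) (nat_lit 5) (nat_lit 103) (nat_lit 5) (nat_lit 492) (nat_lit 398) (nat_lit 250)) (XT.nd (nat_lit 78) (nat_lit 0) (nat_lit 0) (XT.lf (nat_lit 0) (nat_lit 2286012683) (nat_lit 304) (nat_lit 3642859258) (nat_lit 380) (nat_lit 12127613870) (nat_lit 98) (nat_lit 5) (nat_lit 102) (nat_lit 5) (nat_lit 103) (nat_lit 5) (nat_lit 493) (nat_lit 398) (nat_lit 249)) (XT.lf (nat_lit 0) (nat_lit 9855311105) (nat_lit 380) (nat_lit 6228447679) (nat_lit 76) (nat_lit 2209480236) (nat_lit 98) (nat_lit 5) (nat_lit 103) (nat_lit 5) (nat_lit 99) (nat_lit 5) (nat_lit 494) (nat_lit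 398) (nat_lit 248)))) (XT.nd (nat_lit 78) (nat_lit 380) (nat_lit 0) (XT.lf (nat_lit 0) (nat_lit 3508386723) (nat_lit 304) (nat_lit 10387282040) (nat_lit 380) (nat_lit 4638353844) (nat_lit 94) (nat_lit 5) (nat_lit 98) (nat_lit 5) (nat_lit 99) (nat_lit 5) (nat_lit 495) (nat_lit 398) (nat_lit 247)) (XT.nd (nat_lit 78) (nat_lit 380) (nat_lit 0) (XT.lf (nat_lit 0) (nat_lit 13506584172) (nat_lit 304) (nat_lit 4540641789) (nat_lit 380) (nat_lit 731791103) (nat_lit 94) (nat_lit 5) (nat_lit 98) (nat_lit 5) (nat_lit 99) (nat_lit 5) (nat_lit 496) (nat_lit 398) (nat_lit 246)) (XT.lf (nat_lit 0) (nat_lit 3239029919) (nat_lit 380) (nat_lit 14338912708) (nat_lit 76) (nat_lit 1449973523) (nat_lit 89) (nat_lit 5) (nat_lit 94) (nat_lit 5) (nat_lit 90) (nat_lit 5) (nat_lit 497) (nat_lit 398) (nat_lit 245))))))))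
noncomputable def xc148 : XT := (XT.nd (nat_lit 52806) (nat_lit 0) (nat_lit 21280) (XT.nd (nat_lit 52026) (nat_lit 0) (nat_lit 32908) (XT.nd (nat_lit 51636) (nat_lit 0) (nat_lit 35264) (XT.nd (nat_lit 156) (nat_lit 304) (nat_lit 0) (XT.nd (nat_lit 78) (nat_lit 304) (nat_lit 0) (XT.lf (nat_lit 0) (nat_lit 7333972278) (nat_lit 380) (nat_lit 4412773213) (nat_lit 76) (nat_lit 7533863782) (nat_lit 89) (nat_lit 5) (nat_lit 94) (nat_lit 5) (nat_lit 90) (nat_lit 5) (nat_lit 498) (nat_lit 398) (nat_lit 244)) (XT.lf (nat_lit 0) (nat_lit 5770239101) (nat_lit 304) (nat_lit 5767066891) (nat_lit 380) (nat_lit 8000523232) (nat_lit 85) (nat_lit 5) (nat_lit 89) (nat_lit 5) (nat_lit 90) (nat_lit 5) (nat_lit 499) (nat_lit 398) (nat_lit 243))) (XT.nd (nat_lit 78) (nat_lit 304) (nat_lit 0) (XT.lf (nat_lit 0) (nat_lit 15845761874) (nat_lit 380) (nat_lit 3602618996) (nat_lit 76) (nat_lit 351394353) (nat_lit 85) (nat_lit 5) (nat_lit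 90) (nat_lit 5) (nat_lit 86) (nat_lit 5) (nat_lit 500) (nat_lit 398) (nat_lit 242)) (XT.nd (nat_lit 78) (nat_lit 0) (nat_lit 0) (XT.lf (nat_lit 0) (nat_lit 243268287) (nat_lit 304) (nat_lit 13267545163) (nat_lit 76) (nat_lit 6554684502) (nat_lit 81) (nat_lit 5) (nat_lit 85) (nat_lit 5) (nat_lit 82) (nat_lit 5) (nat_lit 501) (nat_lit 398) (nat_lit 241)) (XT.lf (nat_lit 0) (nat_lit 4485267701) (nat_lit 304) (nat_lit 2924110579) (nat_lit 76) (nat_lit 12926362409) (nat_lit 81) (nat_lit 5) (nat_lit 85) (nat_lit 5) (nat_lit 82) (nat_lit 5) (nat_lit 502) (nat_lit 398) (nat_lit 240))))) (XT.nd (nat_lit 156) (nat_lit 1064) (nat_lit 0) (XT.nd (nat_lit 78) (nat_lit 0) (nat_lit 0) (XT.lf (nat_lit 0) (nat_lit 977803534) (nat_lit 1140) (nat_lit 1295906271) (nat_lit 1140) (nat_lit 1295906271) (nat_lit 559) (nat_lit 3) (nat_lit 574) (nat_lit 3) (nat_lit 574) (nat_lit 5) (nat_lit 399) (nat_lit 399) (nat_lit 342)) (XT.lf (nat_lit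 76) (nat_lit 801391529) (nat_lit 0) (nat_lit 2825082169) (nat_lit 1140) (nat_lit 3550036074) (nat_lit 560) (nat_lit 5) (nat_lit 559) (nat_lit 3) (nat_lit 574) (nat_lit 5) (nat_lit 400) (nat_lit 399) (nat_lit 341))) (XT.nd (nat_lit 78) (nat_lit 1064) (nat_lit 0) (XT.lf (nat_lit 76) (nat_lit 4275264500) (nat_lit 0) (nat_lit 1029562630) (nat_lit 1140) (nat_lit 1910252973) (nat_lit 560) (nat_lit 5) (nat_lit 559) (nat_lit 3) (nat_lit 574) (nat_lit 5) (nat_lit 401) (nat_lit 399) (nat_lit 340)) (XT.nd (nat_lit 78) (nat_lit 1140) (nat_lit 0) (XT.lf (nat_lit 76) (nat_lit 543209944) (nat_lit 0) (nat_lit 6439930975) (nat_lit 1140) (nat_lit 271981048) (nat_lit 561) (nat_lit 5) (nat_lit 560) (nat_lit 5) (nat_lit 575) (nat_lit 5) (nat_lit 402) (nat_lit 399) (nat_lit 339)) (XT.lf (nat_lit 0) (nat_lit 1365423768) (nat_lit 1140) (nat_lit 3199191736) (nat_lit 1216) (nat_lit 2731500071) (nat_lit 545) (nat_lit 5) (nat_lit 560)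 (nat_lit 5) (nat_lit 561) (nat_lit 5) (nat_lit 403) (nat_lit 399) (nat_lit 338)))))) (XT.nd (nat_lit 390) (nat_lit 1216) (nat_lit 0) (XT.nd (nat_lit 156) (nat_lit 1140) (nat_lit 0) (XT.nd (nat_lit 78) (nat_lit 0) (nat_lit 0) (XT.lf (nat_lit 76) (nat_lit 363876558) (nat_lit 0) (nat_lit 2629286657) (nat_lit 1216) (nat_lit 4345531694) (nat_lit 546) (nat_lit 5) (nat_lit 545) (nat_lit 5) (nat_lit 561) (nat_lit 5) (nat_lit 404) (nat_lit 399) (nat_lit 337)) (XT.lf (nat_lit 76) (nat_lit 4018845110) (nat_lit 0) (nat_lit 615602089) (nat_lit 1216) (nat_lit 2748084695) (nat_lit 546) (nat_lit 5) (nat_lit 545) (nat_lit 5) (nat_lit 561) (nat_lit 5) (nat_lit 405) (nat_lit 399) (nat_lit 336))) (XT.nd (nat_lit 78) (nat_lit 1216) (nat_lit 0) (XT.lf (nat_lit 76) (nat_lit 290930848) (nat_lit 0) (nat_lit 5989281873) (nat_lit 1216) (nat_lit 1147625134) (nat_lit 547) (nat_lit 5) (nat_lit 546) (nat_lit 5) (nat_lit 562) (nat_lit 5) (nat_lit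 406) (nat_lit 399) (nat_lit 335)) (XT.nd (nat_lit 78) (nat_lit 0) (nat_lit 0) (XT.lf (nat_lit 0) (nat_lit 466055157) (nat_lit 1216) (nat_lit 3440342627) (nat_lit 1292) (nat_lit 3567862155) (nat_lit 530) (nat_lit 5) (nat_lit 546) (nat_lit 5) (nat_lit 547) (nat_lit 5) (nat_lit 407) (nat_lit 399) (nat_lit 334)) (XT.lf (nat_lit 76) (nat_lit 303388357) (nat_lit 0) (nat_lit 1756779262) (nat_lit 1292) (nat_lit 5462044514) (nat_lit 531) (nat_lit 5) (nat_lit 530) (nat_lit 5) (nat_lit 547) (nat_lit 5) (nat_lit 408) (nat_lit 399) (nat_lit 333))))) (XT.nd (nat_lit 156) (nat_lit 1292) (nat_lit 0) (XT.nd (nat_lit 78) (nat_lit 0) (nat_lit 0) (XT.lf (nat_lit 0) (nat_lit 3674473864) (nat_lit 1216) (nat_lit 3428883783) (nat_lit 1292) (nat_lit 468022917) (nat_lit 531) (nat_lit 5) (nat_lit 547) (nat_lit 5) (nat_lit 548) (nat_lit 5) (nat_lit 409) (nat_lit 399) (nat_lit 332)) (XT.lf (nat_lit 76) (nat_lit 407160443) (nat_lit 0) (nat_lit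 4891166411) (nat_lit 1292) (nat_lit 2323683258) (nat_lit 532) (nat_lit 5) (nat_lit 531) (nat_lit 5) (nat_lit 548) (nat_lit 5) (nat_lit 410) (nat_lit 399) (nat_lit 331))) (XT.nd (nat_lit 78) (nat_lit 1292) (nat_lit 0) (XT.lf (nat_lit 76) (nat_lit 4343158677) (nat_lit 0) (nat_lit 2598065509) (nat_lit 1292) (nat_lit 732719234) (nat_lit 532) (nat_lit 5) (nat_lit 531) (nat_lit 5) (nat_lit 548) (nat_lit 5) (nat_lit 411) (nat_lit 399) (nat_lit 330)) (XT.nd (nat_lit 78) (nat_lit 0) (nat_lit 76) (XT.lf (nat_lit 76) (nat_lit 609891060) (nat_lit 0) (nat_lit 236473307) (nat_lit 1368) (nat_lit 6881097614) (nat_lit 515) (nat_lit 5) (nat_lit 514) (nat_lit 5) (nat_lit 532) (nat_lit 5) (nat_lit 412) (nat_lit 399) (nat_lit 329)) (XT.lf (nat_lit 0) (nat_lit 2448480425) (nat_lit 1292) (nat_lit 3150125440) (nat_lit 1368) (nat_lit 2183344159) (nat_lit 515) (nat_lit 5) (nat_lit 532) (nat_lit 5) (nat_lit 533) (nat_lit 5) (nat_lit 413)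 (nat_lit 399) (nat_lit 328))))))) (XT.nd (nat_lit 780) (nat_lit 9120) (nat_lit 0) (XT.nd (nat_lit 390) (nat_lit 1292) (nat_lit 0) (XT.nd (nat_lit 156) (nat_lit 1292) (nat_lit 0) (XT.nd (nat_lit 78) (nat_lit 0) (nat_lit 0) (XT.lf (nat_lit 76) (nat_lit 883209104) (nat_lit 0) (nat_lit 3172072321) (nat_lit 1368) (nat_lit 3782814349) (nat_lit 516) (nat_lit 5) (nat_lit 515) (nat_lit 5) (nat_lit 533) (nat_lit 5) (nat_lit 414) (nat_lit 399) (nat_lit 327)) (XT.lf (nat_lit 76) (nat_lit 5016588333) (nat_lit 0) (nat_lit 664639447) (nat_lit 1368) (nat_lit 2214416863) (nat_lit 516) (nat_lit 5) (nat_lit 515) (nat_lit 5) (nat_lit 533) (nat_lit 5) (nat_lit 415) (nat_lit 399) (nat_lit 326))) (XT.nd (nat_lit 78) (nat_lit 1368) (nat_lit 0) (XT.lf (nat_lit 76) (nat_lit 1258887488) (nat_lit 0) (nat_lit 6067877673) (nat_lit 1368) (nat_lit 627857877) (nat_lit 517) (nat_lit 5) (nat_lit 516) (nat_lit 5) (nat_lit 534) (nat_lit 5) (nat_lit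 416) (nat_lit 399) (nat_lit 325)) (XT.nd (nat_lit 78) (nat_lit 0) (nat_lit 0) (XT.lf (nat_lit 0) (nat_lit 968165655) (nat_lit 1368) (nat_lit 2530665645) (nat_lit 1444) (nat_lit 4516025842) (nat_lit 498) (nat_lit 5) (nat_lit 516) (nat_lit 5) (nat_lit 517) (nat_lit 5) (nat_lit 417) (nat_lit 399) (nat_lit 324)) (XT.lf (nat_lit 76) (nat_lit 1712549725) (nat_lit 0) (nat_lit 853802871) (nat_lit 1444) (nat_lit 5510306170) (nat_lit 499) (nat_lit 5) (nat_lit 498) (nat_lit 5) (nat_lit 517) (nat_lit 5) (nat_lit 418) (nat_lit 399) (nat_lit 323))))) (XT.nd (nat_lit 156) (nat_lit 1368) (nat_lit 0) (XT.nd (nat_lit 78) (nat_lit 0) (nat_lit 0) (XT.lf (nat_lit 0) (nat_lit 4193636117) (nat_lit 1368) (nat_lit 2100527992) (nat_lit 1444) (nat_lit 1845608122) (nat_lit 499) (nat_lit 5) (nat_lit 517) (nat_lit 5) (nat_lit 518) (nat_lit 5) (nat_lit 419) (nat_lit 399) (nat_lit 322)) (XT.lf (nat_lit 76) (nat_lit 2248613579) (nat_lit 0)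 (nat_lit 3593796709) (nat_lit 1444) (nat_lit 2361976886) (nat_lit 500) (nat_lit 5) (nat_lit 499) (nat_lit 5) (nat_lit 518) (nat_lit 5) (nat_lit 420) (nat_lit 399) (nat_lit 321))) (XT.nd (nat_lit 78) (nat_lit 1368) (nat_lit 0) (XT.lf (nat_lit 76) (nat_lit 6689818366) (nat_lit 0) (nat_lit 817590408) (nat_lit 1444) (nat_lit 763238417) (nat_lit 500) (nat_lit 5) (nat_lit 499) (nat_lit 5) (nat_lit 518) (nat_lit 5) (nat_lit 421) (nat_lit 399) (nat_lit 320)) (XT.nd (nat_lit 78) (nat_lit 0) (nat_lit 0) (XT.lf (nat_lit 0) (nat_lit 857690422) (nat_lit 1444) (nat_lit 5461118977) (nat_lit 76) (nat_lit 2019295571) (nat_lit 481) (nat_lit 5) (nat_lit 500) (nat_lit 5) (nat_lit 482) (nat_lit 5) (nat_lit 422) (nat_lit 399) (nat_lit 319)) (XT.lf (nat_lit 0) (nat_lit 2486951967) (nat_lit 1444) (nat_lit 995716939) (nat_lit 76) (nat_lit 4924436148) (nat_lit 481) (nat_lit 5) (nat_lit 500) (nat_lit 5) (nat_lit 482) (nat_lit 5) (nat_lit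 423) (nat_lit 399) (nat_lit 318)))))) (XT.nd (nat_lit 390) (nat_lit 4484) (nat_lit 0) (XT.nd (nat_lit 156) (nat_lit 3192) (nat_lit 0) (XT.nd (nat_lit 78) (nat_lit 0) (nat_lit 0) (XT.lf (nat_lit 0) (nat_lit 3582583742) (nat_lit 1444) (nat_lit 560094517) (nat_lit 1520) (nat_lit 4334945691) (nat_lit 462) (nat_lit 5) (nat_lit 481) (nat_lit 5) (nat_lit 482) (nat_lit 5) (nat_lit 424) (nat_lit 399) (nat_lit 317)) (XT.lf (nat_lit 0) (nat_lit 5825044708) (nat_lit 1520) (nat_lit 323108490) (nat_lit 76) (nat_lit 2401545591) (nat_lit 462) (nat_lit 5) (nat_lit 482) (nat_lit 5) (nat_lit 463) (nat_lit 5) (nat_lit 425) (nat_lit 399) (nat_lit 316))) (XT.nd (nat_lit 78) (nat_lit 1672) (nat_lit 0) (XT.lf (nat_lit 0) (nat_lit 4370466193) (nat_lit 1520) (nat_lit 3174325828) (nat_lit 1596) (nat_lit 1078364194) (nat_lit 442) (nat_lit 5) (nat_lit 462) (nat_lit 5) (nat_lit 463) (nat_lit 5) (nat_lit 426) (nat_lit 399) (nat_lit 315))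 (XT.nd (nat_lit 78) (nat_lit 0) (nat_lit 0) (XT.lf (nat_lit 0) (nat_lit 442499633) (nat_lit 1596) (nat_lit 127380125) (nat_lit 1672) (nat_lit 8128601989) (nat_lit 420) (nat_lit 5) (nat_lit 441) (nat_lit 5) (nat_lit 442) (nat_lit 5) (nat_lit 427) (nat_lit 399) (nat_lit 314)) (XT.lf (nat_lit 0) (nat_lit 2257021033) (nat_lit 1672) (nat_lit 3536268561) (nat_lit 76) (nat_lit 2981489056) (nat_lit 420) (nat_lit 5) (nat_lit 442) (nat_lit 5) (nat_lit 421) (nat_lit 5) (nat_lit 428) (nat_lit 399) (nat_lit 313))))) (XT.nd (nat_lit 234) (nat_lit 1064) (nat_lit 0) (XT.nd (nat_lit 78) (nat_lit 1748) (nat_lit 0) (XT.lf (nat_lit 0) (nat_lit 1270041676) (nat_lit 1672) (nat_lit 2689776561) (nat_lit 1748) (nat_lit 4893159553) (nat_lit 398) (nat_lit 5) (nat_lit 420) (nat_lit 5) (nat_lit 421) (nat_lit 5) (nat_lit 429) (nat_lit 399) (nat_lit 312)) (XT.nd (nat_lit 78) (nat_lit 1748) (nat_lit 0) (XT.lf (nat_lit 0) (nat_lit 5696873861)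 (nat_lit 1748) (nat_lit 2739126928) (nat_lit 76) (nat_lit 496750351) (nat_lit 398) (nat_lit 5) (nat_lit 421) (nat_lit 5) (nat_lit 399) (nat_lit 5) (nat_lit 430) (nat_lit 399) (nat_lit 311)) (XT.lf (nat_lit 0) (nat_lit 2188896871) (nat_lit 1748) (nat_lit 5285549415) (nat_lit 1824) (nat_lit 1539572153) (nat_lit 375) (nat_lit 5) (nat_lit 398) (nat_lit 5) (nat_lit 399) (nat_lit 5) (nat_lit 431) (nat_lit 399) (nat_lit 310)))) (XT.nd (nat_lit 78) (nat_lit 988) (nat_lit 0) (XT.lf (nat_lit 0) (nat_lit 180589865) (nat_lit 1824) (nat_lit 1869053556) (nat_lit 76) (nat_lit 7047407733) (nat_lit 374) (nat_lit 5) (nat_lit 398) (nat_lit 5) (nat_lit 375) (nat_lit 5) (nat_lit 432) (nat_lit 399) (nat_lit 309)) (XT.nd (nat_lit 78) (nat_lit 0) (nat_lit 0) (XT.lf (nat_lit 0) (nat_lit 1918082199) (nat_lit 1064) (nat_lit 5995450302) (nat_lit 76) (nat_lit 1267950841) (nat_lit 361) (nat_lit 5) (nat_lit 375) (nat_lit 5) (nat_lit 362)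 (nat_lit 5) (nat_lit 433) (nat_lit 399) (nat_lit 308)) (XT.lf (nat_lit 0) (nat_lit 3691327731) (nat_lit 1064) (nat_lit 937125886) (nat_lit 76) (nat_lit 4639143421) (nat_lit 361) (nat_lit 5) (nat_lit 375) (nat_lit 5) (nat_lit 362) (nat_lit 5) (nat_lit 434) (nat_lit 399) (nat_lit 307))))))))
noncomputable def xc149 : XT := (XT.nd (nat_lit 1638) (nat_lit 6612) (nat_lit 0) (XT.nd (nat_lit 780) (nat_lit 4256) (nat_lit 0) (XT.nd (nat_lit 390) (nat_lit 2356) (nat_lit 0) (XT.nd (nat_lit 156) (nat_lit 912) (nat_lit 0) (XT.nd (nat_lit 78) (nat_lit 836) (nat_lit 0) (XT.lf (nat_lit 0) (nat_lit 4254961183) (nat_lit 912) (nat_lit 1248001214) (nat_lit 988) (nat_lit 3852424802) (nat_lit 349) (nat_lit 5) (nat_lit 361) (nat_lit 5) (nat_lit 362) (nat_lit 5) (nat_lit 435) (nat_lit 399) (nat_lit 306)) (XT.lf (nat_lit 0) (nat_lit 81970739) (nat_lit 836) (nat_lit 7265647098) (nat_lit 912) (nat_lit 2097391995) (nat_lit 338) (nat_lit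 5) (nat_lit 349) (nat_lit 5) (nat_lit 350) (nat_lit 5) (nat_lit 436) (nat_lit 399) (nat_lit 305))) (XT.nd (nat_lit 78) (nat_lit 912) (nat_lit 0) (XT.lf (nat_lit 0) (nat_lit 5405369316) (nat_lit 836) (nat_lit 3842201146) (nat_lit 912) (nat_lit 288498558) (nat_lit 338) (nat_lit 5) (nat_lit 349) (nat_lit 5) (nat_lit 350) (nat_lit 5) (nat_lit 437) (nat_lit 399) (nat_lit 304)) (XT.nd (nat_lit 78) (nat_lit 0) (nat_lit 0) (XT.lf (nat_lit 0) (nat_lit 1188490379) (nat_lit 836) (nat_lit 331654510) (nat_lit 912) (nat_lit 8108934352) (nat_lit 326) (nat_lit 5) (nat_lit 337) (nat_lit 5) (nat_lit 338) (nat_lit 5) (nat_lit 438) (nat_lit 399) (nat_lit 303)) (XT.lf (nat_lit 0) (nat_lit 3386687338) (nat_lit 912) (nat_lit 3100133356) (nat_lit 76) (nat_lit 3236590532) (nat_lit 326) (nat_lit 5) (nat_lit 338) (nat_lit 5) (nat_lit 327) (nat_lit 5) (nat_lit 439) (nat_lit 399) (nat_lit 302))))) (XT.nd (nat_lit 156) (nat_lit 1596) (nat_lit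 0) (XT.nd (nat_lit 78) (nat_lit 0) (nat_lit 0) (XT.lf (nat_lit 0) (nat_lit 2352647549) (nat_lit 760) (nat_lit 2932430935) (nat_lit 836) (nat_lit 4534672266) (nat_lit 316) (nat_lit 5) (nat_lit 326) (nat_lit 5) (nat_lit 327) (nat_lit 5) (nat_lit 440) (nat_lit 399) (nat_lit 301)) (XT.lf (nat_lit 0) (nat_lit 7224223590) (nat_lit 836) (nat_lit 1989183648) (nat_lit 76) (nat_lit 704565141) (nat_lit 316) (nat_lit 5) (nat_lit 327) (nat_lit 5) (nat_lit 317) (nat_lit 5) (nat_lit 441) (nat_lit 399) (nat_lit 300))) (XT.nd (nat_lit 78) (nat_lit 836) (nat_lit 0) (XT.lf (nat_lit 0) (nat_lit 3603137510) (nat_lit 760) (nat_lit 5619617451) (nat_lit 836) (nat_lit 795002232) (nat_lit 306) (nat_lit 5) (nat_lit 316) (nat_lit 5) (nat_lit 317) (nat_lit 5) (nat_lit 442) (nat_lit 399) (nat_lit 299)) (XT.nd (nat_lit 78) (nat_lit 760) (nat_lit 0) (XT.lf (nat_lit 0) (nat_lit 1118103151) (nat_lit 836) (nat_lit 815647995) (nat_lit 76) (nat_lit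 8185821545) (nat_lit 305) (nat_lit 5) (nat_lit 316) (nat_lit 5) (nat_lit 306) (nat_lit 5) (nat_lit 443) (nat_lit 399) (nat_lit 298)) (XT.lf (nat_lit 0) (nat_lit 3081305999) (nat_lit 836) (nat_lit 5303185095) (nat_lit 76) (nat_lit 1838388895) (nat_lit 295) (nat_lit 5) (nat_lit 306) (nat_lit 5) (nat_lit 296) (nat_lit 5) (nat_lit 444) (nat_lit 399) (nat_lit 297)))))) (XT.nd (nat_lit 390) (nat_lit 2052) (nat_lit 0) (XT.nd (nat_lit 156) (nat_lit 1444) (nat_lit 0) (XT.nd (nat_lit 78) (nat_lit 0) (nat_lit 0) (XT.lf (nat_lit 0) (nat_lit 422382385) (nat_lit 760) (nat_lit 4661073137) (nat_lit 836) (nat_lit 5244814252) (nat_lit 285) (nat_lit 5) (nat_lit 295) (nat_lit 5) (nat_lit 296) (nat_lit 5) (nat_lit 445) (nat_lit 399) (nat_lit 296)) (XT.lf (nat_lit 0) (nat_lit 6311526725) (nat_lit 760) (nat_lit 828603701) (nat_lit 836) (nat_lit 3295357083) (nat_lit 285) (nat_lit 5) (nat_lit 295) (nat_lit 5) (nat_lit 296) (nat_lit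 5) (nat_lit 446) (nat_lit 399) (nat_lit 295))) (XT.nd (nat_lit 78) (nat_lit 760) (nat_lit 0) (XT.lf (nat_lit 0) (nat_lit 1753819661) (nat_lit 684) (nat_lit 7494804996) (nat_lit 760) (nat_lit 1296020831) (nat_lit 276) (nat_lit 5) (nat_lit 285) (nat_lit 5) (nat_lit 286) (nat_lit 5) (nat_lit 447) (nat_lit 399) (nat_lit 294)) (XT.nd (nat_lit 78) (nat_lit 684) (nat_lit 0) (XT.lf (nat_lit 0) (nat_lit 746310660) (nat_lit 760) (nat_lit 2883791314) (nat_lit 76) (nat_lit 7025542226) (nat_lit 275) (nat_lit 5) (nat_lit 285) (nat_lit 5) (nat_lit 276) (nat_lit 5) (nat_lit 448) (nat_lit 399) (nat_lit 293)) (XT.lf (nat_lit 0) (nat_lit 2814632617) (nat_lit 760) (nat_lit 7619230762) (nat_lit 76) (nat_lit 334787276) (nat_lit 266) (nat_lit 5) (nat_lit 276) (nat_lit 5) (nat_lit 267) (nat_lit 5) (nat_lit 449) (nat_lit 399) (nat_lit 292))))) (XT.nd (nat_lit 234) (nat_lit 1368) (nat_lit 0) (XT.nd (nat_lit 78) (nat_lit 684) (nat_lit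 0) (XT.lf (nat_lit 0) (nat_lit 4947892745) (nat_lit 760) (nat_lit 1588026253) (nat_lit 76) (nat_lit 4347535683) (nat_lit 266) (nat_lit 5) (nat_lit 276) (nat_lit 5) (nat_lit 267) (nat_lit 5) (nat_lit 450) (nat_lit 399) (nat_lit 291)) (XT.nd (nat_lit 78) (nat_lit 0) (nat_lit 0) (XT.lf (nat_lit 0) (nat_lit 4601888949) (nat_lit 684) (nat_lit 2532250199) (nat_lit 760) (nat_lit 3866217921) (nat_lit 257) (nat_lit 5) (nat_lit 266) (nat_lit 5) (nat_lit 267) (nat_lit 5) (nat_lit 451) (nat_lit 399) (nat_lit 290)) (XT.lf (nat_lit 0) (nat_lit 9365575061) (nat_lit 760) (nat_lit 214897868) (nat_lit 76) (nat_lit 1539103814) (nat_lit 257) (nat_lit 5) (nat_lit 267) (nat_lit 5) (nat_lit 258) (nat_lit 5) (nat_lit 452) (nat_lit 399) (nat_lit 289)))) (XT.nd (nat_lit 78) (nat_lit 608) (nat_lit 0) (XT.lf (nat_lit 0) (nat_lit 433086774) (nat_lit 760) (nat_lit 5109320714) (nat_lit 76) (nat_lit 5697971922) (nat_lit 247) (nat_lit 5) (nat_lit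 257) (nat_lit 5) (nat_lit 248) (nat_lit 5) (nat_lit 453) (nat_lit 399) (nat_lit 288)) (XT.nd (nat_lit 78) (nat_lit 0) (nat_lit 0) (XT.lf (nat_lit 0) (nat_lit 1225555432) (nat_lit 608) (nat_lit 1405446842) (nat_lit 684) (nat_lit 8732560590) (nat_lit 239) (nat_lit 5) (nat_lit 247) (nat_lit 5) (nat_lit 248) (nat_lit 5) (nat_lit 454) (nat_lit 399) (nat_lit 287)) (XT.lf (nat_lit 0) (nat_lit 4907006797) (nat_lit 684) (nat_lit 3773019275) (nat_lit 76) (nat_lit 2808509183) (nat_lit 239) (nat_lit 5) (nat_lit 248) (nat_lit 5) (nat_lit 240) (nat_lit 5) (nat_lit 455) (nat_lit 399) (nat_lit 286))))))) (XT.nd (nat_lit 780) (nat_lit 3040) (nat_lit 0) (XT.nd (nat_lit 390) (nat_lit 1672) (nat_lit 0) (XT.nd (nat_lit 156) (nat_lit 1292) (nat_lit 0) (XT.nd (nat_lit 78) (nat_lit 0) (nat_lit 0) (XT.lf (nat_lit 0) (nat_lit 2723739021) (nat_lit 608) (nat_lit 4513495502) (nat_lit 684) (nat_lit 4378606235) (nat_lit 231) (nat_lit 5) (nat_lit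 239) (nat_lit 5) (nat_lit 240) (nat_lit 5) (nat_lit 456) (nat_lit 399) (nat_lit 285)) (XT.lf (nat_lit 0) (nat_lit 9379776769) (nat_lit 608) (nat_lit 241537243) (nat_lit 684) (nat_lit 2124240991) (nat_lit 231) (nat_lit 5) (nat_lit 239) (nat_lit 5) (nat_lit 240) (nat_lit 5) (nat_lit 457) (nat_lit 399) (nat_lit 284))) (XT.nd (nat_lit 78) (nat_lit 608) (nat_lit 0) (XT.lf (nat_lit 0) (nat_lit 210044494) (nat_lit 684) (nat_lit 7579494258) (nat_lit 76) (nat_lit 4087566693) (nat_lit 222) (nat_lit 5) (nat_lit 231) (nat_lit 5) (nat_lit 223) (nat_lit 5) (nat_lit 458) (nat_lit 399) (nat_lit 283)) (XT.nd (nat_lit 78) (nat_lit 608) (nat_lit 0) (XT.lf (nat_lit 0) (nat_lit 2562522439) (nat_lit 684) (nat_lit 922214311) (nat_lit 76) (nat_lit 8526277452) (nat_lit 222) (nat_lit 5) (nat_lit 231) (nat_lit 5) (nat_lit 223) (nat_lit 5) (nat_lit 459) (nat_lit 399) (nat_lit 282)) (XT.lf (nat_lit 0) (nat_lit 4989317252) (nat_lit 684)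 (nat_lit 6228766103) (nat_lit 76) (nat_lit 928979433) (nat_lit 214) (nat_lit 5) (nat_lit 223) (nat_lit 5) (nat_lit 215) (nat_lit 5) (nat_lit 460) (nat_lit 399) (nat_lit 281))))) (XT.nd (nat_lit 156) (nat_lit 1140) (nat_lit 0) (XT.nd (nat_lit 78) (nat_lit 0) (nat_lit 0) (XT.lf (nat_lit 0) (nat_lit 585405745) (nat_lit 532) (nat_lit 6895214608) (nat_lit 608) (nat_lit 4804899406) (nat_lit 207) (nat_lit 5) (nat_lit 214) (nat_lit 5) (nat_lit 215) (nat_lit 5) (nat_lit 461) (nat_lit 399) (nat_lit 280)) (XT.lf (nat_lit 0) (nat_lit 7598872029) (nat_lit 532) (nat_lit 2447736994) (nat_lit 608) (nat_lit 2379646383) (nat_lit 207) (nat_lit 5) (nat_lit 214) (nat_lit 5) (nat_lit 215) (nat_lit 5) (nat_lit 462) (nat_lit 399) (nat_lit 279))) (XT.nd (nat_lit 78) (nat_lit 532) (nat_lit 0) (XT.lf (nat_lit 0) (nat_lit 104001204) (nat_lit 608) (nat_lit 10393801614) (nat_lit 76) (nat_lit 2071774717) (nat_lit 199) (nat_lit 5) (nat_lit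 207) (nat_lit 5) (nat_lit 200) (nat_lit 5) (nat_lit 463) (nat_lit 399) (nat_lit 278)) (XT.nd (nat_lit 78) (nat_lit 532) (nat_lit 0) (XT.lf (nat_lit 0) (nat_lit 2637745286) (nat_lit 608) (nat_lit 3384265276) (nat_lit 76) (nat_lit 6692801555) (nat_lit 199) (nat_lit 5) (nat_lit 207) (nat_lit 5) (nat_lit 200) (nat_lit 5) (nat_lit 464) (nat_lit 399) (nat_lit 277)) (XT.lf (nat_lit 0) (nat_lit 3794245612) (nat_lit 532) (nat_lit 1436316365) (nat_lit 608) (nat_lit 7632227672) (nat_lit 192) (nat_lit 5) (nat_lit 199) (nat_lit 5) (nat_lit 200) (nat_lit 5) (nat_lit 465) (nat_lit 399) (nat_lit 276)))))) (XT.nd (nat_lit 390) (nat_lit 1444) (nat_lit 0) (XT.nd (nat_lit 156) (nat_lit 1064) (nat_lit 0) (XT.nd (nat_lit 78) (nat_lit 532) (nat_lit 0) (XT.lf (nat_lit 0) (nat_lit 7903053878) (nat_lit 608) (nat_lit 1893401389) (nat_lit 76) (nat_lit 3216721182) (nat_lit 192) (nat_lit 5) (nat_lit 200) (nat_lit 5) (nat_lit 193) (nat_lit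 5) (nat_lit 466) (nat_lit 399) (nat_lit 275)) (XT.lf (nat_lit 0) (nat_lit 5466706900) (nat_lit 532) (nat_lit 5191524581) (nat_lit 608) (nat_lit 2507760759) (nat_lit 185) (nat_lit 5) (nat_lit 192) (nat_lit 5) (nat_lit 193) (nat_lit 5) (nat_lit 467) (nat_lit 399) (nat_lit 274))) (XT.nd (nat_lit 78) (nat_lit 988) (nat_lit 0) (XT.lf (nat_lit 0) (nat_lit 141811684) (nat_lit 608) (nat_lit 343763732) (nat_lit 76) (nat_lit 12836333895) (nat_lit 184) (nat_lit 5) (nat_lit 192) (nat_lit 5) (nat_lit 185) (nat_lit 5) (nat_lit 468) (nat_lit 399) (nat_lit 273)) (XT.nd (nat_lit 78) (nat_lit 532) (nat_lit 0) (XT.lf (nat_lit 0) (nat_lit 2870687585) (nat_lit 532) (nat_lit 6291875179) (nat_lit 76) (nat_lit 4316858244) (nat_lit 178) (nat_lit 5) (nat_lit 185) (nat_lit 5) (nat_lit 179) (nat_lit 5) (nat_lit 469) (nat_lit 399) (nat_lit 272)) (XT.lf (nat_lit 0) (nat_lit 1226422877) (nat_lit 532) (nat_lit 4425961136) (nat_lit 608) (nat_lit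 7987739584) (nat_lit 171) (nat_lit 5) (nat_lit 178) (nat_lit 5) (nat_lit 179) (nat_lit 5) (nat_lit 470) (nat_lit 399) (nat_lit 271))))) (XT.nd (nat_lit 234) (nat_lit 912) (nat_lit 0) (XT.nd (nat_lit 78) (nat_lit 532) (nat_lit 0) (XT.lf (nat_lit 0) (nat_lit 8519722385) (nat_lit 608) (nat_lit 4846405558) (nat_lit 76) (nat_lit 437317545) (nat_lit 171) (nat_lit 5) (nat_lit 179) (nat_lit 5) (nat_lit 172) (nat_lit 5) (nat_lit 471) (nat_lit 399) (nat_lit 270)) (XT.nd (nat_lit 78) (nat_lit 76) (nat_lit 0) (XT.lf (nat_lit 0) (nat_lit 2860168371) (nat_lit 456) (nat_lit 8617291496) (nat_lit 532) (nat_lit 2491918207) (nat_lit 165) (nat_lit 5) (nat_lit 171) (nat_lit 5) (nat_lit 172) (nat_lit 5) (nat_lit 472) (nat_lit 399) (nat_lit 269)) (XT.lf (nat_lit 0) (nat_lit 369023719) (nat_lit 532) (nat_lit 3374271570) (nat_lit 76) (nat_lit 10394933603) (nat_lit 164) (nat_lit 5) (nat_lit 171) (nat_lit 5) (nat_lit 165) (nat_lit 5)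 (nat_lit 473) (nat_lit 399) (nat_lit 268)))) (XT.nd (nat_lit 78) (nat_lit 456) (nat_lit 0) (XT.lf (nat_lit 0) (nat_lit 3277077300) (nat_lit 532) (nat_lit 9779627096) (nat_lit 76) (nat_lit 1252962706) (nat_lit 158) (nat_lit 5) (nat_lit 165) (nat_lit 5) (nat_lit 159) (nat_lit 5) (nat_lit 474) (nat_lit 399) (nat_lit 267)) (XT.nd (nat_lit 78) (nat_lit 456) (nat_lit 0) (XT.lf (nat_lit 0) (nat_lit 6276513477) (nat_lit 532) (nat_lit 1890905997) (nat_lit 76) (nat_lit 6316455071) (nat_lit 158) (nat_lit 5) (nat_lit 165) (nat_lit 5) (nat_lit 159) (nat_lit 5) (nat_lit 475) (nat_lit 399) (nat_lit 266)) (XT.lf (nat_lit 0) (nat_lit 6217464304) (nat_lit 456) (nat_lit 3144761970) (nat_lit 532) (nat_lit 5298818908) (nat_lit 152) (nat_lit 5) (nat_lit 158) (nat_lit 5) (nat_lit 159) (nat_lit 5) (nat_lit 476) (nat_lit 399) (nat_lit 265))))))))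
noncomputable def xc150 : XT := (XT.nd (nat_lit 1638) (nat_lit 608) (nat_lit 0) (XT.nd (nat_lit 780) (nat_lit 2280) (nat_lit 0) (XT.nd (nat_lit 390) (nat_lit 836) (nat_lit 0) (XT.nd (nat_lit 156) (nat_lit 836) (nat_lit 0) (XT.nd (nat_lit 78) (nat_lit 532) (nat_lit 0) (XT.lf (nat_lit 0) (nat_lit 12521303890) (nat_lit 532) (nat_lit 360586396) (nat_lit 76) (nat_lit 1959640646) (nat_lit 152) (nat_lit 5) (nat_lit 159) (nat_lit 5) (nat_lit 153) (nat_lit 5) (nat_lit 477) (nat_lit 399) (nat_lit 264)) (XT.lf (nat_lit 0) (nat_lit 767642364) (nat_lit 532) (nat_lit 7081422197) (nat_lit 76) (nat_lit 7175290705) (nat_lit 145) (nat_lit 5) (nat_lit 152) (nat_lit 5) (nat_lit 146) (nat_lit 5) (nat_lit 478) (nat_lit 399) (nat_lit 263))) (XT.nd (nat_lit 78) (nat_lit 456) (nat_lit 0) (XT.lf (nat_lit 0) (nat_lit 1187357635) (nat_lit 380) (nat_lit 2695373436) (nat_lit 456) (nat_lit 11327872124) (nat_lit 140) (nat_lit 5) (nat_lit 145)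 (nat_lit 5) (nat_lit 146) (nat_lit 5) (nat_lit 479) (nat_lit 399) (nat_lit 262)) (XT.nd (nat_lit 78) (nat_lit 456) (nat_lit 0) (XT.lf (nat_lit 0) (nat_lit 7111046640) (nat_lit 456) (nat_lit 5718631681) (nat_lit 76) (nat_lit 2569883611) (nat_lit 140) (nat_lit 5) (nat_lit 146) (nat_lit 5) (nat_lit 141) (nat_lit 5) (nat_lit 480) (nat_lit 399) (nat_lit 261)) (XT.lf (nat_lit 0) (nat_lit 2751124787) (nat_lit 456) (nat_lit 7675241567) (nat_lit 532) (nat_lit 5165489000) (nat_lit 134) (nat_lit 5) (nat_lit 140) (nat_lit 5) (nat_lit 141) (nat_lit 5) (nat_lit 481) (nat_lit 399) (nat_lit 260))))) (XT.nd (nat_lit 156) (nat_lit 380) (nat_lit 0) (XT.nd (nat_lit 78) (nat_lit 456) (nat_lit 0) (XT.lf (nat_lit 0) (nat_lit 11448739105) (nat_lit 456) (nat_lit 2384490505) (nat_lit 532) (nat_lit 1954264473) (nat_lit 134) (nat_lit 5) (nat_lit 140) (nat_lit 5) (nat_lit 141) (nat_lit 5) (nat_lit 482) (nat_lit 399) (nat_lit 259)) (XT.lf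 (nat_lit 0) (nat_lit 1338977714) (nat_lit 456) (nat_lit 11643286795) (nat_lit 76) (nat_lit 3003911124) (nat_lit 128) (nat_lit 5) (nat_lit 134) (nat_lit 5) (nat_lit 129) (nat_lit 5) (nat_lit 483) (nat_lit 399) (nat_lit 258))) (XT.nd (nat_lit 78) (nat_lit 380) (nat_lit 0) (XT.lf (nat_lit 0) (nat_lit 4704165848) (nat_lit 456) (nat_lit 2979152228) (nat_lit 76) (nat_lit 8504613350) (nat_lit 128) (nat_lit 5) (nat_lit 134) (nat_lit 5) (nat_lit 129) (nat_lit 5) (nat_lit 484) (nat_lit 399) (nat_lit 257)) (XT.nd (nat_lit 78) (nat_lit 0) (nat_lit 0) (XT.lf (nat_lit 0) (nat_lit 5917287074) (nat_lit 380) (nat_lit 2245166848) (nat_lit 456) (nat_lit 8230756353) (nat_lit 123) (nat_lit 5) (nat_lit 128) (nat_lit 5) (nat_lit 129) (nat_lit 5) (nat_lit 485) (nat_lit 399) (nat_lit 256)) (XT.lf (nat_lit 0) (nat_lit 11718935088) (nat_lit 456) (nat_lit 1610402969) (nat_lit 76) (nat_lit 3272679886) (nat_lit 123) (nat_lit 5) (nat_lit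 129) (nat_lit 5) (nat_lit 124) (nat_lit 5) (nat_lit 486) (nat_lit 399) (nat_lit 255)))))) (XT.nd (nat_lit 390) (nat_lit 1140) (nat_lit 0) (XT.nd (nat_lit 156) (nat_lit 684) (nat_lit 0) (XT.nd (nat_lit 78) (nat_lit 76) (nat_lit 0) (XT.lf (nat_lit 0) (nat_lit 7497580417) (nat_lit 380) (nat_lit 7900225264) (nat_lit 456) (nat_lit 1416174600) (nat_lit 118) (nat_lit 5) (nat_lit 123) (nat_lit 5) (nat_lit 124) (nat_lit 5) (nat_lit 487) (nat_lit 399) (nat_lit 254)) (XT.lf (nat_lit 0) (nat_lit 2090895481) (nat_lit 456) (nat_lit 252605911) (nat_lit 76) (nat_lit 14686436170) (nat_lit 117) (nat_lit 5) (nat_lit 123) (nat_lit 5) (nat_lit 118) (nat_lit 5) (nat_lit 488) (nat_lit 399) (nat_lit 253))) (XT.nd (nat_lit 78) (nat_lit 304) (nat_lit 0) (XT.lf (nat_lit 0) (nat_lit 5718131478) (nat_lit 456) (nat_lit 8186858332) (nat_lit 76) (nat_lit 3343660718) (nat_lit 112) (nat_lit 5) (nat_lit 118) (nat_lit 5) (nat_lit 113) (nat_lit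 5) (nat_lit 489) (nat_lit 399) (nat_lit 252)) (XT.nd (nat_lit 78) (nat_lit 0) (nat_lit 0) (XT.lf (nat_lit 0) (nat_lit 1074681473) (nat_lit 304) (nat_lit 8355505756) (nat_lit 380) (nat_lit 8041308454) (nat_lit 108) (nat_lit 5) (nat_lit 112) (nat_lit 5) (nat_lit 113) (nat_lit 5) (nat_lit 490) (nat_lit 399) (nat_lit 251)) (XT.lf (nat_lit 0) (nat_lit 10614465426) (nat_lit 304) (nat_lit 2645145344) (nat_lit 380) (nat_lit 4438327802) (nat_lit 108) (nat_lit 5) (nat_lit 112) (nat_lit 5) (nat_lit 113) (nat_lit 5) (nat_lit 491) (nat_lit 399) (nat_lit 250))))) (XT.nd (nat_lit 234) (nat_lit 380) (nat_lit 0) (XT.nd (nat_lit 78) (nat_lit 380) (nat_lit 0) (XT.lf (nat_lit 0) (nat_lit 2409284798) (nat_lit 380) (nat_lit 14781004572) (nat_lit 456) (nat_lit 738130914) (nat_lit 103) (nat_lit 5) (nat_lit 108) (nat_lit 5) (nat_lit 109) (nat_lit 5) (nat_lit 492) (nat_lit 399) (nat_lit 249)) (XT.nd (nat_lit 78) (nat_lit 304) (nat_lit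 0) (XT.lf (nat_lit 0) (nat_lit 3050032039) (nat_lit 456) (nat_lit 6030034420) (nat_lit 76) (nat_lit 9081978483) (nat_lit 102) (nat_lit 5) (nat_lit 108) (nat_lit 5) (nat_lit 103) (nat_lit 5) (nat_lit 493) (nat_lit 399) (nat_lit 248)) (XT.lf (nat_lit 0) (nat_lit 3674658882) (nat_lit 304) (nat_lit 3241925111) (nat_lit 380) (nat_lit 11483413442) (nat_lit 98) (nat_lit 5) (nat_lit 102) (nat_lit 5) (nat_lit 103) (nat_lit 5) (nat_lit 494) (nat_lit 399) (nat_lit 247)))) (XT.nd (nat_lit 78) (nat_lit 380) (nat_lit 0) (XT.lf (nat_lit 0) (nat_lit 10907525935) (nat_lit 380) (nat_lit 5022165780) (nat_lit 76) (nat_lit 2712079129) (nat_lit 98) (nat_lit 5) (nat_lit 103) (nat_lit 5) (nat_lit 99) (nat_lit 5) (nat_lit 495) (nat_lit 399) (nat_lit 246)) (XT.nd (nat_lit 78) (nat_lit 76) (nat_lit 0) (XT.lf (nat_lit 0) (nat_lit 4900649712) (nat_lit 304) (nat_lit 10119858117) (nat_lit 380) (nat_lit 3867030456) (nat_lit 94) (nat_lit 5)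 (nat_lit 98) (nat_lit 5) (nat_lit 99) (nat_lit 5) (nat_lit 496) (nat_lit 399) (nat_lit 245)) (XT.lf (nat_lit 0) (nat_lit 99399620) (nat_lit 380) (nat_lit 4065535467) (nat_lit 76) (nat_lit 14972821030) (nat_lit 93) (nat_lit 5) (nat_lit 98) (nat_lit 5) (nat_lit 94) (nat_lit 5) (nat_lit 497) (nat_lit 399) (nat_lit 244))))))) (XT.nd (nat_lit 52182) (nat_lit 0) (nat_lit 31312) (XT.nd (nat_lit 51792) (nat_lit 0) (nat_lit 34884) (XT.nd (nat_lit 156) (nat_lit 304) (nat_lit 0) (XT.nd (nat_lit 78) (nat_lit 0) (nat_lit 0) (XT.lf (nat_lit 0) (nat_lit 4134944842) (nat_lit 380) (nat_lit 13313075269) (nat_lit 76) (nat_lit 1943618466) (nat_lit 89) (nat_lit 5) (nat_lit 94) (nat_lit 5) (nat_lit 90) (nat_lit 5) (nat_lit 498) (nat_lit 399) (nat_lit 243)) (XT.lf (nat_lit 0) (nat_lit 8295489297) (nat_lit 380) (nat_lit 3214150547) (nat_lit 76) (nat_lit 8140075835) (nat_lit 89) (nat_lit 5) (nat_lit 94) (nat_lit 5) (nat_lit 90) (nat_lit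 5) (nat_lit 499) (nat_lit 399) (nat_lit 242))) (XT.nd (nat_lit 78) (nat_lit 0) (nat_lit 0) (XT.lf (nat_lit 0) (nat_lit 7164055710) (nat_lit 304) (nat_lit 5411157065) (nat_lit 380) (nat_lit 7337024890) (nat_lit 85) (nat_lit 5) (nat_lit 89) (nat_lit 5) (nat_lit 90) (nat_lit 5) (nat_lit 500) (nat_lit 399) (nat_lit 241)) (XT.nd (nat_lit 51480) (nat_lit 0) (nat_lit 36024) (XT.lf (nat_lit 0) (nat_lit 16957010776) (nat_lit 380) (nat_lit 2408298537) (nat_lit 76) (nat_lit 814373828) (nat_lit 85) (nat_lit 5) (nat_lit 90) (nat_lit 5) (nat_lit 86) (nat_lit 5) (nat_lit 501) (nat_lit 399) (nat_lit 240)) (XT.lf (nat_lit 0) (nat_lit 2632779377) (nat_lit 1140) (nat_lit 487219600) (nat_lit 1140) (nat_lit 487219600) (nat_lit 559) (nat_lit 3) (nat_lit 574) (nat_lit 3) (nat_lit 574) (nat_lit 5) (nat_lit 400) (nat_lit 400) (nat_lit 340))))) (XT.nd (nat_lit 156) (nat_lit 0) (nat_lit 0) (XT.nd (nat_lit 78) (nat_lit 1140) (nat_lit 0)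 (XT.lf (nat_lit 76) (nat_lit 2475647312) (nat_lit 0) (nat_lit 4440827612) (nat_lit 1140) (nat_lit 337095164) (nat_lit 560) (nat_lit 5) (nat_lit 559) (nat_lit 3) (nat_lit 574) (nat_lit 5) (nat_lit 401) (nat_lit 400) (nat_lit 339)) (XT.lf (nat_lit 0) (nat_lit 1254421977) (nat_lit 1140) (nat_lit 1315984466) (nat_lit 1216) (nat_lit 4723643659) (nat_lit 544) (nat_lit 5) (nat_lit 559) (nat_lit 3) (nat_lit 560) (nat_lit 5) (nat_lit 402) (nat_lit 400) (nat_lit 338))) (XT.nd (nat_lit 78) (nat_lit 0) (nat_lit 76) (XT.lf (nat_lit 76) (nat_lit 2220469125) (nat_lit 0) (nat_lit 626086510) (nat_lit 1216) (nat_lit 4489299897) (nat_lit 545) (nat_lit 5) (nat_lit 544) (nat_lit 5) (nat_lit 560) (nat_lit 5) (nat_lit 403) (nat_lit 400) (nat_lit 337)) (XT.nd (nat_lit 78) (nat_lit 0) (nat_lit 0) (XT.lf (nat_lit 0) (nat_lit 4447901768) (nat_lit 1140) (nat_lit 1564128878) (nat_lit 1216) (nat_lit 1366944888) (nat_lit 545) (nat_lit 5)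 (nat_lit 560) (nat_lit 5) (nat_lit 561) (nat_lit 5) (nat_lit 404) (nat_lit 400) (nat_lit 336)) (XT.lf (nat_lit 76) (nat_lit 2059022843) (nat_lit 0) (nat_lit 4000226639) (nat_lit 1216) (nat_lit 1364174314) (nat_lit 546) (nat_lit 5) (nat_lit 545) (nat_lit 5) (nat_lit 561) (nat_lit 5) (nat_lit 405) (nat_lit 400) (nat_lit 335)))))) (XT.nd (nat_lit 390) (nat_lit 2432) (nat_lit 0) (XT.nd (nat_lit 156) (nat_lit 0) (nat_lit 76) (XT.nd (nat_lit 78) (nat_lit 0) (nat_lit 76) (XT.lf (nat_lit 0) (nat_lit 202370114) (nat_lit 1216) (nat_lit 1716690173) (nat_lit 1292) (nat_lit 5550267177) (nat_lit 529) (nat_lit 5) (nat_lit 545) (nat_lit 5) (nat_lit 546) (nat_lit 5) (nat_lit 406) (nat_lit 400) (nat_lit 334)) (XT.lf (nat_lit 0) (nat_lit 1758131417) (nat_lit 1216) (nat_lit 5518866765) (nat_lit 1292) (nat_lit 239471523) (nat_lit 530) (nat_lit 5) (nat_lit 546) (nat_lit 5) (nat_lit 547) (nat_lit 5) (nat_lit 407) (nat_lit 400) (nat_lit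 333))) (XT.nd (nat_lit 78) (nat_lit 0) (nat_lit 0) (XT.lf (nat_lit 0) (nat_lit 3331608337) (nat_lit 1216) (nat_lit 1790347305) (nat_lit 1292) (nat_lit 2442890562) (nat_lit 530) (nat_lit 5) (nat_lit 546) (nat_lit 5) (nat_lit 547) (nat_lit 5) (nat_lit 408) (nat_lit 400) (nat_lit 332)) (XT.nd (nat_lit 78) (nat_lit 0) (nat_lit 0) (XT.lf (nat_lit 76) (nat_lit 2016950389) (nat_lit 0) (nat_lit 2895734294) (nat_lit 1292) (nat_lit 2702005917) (nat_lit 531) (nat_lit 5) (nat_lit 530) (nat_lit 5) (nat_lit 547) (nat_lit 5) (nat_lit 409) (nat_lit 400) (nat_lit 331)) (XT.lf (nat_lit 76) (nat_lit 5902564195) (nat_lit 0) (nat_lit 598448378) (nat_lit 1292) (nat_lit 1165029223) (nat_lit 531) (nat_lit 5) (nat_lit 530) (nat_lit 5) (nat_lit 547) (nat_lit 5) (nat_lit 410) (nat_lit 400) (nat_lit 330))))) (XT.nd (nat_lit 234) (nat_lit 1292) (nat_lit 0) (XT.nd (nat_lit 78) (nat_lit 0) (nat_lit 0) (XT.lf (nat_lit 0) (nat_lit 386969471)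 (nat_lit 1292) (nat_lit 5579455176) (nat_lit 1368) (nat_lit 1752173442) (nat_lit 514) (nat_lit 5) (nat_lit 531) (nat_lit 5) (nat_lit 532) (nat_lit 5) (nat_lit 411) (nat_lit 400) (nat_lit 329)) (XT.nd (nat_lit 78) (nat_lit 0) (nat_lit 0) (XT.lf (nat_lit 0) (nat_lit 1935017889) (nat_lit 1292) (nat_lit 1662839310) (nat_lit 1368) (nat_lit 4174603316) (nat_lit 514) (nat_lit 5) (nat_lit 531) (nat_lit 5) (nat_lit 532) (nat_lit 5) (nat_lit 412) (nat_lit 400) (nat_lit 328)) (XT.lf (nat_lit 76) (nat_lit 2340417902) (nat_lit 0) (nat_lit 1154216136) (nat_lit 1368) (nat_lit 4333174814) (nat_lit 515) (nat_lit 5) (nat_lit 514) (nat_lit 5) (nat_lit 532) (nat_lit 5) (nat_lit 413) (nat_lit 400) (nat_lit 327)))) (XT.nd (nat_lit 78) (nat_lit 1368) (nat_lit 0) (XT.lf (nat_lit 0) (nat_lit 5071385813) (nat_lit 1292) (nat_lit 1469540422) (nat_lit 1368) (nat_lit 1343639446) (nat_lit 515) (nat_lit 5) (nat_lit 532) (nat_lit 5) (nat_lit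 533) (nat_lit 5) (nat_lit 414) (nat_lit 400) (nat_lit 326)) (XT.nd (nat_lit 78) (nat_lit 1368) (nat_lit 0) (XT.lf (nat_lit 76) (nat_lit 2632989843) (nat_lit 0) (nat_lit 4038109712) (nat_lit 1368) (nat_lit 1271549544) (nat_lit 516) (nat_lit 5) (nat_lit 515) (nat_lit 5) (nat_lit 533) (nat_lit 5) (nat_lit 415) (nat_lit 400) (nat_lit 325)) (XT.lf (nat_lit 0) (nat_lit 273852590) (nat_lit 1368) (nat_lit 1189100719) (nat_lit 1444) (nat_lit 6539383300) (nat_lit 497) (nat_lit 5) (nat_lit 515) (nat_lit 5) (nat_lit 516) (nat_lit 5) (nat_lit 416) (nat_lit 400) (nat_lit 324))))))))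
noncomputable def xc151 : XT := (XT.nd (nat_lit 1638) (nat_lit 8132) (nat_lit 0) (XT.nd (nat_lit 780) (nat_lit 7904) (nat_lit 0) (XT.nd (nat_lit 390) (nat_lit 4256) (nat_lit 0) (XT.nd (nat_lit 156) (nat_lit 0) (nat_lit 0) (XT.nd (nat_lit 78) (nat_lit 0) (nat_lit 0) (XT.lf (nat_lit 0) (nat_lit 1828190672) (nat_lit 1368) (nat_lit 5048465642) (nat_lit 1444) (nat_lit 1186511216) (nat_lit 498) (nat_lit 5) (nat_lit 516) (nat_lit 5) (nat_lit 517) (nat_lit 5) (nat_lit 417) (nat_lit 400) (nat_lit 323)) (XT.lf (nat_lit 0) (nat_lit 3399496173) (nat_lit 1368) (nat_lit 839095997) (nat_lit 1444) (nat_lit 3886923754) (nat_lit 498) (nat_lit 5) (nat_lit 516) (nat_lit 5) (nat_lit 517) (nat_lit 5) (nat_lit 418) (nat_lit 400) (nat_lit 322))) (XT.nd (nat_lit 78) (nat_lit 0) (nat_lit 76) (XT.lf (nat_lit 76) (nat_lit 3477521950) (nat_lit 0) (nat_lit 1516068418) (nat_lit 1444) (nat_lit 3195711772) (nat_lit 499) (nat_lit 5) (nat_lit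 498) (nat_lit 5) (nat_lit 517) (nat_lit 5) (nat_lit 419) (nat_lit 400) (nat_lit 321)) (XT.nd (nat_lit 78) (nat_lit 0) (nat_lit 0) (XT.lf (nat_lit 0) (nat_lit 6602726215) (nat_lit 1368) (nat_lit 393714994) (nat_lit 1444) (nat_lit 1258277429) (nat_lit 499) (nat_lit 5) (nat_lit 517) (nat_lit 5) (nat_lit 518) (nat_lit 5) (nat_lit 420) (nat_lit 400) (nat_lit 320)) (XT.lf (nat_lit 76) (nat_lit 4030903990) (nat_lit 0) (nat_lit 4219259203) (nat_lit 1444) (nat_lit 71175305) (nat_lit 500) (nat_lit 5) (nat_lit 499) (nat_lit 5) (nat_lit 518) (nat_lit 5) (nat_lit 421) (nat_lit 400) (nat_lit 319))))) (XT.nd (nat_lit 156) (nat_lit 2888) (nat_lit 0) (XT.nd (nat_lit 78) (nat_lit 0) (nat_lit 76) (XT.lf (nat_lit 76) (nat_lit 128882260) (nat_lit 0) (nat_lit 1365796149) (nat_lit 1520) (nat_lit 6894956256) (nat_lit 481) (nat_lit 5) (nat_lit 480) (nat_lit 5) (nat_lit 500) (nat_lit 5) (nat_lit 422) (nat_lit 400) (nat_lit 318)) (XT.lf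 (nat_lit 0) (nat_lit 3100527254) (nat_lit 1444) (nat_lit 3798064706) (nat_lit 76) (nat_lit 1560519162) (nat_lit 481) (nat_lit 5) (nat_lit 500) (nat_lit 5) (nat_lit 482) (nat_lit 5) (nat_lit 423) (nat_lit 400) (nat_lit 317))) (XT.nd (nat_lit 78) (nat_lit 1520) (nat_lit 0) (XT.lf (nat_lit 0) (nat_lit 731488452) (nat_lit 1444) (nat_lit 3991994043) (nat_lit 1520) (nat_lit 3806810903) (nat_lit 462) (nat_lit 5) (nat_lit 481) (nat_lit 5) (nat_lit 482) (nat_lit 5) (nat_lit 424) (nat_lit 400) (nat_lit 316)) (XT.nd (nat_lit 78) (nat_lit 1520) (nat_lit 0) (XT.lf (nat_lit 0) (nat_lit 5380330451) (nat_lit 1444) (nat_lit 995665366) (nat_lit 1520) (nat_lit 2226977284) (nat_lit 462) (nat_lit 5) (nat_lit 481) (nat_lit 5) (nat_lit 482) (nat_lit 5) (nat_lit 425) (nat_lit 400) (nat_lit 315)) (XT.lf (nat_lit 0) (nat_lit 1427438339) (nat_lit 1520) (nat_lit 6628971912) (nat_lit 1596) (nat_lit 620814585) (nat_lit 442) (nat_lit 5) (nat_lit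 462) (nat_lit 5) (nat_lit 463) (nat_lit 5) (nat_lit 426) (nat_lit 400) (nat_lit 314)))))) (XT.nd (nat_lit 390) (nat_lit 4560) (nat_lit 0) (XT.nd (nat_lit 156) (nat_lit 1672) (nat_lit 0) (XT.nd (nat_lit 78) (nat_lit 1596) (nat_lit 0) (XT.lf (nat_lit 0) (nat_lit 1004894560) (nat_lit 1596) (nat_lit 2574845056) (nat_lit 76) (nat_lit 5173089370) (nat_lit 441) (nat_lit 5) (nat_lit 462) (nat_lit 5) (nat_lit 442) (nat_lit 5) (nat_lit 427) (nat_lit 400) (nat_lit 313)) (XT.lf (nat_lit 0) (nat_lit 2195555873) (nat_lit 1596) (nat_lit 446458025) (nat_lit 1672) (nat_lit 6188119639) (nat_lit 420) (nat_lit 5) (nat_lit 441) (nat_lit 5) (nat_lit 442) (nat_lit 5) (nat_lit 428) (nat_lit 400) (nat_lit 312))) (XT.nd (nat_lit 78) (nat_lit 1672) (nat_lit 0) (XT.lf (nat_lit 0) (nat_lit 4320476570) (nat_lit 1672) (nat_lit 1853484895) (nat_lit 76) (nat_lit 2734864970) (nat_lit 420) (nat_lit 5) (nat_lit 442) (nat_lit 5) (nat_lit 421) (nat_lit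 5) (nat_lit 429) (nat_lit 400) (nat_lit 311)) (XT.nd (nat_lit 78) (nat_lit 0) (nat_lit 0) (XT.lf (nat_lit 0) (nat_lit 3037415303) (nat_lit 1672) (nat_lit 2991649652) (nat_lit 1748) (nat_lit 2960111104) (nat_lit 398) (nat_lit 5) (nat_lit 420) (nat_lit 5) (nat_lit 421) (nat_lit 5) (nat_lit 430) (nat_lit 400) (nat_lit 310)) (XT.lf (nat_lit 0) (nat_lit 7760261994) (nat_lit 1748) (nat_lit 1044453815) (nat_lit 76) (nat_lit 266661850) (nat_lit 398) (nat_lit 5) (nat_lit 421) (nat_lit 5) (nat_lit 399) (nat_lit 5) (nat_lit 431) (nat_lit 400) (nat_lit 309))))) (XT.nd (nat_lit 234) (nat_lit 1748) (nat_lit 0) (XT.nd (nat_lit 78) (nat_lit 988) (nat_lit 0) (XT.lf (nat_lit 0) (nat_lit 386479633) (nat_lit 1824) (nat_lit 5186751246) (nat_lit 76) (nat_lit 3581547768) (nat_lit 374) (nat_lit 5) (nat_lit 398) (nat_lit 5) (nat_lit 375) (nat_lit 5) (nat_lit 432) (nat_lit 400) (nat_lit 308)) (XT.nd (nat_lit 78) (nat_lit 988) (nat_lit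 0) (XT.lf (nat_lit 0) (nat_lit 2082483651) (nat_lit 1824) (nat_lit 176359223) (nat_lit 76) (nat_lit 6981204128) (nat_lit 374) (nat_lit 5) (nat_lit 398) (nat_lit 5) (nat_lit 375) (nat_lit 5) (nat_lit 433) (nat_lit 400) (nat_lit 307)) (XT.lf (nat_lit 0) (nat_lit 3827666719) (nat_lit 1064) (nat_lit 4357264462) (nat_lit 76) (nat_lit 1141797043) (nat_lit 361) (nat_lit 5) (nat_lit 375) (nat_lit 5) (nat_lit 362) (nat_lit 5) (nat_lit 434) (nat_lit 400) (nat_lit 306)))) (XT.nd (nat_lit 78) (nat_lit 836) (nat_lit 0) (XT.lf (nat_lit 0) (nat_lit 777957039) (nat_lit 912) (nat_lit 4826780490) (nat_lit 988) (nat_lit 3810478286) (nat_lit 349) (nat_lit 5) (nat_lit 361) (nat_lit 5) (nat_lit 362) (nat_lit 5) (nat_lit 435) (nat_lit 400) (nat_lit 305)) (XT.nd (nat_lit 78) (nat_lit 836) (nat_lit 0) (XT.lf (nat_lit 0) (nat_lit 6052343184) (nat_lit 912) (nat_lit 1370356748) (nat_lit 988) (nat_lit 2082678408) (nat_lit 349) (nat_lit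 5) (nat_lit 361) (nat_lit 5) (nat_lit 362) (nat_lit 5) (nat_lit 436) (nat_lit 400) (nat_lit 304)) (XT.lf (nat_lit 0) (nat_lit 1822128524) (nat_lit 836) (nat_lit 7457303726) (nat_lit 912) (nat_lit 317875599) (nat_lit 338) (nat_lit 5) (nat_lit 349) (nat_lit 5) (nat_lit 350) (nat_lit 5) (nat_lit 437) (nat_lit 400) (nat_lit 303))))))) (XT.nd (nat_lit 780) (nat_lit 4104) (nat_lit 0) (XT.nd (nat_lit 390) (nat_lit 2356) (nat_lit 0) (XT.nd (nat_lit 156) (nat_lit 760) (nat_lit 0) (XT.nd (nat_lit 78) (nat_lit 836) (nat_lit 0) (XT.lf (nat_lit 0) (nat_lit 1471919683) (nat_lit 912) (nat_lit 2482683117) (nat_lit 76) (nat_lit 5736109438) (nat_lit 337) (nat_lit 5) (nat_lit 349) (nat_lit 5) (nat_lit 338) (nat_lit 5) (nat_lit 438) (nat_lit 400) (nat_lit 302)) (XT.lf (nat_lit 0) (nat_lit 2929607025) (nat_lit 836) (nat_lit 359864278) (nat_lit 912) (nat_lit 6496558309) (nat_lit 326) (nat_lit 5) (nat_lit 337) (nat_lit 5) (nat_lit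 338) (nat_lit 5) (nat_lit 439) (nat_lit 400) (nat_lit 301))) (XT.nd (nat_lit 78) (nat_lit 760) (nat_lit 0) (XT.lf (nat_lit 0) (nat_lit 5159110718) (nat_lit 912) (nat_lit 1443392746) (nat_lit 76) (nat_lit 3280446170) (nat_lit 326) (nat_lit 5) (nat_lit 338) (nat_lit 5) (nat_lit 327) (nat_lit 5) (nat_lit 440) (nat_lit 400) (nat_lit 300)) (XT.nd (nat_lit 78) (nat_lit 0) (nat_lit 0) (XT.lf (nat_lit 0) (nat_lit 4107136256) (nat_lit 760) (nat_lit 2965993950) (nat_lit 836) (nat_lit 2908548926) (nat_lit 316) (nat_lit 5) (nat_lit 326) (nat_lit 5) (nat_lit 327) (nat_lit 5) (nat_lit 441) (nat_lit 400) (nat_lit 299)) (XT.lf (nat_lit 0) (nat_lit 9018230635) (nat_lit 836) (nat_lit 321379559) (nat_lit 76) (nat_lit 742927622) (nat_lit 316) (nat_lit 5) (nat_lit 327) (nat_lit 5) (nat_lit 317) (nat_lit 5) (nat_lit 442) (nat_lit 400) (nat_lit 298))))) (XT.nd (nat_lit 156) (nat_lit 760) (nat_lit 0) (XT.nd (nat_lit 78) (nat_lit 760)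 (nat_lit 0) (XT.lf (nat_lit 0) (nat_lit 839485903) (nat_lit 836) (nat_lit 4818729718) (nat_lit 76) (nat_lit 4526434597) (nat_lit 305) (nat_lit 5) (nat_lit 316) (nat_lit 5) (nat_lit 306) (nat_lit 5) (nat_lit 443) (nat_lit 400) (nat_lit 297)) (XT.lf (nat_lit 0) (nat_lit 864591497) (nat_lit 760) (nat_lit 1889088249) (nat_lit 836) (nat_lit 7535262897) (nat_lit 295) (nat_lit 5) (nat_lit 305) (nat_lit 5) (nat_lit 306) (nat_lit 5) (nat_lit 444) (nat_lit 400) (nat_lit 296))) (XT.nd (nat_lit 78) (nat_lit 760) (nat_lit 0) (XT.lf (nat_lit 0) (nat_lit 4730447111) (nat_lit 836) (nat_lit 3703207213) (nat_lit 76) (nat_lit 1961190599) (nat_lit 295) (nat_lit 5) (nat_lit 306) (nat_lit 5) (nat_lit 296) (nat_lit 5) (nat_lit 445) (nat_lit 400) (nat_lit 295)) (XT.nd (nat_lit 78) (nat_lit 0) (nat_lit 0) (XT.lf (nat_lit 0) (nat_lit 2125647659) (nat_lit 760) (nat_lit 4626868102) (nat_lit 836) (nat_lit 3750243778) (nat_lit 285) (nat_lit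 5) (nat_lit 295) (nat_lit 5) (nat_lit 296) (nat_lit 5) (nat_lit 446) (nat_lit 400) (nat_lit 294)) (XT.lf (nat_lit 0) (nat_lit 8099343167) (nat_lit 760) (nat_lit 720247836) (nat_lit 836) (nat_lit 1793159558) (nat_lit 285) (nat_lit 5) (nat_lit 295) (nat_lit 5) (nat_lit 296) (nat_lit 5) (nat_lit 447) (nat_lit 400) (nat_lit 293)))))) (XT.nd (nat_lit 390) (nat_lit 1976) (nat_lit 0) (XT.nd (nat_lit 156) (nat_lit 1368) (nat_lit 0) (XT.nd (nat_lit 78) (nat_lit 0) (nat_lit 0) (XT.lf (nat_lit 0) (nat_lit 224378546) (nat_lit 760) (nat_lit 7255965770) (nat_lit 76) (nat_lit 3244100264) (nat_lit 275) (nat_lit 5) (nat_lit 285) (nat_lit 5) (nat_lit 276) (nat_lit 5) (nat_lit 448) (nat_lit 400) (nat_lit 292)) (XT.lf (nat_lit 0) (nat_lit 2260239125) (nat_lit 760) (nat_lit 1272747871) (nat_lit 76) (nat_lit 7305117660) (nat_lit 275) (nat_lit 5) (nat_lit 285) (nat_lit 5) (nat_lit 276) (nat_lit 5) (nat_lit 449) (nat_lit 400) (nat_lit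 291))) (XT.nd (nat_lit 78) (nat_lit 684) (nat_lit 0) (XT.lf (nat_lit 0) (nat_lit 4352450062) (nat_lit 760) (nat_lit 6084759450) (nat_lit 76) (nat_lit 516524462) (nat_lit 266) (nat_lit 5) (nat_lit 276) (nat_lit 5) (nat_lit 267) (nat_lit 5) (nat_lit 450) (nat_lit 400) (nat_lit 290)) (XT.nd (nat_lit 78) (nat_lit 0) (nat_lit 0) (XT.lf (nat_lit 0) (nat_lit 34445298) (nat_lit 684) (nat_lit 6465104230) (nat_lit 760) (nat_lit 4571873995) (nat_lit 257) (nat_lit 5) (nat_lit 266) (nat_lit 5) (nat_lit 267) (nat_lit 5) (nat_lit 451) (nat_lit 400) (nat_lit 289)) (XT.lf (nat_lit 0) (nat_lit 6336826915) (nat_lit 684) (nat_lit 2374657192) (nat_lit 760) (nat_lit 2479553258) (nat_lit 257) (nat_lit 5) (nat_lit 266) (nat_lit 5) (nat_lit 267) (nat_lit 5) (nat_lit 452) (nat_lit 400) (nat_lit 288))))) (XT.nd (nat_lit 234) (nat_lit 608) (nat_lit 0) (XT.nd (nat_lit 78) (nat_lit 684) (nat_lit 0) (XT.lf (nat_lit 0) (nat_lit 1437773590)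 (nat_lit 684) (nat_lit 9532305006) (nat_lit 760) (nat_lit 342924663) (nat_lit 248) (nat_lit 5) (nat_lit 257) (nat_lit 5) (nat_lit 258) (nat_lit 5) (nat_lit 453) (nat_lit 400) (nat_lit 287)) (XT.nd (nat_lit 78) (nat_lit 608) (nat_lit 0) (XT.lf (nat_lit 0) (nat_lit 1842377992) (nat_lit 760) (nat_lit 3564960743) (nat_lit 76) (nat_lit 6029238618) (nat_lit 247) (nat_lit 5) (nat_lit 257) (nat_lit 5) (nat_lit 248) (nat_lit 5) (nat_lit 454) (nat_lit 400) (nat_lit 286)) (XT.lf (nat_lit 0) (nat_lit 2885780384) (nat_lit 608) (nat_lit 1181628233) (nat_lit 684) (nat_lit 7495164428) (nat_lit 239) (nat_lit 5) (nat_lit 247) (nat_lit 5) (nat_lit 248) (nat_lit 5) (nat_lit 455) (nat_lit 400) (nat_lit 285)))) (XT.nd (nat_lit 78) (nat_lit 608) (nat_lit 0) (XT.lf (nat_lit 0) (nat_lit 6363403774) (nat_lit 684) (nat_lit 2218735309) (nat_lit 76) (nat_lit 3108427867) (nat_lit 239) (nat_lit 5) (nat_lit 248) (nat_lit 5) (nat_lit 240) (nat_lit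 5) (nat_lit 456) (nat_lit 400) (nat_lit 284)) (XT.nd (nat_lit 78) (nat_lit 0) (nat_lit 0) (XT.lf (nat_lit 0) (nat_lit 4397236151) (nat_lit 608) (nat_lit 4326879184) (nat_lit 684) (nat_lit 3096636896) (nat_lit 231) (nat_lit 5) (nat_lit 239) (nat_lit 5) (nat_lit 240) (nat_lit 5) (nat_lit 457) (nat_lit 400) (nat_lit 283)) (XT.lf (nat_lit 0) (nat_lit 11129722914) (nat_lit 684) (nat_lit 799111898) (nat_lit 76) (nat_lit 24760049) (nat_lit 231) (nat_lit 5) (nat_lit 240) (nat_lit 5) (nat_lit 232) (nat_lit 5) (nat_lit 458) (nat_lit 400) (nat_lit 282))))))))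
noncomputable def xc152 : XT := (XT.nd (nat_lit 1560) (nat_lit 4332) (nat_lit 0) (XT.nd (nat_lit 780) (nat_lit 2964) (nat_lit 0) (XT.nd (nat_lit 390) (nat_lit 1672) (nat_lit 0) (XT.nd (nat_lit 156) (nat_lit 532) (nat_lit 0) (XT.nd (nat_lit 78) (nat_lit 608) (nat_lit 0) (XT.lf (nat_lit 0) (nat_lit 1525549598) (nat_lit 684) (nat_lit 6111352893) (nat_lit 76) (nat_lit 4450988808) (nat_lit 222) (nat_lit 5) (nat_lit 231) (nat_lit 5) (nat_lit 223) (nat_lit 5) (nat_lit 459) (nat_lit 400) (nat_lit 281)) (XT.lf (nat_lit 0) (nat_lit 655915668) (nat_lit 608) (nat_lit 3247708227) (nat_lit 684) (nat_lit 8321293798) (nat_lit 214) (nat_lit 5) (nat_lit 222) (nat_lit 5) (nat_lit 223) (nat_lit 5) (nat_lit 460) (nat_lit 400) (nat_lit 280))) (XT.nd (nat_lit 78) (nat_lit 532) (nat_lit 0) (XT.lf (nat_lit 0) (nat_lit 6361723190) (nat_lit 684) (nat_lit 4751887255) (nat_lit 76) (nat_lit 1250431625) (nat_lit 214) (nat_lit 5) (nat_lit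 223) (nat_lit 5) (nat_lit 215) (nat_lit 5) (nat_lit 461) (nat_lit 400) (nat_lit 279)) (XT.nd (nat_lit 78) (nat_lit 0) (nat_lit 0) (XT.lf (nat_lit 0) (nat_lit 2188032148) (nat_lit 532) (nat_lit 6700196177) (nat_lit 608) (nat_lit 3617342327) (nat_lit 207) (nat_lit 5) (nat_lit 214) (nat_lit 5) (nat_lit 215) (nat_lit 5) (nat_lit 462) (nat_lit 400) (nat_lit 278)) (XT.lf (nat_lit 0) (nat_lit 9310573280) (nat_lit 532) (nat_lit 2170296908) (nat_lit 608) (nat_lit 1168753952) (nat_lit 207) (nat_lit 5) (nat_lit 214) (nat_lit 5) (nat_lit 215) (nat_lit 5) (nat_lit 463) (nat_lit 400) (nat_lit 277))))) (XT.nd (nat_lit 156) (nat_lit 1064) (nat_lit 0) (XT.nd (nat_lit 78) (nat_lit 0) (nat_lit 0) (XT.lf (nat_lit 0) (nat_lit 1336076487) (nat_lit 608) (nat_lit 9012512769) (nat_lit 76) (nat_lit 2447309149) (nat_lit 199) (nat_lit 5) (nat_lit 207) (nat_lit 5) (nat_lit 200) (nat_lit 5) (nat_lit 464) (nat_lit 400) (nat_lit 276)) (XT.lf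 (nat_lit 0) (nat_lit 3896377897) (nat_lit 608) (nat_lit 1893945800) (nat_lit 76) (nat_lit 7154205564) (nat_lit 199) (nat_lit 5) (nat_lit 207) (nat_lit 5) (nat_lit 200) (nat_lit 5) (nat_lit 465) (nat_lit 400) (nat_lit 275))) (XT.nd (nat_lit 78) (nat_lit 532) (nat_lit 0) (XT.lf (nat_lit 0) (nat_lit 5417885275) (nat_lit 532) (nat_lit 1109570037) (nat_lit 608) (nat_lit 6568291995) (nat_lit 192) (nat_lit 5) (nat_lit 199) (nat_lit 5) (nat_lit 200) (nat_lit 5) (nat_lit 466) (nat_lit 400) (nat_lit 274)) (XT.nd (nat_lit 78) (nat_lit 532) (nat_lit 0) (XT.lf (nat_lit 0) (nat_lit 9232281680) (nat_lit 608) (nat_lit 392303806) (nat_lit 76) (nat_lit 3624987535) (nat_lit 192) (nat_lit 5) (nat_lit 200) (nat_lit 5) (nat_lit 193) (nat_lit 5) (nat_lit 467) (nat_lit 400) (nat_lit 273)) (XT.lf (nat_lit 0) (nat_lit 7104881874) (nat_lit 532) (nat_lit 4924643156) (nat_lit 608) (nat_lit 1376189553) (nat_lit 185) (nat_lit 5) (nat_lit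 192) (nat_lit 5) (nat_lit 193) (nat_lit 5) (nat_lit 468) (nat_lit 400) (nat_lit 272)))))) (XT.nd (nat_lit 390) (nat_lit 1444) (nat_lit 0) (XT.nd (nat_lit 156) (nat_lit 988) (nat_lit 0) (XT.nd (nat_lit 78) (nat_lit 0) (nat_lit 0) (XT.lf (nat_lit 0) (nat_lit 1179304038) (nat_lit 456) (nat_lit 116361357) (nat_lit 532) (nat_lit 12269243718) (nat_lit 178) (nat_lit 5) (nat_lit 184) (nat_lit 5) (nat_lit 185) (nat_lit 5) (nat_lit 469) (nat_lit 400) (nat_lit 271)) (XT.lf (nat_lit 0) (nat_lit 4061238422) (nat_lit 532) (nat_lit 4892603014) (nat_lit 76) (nat_lit 4772095412) (nat_lit 178) (nat_lit 5) (nat_lit 185) (nat_lit 5) (nat_lit 179) (nat_lit 5) (nat_lit 470) (nat_lit 400) (nat_lit 270))) (XT.nd (nat_lit 78) (nat_lit 456) (nat_lit 0) (XT.lf (nat_lit 0) (nat_lit 2766027386) (nat_lit 532) (nat_lit 4120159896) (nat_lit 608) (nat_lit 7003921872) (nat_lit 171) (nat_lit 5) (nat_lit 178) (nat_lit 5) (nat_lit 179) (nat_lit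 5) (nat_lit 471) (nat_lit 400) (nat_lit 269)) (XT.nd (nat_lit 78) (nat_lit 456) (nat_lit 0) (XT.lf (nat_lit 0) (nat_lit 9791406812) (nat_lit 608) (nat_lit 3438105458) (nat_lit 76) (nat_lit 827582405) (nat_lit 171) (nat_lit 5) (nat_lit 179) (nat_lit 5) (nat_lit 172) (nat_lit 5) (nat_lit 472) (nat_lit 400) (nat_lit 268)) (XT.lf (nat_lit 0) (nat_lit 4412697133) (nat_lit 456) (nat_lit 8383716634) (nat_lit 532) (nat_lit 1430177575) (nat_lit 165) (nat_lit 5) (nat_lit 171) (nat_lit 5) (nat_lit 172) (nat_lit 5) (nat_lit 473) (nat_lit 400) (nat_lit 267))))) (XT.nd (nat_lit 156) (nat_lit 912) (nat_lit 0) (XT.nd (nat_lit 78) (nat_lit 456) (nat_lit 0) (XT.lf (nat_lit 0) (nat_lit 1451894819) (nat_lit 532) (nat_lit 1961087805) (nat_lit 76) (nat_lit 10986129830) (nat_lit 164) (nat_lit 5) (nat_lit 171) (nat_lit 5) (nat_lit 165) (nat_lit 5) (nat_lit 474) (nat_lit 400) (nat_lit 266)) (XT.lf (nat_lit 0) (nat_lit 4409214013) (nat_lit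 532) (nat_lit 8485291058) (nat_lit 76) (nat_lit 1679659545) (nat_lit 158) (nat_lit 5) (nat_lit 165) (nat_lit 5) (nat_lit 159) (nat_lit 5) (nat_lit 475) (nat_lit 400) (nat_lit 265))) (XT.nd (nat_lit 78) (nat_lit 912) (nat_lit 0) (XT.lf (nat_lit 0) (nat_lit 7447725282) (nat_lit 532) (nat_lit 468009823) (nat_lit 76) (nat_lit 6836546511) (nat_lit 158) (nat_lit 5) (nat_lit 165) (nat_lit 5) (nat_lit 159) (nat_lit 5) (nat_lit 476) (nat_lit 400) (nat_lit 264)) (XT.nd (nat_lit 78) (nat_lit 456) (nat_lit 0) (XT.lf (nat_lit 0) (nat_lit 7792917922) (nat_lit 456) (nat_lit 2791152386) (nat_lit 532) (nat_lit 4349153995) (nat_lit 152) (nat_lit 5) (nat_lit 158) (nat_lit 5) (nat_lit 159) (nat_lit 5) (nat_lit 477) (nat_lit 400) (nat_lit 263)) (XT.lf (nat_lit 0) (nat_lit 1087088539) (nat_lit 456) (nat_lit 12708663972) (nat_lit 532) (nat_lit 1321785654) (nat_lit 146) (nat_lit 5) (nat_lit 152) (nat_lit 5) (nat_lit 153) (nat_lit 5)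 (nat_lit 478) (nat_lit 400) (nat_lit 262))))))) (XT.nd (nat_lit 780) (nat_lit 2204) (nat_lit 0) (XT.nd (nat_lit 390) (nat_lit 1216) (nat_lit 0) (XT.nd (nat_lit 156) (nat_lit 456) (nat_lit 0) (XT.nd (nat_lit 78) (nat_lit 380) (nat_lit 0) (XT.lf (nat_lit 0) (nat_lit 1796307306) (nat_lit 532) (nat_lit 5778103160) (nat_lit 76) (nat_lit 7729836045) (nat_lit 145) (nat_lit 5) (nat_lit 152) (nat_lit 5) (nat_lit 146) (nat_lit 5) (nat_lit 479) (nat_lit 400) (nat_lit 261)) (XT.lf (nat_lit 0) (nat_lit 2646546035) (nat_lit 380) (nat_lit 2316602724) (nat_lit 456) (nat_lit 10531288084) (nat_lit 140) (nat_lit 5) (nat_lit 145) (nat_lit 5) (nat_lit 146) (nat_lit 5) (nat_lit 480) (nat_lit 400) (nat_lit 260))) (XT.nd (nat_lit 78) (nat_lit 456) (nat_lit 0) (XT.lf (nat_lit 0) (nat_lit 8239122770) (nat_lit 456) (nat_lit 4408484286) (nat_lit 76) (nat_lit 3039912193) (nat_lit 140) (nat_lit 5) (nat_lit 146) (nat_lit 5) (nat_lit 141)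 (nat_lit 5) (nat_lit 481) (nat_lit 400) (nat_lit 259)) (XT.nd (nat_lit 78) (nat_lit 0) (nat_lit 0) (XT.lf (nat_lit 0) (nat_lit 4221295470) (nat_lit 456) (nat_lit 7389310996) (nat_lit 532) (nat_lit 4273261135) (nat_lit 134) (nat_lit 5) (nat_lit 140) (nat_lit 5) (nat_lit 141) (nat_lit 5) (nat_lit 482) (nat_lit 400) (nat_lit 258)) (XT.lf (nat_lit 0) (nat_lit 13065114070) (nat_lit 456) (nat_lit 2001361293) (nat_lit 532) (nat_lit 1017332464) (nat_lit 134) (nat_lit 5) (nat_lit 140) (nat_lit 5) (nat_lit 141) (nat_lit 5) (nat_lit 483) (nat_lit 400) (nat_lit 257))))) (XT.nd (nat_lit 156) (nat_lit 760) (nat_lit 0) (XT.nd (nat_lit 78) (nat_lit 0) (nat_lit 0) (XT.lf (nat_lit 0) (nat_lit 2321963755) (nat_lit 456) (nat_lit 10468350300) (nat_lit 76) (nat_lit 3496168270) (nat_lit 128) (nat_lit 5) (nat_lit 134) (nat_lit 5) (nat_lit 129) (nat_lit 5) (nat_lit 484) (nat_lit 400) (nat_lit 256)) (XT.lf (nat_lit 0) (nat_lit 5735706505)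 (nat_lit 456) (nat_lit 1658537006) (nat_lit 76) (nat_lit 9098410444) (nat_lit 128) (nat_lit 5) (nat_lit 134) (nat_lit 5) (nat_lit 129) (nat_lit 5) (nat_lit 485) (nat_lit 400) (nat_lit 255))) (XT.nd (nat_lit 78) (nat_lit 380) (nat_lit 0) (XT.lf (nat_lit 0) (nat_lit 7406750829) (nat_lit 380) (nat_lit 1846930202) (nat_lit 456) (nat_lit 7448552563) (nat_lit 123) (nat_lit 5) (nat_lit 128) (nat_lit 5) (nat_lit 129) (nat_lit 5) (nat_lit 486) (nat_lit 400) (nat_lit 254)) (XT.nd (nat_lit 78) (nat_lit 380) (nat_lit 0) (XT.lf (nat_lit 0) (nat_lit 12865916917) (nat_lit 456) (nat_lit 282726968) (nat_lit 76) (nat_lit 3766886545) (nat_lit 123) (nat_lit 5) (nat_lit 129) (nat_lit 5) (nat_lit 124) (nat_lit 5) (nat_lit 487) (nat_lit 400) (nat_lit 253)) (XT.lf (nat_lit 0) (nat_lit 8998469480) (nat_lit 380) (nat_lit 7610772445) (nat_lit 456) (nat_lit 522677958) (nat_lit 118) (nat_lit 5) (nat_lit 123) (nat_lit 5) (nat_lit 124) (nat_lit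 5) (nat_lit 488) (nat_lit 400) (nat_lit 252)))))) (XT.nd (nat_lit 390) (nat_lit 988) (nat_lit 0) (XT.nd (nat_lit 156) (nat_lit 760) (nat_lit 0) (XT.nd (nat_lit 78) (nat_lit 0) (nat_lit 0) (XT.lf (nat_lit 0) (nat_lit 1093241193) (nat_lit 380) (nat_lit 1938462693) (nat_lit 456) (nat_lit 14320592717) (nat_lit 112) (nat_lit 5) (nat_lit 117) (nat_lit 5) (nat_lit 118) (nat_lit 5) (nat_lit 489) (nat_lit 400) (nat_lit 251)) (XT.lf (nat_lit 0) (nat_lit 6718406785) (nat_lit 456) (nat_lit 7007799755) (nat_lit 76) (nat_lit 3849443940) (nat_lit 112) (nat_lit 5) (nat_lit 118) (nat_lit 5) (nat_lit 113) (nat_lit 5) (nat_lit 490) (nat_lit 400) (nat_lit 250))) (XT.nd (nat_lit 78) (nat_lit 456) (nat_lit 0) (XT.lf (nat_lit 0) (nat_lit 2430136663) (nat_lit 304) (nat_lit 8065857114) (nat_lit 380) (nat_lit 7307137954) (nat_lit 108) (nat_lit 5) (nat_lit 112) (nat_lit 5) (nat_lit 113) (nat_lit 5) (nat_lit 491) (nat_lit 400) (nat_lit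 249)) (XT.nd (nat_lit 78) (nat_lit 456) (nat_lit 0) (XT.lf (nat_lit 0) (nat_lit 12134560186) (nat_lit 304) (nat_lit 2250245548) (nat_lit 380) (nat_lit 3649646643) (nat_lit 108) (nat_lit 5) (nat_lit 112) (nat_lit 5) (nat_lit 113) (nat_lit 5) (nat_lit 492) (nat_lit 400) (nat_lit 248)) (XT.lf (nat_lit 0) (nat_lit 117396247) (nat_lit 456) (nat_lit 14499316683) (nat_lit 76) (nat_lit 3652929817) (nat_lit 102) (nat_lit 5) (nat_lit 108) (nat_lit 5) (nat_lit 103) (nat_lit 5) (nat_lit 493) (nat_lit 400) (nat_lit 247))))) (XT.nd (nat_lit 234) (nat_lit 684) (nat_lit 0) (XT.nd (nat_lit 78) (nat_lit 304) (nat_lit 0) (XT.lf (nat_lit 0) (nat_lit 3954577235) (nat_lit 456) (nat_lit 4851308413) (nat_lit 76) (nat_lit 9702298517) (nat_lit 102) (nat_lit 5) (nat_lit 108) (nat_lit 5) (nat_lit 103) (nat_lit 5) (nat_lit 494) (nat_lit 400) (nat_lit 246)) (XT.nd (nat_lit 78) (nat_lit 0) (nat_lit 0) (XT.lf (nat_lit 0) (nat_lit 5038930553)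 (nat_lit 304) (nat_lit 2851370175) (nat_lit 380) (nat_lit 10860762694) (nat_lit 98) (nat_lit 5) (nat_lit 102) (nat_lit 5) (nat_lit 103) (nat_lit 5) (nat_lit 495) (nat_lit 400) (nat_lit 245)) (XT.lf (nat_lit 0) (nat_lit 11947580152) (nat_lit 380) (nat_lit 3843436803) (nat_lit 76) (nat_lit 3206929409) (nat_lit 98) (nat_lit 5) (nat_lit 103) (nat_lit 5) (nat_lit 99) (nat_lit 5) (nat_lit 496) (nat_lit 400) (nat_lit 244)))) (XT.nd (nat_lit 78) (nat_lit 380) (nat_lit 0) (XT.lf (nat_lit 0) (nat_lit 6269419392) (nat_lit 304) (nat_lit 9865537129) (nat_lit 380) (nat_lit 3113834286) (nat_lit 94) (nat_lit 5) (nat_lit 98) (nat_lit 5) (nat_lit 99) (nat_lit 5) (nat_lit 497) (nat_lit 400) (nat_lit 243)) (XT.nd (nat_lit 78) (nat_lit 304) (nat_lit 0) (XT.lf (nat_lit 0) (nat_lit 904960299) (nat_lit 380) (nat_lit 2890118202) (nat_lit 76) (nat_lit 15709152256) (nat_lit 93) (nat_lit 5) (nat_lit 98) (nat_lit 5) (nat_lit 94) (nat_lit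 5) (nat_lit 498) (nat_lit 400) (nat_lit 242)) (XT.lf (nat_lit 0) (nat_lit 5016504104) (nat_lit 380) (nat_lit 12317691548) (nat_lit 76) (nat_lit 2429093558) (nat_lit 89) (nat_lit 5) (nat_lit 94) (nat_lit 5) (nat_lit 90) (nat_lit 5) (nat_lit 499) (nat_lit 400) (nat_lit 241))))))))
noncomputable def xc153 : XT := (XT.nd (nat_lit 53118) (nat_lit 0) (nat_lit 18316) (XT.nd (nat_lit 52260) (nat_lit 0) (nat_lit 31312) (XT.nd (nat_lit 51870) (nat_lit 0) (nat_lit 33744) (XT.nd (nat_lit 51636) (nat_lit 0) (nat_lit 34884) (XT.nd (nat_lit 78) (nat_lit 304) (nat_lit 0) (XT.lf (nat_lit 0) (nat_lit 9244595519) (nat_lit 380) (nat_lit 2041526473) (nat_lit 76) (nat_lit 8740723158) (nat_lit 89) (nat_lit 5) (nat_lit 94) (nat_lit 5) (nat_lit 90) (nat_lit 5) (nat_lit 500) (nat_lit 400) (nat_lit 240)) (XT.lf (nat_lit 0) (nat_lit 8536106362) (nat_lit 304) (nat_lit 5066428299) (nat_lit 380) (nat_lit 6692234432) (nat_lit 85) (nat_lit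 5) (nat_lit 89) (nat_lit 5) (nat_lit 90) (nat_lit 5) (nat_lit 501) (nat_lit 400) (nat_lit 239))) (XT.nd (nat_lit 78) (nat_lit 0) (nat_lit 0) (XT.lf (nat_lit 0) (nat_lit 303223977) (nat_lit 0) (nat_lit 303223977) (nat_lit 1140) (nat_lit 3040278198) (nat_lit 544) (nat_lit 5) (nat_lit 544) (nat_lit 3) (nat_lit 559) (nat_lit 3) (nat_lit 401) (nat_lit 401) (nat_lit 338)) (XT.nd (nat_lit 78) (nat_lit 0) (nat_lit 0) (XT.lf (nat_lit 0) (nat_lit 2775697547) (nat_lit 1140) (nat_lit 3234016689) (nat_lit 1216) (nat_lit 1324673259) (nat_lit 544) (nat_lit 5) (nat_lit 559) (nat_lit 3) (nat_lit 560) (nat_lit 5) (nat_lit 402) (nat_lit 401) (nat_lit 337)) (XT.lf (nat_lit 76) (nat_lit 266318190) (nat_lit 0) (nat_lit 4068867547) (nat_lit 1216) (nat_lit 3041672899) (nat_lit 545) (nat_lit 5) (nat_lit 544) (nat_lit 5) (nat_lit 560) (nat_lit 5) (nat_lit 403) (nat_lit 401) (nat_lit 336))))) (XT.nd (nat_lit 156) (nat_lit 0) (nat_lit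 0) (XT.nd (nat_lit 78) (nat_lit 1140) (nat_lit 0) (XT.lf (nat_lit 76) (nat_lit 3859447980) (nat_lit 0) (nat_lit 2048456679) (nat_lit 1216) (nat_lit 1512659075) (nat_lit 545) (nat_lit 5) (nat_lit 544) (nat_lit 5) (nat_lit 560) (nat_lit 5) (nat_lit 404) (nat_lit 401) (nat_lit 335)) (XT.lf (nat_lit 0) (nat_lit 7603555) (nat_lit 1216) (nat_lit 7427826896) (nat_lit 1292) (nat_lit 30505074) (nat_lit 529) (nat_lit 5) (nat_lit 545) (nat_lit 5) (nat_lit 546) (nat_lit 5) (nat_lit 405) (nat_lit 401) (nat_lit 334))) (XT.nd (nat_lit 78) (nat_lit 0) (nat_lit 0) (XT.lf (nat_lit 0) (nat_lit 1537236561) (nat_lit 1216) (nat_lit 3799839890) (nat_lit 1292) (nat_lit 2174977826) (nat_lit 529) (nat_lit 5) (nat_lit 545) (nat_lit 5) (nat_lit 546) (nat_lit 5) (nat_lit 406) (nat_lit 401) (nat_lit 333)) (XT.nd (nat_lit 78) (nat_lit 0) (nat_lit 0) (XT.lf (nat_lit 0) (nat_lit 3059795108) (nat_lit 1216) (nat_lit 120813373) (nat_lit 1292)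 (nat_lit 4379263688) (nat_lit 529) (nat_lit 5) (nat_lit 545) (nat_lit 5) (nat_lit 546) (nat_lit 5) (nat_lit 407) (nat_lit 401) (nat_lit 332)) (XT.lf (nat_lit 76) (nat_lit 3658679652) (nat_lit 0) (nat_lit 940951198) (nat_lit 1292) (nat_lit 3009302010) (nat_lit 530) (nat_lit 5) (nat_lit 529) (nat_lit 5) (nat_lit 546) (nat_lit 5) (nat_lit 408) (nat_lit 401) (nat_lit 331)))))) (XT.nd (nat_lit 390) (nat_lit 1216) (nat_lit 0) (XT.nd (nat_lit 156) (nat_lit 0) (nat_lit 0) (XT.nd (nat_lit 78) (nat_lit 1292) (nat_lit 0) (XT.lf (nat_lit 0) (nat_lit 6143561608) (nat_lit 1216) (nat_lit 174095261) (nat_lit 1292) (nat_lit 1341874444) (nat_lit 530) (nat_lit 5) (nat_lit 546) (nat_lit 5) (nat_lit 547) (nat_lit 5) (nat_lit 409) (nat_lit 401) (nat_lit 330)) (XT.lf (nat_lit 0) (nat_lit 1792017) (nat_lit 1292) (nat_lit 4012801729) (nat_lit 1368) (nat_lit 3696675535) (nat_lit 513) (nat_lit 5) (nat_lit 530) (nat_lit 5) (nat_lit 531)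 (nat_lit 5) (nat_lit 410) (nat_lit 401) (nat_lit 329))) (XT.nd (nat_lit 78) (nat_lit 0) (nat_lit 76) (XT.lf (nat_lit 0) (nat_lit 1495580855) (nat_lit 1292) (nat_lit 144954074) (nat_lit 1368) (nat_lit 6124008471) (nat_lit 513) (nat_lit 5) (nat_lit 530) (nat_lit 5) (nat_lit 531) (nat_lit 5) (nat_lit 411) (nat_lit 401) (nat_lit 328)) (XT.nd (nat_lit 78) (nat_lit 0) (nat_lit 0) (XT.lf (nat_lit 0) (nat_lit 3014894712) (nat_lit 1292) (nat_lit 3995251453) (nat_lit 1368) (nat_lit 808844648) (nat_lit 514) (nat_lit 5) (nat_lit 531) (nat_lit 5) (nat_lit 532) (nat_lit 5) (nat_lit 412) (nat_lit 401) (nat_lit 327)) (XT.lf (nat_lit 0) (nat_lit 4542527906) (nat_lit 1292) (nat_lit 33554109) (nat_lit 1368) (nat_lit 3298906889) (nat_lit 514) (nat_lit 5) (nat_lit 531) (nat_lit 5) (nat_lit 532) (nat_lit 5) (nat_lit 413) (nat_lit 401) (nat_lit 326))))) (XT.nd (nat_lit 234) (nat_lit 0) (nat_lit 0) (XT.nd (nat_lit 78) (nat_lit 1292)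 (nat_lit 0) (XT.lf (nat_lit 76) (nat_lit 4038830471) (nat_lit 0) (nat_lit 2054860401) (nat_lit 1368) (nat_lit 1838576534) (nat_lit 515) (nat_lit 5) (nat_lit 514) (nat_lit 5) (nat_lit 532) (nat_lit 5) (nat_lit 414) (nat_lit 401) (nat_lit 325)) (XT.nd (nat_lit 78) (nat_lit 1368) (nat_lit 0) (XT.lf (nat_lit 76) (nat_lit 179302248) (nat_lit 0) (nat_lit 7468662147) (nat_lit 1368) (nat_lit 343304934) (nat_lit 516) (nat_lit 5) (nat_lit 515) (nat_lit 5) (nat_lit 533) (nat_lit 5) (nat_lit 415) (nat_lit 401) (nat_lit 324)) (XT.lf (nat_lit 0) (nat_lit 1173886918) (nat_lit 1368) (nat_lit 3708537755) (nat_lit 1444) (nat_lit 3168741681) (nat_lit 497) (nat_lit 5) (nat_lit 515) (nat_lit 5) (nat_lit 516) (nat_lit 5) (nat_lit 416) (nat_lit 401) (nat_lit 323)))) (XT.nd (nat_lit 78) (nat_lit 0) (nat_lit 76) (XT.lf (nat_lit 76) (nat_lit 458715588) (nat_lit 0) (nat_lit 2229334811) (nat_lit 1444) (nat_lit 5424759510) (nat_lit 498)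 (nat_lit 5) (nat_lit 497) (nat_lit 5) (nat_lit 516) (nat_lit 5) (nat_lit 417) (nat_lit 401) (nat_lit 322)) (XT.nd (nat_lit 78) (nat_lit 0) (nat_lit 0) (XT.lf (nat_lit 0) (nat_lit 4229428216) (nat_lit 1368) (nat_lit 3441412443) (nat_lit 1444) (nat_lit 504925161) (nat_lit 498) (nat_lit 5) (nat_lit 516) (nat_lit 5) (nat_lit 517) (nat_lit 5) (nat_lit 418) (nat_lit 401) (nat_lit 321)) (XT.lf (nat_lit 76) (nat_lit 829533436) (nat_lit 0) (nat_lit 4961646121) (nat_lit 1444) (nat_lit 2449028125) (nat_lit 499) (nat_lit 5) (nat_lit 498) (nat_lit 5) (nat_lit 517) (nat_lit 5) (nat_lit 419) (nat_lit 401) (nat_lit 320))))))) (XT.nd (nat_lit 780) (nat_lit 7144) (nat_lit 0) (XT.nd (nat_lit 390) (nat_lit 4560) (nat_lit 0) (XT.nd (nat_lit 156) (nat_lit 0) (nat_lit 0) (XT.nd (nat_lit 78) (nat_lit 1368) (nat_lit 0) (XT.lf (nat_lit 76) (nat_lit 5210587606) (nat_lit 0) (nat_lit 2166525781) (nat_lit 1444) (nat_lit 928983447) (nat_lit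 499) (nat_lit 5) (nat_lit 498) (nat_lit 5) (nat_lit 517) (nat_lit 5) (nat_lit 420) (nat_lit 401) (nat_lit 319)) (XT.lf (nat_lit 0) (nat_lit 596542294) (nat_lit 1444) (nat_lit 7081251423) (nat_lit 1520) (nat_lit 695781466) (nat_lit 480) (nat_lit 5) (nat_lit 499) (nat_lit 5) (nat_lit 500) (nat_lit 5) (nat_lit 421) (nat_lit 401) (nat_lit 318))) (XT.nd (nat_lit 78) (nat_lit 0) (nat_lit 0) (XT.lf (nat_lit 0) (nat_lit 2146132350) (nat_lit 1444) (nat_lit 2675200477) (nat_lit 1520) (nat_lit 3620844001) (nat_lit 480) (nat_lit 5) (nat_lit 499) (nat_lit 5) (nat_lit 500) (nat_lit 5) (nat_lit 422) (nat_lit 401) (nat_lit 317)) (XT.nd (nat_lit 78) (nat_lit 0) (nat_lit 76) (XT.lf (nat_lit 76) (nat_lit 1820843298) (nat_lit 0) (nat_lit 1888990430) (nat_lit 1520) (nat_lit 4802670466) (nat_lit 481) (nat_lit 5) (nat_lit 480) (nat_lit 5) (nat_lit 500) (nat_lit 5) (nat_lit 423) (nat_lit 401) (nat_lit 316)) (XT.lf (nat_lit 0) (nat_lit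 5301794838) (nat_lit 1444) (nat_lit 2170569012) (nat_lit 76) (nat_lit 1111950306) (nat_lit 481) (nat_lit 5) (nat_lit 500) (nat_lit 5) (nat_lit 482) (nat_lit 5) (nat_lit 424) (nat_lit 401) (nat_lit 315))))) (XT.nd (nat_lit 156) (nat_lit 3192) (nat_lit 0) (XT.nd (nat_lit 78) (nat_lit 0) (nat_lit 0) (XT.lf (nat_lit 0) (nat_lit 2438368255) (nat_lit 1444) (nat_lit 4487881922) (nat_lit 1520) (nat_lit 1731312493) (nat_lit 462) (nat_lit 5) (nat_lit 481) (nat_lit 5) (nat_lit 482) (nat_lit 5) (nat_lit 425) (nat_lit 401) (nat_lit 314)) (XT.lf (nat_lit 0) (nat_lit 7147005721) (nat_lit 1444) (nat_lit 1423468867) (nat_lit 1520) (nat_lit 162071116) (nat_lit 462) (nat_lit 5) (nat_lit 481) (nat_lit 5) (nat_lit 482) (nat_lit 5) (nat_lit 426) (nat_lit 401) (nat_lit 313))) (XT.nd (nat_lit 78) (nat_lit 1596) (nat_lit 0) (XT.lf (nat_lit 0) (nat_lit 1424486058) (nat_lit 1596) (nat_lit 5669340204) (nat_lit 76) (nat_lit 1714933942)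 (nat_lit 441) (nat_lit 5) (nat_lit 462) (nat_lit 5) (nat_lit 442) (nat_lit 5) (nat_lit 427) (nat_lit 401) (nat_lit 312)) (XT.nd (nat_lit 78) (nat_lit 1596) (nat_lit 0) (XT.lf (nat_lit 0) (nat_lit 3034219902) (nat_lit 1596) (nat_lit 938762871) (nat_lit 76) (nat_lit 4913636758) (nat_lit 441) (nat_lit 5) (nat_lit 462) (nat_lit 5) (nat_lit 442) (nat_lit 5) (nat_lit 428) (nat_lit 401) (nat_lit 311)) (XT.lf (nat_lit 0) (nat_lit 3915943583) (nat_lit 1596) (nat_lit 759626225) (nat_lit 1672) (nat_lit 4290491807) (nat_lit 420) (nat_lit 5) (nat_lit 441) (nat_lit 5) (nat_lit 442) (nat_lit 5) (nat_lit 429) (nat_lit 401) (nat_lit 310)))))) (XT.nd (nat_lit 390) (nat_lit 2660) (nat_lit 0) (XT.nd (nat_lit 156) (nat_lit 2812) (nat_lit 0) (XT.nd (nat_lit 78) (nat_lit 1672) (nat_lit 0) (XT.lf (nat_lit 0) (nat_lit 6346827582) (nat_lit 1672) (nat_lit 205136449) (nat_lit 76) (nat_lit 2495200612) (nat_lit 420) (nat_lit 5) (nat_lit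 442) (nat_lit 5) (nat_lit 421) (nat_lit 5) (nat_lit 430) (nat_lit 401) (nat_lit 309)) (XT.lf (nat_lit 0) (nat_lit 4772493475) (nat_lit 1672) (nat_lit 3289927050) (nat_lit 1748) (nat_lit 1067264460) (nat_lit 398) (nat_lit 5) (nat_lit 420) (nat_lit 5) (nat_lit 421) (nat_lit 5) (nat_lit 431) (nat_lit 401) (nat_lit 308))) (XT.nd (nat_lit 78) (nat_lit 988) (nat_lit 0) (XT.lf (nat_lit 0) (nat_lit 571428187) (nat_lit 1824) (nat_lit 8593641422) (nat_lit 76) (nat_lit 49105191) (nat_lit 374) (nat_lit 5) (nat_lit 398) (nat_lit 5) (nat_lit 375) (nat_lit 5) (nat_lit 432) (nat_lit 401) (nat_lit 307)) (XT.nd (nat_lit 78) (nat_lit 988) (nat_lit 0) (XT.lf (nat_lit 0) (nat_lit 2255269999) (nat_lit 1824) (nat_lit 3594333914) (nat_lit 76) (nat_lit 3450088763) (nat_lit 374) (nat_lit 5) (nat_lit 398) (nat_lit 5) (nat_lit 375) (nat_lit 5) (nat_lit 433) (nat_lit 401) (nat_lit 306)) (XT.lf (nat_lit 0) (nat_lit 1502716456) (nat_lit 988)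 (nat_lit 2455742886) (nat_lit 1064) (nat_lit 5428760582) (nat_lit 361) (nat_lit 5) (nat_lit 374) (nat_lit 5) (nat_lit 375) (nat_lit 5) (nat_lit 434) (nat_lit 401) (nat_lit 305))))) (XT.nd (nat_lit 234) (nat_lit 1748) (nat_lit 0) (XT.nd (nat_lit 78) (nat_lit 912) (nat_lit 0) (XT.lf (nat_lit 0) (nat_lit 5702781064) (nat_lit 1064) (nat_lit 2754583871) (nat_lit 76) (nat_lit 1019003595) (nat_lit 361) (nat_lit 5) (nat_lit 375) (nat_lit 5) (nat_lit 362) (nat_lit 5) (nat_lit 435) (nat_lit 401) (nat_lit 304)) (XT.nd (nat_lit 78) (nat_lit 0) (nat_lit 0) (XT.lf (nat_lit 0) (nat_lit 2472224785) (nat_lit 912) (nat_lit 5018801893) (nat_lit 988) (nat_lit 2076104626) (nat_lit 349) (nat_lit 5) (nat_lit 361) (nat_lit 5) (nat_lit 362) (nat_lit 5) (nat_lit 436) (nat_lit 401) (nat_lit 303)) (XT.lf (nat_lit 0) (nat_lit 7819182797) (nat_lit 912) (nat_lit 1491377406) (nat_lit 988) (nat_lit 349250383) (nat_lit 349) (nat_lit 5) (nat_lit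 361) (nat_lit 5) (nat_lit 362) (nat_lit 5) (nat_lit 437) (nat_lit 401) (nat_lit 302)))) (XT.nd (nat_lit 78) (nat_lit 836) (nat_lit 0) (XT.lf (nat_lit 0) (nat_lit 1407792625) (nat_lit 912) (nat_lit 6233754250) (nat_lit 76) (nat_lit 2112341022) (nat_lit 337) (nat_lit 5) (nat_lit 349) (nat_lit 5) (nat_lit 338) (nat_lit 5) (nat_lit 438) (nat_lit 401) (nat_lit 301)) (XT.nd (nat_lit 78) (nat_lit 836) (nat_lit 0) (XT.lf (nat_lit 0) (nat_lit 3195253528) (nat_lit 912) (nat_lit 870745087) (nat_lit 76) (nat_lit 5783813934) (nat_lit 337) (nat_lit 5) (nat_lit 349) (nat_lit 5) (nat_lit 338) (nat_lit 5) (nat_lit 439) (nat_lit 401) (nat_lit 300)) (XT.lf (nat_lit 0) (nat_lit 4638859333) (nat_lit 836) (nat_lit 387800392) (nat_lit 912) (nat_lit 4920842868) (nat_lit 326) (nat_lit 5) (nat_lit 337) (nat_lit 5) (nat_lit 338) (nat_lit 5) (nat_lit 440) (nat_lit 401) (nat_lit 299))))))))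
noncomputable def xc154 : XT := (XT.nd (nat_lit 1638) (nat_lit 5624) (nat_lit 0) (XT.nd (nat_lit 780) (nat_lit 3952) (nat_lit 0) (XT.nd (nat_lit 390) (nat_lit 2204) (nat_lit 0) (XT.nd (nat_lit 156) (nat_lit 1596) (nat_lit 0) (XT.nd (nat_lit 78) (nat_lit 0) (nat_lit 0) (XT.lf (nat_lit 0) (nat_lit 182130452) (nat_lit 760) (nat_lit 6719839448) (nat_lit 836) (nat_lit 3145041627) (nat_lit 316) (nat_lit 5) (nat_lit 326) (nat_lit 5) (nat_lit 327) (nat_lit 5) (nat_lit 441) (nat_lit 401) (nat_lit 298)) (XT.lf (nat_lit 0) (nat_lit 5830412925) (nat_lit 760) (nat_lit 3001202329) (nat_lit 836) (nat_lit 1316569207) (nat_lit 316) (nat_lit 5) (nat_lit 326) (nat_lit 5) (nat_lit 327) (nat_lit 5) (nat_lit 442) (nat_lit 401) (nat_lit 297))) (XT.nd (nat_lit 78) (nat_lit 760) (nat_lit 0) (XT.lf (nat_lit 0) (nat_lit 534074548) (nat_lit 836) (nat_lit 8924119386) (nat_lit 76) (nat_lit 793269791) (nat_lit 305) (nat_lit 5) (nat_lit 316)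 (nat_lit 5) (nat_lit 306) (nat_lit 5) (nat_lit 443) (nat_lit 401) (nat_lit 296)) (XT.nd (nat_lit 78) (nat_lit 760) (nat_lit 0) (XT.lf (nat_lit 0) (nat_lit 2432355063) (nat_lit 836) (nat_lit 3262934528) (nat_lit 76) (nat_lit 4660789677) (nat_lit 305) (nat_lit 5) (nat_lit 316) (nat_lit 5) (nat_lit 306) (nat_lit 5) (nat_lit 444) (nat_lit 401) (nat_lit 295)) (XT.lf (nat_lit 0) (nat_lit 2523183573) (nat_lit 760) (nat_lit 1841402101) (nat_lit 836) (nat_lit 6098291366) (nat_lit 295) (nat_lit 5) (nat_lit 305) (nat_lit 5) (nat_lit 306) (nat_lit 5) (nat_lit 445) (nat_lit 401) (nat_lit 294))))) (XT.nd (nat_lit 156) (nat_lit 1444) (nat_lit 0) (XT.nd (nat_lit 78) (nat_lit 760) (nat_lit 0) (XT.lf (nat_lit 0) (nat_lit 6350925904) (nat_lit 836) (nat_lit 2137477448) (nat_lit 76) (nat_lit 2083107534) (nat_lit 295) (nat_lit 5) (nat_lit 306) (nat_lit 5) (nat_lit 296) (nat_lit 5) (nat_lit 446) (nat_lit 401) (nat_lit 293)) (XT.lf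 (nat_lit 0) (nat_lit 3797166403) (nat_lit 760) (nat_lit 4596927093) (nat_lit 836) (nat_lit 2287891138) (nat_lit 285) (nat_lit 5) (nat_lit 295) (nat_lit 5) (nat_lit 296) (nat_lit 5) (nat_lit 447) (nat_lit 401) (nat_lit 292))) (XT.nd (nat_lit 78) (nat_lit 1444) (nat_lit 0) (XT.lf (nat_lit 0) (nat_lit 9858394531) (nat_lit 760) (nat_lit 614575958) (nat_lit 836) (nat_lit 321809499) (nat_lit 285) (nat_lit 5) (nat_lit 295) (nat_lit 5) (nat_lit 296) (nat_lit 5) (nat_lit 448) (nat_lit 401) (nat_lit 291)) (XT.nd (nat_lit 78) (nat_lit 684) (nat_lit 0) (XT.lf (nat_lit 0) (nat_lit 1698476167) (nat_lit 760) (nat_lit 5765085802) (nat_lit 76) (nat_lit 3445320102) (nat_lit 275) (nat_lit 5) (nat_lit 285) (nat_lit 5) (nat_lit 276) (nat_lit 5) (nat_lit 449) (nat_lit 401) (nat_lit 290)) (XT.lf (nat_lit 0) (nat_lit 309780868) (nat_lit 684) (nat_lit 3438468510) (nat_lit 760) (nat_lit 7277114989) (nat_lit 266) (nat_lit 5) (nat_lit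 275) (nat_lit 5) (nat_lit 276) (nat_lit 5) (nat_lit 450) (nat_lit 401) (nat_lit 289)))))) (XT.nd (nat_lit 390) (nat_lit 2508) (nat_lit 0) (XT.nd (nat_lit 156) (nat_lit 760) (nat_lit 0) (XT.nd (nat_lit 78) (nat_lit 684) (nat_lit 0) (XT.lf (nat_lit 0) (nat_lit 5863494442) (nat_lit 760) (nat_lit 4585101383) (nat_lit 76) (nat_lit 695099319) (nat_lit 266) (nat_lit 5) (nat_lit 276) (nat_lit 5) (nat_lit 267) (nat_lit 5) (nat_lit 451) (nat_lit 401) (nat_lit 288)) (XT.lf (nat_lit 0) (nat_lit 1645820662) (nat_lit 684) (nat_lit 6390251403) (nat_lit 760) (nat_lit 3228028120) (nat_lit 257) (nat_lit 5) (nat_lit 266) (nat_lit 5) (nat_lit 267) (nat_lit 5) (nat_lit 452) (nat_lit 401) (nat_lit 287))) (XT.nd (nat_lit 78) (nat_lit 760) (nat_lit 0) (XT.lf (nat_lit 0) (nat_lit 8042667824) (nat_lit 684) (nat_lit 2221998461) (nat_lit 760) (nat_lit 1122003779) (nat_lit 257) (nat_lit 5) (nat_lit 266) (nat_lit 5) (nat_lit 267) (nat_lit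 5) (nat_lit 453) (nat_lit 401) (nat_lit 286)) (XT.nd (nat_lit 78) (nat_lit 0) (nat_lit 0) (XT.lf (nat_lit 0) (nat_lit 1027970471) (nat_lit 760) (nat_lit 8456202076) (nat_lit 76) (nat_lit 2027087525) (nat_lit 247) (nat_lit 5) (nat_lit 257) (nat_lit 5) (nat_lit 248) (nat_lit 5) (nat_lit 454) (nat_lit 401) (nat_lit 285)) (XT.lf (nat_lit 0) (nat_lit 3225466884) (nat_lit 760) (nat_lit 2053650975) (nat_lit 76) (nat_lit 6358692342) (nat_lit 247) (nat_lit 5) (nat_lit 257) (nat_lit 5) (nat_lit 248) (nat_lit 5) (nat_lit 455) (nat_lit 401) (nat_lit 284))))) (XT.nd (nat_lit 234) (nat_lit 1292) (nat_lit 0) (XT.nd (nat_lit 78) (nat_lit 608) (nat_lit 0) (XT.lf (nat_lit 0) (nat_lit 4515693073) (nat_lit 608) (nat_lit 963115906) (nat_lit 684) (nat_lit 6287851864) (nat_lit 239) (nat_lit 5) (nat_lit 247) (nat_lit 5) (nat_lit 248) (nat_lit 5) (nat_lit 456) (nat_lit 401) (nat_lit 283)) (XT.nd (nat_lit 78) (nat_lit 608) (nat_lit 0)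 (XT.lf (nat_lit 0) (nat_lit 7796185923) (nat_lit 684) (nat_lit 696650623) (nat_lit 76) (nat_lit 3404879873) (nat_lit 239) (nat_lit 5) (nat_lit 248) (nat_lit 5) (nat_lit 240) (nat_lit 5) (nat_lit 457) (nat_lit 401) (nat_lit 282)) (XT.lf (nat_lit 0) (nat_lit 6041334612) (nat_lit 608) (nat_lit 4147282370) (nat_lit 684) (nat_lit 1842209134) (nat_lit 231) (nat_lit 5) (nat_lit 239) (nat_lit 5) (nat_lit 240) (nat_lit 5) (nat_lit 458) (nat_lit 401) (nat_lit 281)))) (XT.nd (nat_lit 78) (nat_lit 608) (nat_lit 0) (XT.lf (nat_lit 0) (nat_lit 450866339) (nat_lit 684) (nat_lit 11425236886) (nat_lit 76) (nat_lit 290548995) (nat_lit 222) (nat_lit 5) (nat_lit 231) (nat_lit 5) (nat_lit 223) (nat_lit 5) (nat_lit 459) (nat_lit 401) (nat_lit 280)) (XT.nd (nat_lit 78) (nat_lit 608) (nat_lit 0) (XT.lf (nat_lit 0) (nat_lit 2816445264) (nat_lit 684) (nat_lit 4676744839) (nat_lit 76) (nat_lit 4810741746) (nat_lit 222) (nat_lit 5) (nat_lit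 231) (nat_lit 5) (nat_lit 223) (nat_lit 5) (nat_lit 460) (nat_lit 401) (nat_lit 279)) (XT.lf (nat_lit 0) (nat_lit 2215626756) (nat_lit 608) (nat_lit 3011782372) (nat_lit 684) (nat_lit 7216593073) (nat_lit 214) (nat_lit 5) (nat_lit 222) (nat_lit 5) (nat_lit 223) (nat_lit 5) (nat_lit 461) (nat_lit 401) (nat_lit 278))))))) (XT.nd (nat_lit 780) (nat_lit 2888) (nat_lit 0) (XT.nd (nat_lit 390) (nat_lit 1596) (nat_lit 0) (XT.nd (nat_lit 156) (nat_lit 608) (nat_lit 0) (XT.nd (nat_lit 78) (nat_lit 532) (nat_lit 0) (XT.lf (nat_lit 0) (nat_lit 7712159877) (nat_lit 684) (nat_lit 3307657247) (nat_lit 76) (nat_lit 1566551948) (nat_lit 214) (nat_lit 5) (nat_lit 223) (nat_lit 5) (nat_lit 215) (nat_lit 5) (nat_lit 462) (nat_lit 401) (nat_lit 277)) (XT.lf (nat_lit 0) (nat_lit 3760933782) (nat_lit 532) (nat_lit 6514205173) (nat_lit 608) (nat_lit 2455879998) (nat_lit 207) (nat_lit 5) (nat_lit 214) (nat_lit 5) (nat_lit 215) (nat_lit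 5) (nat_lit 463) (nat_lit 401) (nat_lit 276))) (XT.nd (nat_lit 78) (nat_lit 532) (nat_lit 0) (XT.lf (nat_lit 0) (nat_lit 17258451) (nat_lit 608) (nat_lit 1882608063) (nat_lit 76) (nat_lit 10978568316) (nat_lit 206) (nat_lit 5) (nat_lit 214) (nat_lit 5) (nat_lit 207) (nat_lit 5) (nat_lit 464) (nat_lit 401) (nat_lit 275)) (XT.nd (nat_lit 78) (nat_lit 0) (nat_lit 0) (XT.lf (nat_lit 0) (nat_lit 2545031061) (nat_lit 608) (nat_lit 7665307356) (nat_lit 76) (nat_lit 2817380801) (nat_lit 199) (nat_lit 5) (nat_lit 207) (nat_lit 5) (nat_lit 200) (nat_lit 5) (nat_lit 465) (nat_lit 401) (nat_lit 274)) (XT.lf (nat_lit 0) (nat_lit 5133357459) (nat_lit 608) (nat_lit 434319159) (nat_lit 76) (nat_lit 7612118566) (nat_lit 199) (nat_lit 5) (nat_lit 207) (nat_lit 5) (nat_lit 200) (nat_lit 5) (nat_lit 466) (nat_lit 401) (nat_lit 273))))) (XT.nd (nat_lit 156) (nat_lit 532) (nat_lit 0) (XT.nd (nat_lit 78) (nat_lit 532) (nat_lit 0)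 (XT.lf (nat_lit 0) (nat_lit 7013896527) (nat_lit 532) (nat_lit 790092219) (nat_lit 608) (nat_lit 5530318897) (nat_lit 192) (nat_lit 5) (nat_lit 199) (nat_lit 5) (nat_lit 200) (nat_lit 5) (nat_lit 467) (nat_lit 401) (nat_lit 272)) (XT.lf (nat_lit 0) (nat_lit 1093395900) (nat_lit 532) (nat_lit 9456319357) (nat_lit 608) (nat_lit 2941767070) (nat_lit 185) (nat_lit 5) (nat_lit 192) (nat_lit 5) (nat_lit 193) (nat_lit 5) (nat_lit 468) (nat_lit 401) (nat_lit 271))) (XT.nd (nat_lit 78) (nat_lit 532) (nat_lit 0) (XT.lf (nat_lit 0) (nat_lit 8716453595) (nat_lit 532) (nat_lit 4666819298) (nat_lit 608) (nat_lit 267874799) (nat_lit 185) (nat_lit 5) (nat_lit 192) (nat_lit 5) (nat_lit 193) (nat_lit 5) (nat_lit 469) (nat_lit 401) (nat_lit 270)) (XT.nd (nat_lit 78) (nat_lit 0) (nat_lit 0) (XT.lf (nat_lit 0) (nat_lit 2431726809) (nat_lit 532) (nat_lit 11137341015) (nat_lit 76) (nat_lit 244534706) (nat_lit 178) (nat_lit 5) (nat_lit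 185) (nat_lit 5) (nat_lit 179) (nat_lit 5) (nat_lit 470) (nat_lit 401) (nat_lit 269)) (XT.lf (nat_lit 0) (nat_lit 5231599181) (nat_lit 532) (nat_lit 3524567274) (nat_lit 76) (nat_lit 5222112487) (nat_lit 178) (nat_lit 5) (nat_lit 185) (nat_lit 5) (nat_lit 179) (nat_lit 5) (nat_lit 471) (nat_lit 401) (nat_lit 268)))))) (XT.nd (nat_lit 390) (nat_lit 1368) (nat_lit 0) (XT.nd (nat_lit 156) (nat_lit 988) (nat_lit 0) (XT.nd (nat_lit 78) (nat_lit 0) (nat_lit 0) (XT.lf (nat_lit 0) (nat_lit 4277591737) (nat_lit 532) (nat_lit 3823554576) (nat_lit 608) (nat_lit 6044834121) (nat_lit 171) (nat_lit 5) (nat_lit 178) (nat_lit 5) (nat_lit 179) (nat_lit 5) (nat_lit 472) (nat_lit 401) (nat_lit 267)) (XT.lf (nat_lit 0) (nat_lit 11045760496) (nat_lit 608) (nat_lit 2060089201) (nat_lit 76) (nat_lit 1210837733) (nat_lit 171) (nat_lit 5) (nat_lit 179) (nat_lit 5) (nat_lit 172) (nat_lit 5) (nat_lit 473) (nat_lit 401) (nat_lit 266)))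 (XT.nd (nat_lit 78) (nat_lit 532) (nat_lit 0) (XT.lf (nat_lit 0) (nat_lit 5938211163) (nat_lit 456) (nat_lit 8161232671) (nat_lit 532) (nat_lit 390366097) (nat_lit 165) (nat_lit 5) (nat_lit 171) (nat_lit 5) (nat_lit 172) (nat_lit 5) (nat_lit 474) (nat_lit 401) (nat_lit 265)) (XT.nd (nat_lit 78) (nat_lit 456) (nat_lit 0) (XT.lf (nat_lit 0) (nat_lit 2514660730) (nat_lit 532) (nat_lit 577136555) (nat_lit 76) (nat_lit 11574266070) (nat_lit 164) (nat_lit 5) (nat_lit 171) (nat_lit 5) (nat_lit 165) (nat_lit 5) (nat_lit 475) (nat_lit 401) (nat_lit 264)) (XT.lf (nat_lit 0) (nat_lit 5522576270) (nat_lit 532) (nat_lit 7222924042) (nat_lit 76) (nat_lit 2099294244) (nat_lit 158) (nat_lit 5) (nat_lit 165) (nat_lit 5) (nat_lit 159) (nat_lit 5) (nat_lit 476) (nat_lit 401) (nat_lit 263))))) (XT.nd (nat_lit 234) (nat_lit 456) (nat_lit 0) (XT.nd (nat_lit 78) (nat_lit 456) (nat_lit 0) (XT.lf (nat_lit 0) (nat_lit 938937289) (nat_lit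 456) (nat_lit 7668915150) (nat_lit 532) (nat_lit 6418908423) (nat_lit 152) (nat_lit 5) (nat_lit 158) (nat_lit 5) (nat_lit 159) (nat_lit 5) (nat_lit 477) (nat_lit 401) (nat_lit 262)) (XT.nd (nat_lit 78) (nat_lit 456) (nat_lit 0) (XT.lf (nat_lit 0) (nat_lit 9343532462) (nat_lit 456) (nat_lit 2446644001) (nat_lit 532) (nat_lit 3421487622) (nat_lit 152) (nat_lit 5) (nat_lit 158) (nat_lit 5) (nat_lit 159) (nat_lit 5) (nat_lit 478) (nat_lit 401) (nat_lit 261)) (XT.lf (nat_lit 0) (nat_lit 2511919995) (nat_lit 456) (nat_lit 12546331832) (nat_lit 532) (nat_lit 341575799) (nat_lit 146) (nat_lit 5) (nat_lit 152) (nat_lit 5) (nat_lit 153) (nat_lit 5) (nat_lit 479) (nat_lit 401) (nat_lit 260)))) (XT.nd (nat_lit 78) (nat_lit 380) (nat_lit 0) (XT.lf (nat_lit 0) (nat_lit 2806197404) (nat_lit 532) (nat_lit 4504826815) (nat_lit 76) (nat_lit 8279511126) (nat_lit 145) (nat_lit 5) (nat_lit 152) (nat_lit 5) (nat_lit 146) (nat_lit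 5) (nat_lit 480) (nat_lit 401) (nat_lit 259)) (XT.nd (nat_lit 78) (nat_lit 0) (nat_lit 0) (XT.lf (nat_lit 0) (nat_lit 4079178270) (nat_lit 380) (nat_lit 1947058020) (nat_lit 456) (nat_lit 9758502193) (nat_lit 140) (nat_lit 5) (nat_lit 145) (nat_lit 5) (nat_lit 146) (nat_lit 5) (nat_lit 481) (nat_lit 401) (nat_lit 258)) (XT.lf (nat_lit 0) (nat_lit 9351478463) (nat_lit 456) (nat_lit 3127449792) (nat_lit 76) (nat_lit 3503085399) (nat_lit 140) (nat_lit 5) (nat_lit 146) (nat_lit 5) (nat_lit 141) (nat_lit 5) (nat_lit 482) (nat_lit 401) (nat_lit 257))))))))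
noncomputable def xc155 : XT := (XT.nd (nat_lit 53196) (nat_lit 0) (nat_lit 29640) (XT.nd (nat_lit 780) (nat_lit 1444) (nat_lit 0) (XT.nd (nat_lit 390) (nat_lit 1140) (nat_lit 0) (XT.nd (nat_lit 156) (nat_lit 836) (nat_lit 0) (XT.nd (nat_lit 78) (nat_lit 0) (nat_lit 0) (XT.lf (nat_lit 0) (nat_lit 5665917637) (nat_lit 456) (nat_lit 7114725625) (nat_lit 532) (nat_lit 3401846652) (nat_lit 134) (nat_lit 5) (nat_lit 140) (nat_lit 5) (nat_lit 141) (nat_lit 5) (nat_lit 483) (nat_lit 401) (nat_lit 256)) (XT.lf (nat_lit 0) (nat_lit 14659942094) (nat_lit 456) (nat_lit 1627298724) (nat_lit 532) (nat_lit 99561755) (nat_lit 134) (nat_lit 5) (nat_lit 140) (nat_lit 5) (nat_lit 141) (nat_lit 5) (nat_lit 484) (nat_lit 401) (nat_lit 255))) (XT.nd (nat_lit 78) (nat_lit 380) (nat_lit 0) (XT.lf (nat_lit 0) (nat_lit 3287478853) (nat_lit 456) (nat_lit 9324581751) (nat_lit 76) (nat_lit 3981488524) (nat_lit 128) (nat_lit 5) (nat_lit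 134) (nat_lit 5) (nat_lit 129) (nat_lit 5) (nat_lit 485) (nat_lit 401) (nat_lit 254)) (XT.nd (nat_lit 78) (nat_lit 380) (nat_lit 0) (XT.lf (nat_lit 0) (nat_lit 6751475364) (nat_lit 456) (nat_lit 365104262) (nat_lit 76) (nat_lit 9687630505) (nat_lit 128) (nat_lit 5) (nat_lit 134) (nat_lit 5) (nat_lit 129) (nat_lit 5) (nat_lit 486) (nat_lit 401) (nat_lit 253)) (XT.lf (nat_lit 0) (nat_lit 8872761676) (nat_lit 380) (nat_lit 1457936488) (nat_lit 456) (nat_lit 6687470830) (nat_lit 123) (nat_lit 5) (nat_lit 128) (nat_lit 5) (nat_lit 129) (nat_lit 5) (nat_lit 487) (nat_lit 401) (nat_lit 252))))) (XT.nd (nat_lit 156) (nat_lit 684) (nat_lit 0) (XT.nd (nat_lit 78) (nat_lit 76) (nat_lit 0) (XT.lf (nat_lit 0) (nat_lit 1032234538) (nat_lit 380) (nat_lit 12974868303) (nat_lit 456) (nat_lit 3228795745) (nat_lit 118) (nat_lit 5) (nat_lit 123) (nat_lit 5) (nat_lit 124) (nat_lit 5) (nat_lit 488) (nat_lit 401) (nat_lit 251)) (XT.lf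 (nat_lit 0) (nat_lit 348264959) (nat_lit 456) (nat_lit 6982303882) (nat_lit 76) (nat_lit 10126315776) (nat_lit 117) (nat_lit 5) (nat_lit 123) (nat_lit 5) (nat_lit 118) (nat_lit 5) (nat_lit 489) (nat_lit 401) (nat_lit 250))) (XT.nd (nat_lit 78) (nat_lit 304) (nat_lit 0) (XT.lf (nat_lit 0) (nat_lit 2416839352) (nat_lit 380) (nat_lit 1541209505) (nat_lit 456) (nat_lit 13723729650) (nat_lit 112) (nat_lit 5) (nat_lit 117) (nat_lit 5) (nat_lit 118) (nat_lit 5) (nat_lit 490) (nat_lit 401) (nat_lit 249)) (XT.nd (nat_lit 78) (nat_lit 304) (nat_lit 0) (XT.lf (nat_lit 0) (nat_lit 7704286529) (nat_lit 456) (nat_lit 5857302402) (nat_lit 76) (nat_lit 4348299415) (nat_lit 112) (nat_lit 5) (nat_lit 118) (nat_lit 5) (nat_lit 113) (nat_lit 5) (nat_lit 491) (nat_lit 401) (nat_lit 248)) (XT.lf (nat_lit 0) (nat_lit 3760901604) (nat_lit 304) (nat_lit 7788151999) (nat_lit 380) (nat_lit 6593037856) (nat_lit 108) (nat_lit 5) (nat_lit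 112) (nat_lit 5) (nat_lit 113) (nat_lit 5) (nat_lit 492) (nat_lit 401) (nat_lit 247)))))) (XT.nd (nat_lit 390) (nat_lit 684) (nat_lit 0) (XT.nd (nat_lit 156) (nat_lit 304) (nat_lit 0) (XT.nd (nat_lit 78) (nat_lit 456) (nat_lit 0) (XT.lf (nat_lit 0) (nat_lit 13634273162) (nat_lit 304) (nat_lit 1864836481) (nat_lit 380) (nat_lit 2879264226) (nat_lit 108) (nat_lit 5) (nat_lit 112) (nat_lit 5) (nat_lit 113) (nat_lit 5) (nat_lit 493) (nat_lit 401) (nat_lit 246)) (XT.lf (nat_lit 0) (nat_lit 946748638) (nat_lit 456) (nat_lit 13515453315) (nat_lit 76) (nat_lit 4156067300) (nat_lit 102) (nat_lit 5) (nat_lit 108) (nat_lit 5) (nat_lit 103) (nat_lit 5) (nat_lit 494) (nat_lit 401) (nat_lit 245))) (XT.nd (nat_lit 78) (nat_lit 304) (nat_lit 0) (XT.lf (nat_lit 0) (nat_lit 4844457472) (nat_lit 456) (nat_lit 3699462325) (nat_lit 76) (nat_lit 10317990455) (nat_lit 102) (nat_lit 5) (nat_lit 108) (nat_lit 5) (nat_lit 103) (nat_lit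 5) (nat_lit 495) (nat_lit 401) (nat_lit 244)) (XT.nd (nat_lit 78) (nat_lit 0) (nat_lit 0) (XT.lf (nat_lit 0) (nat_lit 6380365156) (nat_lit 304) (nat_lit 2470687623) (nat_lit 380) (nat_lit 10258755517) (nat_lit 98) (nat_lit 5) (nat_lit 102) (nat_lit 5) (nat_lit 103) (nat_lit 5) (nat_lit 496) (nat_lit 401) (nat_lit 243)) (XT.lf (nat_lit 0) (nat_lit 12976519931) (nat_lit 380) (nat_lit 2690805065) (nat_lit 76) (nat_lit 3694567321) (nat_lit 98) (nat_lit 5) (nat_lit 103) (nat_lit 5) (nat_lit 99) (nat_lit 5) (nat_lit 497) (nat_lit 401) (nat_lit 242))))) (XT.nd (nat_lit 234) (nat_lit 0) (nat_lit 0) (XT.nd (nat_lit 78) (nat_lit 380) (nat_lit 0) (XT.lf (nat_lit 0) (nat_lit 7616219434) (nat_lit 304) (nat_lit 9623864643) (nat_lit 380) (nat_lit 2377824948) (nat_lit 94) (nat_lit 5) (nat_lit 98) (nat_lit 5) (nat_lit 99) (nat_lit 5) (nat_lit 498) (nat_lit 401) (nat_lit 241)) (XT.nd (nat_lit 78) (nat_lit 304) (nat_lit 0) (XT.lf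 (nat_lit 0) (nat_lit 1695428484) (nat_lit 380) (nat_lit 1739992870) (nat_lit 76) (nat_lit 16443245726) (nat_lit 93) (nat_lit 5) (nat_lit 98) (nat_lit 5) (nat_lit 94) (nat_lit 5) (nat_lit 499) (nat_lit 401) (nat_lit 240)) (XT.lf (nat_lit 0) (nat_lit 5884673830) (nat_lit 380) (nat_lit 11351391375) (nat_lit 76) (nat_lit 2906936024) (nat_lit 89) (nat_lit 5) (nat_lit 94) (nat_lit 5) (nat_lit 90) (nat_lit 5) (nat_lit 500) (nat_lit 401) (nat_lit 239)))) (XT.nd (nat_lit 51636) (nat_lit 0) (nat_lit 34580) (XT.lf (nat_lit 0) (nat_lit 10182271394) (nat_lit 380) (nat_lit 893480528) (nat_lit 76) (nat_lit 9336381342) (nat_lit 89) (nat_lit 5) (nat_lit 94) (nat_lit 5) (nat_lit 90) (nat_lit 5) (nat_lit 501) (nat_lit 401) (nat_lit 238)) (XT.nd (nat_lit 78) (nat_lit 0) (nat_lit 0) (XT.lf (nat_lit 0) (nat_lit 1075261611) (nat_lit 0) (nat_lit 1075261611) (nat_lit 1140) (nat_lit 1537519046) (nat_lit 544) (nat_lit 5) (nat_lit 544)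 (nat_lit 3) (nat_lit 559) (nat_lit 3) (nat_lit 402) (nat_lit 402) (nat_lit 336)) (XT.lf (nat_lit 0) (nat_lit 5693353408) (nat_lit 0) (nat_lit 132785126) (nat_lit 1140) (nat_lit 1593117619) (nat_lit 544) (nat_lit 5) (nat_lit 544) (nat_lit 3) (nat_lit 559) (nat_lit 3) (nat_lit 403) (nat_lit 402) (nat_lit 335))))))) (XT.nd (nat_lit 780) (nat_lit 2584) (nat_lit 0) (XT.nd (nat_lit 390) (nat_lit 1140) (nat_lit 0) (XT.nd (nat_lit 156) (nat_lit 0) (nat_lit 0) (XT.nd (nat_lit 78) (nat_lit 1216) (nat_lit 0) (XT.lf (nat_lit 76) (nat_lit 1834947957) (nat_lit 0) (nat_lit 5532449250) (nat_lit 1216) (nat_lit 96205553) (nat_lit 545) (nat_lit 5) (nat_lit 544) (nat_lit 5) (nat_lit 560) (nat_lit 5) (nat_lit 404) (nat_lit 402) (nat_lit 334)) (XT.lf (nat_lit 0) (nat_lit 1386021969) (nat_lit 1216) (nat_lit 2049205212) (nat_lit 1292) (nat_lit 4073964429) (nat_lit 528) (nat_lit 5) (nat_lit 544) (nat_lit 5) (nat_lit 545) (nat_lit 5)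 (nat_lit 405) (nat_lit 402) (nat_lit 333))) (XT.nd (nat_lit 78) (nat_lit 0) (nat_lit 76) (XT.lf (nat_lit 76) (nat_lit 1601845407) (nat_lit 0) (nat_lit 1267517374) (nat_lit 1292) (nat_lit 4686885020) (nat_lit 529) (nat_lit 5) (nat_lit 528) (nat_lit 5) (nat_lit 545) (nat_lit 5) (nat_lit 406) (nat_lit 402) (nat_lit 332)) (XT.nd (nat_lit 78) (nat_lit 0) (nat_lit 0) (XT.lf (nat_lit 0) (nat_lit 4365410304) (nat_lit 1216) (nat_lit 2277590998) (nat_lit 1292) (nat_lit 961605978) (nat_lit 529) (nat_lit 5) (nat_lit 545) (nat_lit 5) (nat_lit 546) (nat_lit 5) (nat_lit 407) (nat_lit 402) (nat_lit 331)) (XT.lf (nat_lit 76) (nat_lit 1462863617) (nat_lit 0) (nat_lit 4410202735) (nat_lit 1292) (nat_lit 1781256359) (nat_lit 530) (nat_lit 5) (nat_lit 529) (nat_lit 5) (nat_lit 546) (nat_lit 5) (nat_lit 408) (nat_lit 402) (nat_lit 330))))) (XT.nd (nat_lit 156) (nat_lit 0) (nat_lit 0) (XT.nd (nat_lit 78) (nat_lit 1216) (nat_lit 0)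 (XT.lf (nat_lit 76) (nat_lit 5288452182) (nat_lit 0) (nat_lit 2102079192) (nat_lit 1292) (nat_lit 314930031) (nat_lit 530) (nat_lit 5) (nat_lit 529) (nat_lit 5) (nat_lit 546) (nat_lit 5) (nat_lit 409) (nat_lit 402) (nat_lit 329)) (XT.lf (nat_lit 0) (nat_lit 1141140256) (nat_lit 1292) (nat_lit 6336557453) (nat_lit 1368) (nat_lit 280275000) (nat_lit 513) (nat_lit 5) (nat_lit 530) (nat_lit 5) (nat_lit 531) (nat_lit 5) (nat_lit 410) (nat_lit 402) (nat_lit 328))) (XT.nd (nat_lit 78) (nat_lit 0) (nat_lit 0) (XT.lf (nat_lit 0) (nat_lit 2617833254) (nat_lit 1292) (nat_lit 2479256142) (nat_lit 1368) (nat_lit 2714509644) (nat_lit 513) (nat_lit 5) (nat_lit 530) (nat_lit 5) (nat_lit 531) (nat_lit 5) (nat_lit 411) (nat_lit 402) (nat_lit 327)) (XT.nd (nat_lit 78) (nat_lit 0) (nat_lit 0) (XT.lf (nat_lit 76) (nat_lit 1453366459) (nat_lit 0) (nat_lit 2646273404) (nat_lit 1368) (nat_lit 3767166829) (nat_lit 514) (nat_lit 5) (nat_lit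 513) (nat_lit 5) (nat_lit 531) (nat_lit 5) (nat_lit 412) (nat_lit 402) (nat_lit 326)) (XT.lf (nat_lit 76) (nat_lit 5477499992) (nat_lit 0) (nat_lit 116892399) (nat_lit 1368) (nat_lit 2329079901) (nat_lit 514) (nat_lit 5) (nat_lit 513) (nat_lit 5) (nat_lit 531) (nat_lit 5) (nat_lit 413) (nat_lit 402) (nat_lit 325)))))) (XT.nd (nat_lit 390) (nat_lit 1292) (nat_lit 0) (XT.nd (nat_lit 156) (nat_lit 0) (nat_lit 0) (XT.nd (nat_lit 78) (nat_lit 1368) (nat_lit 0) (XT.lf (nat_lit 76) (nat_lit 1584539787) (nat_lit 0) (nat_lit 5528186209) (nat_lit 1368) (nat_lit 868691087) (nat_lit 515) (nat_lit 5) (nat_lit 514) (nat_lit 5) (nat_lit 532) (nat_lit 5) (nat_lit 414) (nat_lit 402) (nat_lit 324)) (XT.lf (nat_lit 0) (nat_lit 597736566) (nat_lit 1368) (nat_lit 2337693135) (nat_lit 1444) (nat_lit 5105329793) (nat_lit 496) (nat_lit 5) (nat_lit 514) (nat_lit 5) (nat_lit 515) (nat_lit 5) (nat_lit 415) (nat_lit 402) (nat_lit 323)))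 (XT.nd (nat_lit 78) (nat_lit 0) (nat_lit 76) (XT.lf (nat_lit 76) (nat_lit 1799538347) (nat_lit 0) (nat_lit 262328858) (nat_lit 1444) (nat_lit 6039725050) (nat_lit 497) (nat_lit 5) (nat_lit 496) (nat_lit 5) (nat_lit 515) (nat_lit 5) (nat_lit 416) (nat_lit 402) (nat_lit 322)) (XT.nd (nat_lit 78) (nat_lit 0) (nat_lit 0) (XT.lf (nat_lit 0) (nat_lit 3555935706) (nat_lit 1368) (nat_lit 2149784799) (nat_lit 1444) (nat_lit 2457926169) (nat_lit 497) (nat_lit 5) (nat_lit 515) (nat_lit 5) (nat_lit 516) (nat_lit 5) (nat_lit 417) (nat_lit 402) (nat_lit 321)) (XT.lf (nat_lit 76) (nat_lit 2090070692) (nat_lit 0) (nat_lit 2974597548) (nat_lit 1444) (nat_lit 3162596040) (nat_lit 498) (nat_lit 5) (nat_lit 497) (nat_lit 5) (nat_lit 516) (nat_lit 5) (nat_lit 418) (nat_lit 402) (nat_lit 320))))) (XT.nd (nat_lit 234) (nat_lit 0) (nat_lit 76) (XT.nd (nat_lit 78) (nat_lit 1368) (nat_lit 0) (XT.lf (nat_lit 76) (nat_lit 6422869851) (nat_lit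 0) (nat_lit 165069236) (nat_lit 1444) (nat_lit 1704545279) (nat_lit 498) (nat_lit 5) (nat_lit 497) (nat_lit 5) (nat_lit 516) (nat_lit 5) (nat_lit 419) (nat_lit 402) (nat_lit 319)) (XT.nd (nat_lit 78) (nat_lit 1444) (nat_lit 0) (XT.lf (nat_lit 76) (nat_lit 2477021376) (nat_lit 0) (nat_lit 5668855509) (nat_lit 1444) (nat_lit 213065000) (nat_lit 499) (nat_lit 5) (nat_lit 498) (nat_lit 5) (nat_lit 517) (nat_lit 5) (nat_lit 420) (nat_lit 402) (nat_lit 318)) (XT.lf (nat_lit 0) (nat_lit 1275625364) (nat_lit 1444) (nat_lit 1521726174) (nat_lit 1520) (nat_lit 5629532770) (nat_lit 479) (nat_lit 5) (nat_lit 498) (nat_lit 5) (nat_lit 499) (nat_lit 5) (nat_lit 421) (nat_lit 402) (nat_lit 317)))) (XT.nd (nat_lit 78) (nat_lit 0) (nat_lit 0) (XT.lf (nat_lit 0) (nat_lit 2782766293) (nat_lit 1444) (nat_lit 5555649625) (nat_lit 1520) (nat_lit 157926976) (nat_lit 480) (nat_lit 5) (nat_lit 499) (nat_lit 5) (nat_lit 500) (nat_lit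 5) (nat_lit 422) (nat_lit 402) (nat_lit 316)) (XT.nd (nat_lit 78) (nat_lit 0) (nat_lit 0) (XT.lf (nat_lit 0) (nat_lit 4320714952) (nat_lit 1444) (nat_lit 1094168383) (nat_lit 1520) (nat_lit 3152309784) (nat_lit 480) (nat_lit 5) (nat_lit 499) (nat_lit 5) (nat_lit 500) (nat_lit 5) (nat_lit 423) (nat_lit 402) (nat_lit 315)) (XT.lf (nat_lit 76) (nat_lit 3481042741) (nat_lit 0) (nat_lit 2403393035) (nat_lit 1520) (nat_lit 2755139759) (nat_lit 481) (nat_lit 5) (nat_lit 480) (nat_lit 5) (nat_lit 500) (nat_lit 5) (nat_lit 424) (nat_lit 402) (nat_lit 314))))))))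
noncomputable def xc156 : XT := (XT.nd (nat_lit 1560) (nat_lit 7524) (nat_lit 0) (XT.nd (nat_lit 780) (nat_lit 5244) (nat_lit 0) (XT.nd (nat_lit 390) (nat_lit 3496) (nat_lit 0) (XT.nd (nat_lit 156) (nat_lit 3116) (nat_lit 0) (XT.nd (nat_lit 78) (nat_lit 1520) (nat_lit 0) (XT.lf (nat_lit 0) (nat_lit 7464017816) (nat_lit 1444) (nat_lit 576670715) (nat_lit 76) (nat_lit 673040485) (nat_lit 481) (nat_lit 5) (nat_lit 500) (nat_lit 5) (nat_lit 482) (nat_lit 5) (nat_lit 425) (nat_lit 402) (nat_lit 313)) (XT.lf (nat_lit 0) (nat_lit 298182599) (nat_lit 1520) (nat_lit 4677348346) (nat_lit 76) (nat_lit 3813489961) (nat_lit 461) (nat_lit 5) (nat_lit 481) (nat_lit 5) (nat_lit 462) (nat_lit 5) (nat_lit 426) (nat_lit 402) (nat_lit 312))) (XT.nd (nat_lit 78) (nat_lit 1596) (nat_lit 0) (XT.lf (nat_lit 0) (nat_lit 6222091) (nat_lit 1520) (nat_lit 1831615772) (nat_lit 1596) (nat_lit 7028279091) (nat_lit 441) (nat_lit 5) (nat_lit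 461) (nat_lit 5) (nat_lit 462) (nat_lit 5) (nat_lit 427) (nat_lit 402) (nat_lit 311)) (XT.nd (nat_lit 78) (nat_lit 1596) (nat_lit 0) (XT.lf (nat_lit 0) (nat_lit 3422806613) (nat_lit 1596) (nat_lit 4128237708) (nat_lit 76) (nat_lit 1393434190) (nat_lit 441) (nat_lit 5) (nat_lit 462) (nat_lit 5) (nat_lit 442) (nat_lit 5) (nat_lit 428) (nat_lit 402) (nat_lit 310)) (XT.lf (nat_lit 0) (nat_lit 673341195) (nat_lit 1596) (nat_lit 4357141582) (nat_lit 1672) (nat_lit 3994118086) (nat_lit 420) (nat_lit 5) (nat_lit 441) (nat_lit 5) (nat_lit 442) (nat_lit 5) (nat_lit 429) (nat_lit 402) (nat_lit 309))))) (XT.nd (nat_lit 156) (nat_lit 1824) (nat_lit 0) (XT.nd (nat_lit 78) (nat_lit 1672) (nat_lit 0) (XT.lf (nat_lit 0) (nat_lit 5605639417) (nat_lit 1596) (nat_lit 1067243816) (nat_lit 1672) (nat_lit 2433404465) (nat_lit 420) (nat_lit 5) (nat_lit 441) (nat_lit 5) (nat_lit 442) (nat_lit 5) (nat_lit 430) (nat_lit 402) (nat_lit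 308)) (XT.lf (nat_lit 0) (nat_lit 1429480012) (nat_lit 1672) (nat_lit 6918176442) (nat_lit 1748) (nat_lit 841974510) (nat_lit 398) (nat_lit 5) (nat_lit 420) (nat_lit 5) (nat_lit 421) (nat_lit 5) (nat_lit 431) (nat_lit 402) (nat_lit 307))) (XT.nd (nat_lit 78) (nat_lit 1748) (nat_lit 0) (XT.lf (nat_lit 0) (nat_lit 777308656) (nat_lit 1748) (nat_lit 2802386103) (nat_lit 76) (nat_lit 5694732135) (nat_lit 397) (nat_lit 5) (nat_lit 420) (nat_lit 5) (nat_lit 398) (nat_lit 5) (nat_lit 432) (nat_lit 402) (nat_lit 306)) (XT.nd (nat_lit 78) (nat_lit 0) (nat_lit 0) (XT.lf (nat_lit 0) (nat_lit 2257405622) (nat_lit 1748) (nat_lit 151000912) (nat_lit 1824) (nat_lit 6952599268) (nat_lit 374) (nat_lit 5) (nat_lit 397) (nat_lit 5) (nat_lit 398) (nat_lit 5) (nat_lit 433) (nat_lit 402) (nat_lit 305)) (XT.lf (nat_lit 0) (nat_lit 4089168914) (nat_lit 1824) (nat_lit 2035931898) (nat_lit 76) (nat_lit 3323886809) (nat_lit 374) (nat_lit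 5) (nat_lit 398) (nat_lit 5) (nat_lit 375) (nat_lit 5) (nat_lit 434) (nat_lit 402) (nat_lit 304)))))) (XT.nd (nat_lit 390) (nat_lit 2432) (nat_lit 0) (XT.nd (nat_lit 156) (nat_lit 1824) (nat_lit 0) (XT.nd (nat_lit 78) (nat_lit 0) (nat_lit 0) (XT.lf (nat_lit 0) (nat_lit 3152333895) (nat_lit 988) (nat_lit 2649529044) (nat_lit 1064) (nat_lit 3736911756) (nat_lit 361) (nat_lit 5) (nat_lit 374) (nat_lit 5) (nat_lit 375) (nat_lit 5) (nat_lit 435) (nat_lit 402) (nat_lit 303)) (XT.lf (nat_lit 0) (nat_lit 7545557380) (nat_lit 1064) (nat_lit 1185467666) (nat_lit 76) (nat_lit 899409245) (nat_lit 361) (nat_lit 5) (nat_lit 375) (nat_lit 5) (nat_lit 362) (nat_lit 5) (nat_lit 436) (nat_lit 402) (nat_lit 302))) (XT.nd (nat_lit 78) (nat_lit 912) (nat_lit 0) (XT.lf (nat_lit 0) (nat_lit 4135191585) (nat_lit 912) (nat_lit 5210955895) (nat_lit 988) (nat_lit 377350647) (nat_lit 349) (nat_lit 5) (nat_lit 361) (nat_lit 5) (nat_lit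 362) (nat_lit 5) (nat_lit 437) (nat_lit 402) (nat_lit 301)) (XT.nd (nat_lit 78) (nat_lit 836) (nat_lit 0) (XT.lf (nat_lit 0) (nat_lit 1332213208) (nat_lit 988) (nat_lit 270030290) (nat_lit 76) (nat_lit 8216298005) (nat_lit 348) (nat_lit 5) (nat_lit 361) (nat_lit 5) (nat_lit 349) (nat_lit 5) (nat_lit 438) (nat_lit 402) (nat_lit 300)) (XT.lf (nat_lit 0) (nat_lit 3096630293) (nat_lit 912) (nat_lit 4729417873) (nat_lit 76) (nat_lit 2088884222) (nat_lit 337) (nat_lit 5) (nat_lit 349) (nat_lit 5) (nat_lit 338) (nat_lit 5) (nat_lit 439) (nat_lit 402) (nat_lit 299))))) (XT.nd (nat_lit 156) (nat_lit 1596) (nat_lit 0) (XT.nd (nat_lit 78) (nat_lit 0) (nat_lit 0) (XT.lf (nat_lit 0) (nat_lit 718331113) (nat_lit 836) (nat_lit 4173610795) (nat_lit 912) (nat_lit 5121407667) (nat_lit 326) (nat_lit 5) (nat_lit 337) (nat_lit 5) (nat_lit 338) (nat_lit 5) (nat_lit 440) (nat_lit 402) (nat_lit 298)) (XT.lf (nat_lit 0) (nat_lit 6318199541)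 (nat_lit 836) (nat_lit 415489915) (nat_lit 912) (nat_lit 3379845454) (nat_lit 326) (nat_lit 5) (nat_lit 337) (nat_lit 5) (nat_lit 338) (nat_lit 5) (nat_lit 441) (nat_lit 402) (nat_lit 297))) (XT.nd (nat_lit 78) (nat_lit 836) (nat_lit 0) (XT.lf (nat_lit 0) (nat_lit 1794727909) (nat_lit 760) (nat_lit 6830597512) (nat_lit 836) (nat_lit 1590147659) (nat_lit 316) (nat_lit 5) (nat_lit 326) (nat_lit 5) (nat_lit 327) (nat_lit 5) (nat_lit 442) (nat_lit 402) (nat_lit 296)) (XT.nd (nat_lit 78) (nat_lit 760) (nat_lit 0) (XT.lf (nat_lit 0) (nat_lit 239983488) (nat_lit 836) (nat_lit 2796457251) (nat_lit 76) (nat_lit 7282833993) (nat_lit 315) (nat_lit 5) (nat_lit 326) (nat_lit 5) (nat_lit 316) (nat_lit 5) (nat_lit 443) (nat_lit 402) (nat_lit 295)) (XT.lf (nat_lit 0) (nat_lit 2089931962) (nat_lit 836) (nat_lit 7482827475) (nat_lit 76) (nat_lit 852102234) (nat_lit 305) (nat_lit 5) (nat_lit 316) (nat_lit 5) (nat_lit 306) (nat_lit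 5) (nat_lit 444) (nat_lit 402) (nat_lit 294))))))) (XT.nd (nat_lit 780) (nat_lit 3800) (nat_lit 0) (XT.nd (nat_lit 390) (nat_lit 1444) (nat_lit 0) (XT.nd (nat_lit 156) (nat_lit 1520) (nat_lit 0) (XT.nd (nat_lit 78) (nat_lit 760) (nat_lit 0) (XT.lf (nat_lit 0) (nat_lit 3995880520) (nat_lit 836) (nat_lit 1740179200) (nat_lit 76) (nat_lit 4796130027) (nat_lit 305) (nat_lit 5) (nat_lit 316) (nat_lit 5) (nat_lit 306) (nat_lit 5) (nat_lit 445) (nat_lit 402) (nat_lit 293)) (XT.lf (nat_lit 0) (nat_lit 4151213802) (nat_lit 760) (nat_lit 1796081053) (nat_lit 836) (nat_lit 4694231830) (nat_lit 295) (nat_lit 5) (nat_lit 305) (nat_lit 5) (nat_lit 306) (nat_lit 5) (nat_lit 446) (nat_lit 402) (nat_lit 292))) (XT.nd (nat_lit 78) (nat_lit 1520) (nat_lit 0) (XT.lf (nat_lit 0) (nat_lit 7944562886) (nat_lit 836) (nat_lit 604108284) (nat_lit 76) (nat_lit 2204251734) (nat_lit 295) (nat_lit 5) (nat_lit 306) (nat_lit 5) (nat_lit 296)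 (nat_lit 5) (nat_lit 447) (nat_lit 402) (nat_lit 291)) (XT.nd (nat_lit 78) (nat_lit 760) (nat_lit 0) (XT.lf (nat_lit 0) (nat_lit 5438859242) (nat_lit 760) (nat_lit 4571143247) (nat_lit 836) (nat_lit 855988911) (nat_lit 285) (nat_lit 5) (nat_lit 295) (nat_lit 5) (nat_lit 296) (nat_lit 5) (nat_lit 448) (nat_lit 402) (nat_lit 290)) (XT.lf (nat_lit 0) (nat_lit 609709061) (nat_lit 684) (nat_lit 499995427) (nat_lit 760) (nat_lit 9871694547) (nat_lit 275) (nat_lit 5) (nat_lit 284) (nat_lit 5) (nat_lit 285) (nat_lit 5) (nat_lit 449) (nat_lit 402) (nat_lit 289))))) (XT.nd (nat_lit 156) (nat_lit 760) (nat_lit 0) (XT.nd (nat_lit 78) (nat_lit 684) (nat_lit 0) (XT.lf (nat_lit 0) (nat_lit 3144988992) (nat_lit 760) (nat_lit 4307916081) (nat_lit 76) (nat_lit 3645270172) (nat_lit 275) (nat_lit 5) (nat_lit 285) (nat_lit 5) (nat_lit 276) (nat_lit 5) (nat_lit 450) (nat_lit 402) (nat_lit 288)) (XT.lf (nat_lit 0) (nat_lit 1878102716)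 (nat_lit 684) (nat_lit 3340100383) (nat_lit 760) (nat_lit 5999147603) (nat_lit 266) (nat_lit 5) (nat_lit 275) (nat_lit 5) (nat_lit 276) (nat_lit 5) (nat_lit 451) (nat_lit 402) (nat_lit 287))) (XT.nd (nat_lit 78) (nat_lit 760) (nat_lit 0) (XT.lf (nat_lit 0) (nat_lit 7349464234) (nat_lit 760) (nat_lit 3118409278) (nat_lit 76) (nat_lit 870712539) (nat_lit 266) (nat_lit 5) (nat_lit 276) (nat_lit 5) (nat_lit 267) (nat_lit 5) (nat_lit 452) (nat_lit 402) (nat_lit 286)) (XT.nd (nat_lit 78) (nat_lit 76) (nat_lit 0) (XT.lf (nat_lit 0) (nat_lit 3226878615) (nat_lit 684) (nat_lit 6321829103) (nat_lit 760) (nat_lit 1913039130) (nat_lit 257) (nat_lit 5) (nat_lit 266) (nat_lit 5) (nat_lit 267) (nat_lit 5) (nat_lit 453) (nat_lit 402) (nat_lit 285)) (XT.lf (nat_lit 0) (nat_lit 205327017) (nat_lit 760) (nat_lit 1867353827) (nat_lit 76) (nat_lit 9514602133) (nat_lit 256) (nat_lit 5) (nat_lit 266) (nat_lit 5) (nat_lit 257) (nat_lit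 5) (nat_lit 454) (nat_lit 402) (nat_lit 284)))))) (XT.nd (nat_lit 390) (nat_lit 1900) (nat_lit 0) (XT.nd (nat_lit 156) (nat_lit 1216) (nat_lit 0) (XT.nd (nat_lit 78) (nat_lit 0) (nat_lit 0) (XT.lf (nat_lit 0) (nat_lit 2368374323) (nat_lit 760) (nat_lit 7073748684) (nat_lit 76) (nat_lit 2272402757) (nat_lit 247) (nat_lit 5) (nat_lit 257) (nat_lit 5) (nat_lit 248) (nat_lit 5) (nat_lit 455) (nat_lit 402) (nat_lit 283)) (XT.lf (nat_lit 0) (nat_lit 4583941361) (nat_lit 760) (nat_lit 573569647) (nat_lit 76) (nat_lit 6686624504) (nat_lit 247) (nat_lit 5) (nat_lit 257) (nat_lit 5) (nat_lit 248) (nat_lit 5) (nat_lit 456) (nat_lit 402) (nat_lit 282))) (XT.nd (nat_lit 78) (nat_lit 608) (nat_lit 0) (XT.lf (nat_lit 0) (nat_lit 6117153687) (nat_lit 608) (nat_lit 749636113) (nat_lit 684) (nat_lit 5109095394) (nat_lit 239) (nat_lit 5) (nat_lit 247) (nat_lit 5) (nat_lit 248) (nat_lit 5) (nat_lit 457) (nat_lit 402) (nat_lit 281))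 (XT.nd (nat_lit 78) (nat_lit 0) (nat_lit 0) (XT.lf (nat_lit 0) (nat_lit 805614000) (nat_lit 608) (nat_lit 8406545592) (nat_lit 684) (nat_lit 2897779988) (nat_lit 231) (nat_lit 5) (nat_lit 239) (nat_lit 5) (nat_lit 240) (nat_lit 5) (nat_lit 458) (nat_lit 402) (nat_lit 280)) (XT.lf (nat_lit 0) (nat_lit 7657887696) (nat_lit 608) (nat_lit 3974427943) (nat_lit 684) (nat_lit 613808699) (nat_lit 231) (nat_lit 5) (nat_lit 239) (nat_lit 5) (nat_lit 240) (nat_lit 5) (nat_lit 459) (nat_lit 402) (nat_lit 279))))) (XT.nd (nat_lit 234) (nat_lit 608) (nat_lit 0) (XT.nd (nat_lit 78) (nat_lit 608) (nat_lit 0) (XT.lf (nat_lit 0) (nat_lit 1695554914) (nat_lit 684) (nat_lit 10127432691) (nat_lit 76) (nat_lit 561784643) (nat_lit 222) (nat_lit 5) (nat_lit 231) (nat_lit 5) (nat_lit 223) (nat_lit 5) (nat_lit 460) (nat_lit 402) (nat_lit 278)) (XT.nd (nat_lit 78) (nat_lit 608) (nat_lit 0) (XT.lf (nat_lit 0) (nat_lit 4084216570) (nat_lit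 684) (nat_lit 3273898429) (nat_lit 76) (nat_lit 5167176844) (nat_lit 222) (nat_lit 5) (nat_lit 231) (nat_lit 5) (nat_lit 223) (nat_lit 5) (nat_lit 461) (nat_lit 402) (nat_lit 277)) (XT.lf (nat_lit 0) (nat_lit 3746475984) (nat_lit 608) (nat_lit 2782821537) (nat_lit 684) (nat_lit 6139157729) (nat_lit 214) (nat_lit 5) (nat_lit 222) (nat_lit 5) (nat_lit 223) (nat_lit 5) (nat_lit 462) (nat_lit 402) (nat_lit 276)))) (XT.nd (nat_lit 78) (nat_lit 608) (nat_lit 0) (XT.lf (nat_lit 0) (nat_lit 9042106865) (nat_lit 684) (nat_lit 1894314282) (nat_lit 76) (nat_lit 1877690456) (nat_lit 214) (nat_lit 5) (nat_lit 223) (nat_lit 5) (nat_lit 215) (nat_lit 5) (nat_lit 463) (nat_lit 402) (nat_lit 275)) (XT.nd (nat_lit 78) (nat_lit 76) (nat_lit 0) (XT.lf (nat_lit 0) (nat_lit 5305915041) (nat_lit 532) (nat_lit 6336920142) (nat_lit 608) (nat_lit 1319098737) (nat_lit 207) (nat_lit 5) (nat_lit 214) (nat_lit 5) (nat_lit 215) (nat_lit 5)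 (nat_lit 464) (nat_lit 402) (nat_lit 274)) (XT.lf (nat_lit 0) (nat_lit 1165001252) (nat_lit 608) (nat_lit 463624583) (nat_lit 76) (nat_lit 11483986117) (nat_lit 206) (nat_lit 5) (nat_lit 214) (nat_lit 5) (nat_lit 207) (nat_lit 5) (nat_lit 465) (nat_lit 402) (nat_lit 273))))))))
noncomputable def xc157 : XT := (XT.nd (nat_lit 1638) (nat_lit 2964) (nat_lit 0) (XT.nd (nat_lit 780) (nat_lit 2736) (nat_lit 0) (XT.nd (nat_lit 390) (nat_lit 1520) (nat_lit 0) (XT.nd (nat_lit 156) (nat_lit 608) (nat_lit 0) (XT.nd (nat_lit 78) (nat_lit 532) (nat_lit 0) (XT.lf (nat_lit 0) (nat_lit 3732257176) (nat_lit 608) (nat_lit 6350470800) (nat_lit 76) (nat_lit 3182384193) (nat_lit 199) (nat_lit 5) (nat_lit 207) (nat_lit 5) (nat_lit 200) (nat_lit 5) (nat_lit 466) (nat_lit 402) (nat_lit 272)) (XT.lf (nat_lit 0) (nat_lit 1009591016) (nat_lit 532) (nat_lit 5347033128) (nat_lit 608) (nat_lit 7063928557) (nat_lit 192) (nat_lit 5) (nat_lit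 199) (nat_lit 5) (nat_lit 200) (nat_lit 5) (nat_lit 467) (nat_lit 402) (nat_lit 271))) (XT.nd (nat_lit 78) (nat_lit 608) (nat_lit 0) (XT.lf (nat_lit 0) (nat_lit 8584060604) (nat_lit 532) (nat_lit 477492276) (nat_lit 608) (nat_lit 4516993193) (nat_lit 192) (nat_lit 5) (nat_lit 199) (nat_lit 5) (nat_lit 200) (nat_lit 5) (nat_lit 468) (nat_lit 402) (nat_lit 270)) (XT.nd (nat_lit 78) (nat_lit 76) (nat_lit 0) (XT.lf (nat_lit 0) (nat_lit 2555924684) (nat_lit 532) (nat_lit 9296115626) (nat_lit 608) (nat_lit 1887035211) (nat_lit 185) (nat_lit 5) (nat_lit 192) (nat_lit 5) (nat_lit 193) (nat_lit 5) (nat_lit 469) (nat_lit 402) (nat_lit 269)) (XT.lf (nat_lit 0) (nat_lit 807765475) (nat_lit 608) (nat_lit 3604489168) (nat_lit 76) (nat_lit 9490009274) (nat_lit 184) (nat_lit 5) (nat_lit 192) (nat_lit 5) (nat_lit 185) (nat_lit 5) (nat_lit 470) (nat_lit 402) (nat_lit 268))))) (XT.nd (nat_lit 156) (nat_lit 1064) (nat_lit 0) (XT.nd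 (nat_lit 78) (nat_lit 0) (nat_lit 0) (XT.lf (nat_lit 0) (nat_lit 3548141729) (nat_lit 532) (nat_lit 9922942932) (nat_lit 76) (nat_lit 597048113) (nat_lit 178) (nat_lit 5) (nat_lit 185) (nat_lit 5) (nat_lit 179) (nat_lit 5) (nat_lit 471) (nat_lit 402) (nat_lit 267)) (XT.lf (nat_lit 0) (nat_lit 6383074678) (nat_lit 532) (nat_lit 2186093028) (nat_lit 76) (nat_lit 5667361318) (nat_lit 178) (nat_lit 5) (nat_lit 185) (nat_lit 5) (nat_lit 179) (nat_lit 5) (nat_lit 472) (nat_lit 402) (nat_lit 266))) (XT.nd (nat_lit 78) (nat_lit 532) (nat_lit 0) (XT.lf (nat_lit 0) (nat_lit 5762839652) (nat_lit 532) (nat_lit 3535734512) (nat_lit 608) (nat_lit 5109246576) (nat_lit 171) (nat_lit 5) (nat_lit 178) (nat_lit 5) (nat_lit 179) (nat_lit 5) (nat_lit 473) (nat_lit 402) (nat_lit 265)) (XT.nd (nat_lit 78) (nat_lit 532) (nat_lit 0) (XT.lf (nat_lit 0) (nat_lit 12284097417) (nat_lit 608) (nat_lit 710692787) (nat_lit 76) (nat_lit 1587518616)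 (nat_lit 171) (nat_lit 5) (nat_lit 179) (nat_lit 5) (nat_lit 172) (nat_lit 5) (nat_lit 474) (nat_lit 402) (nat_lit 264)) (XT.lf (nat_lit 0) (nat_lit 620507534) (nat_lit 532) (nat_lit 7324777884) (nat_lit 76) (nat_lit 6813753446) (nat_lit 164) (nat_lit 5) (nat_lit 171) (nat_lit 5) (nat_lit 165) (nat_lit 5) (nat_lit 475) (nat_lit 402) (nat_lit 263)))))) (XT.nd (nat_lit 390) (nat_lit 1292) (nat_lit 0) (XT.nd (nat_lit 156) (nat_lit 988) (nat_lit 0) (XT.nd (nat_lit 78) (nat_lit 0) (nat_lit 0) (XT.lf (nat_lit 0) (nat_lit 789585736) (nat_lit 456) (nat_lit 2774081817) (nat_lit 532) (nat_lit 11375399862) (nat_lit 158) (nat_lit 5) (nat_lit 164) (nat_lit 5) (nat_lit 165) (nat_lit 5) (nat_lit 476) (nat_lit 402) (nat_lit 262)) (XT.lf (nat_lit 0) (nat_lit 6618396861) (nat_lit 532) (nat_lit 5990918819) (nat_lit 76) (nat_lit 2512331175) (nat_lit 158) (nat_lit 5) (nat_lit 165) (nat_lit 5) (nat_lit 159) (nat_lit 5) (nat_lit 477)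 (nat_lit 402) (nat_lit 261))) (XT.nd (nat_lit 78) (nat_lit 532) (nat_lit 0) (XT.lf (nat_lit 0) (nat_lit 2325124056) (nat_lit 456) (nat_lit 7429811655) (nat_lit 532) (nat_lit 5552532225) (nat_lit 152) (nat_lit 5) (nat_lit 158) (nat_lit 5) (nat_lit 159) (nat_lit 5) (nat_lit 478) (nat_lit 402) (nat_lit 260)) (XT.nd (nat_lit 78) (nat_lit 532) (nat_lit 0) (XT.lf (nat_lit 0) (nat_lit 10870999210) (nat_lit 456) (nat_lit 2110790805) (nat_lit 532) (nat_lit 2514667996) (nat_lit 152) (nat_lit 5) (nat_lit 158) (nat_lit 5) (nat_lit 159) (nat_lit 5) (nat_lit 479) (nat_lit 402) (nat_lit 259)) (XT.lf (nat_lit 0) (nat_lit 611028728) (nat_lit 532) (nat_lit 11781797410) (nat_lit 76) (nat_lit 3295635344) (nat_lit 145) (nat_lit 5) (nat_lit 152) (nat_lit 5) (nat_lit 146) (nat_lit 5) (nat_lit 480) (nat_lit 402) (nat_lit 258))))) (XT.nd (nat_lit 234) (nat_lit 912) (nat_lit 0) (XT.nd (nat_lit 78) (nat_lit 380) (nat_lit 0) (XT.lf (nat_lit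 0) (nat_lit 3798465096) (nat_lit 532) (nat_lit 3260015230) (nat_lit 76) (nat_lit 8824838335) (nat_lit 145) (nat_lit 5) (nat_lit 152) (nat_lit 5) (nat_lit 146) (nat_lit 5) (nat_lit 481) (nat_lit 402) (nat_lit 257)) (XT.nd (nat_lit 78) (nat_lit 0) (nat_lit 0) (XT.lf (nat_lit 0) (nat_lit 5486887666) (nat_lit 380) (nat_lit 1586271422) (nat_lit 456) (nat_lit 9008447658) (nat_lit 140) (nat_lit 5) (nat_lit 145) (nat_lit 5) (nat_lit 146) (nat_lit 5) (nat_lit 482) (nat_lit 402) (nat_lit 256)) (XT.lf (nat_lit 0) (nat_lit 10449285847) (nat_lit 456) (nat_lit 1873962475) (nat_lit 76) (nat_lit 3959897358) (nat_lit 140) (nat_lit 5) (nat_lit 146) (nat_lit 5) (nat_lit 141) (nat_lit 5) (nat_lit 483) (nat_lit 402) (nat_lit 255)))) (XT.nd (nat_lit 78) (nat_lit 456) (nat_lit 0) (XT.lf (nat_lit 0) (nat_lit 7086614168) (nat_lit 456) (nat_lit 6851049750) (nat_lit 532) (nat_lit 2550160685) (nat_lit 134) (nat_lit 5) (nat_lit 140) (nat_lit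 5) (nat_lit 141) (nat_lit 5) (nat_lit 484) (nat_lit 402) (nat_lit 254)) (XT.nd (nat_lit 78) (nat_lit 380) (nat_lit 0) (XT.lf (nat_lit 0) (nat_lit 789642197) (nat_lit 532) (nat_lit 466893402) (nat_lit 76) (nat_lit 15439943136) (nat_lit 133) (nat_lit 5) (nat_lit 140) (nat_lit 5) (nat_lit 134) (nat_lit 5) (nat_lit 485) (nat_lit 402) (nat_lit 253)) (XT.lf (nat_lit 0) (nat_lit 4236615419) (nat_lit 456) (nat_lit 8210481734) (nat_lit 76) (nat_lit 4460384817) (nat_lit 128) (nat_lit 5) (nat_lit 134) (nat_lit 5) (nat_lit 129) (nat_lit 5) (nat_lit 486) (nat_lit 402) (nat_lit 252))))))) (XT.nd (nat_lit 780) (nat_lit 988) (nat_lit 0) (XT.nd (nat_lit 390) (nat_lit 760) (nat_lit 0) (XT.nd (nat_lit 156) (nat_lit 836) (nat_lit 0) (XT.nd (nat_lit 78) (nat_lit 0) (nat_lit 0) (XT.lf (nat_lit 0) (nat_lit 914679696) (nat_lit 380) (nat_lit 6843829557) (nat_lit 456) (nat_lit 9364079893) (nat_lit 123) (nat_lit 5) (nat_lit 128) (nat_lit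 5) (nat_lit 129) (nat_lit 5) (nat_lit 487) (nat_lit 402) (nat_lit 251)) (XT.lf (nat_lit 0) (nat_lit 10316918016) (nat_lit 380) (nat_lit 1077702371) (nat_lit 456) (nat_lit 5946505921) (nat_lit 123) (nat_lit 5) (nat_lit 128) (nat_lit 5) (nat_lit 129) (nat_lit 5) (nat_lit 488) (nat_lit 402) (nat_lit 250))) (XT.nd (nat_lit 78) (nat_lit 456) (nat_lit 0) (XT.lf (nat_lit 0) (nat_lit 2325897765) (nat_lit 380) (nat_lit 12812716639) (nat_lit 456) (nat_lit 2424719959) (nat_lit 118) (nat_lit 5) (nat_lit 123) (nat_lit 5) (nat_lit 124) (nat_lit 5) (nat_lit 489) (nat_lit 402) (nat_lit 249)) (XT.nd (nat_lit 78) (nat_lit 380) (nat_lit 0) (XT.lf (nat_lit 0) (nat_lit 1195680432) (nat_lit 456) (nat_lit 5862478520) (nat_lit 76) (nat_lit 10730809443) (nat_lit 117) (nat_lit 5) (nat_lit 123) (nat_lit 5) (nat_lit 118) (nat_lit 5) (nat_lit 490) (nat_lit 402) (nat_lit 248)) (XT.lf (nat_lit 0) (nat_lit 3716361582) (nat_lit 380) (nat_lit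 1152942537) (nat_lit 456) (nat_lit 13149227964) (nat_lit 112) (nat_lit 5) (nat_lit 117) (nat_lit 5) (nat_lit 118) (nat_lit 5) (nat_lit 491) (nat_lit 402) (nat_lit 247))))) (XT.nd (nat_lit 156) (nat_lit 456) (nat_lit 0) (XT.nd (nat_lit 78) (nat_lit 304) (nat_lit 0) (XT.lf (nat_lit 0) (nat_lit 8676818635) (nat_lit 456) (nat_lit 4733912744) (nat_lit 76) (nat_lit 4840750406) (nat_lit 112) (nat_lit 5) (nat_lit 118) (nat_lit 5) (nat_lit 113) (nat_lit 5) (nat_lit 492) (nat_lit 402) (nat_lit 246)) (XT.lf (nat_lit 0) (nat_lit 5068493923) (nat_lit 304) (nat_lit 7521940550) (nat_lit 380) (nat_lit 5898060034) (nat_lit 108) (nat_lit 5) (nat_lit 112) (nat_lit 5) (nat_lit 113) (nat_lit 5) (nat_lit 493) (nat_lit 402) (nat_lit 245))) (XT.nd (nat_lit 78) (nat_lit 456) (nat_lit 0) (XT.lf (nat_lit 0) (nat_lit 15115168710) (nat_lit 304) (nat_lit 1488432732) (nat_lit 380) (nat_lit 2126223452) (nat_lit 108) (nat_lit 5) (nat_lit 112)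 (nat_lit 5) (nat_lit 113) (nat_lit 5) (nat_lit 494) (nat_lit 402) (nat_lit 244)) (XT.nd (nat_lit 78) (nat_lit 0) (nat_lit 0) (XT.lf (nat_lit 0) (nat_lit 1760574485) (nat_lit 456) (nat_lit 12561377816) (nat_lit 76) (nat_lit 4652567045) (nat_lit 102) (nat_lit 5) (nat_lit 108) (nat_lit 5) (nat_lit 103) (nat_lit 5) (nat_lit 495) (nat_lit 402) (nat_lit 243)) (XT.lf (nat_lit 0) (nat_lit 5720651400) (nat_lit 456) (nat_lit 2573074547) (nat_lit 76) (nat_lit 10929623205) (nat_lit 102) (nat_lit 5) (nat_lit 108) (nat_lit 5) (nat_lit 103) (nat_lit 5) (nat_lit 496) (nat_lit 402) (nat_lit 242)))))) (XT.nd (nat_lit 52026) (nat_lit 0) (nat_lit 33288) (XT.nd (nat_lit 156) (nat_lit 684) (nat_lit 0) (XT.nd (nat_lit 78) (nat_lit 0) (nat_lit 0) (XT.lf (nat_lit 0) (nat_lit 7700452267) (nat_lit 304) (nat_lit 2099388231) (nat_lit 380) (nat_lit 9676519602) (nat_lit 98) (nat_lit 5) (nat_lit 102) (nat_lit 5) (nat_lit 103) (nat_lit 5) (nat_lit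 497) (nat_lit 402) (nat_lit 241)) (XT.lf (nat_lit 0) (nat_lit 13995362302) (nat_lit 380) (nat_lit 1562863695) (nat_lit 76) (nat_lit 4175512997) (nat_lit 98) (nat_lit 5) (nat_lit 103) (nat_lit 5) (nat_lit 99) (nat_lit 5) (nat_lit 498) (nat_lit 402) (nat_lit 240))) (XT.nd (nat_lit 78) (nat_lit 380) (nat_lit 0) (XT.lf (nat_lit 0) (nat_lit 8942526574) (nat_lit 304) (nat_lit 9394404962) (nat_lit 380) (nat_lit 1658093842) (nat_lit 94) (nat_lit 5) (nat_lit 98) (nat_lit 5) (nat_lit 99) (nat_lit 5) (nat_lit 499) (nat_lit 402) (nat_lit 239)) (XT.nd (nat_lit 78) (nat_lit 304) (nat_lit 0) (XT.lf (nat_lit 0) (nat_lit 2471714004) (nat_lit 380) (nat_lit 613770336) (nat_lit 76) (nat_lit 17175715431) (nat_lit 93) (nat_lit 5) (nat_lit 98) (nat_lit 5) (nat_lit 94) (nat_lit 5) (nat_lit 500) (nat_lit 402) (nat_lit 238)) (XT.lf (nat_lit 0) (nat_lit 6740390801) (nat_lit 380) (nat_lit 10412854032) (nat_lit 76) (nat_lit 3377666627)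 (nat_lit 89) (nat_lit 5) (nat_lit 94) (nat_lit 5) (nat_lit 90) (nat_lit 5) (nat_lit 501) (nat_lit 402) (nat_lit 237))))) (XT.nd (nat_lit 234) (nat_lit 0) (nat_lit 76) (XT.nd (nat_lit 78) (nat_lit 1292) (nat_lit 0) (XT.lf (nat_lit 0) (nat_lit 1832996327) (nat_lit 0) (nat_lit 1832996327) (nat_lit 1140) (nat_lit 65419835) (nat_lit 544) (nat_lit 5) (nat_lit 544) (nat_lit 3) (nat_lit 559) (nat_lit 3) (nat_lit 403) (nat_lit 403) (nat_lit 334)) (XT.nd (nat_lit 78) (nat_lit 0) (nat_lit 76) (XT.lf (nat_lit 0) (nat_lit 1304448501) (nat_lit 1292) (nat_lit 265826014) (nat_lit 1292) (nat_lit 5937605662) (nat_lit 527) (nat_lit 3) (nat_lit 544) (nat_lit 3) (nat_lit 544) (nat_lit 5) (nat_lit 404) (nat_lit 403) (nat_lit 333)) (XT.lf (nat_lit 0) (nat_lit 2754822671) (nat_lit 1216) (nat_lit 4198320927) (nat_lit 1292) (nat_lit 600936362) (nat_lit 528) (nat_lit 5) (nat_lit 544) (nat_lit 5) (nat_lit 545) (nat_lit 5) (nat_lit 405)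 (nat_lit 403) (nat_lit 332)))) (XT.nd (nat_lit 78) (nat_lit 0) (nat_lit 0) (XT.lf (nat_lit 0) (nat_lit 4209492750) (nat_lit 1216) (nat_lit 578160050) (nat_lit 1292) (nat_lit 2814068133) (nat_lit 528) (nat_lit 5) (nat_lit 544) (nat_lit 5) (nat_lit 545) (nat_lit 5) (nat_lit 406) (nat_lit 403) (nat_lit 331)) (XT.nd (nat_lit 78) (nat_lit 0) (nat_lit 0) (XT.lf (nat_lit 76) (nat_lit 3135964020) (nat_lit 0) (nat_lit 2541470234) (nat_lit 1292) (nat_lit 1973219424) (nat_lit 529) (nat_lit 5) (nat_lit 528) (nat_lit 5) (nat_lit 545) (nat_lit 5) (nat_lit 407) (nat_lit 403) (nat_lit 330)) (XT.lf (nat_lit 76) (nat_lit 6912767670) (nat_lit 0) (nat_lit 230247190) (nat_lit 1292) (nat_lit 558206684) (nat_lit 529) (nat_lit 5) (nat_lit 528) (nat_lit 5) (nat_lit 545) (nat_lit 5) (nat_lit 408) (nat_lit 403) (nat_lit 329))))))))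
noncomputable def xc158 : XT := (XT.nd (nat_lit 1638) (nat_lit 12616) (nat_lit 0) (XT.nd (nat_lit 780) (nat_lit 4104) (nat_lit 0) (XT.nd (nat_lit 390) (nat_lit 1292) (nat_lit 0) (XT.nd (nat_lit 156) (nat_lit 0) (nat_lit 0) (XT.nd (nat_lit 78) (nat_lit 0) (nat_lit 0) (XT.lf (nat_lit 0) (nat_lit 872076158) (nat_lit 1292) (nat_lit 4740389296) (nat_lit 1368) (nat_lit 2140270030) (nat_lit 512) (nat_lit 5) (nat_lit 529) (nat_lit 5) (nat_lit 530) (nat_lit 5) (nat_lit 409) (nat_lit 403) (nat_lit 328)) (XT.lf (nat_lit 0) (nat_lit 2295855826) (nat_lit 1292) (nat_lit 930810268) (nat_lit 1368) (nat_lit 4579113301) (nat_lit 512) (nat_lit 5) (nat_lit 529) (nat_lit 5) (nat_lit 530) (nat_lit 5) (nat_lit 410) (nat_lit 403) (nat_lit 327))) (XT.nd (nat_lit 78) (nat_lit 0) (nat_lit 76) (XT.lf (nat_lit 76) (nat_lit 2974133549) (nat_lit 0) (nat_lit 759471678) (nat_lit 1368) (nat_lit 4126589465) (nat_lit 513) (nat_lit 5) (nat_lit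 512) (nat_lit 5) (nat_lit 530) (nat_lit 5) (nat_lit 411) (nat_lit 403) (nat_lit 326)) (XT.nd (nat_lit 78) (nat_lit 0) (nat_lit 0) (XT.lf (nat_lit 0) (nat_lit 5184612637) (nat_lit 1292) (nat_lit 977705526) (nat_lit 1368) (nat_lit 1753710061) (nat_lit 513) (nat_lit 5) (nat_lit 530) (nat_lit 5) (nat_lit 531) (nat_lit 5) (nat_lit 412) (nat_lit 403) (nat_lit 325)) (XT.lf (nat_lit 76) (nat_lit 3023364686) (nat_lit 0) (nat_lit 3633393032) (nat_lit 1368) (nat_lit 1316397959) (nat_lit 514) (nat_lit 5) (nat_lit 513) (nat_lit 5) (nat_lit 531) (nat_lit 5) (nat_lit 413) (nat_lit 403) (nat_lit 324))))) (XT.nd (nat_lit 156) (nat_lit 0) (nat_lit 76) (XT.nd (nat_lit 78) (nat_lit 0) (nat_lit 76) (XT.lf (nat_lit 0) (nat_lit 99595522) (nat_lit 1368) (nat_lit 934843013) (nat_lit 1444) (nat_lit 6997502698) (nat_lit 495) (nat_lit 5) (nat_lit 513) (nat_lit 5) (nat_lit 514) (nat_lit 5) (nat_lit 414) (nat_lit 403) (nat_lit 323)) (XT.lf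 (nat_lit 0) (nat_lit 1526035504) (nat_lit 1368) (nat_lit 4929418260) (nat_lit 1444) (nat_lit 1636298112) (nat_lit 496) (nat_lit 5) (nat_lit 514) (nat_lit 5) (nat_lit 515) (nat_lit 5) (nat_lit 415) (nat_lit 403) (nat_lit 322))) (XT.nd (nat_lit 78) (nat_lit 0) (nat_lit 0) (XT.lf (nat_lit 0) (nat_lit 2963102585) (nat_lit 1368) (nat_lit 825972820) (nat_lit 1444) (nat_lit 4364059468) (nat_lit 496) (nat_lit 5) (nat_lit 514) (nat_lit 5) (nat_lit 515) (nat_lit 5) (nat_lit 416) (nat_lit 403) (nat_lit 321)) (XT.nd (nat_lit 78) (nat_lit 0) (nat_lit 76) (XT.lf (nat_lit 76) (nat_lit 3383750173) (nat_lit 0) (nat_lit 1036672423) (nat_lit 1444) (nat_lit 3795510452) (nat_lit 497) (nat_lit 5) (nat_lit 496) (nat_lit 5) (nat_lit 515) (nat_lit 5) (nat_lit 417) (nat_lit 403) (nat_lit 320)) (XT.lf (nat_lit 0) (nat_lit 5894039282) (nat_lit 1368) (nat_lit 623265202) (nat_lit 1444) (nat_lit 1762957102) (nat_lit 497) (nat_lit 5) (nat_lit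 515) (nat_lit 5) (nat_lit 516) (nat_lit 5) (nat_lit 418) (nat_lit 403) (nat_lit 319)))))) (XT.nd (nat_lit 390) (nat_lit 2812) (nat_lit 0) (XT.nd (nat_lit 156) (nat_lit 0) (nat_lit 76) (XT.nd (nat_lit 78) (nat_lit 1444) (nat_lit 0) (XT.lf (nat_lit 76) (nat_lit 3691061640) (nat_lit 0) (nat_lit 3707557435) (nat_lit 1444) (nat_lit 947244865) (nat_lit 498) (nat_lit 5) (nat_lit 497) (nat_lit 5) (nat_lit 516) (nat_lit 5) (nat_lit 419) (nat_lit 403) (nat_lit 318)) (XT.lf (nat_lit 0) (nat_lit 488792622) (nat_lit 1444) (nat_lit 336560626) (nat_lit 1520) (nat_lit 7587871761) (nat_lit 478) (nat_lit 5) (nat_lit 497) (nat_lit 5) (nat_lit 498) (nat_lit 5) (nat_lit 420) (nat_lit 403) (nat_lit 317))) (XT.nd (nat_lit 78) (nat_lit 0) (nat_lit 0) (XT.lf (nat_lit 0) (nat_lit 1952936737) (nat_lit 1444) (nat_lit 4400558647) (nat_lit 1520) (nat_lit 2128087375) (nat_lit 479) (nat_lit 5) (nat_lit 498) (nat_lit 5) (nat_lit 499) (nat_lit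 5) (nat_lit 421) (nat_lit 403) (nat_lit 316)) (XT.nd (nat_lit 78) (nat_lit 0) (nat_lit 0) (XT.lf (nat_lit 76) (nat_lit 14290693) (nat_lit 0) (nat_lit 3411854437) (nat_lit 1520) (nat_lit 5125582671) (nat_lit 480) (nat_lit 5) (nat_lit 479) (nat_lit 5) (nat_lit 499) (nat_lit 5) (nat_lit 422) (nat_lit 403) (nat_lit 315)) (XT.lf (nat_lit 76) (nat_lit 4556547703) (nat_lit 0) (nat_lit 374165950) (nat_lit 1520) (nat_lit 3692539625) (nat_lit 480) (nat_lit 5) (nat_lit 479) (nat_lit 5) (nat_lit 499) (nat_lit 5) (nat_lit 423) (nat_lit 403) (nat_lit 314))))) (XT.nd (nat_lit 234) (nat_lit 1520) (nat_lit 0) (XT.nd (nat_lit 78) (nat_lit 1444) (nat_lit 0) (XT.lf (nat_lit 76) (nat_lit 461060211) (nat_lit 0) (nat_lit 5997947548) (nat_lit 1520) (nat_lit 2237343970) (nat_lit 481) (nat_lit 5) (nat_lit 480) (nat_lit 5) (nat_lit 500) (nat_lit 5) (nat_lit 424) (nat_lit 403) (nat_lit 313)) (XT.nd (nat_lit 78) (nat_lit 1444) (nat_lit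 0) (XT.lf (nat_lit 76) (nat_lit 5111392716) (nat_lit 0) (nat_lit 2909575849) (nat_lit 1520) (nat_lit 749896422) (nat_lit 481) (nat_lit 5) (nat_lit 480) (nat_lit 5) (nat_lit 500) (nat_lit 5) (nat_lit 425) (nat_lit 403) (nat_lit 312)) (XT.lf (nat_lit 0) (nat_lit 739059074) (nat_lit 1520) (nat_lit 7853482232) (nat_lit 76) (nat_lit 254605399) (nat_lit 461) (nat_lit 5) (nat_lit 481) (nat_lit 5) (nat_lit 462) (nat_lit 5) (nat_lit 426) (nat_lit 403) (nat_lit 311)))) (XT.nd (nat_lit 78) (nat_lit 1520) (nat_lit 0) (XT.lf (nat_lit 0) (nat_lit 2265853997) (nat_lit 1520) (nat_lit 3180387515) (nat_lit 76) (nat_lit 3478265377) (nat_lit 461) (nat_lit 5) (nat_lit 481) (nat_lit 5) (nat_lit 462) (nat_lit 5) (nat_lit 427) (nat_lit 403) (nat_lit 310)) (XT.nd (nat_lit 78) (nat_lit 0) (nat_lit 0) (XT.lf (nat_lit 0) (nat_lit 1586390463) (nat_lit 1520) (nat_lit 2221705738) (nat_lit 1596) (nat_lit 5195633570) (nat_lit 441) (nat_lit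 5) (nat_lit 461) (nat_lit 5) (nat_lit 462) (nat_lit 5) (nat_lit 428) (nat_lit 403) (nat_lit 309)) (XT.lf (nat_lit 0) (nat_lit 5384602647) (nat_lit 1596) (nat_lit 2620558998) (nat_lit 76) (nat_lit 1079320531) (nat_lit 441) (nat_lit 5) (nat_lit 462) (nat_lit 5) (nat_lit 442) (nat_lit 5) (nat_lit 429) (nat_lit 403) (nat_lit 308))))))) (XT.nd (nat_lit 780) (nat_lit 4712) (nat_lit 0) (XT.nd (nat_lit 390) (nat_lit 2812) (nat_lit 0) (XT.nd (nat_lit 156) (nat_lit 3496) (nat_lit 0) (XT.nd (nat_lit 78) (nat_lit 0) (nat_lit 0) (XT.lf (nat_lit 0) (nat_lit 2266589355) (nat_lit 1596) (nat_lit 4730975656) (nat_lit 1672) (nat_lit 2169199292) (nat_lit 420) (nat_lit 5) (nat_lit 441) (nat_lit 5) (nat_lit 442) (nat_lit 5) (nat_lit 430) (nat_lit 403) (nat_lit 307)) (XT.lf (nat_lit 0) (nat_lit 7266557437) (nat_lit 1596) (nat_lit 1369658537) (nat_lit 1672) (nat_lit 614620441) (nat_lit 420) (nat_lit 5) (nat_lit 441) (nat_lit 5) (nat_lit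 442) (nat_lit 5) (nat_lit 431) (nat_lit 403) (nat_lit 306))) (XT.nd (nat_lit 78) (nat_lit 1748) (nat_lit 0) (XT.lf (nat_lit 0) (nat_lit 967783904) (nat_lit 1748) (nat_lit 6306953216) (nat_lit 76) (nat_lit 2061549796) (nat_lit 397) (nat_lit 5) (nat_lit 420) (nat_lit 5) (nat_lit 398) (nat_lit 5) (nat_lit 432) (nat_lit 403) (nat_lit 305)) (XT.nd (nat_lit 78) (nat_lit 1748) (nat_lit 0) (XT.lf (nat_lit 0) (nat_lit 2572594443) (nat_lit 1748) (nat_lit 1287036996) (nat_lit 76) (nat_lit 5563766164) (nat_lit 397) (nat_lit 5) (nat_lit 420) (nat_lit 5) (nat_lit 398) (nat_lit 5) (nat_lit 433) (nat_lit 403) (nat_lit 304)) (XT.lf (nat_lit 0) (nat_lit 3863612426) (nat_lit 1748) (nat_lit 347940425) (nat_lit 1824) (nat_lit 5300668564) (nat_lit 374) (nat_lit 5) (nat_lit 397) (nat_lit 5) (nat_lit 398) (nat_lit 5) (nat_lit 434) (nat_lit 403) (nat_lit 303))))) (XT.nd (nat_lit 156) (nat_lit 1824) (nat_lit 0) (XT.nd (nat_lit 78) (nat_lit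 988) (nat_lit 0) (XT.lf (nat_lit 0) (nat_lit 5890284776) (nat_lit 1824) (nat_lit 509667939) (nat_lit 76) (nat_lit 3202740814) (nat_lit 374) (nat_lit 5) (nat_lit 398) (nat_lit 5) (nat_lit 375) (nat_lit 5) (nat_lit 435) (nat_lit 403) (nat_lit 302)) (XT.lf (nat_lit 0) (nat_lit 4772054074) (nat_lit 988) (nat_lit 2841573162) (nat_lit 1064) (nat_lit 2081138613) (nat_lit 361) (nat_lit 5) (nat_lit 374) (nat_lit 5) (nat_lit 375) (nat_lit 5) (nat_lit 436) (nat_lit 403) (nat_lit 301))) (XT.nd (nat_lit 78) (nat_lit 912) (nat_lit 0) (XT.lf (nat_lit 0) (nat_lit 356638265) (nat_lit 912) (nat_lit 9003738158) (nat_lit 988) (nat_lit 428535653) (nat_lit 349) (nat_lit 5) (nat_lit 361) (nat_lit 5) (nat_lit 362) (nat_lit 5) (nat_lit 437) (nat_lit 403) (nat_lit 300)) (XT.nd (nat_lit 78) (nat_lit 836) (nat_lit 0) (XT.lf (nat_lit 0) (nat_lit 1270911624) (nat_lit 988) (nat_lit 4123949016) (nat_lit 76) (nat_lit 4489322572) (nat_lit 348)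 (nat_lit 5) (nat_lit 361) (nat_lit 5) (nat_lit 349) (nat_lit 5) (nat_lit 438) (nat_lit 403) (nat_lit 299)) (XT.lf (nat_lit 0) (nat_lit 1284180623) (nat_lit 836) (nat_lit 1701408015) (nat_lit 912) (nat_lit 6995985512) (nat_lit 337) (nat_lit 5) (nat_lit 348) (nat_lit 5) (nat_lit 349) (nat_lit 5) (nat_lit 439) (nat_lit 403) (nat_lit 298)))))) (XT.nd (nat_lit 390) (nat_lit 3040) (nat_lit 0) (XT.nd (nat_lit 156) (nat_lit 836) (nat_lit 0) (XT.nd (nat_lit 78) (nat_lit 836) (nat_lit 0) (XT.lf (nat_lit 0) (nat_lit 4754758415) (nat_lit 912) (nat_lit 3258251268) (nat_lit 76) (nat_lit 2067509638) (nat_lit 337) (nat_lit 5) (nat_lit 349) (nat_lit 5) (nat_lit 338) (nat_lit 5) (nat_lit 440) (nat_lit 403) (nat_lit 297)) (XT.lf (nat_lit 0) (nat_lit 2288151678) (nat_lit 836) (nat_lit 4276625672) (nat_lit 912) (nat_lit 3616566927) (nat_lit 326) (nat_lit 5) (nat_lit 337) (nat_lit 5) (nat_lit 338) (nat_lit 5) (nat_lit 441) (nat_lit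 403) (nat_lit 296))) (XT.nd (nat_lit 78) (nat_lit 836) (nat_lit 0) (XT.lf (nat_lit 0) (nat_lit 7969518377) (nat_lit 836) (nat_lit 442959185) (nat_lit 912) (nat_lit 1871688547) (nat_lit 326) (nat_lit 5) (nat_lit 337) (nat_lit 5) (nat_lit 338) (nat_lit 5) (nat_lit 442) (nat_lit 403) (nat_lit 295)) (XT.nd (nat_lit 78) (nat_lit 76) (nat_lit 0) (XT.lf (nat_lit 0) (nat_lit 3377099636) (nat_lit 760) (nat_lit 6944488658) (nat_lit 836) (nat_lit 66976754) (nat_lit 316) (nat_lit 5) (nat_lit 326) (nat_lit 5) (nat_lit 327) (nat_lit 5) (nat_lit 443) (nat_lit 403) (nat_lit 294)) (XT.lf (nat_lit 0) (nat_lit 1749273448) (nat_lit 836) (nat_lit 1315524886) (nat_lit 76) (nat_lit 7430058549) (nat_lit 315) (nat_lit 5) (nat_lit 326) (nat_lit 5) (nat_lit 316) (nat_lit 5) (nat_lit 444) (nat_lit 403) (nat_lit 293))))) (XT.nd (nat_lit 234) (nat_lit 1520) (nat_lit 0) (XT.nd (nat_lit 78) (nat_lit 760) (nat_lit 0) (XT.lf (nat_lit 0) (nat_lit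 3616905460) (nat_lit 836) (nat_lit 6075607537) (nat_lit 76) (nat_lit 910442864) (nat_lit 305) (nat_lit 5) (nat_lit 316) (nat_lit 5) (nat_lit 306) (nat_lit 5) (nat_lit 445) (nat_lit 403) (nat_lit 292)) (XT.nd (nat_lit 78) (nat_lit 760) (nat_lit 0) (XT.lf (nat_lit 0) (nat_lit 5531851914) (nat_lit 836) (nat_lit 248633286) (nat_lit 76) (nat_lit 4932541437) (nat_lit 305) (nat_lit 5) (nat_lit 316) (nat_lit 5) (nat_lit 306) (nat_lit 5) (nat_lit 446) (nat_lit 403) (nat_lit 291)) (XT.lf (nat_lit 0) (nat_lit 5750545803) (nat_lit 760) (nat_lit 1753043533) (nat_lit 836) (nat_lit 3321348527) (nat_lit 295) (nat_lit 5) (nat_lit 305) (nat_lit 5) (nat_lit 306) (nat_lit 5) (nat_lit 447) (nat_lit 403) (nat_lit 290)))) (XT.nd (nat_lit 78) (nat_lit 760) (nat_lit 0) (XT.lf (nat_lit 0) (nat_lit 910669243) (nat_lit 760) (nat_lit 8608365452) (nat_lit 836) (nat_lit 1419975858) (nat_lit 285) (nat_lit 5) (nat_lit 295) (nat_lit 5) (nat_lit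 296) (nat_lit 5) (nat_lit 448) (nat_lit 403) (nat_lit 289)) (XT.nd (nat_lit 78) (nat_lit 684) (nat_lit 0) (XT.lf (nat_lit 0) (nat_lit 539995759) (nat_lit 836) (nat_lit 4005795614) (nat_lit 76) (nat_lit 6508966561) (nat_lit 284) (nat_lit 5) (nat_lit 295) (nat_lit 5) (nat_lit 285) (nat_lit 5) (nat_lit 449) (nat_lit 403) (nat_lit 288)) (XT.lf (nat_lit 0) (nat_lit 2136085930) (nat_lit 684) (nat_lit 379813797) (nat_lit 760) (nat_lit 8656826088) (nat_lit 275) (nat_lit 5) (nat_lit 284) (nat_lit 5) (nat_lit 285) (nat_lit 5) (nat_lit 450) (nat_lit 403) (nat_lit 287))))))))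
noncomputable def xc159 : XT := (XT.nd (nat_lit 1638) (nat_lit 5472) (nat_lit 0) (XT.nd (nat_lit 780) (nat_lit 3496) (nat_lit 0) (XT.nd (nat_lit 390) (nat_lit 1976) (nat_lit 0) (XT.nd (nat_lit 156) (nat_lit 760) (nat_lit 0) (XT.nd (nat_lit 78) (nat_lit 684) (nat_lit 0) (XT.lf (nat_lit 0) (nat_lit 4565581295) (nat_lit 760) (nat_lit 2882663948) (nat_lit 76) (nat_lit 3844130659) (nat_lit 275) (nat_lit 5) (nat_lit 285) (nat_lit 5) (nat_lit 276) (nat_lit 5) (nat_lit 451) (nat_lit 403) (nat_lit 286)) (XT.lf (nat_lit 0) (nat_lit 3417131735) (nat_lit 684) (nat_lit 3246255046) (nat_lit 760) (nat_lit 4750897485) (nat_lit 266) (nat_lit 5) (nat_lit 275) (nat_lit 5) (nat_lit 276) (nat_lit 5) (nat_lit 452) (nat_lit 403) (nat_lit 285))) (XT.nd (nat_lit 78) (nat_lit 760) (nat_lit 0) (XT.lf (nat_lit 0) (nat_lit 8812005136) (nat_lit 760) (nat_lit 1682897675) (nat_lit 76) (nat_lit 1043558580) (nat_lit 266) (nat_lit 5) (nat_lit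 276) (nat_lit 5) (nat_lit 267) (nat_lit 5) (nat_lit 453) (nat_lit 403) (nat_lit 284)) (XT.nd (nat_lit 78) (nat_lit 76) (nat_lit 0) (XT.lf (nat_lit 0) (nat_lit 4779441504) (nat_lit 684) (nat_lit 6259658103) (nat_lit 760) (nat_lit 625319951) (nat_lit 257) (nat_lit 5) (nat_lit 266) (nat_lit 5) (nat_lit 267) (nat_lit 5) (nat_lit 454) (nat_lit 403) (nat_lit 283)) (XT.lf (nat_lit 0) (nat_lit 1492364437) (nat_lit 760) (nat_lit 428251489) (nat_lit 76) (nat_lit 9872202505) (nat_lit 256) (nat_lit 5) (nat_lit 266) (nat_lit 5) (nat_lit 257) (nat_lit 5) (nat_lit 455) (nat_lit 403) (nat_lit 282))))) (XT.nd (nat_lit 156) (nat_lit 684) (nat_lit 0) (XT.nd (nat_lit 78) (nat_lit 608) (nat_lit 0) (XT.lf (nat_lit 0) (nat_lit 3684335084) (nat_lit 760) (nat_lit 5723895867) (nat_lit 76) (nat_lit 2514672691) (nat_lit 247) (nat_lit 5) (nat_lit 257) (nat_lit 5) (nat_lit 248) (nat_lit 5) (nat_lit 456) (nat_lit 403) (nat_lit 281)) (XT.lf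 (nat_lit 0) (nat_lit 888700495) (nat_lit 608) (nat_lit 5036408623) (nat_lit 684) (nat_lit 6130389157) (nat_lit 239) (nat_lit 5) (nat_lit 247) (nat_lit 5) (nat_lit 248) (nat_lit 5) (nat_lit 457) (nat_lit 403) (nat_lit 280))) (XT.nd (nat_lit 78) (nat_lit 684) (nat_lit 0) (XT.lf (nat_lit 0) (nat_lit 7691963843) (nat_lit 608) (nat_lit 540924385) (nat_lit 684) (nat_lit 3957419643) (nat_lit 239) (nat_lit 5) (nat_lit 247) (nat_lit 5) (nat_lit 248) (nat_lit 5) (nat_lit 458) (nat_lit 403) (nat_lit 279)) (XT.nd (nat_lit 78) (nat_lit 76) (nat_lit 0) (XT.lf (nat_lit 0) (nat_lit 2288124704) (nat_lit 608) (nat_lit 8323892117) (nat_lit 684) (nat_lit 1715299688) (nat_lit 231) (nat_lit 5) (nat_lit 239) (nat_lit 5) (nat_lit 240) (nat_lit 5) (nat_lit 459) (nat_lit 403) (nat_lit 278)) (XT.lf (nat_lit 0) (nat_lit 582290419) (nat_lit 684) (nat_lit 3221851560) (nat_lit 76) (nat_lit 8662493068) (nat_lit 230) (nat_lit 5) (nat_lit 239)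 (nat_lit 5) (nat_lit 231) (nat_lit 5) (nat_lit 460) (nat_lit 403) (nat_lit 277)))))) (XT.nd (nat_lit 390) (nat_lit 1748) (nat_lit 0) (XT.nd (nat_lit 156) (nat_lit 1140) (nat_lit 0) (XT.nd (nat_lit 78) (nat_lit 0) (nat_lit 0) (XT.lf (nat_lit 0) (nat_lit 2917154641) (nat_lit 684) (nat_lit 8862940848) (nat_lit 76) (nat_lit 828138241) (nat_lit 222) (nat_lit 5) (nat_lit 231) (nat_lit 5) (nat_lit 223) (nat_lit 5) (nat_lit 461) (nat_lit 403) (nat_lit 276)) (XT.lf (nat_lit 0) (nat_lit 5330301518) (nat_lit 684) (nat_lit 1901101401) (nat_lit 76) (nat_lit 5520635974) (nat_lit 222) (nat_lit 5) (nat_lit 231) (nat_lit 5) (nat_lit 223) (nat_lit 5) (nat_lit 462) (nat_lit 403) (nat_lit 275))) (XT.nd (nat_lit 78) (nat_lit 532) (nat_lit 0) (XT.lf (nat_lit 0) (nat_lit 5250218165) (nat_lit 608) (nat_lit 2560511337) (nat_lit 684) (nat_lit 5087616388) (nat_lit 214) (nat_lit 5) (nat_lit 222) (nat_lit 5) (nat_lit 223) (nat_lit 5) (nat_lit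 463) (nat_lit 403) (nat_lit 274)) (XT.nd (nat_lit 78) (nat_lit 532) (nat_lit 0) (XT.lf (nat_lit 0) (nat_lit 10352998782) (nat_lit 684) (nat_lit 510155094) (nat_lit 76) (nat_lit 2184186469) (nat_lit 214) (nat_lit 5) (nat_lit 223) (nat_lit 5) (nat_lit 215) (nat_lit 5) (nat_lit 464) (nat_lit 403) (nat_lit 273)) (XT.lf (nat_lit 0) (nat_lit 6824723252) (nat_lit 532) (nat_lit 6168032694) (nat_lit 608) (nat_lit 205631748) (nat_lit 207) (nat_lit 5) (nat_lit 214) (nat_lit 5) (nat_lit 215) (nat_lit 5) (nat_lit 465) (nat_lit 403) (nat_lit 272))))) (XT.nd (nat_lit 234) (nat_lit 608) (nat_lit 0) (XT.nd (nat_lit 78) (nat_lit 532) (nat_lit 0) (XT.lf (nat_lit 0) (nat_lit 939497305) (nat_lit 532) (nat_lit 1357746596) (nat_lit 608) (nat_lit 11055015043) (nat_lit 199) (nat_lit 5) (nat_lit 206) (nat_lit 5) (nat_lit 207) (nat_lit 5) (nat_lit 466) (nat_lit 403) (nat_lit 271)) (XT.nd (nat_lit 78) (nat_lit 532) (nat_lit 0) (XT.lf (nat_lit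 0) (nat_lit 4899102910) (nat_lit 608) (nat_lit 5066347284) (nat_lit 76) (nat_lit 3542702172) (nat_lit 199) (nat_lit 5) (nat_lit 207) (nat_lit 5) (nat_lit 200) (nat_lit 5) (nat_lit 467) (nat_lit 403) (nat_lit 270)) (XT.lf (nat_lit 0) (nat_lit 2431631999) (nat_lit 532) (nat_lit 5132011254) (nat_lit 608) (nat_lit 6103312931) (nat_lit 192) (nat_lit 5) (nat_lit 199) (nat_lit 5) (nat_lit 200) (nat_lit 5) (nat_lit 468) (nat_lit 403) (nat_lit 269)))) (XT.nd (nat_lit 78) (nat_lit 608) (nat_lit 0) (XT.lf (nat_lit 0) (nat_lit 10130103741) (nat_lit 532) (nat_lit 171392576) (nat_lit 608) (nat_lit 3527044628) (nat_lit 192) (nat_lit 5) (nat_lit 199) (nat_lit 5) (nat_lit 200) (nat_lit 5) (nat_lit 469) (nat_lit 403) (nat_lit 268)) (XT.nd (nat_lit 78) (nat_lit 76) (nat_lit 0) (XT.lf (nat_lit 0) (nat_lit 3991761426) (nat_lit 532) (nat_lit 9146272734) (nat_lit 608) (nat_lit 854449887) (nat_lit 185) (nat_lit 5) (nat_lit 192) (nat_lit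 5) (nat_lit 193) (nat_lit 5) (nat_lit 470) (nat_lit 403) (nat_lit 267)) (XT.lf (nat_lit 0) (nat_lit 1859497755) (nat_lit 608) (nat_lit 2304871141) (nat_lit 76) (nat_lit 9994850132) (nat_lit 184) (nat_lit 5) (nat_lit 192) (nat_lit 5) (nat_lit 185) (nat_lit 5) (nat_lit 471) (nat_lit 403) (nat_lit 266))))))) (XT.nd (nat_lit 780) (nat_lit 2508) (nat_lit 0) (XT.nd (nat_lit 390) (nat_lit 1444) (nat_lit 0) (XT.nd (nat_lit 156) (nat_lit 1064) (nat_lit 0) (XT.nd (nat_lit 78) (nat_lit 0) (nat_lit 0) (XT.lf (nat_lit 0) (nat_lit 4645421733) (nat_lit 532) (nat_lit 8740062976) (nat_lit 76) (nat_lit 943113174) (nat_lit 178) (nat_lit 5) (nat_lit 185) (nat_lit 5) (nat_lit 179) (nat_lit 5) (nat_lit 472) (nat_lit 403) (nat_lit 265)) (XT.lf (nat_lit 0) (nat_lit 7516929475) (nat_lit 532) (nat_lit 875561148) (nat_lit 76) (nat_lit 6108281190) (nat_lit 178) (nat_lit 5) (nat_lit 185) (nat_lit 5) (nat_lit 179) (nat_lit 5) (nat_lit 473)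 (nat_lit 403) (nat_lit 264))) (XT.nd (nat_lit 78) (nat_lit 532) (nat_lit 0) (XT.lf (nat_lit 0) (nat_lit 7223440621) (nat_lit 532) (nat_lit 3256303916) (nat_lit 608) (nat_lit 4195971852) (nat_lit 171) (nat_lit 5) (nat_lit 178) (nat_lit 5) (nat_lit 179) (nat_lit 5) (nat_lit 474) (nat_lit 403) (nat_lit 263)) (XT.nd (nat_lit 78) (nat_lit 76) (nat_lit 0) (XT.lf (nat_lit 0) (nat_lit 619822009) (nat_lit 456) (nat_lit 12891895637) (nat_lit 532) (nat_lit 1342248792) (nat_lit 165) (nat_lit 5) (nat_lit 171) (nat_lit 5) (nat_lit 172) (nat_lit 5) (nat_lit 475) (nat_lit 403) (nat_lit 262)) (XT.lf (nat_lit 0) (nat_lit 1607022680) (nat_lit 532) (nat_lit 6130185731) (nat_lit 76) (nat_lit 7297192919) (nat_lit 164) (nat_lit 5) (nat_lit 171) (nat_lit 5) (nat_lit 165) (nat_lit 5) (nat_lit 476) (nat_lit 403) (nat_lit 261))))) (XT.nd (nat_lit 156) (nat_lit 988) (nat_lit 0) (XT.nd (nat_lit 78) (nat_lit 0) (nat_lit 0) (XT.lf (nat_lit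 0) (nat_lit 2137642216) (nat_lit 456) (nat_lit 2460953533) (nat_lit 532) (nat_lit 10619650301) (nat_lit 158) (nat_lit 5) (nat_lit 164) (nat_lit 5) (nat_lit 165) (nat_lit 5) (nat_lit 477) (nat_lit 403) (nat_lit 260)) (XT.lf (nat_lit 0) (nat_lit 7697870783) (nat_lit 532) (nat_lit 4787723255) (nat_lit 76) (nat_lit 2919220480) (nat_lit 158) (nat_lit 5) (nat_lit 165) (nat_lit 5) (nat_lit 159) (nat_lit 5) (nat_lit 478) (nat_lit 403) (nat_lit 259))) (XT.nd (nat_lit 78) (nat_lit 532) (nat_lit 0) (XT.lf (nat_lit 0) (nat_lit 3685936438) (nat_lit 456) (nat_lit 7201166638) (nat_lit 532) (nat_lit 4707456028) (nat_lit 152) (nat_lit 5) (nat_lit 158) (nat_lit 5) (nat_lit 159) (nat_lit 5) (nat_lit 479) (nat_lit 403) (nat_lit 258)) (XT.nd (nat_lit 78) (nat_lit 532) (nat_lit 0) (XT.lf (nat_lit 0) (nat_lit 12376958313) (nat_lit 456) (nat_lit 1783162258) (nat_lit 532) (nat_lit 1627582099) (nat_lit 152) (nat_lit 5) (nat_lit 158)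 (nat_lit 5) (nat_lit 159) (nat_lit 5) (nat_lit 480) (nat_lit 403) (nat_lit 257)) (XT.lf (nat_lit 0) (nat_lit 1541037287) (nat_lit 532) (nat_lit 10708699906) (nat_lit 76) (nat_lit 3733839214) (nat_lit 145) (nat_lit 5) (nat_lit 152) (nat_lit 5) (nat_lit 146) (nat_lit 5) (nat_lit 481) (nat_lit 403) (nat_lit 256)))))) (XT.nd (nat_lit 390) (nat_lit 1216) (nat_lit 0) (XT.nd (nat_lit 156) (nat_lit 912) (nat_lit 0) (XT.nd (nat_lit 78) (nat_lit 380) (nat_lit 0) (XT.lf (nat_lit 0) (nat_lit 4774226539) (nat_lit 532) (nat_lit 2042143523) (nat_lit 76) (nat_lit 9366326437) (nat_lit 145) (nat_lit 5) (nat_lit 152) (nat_lit 5) (nat_lit 146) (nat_lit 5) (nat_lit 482) (nat_lit 403) (nat_lit 255)) (XT.lf (nat_lit 0) (nat_lit 6871256167) (nat_lit 380) (nat_lit 1233791009) (nat_lit 456) (nat_lit 8280096255) (nat_lit 140) (nat_lit 5) (nat_lit 145) (nat_lit 5) (nat_lit 146) (nat_lit 5) (nat_lit 483) (nat_lit 403) (nat_lit 254))) (XT.nd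 (nat_lit 78) (nat_lit 912) (nat_lit 0) (XT.lf (nat_lit 0) (nat_lit 11533682766) (nat_lit 456) (nat_lit 646508705) (nat_lit 76) (nat_lit 4410827573) (nat_lit 140) (nat_lit 5) (nat_lit 146) (nat_lit 5) (nat_lit 141) (nat_lit 5) (nat_lit 484) (nat_lit 403) (nat_lit 253)) (XT.nd (nat_lit 78) (nat_lit 456) (nat_lit 0) (XT.lf (nat_lit 0) (nat_lit 8484957543) (nat_lit 456) (nat_lit 6597864683) (nat_lit 532) (nat_lit 1717154960) (nat_lit 134) (nat_lit 5) (nat_lit 140) (nat_lit 5) (nat_lit 141) (nat_lit 5) (nat_lit 485) (nat_lit 403) (nat_lit 252)) (XT.lf (nat_lit 0) (nat_lit 777570061) (nat_lit 380) (nat_lit 888222306) (nat_lit 456) (nat_lit 15347143697) (nat_lit 128) (nat_lit 5) (nat_lit 133) (nat_lit 5) (nat_lit 134) (nat_lit 5) (nat_lit 486) (nat_lit 403) (nat_lit 251))))) (XT.nd (nat_lit 234) (nat_lit 836) (nat_lit 0) (XT.nd (nat_lit 78) (nat_lit 380) (nat_lit 0) (XT.lf (nat_lit 0) (nat_lit 5170431724) (nat_lit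 456) (nat_lit 7124603276) (nat_lit 76) (nat_lit 4933355029) (nat_lit 128) (nat_lit 5) (nat_lit 134) (nat_lit 5) (nat_lit 129) (nat_lit 5) (nat_lit 487) (nat_lit 403) (nat_lit 250)) (XT.nd (nat_lit 78) (nat_lit 0) (nat_lit 0) (XT.lf (nat_lit 0) (nat_lit 2174837119) (nat_lit 380) (nat_lit 6579340613) (nat_lit 456) (nat_lit 8693798426) (nat_lit 123) (nat_lit 5) (nat_lit 128) (nat_lit 5) (nat_lit 129) (nat_lit 5) (nat_lit 488) (nat_lit 403) (nat_lit 249)) (XT.lf (nat_lit 0) (nat_lit 11740769934) (nat_lit 380) (nat_lit 705760796) (nat_lit 456) (nat_lit 5224687937) (nat_lit 123) (nat_lit 5) (nat_lit 128) (nat_lit 5) (nat_lit 129) (nat_lit 5) (nat_lit 489) (nat_lit 403) (nat_lit 248)))) (XT.nd (nat_lit 78) (nat_lit 456) (nat_lit 0) (XT.lf (nat_lit 0) (nat_lit 3596001395) (nat_lit 380) (nat_lit 12663695087) (nat_lit 456) (nat_lit 1638293462) (nat_lit 118) (nat_lit 5) (nat_lit 123) (nat_lit 5) (nat_lit 124) (nat_lit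 5) (nat_lit 490) (nat_lit 403) (nat_lit 247)) (XT.nd (nat_lit 78) (nat_lit 380) (nat_lit 0) (XT.lf (nat_lit 0) (nat_lit 2027408510) (nat_lit 456) (nat_lit 4769163462) (nat_lit 76) (nat_lit 11331784101) (nat_lit 117) (nat_lit 5) (nat_lit 123) (nat_lit 5) (nat_lit 118) (nat_lit 5) (nat_lit 491) (nat_lit 403) (nat_lit 246)) (XT.lf (nat_lit 0) (nat_lit 4993289201) (nat_lit 380) (nat_lit 773184049) (nat_lit 456) (nat_lit 12596203028) (nat_lit 112) (nat_lit 5) (nat_lit 117) (nat_lit 5) (nat_lit 118) (nat_lit 5) (nat_lit 492) (nat_lit 403) (nat_lit 245))))))))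
noncomputable def xc160 : XT := (XT.nd (nat_lit 53274) (nat_lit 0) (nat_lit 21660) (XT.nd (nat_lit 52494) (nat_lit 0) (nat_lit 30856) (XT.nd (nat_lit 390) (nat_lit 988) (nat_lit 0) (XT.nd (nat_lit 156) (nat_lit 456) (nat_lit 0) (XT.nd (nat_lit 78) (nat_lit 304) (nat_lit 0) (XT.lf (nat_lit 0) (nat_lit 9637020112) (nat_lit 456) (nat_lit 3636226807) (nat_lit 76) (nat_lit 5327304940) (nat_lit 112) (nat_lit 5) (nat_lit 118) (nat_lit 5) (nat_lit 113) (nat_lit 5) (nat_lit 493) (nat_lit 403) (nat_lit 244)) (XT.lf (nat_lit 0) (nat_lit 6354383492) (nat_lit 304) (nat_lit 7266790657) (nat_lit 380) (nat_lit 5221289805) (nat_lit 108) (nat_lit 5) (nat_lit 112) (nat_lit 5) (nat_lit 113) (nat_lit 5) (nat_lit 494) (nat_lit 403) (nat_lit 243))) (XT.nd (nat_lit 78) (nat_lit 456) (nat_lit 0) (XT.lf (nat_lit 0) (nat_lit 16578765899) (nat_lit 304) (nat_lit 1120565401) (nat_lit 380) (nat_lit 1389599461) (nat_lit 108) (nat_lit 5) (nat_lit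 112) (nat_lit 5) (nat_lit 113) (nat_lit 5) (nat_lit 495) (nat_lit 403) (nat_lit 242)) (XT.nd (nat_lit 78) (nat_lit 0) (nat_lit 0) (XT.lf (nat_lit 0) (nat_lit 2559810268) (nat_lit 456) (nat_lit 11635765152) (nat_lit 76) (nat_lit 5142944799) (nat_lit 102) (nat_lit 5) (nat_lit 108) (nat_lit 5) (nat_lit 103) (nat_lit 5) (nat_lit 496) (nat_lit 403) (nat_lit 241)) (XT.lf (nat_lit 0) (nat_lit 6584107853) (nat_lit 456) (nat_lit 1470771116) (nat_lit 76) (nat_lit 11537751367) (nat_lit 102) (nat_lit 5) (nat_lit 108) (nat_lit 5) (nat_lit 103) (nat_lit 5) (nat_lit 497) (nat_lit 403) (nat_lit 240))))) (XT.nd (nat_lit 156) (nat_lit 684) (nat_lit 0) (XT.nd (nat_lit 78) (nat_lit 0) (nat_lit 0) (XT.lf (nat_lit 0) (nat_lit 9000635675) (nat_lit 304) (nat_lit 1736999655) (nat_lit 380) (nat_lit 9113215099) (nat_lit 98) (nat_lit 5) (nat_lit 102) (nat_lit 5) (nat_lit 103) (nat_lit 5) (nat_lit 498) (nat_lit 403) (nat_lit 239)) (XT.lf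 (nat_lit 0) (nat_lit 15005096511) (nat_lit 380) (nat_lit 458252581) (nat_lit 76) (nat_lit 4650271171) (nat_lit 98) (nat_lit 5) (nat_lit 103) (nat_lit 5) (nat_lit 99) (nat_lit 5) (nat_lit 499) (nat_lit 403) (nat_lit 238))) (XT.nd (nat_lit 78) (nat_lit 380) (nat_lit 0) (XT.lf (nat_lit 0) (nat_lit 10249772676) (nat_lit 304) (nat_lit 9176740413) (nat_lit 380) (nat_lit 953762827) (nat_lit 94) (nat_lit 5) (nat_lit 98) (nat_lit 5) (nat_lit 99) (nat_lit 5) (nat_lit 500) (nat_lit 403) (nat_lit 237)) (XT.nd (nat_lit 51792) (nat_lit 0) (nat_lit 33288) (XT.lf (nat_lit 0) (nat_lit 496403149) (nat_lit 304) (nat_lit 2741517662) (nat_lit 380) (nat_lit 17413981894) (nat_lit 89) (nat_lit 5) (nat_lit 93) (nat_lit 5) (nat_lit 94) (nat_lit 5) (nat_lit 501) (nat_lit 403) (nat_lit 236)) (XT.lf (nat_lit 0) (nat_lit 1359694258) (nat_lit 1292) (nat_lit 1208478526) (nat_lit 1292) (nat_lit 1208478526) (nat_lit 527) (nat_lit 3) (nat_lit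 544) (nat_lit 3) (nat_lit 544) (nat_lit 5) (nat_lit 404) (nat_lit 404) (nat_lit 332)))))) (XT.nd (nat_lit 390) (nat_lit 1216) (nat_lit 0) (XT.nd (nat_lit 156) (nat_lit 1216) (nat_lit 0) (XT.nd (nat_lit 78) (nat_lit 0) (nat_lit 0) (XT.lf (nat_lit 76) (nat_lit 1170627544) (nat_lit 0) (nat_lit 2962701274) (nat_lit 1292) (nat_lit 3466913633) (nat_lit 528) (nat_lit 5) (nat_lit 527) (nat_lit 3) (nat_lit 544) (nat_lit 5) (nat_lit 405) (nat_lit 404) (nat_lit 331)) (XT.lf (nat_lit 76) (nat_lit 4844020231) (nat_lit 0) (nat_lit 711449804) (nat_lit 1292) (nat_lit 2093075112) (nat_lit 528) (nat_lit 5) (nat_lit 527) (nat_lit 3) (nat_lit 544) (nat_lit 5) (nat_lit 406) (nat_lit 404) (nat_lit 330))) (XT.nd (nat_lit 78) (nat_lit 1292) (nat_lit 0) (XT.lf (nat_lit 76) (nat_lit 875068758) (nat_lit 0) (nat_lit 6111483321) (nat_lit 1292) (nat_lit 711673928) (nat_lit 529) (nat_lit 5) (nat_lit 528) (nat_lit 5) (nat_lit 545) (nat_lit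 5) (nat_lit 407) (nat_lit 404) (nat_lit 329)) (XT.nd (nat_lit 78) (nat_lit 0) (nat_lit 0) (XT.lf (nat_lit 0) (nat_lit 676711452) (nat_lit 1292) (nat_lit 3111164852) (nat_lit 1368) (nat_lit 3961184799) (nat_lit 511) (nat_lit 5) (nat_lit 528) (nat_lit 5) (nat_lit 529) (nat_lit 5) (nat_lit 408) (nat_lit 404) (nat_lit 328)) (XT.lf (nat_lit 76) (nat_lit 659844347) (nat_lit 0) (nat_lit 1393319279) (nat_lit 1368) (nat_lit 5748279422) (nat_lit 512) (nat_lit 5) (nat_lit 511) (nat_lit 5) (nat_lit 529) (nat_lit 5) (nat_lit 409) (nat_lit 404) (nat_lit 327))))) (XT.nd (nat_lit 156) (nat_lit 1292) (nat_lit 0) (XT.nd (nat_lit 78) (nat_lit 0) (nat_lit 0) (XT.lf (nat_lit 0) (nat_lit 3451156394) (nat_lit 1292) (nat_lit 3332791680) (nat_lit 1368) (nat_lit 1071064717) (nat_lit 512) (nat_lit 5) (nat_lit 529) (nat_lit 5) (nat_lit 530) (nat_lit 5) (nat_lit 410) (nat_lit 404) (nat_lit 326)) (XT.lf (nat_lit 76) (nat_lit 530477303) (nat_lit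 0) (nat_lit 4326150352) (nat_lit 1368) (nat_lit 3053455892) (nat_lit 513) (nat_lit 5) (nat_lit 512) (nat_lit 5) (nat_lit 530) (nat_lit 5) (nat_lit 411) (nat_lit 404) (nat_lit 325))) (XT.nd (nat_lit 78) (nat_lit 1292) (nat_lit 0) (XT.lf (nat_lit 76) (nat_lit 4496872255) (nat_lit 0) (nat_lit 1783072665) (nat_lit 1368) (nat_lit 1686535665) (nat_lit 513) (nat_lit 5) (nat_lit 512) (nat_lit 5) (nat_lit 530) (nat_lit 5) (nat_lit 412) (nat_lit 404) (nat_lit 324)) (XT.nd (nat_lit 78) (nat_lit 1368) (nat_lit 0) (XT.lf (nat_lit 76) (nat_lit 500203873) (nat_lit 0) (nat_lit 7208133291) (nat_lit 1368) (nat_lit 316155442) (nat_lit 514) (nat_lit 5) (nat_lit 513) (nat_lit 5) (nat_lit 531) (nat_lit 5) (nat_lit 413) (nat_lit 404) (nat_lit 323)) (XT.lf (nat_lit 0) (nat_lit 1071060443) (nat_lit 1368) (nat_lit 3525731332) (nat_lit 1444) (nat_lit 3486678831) (nat_lit 495) (nat_lit 5) (nat_lit 513) (nat_lit 5) (nat_lit 514) (nat_lit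 5) (nat_lit 414) (nat_lit 404) (nat_lit 322))))))) (XT.nd (nat_lit 780) (nat_lit 7904) (nat_lit 0) (XT.nd (nat_lit 390) (nat_lit 1292) (nat_lit 0) (XT.nd (nat_lit 156) (nat_lit 0) (nat_lit 76) (XT.nd (nat_lit 78) (nat_lit 0) (nat_lit 76) (XT.lf (nat_lit 76) (nat_lit 538162947) (nat_lit 0) (nat_lit 1916111017) (nat_lit 1444) (nat_lit 5689880777) (nat_lit 496) (nat_lit 5) (nat_lit 495) (nat_lit 5) (nat_lit 514) (nat_lit 5) (nat_lit 415) (nat_lit 404) (nat_lit 321)) (XT.lf (nat_lit 0) (nat_lit 3863822183) (nat_lit 1368) (nat_lit 3500090764) (nat_lit 1444) (nat_lit 842183956) (nat_lit 496) (nat_lit 5) (nat_lit 514) (nat_lit 5) (nat_lit 515) (nat_lit 5) (nat_lit 416) (nat_lit 404) (nat_lit 320))) (XT.nd (nat_lit 78) (nat_lit 0) (nat_lit 0) (XT.lf (nat_lit 76) (nat_lit 664175227) (nat_lit 0) (nat_lit 4624527135) (nat_lit 1444) (nat_lit 2980850128) (nat_lit 497) (nat_lit 5) (nat_lit 496) (nat_lit 5) (nat_lit 515) (nat_lit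 5) (nat_lit 417) (nat_lit 404) (nat_lit 319)) (XT.nd (nat_lit 78) (nat_lit 0) (nat_lit 76) (XT.lf (nat_lit 76) (nat_lit 4939526925) (nat_lit 0) (nat_lit 1796637887) (nat_lit 1444) (nat_lit 1598247747) (nat_lit 497) (nat_lit 5) (nat_lit 496) (nat_lit 5) (nat_lit 515) (nat_lit 5) (nat_lit 418) (nat_lit 404) (nat_lit 318)) (XT.lf (nat_lit 76) (nat_lit 884438160) (nat_lit 0) (nat_lit 7312179343) (nat_lit 1444) (nat_lit 204288232) (nat_lit 498) (nat_lit 5) (nat_lit 497) (nat_lit 5) (nat_lit 516) (nat_lit 5) (nat_lit 419) (nat_lit 404) (nat_lit 317))))) (XT.nd (nat_lit 156) (nat_lit 0) (nat_lit 76) (XT.nd (nat_lit 78) (nat_lit 0) (nat_lit 0) (XT.lf (nat_lit 0) (nat_lit 1207880304) (nat_lit 1444) (nat_lit 3213039122) (nat_lit 1520) (nat_lit 4047541361) (nat_lit 478) (nat_lit 5) (nat_lit 497) (nat_lit 5) (nat_lit 498) (nat_lit 5) (nat_lit 420) (nat_lit 404) (nat_lit 316)) (XT.lf (nat_lit 76) (nat_lit 1170675585) (nat_lit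 0) (nat_lit 1454511646) (nat_lit 1520) (nat_lit 5912575854) (nat_lit 479) (nat_lit 5) (nat_lit 478) (nat_lit 5) (nat_lit 498) (nat_lit 5) (nat_lit 421) (nat_lit 404) (nat_lit 315))) (XT.nd (nat_lit 78) (nat_lit 0) (nat_lit 0) (XT.lf (nat_lit 0) (nat_lit 4075244957) (nat_lit 1444) (nat_lit 2953016912) (nat_lit 1520) (nat_lit 1580116922) (nat_lit 479) (nat_lit 5) (nat_lit 498) (nat_lit 5) (nat_lit 499) (nat_lit 5) (nat_lit 422) (nat_lit 404) (nat_lit 314)) (XT.nd (nat_lit 78) (nat_lit 0) (nat_lit 0) (XT.lf (nat_lit 76) (nat_lit 1540027094) (nat_lit 0) (nat_lit 4006946632) (nat_lit 1520) (nat_lit 3133594836) (nat_lit 480) (nat_lit 5) (nat_lit 479) (nat_lit 5) (nat_lit 499) (nat_lit 5) (nat_lit 423) (nat_lit 404) (nat_lit 313)) (XT.lf (nat_lit 76) (nat_lit 6143218448) (nat_lit 0) (nat_lit 898173883) (nat_lit 1520) (nat_lit 1712959546) (nat_lit 480) (nat_lit 5) (nat_lit 479) (nat_lit 5) (nat_lit 499) (nat_lit 5)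 (nat_lit 424) (nat_lit 404) (nat_lit 312)))))) (XT.nd (nat_lit 390) (nat_lit 5092) (nat_lit 0) (XT.nd (nat_lit 156) (nat_lit 1444) (nat_lit 0) (XT.nd (nat_lit 78) (nat_lit 1520) (nat_lit 0) (XT.lf (nat_lit 76) (nat_lit 2000408004) (nat_lit 0) (nat_lit 6567038806) (nat_lit 1520) (nat_lit 262143660) (nat_lit 481) (nat_lit 5) (nat_lit 480) (nat_lit 5) (nat_lit 500) (nat_lit 5) (nat_lit 425) (nat_lit 404) (nat_lit 311)) (XT.lf (nat_lit 0) (nat_lit 1199505237) (nat_lit 1520) (nat_lit 2200538609) (nat_lit 1596) (nat_lit 5506190128) (nat_lit 460) (nat_lit 5) (nat_lit 480) (nat_lit 5) (nat_lit 481) (nat_lit 5) (nat_lit 426) (nat_lit 404) (nat_lit 310))) (XT.nd (nat_lit 78) (nat_lit 1444) (nat_lit 0) (XT.lf (nat_lit 76) (nat_lit 2532390292) (nat_lit 0) (nat_lit 145638433) (nat_lit 1596) (nat_lit 6306537655) (nat_lit 461) (nat_lit 5) (nat_lit 460) (nat_lit 5) (nat_lit 481) (nat_lit 5) (nat_lit 427) (nat_lit 404) (nat_lit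 309)) (XT.nd (nat_lit 78) (nat_lit 1520) (nat_lit 0) (XT.lf (nat_lit 0) (nat_lit 4196703320) (nat_lit 1520) (nat_lit 1715248825) (nat_lit 76) (nat_lit 3152315129) (nat_lit 461) (nat_lit 5) (nat_lit 481) (nat_lit 5) (nat_lit 462) (nat_lit 5) (nat_lit 428) (nat_lit 404) (nat_lit 308)) (XT.lf (nat_lit 0) (nat_lit 3136807171) (nat_lit 1520) (nat_lit 2605872313) (nat_lit 1596) (nat_lit 3402957330) (nat_lit 441) (nat_lit 5) (nat_lit 461) (nat_lit 5) (nat_lit 462) (nat_lit 5) (nat_lit 429) (nat_lit 404) (nat_lit 307))))) (XT.nd (nat_lit 234) (nat_lit 3420) (nat_lit 0) (XT.nd (nat_lit 78) (nat_lit 1672) (nat_lit 0) (XT.lf (nat_lit 0) (nat_lit 7312113906) (nat_lit 1596) (nat_lit 1144477805) (nat_lit 76) (nat_lit 772204189) (nat_lit 441) (nat_lit 5) (nat_lit 462) (nat_lit 5) (nat_lit 442) (nat_lit 5) (nat_lit 430) (nat_lit 404) (nat_lit 306)) (XT.nd (nat_lit 78) (nat_lit 76) (nat_lit 0) (XT.lf (nat_lit 0) (nat_lit 3830357644)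 (nat_lit 1596) (nat_lit 5101153841) (nat_lit 1672) (nat_lit 381747872) (nat_lit 420) (nat_lit 5) (nat_lit 441) (nat_lit 5) (nat_lit 442) (nat_lit 5) (nat_lit 431) (nat_lit 404) (nat_lit 305)) (XT.lf (nat_lit 0) (nat_lit 1152704979) (nat_lit 1672) (nat_lit 506767032) (nat_lit 76) (nat_lit 7740111587) (nat_lit 419) (nat_lit 5) (nat_lit 441) (nat_lit 5) (nat_lit 420) (nat_lit 5) (nat_lit 432) (nat_lit 404) (nat_lit 304)))) (XT.nd (nat_lit 78) (nat_lit 1748) (nat_lit 0) (XT.lf (nat_lit 0) (nat_lit 2731982341) (nat_lit 1748) (nat_lit 4892507154) (nat_lit 76) (nat_lit 1862721367) (nat_lit 397) (nat_lit 5) (nat_lit 420) (nat_lit 5) (nat_lit 398) (nat_lit 5) (nat_lit 433) (nat_lit 404) (nat_lit 303)) (XT.nd (nat_lit 78) (nat_lit 0) (nat_lit 0) (XT.lf (nat_lit 0) (nat_lit 200225836) (nat_lit 1748) (nat_lit 4135750649) (nat_lit 1824) (nat_lit 5240763271) (nat_lit 374) (nat_lit 5) (nat_lit 397) (nat_lit 5) (nat_lit 398)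 (nat_lit 5) (nat_lit 434) (nat_lit 404) (nat_lit 302)) (XT.lf (nat_lit 0) (nat_lit 5441325556) (nat_lit 1748) (nat_lit 541288598) (nat_lit 1824) (nat_lit 3685245287) (nat_lit 374) (nat_lit 5) (nat_lit 397) (nat_lit 5) (nat_lit 398) (nat_lit 5) (nat_lit 435) (nat_lit 404) (nat_lit 301))))))))
noncomputable def xc161 : XT := (XT.nd (nat_lit 1638) (nat_lit 6308) (nat_lit 0) (XT.nd (nat_lit 780) (nat_lit 4408) (nat_lit 0) (XT.nd (nat_lit 390) (nat_lit 2432) (nat_lit 0) (XT.nd (nat_lit 156) (nat_lit 1824) (nat_lit 0) (XT.nd (nat_lit 78) (nat_lit 0) (nat_lit 0) (XT.lf (nat_lit 0) (nat_lit 999380509) (nat_lit 988) (nat_lit 6667767310) (nat_lit 1064) (nat_lit 2093565689) (nat_lit 361) (nat_lit 5) (nat_lit 374) (nat_lit 5) (nat_lit 375) (nat_lit 5) (nat_lit 436) (nat_lit 404) (nat_lit 300)) (XT.lf (nat_lit 0) (nat_lit 6363721127) (nat_lit 988) (nat_lit 3032058545) (nat_lit 1064) (nat_lit 459447873) (nat_lit 361) (nat_lit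 5) (nat_lit 374) (nat_lit 5) (nat_lit 375) (nat_lit 5) (nat_lit 437) (nat_lit 404) (nat_lit 299))) (XT.nd (nat_lit 78) (nat_lit 836) (nat_lit 0) (XT.lf (nat_lit 0) (nat_lit 1187019776) (nat_lit 988) (nat_lit 8075312042) (nat_lit 76) (nat_lit 689243830) (nat_lit 348) (nat_lit 5) (nat_lit 361) (nat_lit 5) (nat_lit 349) (nat_lit 5) (nat_lit 438) (nat_lit 404) (nat_lit 298)) (XT.nd (nat_lit 78) (nat_lit 836) (nat_lit 0) (XT.lf (nat_lit 0) (nat_lit 2882990066) (nat_lit 988) (nat_lit 2693909114) (nat_lit 76) (nat_lit 4472446689) (nat_lit 348) (nat_lit 5) (nat_lit 361) (nat_lit 5) (nat_lit 349) (nat_lit 5) (nat_lit 439) (nat_lit 404) (nat_lit 297)) (XT.lf (nat_lit 0) (nat_lit 2812432337) (nat_lit 836) (nat_lit 1798172969) (nat_lit 912) (nat_lit 5538521873) (nat_lit 337) (nat_lit 5) (nat_lit 348) (nat_lit 5) (nat_lit 349) (nat_lit 5) (nat_lit 440) (nat_lit 404) (nat_lit 296))))) (XT.nd (nat_lit 156) (nat_lit 1596) (nat_lit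 0) (XT.nd (nat_lit 78) (nat_lit 836) (nat_lit 0) (XT.lf (nat_lit 0) (nat_lit 6384066883) (nat_lit 912) (nat_lit 1818461505) (nat_lit 76) (nat_lit 2048159841) (nat_lit 337) (nat_lit 5) (nat_lit 349) (nat_lit 5) (nat_lit 338) (nat_lit 5) (nat_lit 441) (nat_lit 404) (nat_lit 295)) (XT.lf (nat_lit 0) (nat_lit 3828968481) (nat_lit 836) (nat_lit 4380941982) (nat_lit 912) (nat_lit 2144041583) (nat_lit 326) (nat_lit 5) (nat_lit 337) (nat_lit 5) (nat_lit 338) (nat_lit 5) (nat_lit 442) (nat_lit 404) (nat_lit 294))) (XT.nd (nat_lit 78) (nat_lit 1596) (nat_lit 0) (XT.lf (nat_lit 0) (nat_lit 9594647735) (nat_lit 836) (nat_lit 470233856) (nat_lit 912) (nat_lit 394556943) (nat_lit 326) (nat_lit 5) (nat_lit 337) (nat_lit 5) (nat_lit 338) (nat_lit 5) (nat_lit 443) (nat_lit 404) (nat_lit 293)) (XT.nd (nat_lit 78) (nat_lit 760) (nat_lit 0) (XT.lf (nat_lit 0) (nat_lit 1407570170) (nat_lit 836) (nat_lit 5644524195) (nat_lit 76)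 (nat_lit 3514051498) (nat_lit 315) (nat_lit 5) (nat_lit 326) (nat_lit 5) (nat_lit 316) (nat_lit 5) (nat_lit 444) (nat_lit 404) (nat_lit 292)) (XT.lf (nat_lit 0) (nat_lit 137146623) (nat_lit 760) (nat_lit 3094071839) (nat_lit 836) (nat_lit 7443910537) (nat_lit 305) (nat_lit 5) (nat_lit 315) (nat_lit 5) (nat_lit 316) (nat_lit 5) (nat_lit 445) (nat_lit 404) (nat_lit 291)))))) (XT.nd (nat_lit 390) (nat_lit 2812) (nat_lit 0) (XT.nd (nat_lit 156) (nat_lit 836) (nat_lit 0) (XT.nd (nat_lit 78) (nat_lit 760) (nat_lit 0) (XT.lf (nat_lit 0) (nat_lit 5116747279) (nat_lit 836) (nat_lit 4700698611) (nat_lit 76) (nat_lit 968346632) (nat_lit 305) (nat_lit 5) (nat_lit 316) (nat_lit 5) (nat_lit 306) (nat_lit 5) (nat_lit 446) (nat_lit 404) (nat_lit 290)) (XT.lf (nat_lit 0) (nat_lit 1229599959) (nat_lit 760) (nat_lit 5820385812) (nat_lit 836) (nat_lit 3848492264) (nat_lit 295) (nat_lit 5) (nat_lit 305) (nat_lit 5) (nat_lit 306)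 (nat_lit 5) (nat_lit 447) (nat_lit 404) (nat_lit 289))) (XT.nd (nat_lit 78) (nat_lit 836) (nat_lit 0) (XT.lf (nat_lit 0) (nat_lit 7322984367) (nat_lit 760) (nat_lit 1712211343) (nat_lit 836) (nat_lit 1977963945) (nat_lit 295) (nat_lit 5) (nat_lit 305) (nat_lit 5) (nat_lit 306) (nat_lit 5) (nat_lit 448) (nat_lit 404) (nat_lit 288)) (XT.nd (nat_lit 78) (nat_lit 76) (nat_lit 0) (XT.lf (nat_lit 0) (nat_lit 2404323362) (nat_lit 760) (nat_lit 8669600326) (nat_lit 836) (nat_lit 55943308) (nat_lit 285) (nat_lit 5) (nat_lit 295) (nat_lit 5) (nat_lit 296) (nat_lit 5) (nat_lit 449) (nat_lit 404) (nat_lit 287)) (XT.lf (nat_lit 0) (nat_lit 1898021234) (nat_lit 836) (nat_lit 2620888085) (nat_lit 76) (nat_lit 6729390265) (nat_lit 284) (nat_lit 5) (nat_lit 295) (nat_lit 5) (nat_lit 285) (nat_lit 5) (nat_lit 450) (nat_lit 404) (nat_lit 286))))) (XT.nd (nat_lit 234) (nat_lit 1444) (nat_lit 0) (XT.nd (nat_lit 78) (nat_lit 684)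 (nat_lit 0) (XT.lf (nat_lit 0) (nat_lit 3634192777) (nat_lit 684) (nat_lit 262283641) (nat_lit 760) (nat_lit 7472501682) (nat_lit 275) (nat_lit 5) (nat_lit 284) (nat_lit 5) (nat_lit 285) (nat_lit 5) (nat_lit 451) (nat_lit 404) (nat_lit 285)) (XT.nd (nat_lit 78) (nat_lit 684) (nat_lit 0) (XT.lf (nat_lit 0) (nat_lit 5961864589) (nat_lit 760) (nat_lit 1487596682) (nat_lit 76) (nat_lit 4042077366) (nat_lit 275) (nat_lit 5) (nat_lit 285) (nat_lit 5) (nat_lit 276) (nat_lit 5) (nat_lit 452) (nat_lit 404) (nat_lit 284)) (XT.lf (nat_lit 0) (nat_lit 4928637542) (nat_lit 684) (nat_lit 3156770935) (nat_lit 760) (nat_lit 3530812523) (nat_lit 266) (nat_lit 5) (nat_lit 275) (nat_lit 5) (nat_lit 276) (nat_lit 5) (nat_lit 453) (nat_lit 404) (nat_lit 283)))) (XT.nd (nat_lit 78) (nat_lit 1444) (nat_lit 0) (XT.lf (nat_lit 0) (nat_lit 10252712383) (nat_lit 760) (nat_lit 276840337) (nat_lit 76) (nat_lit 1213825935) (nat_lit 266)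 (nat_lit 5) (nat_lit 276) (nat_lit 5) (nat_lit 267) (nat_lit 5) (nat_lit 454) (nat_lit 404) (nat_lit 282)) (XT.nd (nat_lit 78) (nat_lit 684) (nat_lit 0) (XT.lf (nat_lit 0) (nat_lit 628314228) (nat_lit 760) (nat_lit 5571036998) (nat_lit 76) (nat_lit 5672743266) (nat_lit 256) (nat_lit 5) (nat_lit 266) (nat_lit 5) (nat_lit 257) (nat_lit 5) (nat_lit 455) (nat_lit 404) (nat_lit 281)) (XT.lf (nat_lit 0) (nat_lit 995354822) (nat_lit 684) (nat_lit 1766432516) (nat_lit 760) (nat_lit 9241565780) (nat_lit 247) (nat_lit 5) (nat_lit 256) (nat_lit 5) (nat_lit 257) (nat_lit 5) (nat_lit 456) (nat_lit 404) (nat_lit 280))))))) (XT.nd (nat_lit 780) (nat_lit 3192) (nat_lit 0) (XT.nd (nat_lit 390) (nat_lit 1824) (nat_lit 0) (XT.nd (nat_lit 156) (nat_lit 684) (nat_lit 0) (XT.nd (nat_lit 78) (nat_lit 608) (nat_lit 0) (XT.lf (nat_lit 0) (nat_lit 4977354038) (nat_lit 760) (nat_lit 4404956068) (nat_lit 76) (nat_lit 2754145189) (nat_lit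 247) (nat_lit 5) (nat_lit 257) (nat_lit 5) (nat_lit 248) (nat_lit 5) (nat_lit 457) (nat_lit 404) (nat_lit 279)) (XT.lf (nat_lit 0) (nat_lit 2330461841) (nat_lit 608) (nat_lit 4917818706) (nat_lit 684) (nat_lit 5023724727) (nat_lit 239) (nat_lit 5) (nat_lit 247) (nat_lit 5) (nat_lit 248) (nat_lit 5) (nat_lit 458) (nat_lit 404) (nat_lit 278))) (XT.nd (nat_lit 78) (nat_lit 684) (nat_lit 0) (XT.lf (nat_lit 0) (nat_lit 9241869136) (nat_lit 608) (nat_lit 336725138) (nat_lit 684) (nat_lit 2831399199) (nat_lit 239) (nat_lit 5) (nat_lit 247) (nat_lit 5) (nat_lit 248) (nat_lit 5) (nat_lit 459) (nat_lit 404) (nat_lit 277)) (XT.nd (nat_lit 78) (nat_lit 76) (nat_lit 0) (XT.lf (nat_lit 0) (nat_lit 3743343583) (nat_lit 608) (nat_lit 8249323835) (nat_lit 684) (nat_lit 557337421) (nat_lit 231) (nat_lit 5) (nat_lit 239) (nat_lit 5) (nat_lit 240) (nat_lit 5) (nat_lit 460) (nat_lit 404) (nat_lit 276)) (XT.lf (nat_lit 0) (nat_lit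 1747496472) (nat_lit 684) (nat_lit 1888667622) (nat_lit 76) (nat_lit 9056261675) (nat_lit 230) (nat_lit 5) (nat_lit 239) (nat_lit 5) (nat_lit 231) (nat_lit 5) (nat_lit 461) (nat_lit 404) (nat_lit 275))))) (XT.nd (nat_lit 156) (nat_lit 1216) (nat_lit 0) (XT.nd (nat_lit 78) (nat_lit 0) (nat_lit 0) (XT.lf (nat_lit 0) (nat_lit 4117066965) (nat_lit 684) (nat_lit 7630126139) (nat_lit 76) (nat_lit 1089912372) (nat_lit 222) (nat_lit 5) (nat_lit 231) (nat_lit 5) (nat_lit 223) (nat_lit 5) (nat_lit 462) (nat_lit 404) (nat_lit 274)) (XT.lf (nat_lit 0) (nat_lit 6556093069) (nat_lit 684) (nat_lit 556698404) (nat_lit 76) (nat_lit 5871451994) (nat_lit 222) (nat_lit 5) (nat_lit 231) (nat_lit 5) (nat_lit 223) (nat_lit 5) (nat_lit 463) (nat_lit 404) (nat_lit 273))) (XT.nd (nat_lit 78) (nat_lit 608) (nat_lit 0) (XT.lf (nat_lit 0) (nat_lit 6728552653) (nat_lit 608) (nat_lit 2344548717) (nat_lit 684) (nat_lit 4060644671) (nat_lit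 214) (nat_lit 5) (nat_lit 222) (nat_lit 5) (nat_lit 223) (nat_lit 5) (nat_lit 464) (nat_lit 404) (nat_lit 272)) (XT.nd (nat_lit 78) (nat_lit 76) (nat_lit 0) (XT.lf (nat_lit 0) (nat_lit 857716625) (nat_lit 532) (nat_lit 10794079566) (nat_lit 608) (nat_lit 1634221288) (nat_lit 207) (nat_lit 5) (nat_lit 214) (nat_lit 5) (nat_lit 215) (nat_lit 5) (nat_lit 465) (nat_lit 404) (nat_lit 271)) (XT.lf (nat_lit 0) (nat_lit 874224866) (nat_lit 608) (nat_lit 5127155634) (nat_lit 76) (nat_lit 7438959781) (nat_lit 206) (nat_lit 5) (nat_lit 214) (nat_lit 5) (nat_lit 207) (nat_lit 5) (nat_lit 466) (nat_lit 404) (nat_lit 270)))))) (XT.nd (nat_lit 390) (nat_lit 1520) (nat_lit 0) (XT.nd (nat_lit 156) (nat_lit 1140) (nat_lit 0) (XT.nd (nat_lit 78) (nat_lit 0) (nat_lit 0) (XT.lf (nat_lit 0) (nat_lit 2321877152) (nat_lit 532) (nat_lit 1090183010) (nat_lit 608) (nat_lit 10185456694) (nat_lit 199) (nat_lit 5) (nat_lit 206) (nat_lit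 5) (nat_lit 207) (nat_lit 5) (nat_lit 467) (nat_lit 404) (nat_lit 269)) (XT.lf (nat_lit 0) (nat_lit 6046874078) (nat_lit 608) (nat_lit 3811337309) (nat_lit 76) (nat_lit 3898706442) (nat_lit 199) (nat_lit 5) (nat_lit 207) (nat_lit 5) (nat_lit 200) (nat_lit 5) (nat_lit 468) (nat_lit 404) (nat_lit 268))) (XT.nd (nat_lit 78) (nat_lit 608) (nat_lit 0) (XT.lf (nat_lit 0) (nat_lit 3827678291) (nat_lit 532) (nat_lit 4925191141) (nat_lit 608) (nat_lit 5166272886) (nat_lit 192) (nat_lit 5) (nat_lit 199) (nat_lit 5) (nat_lit 200) (nat_lit 5) (nat_lit 469) (nat_lit 404) (nat_lit 267)) (XT.nd (nat_lit 78) (nat_lit 608) (nat_lit 0) (XT.lf (nat_lit 0) (nat_lit 11525962307) (nat_lit 608) (nat_lit 2431508722) (nat_lit 76) (nat_lit 126885814) (nat_lit 192) (nat_lit 5) (nat_lit 200) (nat_lit 5) (nat_lit 193) (nat_lit 5) (nat_lit 470) (nat_lit 404) (nat_lit 266)) (XT.lf (nat_lit 0) (nat_lit 155163044) (nat_lit 608) (nat_lit 8850266886)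 (nat_lit 76) (nat_lit 5246340336) (nat_lit 184) (nat_lit 5) (nat_lit 192) (nat_lit 5) (nat_lit 185) (nat_lit 5) (nat_lit 471) (nat_lit 404) (nat_lit 265))))) (XT.nd (nat_lit 234) (nat_lit 532) (nat_lit 0) (XT.nd (nat_lit 78) (nat_lit 988) (nat_lit 0) (XT.lf (nat_lit 0) (nat_lit 2892051966) (nat_lit 608) (nat_lit 1032525840) (nat_lit 76) (nat_lit 10497554395) (nat_lit 184) (nat_lit 5) (nat_lit 192) (nat_lit 5) (nat_lit 185) (nat_lit 5) (nat_lit 472) (nat_lit 404) (nat_lit 264)) (XT.nd (nat_lit 78) (nat_lit 532) (nat_lit 0) (XT.lf (nat_lit 0) (nat_lit 5724794191) (nat_lit 532) (nat_lit 7587164490) (nat_lit 76) (nat_lit 1283125090) (nat_lit 178) (nat_lit 5) (nat_lit 185) (nat_lit 5) (nat_lit 179) (nat_lit 5) (nat_lit 473) (nat_lit 404) (nat_lit 263)) (XT.lf (nat_lit 0) (nat_lit 414024044) (nat_lit 532) (nat_lit 8223053730) (nat_lit 608) (nat_lit 6133963489) (nat_lit 171) (nat_lit 5) (nat_lit 178) (nat_lit 5) (nat_lit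 179) (nat_lit 5) (nat_lit 474) (nat_lit 404) (nat_lit 262)))) (XT.nd (nat_lit 78) (nat_lit 532) (nat_lit 0) (XT.lf (nat_lit 0) (nat_lit 8661012255) (nat_lit 532) (nat_lit 2984881276) (nat_lit 608) (nat_lit 3303863168) (nat_lit 171) (nat_lit 5) (nat_lit 178) (nat_lit 5) (nat_lit 179) (nat_lit 5) (nat_lit 475) (nat_lit 404) (nat_lit 261)) (XT.nd (nat_lit 78) (nat_lit 76) (nat_lit 0) (XT.lf (nat_lit 0) (nat_lit 1933989192) (nat_lit 456) (nat_lit 12796355160) (nat_lit 532) (nat_lit 401397358) (nat_lit 165) (nat_lit 5) (nat_lit 171) (nat_lit 5) (nat_lit 172) (nat_lit 5) (nat_lit 476) (nat_lit 404) (nat_lit 260)) (XT.lf (nat_lit 0) (nat_lit 2575442445) (nat_lit 532) (nat_lit 4963777806) (nat_lit 76) (nat_lit 7776820366) (nat_lit 164) (nat_lit 5) (nat_lit 171) (nat_lit 5) (nat_lit 165) (nat_lit 5) (nat_lit 477) (nat_lit 404) (nat_lit 259))))))))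
noncomputable def xc162 : XT := (XT.nd (nat_lit 1560) (nat_lit 608) (nat_lit 0) (XT.nd (nat_lit 780) (nat_lit 1976) (nat_lit 0) (XT.nd (nat_lit 390) (nat_lit 1292) (nat_lit 0) (XT.nd (nat_lit 156) (nat_lit 988) (nat_lit 0) (XT.nd (nat_lit 78) (nat_lit 0) (nat_lit 0) (XT.lf (nat_lit 0) (nat_lit 3460926360) (nat_lit 456) (nat_lit 2155876255) (nat_lit 532) (nat_lit 9886966838) (nat_lit 158) (nat_lit 5) (nat_lit 164) (nat_lit 5) (nat_lit 165) (nat_lit 5) (nat_lit 478) (nat_lit 404) (nat_lit 258)) (XT.lf (nat_lit 0) (nat_lit 8762156903) (nat_lit 532) (nat_lit 3611838024) (nat_lit 76) (nat_lit 3320398701) (nat_lit 158) (nat_lit 5) (nat_lit 165) (nat_lit 5) (nat_lit 159) (nat_lit 5) (nat_lit 479) (nat_lit 404) (nat_lit 257))) (XT.nd (nat_lit 78) (nat_lit 532) (nat_lit 0) (XT.lf (nat_lit 0) (nat_lit 5022928813) (nat_lit 456) (nat_lit 6982597457) (nat_lit 532) (nat_lit 3882605877) (nat_lit 152) (nat_lit 5) (nat_lit 158)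 (nat_lit 5) (nat_lit 159) (nat_lit 5) (nat_lit 480) (nat_lit 404) (nat_lit 256)) (XT.nd (nat_lit 78) (nat_lit 532) (nat_lit 0) (XT.lf (nat_lit 0) (nat_lit 13863001054) (nat_lit 456) (nat_lit 1463342647) (nat_lit 532) (nat_lit 759154064) (nat_lit 152) (nat_lit 5) (nat_lit 158) (nat_lit 5) (nat_lit 159) (nat_lit 5) (nat_lit 481) (nat_lit 404) (nat_lit 255)) (XT.lf (nat_lit 0) (nat_lit 2454007191) (nat_lit 532) (nat_lit 9664960167) (nat_lit 76) (nat_lit 4166350642) (nat_lit 145) (nat_lit 5) (nat_lit 152) (nat_lit 5) (nat_lit 146) (nat_lit 5) (nat_lit 482) (nat_lit 404) (nat_lit 254))))) (XT.nd (nat_lit 156) (nat_lit 912) (nat_lit 0) (XT.nd (nat_lit 78) (nat_lit 380) (nat_lit 0) (XT.lf (nat_lit 0) (nat_lit 5734563186) (nat_lit 532) (nat_lit 849737632) (nat_lit 76) (nat_lit 9904471244) (nat_lit 145) (nat_lit 5) (nat_lit 152) (nat_lit 5) (nat_lit 146) (nat_lit 5) (nat_lit 483) (nat_lit 404) (nat_lit 253)) (XT.lf (nat_lit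 0) (nat_lit 8233816573) (nat_lit 380) (nat_lit 889180169) (nat_lit 456) (nat_lit 7572456776) (nat_lit 140) (nat_lit 5) (nat_lit 145) (nat_lit 5) (nat_lit 146) (nat_lit 5) (nat_lit 484) (nat_lit 404) (nat_lit 252))) (XT.nd (nat_lit 78) (nat_lit 456) (nat_lit 0) (XT.lf (nat_lit 0) (nat_lit 563769182) (nat_lit 456) (nat_lit 12045665520) (nat_lit 532) (nat_lit 4296232756) (nat_lit 134) (nat_lit 5) (nat_lit 140) (nat_lit 5) (nat_lit 141) (nat_lit 5) (nat_lit 485) (nat_lit 404) (nat_lit 251)) (XT.nd (nat_lit 78) (nat_lit 456) (nat_lit 0) (XT.lf (nat_lit 0) (nat_lit 9862472045) (nat_lit 456) (nat_lit 6354768091) (nat_lit 532) (nat_lit 901816265) (nat_lit 134) (nat_lit 5) (nat_lit 140) (nat_lit 5) (nat_lit 141) (nat_lit 5) (nat_lit 486) (nat_lit 404) (nat_lit 250)) (XT.lf (nat_lit 0) (nat_lit 2004319267) (nat_lit 380) (nat_lit 524748989) (nat_lit 456) (nat_lit 14807272524) (nat_lit 128) (nat_lit 5) (nat_lit 133) (nat_lit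 5) (nat_lit 134) (nat_lit 5) (nat_lit 487) (nat_lit 404) (nat_lit 249)))))) (XT.nd (nat_lit 390) (nat_lit 1140) (nat_lit 0) (XT.nd (nat_lit 156) (nat_lit 456) (nat_lit 0) (XT.nd (nat_lit 78) (nat_lit 380) (nat_lit 0) (XT.lf (nat_lit 0) (nat_lit 6089953387) (nat_lit 456) (nat_lit 6065549693) (nat_lit 76) (nat_lit 5400882680) (nat_lit 128) (nat_lit 5) (nat_lit 134) (nat_lit 5) (nat_lit 129) (nat_lit 5) (nat_lit 488) (nat_lit 404) (nat_lit 248)) (XT.lf (nat_lit 0) (nat_lit 3411974605) (nat_lit 380) (nat_lit 6325147402) (nat_lit 456) (nat_lit 8043411549) (nat_lit 123) (nat_lit 5) (nat_lit 128) (nat_lit 5) (nat_lit 129) (nat_lit 5) (nat_lit 489) (nat_lit 404) (nat_lit 247))) (XT.nd (nat_lit 78) (nat_lit 456) (nat_lit 0) (XT.lf (nat_lit 0) (nat_lit 13145821356) (nat_lit 380) (nat_lit 341660303) (nat_lit 456) (nat_lit 4521080866) (nat_lit 123) (nat_lit 5) (nat_lit 128) (nat_lit 5) (nat_lit 129) (nat_lit 5) (nat_lit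 490) (nat_lit 404) (nat_lit 246)) (XT.nd (nat_lit 78) (nat_lit 76) (nat_lit 0) (XT.lf (nat_lit 0) (nat_lit 4843993775) (nat_lit 380) (nat_lit 12527430460) (nat_lit 456) (nat_lit 868559431) (nat_lit 118) (nat_lit 5) (nat_lit 123) (nat_lit 5) (nat_lit 124) (nat_lit 5) (nat_lit 491) (nat_lit 404) (nat_lit 245)) (XT.lf (nat_lit 0) (nat_lit 2844402729) (nat_lit 456) (nat_lit 3700989802) (nat_lit 76) (nat_lit 11929775482) (nat_lit 117) (nat_lit 5) (nat_lit 123) (nat_lit 5) (nat_lit 118) (nat_lit 5) (nat_lit 492) (nat_lit 404) (nat_lit 244))))) (XT.nd (nat_lit 156) (nat_lit 760) (nat_lit 0) (XT.nd (nat_lit 78) (nat_lit 0) (nat_lit 0) (XT.lf (nat_lit 0) (nat_lit 6249056934) (nat_lit 380) (nat_lit 401472280) (nat_lit 456) (nat_lit 12063804237) (nat_lit 112) (nat_lit 5) (nat_lit 117) (nat_lit 5) (nat_lit 118) (nat_lit 5) (nat_lit 493) (nat_lit 404) (nat_lit 243)) (XT.lf (nat_lit 0) (nat_lit 10585878454) (nat_lit 456)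 (nat_lit 2562888106) (nat_lit 76) (nat_lit 5808456504) (nat_lit 112) (nat_lit 5) (nat_lit 118) (nat_lit 5) (nat_lit 113) (nat_lit 5) (nat_lit 494) (nat_lit 404) (nat_lit 242))) (XT.nd (nat_lit 78) (nat_lit 456) (nat_lit 0) (XT.lf (nat_lit 0) (nat_lit 7619994510) (nat_lit 304) (nat_lit 7022287269) (nat_lit 380) (nat_lit 4561844562) (nat_lit 108) (nat_lit 5) (nat_lit 112) (nat_lit 5) (nat_lit 113) (nat_lit 5) (nat_lit 495) (nat_lit 404) (nat_lit 241)) (XT.nd (nat_lit 78) (nat_lit 456) (nat_lit 0) (XT.lf (nat_lit 0) (nat_lit 18026540578) (nat_lit 304) (nat_lit 760781414) (nat_lit 380) (nat_lit 668498275) (nat_lit 108) (nat_lit 5) (nat_lit 112) (nat_lit 5) (nat_lit 113) (nat_lit 5) (nat_lit 496) (nat_lit 404) (nat_lit 240)) (XT.lf (nat_lit 0) (nat_lit 3345362772) (nat_lit 456) (nat_lit 10737338375) (nat_lit 76) (nat_lit 5627701438) (nat_lit 102) (nat_lit 5) (nat_lit 108) (nat_lit 5) (nat_lit 103) (nat_lit 5) (nat_lit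 497) (nat_lit 404) (nat_lit 239))))))) (XT.nd (nat_lit 52572) (nat_lit 0) (nat_lit 29108) (XT.nd (nat_lit 52182) (nat_lit 0) (nat_lit 31616) (XT.nd (nat_lit 156) (nat_lit 304) (nat_lit 0) (XT.nd (nat_lit 78) (nat_lit 304) (nat_lit 0) (XT.lf (nat_lit 0) (nat_lit 7435747166) (nat_lit 456) (nat_lit 391223714) (nat_lit 76) (nat_lit 12142915947) (nat_lit 102) (nat_lit 5) (nat_lit 108) (nat_lit 5) (nat_lit 103) (nat_lit 5) (nat_lit 498) (nat_lit 404) (nat_lit 238)) (XT.lf (nat_lit 0) (nat_lit 10282315405) (nat_lit 304) (nat_lit 1383065734) (nat_lit 380) (nat_lit 8568033327) (nat_lit 98) (nat_lit 5) (nat_lit 102) (nat_lit 5) (nat_lit 103) (nat_lit 5) (nat_lit 499) (nat_lit 404) (nat_lit 237))) (XT.nd (nat_lit 78) (nat_lit 0) (nat_lit 0) (XT.lf (nat_lit 0) (nat_lit 632640799) (nat_lit 304) (nat_lit 15378152057) (nat_lit 380) (nat_lit 4490798598) (nat_lit 94) (nat_lit 5) (nat_lit 98) (nat_lit 5) (nat_lit 99) (nat_lit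 5) (nat_lit 500) (nat_lit 404) (nat_lit 236)) (XT.nd (nat_lit 51870) (nat_lit 0) (nat_lit 32908) (XT.lf (nat_lit 0) (nat_lit 11539346725) (nat_lit 304) (nat_lit 8970470678) (nat_lit 380) (nat_lit 263982940) (nat_lit 94) (nat_lit 5) (nat_lit 98) (nat_lit 5) (nat_lit 99) (nat_lit 5) (nat_lit 501) (nat_lit 404) (nat_lit 235)) (XT.lf (nat_lit 0) (nat_lit 2757079740) (nat_lit 1292) (nat_lit 533424034) (nat_lit 1292) (nat_lit 533424034) (nat_lit 527) (nat_lit 3) (nat_lit 544) (nat_lit 3) (nat_lit 544) (nat_lit 5) (nat_lit 405) (nat_lit 405) (nat_lit 330))))) (XT.nd (nat_lit 156) (nat_lit 0) (nat_lit 76) (XT.nd (nat_lit 78) (nat_lit 1292) (nat_lit 0) (XT.lf (nat_lit 76) (nat_lit 2583287904) (nat_lit 0) (nat_lit 4328377599) (nat_lit 1292) (nat_lit 784996440) (nat_lit 528) (nat_lit 5) (nat_lit 527) (nat_lit 3) (nat_lit 544) (nat_lit 5) (nat_lit 406) (nat_lit 405) (nat_lit 329)) (XT.lf (nat_lit 0) (nat_lit 554997046)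 (nat_lit 1292) (nat_lit 1447763607) (nat_lit 1368) (nat_lit 5744186923) (nat_lit 510) (nat_lit 5) (nat_lit 527) (nat_lit 3) (nat_lit 528) (nat_lit 5) (nat_lit 407) (nat_lit 405) (nat_lit 328))) (XT.nd (nat_lit 78) (nat_lit 0) (nat_lit 0) (XT.lf (nat_lit 0) (nat_lit 1894395896) (nat_lit 1292) (nat_lit 5503190732) (nat_lit 1368) (nat_lit 400906982) (nat_lit 511) (nat_lit 5) (nat_lit 528) (nat_lit 5) (nat_lit 529) (nat_lit 5) (nat_lit 408) (nat_lit 405) (nat_lit 327)) (XT.nd (nat_lit 78) (nat_lit 0) (nat_lit 0) (XT.lf (nat_lit 0) (nat_lit 3249836757) (nat_lit 1292) (nat_lit 1750136591) (nat_lit 1368) (nat_lit 2851332528) (nat_lit 511) (nat_lit 5) (nat_lit 528) (nat_lit 5) (nat_lit 529) (nat_lit 5) (nat_lit 409) (nat_lit 405) (nat_lit 326)) (XT.lf (nat_lit 76) (nat_lit 2086929296) (nat_lit 0) (nat_lit 2525880518) (nat_lit 1368) (nat_lit 3292776096) (nat_lit 512) (nat_lit 5) (nat_lit 511) (nat_lit 5) (nat_lit 529)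 (nat_lit 5) (nat_lit 410) (nat_lit 405) (nat_lit 325)))))) (XT.nd (nat_lit 390) (nat_lit 1292) (nat_lit 0) (XT.nd (nat_lit 156) (nat_lit 1368) (nat_lit 0) (XT.nd (nat_lit 78) (nat_lit 0) (nat_lit 0) (XT.lf (nat_lit 0) (nat_lit 5982346682) (nat_lit 1292) (nat_lit 1955382344) (nat_lit 1368) (nat_lit 23656030) (nat_lit 512) (nat_lit 5) (nat_lit 529) (nat_lit 5) (nat_lit 530) (nat_lit 5) (nat_lit 411) (nat_lit 405) (nat_lit 324)) (XT.lf (nat_lit 76) (nat_lit 1975651590) (nat_lit 0) (nat_lit 5401312137) (nat_lit 1368) (nat_lit 641401884) (nat_lit 513) (nat_lit 5) (nat_lit 512) (nat_lit 5) (nat_lit 530) (nat_lit 5) (nat_lit 412) (nat_lit 405) (nat_lit 323))) (XT.nd (nat_lit 78) (nat_lit 0) (nat_lit 0) (XT.lf (nat_lit 0) (nat_lit 695126274) (nat_lit 1368) (nat_lit 2088196884) (nat_lit 1444) (nat_lit 5293454783) (nat_lit 494) (nat_lit 5) (nat_lit 512) (nat_lit 5) (nat_lit 513) (nat_lit 5) (nat_lit 413) (nat_lit 405)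 (nat_lit 322)) (XT.nd (nat_lit 78) (nat_lit 0) (nat_lit 76) (XT.lf (nat_lit 76) (nat_lit 1948080507) (nat_lit 0) (nat_lit 83404241) (nat_lit 1444) (nat_lit 6105173321) (nat_lit 495) (nat_lit 5) (nat_lit 494) (nat_lit 5) (nat_lit 513) (nat_lit 5) (nat_lit 414) (nat_lit 405) (nat_lit 321)) (XT.lf (nat_lit 0) (nat_lit 3395611476) (nat_lit 1368) (nat_lit 2140711922) (nat_lit 1444) (nat_lit 2661409331) (nat_lit 495) (nat_lit 5) (nat_lit 513) (nat_lit 5) (nat_lit 514) (nat_lit 5) (nat_lit 415) (nat_lit 405) (nat_lit 320))))) (XT.nd (nat_lit 234) (nat_lit 1368) (nat_lit 0) (XT.nd (nat_lit 78) (nat_lit 0) (nat_lit 76) (XT.lf (nat_lit 76) (nat_lit 1994884361) (nat_lit 0) (nat_lit 2775833618) (nat_lit 1444) (nat_lit 3489654361) (nat_lit 496) (nat_lit 5) (nat_lit 495) (nat_lit 5) (nat_lit 514) (nat_lit 5) (nat_lit 416) (nat_lit 405) (nat_lit 319)) (XT.nd (nat_lit 78) (nat_lit 0) (nat_lit 0) (XT.lf (nat_lit 0) (nat_lit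 6158770646) (nat_lit 1368) (nat_lit 2101507553) (nat_lit 1444) (nat_lit 64294726) (nat_lit 496) (nat_lit 5) (nat_lit 514) (nat_lit 5) (nat_lit 515) (nat_lit 5) (nat_lit 417) (nat_lit 405) (nat_lit 318)) (XT.lf (nat_lit 76) (nat_lit 2136382014) (nat_lit 0) (nat_lit 5441754947) (nat_lit 1444) (nat_lit 811866235) (nat_lit 497) (nat_lit 5) (nat_lit 496) (nat_lit 5) (nat_lit 515) (nat_lit 5) (nat_lit 418) (nat_lit 405) (nat_lit 317)))) (XT.nd (nat_lit 78) (nat_lit 0) (nat_lit 76) (XT.lf (nat_lit 0) (nat_lit 547415275) (nat_lit 1444) (nat_lit 1992008659) (nat_lit 1520) (nat_lit 5917545687) (nat_lit 477) (nat_lit 5) (nat_lit 496) (nat_lit 5) (nat_lit 497) (nat_lit 5) (nat_lit 419) (nat_lit 405) (nat_lit 316)) (XT.nd (nat_lit 78) (nat_lit 0) (nat_lit 0) (XT.lf (nat_lit 0) (nat_lit 1913376820) (nat_lit 1444) (nat_lit 6166830222) (nat_lit 1520) (nat_lit 445169460) (nat_lit 478) (nat_lit 5) (nat_lit 497) (nat_lit 5) (nat_lit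 498) (nat_lit 5) (nat_lit 420) (nat_lit 405) (nat_lit 315)) (XT.lf (nat_lit 0) (nat_lit 3309506494) (nat_lit 1444) (nat_lit 1808070685) (nat_lit 1520) (nat_lit 3477532817) (nat_lit 478) (nat_lit 5) (nat_lit 497) (nat_lit 5) (nat_lit 498) (nat_lit 5) (nat_lit 421) (nat_lit 405) (nat_lit 314))))))))
noncomputable def xc163 : XT := (XT.nd (nat_lit 1638) (nat_lit 8740) (nat_lit 0) (XT.nd (nat_lit 780) (nat_lit 6308) (nat_lit 0) (XT.nd (nat_lit 390) (nat_lit 2964) (nat_lit 0) (XT.nd (nat_lit 156) (nat_lit 1444) (nat_lit 0) (XT.nd (nat_lit 78) (nat_lit 0) (nat_lit 76) (XT.lf (nat_lit 76) (nat_lit 2653652334) (nat_lit 0) (nat_lit 2070249001) (nat_lit 1520) (nat_lit 3942545124) (nat_lit 479) (nat_lit 5) (nat_lit 478) (nat_lit 5) (nat_lit 498) (nat_lit 5) (nat_lit 422) (nat_lit 405) (nat_lit 313)) (XT.lf (nat_lit 0) (nat_lit 6159104225) (nat_lit 1444) (nat_lit 1536151732) (nat_lit 1520) (nat_lit 1044118144) (nat_lit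 479) (nat_lit 5) (nat_lit 498) (nat_lit 5) (nat_lit 499) (nat_lit 5) (nat_lit 423) (nat_lit 405) (nat_lit 312))) (XT.nd (nat_lit 78) (nat_lit 1520) (nat_lit 0) (XT.lf (nat_lit 76) (nat_lit 3037043117) (nat_lit 0) (nat_lit 4593482245) (nat_lit 1520) (nat_lit 1183099212) (nat_lit 480) (nat_lit 5) (nat_lit 479) (nat_lit 5) (nat_lit 499) (nat_lit 5) (nat_lit 424) (nat_lit 405) (nat_lit 311)) (XT.nd (nat_lit 78) (nat_lit 0) (nat_lit 76) (XT.lf (nat_lit 0) (nat_lit 223504650) (nat_lit 1520) (nat_lit 1187600210) (nat_lit 1596) (nat_lit 7478544490) (nat_lit 459) (nat_lit 5) (nat_lit 479) (nat_lit 5) (nat_lit 480) (nat_lit 5) (nat_lit 425) (nat_lit 405) (nat_lit 310)) (XT.lf (nat_lit 0) (nat_lit 1652167210) (nat_lit 1520) (nat_lit 5466817412) (nat_lit 1596) (nat_lit 1847871950) (nat_lit 460) (nat_lit 5) (nat_lit 480) (nat_lit 5) (nat_lit 481) (nat_lit 5) (nat_lit 426) (nat_lit 405) (nat_lit 309))))) (XT.nd (nat_lit 156)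 (nat_lit 3040) (nat_lit 0) (XT.nd (nat_lit 78) (nat_lit 0) (nat_lit 0) (XT.lf (nat_lit 0) (nat_lit 3101972716) (nat_lit 1520) (nat_lit 776693838) (nat_lit 1596) (nat_lit 5167103443) (nat_lit 460) (nat_lit 5) (nat_lit 480) (nat_lit 5) (nat_lit 481) (nat_lit 5) (nat_lit 427) (nat_lit 405) (nat_lit 308)) (XT.lf (nat_lit 76) (nat_lit 4041236696) (nat_lit 0) (nat_lit 541464681) (nat_lit 1596) (nat_lit 4543534963) (nat_lit 461) (nat_lit 5) (nat_lit 460) (nat_lit 5) (nat_lit 481) (nat_lit 5) (nat_lit 428) (nat_lit 405) (nat_lit 307))) (XT.nd (nat_lit 78) (nat_lit 3116) (nat_lit 0) (XT.lf (nat_lit 0) (nat_lit 6092952115) (nat_lit 1520) (nat_lit 280170448) (nat_lit 76) (nat_lit 2835204227) (nat_lit 461) (nat_lit 5) (nat_lit 481) (nat_lit 5) (nat_lit 462) (nat_lit 5) (nat_lit 429) (nat_lit 405) (nat_lit 306)) (XT.nd (nat_lit 78) (nat_lit 1596) (nat_lit 0) (XT.lf (nat_lit 0) (nat_lit 4659259672) (nat_lit 1520) (nat_lit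 2984529993) (nat_lit 1596) (nat_lit 1648074424) (nat_lit 441) (nat_lit 5) (nat_lit 461) (nat_lit 5) (nat_lit 462) (nat_lit 5) (nat_lit 430) (nat_lit 405) (nat_lit 305)) (XT.lf (nat_lit 0) (nat_lit 305782177) (nat_lit 1596) (nat_lit 8903712756) (nat_lit 1672) (nat_lit 167912612) (nat_lit 420) (nat_lit 5) (nat_lit 441) (nat_lit 5) (nat_lit 442) (nat_lit 5) (nat_lit 431) (nat_lit 405) (nat_lit 304)))))) (XT.nd (nat_lit 390) (nat_lit 2812) (nat_lit 0) (XT.nd (nat_lit 156) (nat_lit 1748) (nat_lit 0) (XT.nd (nat_lit 78) (nat_lit 1672) (nat_lit 0) (XT.lf (nat_lit 0) (nat_lit 1352386499) (nat_lit 1672) (nat_lit 4106573585) (nat_lit 76) (nat_lit 4004976833) (nat_lit 419) (nat_lit 5) (nat_lit 441) (nat_lit 5) (nat_lit 420) (nat_lit 5) (nat_lit 432) (nat_lit 405) (nat_lit 303)) (XT.lf (nat_lit 0) (nat_lit 949926705) (nat_lit 1672) (nat_lit 1934610226) (nat_lit 1748) (nat_lit 6667975587) (nat_lit 397) (nat_lit 5) (nat_lit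 419) (nat_lit 5) (nat_lit 420) (nat_lit 5) (nat_lit 433) (nat_lit 405) (nat_lit 302))) (XT.nd (nat_lit 78) (nat_lit 1748) (nat_lit 0) (XT.lf (nat_lit 0) (nat_lit 4463710375) (nat_lit 1748) (nat_lit 3509594968) (nat_lit 76) (nat_lit 1669238168) (nat_lit 397) (nat_lit 5) (nat_lit 420) (nat_lit 5) (nat_lit 398) (nat_lit 5) (nat_lit 434) (nat_lit 405) (nat_lit 301)) (XT.nd (nat_lit 78) (nat_lit 0) (nat_lit 0) (XT.lf (nat_lit 0) (nat_lit 1675250824) (nat_lit 1748) (nat_lit 4401200333) (nat_lit 1824) (nat_lit 3657895548) (nat_lit 374) (nat_lit 5) (nat_lit 397) (nat_lit 5) (nat_lit 398) (nat_lit 5) (nat_lit 435) (nat_lit 405) (nat_lit 300)) (XT.lf (nat_lit 0) (nat_lit 6992328999) (nat_lit 1748) (nat_lit 731266007) (nat_lit 1824) (nat_lit 2104359027) (nat_lit 374) (nat_lit 5) (nat_lit 397) (nat_lit 5) (nat_lit 398) (nat_lit 5) (nat_lit 436) (nat_lit 405) (nat_lit 299))))) (XT.nd (nat_lit 234) (nat_lit 836) (nat_lit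 0) (XT.nd (nat_lit 78) (nat_lit 988) (nat_lit 0) (XT.lf (nat_lit 0) (nat_lit 2486256327) (nat_lit 988) (nat_lit 6932155910) (nat_lit 1064) (nat_lit 504737481) (nat_lit 361) (nat_lit 5) (nat_lit 374) (nat_lit 5) (nat_lit 375) (nat_lit 5) (nat_lit 437) (nat_lit 405) (nat_lit 298)) (XT.nd (nat_lit 78) (nat_lit 912) (nat_lit 0) (XT.lf (nat_lit 0) (nat_lit 1115266880) (nat_lit 1064) (nat_lit 2098412781) (nat_lit 76) (nat_lit 6806370335) (nat_lit 360) (nat_lit 5) (nat_lit 374) (nat_lit 5) (nat_lit 361) (nat_lit 5) (nat_lit 438) (nat_lit 405) (nat_lit 297)) (XT.lf (nat_lit 0) (nat_lit 2766309397) (nat_lit 988) (nat_lit 6753956633) (nat_lit 76) (nat_lit 598457790) (nat_lit 348) (nat_lit 5) (nat_lit 361) (nat_lit 5) (nat_lit 349) (nat_lit 5) (nat_lit 439) (nat_lit 405) (nat_lit 296)))) (XT.nd (nat_lit 78) (nat_lit 836) (nat_lit 0) (XT.lf (nat_lit 0) (nat_lit 4465698128) (nat_lit 988) (nat_lit 1294001365) (nat_lit 76)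 (nat_lit 4459375116) (nat_lit 348) (nat_lit 5) (nat_lit 361) (nat_lit 5) (nat_lit 349) (nat_lit 5) (nat_lit 440) (nat_lit 405) (nat_lit 295)) (XT.nd (nat_lit 78) (nat_lit 0) (nat_lit 0) (XT.lf (nat_lit 0) (nat_lit 4312902533) (nat_lit 836) (nat_lit 1894437075) (nat_lit 912) (nat_lit 4113937304) (nat_lit 337) (nat_lit 5) (nat_lit 348) (nat_lit 5) (nat_lit 349) (nat_lit 5) (nat_lit 441) (nat_lit 405) (nat_lit 294)) (XT.lf (nat_lit 0) (nat_lit 7986386148) (nat_lit 912) (nat_lit 408315175) (nat_lit 76) (nat_lit 2030780103) (nat_lit 337) (nat_lit 5) (nat_lit 349) (nat_lit 5) (nat_lit 338) (nat_lit 5) (nat_lit 442) (nat_lit 405) (nat_lit 293))))))) (XT.nd (nat_lit 780) (nat_lit 4028) (nat_lit 0) (XT.nd (nat_lit 390) (nat_lit 2280) (nat_lit 0) (XT.nd (nat_lit 156) (nat_lit 760) (nat_lit 0) (XT.nd (nat_lit 78) (nat_lit 836) (nat_lit 0) (XT.lf (nat_lit 0) (nat_lit 5342546861) (nat_lit 836) (nat_lit 4486615220) (nat_lit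 912) (nat_lit 702054400) (nat_lit 326) (nat_lit 5) (nat_lit 337) (nat_lit 5) (nat_lit 338) (nat_lit 5) (nat_lit 443) (nat_lit 405) (nat_lit 292)) (XT.lf (nat_lit 0) (nat_lit 556424807) (nat_lit 760) (nat_lit 486678462) (nat_lit 836) (nat_lit 9596085000) (nat_lit 315) (nat_lit 5) (nat_lit 325) (nat_lit 5) (nat_lit 326) (nat_lit 5) (nat_lit 444) (nat_lit 405) (nat_lit 291))) (XT.nd (nat_lit 78) (nat_lit 760) (nat_lit 0) (XT.lf (nat_lit 0) (nat_lit 2853436376) (nat_lit 836) (nat_lit 4309195753) (nat_lit 76) (nat_lit 3585809973) (nat_lit 315) (nat_lit 5) (nat_lit 326) (nat_lit 5) (nat_lit 316) (nat_lit 5) (nat_lit 445) (nat_lit 405) (nat_lit 290)) (XT.nd (nat_lit 78) (nat_lit 0) (nat_lit 0) (XT.lf (nat_lit 0) (nat_lit 1578580725) (nat_lit 760) (nat_lit 3116519516) (nat_lit 836) (nat_lit 6164886991) (nat_lit 305) (nat_lit 5) (nat_lit 315) (nat_lit 5) (nat_lit 316) (nat_lit 5) (nat_lit 446) (nat_lit 405) (nat_lit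 289)) (XT.lf (nat_lit 0) (nat_lit 6591154225) (nat_lit 836) (nat_lit 3356399360) (nat_lit 76) (nat_lit 1025867073) (nat_lit 305) (nat_lit 5) (nat_lit 316) (nat_lit 5) (nat_lit 306) (nat_lit 5) (nat_lit 447) (nat_lit 405) (nat_lit 288))))) (XT.nd (nat_lit 156) (nat_lit 1520) (nat_lit 0) (XT.nd (nat_lit 78) (nat_lit 0) (nat_lit 0) (XT.lf (nat_lit 0) (nat_lit 2683042594) (nat_lit 760) (nat_lit 5862388566) (nat_lit 836) (nat_lit 2543293920) (nat_lit 295) (nat_lit 5) (nat_lit 305) (nat_lit 5) (nat_lit 306) (nat_lit 5) (nat_lit 448) (nat_lit 405) (nat_lit 287)) (XT.lf (nat_lit 0) (nat_lit 8870278011) (nat_lit 760) (nat_lit 1673509529) (nat_lit 836) (nat_lit 662456372) (nat_lit 295) (nat_lit 5) (nat_lit 305) (nat_lit 5) (nat_lit 306) (nat_lit 5) (nat_lit 449) (nat_lit 405) (nat_lit 286))) (XT.nd (nat_lit 78) (nat_lit 684) (nat_lit 0) (XT.lf (nat_lit 0) (nat_lit 1264495578) (nat_lit 836) (nat_lit 7463386531) (nat_lit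 76) (nat_lit 2597576393) (nat_lit 284) (nat_lit 5) (nat_lit 295) (nat_lit 5) (nat_lit 285) (nat_lit 5) (nat_lit 450) (nat_lit 405) (nat_lit 285)) (XT.nd (nat_lit 78) (nat_lit 684) (nat_lit 0) (XT.lf (nat_lit 0) (nat_lit 3230892807) (nat_lit 836) (nat_lit 1265171052) (nat_lit 76) (nat_lit 6950718143) (nat_lit 284) (nat_lit 5) (nat_lit 295) (nat_lit 5) (nat_lit 285) (nat_lit 5) (nat_lit 451) (nat_lit 405) (nat_lit 284)) (XT.lf (nat_lit 0) (nat_lit 5105747383) (nat_lit 684) (nat_lit 147261695) (nat_lit 760) (nat_lit 6317202649) (nat_lit 275) (nat_lit 5) (nat_lit 284) (nat_lit 5) (nat_lit 285) (nat_lit 5) (nat_lit 452) (nat_lit 405) (nat_lit 283)))))) (XT.nd (nat_lit 390) (nat_lit 1900) (nat_lit 0) (XT.nd (nat_lit 156) (nat_lit 1444) (nat_lit 0) (XT.nd (nat_lit 78) (nat_lit 684) (nat_lit 0) (XT.lf (nat_lit 0) (nat_lit 7335399908) (nat_lit 760) (nat_lit 121038980) (nat_lit 76) (nat_lit 4239281940) (nat_lit 275) (nat_lit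 5) (nat_lit 285) (nat_lit 5) (nat_lit 276) (nat_lit 5) (nat_lit 453) (nat_lit 405) (nat_lit 282)) (XT.lf (nat_lit 0) (nat_lit 6414333681) (nat_lit 684) (nat_lit 3071493040) (nat_lit 760) (nat_lit 2337392910) (nat_lit 266) (nat_lit 5) (nat_lit 275) (nat_lit 5) (nat_lit 276) (nat_lit 5) (nat_lit 454) (nat_lit 405) (nat_lit 281))) (XT.nd (nat_lit 78) (nat_lit 760) (nat_lit 0) (XT.lf (nat_lit 0) (nat_lit 1116069702) (nat_lit 684) (nat_lit 10564309538) (nat_lit 760) (nat_lit 272873964) (nat_lit 257) (nat_lit 5) (nat_lit 266) (nat_lit 5) (nat_lit 267) (nat_lit 5) (nat_lit 455) (nat_lit 405) (nat_lit 280)) (XT.nd (nat_lit 78) (nat_lit 684) (nat_lit 0) (XT.lf (nat_lit 0) (nat_lit 1849814934) (nat_lit 760) (nat_lit 4291166479) (nat_lit 76) (nat_lit 5943856508) (nat_lit 256) (nat_lit 5) (nat_lit 266) (nat_lit 5) (nat_lit 257) (nat_lit 5) (nat_lit 456) (nat_lit 405) (nat_lit 279)) (XT.lf (nat_lit 0) (nat_lit 2397399945)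 (nat_lit 684) (nat_lit 1613826721) (nat_lit 760) (nat_lit 8207799861) (nat_lit 247) (nat_lit 5) (nat_lit 256) (nat_lit 5) (nat_lit 257) (nat_lit 5) (nat_lit 457) (nat_lit 405) (nat_lit 278))))) (XT.nd (nat_lit 234) (nat_lit 1292) (nat_lit 0) (XT.nd (nat_lit 78) (nat_lit 608) (nat_lit 0) (XT.lf (nat_lit 0) (nat_lit 6248885213) (nat_lit 760) (nat_lit 3115298831) (nat_lit 76) (nat_lit 2991061085) (nat_lit 247) (nat_lit 5) (nat_lit 257) (nat_lit 5) (nat_lit 248) (nat_lit 5) (nat_lit 458) (nat_lit 405) (nat_lit 277)) (XT.nd (nat_lit 78) (nat_lit 0) (nat_lit 0) (XT.lf (nat_lit 0) (nat_lit 3745763250) (nat_lit 608) (nat_lit 4805373380) (nat_lit 684) (nat_lit 3942661146) (nat_lit 239) (nat_lit 5) (nat_lit 247) (nat_lit 5) (nat_lit 248) (nat_lit 5) (nat_lit 459) (nat_lit 405) (nat_lit 276)) (XT.lf (nat_lit 0) (nat_lit 10768561589) (nat_lit 608) (nat_lit 136791307) (nat_lit 684) (nat_lit 1729656521) (nat_lit 239) (nat_lit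 5) (nat_lit 247) (nat_lit 5) (nat_lit 248) (nat_lit 5) (nat_lit 460) (nat_lit 405) (nat_lit 275)))) (XT.nd (nat_lit 78) (nat_lit 608) (nat_lit 0) (XT.lf (nat_lit 0) (nat_lit 569913018) (nat_lit 684) (nat_lit 7608886869) (nat_lit 76) (nat_lit 4599198497) (nat_lit 230) (nat_lit 5) (nat_lit 239) (nat_lit 5) (nat_lit 231) (nat_lit 5) (nat_lit 461) (nat_lit 405) (nat_lit 274)) (XT.nd (nat_lit 78) (nat_lit 608) (nat_lit 0) (XT.lf (nat_lit 0) (nat_lit 2891212495) (nat_lit 684) (nat_lit 583091331) (nat_lit 76) (nat_lit 9449342642) (nat_lit 230) (nat_lit 5) (nat_lit 239) (nat_lit 5) (nat_lit 231) (nat_lit 5) (nat_lit 462) (nat_lit 405) (nat_lit 273)) (XT.lf (nat_lit 0) (nat_lit 5296649011) (nat_lit 684) (nat_lit 6427410009) (nat_lit 76) (nat_lit 1347400129) (nat_lit 222) (nat_lit 5) (nat_lit 231) (nat_lit 5) (nat_lit 223) (nat_lit 5) (nat_lit 463) (nat_lit 405) (nat_lit 272))))))))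
noncomputable def xc164 : XT := (XT.nd (nat_lit 1560) (nat_lit 3876) (nat_lit 0) (XT.nd (nat_lit 780) (nat_lit 2508) (nat_lit 0) (XT.nd (nat_lit 390) (nat_lit 1596) (nat_lit 0) (XT.nd (nat_lit 156) (nat_lit 1140) (nat_lit 0) (XT.nd (nat_lit 78) (nat_lit 0) (nat_lit 0) (XT.lf (nat_lit 0) (nat_lit 771023517) (nat_lit 608) (nat_lit 6996923593) (nat_lit 684) (nat_lit 5453931659) (nat_lit 214) (nat_lit 5) (nat_lit 222) (nat_lit 5) (nat_lit 223) (nat_lit 5) (nat_lit 464) (nat_lit 405) (nat_lit 271)) (XT.lf (nat_lit 0) (nat_lit 8183125747) (nat_lit 608) (nat_lit 2134641491) (nat_lit 684) (nat_lit 3056963250) (nat_lit 214) (nat_lit 5) (nat_lit 222) (nat_lit 5) (nat_lit 223) (nat_lit 5) (nat_lit 465) (nat_lit 405) (nat_lit 270))) (XT.nd (nat_lit 78) (nat_lit 608) (nat_lit 0) (XT.lf (nat_lit 0) (nat_lit 2206080212) (nat_lit 532) (nat_lit 10731386316) (nat_lit 608) (nat_lit 592800578) (nat_lit 207) (nat_lit 5) (nat_lit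 214) (nat_lit 5) (nat_lit 215) (nat_lit 5) (nat_lit 466) (nat_lit 405) (nat_lit 269)) (XT.nd (nat_lit 78) (nat_lit 532) (nat_lit 0) (XT.lf (nat_lit 0) (nat_lit 1930942750) (nat_lit 608) (nat_lit 3910378967) (nat_lit 76) (nat_lit 7846638900) (nat_lit 206) (nat_lit 5) (nat_lit 214) (nat_lit 5) (nat_lit 207) (nat_lit 5) (nat_lit 467) (nat_lit 405) (nat_lit 268)) (XT.lf (nat_lit 0) (nat_lit 3678954739) (nat_lit 532) (nat_lit 828712432) (nat_lit 608) (nat_lit 9340858782) (nat_lit 199) (nat_lit 5) (nat_lit 206) (nat_lit 5) (nat_lit 207) (nat_lit 5) (nat_lit 468) (nat_lit 405) (nat_lit 267))))) (XT.nd (nat_lit 156) (nat_lit 1064) (nat_lit 0) (XT.nd (nat_lit 78) (nat_lit 532) (nat_lit 0) (XT.lf (nat_lit 0) (nat_lit 7176836079) (nat_lit 608) (nat_lit 2583895350) (nat_lit 76) (nat_lit 4250758067) (nat_lit 199) (nat_lit 5) (nat_lit 207) (nat_lit 5) (nat_lit 200) (nat_lit 5) (nat_lit 469) (nat_lit 405) (nat_lit 266)) (XT.lf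 (nat_lit 0) (nat_lit 5199323794) (nat_lit 532) (nat_lit 4726251347) (nat_lit 608) (nat_lit 4251618430) (nat_lit 192) (nat_lit 5) (nat_lit 199) (nat_lit 5) (nat_lit 200) (nat_lit 5) (nat_lit 470) (nat_lit 405) (nat_lit 265))) (XT.nd (nat_lit 78) (nat_lit 1064) (nat_lit 0) (XT.lf (nat_lit 0) (nat_lit 12736461476) (nat_lit 608) (nat_lit 1192401319) (nat_lit 76) (nat_lit 417210383) (nat_lit 192) (nat_lit 5) (nat_lit 200) (nat_lit 5) (nat_lit 193) (nat_lit 5) (nat_lit 471) (nat_lit 405) (nat_lit 264)) (XT.nd (nat_lit 78) (nat_lit 456) (nat_lit 0) (XT.lf (nat_lit 0) (nat_lit 1134113614) (nat_lit 608) (nat_lit 7734681317) (nat_lit 76) (nat_lit 5648137005) (nat_lit 184) (nat_lit 5) (nat_lit 192) (nat_lit 5) (nat_lit 185) (nat_lit 5) (nat_lit 472) (nat_lit 405) (nat_lit 263)) (XT.lf (nat_lit 0) (nat_lit 216914502) (nat_lit 456) (nat_lit 3691099903) (nat_lit 532) (nat_lit 10783048218) (nat_lit 178) (nat_lit 5) (nat_lit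 184) (nat_lit 5) (nat_lit 185) (nat_lit 5) (nat_lit 473) (nat_lit 405) (nat_lit 262)))))) (XT.nd (nat_lit 390) (nat_lit 1444) (nat_lit 0) (XT.nd (nat_lit 156) (nat_lit 532) (nat_lit 0) (XT.nd (nat_lit 78) (nat_lit 532) (nat_lit 0) (XT.lf (nat_lit 0) (nat_lit 6787448498) (nat_lit 532) (nat_lit 6462764234) (nat_lit 76) (nat_lit 1617466613) (nat_lit 178) (nat_lit 5) (nat_lit 185) (nat_lit 5) (nat_lit 179) (nat_lit 5) (nat_lit 474) (nat_lit 405) (nat_lit 261)) (XT.lf (nat_lit 0) (nat_lit 1690052390) (nat_lit 532) (nat_lit 8057565081) (nat_lit 608) (nat_lit 5299752444) (nat_lit 171) (nat_lit 5) (nat_lit 178) (nat_lit 5) (nat_lit 179) (nat_lit 5) (nat_lit 475) (nat_lit 405) (nat_lit 260))) (XT.nd (nat_lit 78) (nat_lit 532) (nat_lit 0) (XT.lf (nat_lit 0) (nat_lit 10077122564) (nat_lit 532) (nat_lit 2721098781) (nat_lit 608) (nat_lit 2431812673) (nat_lit 171) (nat_lit 5) (nat_lit 178) (nat_lit 5) (nat_lit 179) (nat_lit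 5) (nat_lit 476) (nat_lit 405) (nat_lit 259)) (XT.nd (nat_lit 78) (nat_lit 0) (nat_lit 0) (XT.lf (nat_lit 0) (nat_lit 513865274) (nat_lit 532) (nat_lit 12195312406) (nat_lit 76) (nat_lit 2706576793) (nat_lit 164) (nat_lit 5) (nat_lit 171) (nat_lit 5) (nat_lit 165) (nat_lit 5) (nat_lit 477) (nat_lit 405) (nat_lit 258)) (XT.lf (nat_lit 0) (nat_lit 3526873738) (nat_lit 532) (nat_lit 3824095615) (nat_lit 76) (nat_lit 8253083020) (nat_lit 164) (nat_lit 5) (nat_lit 171) (nat_lit 5) (nat_lit 165) (nat_lit 5) (nat_lit 478) (nat_lit 405) (nat_lit 257))))) (XT.nd (nat_lit 156) (nat_lit 988) (nat_lit 0) (XT.nd (nat_lit 78) (nat_lit 0) (nat_lit 0) (XT.lf (nat_lit 0) (nat_lit 4760951596) (nat_lit 456) (nat_lit 1858455191) (nat_lit 532) (nat_lit 9176328176) (nat_lit 158) (nat_lit 5) (nat_lit 164) (nat_lit 5) (nat_lit 165) (nat_lit 5) (nat_lit 479) (nat_lit 405) (nat_lit 256)) (XT.lf (nat_lit 0) (nat_lit 9812379573) (nat_lit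 532) (nat_lit 2461814407) (nat_lit 76) (nat_lit 3716289385) (nat_lit 158) (nat_lit 5) (nat_lit 165) (nat_lit 5) (nat_lit 159) (nat_lit 5) (nat_lit 480) (nat_lit 405) (nat_lit 255))) (XT.nd (nat_lit 78) (nat_lit 532) (nat_lit 0) (XT.lf (nat_lit 0) (nat_lit 6337606579) (nat_lit 456) (nat_lit 6773736803) (nat_lit 532) (nat_lit 3076944585) (nat_lit 152) (nat_lit 5) (nat_lit 158) (nat_lit 5) (nat_lit 159) (nat_lit 5) (nat_lit 481) (nat_lit 405) (nat_lit 254)) (XT.nd (nat_lit 78) (nat_lit 456) (nat_lit 0) (XT.lf (nat_lit 0) (nat_lit 90454303) (nat_lit 532) (nat_lit 1059869177) (nat_lit 76) (nat_lit 15239610747) (nat_lit 151) (nat_lit 5) (nat_lit 158) (nat_lit 5) (nat_lit 152) (nat_lit 5) (nat_lit 482) (nat_lit 405) (nat_lit 253)) (XT.lf (nat_lit 0) (nat_lit 3350981566) (nat_lit 532) (nat_lit 8649191958) (nat_lit 76) (nat_lit 4593617142) (nat_lit 145) (nat_lit 5) (nat_lit 152) (nat_lit 5) (nat_lit 146) (nat_lit 5)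 (nat_lit 483) (nat_lit 405) (nat_lit 252))))))) (XT.nd (nat_lit 780) (nat_lit 1748) (nat_lit 0) (XT.nd (nat_lit 390) (nat_lit 836) (nat_lit 0) (XT.nd (nat_lit 156) (nat_lit 912) (nat_lit 0) (XT.nd (nat_lit 78) (nat_lit 0) (nat_lit 0) (XT.lf (nat_lit 0) (nat_lit 322862219) (nat_lit 380) (nat_lit 6359757320) (nat_lit 456) (nat_lit 10118990261) (nat_lit 140) (nat_lit 5) (nat_lit 145) (nat_lit 5) (nat_lit 146) (nat_lit 5) (nat_lit 484) (nat_lit 405) (nat_lit 251)) (XT.lf (nat_lit 0) (nat_lit 9576054691) (nat_lit 380) (nat_lit 552016963) (nat_lit 456) (nat_lit 6884573535) (nat_lit 140) (nat_lit 5) (nat_lit 145) (nat_lit 5) (nat_lit 146) (nat_lit 5) (nat_lit 485) (nat_lit 405) (nat_lit 250))) (XT.nd (nat_lit 78) (nat_lit 456) (nat_lit 0) (XT.lf (nat_lit 0) (nat_lit 1759177262) (nat_lit 456) (nat_lit 11918878943) (nat_lit 532) (nat_lit 3549136044) (nat_lit 134) (nat_lit 5) (nat_lit 140) (nat_lit 5) (nat_lit 141) (nat_lit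 5) (nat_lit 486) (nat_lit 405) (nat_lit 249)) (XT.nd (nat_lit 78) (nat_lit 456) (nat_lit 0) (XT.lf (nat_lit 0) (nat_lit 11220635894) (nat_lit 456) (nat_lit 6121373367) (nat_lit 532) (nat_lit 103164976) (nat_lit 134) (nat_lit 5) (nat_lit 140) (nat_lit 5) (nat_lit 141) (nat_lit 5) (nat_lit 487) (nat_lit 405) (nat_lit 248)) (XT.lf (nat_lit 0) (nat_lit 3208571170) (nat_lit 380) (nat_lit 168810133) (nat_lit 456) (nat_lit 14289486748) (nat_lit 128) (nat_lit 5) (nat_lit 133) (nat_lit 5) (nat_lit 134) (nat_lit 5) (nat_lit 488) (nat_lit 405) (nat_lit 247))))) (XT.nd (nat_lit 156) (nat_lit 456) (nat_lit 0) (XT.nd (nat_lit 78) (nat_lit 380) (nat_lit 0) (XT.lf (nat_lit 0) (nat_lit 6996174821) (nat_lit 456) (nat_lit 5031972519) (nat_lit 76) (nat_lit 5863437579) (nat_lit 128) (nat_lit 5) (nat_lit 134) (nat_lit 5) (nat_lit 129) (nat_lit 5) (nat_lit 489) (nat_lit 405) (nat_lit 246)) (XT.lf (nat_lit 0) (nat_lit 4627504315) (nat_lit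 380) (nat_lit 6080850636) (nat_lit 456) (nat_lit 7412024065) (nat_lit 123) (nat_lit 5) (nat_lit 128) (nat_lit 5) (nat_lit 129) (nat_lit 5) (nat_lit 490) (nat_lit 405) (nat_lit 245))) (XT.nd (nat_lit 78) (nat_lit 456) (nat_lit 0) (XT.lf (nat_lit 0) (nat_lit 14518594114) (nat_lit 456) (nat_lit 3819843194) (nat_lit 76) (nat_lit 14838427) (nat_lit 123) (nat_lit 5) (nat_lit 129) (nat_lit 5) (nat_lit 124) (nat_lit 5) (nat_lit 491) (nat_lit 405) (nat_lit 244)) (XT.nd (nat_lit 78) (nat_lit 76) (nat_lit 0) (XT.lf (nat_lit 0) (nat_lit 6071277680) (nat_lit 380) (nat_lit 12403566797) (nat_lit 456) (nat_lit 114592768) (nat_lit 118) (nat_lit 5) (nat_lit 123) (nat_lit 5) (nat_lit 124) (nat_lit 5) (nat_lit 492) (nat_lit 405) (nat_lit 243)) (XT.lf (nat_lit 0) (nat_lit 3647586487) (nat_lit 456) (nat_lit 2656635003) (nat_lit 76) (nat_lit 12525306496) (nat_lit 117) (nat_lit 5) (nat_lit 123) (nat_lit 5) (nat_lit 118) (nat_lit 5)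 (nat_lit 493) (nat_lit 405) (nat_lit 242)))))) (XT.nd (nat_lit 390) (nat_lit 608) (nat_lit 0) (XT.nd (nat_lit 156) (nat_lit 760) (nat_lit 0) (XT.nd (nat_lit 78) (nat_lit 0) (nat_lit 0) (XT.lf (nat_lit 0) (nat_lit 7485054940) (nat_lit 380) (nat_lit 37360771) (nat_lit 456) (nat_lit 11551213681) (nat_lit 112) (nat_lit 5) (nat_lit 117) (nat_lit 5) (nat_lit 118) (nat_lit 5) (nat_lit 494) (nat_lit 405) (nat_lit 241)) (XT.lf (nat_lit 0) (nat_lit 11524352982) (nat_lit 456) (nat_lit 1512585662) (nat_lit 76) (nat_lit 6284684712) (nat_lit 112) (nat_lit 5) (nat_lit 118) (nat_lit 5) (nat_lit 113) (nat_lit 5) (nat_lit 495) (nat_lit 405) (nat_lit 240))) (XT.nd (nat_lit 78) (nat_lit 456) (nat_lit 0) (XT.lf (nat_lit 0) (nat_lit 8866707499) (nat_lit 304) (nat_lit 6788031744) (nat_lit 380) (nat_lit 3918872458) (nat_lit 108) (nat_lit 5) (nat_lit 112) (nat_lit 5) (nat_lit 113) (nat_lit 5) (nat_lit 496) (nat_lit 405) (nat_lit 239))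 (XT.nd (nat_lit 78) (nat_lit 380) (nat_lit 0) (XT.lf (nat_lit 0) (nat_lit 37446851) (nat_lit 380) (nat_lit 370944717) (nat_lit 76) (nat_lit 19422229229) (nat_lit 107) (nat_lit 5) (nat_lit 112) (nat_lit 5) (nat_lit 108) (nat_lit 5) (nat_lit 497) (nat_lit 405) (nat_lit 238)) (XT.lf (nat_lit 0) (nat_lit 4118110376) (nat_lit 456) (nat_lit 9864866687) (nat_lit 76) (nat_lit 6107323656) (nat_lit 102) (nat_lit 5) (nat_lit 108) (nat_lit 5) (nat_lit 103) (nat_lit 5) (nat_lit 498) (nat_lit 405) (nat_lit 237))))) (XT.nd (nat_lit 52104) (nat_lit 0) (nat_lit 31616) (XT.nd (nat_lit 78) (nat_lit 304) (nat_lit 0) (XT.lf (nat_lit 0) (nat_lit 675714372) (nat_lit 304) (nat_lit 7605135264) (nat_lit 380) (nat_lit 12074317853) (nat_lit 98) (nat_lit 5) (nat_lit 102) (nat_lit 5) (nat_lit 103) (nat_lit 5) (nat_lit 499) (nat_lit 405) (nat_lit 236)) (XT.nd (nat_lit 78) (nat_lit 304) (nat_lit 0) (XT.lf (nat_lit 0) (nat_lit 11546849656)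 (nat_lit 304) (nat_lit 1037145816) (nat_lit 380) (nat_lit 8040195537) (nat_lit 98) (nat_lit 5) (nat_lit 102) (nat_lit 5) (nat_lit 103) (nat_lit 5) (nat_lit 500) (nat_lit 405) (nat_lit 235)) (XT.lf (nat_lit 0) (nat_lit 1708605964) (nat_lit 304) (nat_lit 15303553781) (nat_lit 380) (nat_lit 3885658547) (nat_lit 94) (nat_lit 5) (nat_lit 98) (nat_lit 5) (nat_lit 99) (nat_lit 5) (nat_lit 501) (nat_lit 405) (nat_lit 234)))) (XT.nd (nat_lit 78) (nat_lit 0) (nat_lit 0) (XT.lf (nat_lit 0) (nat_lit 127137852) (nat_lit 0) (nat_lit 127137852) (nat_lit 1292) (nat_lit 3618904669) (nat_lit 510) (nat_lit 5) (nat_lit 510) (nat_lit 3) (nat_lit 527) (nat_lit 3) (nat_lit 406) (nat_lit 406) (nat_lit 328)) (XT.nd (nat_lit 78) (nat_lit 0) (nat_lit 0) (XT.lf (nat_lit 0) (nat_lit 1819543714) (nat_lit 1292) (nat_lit 3838883669) (nat_lit 1368) (nat_lit 2138501475) (nat_lit 510) (nat_lit 5) (nat_lit 527) (nat_lit 3) (nat_lit 528) (nat_lit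 5) (nat_lit 407) (nat_lit 406) (nat_lit 327)) (XT.lf (nat_lit 0) (nat_lit 3124664445) (nat_lit 1292) (nat_lit 132052997) (nat_lit 1368) (nat_lit 4592453108) (nat_lit 510) (nat_lit 5) (nat_lit 527) (nat_lit 3) (nat_lit 528) (nat_lit 5) (nat_lit 408) (nat_lit 406) (nat_lit 326))))))))
noncomputable def xc165 : XT := (XT.nd (nat_lit 1638) (nat_lit 12540) (nat_lit 0) (XT.nd (nat_lit 780) (nat_lit 2584) (nat_lit 0) (XT.nd (nat_lit 390) (nat_lit 0) (nat_lit 76) (XT.nd (nat_lit 156) (nat_lit 1292) (nat_lit 0) (XT.nd (nat_lit 78) (nat_lit 0) (nat_lit 76) (XT.lf (nat_lit 76) (nat_lit 3679772435) (nat_lit 0) (nat_lit 766893576) (nat_lit 1368) (nat_lit 3455995486) (nat_lit 511) (nat_lit 5) (nat_lit 510) (nat_lit 5) (nat_lit 528) (nat_lit 5) (nat_lit 409) (nat_lit 406) (nat_lit 325)) (XT.lf (nat_lit 0) (nat_lit 5775032527) (nat_lit 1292) (nat_lit 417154357) (nat_lit 1368) (nat_lit 1765456481) (nat_lit 511) (nat_lit 5) (nat_lit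 528) (nat_lit 5) (nat_lit 529) (nat_lit 5) (nat_lit 410) (nat_lit 406) (nat_lit 324))) (XT.nd (nat_lit 78) (nat_lit 1368) (nat_lit 0) (XT.lf (nat_lit 76) (nat_lit 3487652947) (nat_lit 0) (nat_lit 3638196334) (nat_lit 1368) (nat_lit 887977144) (nat_lit 512) (nat_lit 5) (nat_lit 511) (nat_lit 5) (nat_lit 529) (nat_lit 5) (nat_lit 411) (nat_lit 406) (nat_lit 323)) (XT.nd (nat_lit 78) (nat_lit 0) (nat_lit 76) (XT.lf (nat_lit 0) (nat_lit 398138159) (nat_lit 1368) (nat_lit 615718942) (nat_lit 1444) (nat_lit 7057813108) (nat_lit 493) (nat_lit 5) (nat_lit 511) (nat_lit 5) (nat_lit 512) (nat_lit 5) (nat_lit 412) (nat_lit 406) (nat_lit 322)) (XT.lf (nat_lit 0) (nat_lit 1700263215) (nat_lit 1368) (nat_lit 4747914232) (nat_lit 1444) (nat_lit 1682350588) (nat_lit 494) (nat_lit 5) (nat_lit 512) (nat_lit 5) (nat_lit 513) (nat_lit 5) (nat_lit 413) (nat_lit 406) (nat_lit 321))))) (XT.nd (nat_lit 156) (nat_lit 0) (nat_lit 76)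 (XT.nd (nat_lit 78) (nat_lit 0) (nat_lit 0) (XT.lf (nat_lit 0) (nat_lit 3008943304) (nat_lit 1368) (nat_lit 746229082) (nat_lit 1444) (nat_lit 4435798133) (nat_lit 494) (nat_lit 5) (nat_lit 512) (nat_lit 5) (nat_lit 513) (nat_lit 5) (nat_lit 414) (nat_lit 406) (nat_lit 320)) (XT.lf (nat_lit 76) (nat_lit 3361670359) (nat_lit 0) (nat_lit 974187224) (nat_lit 1444) (nat_lit 3916940459) (nat_lit 495) (nat_lit 5) (nat_lit 494) (nat_lit 5) (nat_lit 513) (nat_lit 5) (nat_lit 415) (nat_lit 406) (nat_lit 319))) (XT.nd (nat_lit 78) (nat_lit 0) (nat_lit 0) (XT.lf (nat_lit 0) (nat_lit 5677220192) (nat_lit 1368) (nat_lit 784512284) (nat_lit 1444) (nat_lit 1854388502) (nat_lit 495) (nat_lit 5) (nat_lit 513) (nat_lit 5) (nat_lit 514) (nat_lit 5) (nat_lit 416) (nat_lit 406) (nat_lit 318)) (XT.nd (nat_lit 78) (nat_lit 0) (nat_lit 0) (XT.lf (nat_lit 76) (nat_lit 3424591885) (nat_lit 0) (nat_lit 3620854694) (nat_lit 1444) (nat_lit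 1335279790) (nat_lit 496) (nat_lit 5) (nat_lit 495) (nat_lit 5) (nat_lit 514) (nat_lit 5) (nat_lit 417) (nat_lit 406) (nat_lit 317)) (XT.lf (nat_lit 76) (nat_lit 7710525424) (nat_lit 0) (nat_lit 707571771) (nat_lit 1444) (nat_lit 29001878) (nat_lit 496) (nat_lit 5) (nat_lit 495) (nat_lit 5) (nat_lit 514) (nat_lit 5) (nat_lit 418) (nat_lit 406) (nat_lit 316)))))) (XT.nd (nat_lit 390) (nat_lit 1368) (nat_lit 0) (XT.nd (nat_lit 156) (nat_lit 0) (nat_lit 0) (XT.nd (nat_lit 78) (nat_lit 0) (nat_lit 0) (XT.lf (nat_lit 0) (nat_lit 1296725250) (nat_lit 1444) (nat_lit 4941757925) (nat_lit 1520) (nat_lit 2275954209) (nat_lit 477) (nat_lit 5) (nat_lit 496) (nat_lit 5) (nat_lit 497) (nat_lit 5) (nat_lit 419) (nat_lit 406) (nat_lit 315)) (XT.lf (nat_lit 0) (nat_lit 2630881309) (nat_lit 1444) (nat_lit 628359534) (nat_lit 1520) (nat_lit 5324247181) (nat_lit 477) (nat_lit 5) (nat_lit 496) (nat_lit 5) (nat_lit 497) (nat_lit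 5) (nat_lit 420) (nat_lit 406) (nat_lit 314))) (XT.nd (nat_lit 78) (nat_lit 0) (nat_lit 76) (XT.lf (nat_lit 76) (nat_lit 3803020090) (nat_lit 0) (nat_lit 186569505) (nat_lit 1520) (nat_lit 4664387851) (nat_lit 478) (nat_lit 5) (nat_lit 477) (nat_lit 5) (nat_lit 497) (nat_lit 5) (nat_lit 421) (nat_lit 406) (nat_lit 313)) (XT.nd (nat_lit 78) (nat_lit 0) (nat_lit 0) (XT.lf (nat_lit 0) (nat_lit 5372494571) (nat_lit 1444) (nat_lit 432054841) (nat_lit 1520) (nat_lit 2921401647) (nat_lit 478) (nat_lit 5) (nat_lit 497) (nat_lit 5) (nat_lit 498) (nat_lit 5) (nat_lit 422) (nat_lit 406) (nat_lit 312)) (XT.lf (nat_lit 76) (nat_lit 4109611999) (nat_lit 0) (nat_lit 2675520879) (nat_lit 1520) (nat_lit 2014204324) (nat_lit 479) (nat_lit 5) (nat_lit 478) (nat_lit 5) (nat_lit 498) (nat_lit 5) (nat_lit 423) (nat_lit 406) (nat_lit 311))))) (XT.nd (nat_lit 234) (nat_lit 0) (nat_lit 76) (XT.nd (nat_lit 78) (nat_lit 1520) (nat_lit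 0) (XT.lf (nat_lit 0) (nat_lit 8206886817) (nat_lit 1444) (nat_lit 148261236) (nat_lit 1520) (nat_lit 519440034) (nat_lit 479) (nat_lit 5) (nat_lit 498) (nat_lit 5) (nat_lit 499) (nat_lit 5) (nat_lit 424) (nat_lit 406) (nat_lit 310)) (XT.nd (nat_lit 78) (nat_lit 0) (nat_lit 0) (XT.lf (nat_lit 0) (nat_lit 718681674) (nat_lit 1520) (nat_lit 4448580164) (nat_lit 1596) (nat_lit 3783560120) (nat_lit 459) (nat_lit 5) (nat_lit 479) (nat_lit 5) (nat_lit 480) (nat_lit 5) (nat_lit 425) (nat_lit 406) (nat_lit 309)) (XT.lf (nat_lit 76) (nat_lit 198802000) (nat_lit 0) (nat_lit 1902636027) (nat_lit 1596) (nat_lit 6927515936) (nat_lit 460) (nat_lit 5) (nat_lit 459) (nat_lit 5) (nat_lit 480) (nat_lit 5) (nat_lit 426) (nat_lit 406) (nat_lit 308)))) (XT.nd (nat_lit 78) (nat_lit 0) (nat_lit 0) (XT.lf (nat_lit 0) (nat_lit 3526855040) (nat_lit 1520) (nat_lit 4137079699) (nat_lit 1596) (nat_lit 1444426950) (nat_lit 460) (nat_lit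 5) (nat_lit 480) (nat_lit 5) (nat_lit 481) (nat_lit 5) (nat_lit 427) (nat_lit 406) (nat_lit 307)) (XT.nd (nat_lit 78) (nat_lit 0) (nat_lit 0) (XT.lf (nat_lit 76) (nat_lit 626850464) (nat_lit 0) (nat_lit 4346765444) (nat_lit 1596) (nat_lit 4215897880) (nat_lit 461) (nat_lit 5) (nat_lit 460) (nat_lit 5) (nat_lit 481) (nat_lit 5) (nat_lit 428) (nat_lit 406) (nat_lit 306)) (XT.lf (nat_lit 76) (nat_lit 5523636400) (nat_lit 0) (nat_lit 929950145) (nat_lit 1596) (nat_lit 2818629571) (nat_lit 461) (nat_lit 5) (nat_lit 460) (nat_lit 5) (nat_lit 481) (nat_lit 5) (nat_lit 429) (nat_lit 406) (nat_lit 305))))))) (XT.nd (nat_lit 780) (nat_lit 5016) (nat_lit 0) (XT.nd (nat_lit 390) (nat_lit 2812) (nat_lit 0) (XT.nd (nat_lit 156) (nat_lit 3268) (nat_lit 0) (XT.nd (nat_lit 78) (nat_lit 76) (nat_lit 0) (XT.lf (nat_lit 0) (nat_lit 1141522827) (nat_lit 1520) (nat_lit 6822640192) (nat_lit 1596) (nat_lit 1392401771) (nat_lit 441)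 (nat_lit 5) (nat_lit 461) (nat_lit 5) (nat_lit 462) (nat_lit 5) (nat_lit 430) (nat_lit 406) (nat_lit 304)) (XT.lf (nat_lit 0) (nat_lit 70186337) (nat_lit 1596) (nat_lit 3287423547) (nat_lit 76) (nat_lit 6084821333) (nat_lit 440) (nat_lit 5) (nat_lit 461) (nat_lit 5) (nat_lit 441) (nat_lit 5) (nat_lit 431) (nat_lit 406) (nat_lit 303))) (XT.nd (nat_lit 78) (nat_lit 1672) (nat_lit 0) (XT.lf (nat_lit 0) (nat_lit 1533585681) (nat_lit 1672) (nat_lit 7797575253) (nat_lit 76) (nat_lit 198877600) (nat_lit 419) (nat_lit 5) (nat_lit 441) (nat_lit 5) (nat_lit 420) (nat_lit 5) (nat_lit 432) (nat_lit 406) (nat_lit 302)) (XT.nd (nat_lit 78) (nat_lit 1672) (nat_lit 0) (XT.lf (nat_lit 0) (nat_lit 3048660012) (nat_lit 1672) (nat_lit 2762851509) (nat_lit 76) (nat_lit 3807449820) (nat_lit 419) (nat_lit 5) (nat_lit 441) (nat_lit 5) (nat_lit 420) (nat_lit 5) (nat_lit 433) (nat_lit 406) (nat_lit 301)) (XT.lf (nat_lit 0) (nat_lit 2385398171)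 (nat_lit 1672) (nat_lit 2202522045) (nat_lit 1748) (nat_lit 5121875956) (nat_lit 397) (nat_lit 5) (nat_lit 419) (nat_lit 5) (nat_lit 420) (nat_lit 5) (nat_lit 434) (nat_lit 406) (nat_lit 300))))) (XT.nd (nat_lit 156) (nat_lit 1064) (nat_lit 0) (XT.nd (nat_lit 78) (nat_lit 1748) (nat_lit 0) (XT.lf (nat_lit 0) (nat_lit 6164949584) (nat_lit 1748) (nat_lit 2156524344) (nat_lit 76) (nat_lit 1480845130) (nat_lit 397) (nat_lit 5) (nat_lit 420) (nat_lit 5) (nat_lit 398) (nat_lit 5) (nat_lit 435) (nat_lit 406) (nat_lit 299)) (XT.lf (nat_lit 0) (nat_lit 3122654794) (nat_lit 1748) (nat_lit 4664863200) (nat_lit 1824) (nat_lit 2108905257) (nat_lit 374) (nat_lit 5) (nat_lit 397) (nat_lit 5) (nat_lit 398) (nat_lit 5) (nat_lit 436) (nat_lit 406) (nat_lit 298))) (XT.nd (nat_lit 78) (nat_lit 1064) (nat_lit 0) (XT.lf (nat_lit 0) (nat_lit 8518351024) (nat_lit 1748) (nat_lit 918086289) (nat_lit 1824) (nat_lit 556104833) (nat_lit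 374) (nat_lit 5) (nat_lit 397) (nat_lit 5) (nat_lit 398) (nat_lit 5) (nat_lit 437) (nat_lit 406) (nat_lit 297)) (XT.nd (nat_lit 78) (nat_lit 0) (nat_lit 0) (XT.lf (nat_lit 0) (nat_lit 1038740920) (nat_lit 1064) (nat_lit 6151032683) (nat_lit 76) (nat_lit 2900197185) (nat_lit 360) (nat_lit 5) (nat_lit 374) (nat_lit 5) (nat_lit 361) (nat_lit 5) (nat_lit 438) (nat_lit 406) (nat_lit 296)) (XT.lf (nat_lit 0) (nat_lit 2654063428) (nat_lit 1064) (nat_lit 737188934) (nat_lit 76) (nat_lit 6798111597) (nat_lit 360) (nat_lit 5) (nat_lit 374) (nat_lit 5) (nat_lit 361) (nat_lit 5) (nat_lit 439) (nat_lit 406) (nat_lit 295)))))) (XT.nd (nat_lit 390) (nat_lit 2356) (nat_lit 0) (XT.nd (nat_lit 156) (nat_lit 912) (nat_lit 0) (XT.nd (nat_lit 78) (nat_lit 836) (nat_lit 0) (XT.lf (nat_lit 0) (nat_lit 4316780939) (nat_lit 988) (nat_lit 5463755441) (nat_lit 76) (nat_lit 509916645) (nat_lit 348) (nat_lit 5) (nat_lit 361) (nat_lit 5)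 (nat_lit 349) (nat_lit 5) (nat_lit 440) (nat_lit 406) (nat_lit 294)) (XT.lf (nat_lit 0) (nat_lit 78481559) (nat_lit 836) (nat_lit 5942868863) (nat_lit 912) (nat_lit 4372051103) (nat_lit 337) (nat_lit 5) (nat_lit 348) (nat_lit 5) (nat_lit 349) (nat_lit 5) (nat_lit 441) (nat_lit 406) (nat_lit 293))) (XT.nd (nat_lit 78) (nat_lit 912) (nat_lit 0) (XT.lf (nat_lit 0) (nat_lit 5787301251) (nat_lit 836) (nat_lit 1990284917) (nat_lit 912) (nat_lit 2720480750) (nat_lit 337) (nat_lit 5) (nat_lit 348) (nat_lit 5) (nat_lit 349) (nat_lit 5) (nat_lit 442) (nat_lit 406) (nat_lit 292)) (XT.nd (nat_lit 78) (nat_lit 76) (nat_lit 0) (XT.lf (nat_lit 0) (nat_lit 986806259) (nat_lit 836) (nat_lit 8583090551) (nat_lit 912) (nat_lit 1034919039) (nat_lit 326) (nat_lit 5) (nat_lit 337) (nat_lit 5) (nat_lit 338) (nat_lit 5) (nat_lit 443) (nat_lit 406) (nat_lit 291)) (XT.lf (nat_lit 0) (nat_lit 701786913) (nat_lit 912) (nat_lit 3887204576)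 (nat_lit 76) (nat_lit 6124100112) (nat_lit 325) (nat_lit 5) (nat_lit 337) (nat_lit 5) (nat_lit 326) (nat_lit 5) (nat_lit 444) (nat_lit 406) (nat_lit 290))))) (XT.nd (nat_lit 234) (nat_lit 836) (nat_lit 0) (XT.nd (nat_lit 78) (nat_lit 760) (nat_lit 0) (XT.lf (nat_lit 0) (nat_lit 1958927971) (nat_lit 760) (nat_lit 494944307) (nat_lit 836) (nat_lit 8369642419) (nat_lit 315) (nat_lit 5) (nat_lit 325) (nat_lit 5) (nat_lit 326) (nat_lit 5) (nat_lit 445) (nat_lit 406) (nat_lit 289)) (XT.nd (nat_lit 78) (nat_lit 760) (nat_lit 0) (XT.lf (nat_lit 0) (nat_lit 4273168312) (nat_lit 836) (nat_lit 3003396848) (nat_lit 76) (nat_lit 3658946246) (nat_lit 315) (nat_lit 5) (nat_lit 326) (nat_lit 5) (nat_lit 316) (nat_lit 5) (nat_lit 446) (nat_lit 406) (nat_lit 288)) (XT.lf (nat_lit 0) (nat_lit 2992977378) (nat_lit 760) (nat_lit 3140947407) (nat_lit 836) (nat_lit 4915730139) (nat_lit 305) (nat_lit 5) (nat_lit 315) (nat_lit 5) (nat_lit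 316) (nat_lit 5) (nat_lit 447) (nat_lit 406) (nat_lit 287)))) (XT.nd (nat_lit 78) (nat_lit 836) (nat_lit 0) (XT.lf (nat_lit 0) (nat_lit 8041770082) (nat_lit 836) (nat_lit 2041065580) (nat_lit 76) (nat_lit 1083056376) (nat_lit 305) (nat_lit 5) (nat_lit 316) (nat_lit 5) (nat_lit 306) (nat_lit 5) (nat_lit 448) (nat_lit 406) (nat_lit 286)) (XT.nd (nat_lit 78) (nat_lit 76) (nat_lit 0) (XT.lf (nat_lit 0) (nat_lit 4110070070) (nat_lit 760) (nat_lit 5908120611) (nat_lit 836) (nat_lit 1265662885) (nat_lit 295) (nat_lit 5) (nat_lit 305) (nat_lit 5) (nat_lit 306) (nat_lit 5) (nat_lit 449) (nat_lit 406) (nat_lit 285)) (XT.lf (nat_lit 0) (nat_lit 618522614) (nat_lit 836) (nat_lit 1014193036) (nat_lit 76) (nat_lit 9771448212) (nat_lit 294) (nat_lit 5) (nat_lit 305) (nat_lit 5) (nat_lit 295) (nat_lit 5) (nat_lit 450) (nat_lit 406) (nat_lit 284))))))))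
noncomputable def xc166 : XT := (XT.nd (nat_lit 1638) (nat_lit 5244) (nat_lit 0) (XT.nd (nat_lit 780) (nat_lit 3572) (nat_lit 0) (XT.nd (nat_lit 390) (nat_lit 2052) (nat_lit 0) (XT.nd (nat_lit 156) (nat_lit 684) (nat_lit 0) (XT.nd (nat_lit 78) (nat_lit 684) (nat_lit 0) (XT.lf (nat_lit 0) (nat_lit 2559306224) (nat_lit 836) (nat_lit 6232129952) (nat_lit 76) (nat_lit 2734567209) (nat_lit 284) (nat_lit 5) (nat_lit 295) (nat_lit 5) (nat_lit 285) (nat_lit 5) (nat_lit 451) (nat_lit 406) (nat_lit 283)) (XT.lf (nat_lit 0) (nat_lit 63817712) (nat_lit 684) (nat_lit 4476735469) (nat_lit 760) (nat_lit 7109700992) (nat_lit 275) (nat_lit 5) (nat_lit 284) (nat_lit 5) (nat_lit 285) (nat_lit 5) (nat_lit 452) (nat_lit 406) (nat_lit 282))) (XT.nd (nat_lit 78) (nat_lit 684) (nat_lit 0) (XT.lf (nat_lit 0) (nat_lit 6552413225) (nat_lit 684) (nat_lit 34609448) (nat_lit 760) (nat_lit 5189462633) (nat_lit 275) (nat_lit 5) (nat_lit 284)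 (nat_lit 5) (nat_lit 285) (nat_lit 5) (nat_lit 453) (nat_lit 406) (nat_lit 281)) (XT.nd (nat_lit 78) (nat_lit 0) (nat_lit 0) (XT.lf (nat_lit 0) (nat_lit 1234824414) (nat_lit 684) (nat_lit 7460892898) (nat_lit 760) (nat_lit 3209104973) (nat_lit 266) (nat_lit 5) (nat_lit 275) (nat_lit 5) (nat_lit 276) (nat_lit 5) (nat_lit 454) (nat_lit 406) (nat_lit 280)) (XT.lf (nat_lit 0) (nat_lit 7875880051) (nat_lit 684) (nat_lit 2990272657) (nat_lit 760) (nat_lit 1169188958) (nat_lit 266) (nat_lit 5) (nat_lit 275) (nat_lit 5) (nat_lit 276) (nat_lit 5) (nat_lit 455) (nat_lit 406) (nat_lit 279))))) (XT.nd (nat_lit 156) (nat_lit 1292) (nat_lit 0) (XT.nd (nat_lit 78) (nat_lit 0) (nat_lit 0) (XT.lf (nat_lit 0) (nat_lit 910548747) (nat_lit 760) (nat_lit 9688109021) (nat_lit 76) (nat_lit 1569482462) (nat_lit 256) (nat_lit 5) (nat_lit 266) (nat_lit 5) (nat_lit 257) (nat_lit 5) (nat_lit 456) (nat_lit 406) (nat_lit 278)) (XT.lf (nat_lit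 0) (nat_lit 3048801256) (nat_lit 760) (nat_lit 3039724085) (nat_lit 76) (nat_lit 6214269947) (nat_lit 256) (nat_lit 5) (nat_lit 266) (nat_lit 5) (nat_lit 257) (nat_lit 5) (nat_lit 457) (nat_lit 406) (nat_lit 277))) (XT.nd (nat_lit 78) (nat_lit 608) (nat_lit 0) (XT.lf (nat_lit 0) (nat_lit 3773815867) (nat_lit 684) (nat_lit 1465466533) (nat_lit 760) (nat_lit 7200678239) (nat_lit 247) (nat_lit 5) (nat_lit 256) (nat_lit 5) (nat_lit 257) (nat_lit 5) (nat_lit 458) (nat_lit 406) (nat_lit 276)) (XT.nd (nat_lit 78) (nat_lit 608) (nat_lit 0) (XT.lf (nat_lit 0) (nat_lit 7500337441) (nat_lit 760) (nat_lit 1853348408) (nat_lit 76) (nat_lit 3225654502) (nat_lit 247) (nat_lit 5) (nat_lit 257) (nat_lit 5) (nat_lit 248) (nat_lit 5) (nat_lit 459) (nat_lit 406) (nat_lit 275)) (XT.lf (nat_lit 0) (nat_lit 5136222701) (nat_lit 608) (nat_lit 4698864834) (nat_lit 684) (nat_lit 2885856857) (nat_lit 239) (nat_lit 5) (nat_lit 247) (nat_lit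 5) (nat_lit 248) (nat_lit 5) (nat_lit 460) (nat_lit 406) (nat_lit 274)))))) (XT.nd (nat_lit 390) (nat_lit 1672) (nat_lit 0) (XT.nd (nat_lit 156) (nat_lit 1216) (nat_lit 0) (XT.nd (nat_lit 78) (nat_lit 684) (nat_lit 0) (XT.lf (nat_lit 0) (nat_lit 12214949827) (nat_lit 684) (nat_lit 592127737) (nat_lit 76) (nat_lit 58340699) (nat_lit 239) (nat_lit 5) (nat_lit 248) (nat_lit 5) (nat_lit 240) (nat_lit 5) (nat_lit 461) (nat_lit 406) (nat_lit 273)) (XT.lf (nat_lit 0) (nat_lit 1668336860) (nat_lit 684) (nat_lit 6444055151) (nat_lit 76) (nat_lit 4898982205) (nat_lit 230) (nat_lit 5) (nat_lit 239) (nat_lit 5) (nat_lit 231) (nat_lit 5) (nat_lit 462) (nat_lit 406) (nat_lit 272))) (XT.nd (nat_lit 78) (nat_lit 608) (nat_lit 0) (XT.lf (nat_lit 0) (nat_lit 705687804) (nat_lit 608) (nat_lit 3313642089) (nat_lit 684) (nat_lit 9140948718) (nat_lit 222) (nat_lit 5) (nat_lit 230) (nat_lit 5) (nat_lit 231) (nat_lit 5) (nat_lit 463)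 (nat_lit 406) (nat_lit 271)) (XT.nd (nat_lit 78) (nat_lit 608) (nat_lit 0) (XT.lf (nat_lit 0) (nat_lit 6457215505) (nat_lit 684) (nat_lit 5253268231) (nat_lit 76) (nat_lit 1600885531) (nat_lit 222) (nat_lit 5) (nat_lit 231) (nat_lit 5) (nat_lit 223) (nat_lit 5) (nat_lit 464) (nat_lit 406) (nat_lit 270)) (XT.lf (nat_lit 0) (nat_lit 2080563636) (nat_lit 608) (nat_lit 6885099124) (nat_lit 684) (nat_lit 4499388416) (nat_lit 214) (nat_lit 5) (nat_lit 222) (nat_lit 5) (nat_lit 223) (nat_lit 5) (nat_lit 465) (nat_lit 406) (nat_lit 269))))) (XT.nd (nat_lit 234) (nat_lit 1064) (nat_lit 0) (XT.nd (nat_lit 78) (nat_lit 608) (nat_lit 0) (XT.lf (nat_lit 0) (nat_lit 9615533016) (nat_lit 608) (nat_lit 1930507908) (nat_lit 684) (nat_lit 2075335969) (nat_lit 214) (nat_lit 5) (nat_lit 222) (nat_lit 5) (nat_lit 223) (nat_lit 5) (nat_lit 466) (nat_lit 406) (nat_lit 268)) (XT.nd (nat_lit 78) (nat_lit 0) (nat_lit 0) (XT.lf (nat_lit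 0) (nat_lit 422129851) (nat_lit 608) (nat_lit 10253294036) (nat_lit 76) (nat_lit 3104756028) (nat_lit 206) (nat_lit 5) (nat_lit 214) (nat_lit 5) (nat_lit 207) (nat_lit 5) (nat_lit 467) (nat_lit 406) (nat_lit 267)) (XT.lf (nat_lit 0) (nat_lit 2968440293) (nat_lit 608) (nat_lit 2720497562) (nat_lit 76) (nat_lit 8252418201) (nat_lit 206) (nat_lit 5) (nat_lit 214) (nat_lit 5) (nat_lit 207) (nat_lit 5) (nat_lit 468) (nat_lit 406) (nat_lit 266)))) (XT.nd (nat_lit 78) (nat_lit 532) (nat_lit 0) (XT.lf (nat_lit 0) (nat_lit 5012280128) (nat_lit 532) (nat_lit 573012327) (nat_lit 608) (nat_lit 8520075953) (nat_lit 199) (nat_lit 5) (nat_lit 206) (nat_lit 5) (nat_lit 207) (nat_lit 5) (nat_lit 469) (nat_lit 406) (nat_lit 265)) (XT.nd (nat_lit 78) (nat_lit 532) (nat_lit 0) (XT.lf (nat_lit 0) (nat_lit 8290215669) (nat_lit 608) (nat_lit 1382527596) (nat_lit 76) (nat_lit 4599207960) (nat_lit 199) (nat_lit 5) (nat_lit 207) (nat_lit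 5) (nat_lit 200) (nat_lit 5) (nat_lit 470) (nat_lit 406) (nat_lit 264)) (XT.lf (nat_lit 0) (nat_lit 6548112209) (nat_lit 532) (nat_lit 4534882856) (nat_lit 608) (nat_lit 3358200285) (nat_lit 192) (nat_lit 5) (nat_lit 199) (nat_lit 5) (nat_lit 200) (nat_lit 5) (nat_lit 471) (nat_lit 406) (nat_lit 263))))))) (XT.nd (nat_lit 780) (nat_lit 2660) (nat_lit 0) (XT.nd (nat_lit 390) (nat_lit 988) (nat_lit 0) (XT.nd (nat_lit 156) (nat_lit 988) (nat_lit 0) (XT.nd (nat_lit 78) (nat_lit 76) (nat_lit 0) (XT.lf (nat_lit 0) (nat_lit 21769321) (nat_lit 532) (nat_lit 13911488834) (nat_lit 608) (nat_lit 680538349) (nat_lit 185) (nat_lit 5) (nat_lit 192) (nat_lit 5) (nat_lit 193) (nat_lit 5) (nat_lit 472) (nat_lit 406) (nat_lit 262)) (XT.lf (nat_lit 0) (nat_lit 2094749855) (nat_lit 608) (nat_lit 6646976917) (nat_lit 76) (nat_lit 6046441789) (nat_lit 184) (nat_lit 5) (nat_lit 192) (nat_lit 5) (nat_lit 185) (nat_lit 5) (nat_lit 473)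 (nat_lit 406) (nat_lit 261))) (XT.nd (nat_lit 78) (nat_lit 532) (nat_lit 0) (XT.lf (nat_lit 0) (nat_lit 1455477147) (nat_lit 456) (nat_lit 3458273664) (nat_lit 532) (nat_lit 10052245332) (nat_lit 178) (nat_lit 5) (nat_lit 184) (nat_lit 5) (nat_lit 185) (nat_lit 5) (nat_lit 474) (nat_lit 406) (nat_lit 260)) (XT.nd (nat_lit 78) (nat_lit 532) (nat_lit 0) (XT.lf (nat_lit 0) (nat_lit 7834537743) (nat_lit 532) (nat_lit 5365430182) (nat_lit 76) (nat_lit 1946508583) (nat_lit 178) (nat_lit 5) (nat_lit 185) (nat_lit 5) (nat_lit 179) (nat_lit 5) (nat_lit 475) (nat_lit 406) (nat_lit 259)) (XT.lf (nat_lit 0) (nat_lit 2942373108) (nat_lit 532) (nat_lit 7901579009) (nat_lit 608) (nat_lit 4486014396) (nat_lit 171) (nat_lit 5) (nat_lit 178) (nat_lit 5) (nat_lit 179) (nat_lit 5) (nat_lit 476) (nat_lit 406) (nat_lit 258))))) (XT.nd (nat_lit 156) (nat_lit 456) (nat_lit 0) (XT.nd (nat_lit 78) (nat_lit 532) (nat_lit 0) (XT.lf (nat_lit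 0) (nat_lit 11473292143) (nat_lit 532) (nat_lit 2464601763) (nat_lit 608) (nat_lit 1578749811) (nat_lit 171) (nat_lit 5) (nat_lit 178) (nat_lit 5) (nat_lit 179) (nat_lit 5) (nat_lit 477) (nat_lit 406) (nat_lit 257)) (XT.lf (nat_lit 0) (nat_lit 1406419485) (nat_lit 532) (nat_lit 11224554197) (nat_lit 76) (nat_lit 3075145826) (nat_lit 164) (nat_lit 5) (nat_lit 171) (nat_lit 5) (nat_lit 165) (nat_lit 5) (nat_lit 478) (nat_lit 406) (nat_lit 256))) (XT.nd (nat_lit 78) (nat_lit 456) (nat_lit 0) (XT.lf (nat_lit 0) (nat_lit 4462388572) (nat_lit 532) (nat_lit 2709730020) (nat_lit 76) (nat_lit 8726416737) (nat_lit 164) (nat_lit 5) (nat_lit 171) (nat_lit 5) (nat_lit 165) (nat_lit 5) (nat_lit 479) (nat_lit 406) (nat_lit 255)) (XT.nd (nat_lit 78) (nat_lit 0) (nat_lit 0) (XT.lf (nat_lit 0) (nat_lit 6039183613) (nat_lit 456) (nat_lit 1568309234) (nat_lit 532) (nat_lit 8486750167) (nat_lit 158) (nat_lit 5) (nat_lit 164) (nat_lit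 5) (nat_lit 165) (nat_lit 5) (nat_lit 480) (nat_lit 406) (nat_lit 254)) (XT.lf (nat_lit 0) (nat_lit 10849630174) (nat_lit 532) (nat_lit 1336252178) (nat_lit 76) (nat_lit 4107303668) (nat_lit 158) (nat_lit 5) (nat_lit 165) (nat_lit 5) (nat_lit 159) (nat_lit 5) (nat_lit 481) (nat_lit 406) (nat_lit 253)))))) (XT.nd (nat_lit 390) (nat_lit 1292) (nat_lit 0) (XT.nd (nat_lit 156) (nat_lit 380) (nat_lit 0) (XT.nd (nat_lit 78) (nat_lit 532) (nat_lit 0) (XT.lf (nat_lit 0) (nat_lit 7631428291) (nat_lit 456) (nat_lit 6574232104) (nat_lit 532) (nat_lit 2289470204) (nat_lit 152) (nat_lit 5) (nat_lit 158) (nat_lit 5) (nat_lit 159) (nat_lit 5) (nat_lit 482) (nat_lit 406) (nat_lit 252)) (XT.lf (nat_lit 0) (nat_lit 75293823) (nat_lit 456) (nat_lit 838907747) (nat_lit 532) (nat_lit 15786822175) (nat_lit 145) (nat_lit 5) (nat_lit 151) (nat_lit 5) (nat_lit 152) (nat_lit 5) (nat_lit 483) (nat_lit 406) (nat_lit 251))) (XT.nd (nat_lit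 78) (nat_lit 380) (nat_lit 0) (XT.lf (nat_lit 0) (nat_lit 4232970662) (nat_lit 532) (nat_lit 7660057945) (nat_lit 76) (nat_lit 5016073384) (nat_lit 145) (nat_lit 5) (nat_lit 152) (nat_lit 5) (nat_lit 146) (nat_lit 5) (nat_lit 484) (nat_lit 406) (nat_lit 250)) (XT.nd (nat_lit 78) (nat_lit 0) (nat_lit 0) (XT.lf (nat_lit 0) (nat_lit 1483791803) (nat_lit 380) (nat_lit 6138965398) (nat_lit 456) (nat_lit 9498495188) (nat_lit 140) (nat_lit 5) (nat_lit 145) (nat_lit 5) (nat_lit 146) (nat_lit 5) (nat_lit 485) (nat_lit 406) (nat_lit 249)) (XT.lf (nat_lit 0) (nat_lit 10899411413) (nat_lit 380) (nat_lit 221893510) (nat_lit 456) (nat_lit 6215524929) (nat_lit 140) (nat_lit 5) (nat_lit 145) (nat_lit 5) (nat_lit 146) (nat_lit 5) (nat_lit 486) (nat_lit 406) (nat_lit 248))))) (XT.nd (nat_lit 234) (nat_lit 380) (nat_lit 0) (XT.nd (nat_lit 78) (nat_lit 456) (nat_lit 0) (XT.lf (nat_lit 0) (nat_lit 2932512189) (nat_lit 456) (nat_lit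 11803834869) (nat_lit 532) (nat_lit 2819444633) (nat_lit 134) (nat_lit 5) (nat_lit 140) (nat_lit 5) (nat_lit 141) (nat_lit 5) (nat_lit 487) (nat_lit 406) (nat_lit 247)) (XT.nd (nat_lit 78) (nat_lit 380) (nat_lit 0) (XT.lf (nat_lit 0) (nat_lit 670831367) (nat_lit 532) (nat_lit 5221976019) (nat_lit 76) (nat_lit 11885550301) (nat_lit 133) (nat_lit 5) (nat_lit 140) (nat_lit 5) (nat_lit 134) (nat_lit 5) (nat_lit 488) (nat_lit 406) (nat_lit 246)) (XT.lf (nat_lit 0) (nat_lit 4212852517) (nat_lit 456) (nat_lit 13614101571) (nat_lit 76) (nat_lit 177657452) (nat_lit 128) (nat_lit 5) (nat_lit 134) (nat_lit 5) (nat_lit 129) (nat_lit 5) (nat_lit 489) (nat_lit 406) (nat_lit 245)))) (XT.nd (nat_lit 78) (nat_lit 380) (nat_lit 0) (XT.lf (nat_lit 0) (nat_lit 7890060606) (nat_lit 456) (nat_lit 4022569518) (nat_lit 76) (nat_lit 6321476462) (nat_lit 128) (nat_lit 5) (nat_lit 134) (nat_lit 5) (nat_lit 129) (nat_lit 5) (nat_lit 490)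 (nat_lit 406) (nat_lit 244)) (XT.nd (nat_lit 78) (nat_lit 0) (nat_lit 0) (XT.lf (nat_lit 0) (nat_lit 5822793943) (nat_lit 380) (nat_lit 5846066539) (nat_lit 456) (nat_lit 6798773087) (nat_lit 123) (nat_lit 5) (nat_lit 128) (nat_lit 5) (nat_lit 129) (nat_lit 5) (nat_lit 491) (nat_lit 406) (nat_lit 243)) (XT.lf (nat_lit 0) (nat_lit 15542938961) (nat_lit 456) (nat_lit 2802535570) (nat_lit 76) (nat_lit 359965435) (nat_lit 123) (nat_lit 5) (nat_lit 129) (nat_lit 5) (nat_lit 124) (nat_lit 5) (nat_lit 492) (nat_lit 406) (nat_lit 242))))))))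
noncomputable def xc167 : XT := (XT.nd (nat_lit 53586) (nat_lit 0) (nat_lit 19912) (XT.nd (nat_lit 52728) (nat_lit 0) (nat_lit 28728) (XT.nd (nat_lit 390) (nat_lit 760) (nat_lit 0) (XT.nd (nat_lit 156) (nat_lit 684) (nat_lit 0) (XT.nd (nat_lit 78) (nat_lit 0) (nat_lit 0) (XT.lf (nat_lit 0) (nat_lit 616310792) (nat_lit 456) (nat_lit 11671318183) (nat_lit 76) (nat_lit 6658765734) (nat_lit 117) (nat_lit 5) (nat_lit 123) (nat_lit 5) (nat_lit 118) (nat_lit 5) (nat_lit 493) (nat_lit 406) (nat_lit 241)) (XT.lf (nat_lit 0) (nat_lit 4437854348) (nat_lit 456) (nat_lit 1634820957) (nat_lit 76) (nat_lit 13118887890) (nat_lit 117) (nat_lit 5) (nat_lit 123) (nat_lit 5) (nat_lit 118) (nat_lit 5) (nat_lit 494) (nat_lit 406) (nat_lit 240))) (XT.nd (nat_lit 78) (nat_lit 304) (nat_lit 0) (XT.lf (nat_lit 0) (nat_lit 8385123426) (nat_lit 456) (nat_lit 10740137534) (nat_lit 76) (nat_lit 315390902) (nat_lit 112) (nat_lit 5) (nat_lit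 118) (nat_lit 5) (nat_lit 113) (nat_lit 5) (nat_lit 495) (nat_lit 406) (nat_lit 239)) (XT.nd (nat_lit 78) (nat_lit 304) (nat_lit 0) (XT.lf (nat_lit 0) (nat_lit 12453376142) (nat_lit 456) (nat_lit 484052096) (nat_lit 76) (nat_lit 6756455952) (nat_lit 112) (nat_lit 5) (nat_lit 118) (nat_lit 5) (nat_lit 113) (nat_lit 5) (nat_lit 496) (nat_lit 406) (nat_lit 238)) (XT.lf (nat_lit 0) (nat_lit 10095861236) (nat_lit 304) (nat_lit 6563641217) (nat_lit 380) (nat_lit 3291551141) (nat_lit 108) (nat_lit 5) (nat_lit 112) (nat_lit 5) (nat_lit 113) (nat_lit 5) (nat_lit 497) (nat_lit 406) (nat_lit 237))))) (XT.nd (nat_lit 156) (nat_lit 304) (nat_lit 0) (XT.nd (nat_lit 78) (nat_lit 0) (nat_lit 0) (XT.lf (nat_lit 0) (nat_lit 670894172) (nat_lit 380) (nat_lit 54445152) (nat_lit 456) (nat_lit 19487961694) (nat_lit 102) (nat_lit 5) (nat_lit 107) (nat_lit 5) (nat_lit 108) (nat_lit 5) (nat_lit 498) (nat_lit 406) (nat_lit 236)) (XT.lf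 (nat_lit 0) (nat_lit 4878904291) (nat_lit 456) (nat_lit 9017163584) (nat_lit 76) (nat_lit 6582284613) (nat_lit 102) (nat_lit 5) (nat_lit 108) (nat_lit 5) (nat_lit 103) (nat_lit 5) (nat_lit 499) (nat_lit 406) (nat_lit 235))) (XT.nd (nat_lit 78) (nat_lit 0) (nat_lit 0) (XT.lf (nat_lit 0) (nat_lit 1727354094) (nat_lit 304) (nat_lit 7390981859) (nat_lit 380) (nat_lit 11630315527) (nat_lit 98) (nat_lit 5) (nat_lit 102) (nat_lit 5) (nat_lit 103) (nat_lit 5) (nat_lit 500) (nat_lit 406) (nat_lit 234)) (XT.nd (nat_lit 52026) (nat_lit 0) (nat_lit 31312) (XT.lf (nat_lit 0) (nat_lit 12795556682) (nat_lit 304) (nat_lit 698814115) (nat_lit 380) (nat_lit 7528951720) (nat_lit 98) (nat_lit 5) (nat_lit 102) (nat_lit 5) (nat_lit 103) (nat_lit 5) (nat_lit 501) (nat_lit 406) (nat_lit 233)) (XT.lf (nat_lit 0) (nat_lit 771405726) (nat_lit 0) (nat_lit 771405726) (nat_lit 1292) (nat_lit 2381391209) (nat_lit 510) (nat_lit 5) (nat_lit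 510) (nat_lit 3) (nat_lit 527) (nat_lit 3) (nat_lit 407) (nat_lit 407) (nat_lit 326)))))) (XT.nd (nat_lit 390) (nat_lit 1292) (nat_lit 0) (XT.nd (nat_lit 156) (nat_lit 1292) (nat_lit 0) (XT.nd (nat_lit 78) (nat_lit 0) (nat_lit 0) (XT.lf (nat_lit 0) (nat_lit 4364334057) (nat_lit 1292) (nat_lit 2597361458) (nat_lit 1368) (nat_lit 939489589) (nat_lit 510) (nat_lit 5) (nat_lit 527) (nat_lit 3) (nat_lit 528) (nat_lit 5) (nat_lit 408) (nat_lit 407) (nat_lit 325)) (XT.lf (nat_lit 76) (nat_lit 1173142787) (nat_lit 0) (nat_lit 4480846933) (nat_lit 1368) (nat_lit 2301342953) (nat_lit 511) (nat_lit 5) (nat_lit 510) (nat_lit 5) (nat_lit 528) (nat_lit 5) (nat_lit 409) (nat_lit 407) (nat_lit 324))) (XT.nd (nat_lit 78) (nat_lit 1292) (nat_lit 0) (XT.lf (nat_lit 76) (nat_lit 5037315784) (nat_lit 0) (nat_lit 1917615049) (nat_lit 1368) (nat_lit 1055941727) (nat_lit 511) (nat_lit 5) (nat_lit 510) (nat_lit 5) (nat_lit 528) (nat_lit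 5) (nat_lit 410) (nat_lit 407) (nat_lit 323)) (XT.nd (nat_lit 78) (nat_lit 0) (nat_lit 0) (XT.lf (nat_lit 0) (nat_lit 190559466) (nat_lit 1368) (nat_lit 7168026346) (nat_lit 1444) (nat_lit 709347996) (nat_lit 493) (nat_lit 5) (nat_lit 511) (nat_lit 5) (nat_lit 512) (nat_lit 5) (nat_lit 411) (nat_lit 407) (nat_lit 322)) (XT.lf (nat_lit 0) (nat_lit 1449713334) (nat_lit 1368) (nat_lit 3272085874) (nat_lit 1444) (nat_lit 3404178350) (nat_lit 493) (nat_lit 5) (nat_lit 511) (nat_lit 5) (nat_lit 512) (nat_lit 5) (nat_lit 412) (nat_lit 407) (nat_lit 321))))) (XT.nd (nat_lit 234) (nat_lit 1292) (nat_lit 0) (XT.nd (nat_lit 78) (nat_lit 0) (nat_lit 76) (XT.lf (nat_lit 76) (nat_lit 693543440) (nat_lit 0) (nat_lit 2014679173) (nat_lit 1444) (nat_lit 5477493875) (nat_lit 494) (nat_lit 5) (nat_lit 493) (nat_lit 5) (nat_lit 512) (nat_lit 5) (nat_lit 413) (nat_lit 407) (nat_lit 320)) (XT.nd (nat_lit 78) (nat_lit 0) (nat_lit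 0) (XT.lf (nat_lit 0) (nat_lit 3989086621) (nat_lit 1368) (nat_lit 3486272771) (nat_lit 1444) (nat_lit 771364516) (nat_lit 494) (nat_lit 5) (nat_lit 512) (nat_lit 5) (nat_lit 513) (nat_lit 5) (nat_lit 414) (nat_lit 407) (nat_lit 319)) (XT.lf (nat_lit 76) (nat_lit 576405751) (nat_lit 0) (nat_lit 4707064848) (nat_lit 1444) (nat_lit 3025739886) (nat_lit 495) (nat_lit 5) (nat_lit 494) (nat_lit 5) (nat_lit 513) (nat_lit 5) (nat_lit 415) (nat_lit 407) (nat_lit 318)))) (XT.nd (nat_lit 78) (nat_lit 1368) (nat_lit 0) (XT.lf (nat_lit 76) (nat_lit 4750153518) (nat_lit 0) (nat_lit 1848260452) (nat_lit 1444) (nat_lit 1774656116) (nat_lit 495) (nat_lit 5) (nat_lit 494) (nat_lit 5) (nat_lit 513) (nat_lit 5) (nat_lit 416) (nat_lit 407) (nat_lit 317)) (XT.nd (nat_lit 78) (nat_lit 1444) (nat_lit 0) (XT.lf (nat_lit 76) (nat_lit 551721862) (nat_lit 0) (nat_lit 7370360831) (nat_lit 1444) (nat_lit 516492055) (nat_lit 496) (nat_lit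 5) (nat_lit 495) (nat_lit 5) (nat_lit 514) (nat_lit 5) (nat_lit 417) (nat_lit 407) (nat_lit 316)) (XT.lf (nat_lit 0) (nat_lit 765640175) (nat_lit 1444) (nat_lit 3681340748) (nat_lit 1520) (nat_lit 4058147526) (nat_lit 476) (nat_lit 5) (nat_lit 495) (nat_lit 5) (nat_lit 496) (nat_lit 5) (nat_lit 418) (nat_lit 407) (nat_lit 315))))))) (XT.nd (nat_lit 780) (nat_lit 7524) (nat_lit 0) (XT.nd (nat_lit 390) (nat_lit 1292) (nat_lit 0) (XT.nd (nat_lit 156) (nat_lit 0) (nat_lit 76) (XT.nd (nat_lit 78) (nat_lit 0) (nat_lit 76) (XT.lf (nat_lit 76) (nat_lit 594997811) (nat_lit 0) (nat_lit 1448066344) (nat_lit 1520) (nat_lit 6530364944) (nat_lit 477) (nat_lit 5) (nat_lit 476) (nat_lit 5) (nat_lit 496) (nat_lit 5) (nat_lit 419) (nat_lit 407) (nat_lit 314)) (XT.lf (nat_lit 0) (nat_lit 3354539881) (nat_lit 1444) (nat_lit 3664623183) (nat_lit 1520) (nat_lit 1623777783) (nat_lit 477) (nat_lit 5) (nat_lit 496) (nat_lit 5) (nat_lit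 497) (nat_lit 5) (nat_lit 420) (nat_lit 407) (nat_lit 313))) (XT.nd (nat_lit 78) (nat_lit 0) (nat_lit 0) (XT.lf (nat_lit 76) (nat_lit 717473162) (nat_lit 0) (nat_lit 3962723424) (nat_lit 1520) (nat_lit 4033902067) (nat_lit 478) (nat_lit 5) (nat_lit 477) (nat_lit 5) (nat_lit 497) (nat_lit 5) (nat_lit 421) (nat_lit 407) (nat_lit 312)) (XT.nd (nat_lit 78) (nat_lit 0) (nat_lit 76) (XT.lf (nat_lit 76) (nat_lit 5219195655) (nat_lit 0) (nat_lit 811866393) (nat_lit 1520) (nat_lit 2755658218) (nat_lit 478) (nat_lit 5) (nat_lit 477) (nat_lit 5) (nat_lit 497) (nat_lit 5) (nat_lit 422) (nat_lit 407) (nat_lit 311)) (XT.lf (nat_lit 76) (nat_lit 928826481) (nat_lit 0) (nat_lit 6476408387) (nat_lit 1520) (nat_lit 1455647918) (nat_lit 479) (nat_lit 5) (nat_lit 478) (nat_lit 5) (nat_lit 498) (nat_lit 5) (nat_lit 423) (nat_lit 407) (nat_lit 310))))) (XT.nd (nat_lit 156) (nat_lit 0) (nat_lit 0) (XT.nd (nat_lit 78) (nat_lit 1444)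 (nat_lit 0) (XT.lf (nat_lit 76) (nat_lit 5540215059) (nat_lit 0) (nat_lit 3271002556) (nat_lit 1520) (nat_lit 125238409) (nat_lit 479) (nat_lit 5) (nat_lit 478) (nat_lit 5) (nat_lit 498) (nat_lit 5) (nat_lit 424) (nat_lit 407) (nat_lit 309)) (XT.lf (nat_lit 0) (nat_lit 1199047897) (nat_lit 1520) (nat_lit 7793360587) (nat_lit 1596) (nat_lit 21317274) (nat_lit 459) (nat_lit 5) (nat_lit 479) (nat_lit 5) (nat_lit 480) (nat_lit 5) (nat_lit 425) (nat_lit 407) (nat_lit 308))) (XT.nd (nat_lit 78) (nat_lit 0) (nat_lit 0) (XT.lf (nat_lit 0) (nat_lit 2568518572) (nat_lit 1520) (nat_lit 3157603835) (nat_lit 1596) (nat_lit 3366007599) (nat_lit 459) (nat_lit 5) (nat_lit 479) (nat_lit 5) (nat_lit 480) (nat_lit 5) (nat_lit 426) (nat_lit 407) (nat_lit 307)) (XT.nd (nat_lit 78) (nat_lit 0) (nat_lit 76) (XT.lf (nat_lit 76) (nat_lit 1573647367) (nat_lit 0) (nat_lit 2378193802) (nat_lit 1596) (nat_lit 5220544850) (nat_lit 460) (nat_lit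 5) (nat_lit 459) (nat_lit 5) (nat_lit 480) (nat_lit 5) (nat_lit 427) (nat_lit 407) (nat_lit 306)) (XT.lf (nat_lit 0) (nat_lit 5367523326) (nat_lit 1520) (nat_lit 2836628231) (nat_lit 1596) (nat_lit 1050014413) (nat_lit 460) (nat_lit 5) (nat_lit 480) (nat_lit 5) (nat_lit 481) (nat_lit 5) (nat_lit 428) (nat_lit 407) (nat_lit 305)))))) (XT.nd (nat_lit 390) (nat_lit 4484) (nat_lit 0) (XT.nd (nat_lit 156) (nat_lit 3116) (nat_lit 0) (XT.nd (nat_lit 78) (nat_lit 0) (nat_lit 0) (XT.lf (nat_lit 76) (nat_lit 2013480581) (nat_lit 0) (nat_lit 4803951900) (nat_lit 1596) (nat_lit 2520043199) (nat_lit 461) (nat_lit 5) (nat_lit 460) (nat_lit 5) (nat_lit 481) (nat_lit 5) (nat_lit 429) (nat_lit 407) (nat_lit 304)) (XT.lf (nat_lit 76) (nat_lit 6981259233) (nat_lit 0) (nat_lit 1311540468) (nat_lit 1596) (nat_lit 1129734870) (nat_lit 461) (nat_lit 5) (nat_lit 460) (nat_lit 5) (nat_lit 481) (nat_lit 5) (nat_lit 430) (nat_lit 407)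 (nat_lit 303))) (XT.nd (nat_lit 78) (nat_lit 1596) (nat_lit 0) (XT.lf (nat_lit 0) (nat_lit 293646791) (nat_lit 1596) (nat_lit 6971181835) (nat_lit 76) (nat_lit 2244259293) (nat_lit 440) (nat_lit 5) (nat_lit 461) (nat_lit 5) (nat_lit 441) (nat_lit 5) (nat_lit 431) (nat_lit 407) (nat_lit 302)) (XT.nd (nat_lit 78) (nat_lit 1596) (nat_lit 0) (XT.lf (nat_lit 0) (nat_lit 1733619248) (nat_lit 1596) (nat_lit 1981662445) (nat_lit 76) (nat_lit 5881887765) (nat_lit 440) (nat_lit 5) (nat_lit 461) (nat_lit 5) (nat_lit 441) (nat_lit 5) (nat_lit 432) (nat_lit 407) (nat_lit 301)) (XT.lf (nat_lit 0) (nat_lit 3130960296) (nat_lit 1596) (nat_lit 70249067) (nat_lit 1672) (nat_lit 6485838159) (nat_lit 419) (nat_lit 5) (nat_lit 440) (nat_lit 5) (nat_lit 441) (nat_lit 5) (nat_lit 433) (nat_lit 407) (nat_lit 300))))) (XT.nd (nat_lit 234) (nat_lit 2812) (nat_lit 0) (XT.nd (nat_lit 78) (nat_lit 1672) (nat_lit 0) (XT.lf (nat_lit 0) (nat_lit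 4714040924) (nat_lit 1672) (nat_lit 1447622622) (nat_lit 76) (nat_lit 3616752845) (nat_lit 419) (nat_lit 5) (nat_lit 441) (nat_lit 5) (nat_lit 420) (nat_lit 5) (nat_lit 434) (nat_lit 407) (nat_lit 299)) (XT.nd (nat_lit 78) (nat_lit 0) (nat_lit 0) (XT.lf (nat_lit 0) (nat_lit 3794575697) (nat_lit 1672) (nat_lit 2466891224) (nat_lit 1748) (nat_lit 3610069779) (nat_lit 397) (nat_lit 5) (nat_lit 419) (nat_lit 5) (nat_lit 420) (nat_lit 5) (nat_lit 435) (nat_lit 407) (nat_lit 298)) (XT.lf (nat_lit 0) (nat_lit 7837619012) (nat_lit 1748) (nat_lit 831659327) (nat_lit 76) (nat_lit 1297296132) (nat_lit 397) (nat_lit 5) (nat_lit 420) (nat_lit 5) (nat_lit 398) (nat_lit 5) (nat_lit 436) (nat_lit 407) (nat_lit 297)))) (XT.nd (nat_lit 78) (nat_lit 1064) (nat_lit 0) (XT.lf (nat_lit 0) (nat_lit 4544103424) (nat_lit 1748) (nat_lit 4926979054) (nat_lit 1824) (nat_lit 591925152) (nat_lit 374) (nat_lit 5) (nat_lit 397) (nat_lit 5)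 (nat_lit 398) (nat_lit 5) (nat_lit 437) (nat_lit 407) (nat_lit 296)) (XT.nd (nat_lit 78) (nat_lit 988) (nat_lit 0) (XT.lf (nat_lit 0) (nat_lit 948751146) (nat_lit 1824) (nat_lit 146838670) (nat_lit 76) (nat_lit 9065948841) (nat_lit 373) (nat_lit 5) (nat_lit 397) (nat_lit 5) (nat_lit 374) (nat_lit 5) (nat_lit 438) (nat_lit 407) (nat_lit 295)) (XT.lf (nat_lit 0) (nat_lit 2546271827) (nat_lit 1064) (nat_lit 4898374804) (nat_lit 76) (nat_lit 2816646086) (nat_lit 360) (nat_lit 5) (nat_lit 374) (nat_lit 5) (nat_lit 361) (nat_lit 5) (nat_lit 439) (nat_lit 407) (nat_lit 294))))))))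
noncomputable def xc168 : XT := (XT.nd (nat_lit 1560) (nat_lit 6308) (nat_lit 0) (XT.nd (nat_lit 780) (nat_lit 4408) (nat_lit 0) (XT.nd (nat_lit 390) (nat_lit 1520) (nat_lit 0) (XT.nd (nat_lit 156) (nat_lit 1748) (nat_lit 0) (XT.nd (nat_lit 78) (nat_lit 0) (nat_lit 0) (XT.lf (nat_lit 0) (nat_lit 604702511) (nat_lit 912) (nat_lit 3563972323) (nat_lit 988) (nat_lit 6194517993) (nat_lit 348) (nat_lit 5) (nat_lit 360) (nat_lit 5) (nat_lit 361) (nat_lit 5) (nat_lit 440) (nat_lit 407) (nat_lit 293)) (XT.lf (nat_lit 0) (nat_lit 5840203594) (nat_lit 988) (nat_lit 4203095597) (nat_lit 76) (nat_lit 423507615) (nat_lit 348) (nat_lit 5) (nat_lit 361) (nat_lit 5) (nat_lit 349) (nat_lit 5) (nat_lit 441) (nat_lit 407) (nat_lit 292))) (XT.nd (nat_lit 78) (nat_lit 912) (nat_lit 0) (XT.lf (nat_lit 0) (nat_lit 1440973413) (nat_lit 836) (nat_lit 6118548887) (nat_lit 912) (nat_lit 3012692811) (nat_lit 337) (nat_lit 5) (nat_lit 348)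 (nat_lit 5) (nat_lit 349) (nat_lit 5) (nat_lit 442) (nat_lit 407) (nat_lit 291)) (XT.nd (nat_lit 78) (nat_lit 912) (nat_lit 0) (XT.lf (nat_lit 0) (nat_lit 7237284750) (nat_lit 836) (nat_lit 2085799092) (nat_lit 912) (nat_lit 1356459665) (nat_lit 337) (nat_lit 5) (nat_lit 348) (nat_lit 5) (nat_lit 349) (nat_lit 5) (nat_lit 443) (nat_lit 407) (nat_lit 290)) (XT.lf (nat_lit 0) (nat_lit 339100408) (nat_lit 912) (nat_lit 8430389475) (nat_lit 76) (nat_lit 2019282696) (nat_lit 325) (nat_lit 5) (nat_lit 337) (nat_lit 5) (nat_lit 326) (nat_lit 5) (nat_lit 444) (nat_lit 407) (nat_lit 289))))) (XT.nd (nat_lit 156) (nat_lit 760) (nat_lit 0) (XT.nd (nat_lit 78) (nat_lit 760) (nat_lit 0) (XT.lf (nat_lit 0) (nat_lit 2069619922) (nat_lit 912) (nat_lit 2618746178) (nat_lit 76) (nat_lit 6211265114) (nat_lit 325) (nat_lit 5) (nat_lit 337) (nat_lit 5) (nat_lit 326) (nat_lit 5) (nat_lit 445) (nat_lit 407) (nat_lit 288)) (XT.lf (nat_lit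 0) (nat_lit 3335452425) (nat_lit 760) (nat_lit 503432462) (nat_lit 836) (nat_lit 7173747800) (nat_lit 315) (nat_lit 5) (nat_lit 325) (nat_lit 5) (nat_lit 326) (nat_lit 5) (nat_lit 446) (nat_lit 407) (nat_lit 287))) (XT.nd (nat_lit 78) (nat_lit 760) (nat_lit 0) (XT.lf (nat_lit 0) (nat_lit 5668381014) (nat_lit 836) (nat_lit 1725534354) (nat_lit 76) (nat_lit 3733490101) (nat_lit 315) (nat_lit 5) (nat_lit 326) (nat_lit 5) (nat_lit 316) (nat_lit 5) (nat_lit 447) (nat_lit 407) (nat_lit 286)) (XT.nd (nat_lit 78) (nat_lit 0) (nat_lit 0) (XT.lf (nat_lit 0) (nat_lit 4381965182) (nat_lit 760) (nat_lit 3167335657) (nat_lit 836) (nat_lit 3694884234) (nat_lit 305) (nat_lit 5) (nat_lit 315) (nat_lit 5) (nat_lit 316) (nat_lit 5) (nat_lit 448) (nat_lit 407) (nat_lit 285)) (XT.lf (nat_lit 0) (nat_lit 9470187925) (nat_lit 836) (nat_lit 753107800) (nat_lit 76) (nat_lit 1139965448) (nat_lit 305) (nat_lit 5) (nat_lit 316) (nat_lit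 5) (nat_lit 306) (nat_lit 5) (nat_lit 449) (nat_lit 407) (nat_lit 284)))))) (XT.nd (nat_lit 390) (nat_lit 2128) (nat_lit 0) (XT.nd (nat_lit 156) (nat_lit 684) (nat_lit 0) (XT.nd (nat_lit 78) (nat_lit 836) (nat_lit 0) (XT.lf (nat_lit 0) (nat_lit 5512308595) (nat_lit 760) (nat_lit 5957544340) (nat_lit 836) (nat_lit 14066384) (nat_lit 295) (nat_lit 5) (nat_lit 305) (nat_lit 5) (nat_lit 306) (nat_lit 5) (nat_lit 450) (nat_lit 407) (nat_lit 283)) (XT.lf (nat_lit 0) (nat_lit 280334939) (nat_lit 760) (nat_lit 1587832029) (nat_lit 836) (nat_lit 9738772072) (nat_lit 284) (nat_lit 5) (nat_lit 294) (nat_lit 5) (nat_lit 295) (nat_lit 5) (nat_lit 451) (nat_lit 407) (nat_lit 282))) (XT.nd (nat_lit 78) (nat_lit 684) (nat_lit 0) (XT.lf (nat_lit 0) (nat_lit 3830716045) (nat_lit 836) (nat_lit 5029855684) (nat_lit 76) (nat_lit 2870995661) (nat_lit 284) (nat_lit 5) (nat_lit 295) (nat_lit 5) (nat_lit 285) (nat_lit 5) (nat_lit 452)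 (nat_lit 407) (nat_lit 281)) (XT.nd (nat_lit 78) (nat_lit 0) (nat_lit 0) (XT.lf (nat_lit 0) (nat_lit 1383281217) (nat_lit 684) (nat_lit 4452939315) (nat_lit 760) (nat_lit 6022400826) (nat_lit 275) (nat_lit 5) (nat_lit 284) (nat_lit 5) (nat_lit 285) (nat_lit 5) (nat_lit 453) (nat_lit 407) (nat_lit 280)) (XT.lf (nat_lit 0) (nat_lit 7900486970) (nat_lit 760) (nat_lit 4012550566) (nat_lit 76) (nat_lit 74812829) (nat_lit 275) (nat_lit 5) (nat_lit 285) (nat_lit 5) (nat_lit 276) (nat_lit 5) (nat_lit 454) (nat_lit 407) (nat_lit 279))))) (XT.nd (nat_lit 156) (nat_lit 1444) (nat_lit 0) (XT.nd (nat_lit 78) (nat_lit 0) (nat_lit 0) (XT.lf (nat_lit 0) (nat_lit 2566638251) (nat_lit 684) (nat_lit 7470257575) (nat_lit 760) (nat_lit 2082157847) (nat_lit 266) (nat_lit 5) (nat_lit 275) (nat_lit 5) (nat_lit 276) (nat_lit 5) (nat_lit 455) (nat_lit 407) (nat_lit 278)) (XT.lf (nat_lit 0) (nat_lit 9314885249) (nat_lit 684) (nat_lit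 2912967148) (nat_lit 760) (nat_lit 24798986) (nat_lit 266) (nat_lit 5) (nat_lit 275) (nat_lit 5) (nat_lit 276) (nat_lit 5) (nat_lit 456) (nat_lit 407) (nat_lit 277))) (XT.nd (nat_lit 78) (nat_lit 684) (nat_lit 0) (XT.lf (nat_lit 0) (nat_lit 2067965628) (nat_lit 760) (nat_lit 8570826375) (nat_lit 76) (nat_lit 1749437120) (nat_lit 256) (nat_lit 5) (nat_lit 266) (nat_lit 5) (nat_lit 257) (nat_lit 5) (nat_lit 457) (nat_lit 407) (nat_lit 276)) (XT.nd (nat_lit 78) (nat_lit 684) (nat_lit 0) (XT.lf (nat_lit 0) (nat_lit 4226645816) (nat_lit 760) (nat_lit 1815180501) (nat_lit 76) (nat_lit 6484207315) (nat_lit 256) (nat_lit 5) (nat_lit 266) (nat_lit 5) (nat_lit 257) (nat_lit 5) (nat_lit 458) (nat_lit 407) (nat_lit 275)) (XT.lf (nat_lit 0) (nat_lit 5126174078) (nat_lit 684) (nat_lit 1321153486) (nat_lit 760) (nat_lit 6218896322) (nat_lit 247) (nat_lit 5) (nat_lit 256) (nat_lit 5) (nat_lit 257) (nat_lit 5) (nat_lit 459)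 (nat_lit 407) (nat_lit 274))))))) (XT.nd (nat_lit 780) (nat_lit 3192) (nat_lit 0) (XT.nd (nat_lit 390) (nat_lit 1216) (nat_lit 0) (XT.nd (nat_lit 156) (nat_lit 1292) (nat_lit 0) (XT.nd (nat_lit 78) (nat_lit 608) (nat_lit 0) (XT.lf (nat_lit 0) (nat_lit 8733076335) (nat_lit 760) (nat_lit 617581466) (nat_lit 76) (nat_lit 3458153170) (nat_lit 247) (nat_lit 5) (nat_lit 257) (nat_lit 5) (nat_lit 248) (nat_lit 5) (nat_lit 460) (nat_lit 407) (nat_lit 273)) (XT.lf (nat_lit 0) (nat_lit 6503407158) (nat_lit 608) (nat_lit 4598093944) (nat_lit 684) (nat_lit 1852015447) (nat_lit 239) (nat_lit 5) (nat_lit 247) (nat_lit 5) (nat_lit 248) (nat_lit 5) (nat_lit 461) (nat_lit 407) (nat_lit 272))) (XT.nd (nat_lit 78) (nat_lit 608) (nat_lit 0) (XT.lf (nat_lit 0) (nat_lit 406935376) (nat_lit 684) (nat_lit 12439283047) (nat_lit 76) (nat_lit 254925206) (nat_lit 230) (nat_lit 5) (nat_lit 239) (nat_lit 5) (nat_lit 231) (nat_lit 5) (nat_lit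 462) (nat_lit 407) (nat_lit 271)) (XT.nd (nat_lit 78) (nat_lit 608) (nat_lit 0) (XT.lf (nat_lit 0) (nat_lit 2746518651) (nat_lit 684) (nat_lit 5307067882) (nat_lit 76) (nat_lit 5196692471) (nat_lit 230) (nat_lit 5) (nat_lit 239) (nat_lit 5) (nat_lit 231) (nat_lit 5) (nat_lit 463) (nat_lit 407) (nat_lit 270)) (XT.lf (nat_lit 0) (nat_lit 1977341851) (nat_lit 608) (nat_lit 3154867909) (nat_lit 684) (nat_lit 8270206522) (nat_lit 222) (nat_lit 5) (nat_lit 230) (nat_lit 5) (nat_lit 231) (nat_lit 5) (nat_lit 464) (nat_lit 407) (nat_lit 269))))) (XT.nd (nat_lit 156) (nat_lit 608) (nat_lit 0) (XT.nd (nat_lit 78) (nat_lit 608) (nat_lit 0) (XT.lf (nat_lit 0) (nat_lit 7600040623) (nat_lit 684) (nat_lit 4106228658) (nat_lit 76) (nat_lit 1850643917) (nat_lit 222) (nat_lit 5) (nat_lit 231) (nat_lit 5) (nat_lit 223) (nat_lit 5) (nat_lit 465) (nat_lit 407) (nat_lit 268)) (XT.lf (nat_lit 0) (nat_lit 3366042314) (nat_lit 608)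 (nat_lit 6780814427) (nat_lit 684) (nat_lit 3567056041) (nat_lit 214) (nat_lit 5) (nat_lit 222) (nat_lit 5) (nat_lit 223) (nat_lit 5) (nat_lit 466) (nat_lit 407) (nat_lit 267))) (XT.nd (nat_lit 78) (nat_lit 608) (nat_lit 0) (XT.lf (nat_lit 0) (nat_lit 11027321525) (nat_lit 608) (nat_lit 1731876224) (nat_lit 684) (nat_lit 1114568039) (nat_lit 214) (nat_lit 5) (nat_lit 222) (nat_lit 5) (nat_lit 223) (nat_lit 5) (nat_lit 467) (nat_lit 407) (nat_lit 266)) (XT.nd (nat_lit 78) (nat_lit 0) (nat_lit 0) (XT.lf (nat_lit 0) (nat_lit 1409865279) (nat_lit 608) (nat_lit 9215135423) (nat_lit 76) (nat_lit 3410818329) (nat_lit 206) (nat_lit 5) (nat_lit 214) (nat_lit 5) (nat_lit 207) (nat_lit 5) (nat_lit 468) (nat_lit 407) (nat_lit 265)) (XT.lf (nat_lit 0) (nat_lit 3987900109) (nat_lit 608) (nat_lit 1556059970) (nat_lit 76) (nat_lit 8656650075) (nat_lit 206) (nat_lit 5) (nat_lit 214) (nat_lit 5) (nat_lit 207) (nat_lit 5) (nat_lit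 469) (nat_lit 407) (nat_lit 264)))))) (XT.nd (nat_lit 390) (nat_lit 1520) (nat_lit 0) (XT.nd (nat_lit 156) (nat_lit 1140) (nat_lit 0) (XT.nd (nat_lit 78) (nat_lit 0) (nat_lit 0) (XT.lf (nat_lit 0) (nat_lit 6323354540) (nat_lit 532) (nat_lit 322770964) (nat_lit 608) (nat_lit 7722003803) (nat_lit 199) (nat_lit 5) (nat_lit 206) (nat_lit 5) (nat_lit 207) (nat_lit 5) (nat_lit 470) (nat_lit 407) (nat_lit 263)) (XT.lf (nat_lit 0) (nat_lit 9388202669) (nat_lit 608) (nat_lit 205789778) (nat_lit 76) (nat_lit 4944397360) (nat_lit 199) (nat_lit 5) (nat_lit 207) (nat_lit 5) (nat_lit 200) (nat_lit 5) (nat_lit 471) (nat_lit 407) (nat_lit 262))) (XT.nd (nat_lit 78) (nat_lit 608) (nat_lit 0) (XT.lf (nat_lit 0) (nat_lit 7875539216) (nat_lit 532) (nat_lit 4350788588) (nat_lit 608) (nat_lit 2484908202) (nat_lit 192) (nat_lit 5) (nat_lit 199) (nat_lit 5) (nat_lit 200) (nat_lit 5) (nat_lit 472) (nat_lit 407) (nat_lit 261)) (XT.nd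 (nat_lit 78) (nat_lit 0) (nat_lit 0) (XT.lf (nat_lit 0) (nat_lit 234517488) (nat_lit 608) (nat_lit 13661323571) (nat_lit 76) (nat_lit 991594049) (nat_lit 184) (nat_lit 5) (nat_lit 192) (nat_lit 5) (nat_lit 185) (nat_lit 5) (nat_lit 473) (nat_lit 407) (nat_lit 260)) (XT.lf (nat_lit 0) (nat_lit 3038176925) (nat_lit 608) (nat_lit 5585762259) (nat_lit 76) (nat_lit 6441632490) (nat_lit 184) (nat_lit 5) (nat_lit 192) (nat_lit 5) (nat_lit 185) (nat_lit 5) (nat_lit 474) (nat_lit 407) (nat_lit 259))))) (XT.nd (nat_lit 234) (nat_lit 532) (nat_lit 0) (XT.nd (nat_lit 78) (nat_lit 532) (nat_lit 0) (XT.lf (nat_lit 0) (nat_lit 2670884608) (nat_lit 456) (nat_lit 3232698425) (nat_lit 532) (nat_lit 9343578734) (nat_lit 178) (nat_lit 5) (nat_lit 184) (nat_lit 5) (nat_lit 185) (nat_lit 5) (nat_lit 475) (nat_lit 407) (nat_lit 258)) (XT.nd (nat_lit 78) (nat_lit 532) (nat_lit 0) (XT.lf (nat_lit 0) (nat_lit 8867180320) (nat_lit 532)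 (nat_lit 4293779408) (nat_lit 76) (nat_lit 2270610455) (nat_lit 178) (nat_lit 5) (nat_lit 185) (nat_lit 5) (nat_lit 179) (nat_lit 5) (nat_lit 476) (nat_lit 407) (nat_lit 257)) (XT.lf (nat_lit 0) (nat_lit 4172423636) (nat_lit 532) (nat_lit 7754788046) (nat_lit 608) (nat_lit 3691715944) (nat_lit 171) (nat_lit 5) (nat_lit 178) (nat_lit 5) (nat_lit 179) (nat_lit 5) (nat_lit 477) (nat_lit 407) (nat_lit 256)))) (XT.nd (nat_lit 78) (nat_lit 532) (nat_lit 0) (XT.lf (nat_lit 0) (nat_lit 12850996286) (nat_lit 532) (nat_lit 2215048168) (nat_lit 608) (nat_lit 743639769) (nat_lit 171) (nat_lit 5) (nat_lit 178) (nat_lit 5) (nat_lit 179) (nat_lit 5) (nat_lit 478) (nat_lit 407) (nat_lit 255)) (XT.nd (nat_lit 78) (nat_lit 0) (nat_lit 0) (XT.lf (nat_lit 0) (nat_lit 2282564894) (nat_lit 532) (nat_lit 10281547724) (nat_lit 76) (nat_lit 3438876249) (nat_lit 164) (nat_lit 5) (nat_lit 171) (nat_lit 5) (nat_lit 165) (nat_lit 5) (nat_lit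 479) (nat_lit 407) (nat_lit 254)) (XT.lf (nat_lit 0) (nat_lit 5383025577) (nat_lit 532) (nat_lit 1619319173) (nat_lit 76) (nat_lit 9197246548) (nat_lit 164) (nat_lit 5) (nat_lit 171) (nat_lit 5) (nat_lit 165) (nat_lit 5) (nat_lit 480) (nat_lit 407) (nat_lit 253))))))))
noncomputable def xc169 : XT := (XT.nd (nat_lit 53664) (nat_lit 0) (nat_lit 27360) (XT.nd (nat_lit 780) (nat_lit 2280) (nat_lit 0) (XT.nd (nat_lit 390) (nat_lit 1292) (nat_lit 0) (XT.nd (nat_lit 156) (nat_lit 988) (nat_lit 0) (XT.nd (nat_lit 78) (nat_lit 0) (nat_lit 0) (XT.lf (nat_lit 0) (nat_lit 7297042433) (nat_lit 456) (nat_lit 1285070401) (nat_lit 532) (nat_lit 7817284311) (nat_lit 158) (nat_lit 5) (nat_lit 164) (nat_lit 5) (nat_lit 165) (nat_lit 5) (nat_lit 481) (nat_lit 407) (nat_lit 252)) (XT.lf (nat_lit 0) (nat_lit 11874968616) (nat_lit 532) (nat_lit 233797563) (nat_lit 76) (nat_lit 4493840836) (nat_lit 158) (nat_lit 5) (nat_lit 165) (nat_lit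 5) (nat_lit 159) (nat_lit 5) (nat_lit 482) (nat_lit 407) (nat_lit 251))) (XT.nd (nat_lit 78) (nat_lit 532) (nat_lit 0) (XT.lf (nat_lit 0) (nat_lit 8905807702) (nat_lit 456) (nat_lit 6383744971) (nat_lit 532) (nat_lit 1519214555) (nat_lit 152) (nat_lit 5) (nat_lit 158) (nat_lit 5) (nat_lit 159) (nat_lit 5) (nat_lit 483) (nat_lit 407) (nat_lit 250)) (XT.nd (nat_lit 78) (nat_lit 0) (nat_lit 0) (XT.lf (nat_lit 0) (nat_lit 1202066127) (nat_lit 456) (nat_lit 527276898) (nat_lit 532) (nat_lit 15289504147) (nat_lit 145) (nat_lit 5) (nat_lit 151) (nat_lit 5) (nat_lit 152) (nat_lit 5) (nat_lit 484) (nat_lit 407) (nat_lit 249)) (XT.lf (nat_lit 0) (nat_lit 5100953283) (nat_lit 532) (nat_lit 6696267704) (nat_lit 76) (nat_lit 5434141774) (nat_lit 145) (nat_lit 5) (nat_lit 152) (nat_lit 5) (nat_lit 146) (nat_lit 5) (nat_lit 485) (nat_lit 407) (nat_lit 248))))) (XT.nd (nat_lit 156) (nat_lit 912) (nat_lit 0) (XT.nd (nat_lit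 78) (nat_lit 0) (nat_lit 0) (XT.lf (nat_lit 0) (nat_lit 2623110411) (nat_lit 380) (nat_lit 5927270400) (nat_lit 456) (nat_lit 8897543447) (nat_lit 140) (nat_lit 5) (nat_lit 145) (nat_lit 5) (nat_lit 146) (nat_lit 5) (nat_lit 486) (nat_lit 407) (nat_lit 247)) (XT.lf (nat_lit 0) (nat_lit 12104359660) (nat_lit 456) (nat_lit 5463497000) (nat_lit 76) (nat_lit 100252305) (nat_lit 140) (nat_lit 5) (nat_lit 146) (nat_lit 5) (nat_lit 141) (nat_lit 5) (nat_lit 487) (nat_lit 407) (nat_lit 246))) (XT.nd (nat_lit 78) (nat_lit 456) (nat_lit 0) (XT.lf (nat_lit 0) (nat_lit 4085118009) (nat_lit 456) (nat_lit 11700213707) (nat_lit 532) (nat_lit 2106250546) (nat_lit 134) (nat_lit 5) (nat_lit 140) (nat_lit 5) (nat_lit 141) (nat_lit 5) (nat_lit 488) (nat_lit 407) (nat_lit 245)) (XT.nd (nat_lit 78) (nat_lit 380) (nat_lit 0) (XT.lf (nat_lit 0) (nat_lit 1428845799) (nat_lit 532) (nat_lit 4243783975) (nat_lit 76) (nat_lit 12446172326)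 (nat_lit 133) (nat_lit 5) (nat_lit 140) (nat_lit 5) (nat_lit 134) (nat_lit 5) (nat_lit 489) (nat_lit 407) (nat_lit 244)) (XT.lf (nat_lit 0) (nat_lit 5036288282) (nat_lit 456) (nat_lit 12798106689) (nat_lit 76) (nat_lit 515298966) (nat_lit 128) (nat_lit 5) (nat_lit 134) (nat_lit 5) (nat_lit 129) (nat_lit 5) (nat_lit 490) (nat_lit 407) (nat_lit 243)))))) (XT.nd (nat_lit 390) (nat_lit 1444) (nat_lit 0) (XT.nd (nat_lit 156) (nat_lit 456) (nat_lit 0) (XT.nd (nat_lit 78) (nat_lit 380) (nat_lit 0) (XT.lf (nat_lit 0) (nat_lit 8772546833) (nat_lit 456) (nat_lit 3036082758) (nat_lit 76) (nat_lit 6775443604) (nat_lit 128) (nat_lit 5) (nat_lit 134) (nat_lit 5) (nat_lit 129) (nat_lit 5) (nat_lit 491) (nat_lit 407) (nat_lit 242)) (XT.lf (nat_lit 0) (nat_lit 6999168642) (nat_lit 380) (nat_lit 5620426250) (nat_lit 456) (nat_lit 6202826730) (nat_lit 123) (nat_lit 5) (nat_lit 128) (nat_lit 5) (nat_lit 129) (nat_lit 5) (nat_lit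 492) (nat_lit 407) (nat_lit 241))) (XT.nd (nat_lit 78) (nat_lit 456) (nat_lit 0) (XT.lf (nat_lit 0) (nat_lit 16559269640) (nat_lit 456) (nat_lit 1807351673) (nat_lit 76) (nat_lit 698604806) (nat_lit 123) (nat_lit 5) (nat_lit 129) (nat_lit 5) (nat_lit 124) (nat_lit 5) (nat_lit 493) (nat_lit 407) (nat_lit 240)) (XT.nd (nat_lit 78) (nat_lit 0) (nat_lit 0) (XT.lf (nat_lit 0) (nat_lit 1331888117) (nat_lit 456) (nat_lit 10850875187) (nat_lit 76) (nat_lit 7128289346) (nat_lit 117) (nat_lit 5) (nat_lit 123) (nat_lit 5) (nat_lit 118) (nat_lit 5) (nat_lit 494) (nat_lit 407) (nat_lit 239)) (XT.lf (nat_lit 0) (nat_lit 5216073306) (nat_lit 456) (nat_lit 634312122) (nat_lit 76) (nat_lit 13711018881) (nat_lit 117) (nat_lit 5) (nat_lit 123) (nat_lit 5) (nat_lit 118) (nat_lit 5) (nat_lit 495) (nat_lit 407) (nat_lit 238))))) (XT.nd (nat_lit 234) (nat_lit 760) (nat_lit 0) (XT.nd (nat_lit 78) (nat_lit 304) (nat_lit 0) (XT.lf (nat_lit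 0) (nat_lit 9237665208) (nat_lit 456) (nat_lit 9916915500) (nat_lit 76) (nat_lit 660990432) (nat_lit 112) (nat_lit 5) (nat_lit 118) (nat_lit 5) (nat_lit 113) (nat_lit 5) (nat_lit 496) (nat_lit 407) (nat_lit 237)) (XT.nd (nat_lit 78) (nat_lit 0) (nat_lit 0) (XT.lf (nat_lit 0) (nat_lit 530901082) (nat_lit 304) (nat_lit 12846400637) (nat_lit 380) (nat_lit 6696769883) (nat_lit 108) (nat_lit 5) (nat_lit 112) (nat_lit 5) (nat_lit 113) (nat_lit 5) (nat_lit 497) (nat_lit 407) (nat_lit 236)) (XT.lf (nat_lit 0) (nat_lit 11308754612) (nat_lit 304) (nat_lit 6348747987) (nat_lit 380) (nat_lit 2679086541) (nat_lit 108) (nat_lit 5) (nat_lit 112) (nat_lit 5) (nat_lit 113) (nat_lit 5) (nat_lit 498) (nat_lit 407) (nat_lit 235)))) (XT.nd (nat_lit 78) (nat_lit 304) (nat_lit 0) (XT.lf (nat_lit 0) (nat_lit 1404614672) (nat_lit 456) (nat_lit 18908384188) (nat_lit 76) (nat_lit 291090835) (nat_lit 102) (nat_lit 5) (nat_lit 108) (nat_lit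 5) (nat_lit 103) (nat_lit 5) (nat_lit 499) (nat_lit 407) (nat_lit 234)) (XT.nd (nat_lit 78) (nat_lit 304) (nat_lit 0) (XT.lf (nat_lit 0) (nat_lit 5628569754) (nat_lit 456) (nat_lit 8193085059) (nat_lit 76) (nat_lit 7053044572) (nat_lit 102) (nat_lit 5) (nat_lit 108) (nat_lit 5) (nat_lit 103) (nat_lit 5) (nat_lit 500) (nat_lit 407) (nat_lit 233)) (XT.lf (nat_lit 0) (nat_lit 2759714934) (nat_lit 304) (nat_lit 7186767557) (nat_lit 380) (nat_lit 11204051516) (nat_lit 98) (nat_lit 5) (nat_lit 102) (nat_lit 5) (nat_lit 103) (nat_lit 5) (nat_lit 501) (nat_lit 407) (nat_lit 232))))))) (XT.nd (nat_lit 780) (nat_lit 1292) (nat_lit 0) (XT.nd (nat_lit 390) (nat_lit 1292) (nat_lit 0) (XT.nd (nat_lit 156) (nat_lit 1368) (nat_lit 0) (XT.nd (nat_lit 78) (nat_lit 0) (nat_lit 0) (XT.lf (nat_lit 0) (nat_lit 1403639990) (nat_lit 0) (nat_lit 1403639990) (nat_lit 1292) (nat_lit 1169992166) (nat_lit 510) (nat_lit 5) (nat_lit 510)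 (nat_lit 3) (nat_lit 527) (nat_lit 3) (nat_lit 408) (nat_lit 408) (nat_lit 324)) (XT.lf (nat_lit 0) (nat_lit 6625754500) (nat_lit 0) (nat_lit 238409410) (nat_lit 1292) (nat_lit 1145338496) (nat_lit 510) (nat_lit 5) (nat_lit 510) (nat_lit 3) (nat_lit 527) (nat_lit 3) (nat_lit 409) (nat_lit 408) (nat_lit 323))) (XT.nd (nat_lit 78) (nat_lit 0) (nat_lit 0) (XT.lf (nat_lit 0) (nat_lit 72426180) (nat_lit 1368) (nat_lit 5610672850) (nat_lit 1444) (nat_lit 2382465896) (nat_lit 492) (nat_lit 5) (nat_lit 510) (nat_lit 5) (nat_lit 511) (nat_lit 5) (nat_lit 410) (nat_lit 408) (nat_lit 322)) (XT.nd (nat_lit 78) (nat_lit 0) (nat_lit 0) (XT.lf (nat_lit 0) (nat_lit 1279231767) (nat_lit 1368) (nat_lit 1759446537) (nat_lit 1444) (nat_lit 5084336653) (nat_lit 492) (nat_lit 5) (nat_lit 510) (nat_lit 5) (nat_lit 511) (nat_lit 5) (nat_lit 411) (nat_lit 408) (nat_lit 321)) (XT.lf (nat_lit 76) (nat_lit 2181016478) (nat_lit 0) (nat_lit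 313005161) (nat_lit 1444) (nat_lit 5687933134) (nat_lit 493) (nat_lit 5) (nat_lit 492) (nat_lit 5) (nat_lit 511) (nat_lit 5) (nat_lit 412) (nat_lit 408) (nat_lit 320))))) (XT.nd (nat_lit 156) (nat_lit 1368) (nat_lit 0) (XT.nd (nat_lit 78) (nat_lit 0) (nat_lit 0) (XT.lf (nat_lit 0) (nat_lit 3731275000) (nat_lit 1368) (nat_lit 2050781695) (nat_lit 1444) (nat_lit 2460070741) (nat_lit 493) (nat_lit 5) (nat_lit 511) (nat_lit 5) (nat_lit 512) (nat_lit 5) (nat_lit 413) (nat_lit 408) (nat_lit 319)) (XT.lf (nat_lit 76) (nat_lit 1985694771) (nat_lit 0) (nat_lit 2993391150) (nat_lit 1444) (nat_lit 3324718444) (nat_lit 494) (nat_lit 5) (nat_lit 493) (nat_lit 5) (nat_lit 512) (nat_lit 5) (nat_lit 414) (nat_lit 408) (nat_lit 318))) (XT.nd (nat_lit 78) (nat_lit 1368) (nat_lit 0) (XT.lf (nat_lit 76) (nat_lit 6114156087) (nat_lit 0) (nat_lit 122770176) (nat_lit 1444) (nat_lit 2130103832) (nat_lit 494) (nat_lit 5) (nat_lit 493)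 (nat_lit 5) (nat_lit 512) (nat_lit 5) (nat_lit 415) (nat_lit 408) (nat_lit 317)) (XT.nd (nat_lit 78) (nat_lit 1444) (nat_lit 0) (XT.lf (nat_lit 76) (nat_lit 1883276760) (nat_lit 0) (nat_lit 5639038971) (nat_lit 1444) (nat_lit 909173162) (nat_lit 495) (nat_lit 5) (nat_lit 494) (nat_lit 5) (nat_lit 513) (nat_lit 5) (nat_lit 416) (nat_lit 408) (nat_lit 316)) (XT.lf (nat_lit 0) (nat_lit 319991886) (nat_lit 1444) (nat_lit 2384491192) (nat_lit 1520) (nat_lit 5792961402) (nat_lit 475) (nat_lit 5) (nat_lit 494) (nat_lit 5) (nat_lit 495) (nat_lit 5) (nat_lit 417) (nat_lit 408) (nat_lit 315)))))) (XT.nd (nat_lit 390) (nat_lit 1368) (nat_lit 0) (XT.nd (nat_lit 156) (nat_lit 0) (nat_lit 0) (XT.nd (nat_lit 78) (nat_lit 0) (nat_lit 0) (XT.lf (nat_lit 0) (nat_lit 1548482446) (nat_lit 1444) (nat_lit 6702862101) (nat_lit 1520) (nat_lit 313531571) (nat_lit 476) (nat_lit 5) (nat_lit 495) (nat_lit 5) (nat_lit 496) (nat_lit 5) (nat_lit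 418) (nat_lit 408) (nat_lit 314)) (XT.lf (nat_lit 0) (nat_lit 2808791194) (nat_lit 1444) (nat_lit 2442901518) (nat_lit 1520) (nat_lit 3381833861) (nat_lit 476) (nat_lit 5) (nat_lit 495) (nat_lit 5) (nat_lit 496) (nat_lit 5) (nat_lit 419) (nat_lit 408) (nat_lit 313))) (XT.nd (nat_lit 78) (nat_lit 0) (nat_lit 76) (XT.lf (nat_lit 76) (nat_lit 1910331799) (nat_lit 0) (nat_lit 2170133079) (nat_lit 1520) (nat_lit 4623376837) (nat_lit 477) (nat_lit 5) (nat_lit 476) (nat_lit 5) (nat_lit 496) (nat_lit 5) (nat_lit 420) (nat_lit 408) (nat_lit 312)) (XT.nd (nat_lit 78) (nat_lit 0) (nat_lit 0) (XT.lf (nat_lit 0) (nat_lit 5374610424) (nat_lit 1444) (nat_lit 2415376335) (nat_lit 1520) (nat_lit 985650195) (nat_lit 477) (nat_lit 5) (nat_lit 496) (nat_lit 5) (nat_lit 497) (nat_lit 5) (nat_lit 421) (nat_lit 408) (nat_lit 311)) (XT.lf (nat_lit 76) (nat_lit 2045661021) (nat_lit 0) (nat_lit 4651355832) (nat_lit 1520) (nat_lit 2151817962)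 (nat_lit 478) (nat_lit 5) (nat_lit 477) (nat_lit 5) (nat_lit 497) (nat_lit 5) (nat_lit 422) (nat_lit 408) (nat_lit 310))))) (XT.nd (nat_lit 234) (nat_lit 0) (nat_lit 0) (XT.nd (nat_lit 78) (nat_lit 1444) (nat_lit 0) (XT.lf (nat_lit 76) (nat_lit 6611656427) (nat_lit 0) (nat_lit 1425533073) (nat_lit 1520) (nat_lit 886494768) (nat_lit 478) (nat_lit 5) (nat_lit 477) (nat_lit 5) (nat_lit 497) (nat_lit 5) (nat_lit 423) (nat_lit 408) (nat_lit 309)) (XT.nd (nat_lit 78) (nat_lit 0) (nat_lit 0) (XT.lf (nat_lit 0) (nat_lit 401327265) (nat_lit 1520) (nat_lit 6733260544) (nat_lit 1596) (nat_lit 1865354021) (nat_lit 458) (nat_lit 5) (nat_lit 478) (nat_lit 5) (nat_lit 479) (nat_lit 5) (nat_lit 424) (nat_lit 408) (nat_lit 308)) (XT.lf (nat_lit 0) (nat_lit 1703947134) (nat_lit 1520) (nat_lit 2141966945) (nat_lit 1596) (nat_lit 5231688229) (nat_lit 458) (nat_lit 5) (nat_lit 478) (nat_lit 5) (nat_lit 479) (nat_lit 5) (nat_lit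 425) (nat_lit 408) (nat_lit 307)))) (XT.nd (nat_lit 78) (nat_lit 0) (nat_lit 76) (XT.lf (nat_lit 76) (nat_lit 2557594612) (nat_lit 0) (nat_lit 467946249) (nat_lit 1596) (nat_lit 6131429637) (nat_lit 459) (nat_lit 5) (nat_lit 458) (nat_lit 5) (nat_lit 479) (nat_lit 5) (nat_lit 426) (nat_lit 408) (nat_lit 306)) (XT.nd (nat_lit 78) (nat_lit 0) (nat_lit 0) (XT.lf (nat_lit 0) (nat_lit 4384078933) (nat_lit 1520) (nat_lit 1894393039) (nat_lit 1596) (nat_lit 2959256506) (nat_lit 459) (nat_lit 5) (nat_lit 479) (nat_lit 5) (nat_lit 480) (nat_lit 5) (nat_lit 427) (nat_lit 408) (nat_lit 305)) (XT.lf (nat_lit 76) (nat_lit 2922757116) (nat_lit 0) (nat_lit 2846273878) (nat_lit 1596) (nat_lit 3551098188) (nat_lit 460) (nat_lit 5) (nat_lit 459) (nat_lit 5) (nat_lit 480) (nat_lit 5) (nat_lit 428) (nat_lit 408) (nat_lit 304))))))))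
noncomputable def xc170 : XT := (XT.nd (nat_lit 1638) (nat_lit 7524) (nat_lit 0) (XT.nd (nat_lit 780) (nat_lit 5168) (nat_lit 0) (XT.nd (nat_lit 390) (nat_lit 5016) (nat_lit 0) (XT.nd (nat_lit 156) (nat_lit 1596) (nat_lit 0) (XT.nd (nat_lit 78) (nat_lit 0) (nat_lit 0) (XT.lf (nat_lit 0) (nat_lit 7176268626) (nat_lit 1520) (nat_lit 1563878806) (nat_lit 1596) (nat_lit 664150923) (nat_lit 460) (nat_lit 5) (nat_lit 480) (nat_lit 5) (nat_lit 481) (nat_lit 5) (nat_lit 429) (nat_lit 408) (nat_lit 303)) (XT.lf (nat_lit 76) (nat_lit 3374485590) (nat_lit 0) (nat_lit 5255904782) (nat_lit 1596) (nat_lit 859397698) (nat_lit 461) (nat_lit 5) (nat_lit 460) (nat_lit 5) (nat_lit 481) (nat_lit 5) (nat_lit 430) (nat_lit 408) (nat_lit 302))) (XT.nd (nat_lit 78) (nat_lit 0) (nat_lit 76) (XT.lf (nat_lit 0) (nat_lit 518279210) (nat_lit 1596) (nat_lit 1164910066) (nat_lit 1672) (nat_lit 7893965907) (nat_lit 439) (nat_lit 5) (nat_lit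 460) (nat_lit 5) (nat_lit 461) (nat_lit 5) (nat_lit 431) (nat_lit 408) (nat_lit 301)) (XT.nd (nat_lit 78) (nat_lit 0) (nat_lit 0) (XT.lf (nat_lit 0) (nat_lit 1928960104) (nat_lit 1596) (nat_lit 5765988244) (nat_lit 76) (nat_lit 1970879779) (nat_lit 440) (nat_lit 5) (nat_lit 461) (nat_lit 5) (nat_lit 441) (nat_lit 5) (nat_lit 432) (nat_lit 408) (nat_lit 300)) (XT.lf (nat_lit 0) (nat_lit 3365782198) (nat_lit 1596) (nat_lit 703043510) (nat_lit 76) (nat_lit 5687501305) (nat_lit 440) (nat_lit 5) (nat_lit 461) (nat_lit 5) (nat_lit 441) (nat_lit 5) (nat_lit 433) (nat_lit 408) (nat_lit 299))))) (XT.nd (nat_lit 156) (nat_lit 3496) (nat_lit 0) (XT.nd (nat_lit 78) (nat_lit 0) (nat_lit 0) (XT.lf (nat_lit 0) (nat_lit 4503158974) (nat_lit 1596) (nat_lit 336744455) (nat_lit 1672) (nat_lit 5008572014) (nat_lit 419) (nat_lit 5) (nat_lit 440) (nat_lit 5) (nat_lit 441) (nat_lit 5) (nat_lit 434) (nat_lit 408) (nat_lit 298)) (XT.lf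 (nat_lit 0) (nat_lit 6350428346) (nat_lit 1672) (nat_lit 159306796) (nat_lit 76) (nat_lit 3432603884) (nat_lit 419) (nat_lit 5) (nat_lit 441) (nat_lit 5) (nat_lit 420) (nat_lit 5) (nat_lit 435) (nat_lit 408) (nat_lit 297))) (XT.nd (nat_lit 78) (nat_lit 1824) (nat_lit 0) (XT.lf (nat_lit 0) (nat_lit 5179069250) (nat_lit 1672) (nat_lit 2727992541) (nat_lit 1748) (nat_lit 2130710527) (nat_lit 397) (nat_lit 5) (nat_lit 419) (nat_lit 5) (nat_lit 420) (nat_lit 5) (nat_lit 436) (nat_lit 408) (nat_lit 296)) (XT.nd (nat_lit 78) (nat_lit 76) (nat_lit 0) (XT.lf (nat_lit 0) (nat_lit 472782687) (nat_lit 1748) (nat_lit 9013864816) (nat_lit 1824) (nat_lit 648640578) (nat_lit 374) (nat_lit 5) (nat_lit 397) (nat_lit 5) (nat_lit 398) (nat_lit 5) (nat_lit 437) (nat_lit 408) (nat_lit 295)) (XT.lf (nat_lit 0) (nat_lit 883114414) (nat_lit 1824) (nat_lit 4298741216) (nat_lit 76) (nat_lit 5052168996) (nat_lit 373) (nat_lit 5) (nat_lit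 397) (nat_lit 5) (nat_lit 374) (nat_lit 5) (nat_lit 438) (nat_lit 408) (nat_lit 294)))))) (XT.nd (nat_lit 390) (nat_lit 2432) (nat_lit 0) (XT.nd (nat_lit 156) (nat_lit 1748) (nat_lit 0) (XT.nd (nat_lit 78) (nat_lit 0) (nat_lit 0) (XT.lf (nat_lit 0) (nat_lit 1166127390) (nat_lit 988) (nat_lit 1259130445) (nat_lit 1064) (nat_lit 7909633153) (nat_lit 360) (nat_lit 5) (nat_lit 373) (nat_lit 5) (nat_lit 374) (nat_lit 5) (nat_lit 439) (nat_lit 408) (nat_lit 293)) (XT.lf (nat_lit 0) (nat_lit 4026220801) (nat_lit 1064) (nat_lit 3674083042) (nat_lit 76) (nat_lit 2736920719) (nat_lit 360) (nat_lit 5) (nat_lit 374) (nat_lit 5) (nat_lit 361) (nat_lit 5) (nat_lit 440) (nat_lit 408) (nat_lit 292))) (XT.nd (nat_lit 78) (nat_lit 836) (nat_lit 0) (XT.lf (nat_lit 0) (nat_lit 1930356745) (nat_lit 912) (nat_lit 3731223558) (nat_lit 988) (nat_lit 4879986194) (nat_lit 348) (nat_lit 5) (nat_lit 360) (nat_lit 5) (nat_lit 361) (nat_lit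 5) (nat_lit 441) (nat_lit 408) (nat_lit 291)) (XT.nd (nat_lit 78) (nat_lit 836) (nat_lit 0) (XT.lf (nat_lit 0) (nat_lit 7338290862) (nat_lit 988) (nat_lit 2970418800) (nat_lit 76) (nat_lit 339121786) (nat_lit 348) (nat_lit 5) (nat_lit 361) (nat_lit 5) (nat_lit 349) (nat_lit 5) (nat_lit 442) (nat_lit 408) (nat_lit 290)) (XT.lf (nat_lit 0) (nat_lit 2777868835) (nat_lit 836) (nat_lit 6295536019) (nat_lit 912) (nat_lit 1682328334) (nat_lit 337) (nat_lit 5) (nat_lit 348) (nat_lit 5) (nat_lit 349) (nat_lit 5) (nat_lit 443) (nat_lit 408) (nat_lit 289))))) (XT.nd (nat_lit 234) (nat_lit 1520) (nat_lit 0) (XT.nd (nat_lit 78) (nat_lit 912) (nat_lit 0) (XT.lf (nat_lit 0) (nat_lit 8664457851) (nat_lit 836) (nat_lit 2181060323) (nat_lit 912) (nat_lit 20237551) (nat_lit 337) (nat_lit 5) (nat_lit 348) (nat_lit 5) (nat_lit 349) (nat_lit 5) (nat_lit 444) (nat_lit 408) (nat_lit 288)) (XT.nd (nat_lit 78) (nat_lit 0) (nat_lit 0)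 (XT.lf (nat_lit 0) (nat_lit 1673134642) (nat_lit 912) (nat_lit 7279190902) (nat_lit 76) (nat_lit 2025043840) (nat_lit 325) (nat_lit 5) (nat_lit 337) (nat_lit 5) (nat_lit 326) (nat_lit 5) (nat_lit 445) (nat_lit 408) (nat_lit 287)) (XT.lf (nat_lit 0) (nat_lit 3412239993) (nat_lit 912) (nat_lit 1377193296) (nat_lit 76) (nat_lit 6301544819) (nat_lit 325) (nat_lit 5) (nat_lit 337) (nat_lit 5) (nat_lit 326) (nat_lit 5) (nat_lit 446) (nat_lit 408) (nat_lit 286)))) (XT.nd (nat_lit 78) (nat_lit 760) (nat_lit 0) (XT.lf (nat_lit 0) (nat_lit 4687576596) (nat_lit 760) (nat_lit 512145160) (nat_lit 836) (nat_lit 6006873402) (nat_lit 315) (nat_lit 5) (nat_lit 325) (nat_lit 5) (nat_lit 326) (nat_lit 5) (nat_lit 447) (nat_lit 408) (nat_lit 285)) (XT.nd (nat_lit 78) (nat_lit 760) (nat_lit 0) (XT.lf (nat_lit 0) (nat_lit 7040638807) (nat_lit 836) (nat_lit 474068080) (nat_lit 76) (nat_lit 3809471832) (nat_lit 315) (nat_lit 5) (nat_lit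 326) (nat_lit 5) (nat_lit 316) (nat_lit 5) (nat_lit 448) (nat_lit 408) (nat_lit 284)) (XT.lf (nat_lit 0) (nat_lit 5747121073) (nat_lit 760) (nat_lit 3195666320) (nat_lit 836) (nat_lit 2500846022) (nat_lit 305) (nat_lit 5) (nat_lit 315) (nat_lit 5) (nat_lit 316) (nat_lit 5) (nat_lit 449) (nat_lit 408) (nat_lit 283))))))) (XT.nd (nat_lit 780) (nat_lit 3800) (nat_lit 0) (XT.nd (nat_lit 390) (nat_lit 1444) (nat_lit 0) (XT.nd (nat_lit 156) (nat_lit 1444) (nat_lit 0) (XT.nd (nat_lit 78) (nat_lit 76) (nat_lit 0) (XT.lf (nat_lit 0) (nat_lit 515775512) (nat_lit 760) (nat_lit 10365525599) (nat_lit 836) (nat_lit 684217226) (nat_lit 295) (nat_lit 5) (nat_lit 305) (nat_lit 5) (nat_lit 306) (nat_lit 5) (nat_lit 450) (nat_lit 408) (nat_lit 282)) (XT.lf (nat_lit 0) (nat_lit 1197069659) (nat_lit 836) (nat_lit 4805523123) (nat_lit 76) (nat_lit 5686230614) (nat_lit 294) (nat_lit 5) (nat_lit 305) (nat_lit 5) (nat_lit 295) (nat_lit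 5) (nat_lit 451) (nat_lit 408) (nat_lit 281))) (XT.nd (nat_lit 78) (nat_lit 684) (nat_lit 0) (XT.lf (nat_lit 0) (nat_lit 1562911544) (nat_lit 760) (nat_lit 1538389305) (nat_lit 836) (nat_lit 8713320788) (nat_lit 284) (nat_lit 5) (nat_lit 294) (nat_lit 5) (nat_lit 295) (nat_lit 5) (nat_lit 452) (nat_lit 408) (nat_lit 280)) (XT.nd (nat_lit 78) (nat_lit 684) (nat_lit 0) (XT.lf (nat_lit 0) (nat_lit 5080171289) (nat_lit 836) (nat_lit 3855061729) (nat_lit 76) (nat_lit 3006978731) (nat_lit 284) (nat_lit 5) (nat_lit 295) (nat_lit 5) (nat_lit 285) (nat_lit 5) (nat_lit 453) (nat_lit 408) (nat_lit 279)) (XT.lf (nat_lit 0) (nat_lit 2677947179) (nat_lit 684) (nat_lit 4433068013) (nat_lit 760) (nat_lit 4961097414) (nat_lit 275) (nat_lit 5) (nat_lit 284) (nat_lit 5) (nat_lit 285) (nat_lit 5) (nat_lit 454) (nat_lit 408) (nat_lit 278))))) (XT.nd (nat_lit 156) (nat_lit 760) (nat_lit 0) (XT.nd (nat_lit 78) (nat_lit 684) (nat_lit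 0) (XT.lf (nat_lit 0) (nat_lit 9194553078) (nat_lit 760) (nat_lit 2828120920) (nat_lit 76) (nat_lit 181702665) (nat_lit 275) (nat_lit 5) (nat_lit 285) (nat_lit 5) (nat_lit 276) (nat_lit 5) (nat_lit 455) (nat_lit 408) (nat_lit 277)) (XT.lf (nat_lit 0) (nat_lit 3874331406) (nat_lit 684) (nat_lit 7485240215) (nat_lit 760) (nat_lit 978924778) (nat_lit 266) (nat_lit 5) (nat_lit 275) (nat_lit 5) (nat_lit 276) (nat_lit 5) (nat_lit 456) (nat_lit 408) (nat_lit 276))) (XT.nd (nat_lit 78) (nat_lit 684) (nat_lit 0) (XT.lf (nat_lit 0) (nat_lit 1082743613) (nat_lit 760) (nat_lit 1749430322) (nat_lit 76) (nat_lit 9642899432) (nat_lit 265) (nat_lit 5) (nat_lit 275) (nat_lit 5) (nat_lit 266) (nat_lit 5) (nat_lit 457) (nat_lit 408) (nat_lit 275)) (XT.nd (nat_lit 78) (nat_lit 0) (nat_lit 0) (XT.lf (nat_lit 0) (nat_lit 3204294093) (nat_lit 760) (nat_lit 7482107544) (nat_lit 76) (nat_lit 1927221911) (nat_lit 256) (nat_lit 5) (nat_lit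 266) (nat_lit 5) (nat_lit 257) (nat_lit 5) (nat_lit 458) (nat_lit 408) (nat_lit 274)) (XT.lf (nat_lit 0) (nat_lit 5384677901) (nat_lit 760) (nat_lit 616057288) (nat_lit 76) (nat_lit 6753887587) (nat_lit 256) (nat_lit 5) (nat_lit 266) (nat_lit 5) (nat_lit 257) (nat_lit 5) (nat_lit 459) (nat_lit 408) (nat_lit 273)))))) (XT.nd (nat_lit 390) (nat_lit 1824) (nat_lit 0) (XT.nd (nat_lit 156) (nat_lit 684) (nat_lit 0) (XT.nd (nat_lit 78) (nat_lit 608) (nat_lit 0) (XT.lf (nat_lit 0) (nat_lit 6455996574) (nat_lit 684) (nat_lit 1180696146) (nat_lit 760) (nat_lit 5261194777) (nat_lit 247) (nat_lit 5) (nat_lit 256) (nat_lit 5) (nat_lit 257) (nat_lit 5) (nat_lit 460) (nat_lit 408) (nat_lit 272)) (XT.lf (nat_lit 0) (nat_lit 601362093) (nat_lit 608) (nat_lit 9350968545) (nat_lit 684) (nat_lit 3091321074) (nat_lit 239) (nat_lit 5) (nat_lit 247) (nat_lit 5) (nat_lit 248) (nat_lit 5) (nat_lit 461) (nat_lit 408) (nat_lit 271)))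 (XT.nd (nat_lit 78) (nat_lit 684) (nat_lit 0) (XT.lf (nat_lit 0) (nat_lit 7848834781) (nat_lit 608) (nat_lit 4502869946) (nat_lit 684) (nat_lit 839883758) (nat_lit 239) (nat_lit 5) (nat_lit 247) (nat_lit 5) (nat_lit 248) (nat_lit 5) (nat_lit 462) (nat_lit 408) (nat_lit 270)) (XT.nd (nat_lit 78) (nat_lit 0) (nat_lit 0) (XT.lf (nat_lit 0) (nat_lit 1439402567) (nat_lit 684) (nat_lit 11447021284) (nat_lit 76) (nat_lit 455838045) (nat_lit 230) (nat_lit 5) (nat_lit 239) (nat_lit 5) (nat_lit 231) (nat_lit 5) (nat_lit 463) (nat_lit 408) (nat_lit 269)) (XT.lf (nat_lit 0) (nat_lit 3805692636) (nat_lit 684) (nat_lit 4196496079) (nat_lit 76) (nat_lit 5492601159) (nat_lit 230) (nat_lit 5) (nat_lit 239) (nat_lit 5) (nat_lit 231) (nat_lit 5) (nat_lit 464) (nat_lit 408) (nat_lit 268))))) (XT.nd (nat_lit 234) (nat_lit 608) (nat_lit 0) (XT.nd (nat_lit 78) (nat_lit 608) (nat_lit 0) (XT.lf (nat_lit 0) (nat_lit 3225597157) (nat_lit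 608) (nat_lit 3001657096) (nat_lit 684) (nat_lit 7422960546) (nat_lit 222) (nat_lit 5) (nat_lit 230) (nat_lit 5) (nat_lit 231) (nat_lit 5) (nat_lit 465) (nat_lit 408) (nat_lit 267)) (XT.nd (nat_lit 78) (nat_lit 608) (nat_lit 0) (XT.lf (nat_lit 0) (nat_lit 8726359783) (nat_lit 684) (nat_lit 2984869054) (nat_lit 76) (nat_lit 2096942335) (nat_lit 222) (nat_lit 5) (nat_lit 231) (nat_lit 5) (nat_lit 223) (nat_lit 5) (nat_lit 466) (nat_lit 408) (nat_lit 266)) (XT.lf (nat_lit 0) (nat_lit 4628929679) (nat_lit 608) (nat_lit 6683840674) (nat_lit 684) (nat_lit 2655774956) (nat_lit 214) (nat_lit 5) (nat_lit 222) (nat_lit 5) (nat_lit 223) (nat_lit 5) (nat_lit 467) (nat_lit 408) (nat_lit 265)))) (XT.nd (nat_lit 78) (nat_lit 608) (nat_lit 0) (XT.lf (nat_lit 0) (nat_lit 12419991993) (nat_lit 608) (nat_lit 1538484295) (nat_lit 684) (nat_lit 173504296) (nat_lit 214) (nat_lit 5) (nat_lit 222) (nat_lit 5) (nat_lit 223) (nat_lit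 5) (nat_lit 468) (nat_lit 408) (nat_lit 264)) (XT.nd (nat_lit 78) (nat_lit 0) (nat_lit 0) (XT.lf (nat_lit 0) (nat_lit 2379328281) (nat_lit 608) (nat_lit 8204489559) (nat_lit 76) (nat_lit 3713528332) (nat_lit 206) (nat_lit 5) (nat_lit 214) (nat_lit 5) (nat_lit 207) (nat_lit 5) (nat_lit 469) (nat_lit 408) (nat_lit 263)) (XT.lf (nat_lit 0) (nat_lit 4990467618) (nat_lit 608) (nat_lit 415662961) (nat_lit 76) (nat_lit 9059678799) (nat_lit 206) (nat_lit 5) (nat_lit 214) (nat_lit 5) (nat_lit 207) (nat_lit 5) (nat_lit 470) (nat_lit 408) (nat_lit 262))))))))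
noncomputable def xc171 : XT := (XT.nd (nat_lit 1638) (nat_lit 1976) (nat_lit 0) (XT.nd (nat_lit 780) (nat_lit 2736) (nat_lit 0) (XT.nd (nat_lit 390) (nat_lit 1520) (nat_lit 0) (XT.nd (nat_lit 156) (nat_lit 608) (nat_lit 0) (XT.nd (nat_lit 78) (nat_lit 532) (nat_lit 0) (XT.lf (nat_lit 0) (nat_lit 7613632482) (nat_lit 532) (nat_lit 77686967) (nat_lit 608) (nat_lit 6945577223) (nat_lit 199) (nat_lit 5) (nat_lit 206) (nat_lit 5) (nat_lit 207) (nat_lit 5) (nat_lit 471) (nat_lit 408) (nat_lit 261)) (XT.lf (nat_lit 0) (nat_lit 960309560) (nat_lit 532) (nat_lit 9517877026) (nat_lit 608) (nat_lit 4332583686) (nat_lit 192) (nat_lit 5) (nat_lit 199) (nat_lit 5) (nat_lit 200) (nat_lit 5) (nat_lit 472) (nat_lit 408) (nat_lit 260))) (XT.nd (nat_lit 78) (nat_lit 608) (nat_lit 0) (XT.lf (nat_lit 0) (nat_lit 9183054578) (nat_lit 532) (nat_lit 4173682941) (nat_lit 608) (nat_lit 1630669335) (nat_lit 192) (nat_lit 5) (nat_lit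 199) (nat_lit 5) (nat_lit 200) (nat_lit 5) (nat_lit 473) (nat_lit 408) (nat_lit 259)) (XT.nd (nat_lit 78) (nat_lit 0) (nat_lit 0) (XT.lf (nat_lit 0) (nat_lit 1123062811) (nat_lit 608) (nat_lit 12763810634) (nat_lit 76) (nat_lit 1280310111) (nat_lit 184) (nat_lit 5) (nat_lit 192) (nat_lit 5) (nat_lit 185) (nat_lit 5) (nat_lit 474) (nat_lit 408) (nat_lit 258)) (XT.lf (nat_lit 0) (nat_lit 3965464947) (nat_lit 608) (nat_lit 4549693771) (nat_lit 76) (nat_lit 6834077081) (nat_lit 184) (nat_lit 5) (nat_lit 192) (nat_lit 5) (nat_lit 185) (nat_lit 5) (nat_lit 475) (nat_lit 408) (nat_lit 257))))) (XT.nd (nat_lit 156) (nat_lit 1064) (nat_lit 0) (XT.nd (nat_lit 78) (nat_lit 0) (nat_lit 0) (XT.lf (nat_lit 0) (nat_lit 3864534825) (nat_lit 456) (nat_lit 3014056822) (nat_lit 532) (nat_lit 8656064010) (nat_lit 178) (nat_lit 5) (nat_lit 184) (nat_lit 5) (nat_lit 185) (nat_lit 5) (nat_lit 476) (nat_lit 408) (nat_lit 256)) (XT.lf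 (nat_lit 0) (nat_lit 9886461472) (nat_lit 532) (nat_lit 3246476048) (nat_lit 76) (nat_lit 2590120801) (nat_lit 178) (nat_lit 5) (nat_lit 185) (nat_lit 5) (nat_lit 179) (nat_lit 5) (nat_lit 477) (nat_lit 408) (nat_lit 255))) (XT.nd (nat_lit 78) (nat_lit 532) (nat_lit 0) (XT.lf (nat_lit 0) (nat_lit 5381595932) (nat_lit 532) (nat_lit 7616897895) (nat_lit 608) (nat_lit 2915859048) (nat_lit 171) (nat_lit 5) (nat_lit 178) (nat_lit 5) (nat_lit 179) (nat_lit 5) (nat_lit 478) (nat_lit 408) (nat_lit 254)) (XT.nd (nat_lit 78) (nat_lit 456) (nat_lit 0) (XT.lf (nat_lit 0) (nat_lit 73540720) (nat_lit 608) (nat_lit 1898073823) (nat_lit 76) (nat_lit 14137632801) (nat_lit 170) (nat_lit 5) (nat_lit 178) (nat_lit 5) (nat_lit 171) (nat_lit 5) (nat_lit 479) (nat_lit 408) (nat_lit 253)) (XT.lf (nat_lit 0) (nat_lit 3143303676) (nat_lit 532) (nat_lit 9365016475) (nat_lit 76) (nat_lit 3798145418) (nat_lit 164) (nat_lit 5) (nat_lit 171)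 (nat_lit 5) (nat_lit 165) (nat_lit 5) (nat_lit 480) (nat_lit 408) (nat_lit 252)))))) (XT.nd (nat_lit 390) (nat_lit 1292) (nat_lit 0) (XT.nd (nat_lit 156) (nat_lit 988) (nat_lit 0) (XT.nd (nat_lit 78) (nat_lit 456) (nat_lit 0) (XT.lf (nat_lit 0) (nat_lit 6289791466) (nat_lit 532) (nat_lit 551546534) (nat_lit 76) (nat_lit 9665987209) (nat_lit 164) (nat_lit 5) (nat_lit 171) (nat_lit 5) (nat_lit 165) (nat_lit 5) (nat_lit 481) (nat_lit 408) (nat_lit 251)) (XT.lf (nat_lit 0) (nat_lit 8535904417) (nat_lit 456) (nat_lit 1008383287) (nat_lit 532) (nat_lit 7167016331) (nat_lit 158) (nat_lit 5) (nat_lit 164) (nat_lit 5) (nat_lit 165) (nat_lit 5) (nat_lit 482) (nat_lit 408) (nat_lit 250))) (XT.nd (nat_lit 78) (nat_lit 532) (nat_lit 0) (XT.lf (nat_lit 0) (nat_lit 858113028) (nat_lit 456) (nat_lit 12036883183) (nat_lit 532) (nat_lit 4023747280) (nat_lit 152) (nat_lit 5) (nat_lit 158) (nat_lit 5) (nat_lit 159) (nat_lit 5)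 (nat_lit 483) (nat_lit 408) (nat_lit 249)) (XT.nd (nat_lit 78) (nat_lit 532) (nat_lit 0) (XT.lf (nat_lit 0) (nat_lit 10162115749) (nat_lit 456) (nat_lit 6201950652) (nat_lit 532) (nat_lit 765241817) (nat_lit 152) (nat_lit 5) (nat_lit 158) (nat_lit 5) (nat_lit 159) (nat_lit 5) (nat_lit 484) (nat_lit 408) (nat_lit 248)) (XT.lf (nat_lit 0) (nat_lit 2307678409) (nat_lit 456) (nat_lit 222165953) (nat_lit 532) (nat_lit 14813811654) (nat_lit 145) (nat_lit 5) (nat_lit 151) (nat_lit 5) (nat_lit 152) (nat_lit 5) (nat_lit 485) (nat_lit 408) (nat_lit 247))))) (XT.nd (nat_lit 234) (nat_lit 912) (nat_lit 0) (XT.nd (nat_lit 78) (nat_lit 380) (nat_lit 0) (XT.lf (nat_lit 0) (nat_lit 5955878161) (nat_lit 532) (nat_lit 5756575796) (nat_lit 76) (nat_lit 5848233032) (nat_lit 145) (nat_lit 5) (nat_lit 152) (nat_lit 5) (nat_lit 146) (nat_lit 5) (nat_lit 486) (nat_lit 408) (nat_lit 246)) (XT.nd (nat_lit 78) (nat_lit 0) (nat_lit 0)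 (XT.lf (nat_lit 0) (nat_lit 3742126610) (nat_lit 380) (nat_lit 5724329547) (nat_lit 456) (nat_lit 8315285124) (nat_lit 140) (nat_lit 5) (nat_lit 145) (nat_lit 5) (nat_lit 146) (nat_lit 5) (nat_lit 487) (nat_lit 408) (nat_lit 245)) (XT.lf (nat_lit 0) (nat_lit 13078951786) (nat_lit 456) (nat_lit 4514327575) (nat_lit 76) (nat_lit 413306284) (nat_lit 140) (nat_lit 5) (nat_lit 146) (nat_lit 5) (nat_lit 141) (nat_lit 5) (nat_lit 488) (nat_lit 408) (nat_lit 244)))) (XT.nd (nat_lit 78) (nat_lit 456) (nat_lit 0) (XT.lf (nat_lit 0) (nat_lit 5218296316) (nat_lit 456) (nat_lit 11607711004) (nat_lit 532) (nat_lit 1408676422) (nat_lit 134) (nat_lit 5) (nat_lit 140) (nat_lit 5) (nat_lit 141) (nat_lit 5) (nat_lit 489) (nat_lit 408) (nat_lit 243)) (XT.nd (nat_lit 78) (nat_lit 380) (nat_lit 0) (XT.lf (nat_lit 0) (nat_lit 2173106879) (nat_lit 532) (nat_lit 3288067993) (nat_lit 76) (nat_lit 13005467763) (nat_lit 133) (nat_lit 5)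 (nat_lit 140) (nat_lit 5) (nat_lit 134) (nat_lit 5) (nat_lit 490) (nat_lit 408) (nat_lit 242)) (XT.lf (nat_lit 0) (nat_lit 5847489552) (nat_lit 456) (nat_lit 12008051028) (nat_lit 76) (nat_lit 846720252) (nat_lit 128) (nat_lit 5) (nat_lit 134) (nat_lit 5) (nat_lit 129) (nat_lit 5) (nat_lit 491) (nat_lit 408) (nat_lit 241))))))) (XT.nd (nat_lit 52884) (nat_lit 0) (nat_lit 28348) (XT.nd (nat_lit 390) (nat_lit 760) (nat_lit 0) (XT.nd (nat_lit 156) (nat_lit 836) (nat_lit 0) (XT.nd (nat_lit 78) (nat_lit 380) (nat_lit 0) (XT.lf (nat_lit 0) (nat_lit 9644542382) (nat_lit 456) (nat_lit 2071296771) (nat_lit 76) (nat_lit 7225771404) (nat_lit 128) (nat_lit 5) (nat_lit 134) (nat_lit 5) (nat_lit 129) (nat_lit 5) (nat_lit 492) (nat_lit 408) (nat_lit 240)) (XT.lf (nat_lit 0) (nat_lit 8157912896) (nat_lit 380) (nat_lit 5403575240) (nat_lit 456) (nat_lit 5623382863) (nat_lit 123) (nat_lit 5) (nat_lit 128) (nat_lit 5) (nat_lit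 129) (nat_lit 5) (nat_lit 493) (nat_lit 408) (nat_lit 239))) (XT.nd (nat_lit 78) (nat_lit 836) (nat_lit 0) (XT.lf (nat_lit 0) (nat_lit 17568532599) (nat_lit 456) (nat_lit 833084818) (nat_lit 76) (nat_lit 1031146742) (nat_lit 123) (nat_lit 5) (nat_lit 129) (nat_lit 5) (nat_lit 124) (nat_lit 5) (nat_lit 494) (nat_lit 408) (nat_lit 238)) (XT.nd (nat_lit 78) (nat_lit 380) (nat_lit 0) (XT.lf (nat_lit 0) (nat_lit 2034468891) (nat_lit 456) (nat_lit 10054946363) (nat_lit 76) (nat_lit 7594142617) (nat_lit 117) (nat_lit 5) (nat_lit 123) (nat_lit 5) (nat_lit 118) (nat_lit 5) (nat_lit 495) (nat_lit 408) (nat_lit 237)) (XT.lf (nat_lit 0) (nat_lit 350685574) (nat_lit 380) (nat_lit 5634675308) (nat_lit 456) (nat_lit 13953779080) (nat_lit 112) (nat_lit 5) (nat_lit 117) (nat_lit 5) (nat_lit 118) (nat_lit 5) (nat_lit 496) (nat_lit 408) (nat_lit 236))))) (XT.nd (nat_lit 156) (nat_lit 456) (nat_lit 0) (XT.nd (nat_lit 78) (nat_lit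 304) (nat_lit 0) (XT.lf (nat_lit 0) (nat_lit 10080664682) (nat_lit 456) (nat_lit 9117536793) (nat_lit 76) (nat_lit 1000326841) (nat_lit 112) (nat_lit 5) (nat_lit 118) (nat_lit 5) (nat_lit 113) (nat_lit 5) (nat_lit 497) (nat_lit 408) (nat_lit 235)) (XT.lf (nat_lit 0) (nat_lit 1532672192) (nat_lit 304) (nat_lit 12763950165) (nat_lit 380) (nat_lit 6165709572) (nat_lit 108) (nat_lit 5) (nat_lit 112) (nat_lit 5) (nat_lit 113) (nat_lit 5) (nat_lit 498) (nat_lit 408) (nat_lit 234))) (XT.nd (nat_lit 78) (nat_lit 456) (nat_lit 0) (XT.lf (nat_lit 0) (nat_lit 12506648419) (nat_lit 304) (nat_lit 6142998942) (nat_lit 380) (nat_lit 2080711695) (nat_lit 108) (nat_lit 5) (nat_lit 112) (nat_lit 5) (nat_lit 113) (nat_lit 5) (nat_lit 499) (nat_lit 408) (nat_lit 233)) (XT.nd (nat_lit 78) (nat_lit 0) (nat_lit 0) (XT.lf (nat_lit 0) (nat_lit 2072008316) (nat_lit 456) (nat_lit 18301824620) (nat_lit 76) (nat_lit 629377620) (nat_lit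 102) (nat_lit 5) (nat_lit 108) (nat_lit 5) (nat_lit 103) (nat_lit 5) (nat_lit 500) (nat_lit 408) (nat_lit 232)) (XT.lf (nat_lit 0) (nat_lit 6367907179) (nat_lit 456) (nat_lit 7391527886) (nat_lit 76) (nat_lit 7520051511) (nat_lit 102) (nat_lit 5) (nat_lit 108) (nat_lit 5) (nat_lit 103) (nat_lit 5) (nat_lit 501) (nat_lit 408) (nat_lit 231)))))) (XT.nd (nat_lit 390) (nat_lit 1216) (nat_lit 0) (XT.nd (nat_lit 156) (nat_lit 0) (nat_lit 76) (XT.nd (nat_lit 78) (nat_lit 0) (nat_lit 0) (XT.lf (nat_lit 0) (nat_lit 16525691) (nat_lit 1444) (nat_lit 2007931015) (nat_lit 1444) (nat_lit 2007931015) (nat_lit 491) (nat_lit 3) (nat_lit 510) (nat_lit 3) (nat_lit 510) (nat_lit 5) (nat_lit 409) (nat_lit 409) (nat_lit 322)) (XT.lf (nat_lit 0) (nat_lit 1188774815) (nat_lit 1444) (nat_lit 208885898) (nat_lit 1444) (nat_lit 6723977889) (nat_lit 491) (nat_lit 3) (nat_lit 510) (nat_lit 3) (nat_lit 510) (nat_lit 5) (nat_lit 410) (nat_lit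 409) (nat_lit 321))) (XT.nd (nat_lit 78) (nat_lit 0) (nat_lit 0) (XT.lf (nat_lit 0) (nat_lit 2370116357) (nat_lit 1368) (nat_lit 4481132990) (nat_lit 1444) (nat_lit 1328357354) (nat_lit 492) (nat_lit 5) (nat_lit 510) (nat_lit 5) (nat_lit 511) (nat_lit 5) (nat_lit 411) (nat_lit 409) (nat_lit 320)) (XT.nd (nat_lit 78) (nat_lit 0) (nat_lit 0) (XT.lf (nat_lit 0) (nat_lit 3556033709) (nat_lit 1368) (nat_lit 577230254) (nat_lit 1444) (nat_lit 4105868621) (nat_lit 492) (nat_lit 5) (nat_lit 510) (nat_lit 5) (nat_lit 511) (nat_lit 5) (nat_lit 412) (nat_lit 409) (nat_lit 319)) (XT.lf (nat_lit 76) (nat_lit 3434032776) (nat_lit 0) (nat_lit 1324797288) (nat_lit 1444) (nat_lit 3541172770) (nat_lit 493) (nat_lit 5) (nat_lit 492) (nat_lit 5) (nat_lit 511) (nat_lit 5) (nat_lit 413) (nat_lit 409) (nat_lit 318))))) (XT.nd (nat_lit 234) (nat_lit 1368) (nat_lit 0) (XT.nd (nat_lit 78) (nat_lit 0) (nat_lit 0) (XT.lf (nat_lit 0) (nat_lit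 5970997962) (nat_lit 1368) (nat_lit 855017344) (nat_lit 1444) (nat_lit 1536385597) (nat_lit 493) (nat_lit 5) (nat_lit 511) (nat_lit 5) (nat_lit 512) (nat_lit 5) (nat_lit 414) (nat_lit 409) (nat_lit 317)) (XT.nd (nat_lit 78) (nat_lit 0) (nat_lit 0) (XT.lf (nat_lit 76) (nat_lit 3254051942) (nat_lit 0) (nat_lit 3955237436) (nat_lit 1444) (nat_lit 1216736353) (nat_lit 494) (nat_lit 5) (nat_lit 493) (nat_lit 5) (nat_lit 512) (nat_lit 5) (nat_lit 415) (nat_lit 409) (nat_lit 316)) (XT.lf (nat_lit 76) (nat_lit 7440991439) (nat_lit 0) (nat_lit 1009518191) (nat_lit 1444) (nat_lit 40866242) (nat_lit 494) (nat_lit 5) (nat_lit 493) (nat_lit 5) (nat_lit 512) (nat_lit 5) (nat_lit 416) (nat_lit 409) (nat_lit 315)))) (XT.nd (nat_lit 78) (nat_lit 0) (nat_lit 0) (XT.lf (nat_lit 0) (nat_lit 1149904541) (nat_lit 1444) (nat_lit 5399497501) (nat_lit 1520) (nat_lit 2008364440) (nat_lit 475) (nat_lit 5) (nat_lit 494) (nat_lit 5) (nat_lit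 495) (nat_lit 5) (nat_lit 417) (nat_lit 409) (nat_lit 314)) (XT.nd (nat_lit 78) (nat_lit 0) (nat_lit 0) (XT.lf (nat_lit 0) (nat_lit 2350998310) (nat_lit 1444) (nat_lit 1183496839) (nat_lit 1520) (nat_lit 5091258408) (nat_lit 475) (nat_lit 5) (nat_lit 494) (nat_lit 5) (nat_lit 495) (nat_lit 5) (nat_lit 418) (nat_lit 409) (nat_lit 313)) (XT.lf (nat_lit 76) (nat_lit 3141869489) (nat_lit 0) (nat_lit 428441010) (nat_lit 1520) (nat_lit 5124920796) (nat_lit 476) (nat_lit 5) (nat_lit 475) (nat_lit 5) (nat_lit 495) (nat_lit 5) (nat_lit 419) (nat_lit 409) (nat_lit 312))))))))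
noncomputable def xc172 : XT := (XT.nd (nat_lit 1560) (nat_lit 9576) (nat_lit 0) (XT.nd (nat_lit 780) (nat_lit 6384) (nat_lit 0) (XT.nd (nat_lit 390) (nat_lit 0) (nat_lit 76) (XT.nd (nat_lit 156) (nat_lit 1444) (nat_lit 0) (XT.nd (nat_lit 78) (nat_lit 0) (nat_lit 0) (XT.lf (nat_lit 0) (nat_lit 4814061803) (nat_lit 1444) (nat_lit 1230642627) (nat_lit 1520) (nat_lit 2721407663) (nat_lit 476) (nat_lit 5) (nat_lit 495) (nat_lit 5) (nat_lit 496) (nat_lit 5) (nat_lit 420) (nat_lit 409) (nat_lit 311)) (XT.lf (nat_lit 76) (nat_lit 3201358535) (nat_lit 0) (nat_lit 2879727021) (nat_lit 1520) (nat_lit 2757371280) (nat_lit 477) (nat_lit 5) (nat_lit 476) (nat_lit 5) (nat_lit 496) (nat_lit 5) (nat_lit 421) (nat_lit 409) (nat_lit 310))) (XT.nd (nat_lit 78) (nat_lit 1520) (nat_lit 0) (XT.lf (nat_lit 0) (nat_lit 7359245793) (nat_lit 1444) (nat_lit 1192500363) (nat_lit 1520) (nat_lit 360800393) (nat_lit 477) (nat_lit 5) (nat_lit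 496) (nat_lit 5) (nat_lit 497) (nat_lit 5) (nat_lit 422) (nat_lit 409) (nat_lit 309)) (XT.nd (nat_lit 78) (nat_lit 1520) (nat_lit 0) (XT.lf (nat_lit 76) (nat_lit 3349394690) (nat_lit 0) (nat_lit 5330098000) (nat_lit 1520) (nat_lit 308308620) (nat_lit 478) (nat_lit 5) (nat_lit 477) (nat_lit 5) (nat_lit 497) (nat_lit 5) (nat_lit 423) (nat_lit 409) (nat_lit 308)) (XT.lf (nat_lit 0) (nat_lit 932931772) (nat_lit 1520) (nat_lit 1089081940) (nat_lit 1596) (nat_lit 7042756583) (nat_lit 457) (nat_lit 5) (nat_lit 477) (nat_lit 5) (nat_lit 478) (nat_lit 5) (nat_lit 424) (nat_lit 409) (nat_lit 307))))) (XT.nd (nat_lit 156) (nat_lit 0) (nat_lit 0) (XT.nd (nat_lit 78) (nat_lit 0) (nat_lit 0) (XT.lf (nat_lit 0) (nat_lit 2203486102) (nat_lit 1520) (nat_lit 5572465514) (nat_lit 1596) (nat_lit 1367126870) (nat_lit 458) (nat_lit 5) (nat_lit 478) (nat_lit 5) (nat_lit 479) (nat_lit 5) (nat_lit 425) (nat_lit 409) (nat_lit 306)) (XT.lf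 (nat_lit 0) (nat_lit 3496979304) (nat_lit 1520) (nat_lit 914747224) (nat_lit 1596) (nat_lit 4811288433) (nat_lit 458) (nat_lit 5) (nat_lit 478) (nat_lit 5) (nat_lit 479) (nat_lit 5) (nat_lit 426) (nat_lit 409) (nat_lit 305))) (XT.nd (nat_lit 78) (nat_lit 0) (nat_lit 76) (XT.lf (nat_lit 76) (nat_lit 3870449912) (nat_lit 0) (nat_lit 948257529) (nat_lit 1596) (nat_lit 4485807852) (nat_lit 459) (nat_lit 5) (nat_lit 458) (nat_lit 5) (nat_lit 479) (nat_lit 5) (nat_lit 427) (nat_lit 409) (nat_lit 304)) (XT.nd (nat_lit 78) (nat_lit 0) (nat_lit 0) (XT.lf (nat_lit 0) (nat_lit 6167444853) (nat_lit 1520) (nat_lit 657422314) (nat_lit 1596) (nat_lit 2562779155) (nat_lit 459) (nat_lit 5) (nat_lit 479) (nat_lit 5) (nat_lit 480) (nat_lit 5) (nat_lit 428) (nat_lit 409) (nat_lit 303)) (XT.lf (nat_lit 76) (nat_lit 4247683616) (nat_lit 0) (nat_lit 3307386400) (nat_lit 1596) (nat_lit 1917143644) (nat_lit 460) (nat_lit 5) (nat_lit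 459) (nat_lit 5) (nat_lit 480) (nat_lit 5) (nat_lit 429) (nat_lit 409) (nat_lit 302)))))) (XT.nd (nat_lit 390) (nat_lit 3496) (nat_lit 0) (XT.nd (nat_lit 156) (nat_lit 1520) (nat_lit 0) (XT.nd (nat_lit 78) (nat_lit 1596) (nat_lit 0) (XT.lf (nat_lit 0) (nat_lit 8955121598) (nat_lit 1520) (nat_lit 317299798) (nat_lit 1596) (nat_lit 286369179) (nat_lit 460) (nat_lit 5) (nat_lit 480) (nat_lit 5) (nat_lit 481) (nat_lit 5) (nat_lit 430) (nat_lit 409) (nat_lit 301)) (XT.lf (nat_lit 0) (nat_lit 757945993) (nat_lit 1596) (nat_lit 4940045496) (nat_lit 1672) (nat_lit 3948392724) (nat_lit 439) (nat_lit 5) (nat_lit 460) (nat_lit 5) (nat_lit 461) (nat_lit 5) (nat_lit 431) (nat_lit 409) (nat_lit 300))) (XT.nd (nat_lit 78) (nat_lit 1520) (nat_lit 0) (XT.lf (nat_lit 76) (nat_lit 79373571) (nat_lit 0) (nat_lit 2040997418) (nat_lit 1672) (nat_lit 7615656749) (nat_lit 440) (nat_lit 5) (nat_lit 439) (nat_lit 5) (nat_lit 461) (nat_lit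 5) (nat_lit 432) (nat_lit 409) (nat_lit 299)) (XT.nd (nat_lit 78) (nat_lit 1596) (nat_lit 0) (XT.lf (nat_lit 0) (nat_lit 3533706526) (nat_lit 1596) (nat_lit 4588903906) (nat_lit 76) (nat_lit 1704391280) (nat_lit 440) (nat_lit 5) (nat_lit 461) (nat_lit 5) (nat_lit 441) (nat_lit 5) (nat_lit 433) (nat_lit 409) (nat_lit 298)) (XT.lf (nat_lit 0) (nat_lit 557267123) (nat_lit 1596) (nat_lit 4414906926) (nat_lit 1672) (nat_lit 4947694421) (nat_lit 419) (nat_lit 5) (nat_lit 440) (nat_lit 5) (nat_lit 441) (nat_lit 5) (nat_lit 434) (nat_lit 409) (nat_lit 297))))) (XT.nd (nat_lit 156) (nat_lit 1824) (nat_lit 0) (XT.nd (nat_lit 78) (nat_lit 1672) (nat_lit 0) (XT.lf (nat_lit 0) (nat_lit 5851949060) (nat_lit 1596) (nat_lit 598275968) (nat_lit 1672) (nat_lit 3564161652) (nat_lit 419) (nat_lit 5) (nat_lit 440) (nat_lit 5) (nat_lit 441) (nat_lit 5) (nat_lit 435) (nat_lit 409) (nat_lit 296)) (XT.lf (nat_lit 0) (nat_lit 1118290798)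 (nat_lit 1672) (nat_lit 6848631526) (nat_lit 1748) (nat_lit 2143701418) (nat_lit 397) (nat_lit 5) (nat_lit 419) (nat_lit 5) (nat_lit 420) (nat_lit 5) (nat_lit 436) (nat_lit 409) (nat_lit 295))) (XT.nd (nat_lit 78) (nat_lit 1824) (nat_lit 0) (XT.lf (nat_lit 0) (nat_lit 6540438063) (nat_lit 1672) (nat_lit 2986092850) (nat_lit 1748) (nat_lit 682013082) (nat_lit 397) (nat_lit 5) (nat_lit 419) (nat_lit 5) (nat_lit 420) (nat_lit 5) (nat_lit 437) (nat_lit 409) (nat_lit 294)) (XT.nd (nat_lit 78) (nat_lit 0) (nat_lit 0) (XT.lf (nat_lit 0) (nat_lit 797024182) (nat_lit 1824) (nat_lit 8550851006) (nat_lit 76) (nat_lit 960477551) (nat_lit 373) (nat_lit 5) (nat_lit 397) (nat_lit 5) (nat_lit 374) (nat_lit 5) (nat_lit 438) (nat_lit 409) (nat_lit 293)) (XT.lf (nat_lit 0) (nat_lit 2322306501) (nat_lit 1824) (nat_lit 3109609311) (nat_lit 76) (nat_lit 4977645173) (nat_lit 373) (nat_lit 5) (nat_lit 397) (nat_lit 5) (nat_lit 374)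 (nat_lit 5) (nat_lit 439) (nat_lit 409) (nat_lit 292))))))) (XT.nd (nat_lit 780) (nat_lit 4408) (nat_lit 0) (XT.nd (nat_lit 390) (nat_lit 2432) (nat_lit 0) (XT.nd (nat_lit 156) (nat_lit 1748) (nat_lit 0) (XT.nd (nat_lit 78) (nat_lit 0) (nat_lit 0) (XT.lf (nat_lit 0) (nat_lit 2456167807) (nat_lit 988) (nat_lit 1419476223) (nat_lit 1064) (nat_lit 6637207611) (nat_lit 360) (nat_lit 5) (nat_lit 373) (nat_lit 5) (nat_lit 374) (nat_lit 5) (nat_lit 440) (nat_lit 409) (nat_lit 291)) (XT.lf (nat_lit 0) (nat_lit 5480278029) (nat_lit 1064) (nat_lit 2476650384) (nat_lit 76) (nat_lit 2660884154) (nat_lit 360) (nat_lit 5) (nat_lit 374) (nat_lit 5) (nat_lit 361) (nat_lit 5) (nat_lit 441) (nat_lit 409) (nat_lit 290))) (XT.nd (nat_lit 78) (nat_lit 836) (nat_lit 0) (XT.lf (nat_lit 0) (nat_lit 3231516921) (nat_lit 912) (nat_lit 3898093116) (nat_lit 988) (nat_lit 3595019445) (nat_lit 348) (nat_lit 5) (nat_lit 360) (nat_lit 5) (nat_lit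 361) (nat_lit 5) (nat_lit 442) (nat_lit 409) (nat_lit 289)) (XT.nd (nat_lit 78) (nat_lit 836) (nat_lit 0) (XT.lf (nat_lit 0) (nat_lit 8812702965) (nat_lit 988) (nat_lit 1764219036) (nat_lit 76) (nat_lit 256653951) (nat_lit 348) (nat_lit 5) (nat_lit 361) (nat_lit 5) (nat_lit 349) (nat_lit 5) (nat_lit 443) (nat_lit 409) (nat_lit 288)) (XT.lf (nat_lit 0) (nat_lit 4090707983) (nat_lit 836) (nat_lit 6473942082) (nat_lit 912) (nat_lit 379355972) (nat_lit 337) (nat_lit 5) (nat_lit 348) (nat_lit 5) (nat_lit 349) (nat_lit 5) (nat_lit 444) (nat_lit 409) (nat_lit 287))))) (XT.nd (nat_lit 156) (nat_lit 1520) (nat_lit 0) (XT.nd (nat_lit 78) (nat_lit 836) (nat_lit 0) (XT.lf (nat_lit 0) (nat_lit 1272852867) (nat_lit 912) (nat_lit 994753171) (nat_lit 76) (nat_lit 8788981815) (nat_lit 336) (nat_lit 5) (nat_lit 348) (nat_lit 5) (nat_lit 337) (nat_lit 5) (nat_lit 445) (nat_lit 409) (nat_lit 286)) (XT.lf (nat_lit 0) (nat_lit 2982310740)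 (nat_lit 912) (nat_lit 6156218047) (nat_lit 76) (nat_lit 2032264719) (nat_lit 325) (nat_lit 5) (nat_lit 337) (nat_lit 5) (nat_lit 326) (nat_lit 5) (nat_lit 446) (nat_lit 409) (nat_lit 285))) (XT.nd (nat_lit 78) (nat_lit 1520) (nat_lit 0) (XT.lf (nat_lit 0) (nat_lit 4731184209) (nat_lit 912) (nat_lit 161054149) (nat_lit 76) (nat_lit 6394948266) (nat_lit 325) (nat_lit 5) (nat_lit 337) (nat_lit 5) (nat_lit 326) (nat_lit 5) (nat_lit 447) (nat_lit 409) (nat_lit 284)) (XT.nd (nat_lit 78) (nat_lit 760) (nat_lit 0) (XT.lf (nat_lit 0) (nat_lit 6016829015) (nat_lit 760) (nat_lit 521084766) (nat_lit 836) (nat_lit 4867543979) (nat_lit 315) (nat_lit 5) (nat_lit 325) (nat_lit 5) (nat_lit 326) (nat_lit 5) (nat_lit 448) (nat_lit 409) (nat_lit 283)) (XT.lf (nat_lit 0) (nat_lit 762491682) (nat_lit 760) (nat_lit 7633916435) (nat_lit 836) (nat_lit 3129381173) (nat_lit 305) (nat_lit 5) (nat_lit 315) (nat_lit 5) (nat_lit 316) (nat_lit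 5) (nat_lit 449) (nat_lit 409) (nat_lit 282)))))) (XT.nd (nat_lit 390) (nat_lit 2812) (nat_lit 0) (XT.nd (nat_lit 156) (nat_lit 760) (nat_lit 0) (XT.nd (nat_lit 78) (nat_lit 836) (nat_lit 0) (XT.lf (nat_lit 0) (nat_lit 7089972555) (nat_lit 760) (nat_lit 3225923312) (nat_lit 836) (nat_lit 1332162541) (nat_lit 305) (nat_lit 5) (nat_lit 315) (nat_lit 5) (nat_lit 316) (nat_lit 5) (nat_lit 450) (nat_lit 409) (nat_lit 281)) (XT.lf (nat_lit 0) (nat_lit 498731140) (nat_lit 836) (nat_lit 10005984225) (nat_lit 76) (nat_lit 1267913598) (nat_lit 294) (nat_lit 5) (nat_lit 305) (nat_lit 5) (nat_lit 295) (nat_lit 5) (nat_lit 451) (nat_lit 409) (nat_lit 280))) (XT.nd (nat_lit 78) (nat_lit 760) (nat_lit 0) (XT.lf (nat_lit 0) (nat_lit 2385206745) (nat_lit 836) (nat_lit 3666121609) (nat_lit 76) (nat_lit 5847457427) (nat_lit 294) (nat_lit 5) (nat_lit 305) (nat_lit 5) (nat_lit 295) (nat_lit 5) (nat_lit 452) (nat_lit 409) (nat_lit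 279)) (XT.nd (nat_lit 78) (nat_lit 0) (nat_lit 0) (XT.lf (nat_lit 0) (nat_lit 2821553384) (nat_lit 760) (nat_lit 1491110797) (nat_lit 836) (nat_lit 7714743369) (nat_lit 284) (nat_lit 5) (nat_lit 294) (nat_lit 5) (nat_lit 295) (nat_lit 5) (nat_lit 453) (nat_lit 409) (nat_lit 278)) (XT.lf (nat_lit 0) (nat_lit 6309072796) (nat_lit 836) (nat_lit 2706296885) (nat_lit 76) (nat_lit 3142630760) (nat_lit 284) (nat_lit 5) (nat_lit 295) (nat_lit 5) (nat_lit 285) (nat_lit 5) (nat_lit 454) (nat_lit 409) (nat_lit 277))))) (XT.nd (nat_lit 234) (nat_lit 1368) (nat_lit 0) (XT.nd (nat_lit 78) (nat_lit 760) (nat_lit 0) (XT.lf (nat_lit 0) (nat_lit 3949307293) (nat_lit 684) (nat_lit 4417029173) (nat_lit 760) (nat_lit 3924456782) (nat_lit 275) (nat_lit 5) (nat_lit 284) (nat_lit 5) (nat_lit 285) (nat_lit 5) (nat_lit 455) (nat_lit 409) (nat_lit 276)) (XT.nd (nat_lit 78) (nat_lit 760) (nat_lit 0) (XT.lf (nat_lit 0) (nat_lit 10470386055)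 (nat_lit 760) (nat_lit 1669111773) (nat_lit 76) (nat_lit 286637736) (nat_lit 275) (nat_lit 5) (nat_lit 285) (nat_lit 5) (nat_lit 276) (nat_lit 5) (nat_lit 456) (nat_lit 409) (nat_lit 275)) (XT.lf (nat_lit 0) (nat_lit 100579366) (nat_lit 760) (nat_lit 7404487991) (nat_lit 76) (nat_lit 5058138111) (nat_lit 265) (nat_lit 5) (nat_lit 275) (nat_lit 5) (nat_lit 266) (nat_lit 5) (nat_lit 457) (nat_lit 409) (nat_lit 274)))) (XT.nd (nat_lit 78) (nat_lit 1368) (nat_lit 0) (XT.lf (nat_lit 0) (nat_lit 2169091711) (nat_lit 760) (nat_lit 585911717) (nat_lit 76) (nat_lit 9947815999) (nat_lit 265) (nat_lit 5) (nat_lit 275) (nat_lit 5) (nat_lit 266) (nat_lit 5) (nat_lit 458) (nat_lit 409) (nat_lit 273)) (XT.nd (nat_lit 78) (nat_lit 684) (nat_lit 0) (XT.lf (nat_lit 0) (nat_lit 4320830140) (nat_lit 760) (nat_lit 6420546928) (nat_lit 76) (nat_lit 2103017453) (nat_lit 256) (nat_lit 5) (nat_lit 266) (nat_lit 5) (nat_lit 257) (nat_lit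 5) (nat_lit 459) (nat_lit 409) (nat_lit 272)) (XT.lf (nat_lit 0) (nat_lit 566505074) (nat_lit 684) (nat_lit 5961358400) (nat_lit 760) (nat_lit 6460698297) (nat_lit 247) (nat_lit 5) (nat_lit 256) (nat_lit 5) (nat_lit 257) (nat_lit 5) (nat_lit 460) (nat_lit 409) (nat_lit 271))))))))
noncomputable def xc173 : XT := (XT.nd (nat_lit 1638) (nat_lit 4256) (nat_lit 0) (XT.nd (nat_lit 780) (nat_lit 3192) (nat_lit 0) (XT.nd (nat_lit 390) (nat_lit 1824) (nat_lit 0) (XT.nd (nat_lit 156) (nat_lit 684) (nat_lit 0) (XT.nd (nat_lit 78) (nat_lit 608) (nat_lit 0) (XT.lf (nat_lit 0) (nat_lit 7764758003) (nat_lit 684) (nat_lit 1043909829) (nat_lit 760) (nat_lit 4326357666) (nat_lit 247) (nat_lit 5) (nat_lit 256) (nat_lit 5) (nat_lit 257) (nat_lit 5) (nat_lit 461) (nat_lit 409) (nat_lit 270)) (XT.lf (nat_lit 0) (nat_lit 1804918237) (nat_lit 608) (nat_lit 9354472350) (nat_lit 684) (nat_lit 2124547497) (nat_lit 239) (nat_lit 5) (nat_lit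 247) (nat_lit 5) (nat_lit 248) (nat_lit 5) (nat_lit 462) (nat_lit 409) (nat_lit 269))) (XT.nd (nat_lit 78) (nat_lit 608) (nat_lit 0) (XT.lf (nat_lit 0) (nat_lit 149759709) (nat_lit 684) (nat_lit 4262245448) (nat_lit 76) (nat_lit 9023212391) (nat_lit 238) (nat_lit 5) (nat_lit 247) (nat_lit 5) (nat_lit 239) (nat_lit 5) (nat_lit 463) (nat_lit 409) (nat_lit 268)) (XT.nd (nat_lit 78) (nat_lit 0) (nat_lit 0) (XT.lf (nat_lit 0) (nat_lit 2452743180) (nat_lit 684) (nat_lit 10483105670) (nat_lit 76) (nat_lit 653165432) (nat_lit 230) (nat_lit 5) (nat_lit 239) (nat_lit 5) (nat_lit 231) (nat_lit 5) (nat_lit 464) (nat_lit 409) (nat_lit 267)) (XT.lf (nat_lit 0) (nat_lit 4847054098) (nat_lit 684) (nat_lit 3110959294) (nat_lit 76) (nat_lit 5786973404) (nat_lit 230) (nat_lit 5) (nat_lit 239) (nat_lit 5) (nat_lit 231) (nat_lit 5) (nat_lit 465) (nat_lit 409) (nat_lit 266))))) (XT.nd (nat_lit 156) (nat_lit 1216) (nat_lit 0) (XT.nd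 (nat_lit 78) (nat_lit 0) (nat_lit 0) (XT.lf (nat_lit 0) (nat_lit 4451881946) (nat_lit 608) (nat_lit 2853781577) (nat_lit 684) (nat_lit 6598092089) (nat_lit 222) (nat_lit 5) (nat_lit 230) (nat_lit 5) (nat_lit 231) (nat_lit 5) (nat_lit 466) (nat_lit 409) (nat_lit 265)) (XT.lf (nat_lit 0) (nat_lit 9837371356) (nat_lit 684) (nat_lit 1887815015) (nat_lit 76) (nat_lit 2340039908) (nat_lit 222) (nat_lit 5) (nat_lit 231) (nat_lit 5) (nat_lit 223) (nat_lit 5) (nat_lit 467) (nat_lit 409) (nat_lit 264))) (XT.nd (nat_lit 78) (nat_lit 608) (nat_lit 0) (XT.lf (nat_lit 0) (nat_lit 5870649485) (nat_lit 608) (nat_lit 6593959200) (nat_lit 684) (nat_lit 1764424668) (nat_lit 214) (nat_lit 5) (nat_lit 222) (nat_lit 5) (nat_lit 223) (nat_lit 5) (nat_lit 468) (nat_lit 409) (nat_lit 263)) (XT.nd (nat_lit 78) (nat_lit 532) (nat_lit 0) (XT.lf (nat_lit 0) (nat_lit 739149559) (nat_lit 684) (nat_lit 605969548) (nat_lit 76) (nat_lit 13050891223)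 (nat_lit 213) (nat_lit 5) (nat_lit 222) (nat_lit 5) (nat_lit 214) (nat_lit 5) (nat_lit 469) (nat_lit 409) (nat_lit 262)) (XT.lf (nat_lit 0) (nat_lit 3331630049) (nat_lit 608) (nat_lit 7220032088) (nat_lit 76) (nat_lit 4013186862) (nat_lit 206) (nat_lit 5) (nat_lit 214) (nat_lit 5) (nat_lit 207) (nat_lit 5) (nat_lit 470) (nat_lit 409) (nat_lit 261)))))) (XT.nd (nat_lit 390) (nat_lit 1520) (nat_lit 0) (XT.nd (nat_lit 156) (nat_lit 1140) (nat_lit 0) (XT.nd (nat_lit 78) (nat_lit 0) (nat_lit 0) (XT.lf (nat_lit 0) (nat_lit 711380388) (nat_lit 532) (nat_lit 5270491024) (nat_lit 608) (nat_lit 8755079331) (nat_lit 199) (nat_lit 5) (nat_lit 206) (nat_lit 5) (nat_lit 207) (nat_lit 5) (nat_lit 471) (nat_lit 409) (nat_lit 260)) (XT.lf (nat_lit 0) (nat_lit 8723047921) (nat_lit 608) (nat_lit 6028292930) (nat_lit 76) (nat_lit 160399503) (nat_lit 199) (nat_lit 5) (nat_lit 207) (nat_lit 5) (nat_lit 200) (nat_lit 5) (nat_lit 472)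 (nat_lit 409) (nat_lit 259))) (XT.nd (nat_lit 78) (nat_lit 608) (nat_lit 0) (XT.lf (nat_lit 0) (nat_lit 2106971220) (nat_lit 532) (nat_lit 9449291998) (nat_lit 608) (nat_lit 3533022583) (nat_lit 192) (nat_lit 5) (nat_lit 199) (nat_lit 5) (nat_lit 200) (nat_lit 5) (nat_lit 473) (nat_lit 409) (nat_lit 258)) (XT.nd (nat_lit 78) (nat_lit 608) (nat_lit 0) (XT.lf (nat_lit 0) (nat_lit 10472064168) (nat_lit 532) (nat_lit 4003291337) (nat_lit 608) (nat_lit 794446666) (nat_lit 192) (nat_lit 5) (nat_lit 199) (nat_lit 5) (nat_lit 200) (nat_lit 5) (nat_lit 474) (nat_lit 409) (nat_lit 257)) (XT.lf (nat_lit 0) (nat_lit 1995057875) (nat_lit 608) (nat_lit 11893808676) (nat_lit 76) (nat_lit 1564359394) (nat_lit 184) (nat_lit 5) (nat_lit 192) (nat_lit 5) (nat_lit 185) (nat_lit 5) (nat_lit 475) (nat_lit 409) (nat_lit 256))))) (XT.nd (nat_lit 234) (nat_lit 1064) (nat_lit 0) (XT.nd (nat_lit 78) (nat_lit 456) (nat_lit 0) (XT.lf (nat_lit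 0) (nat_lit 4877650528) (nat_lit 608) (nat_lit 3537473754) (nat_lit 76) (nat_lit 7224134192) (nat_lit 184) (nat_lit 5) (nat_lit 192) (nat_lit 5) (nat_lit 185) (nat_lit 5) (nat_lit 476) (nat_lit 409) (nat_lit 255)) (XT.nd (nat_lit 78) (nat_lit 0) (nat_lit 0) (XT.lf (nat_lit 0) (nat_lit 5037781428) (nat_lit 456) (nat_lit 2802043099) (nat_lit 532) (nat_lit 7988752477) (nat_lit 178) (nat_lit 5) (nat_lit 184) (nat_lit 5) (nat_lit 185) (nat_lit 5) (nat_lit 477) (nat_lit 409) (nat_lit 254)) (XT.lf (nat_lit 0) (nat_lit 10893434786) (nat_lit 532) (nat_lit 2222229340) (nat_lit 76) (nat_lit 2905377789) (nat_lit 178) (nat_lit 5) (nat_lit 185) (nat_lit 5) (nat_lit 179) (nat_lit 5) (nat_lit 478) (nat_lit 409) (nat_lit 253)))) (XT.nd (nat_lit 78) (nat_lit 532) (nat_lit 0) (XT.lf (nat_lit 0) (nat_lit 6571238447) (nat_lit 532) (nat_lit 7487626941) (nat_lit 608) (nat_lit 2157479560) (nat_lit 171) (nat_lit 5) (nat_lit 178) (nat_lit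 5) (nat_lit 179) (nat_lit 5) (nat_lit 479) (nat_lit 409) (nat_lit 252)) (XT.nd (nat_lit 78) (nat_lit 456) (nat_lit 0) (XT.lf (nat_lit 0) (nat_lit 865193442) (nat_lit 608) (nat_lit 864463687) (nat_lit 76) (nat_lit 14685695715) (nat_lit 170) (nat_lit 5) (nat_lit 178) (nat_lit 5) (nat_lit 171) (nat_lit 5) (nat_lit 480) (nat_lit 409) (nat_lit 251)) (XT.lf (nat_lit 0) (nat_lit 3989606394) (nat_lit 532) (nat_lit 8473729527) (nat_lit 76) (nat_lit 4153319826) (nat_lit 164) (nat_lit 5) (nat_lit 171) (nat_lit 5) (nat_lit 165) (nat_lit 5) (nat_lit 481) (nat_lit 409) (nat_lit 250))))))) (XT.nd (nat_lit 780) (nat_lit 1900) (nat_lit 0) (XT.nd (nat_lit 390) (nat_lit 912) (nat_lit 0) (XT.nd (nat_lit 156) (nat_lit 988) (nat_lit 0) (XT.nd (nat_lit 78) (nat_lit 0) (nat_lit 0) (XT.lf (nat_lit 0) (nat_lit 501437485) (nat_lit 456) (nat_lit 6685480616) (nat_lit 532) (nat_lit 9634861896) (nat_lit 158) (nat_lit 5) (nat_lit 164) (nat_lit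 5) (nat_lit 165) (nat_lit 5) (nat_lit 482) (nat_lit 409) (nat_lit 249)) (XT.lf (nat_lit 0) (nat_lit 9757104180) (nat_lit 456) (nat_lit 737904546) (nat_lit 532) (nat_lit 6535064783) (nat_lit 158) (nat_lit 5) (nat_lit 164) (nat_lit 5) (nat_lit 165) (nat_lit 5) (nat_lit 483) (nat_lit 409) (nat_lit 248))) (XT.nd (nat_lit 78) (nat_lit 532) (nat_lit 0) (XT.lf (nat_lit 0) (nat_lit 1932326164) (nat_lit 456) (nat_lit 11974219652) (nat_lit 532) (nat_lit 3335244747) (nat_lit 152) (nat_lit 5) (nat_lit 158) (nat_lit 5) (nat_lit 159) (nat_lit 5) (nat_lit 484) (nat_lit 409) (nat_lit 247)) (XT.nd (nat_lit 78) (nat_lit 532) (nat_lit 0) (XT.lf (nat_lit 0) (nat_lit 11401682451) (nat_lit 456) (nat_lit 6028537513) (nat_lit 532) (nat_lit 26647164) (nat_lit 152) (nat_lit 5) (nat_lit 158) (nat_lit 5) (nat_lit 159) (nat_lit 5) (nat_lit 485) (nat_lit 409) (nat_lit 246)) (XT.lf (nat_lit 0) (nat_lit 3317112906) (nat_lit 532) (nat_lit 14282659919)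 (nat_lit 76) (nat_lit 75782770) (nat_lit 145) (nat_lit 5) (nat_lit 152) (nat_lit 5) (nat_lit 146) (nat_lit 5) (nat_lit 486) (nat_lit 409) (nat_lit 245))))) (XT.nd (nat_lit 156) (nat_lit 532) (nat_lit 0) (XT.nd (nat_lit 78) (nat_lit 380) (nat_lit 0) (XT.lf (nat_lit 0) (nat_lit 6798665287) (nat_lit 532) (nat_lit 4839779917) (nat_lit 76) (nat_lit 6258746734) (nat_lit 145) (nat_lit 5) (nat_lit 152) (nat_lit 5) (nat_lit 146) (nat_lit 5) (nat_lit 487) (nat_lit 409) (nat_lit 244)) (XT.lf (nat_lit 0) (nat_lit 4842107542) (nat_lit 380) (nat_lit 5529813580) (nat_lit 456) (nat_lit 7750901483) (nat_lit 140) (nat_lit 5) (nat_lit 145) (nat_lit 5) (nat_lit 146) (nat_lit 5) (nat_lit 488) (nat_lit 409) (nat_lit 243))) (XT.nd (nat_lit 78) (nat_lit 532) (nat_lit 0) (XT.lf (nat_lit 0) (nat_lit 14044591695) (nat_lit 456) (nat_lit 3587275253) (nat_lit 76) (nat_lit 720542933) (nat_lit 140) (nat_lit 5) (nat_lit 146) (nat_lit 5) (nat_lit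 141) (nat_lit 5) (nat_lit 489) (nat_lit 409) (nat_lit 242)) (XT.nd (nat_lit 78) (nat_lit 76) (nat_lit 0) (XT.lf (nat_lit 0) (nat_lit 6333308098) (nat_lit 456) (nat_lit 11526036911) (nat_lit 532) (nat_lit 725874235) (nat_lit 134) (nat_lit 5) (nat_lit 140) (nat_lit 5) (nat_lit 141) (nat_lit 5) (nat_lit 490) (nat_lit 409) (nat_lit 241)) (XT.lf (nat_lit 0) (nat_lit 2904462292) (nat_lit 532) (nat_lit 2353645134) (nat_lit 76) (nat_lit 13563896986) (nat_lit 133) (nat_lit 5) (nat_lit 140) (nat_lit 5) (nat_lit 134) (nat_lit 5) (nat_lit 491) (nat_lit 409) (nat_lit 240)))))) (XT.nd (nat_lit 390) (nat_lit 684) (nat_lit 0) (XT.nd (nat_lit 156) (nat_lit 836) (nat_lit 0) (XT.nd (nat_lit 78) (nat_lit 0) (nat_lit 0) (XT.lf (nat_lit 0) (nat_lit 6647326218) (nat_lit 456) (nat_lit 11242812400) (nat_lit 76) (nat_lit 1172300664) (nat_lit 128) (nat_lit 5) (nat_lit 134) (nat_lit 5) (nat_lit 129) (nat_lit 5) (nat_lit 492) (nat_lit 409)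 (nat_lit 239)) (XT.lf (nat_lit 0) (nat_lit 10506930166) (nat_lit 456) (nat_lit 1127036776) (nat_lit 76) (nat_lit 7672880957) (nat_lit 128) (nat_lit 5) (nat_lit 134) (nat_lit 5) (nat_lit 129) (nat_lit 5) (nat_lit 493) (nat_lit 409) (nat_lit 238))) (XT.nd (nat_lit 78) (nat_lit 456) (nat_lit 0) (XT.lf (nat_lit 0) (nat_lit 9300272308) (nat_lit 380) (nat_lit 5195172759) (nat_lit 456) (nat_lit 5059667896) (nat_lit 123) (nat_lit 5) (nat_lit 128) (nat_lit 5) (nat_lit 129) (nat_lit 5) (nat_lit 494) (nat_lit 409) (nat_lit 237)) (XT.nd (nat_lit 78) (nat_lit 76) (nat_lit 0) (XT.lf (nat_lit 0) (nat_lit 123045534) (nat_lit 380) (nat_lit 18449403597) (nat_lit 456) (nat_lit 1235722420) (nat_lit 118) (nat_lit 5) (nat_lit 123) (nat_lit 5) (nat_lit 124) (nat_lit 5) (nat_lit 495) (nat_lit 409) (nat_lit 236)) (XT.lf (nat_lit 0) (nat_lit 2724853589) (nat_lit 456) (nat_lit 9282432903) (nat_lit 76) (nat_lit 8056759305) (nat_lit 117)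 (nat_lit 5) (nat_lit 123) (nat_lit 5) (nat_lit 118) (nat_lit 5) (nat_lit 496) (nat_lit 409) (nat_lit 235))))) (XT.nd (nat_lit 234) (nat_lit 0) (nat_lit 0) (XT.nd (nat_lit 78) (nat_lit 304) (nat_lit 0) (XT.lf (nat_lit 0) (nat_lit 1324906328) (nat_lit 380) (nat_lit 5423397717) (nat_lit 456) (nat_lit 13576568385) (nat_lit 112) (nat_lit 5) (nat_lit 117) (nat_lit 5) (nat_lit 118) (nat_lit 5) (nat_lit 497) (nat_lit 409) (nat_lit 234)) (XT.nd (nat_lit 78) (nat_lit 304) (nat_lit 0) (XT.lf (nat_lit 0) (nat_lit 10914963643) (nat_lit 456) (nat_lit 8340913080) (nat_lit 76) (nat_lit 1333786473) (nat_lit 112) (nat_lit 5) (nat_lit 118) (nat_lit 5) (nat_lit 113) (nat_lit 5) (nat_lit 498) (nat_lit 409) (nat_lit 233)) (XT.lf (nat_lit 0) (nat_lit 2515991043) (nat_lit 304) (nat_lit 12693029164) (nat_lit 380) (nat_lit 5649850649) (nat_lit 108) (nat_lit 5) (nat_lit 112) (nat_lit 5) (nat_lit 113) (nat_lit 5) (nat_lit 499) (nat_lit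 409) (nat_lit 232)))) (XT.nd (nat_lit 52338) (nat_lit 0) (nat_lit 29108) (XT.lf (nat_lit 0) (nat_lit 13690767080) (nat_lit 304) (nat_lit 5946054995) (nat_lit 380) (nat_lit 1495685621) (nat_lit 108) (nat_lit 5) (nat_lit 112) (nat_lit 5) (nat_lit 113) (nat_lit 5) (nat_lit 500) (nat_lit 409) (nat_lit 231)) (XT.nd (nat_lit 78) (nat_lit 0) (nat_lit 0) (XT.lf (nat_lit 0) (nat_lit 1164747546) (nat_lit 1444) (nat_lit 1462328879) (nat_lit 1444) (nat_lit 1462328879) (nat_lit 491) (nat_lit 3) (nat_lit 510) (nat_lit 3) (nat_lit 510) (nat_lit 5) (nat_lit 410) (nat_lit 410) (nat_lit 320)) (XT.lf (nat_lit 76) (nat_lit 947919015) (nat_lit 0) (nat_lit 2521553150) (nat_lit 1444) (nat_lit 4768142447) (nat_lit 492) (nat_lit 5) (nat_lit 491) (nat_lit 3) (nat_lit 510) (nat_lit 5) (nat_lit 411) (nat_lit 410) (nat_lit 319))))))))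
noncomputable def xc174 : XT := (XT.nd (nat_lit 1638) (nat_lit 10944) (nat_lit 0) (XT.nd (nat_lit 780) (nat_lit 2736) (nat_lit 0) (XT.nd (nat_lit 390) (nat_lit 0) (nat_lit 0) (XT.nd (nat_lit 156) (nat_lit 1368) (nat_lit 0) (XT.nd (nat_lit 78) (nat_lit 0) (nat_lit 0) (XT.lf (nat_lit 0) (nat_lit 4624594476) (nat_lit 1368) (nat_lit 3377221127) (nat_lit 1444) (nat_lit 295949241) (nat_lit 492) (nat_lit 5) (nat_lit 510) (nat_lit 5) (nat_lit 511) (nat_lit 5) (nat_lit 412) (nat_lit 410) (nat_lit 318)) (XT.lf (nat_lit 76) (nat_lit 589082954) (nat_lit 0) (nat_lit 5205695942) (nat_lit 1444) (nat_lit 2564516717) (nat_lit 493) (nat_lit 5) (nat_lit 492) (nat_lit 5) (nat_lit 511) (nat_lit 5) (nat_lit 413) (nat_lit 410) (nat_lit 317))) (XT.nd (nat_lit 78) (nat_lit 1368) (nat_lit 0) (XT.lf (nat_lit 76) (nat_lit 4665147081) (nat_lit 0) (nat_lit 2317779223) (nat_lit 1444) (nat_lit 1439255906) (nat_lit 493) (nat_lit 5) (nat_lit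 492) (nat_lit 5) (nat_lit 511) (nat_lit 5) (nat_lit 414) (nat_lit 410) (nat_lit 316)) (XT.nd (nat_lit 78) (nat_lit 1444) (nat_lit 0) (XT.lf (nat_lit 76) (nat_lit 320844553) (nat_lit 0) (nat_lit 7852680592) (nat_lit 1444) (nat_lit 313243703) (nat_lit 494) (nat_lit 5) (nat_lit 493) (nat_lit 5) (nat_lit 512) (nat_lit 5) (nat_lit 415) (nat_lit 410) (nat_lit 315)) (XT.lf (nat_lit 0) (nat_lit 837833442) (nat_lit 1444) (nat_lit 4057839979) (nat_lit 1520) (nat_lit 3656610794) (nat_lit 474) (nat_lit 5) (nat_lit 493) (nat_lit 5) (nat_lit 494) (nat_lit 5) (nat_lit 416) (nat_lit 410) (nat_lit 314))))) (XT.nd (nat_lit 156) (nat_lit 0) (nat_lit 76) (XT.nd (nat_lit 78) (nat_lit 0) (nat_lit 76) (XT.lf (nat_lit 76) (nat_lit 116201965) (nat_lit 0) (nat_lit 1865599587) (nat_lit 1520) (nat_lit 6637800800) (nat_lit 475) (nat_lit 5) (nat_lit 474) (nat_lit 5) (nat_lit 494) (nat_lit 5) (nat_lit 417) (nat_lit 410) (nat_lit 313)) (XT.lf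 (nat_lit 0) (nat_lit 3157811050) (nat_lit 1444) (nat_lit 4283287277) (nat_lit 1520) (nat_lit 1247000138) (nat_lit 475) (nat_lit 5) (nat_lit 494) (nat_lit 5) (nat_lit 495) (nat_lit 5) (nat_lit 418) (nat_lit 410) (nat_lit 312))) (XT.nd (nat_lit 78) (nat_lit 0) (nat_lit 0) (XT.lf (nat_lit 0) (nat_lit 4344006921) (nat_lit 1444) (nat_lit 6970527) (nat_lit 1520) (nat_lit 4407268292) (nat_lit 475) (nat_lit 5) (nat_lit 494) (nat_lit 5) (nat_lit 495) (nat_lit 5) (nat_lit 419) (nat_lit 410) (nat_lit 311)) (XT.nd (nat_lit 78) (nat_lit 0) (nat_lit 76) (XT.lf (nat_lit 76) (nat_lit 4397007100) (nat_lit 0) (nat_lit 1160282818) (nat_lit 1520) (nat_lit 3272453053) (nat_lit 476) (nat_lit 5) (nat_lit 475) (nat_lit 5) (nat_lit 495) (nat_lit 5) (nat_lit 420) (nat_lit 410) (nat_lit 310)) (XT.lf (nat_lit 0) (nat_lit 6783752099) (nat_lit 1444) (nat_lit 43109265) (nat_lit 1520) (nat_lit 2076044510) (nat_lit 476) (nat_lit 5) (nat_lit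 495) (nat_lit 5) (nat_lit 496) (nat_lit 5) (nat_lit 421) (nat_lit 410) (nat_lit 309)))))) (XT.nd (nat_lit 390) (nat_lit 1368) (nat_lit 0) (XT.nd (nat_lit 156) (nat_lit 0) (nat_lit 76) (XT.nd (nat_lit 78) (nat_lit 1520) (nat_lit 0) (XT.lf (nat_lit 76) (nat_lit 4469557274) (nat_lit 0) (nat_lit 3577643822) (nat_lit 1520) (nat_lit 930095510) (nat_lit 477) (nat_lit 5) (nat_lit 476) (nat_lit 5) (nat_lit 496) (nat_lit 5) (nat_lit 422) (nat_lit 410) (nat_lit 308)) (XT.lf (nat_lit 76) (nat_lit 2165708) (nat_lit 0) (nat_lit 253132344) (nat_lit 1596) (nat_lit 8798328327) (nat_lit 457) (nat_lit 5) (nat_lit 456) (nat_lit 5) (nat_lit 477) (nat_lit 5) (nat_lit 423) (nat_lit 410) (nat_lit 307))) (XT.nd (nat_lit 78) (nat_lit 0) (nat_lit 0) (XT.lf (nat_lit 0) (nat_lit 1479156823) (nat_lit 1520) (nat_lit 4510588237) (nat_lit 1596) (nat_lit 3141083433) (nat_lit 457) (nat_lit 5) (nat_lit 477) (nat_lit 5) (nat_lit 478) (nat_lit 5)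 (nat_lit 424) (nat_lit 410) (nat_lit 306)) (XT.nd (nat_lit 78) (nat_lit 0) (nat_lit 76) (XT.lf (nat_lit 76) (nat_lit 104770043) (nat_lit 0) (nat_lit 2601919446) (nat_lit 1596) (nat_lit 6503313902) (nat_lit 458) (nat_lit 5) (nat_lit 457) (nat_lit 5) (nat_lit 478) (nat_lit 5) (nat_lit 425) (nat_lit 410) (nat_lit 305)) (XT.lf (nat_lit 0) (nat_lit 3972019772) (nat_lit 1520) (nat_lit 4438758883) (nat_lit 1596) (nat_lit 879730623) (nat_lit 458) (nat_lit 5) (nat_lit 478) (nat_lit 5) (nat_lit 479) (nat_lit 5) (nat_lit 426) (nat_lit 410) (nat_lit 304))))) (XT.nd (nat_lit 234) (nat_lit 1520) (nat_lit 0) (XT.nd (nat_lit 78) (nat_lit 0) (nat_lit 0) (XT.lf (nat_lit 76) (nat_lit 291522317) (nat_lit 0) (nat_lit 4967940259) (nat_lit 1596) (nat_lit 4113238773) (nat_lit 459) (nat_lit 5) (nat_lit 458) (nat_lit 5) (nat_lit 479) (nat_lit 5) (nat_lit 427) (nat_lit 410) (nat_lit 303)) (XT.nd (nat_lit 78) (nat_lit 0) (nat_lit 76) (XT.lf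 (nat_lit 76) (nat_lit 5160568838) (nat_lit 0) (nat_lit 1419887381) (nat_lit 1596) (nat_lit 2875936949) (nat_lit 459) (nat_lit 5) (nat_lit 458) (nat_lit 5) (nat_lit 479) (nat_lit 5) (nat_lit 428) (nat_lit 410) (nat_lit 302)) (XT.lf (nat_lit 76) (nat_lit 562156292) (nat_lit 0) (nat_lit 7362126202) (nat_lit 1596) (nat_lit 1617559786) (nat_lit 460) (nat_lit 5) (nat_lit 459) (nat_lit 5) (nat_lit 480) (nat_lit 5) (nat_lit 429) (nat_lit 410) (nat_lit 301)))) (XT.nd (nat_lit 78) (nat_lit 1596) (nat_lit 0) (XT.lf (nat_lit 76) (nat_lit 5549930020) (nat_lit 0) (nat_lit 3762026095) (nat_lit 1596) (nat_lit 316716324) (nat_lit 460) (nat_lit 5) (nat_lit 459) (nat_lit 5) (nat_lit 480) (nat_lit 5) (nat_lit 430) (nat_lit 410) (nat_lit 300)) (XT.nd (nat_lit 78) (nat_lit 0) (nat_lit 76) (XT.lf (nat_lit 76) (nat_lit 909546908) (nat_lit 0) (nat_lit 72323378) (nat_lit 1672) (nat_lit 8735549292) (nat_lit 439) (nat_lit 5) (nat_lit 438)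 (nat_lit 5) (nat_lit 460) (nat_lit 5) (nat_lit 431) (nat_lit 410) (nat_lit 299)) (XT.lf (nat_lit 0) (nat_lit 2333115550) (nat_lit 1596) (nat_lit 3797139699) (nat_lit 1672) (nat_lit 3677036805) (nat_lit 439) (nat_lit 5) (nat_lit 460) (nat_lit 5) (nat_lit 461) (nat_lit 5) (nat_lit 432) (nat_lit 410) (nat_lit 298))))))) (XT.nd (nat_lit 780) (nat_lit 5016) (nat_lit 0) (XT.nd (nat_lit 390) (nat_lit 2812) (nat_lit 0) (XT.nd (nat_lit 156) (nat_lit 3192) (nat_lit 0) (XT.nd (nat_lit 78) (nat_lit 0) (nat_lit 76) (XT.lf (nat_lit 76) (nat_lit 1314498627) (nat_lit 0) (nat_lit 2385710920) (nat_lit 1672) (nat_lit 6198986563) (nat_lit 440) (nat_lit 5) (nat_lit 439) (nat_lit 5) (nat_lit 461) (nat_lit 5) (nat_lit 433) (nat_lit 410) (nat_lit 297)) (XT.lf (nat_lit 0) (nat_lit 5109731696) (nat_lit 1596) (nat_lit 3438463509) (nat_lit 76) (nat_lit 1444451719) (nat_lit 440) (nat_lit 5) (nat_lit 461) (nat_lit 5) (nat_lit 441) (nat_lit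 5) (nat_lit 434) (nat_lit 410) (nat_lit 296))) (XT.nd (nat_lit 78) (nat_lit 1672) (nat_lit 0) (XT.lf (nat_lit 0) (nat_lit 1802458451) (nat_lit 1596) (nat_lit 4753005676) (nat_lit 1672) (nat_lit 3532352424) (nat_lit 419) (nat_lit 5) (nat_lit 440) (nat_lit 5) (nat_lit 441) (nat_lit 5) (nat_lit 435) (nat_lit 410) (nat_lit 295)) (XT.nd (nat_lit 78) (nat_lit 1672) (nat_lit 0) (XT.lf (nat_lit 0) (nat_lit 7178837047) (nat_lit 1596) (nat_lit 855144047) (nat_lit 1672) (nat_lit 2150841076) (nat_lit 419) (nat_lit 5) (nat_lit 440) (nat_lit 5) (nat_lit 441) (nat_lit 5) (nat_lit 436) (nat_lit 410) (nat_lit 294)) (XT.lf (nat_lit 0) (nat_lit 2373781543) (nat_lit 1672) (nat_lit 7185153626) (nat_lit 1748) (nat_lit 724505195) (nat_lit 397) (nat_lit 5) (nat_lit 419) (nat_lit 5) (nat_lit 420) (nat_lit 5) (nat_lit 437) (nat_lit 410) (nat_lit 293))))) (XT.nd (nat_lit 156) (nat_lit 988) (nat_lit 0) (XT.nd (nat_lit 78) (nat_lit 1748)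 (nat_lit 0) (XT.lf (nat_lit 0) (nat_lit 728073153) (nat_lit 1748) (nat_lit 2508492534) (nat_lit 76) (nat_lit 7147233925) (nat_lit 396) (nat_lit 5) (nat_lit 419) (nat_lit 5) (nat_lit 397) (nat_lit 5) (nat_lit 438) (nat_lit 410) (nat_lit 292)) (XT.lf (nat_lit 0) (nat_lit 2206621330) (nat_lit 1824) (nat_lit 7471763390) (nat_lit 76) (nat_lit 807562393) (nat_lit 373) (nat_lit 5) (nat_lit 397) (nat_lit 5) (nat_lit 374) (nat_lit 5) (nat_lit 439) (nat_lit 410) (nat_lit 291))) (XT.nd (nat_lit 78) (nat_lit 988) (nat_lit 0) (XT.lf (nat_lit 0) (nat_lit 3735082694) (nat_lit 1824) (nat_lit 1946208717) (nat_lit 76) (nat_lit 4908448362) (nat_lit 373) (nat_lit 5) (nat_lit 397) (nat_lit 5) (nat_lit 374) (nat_lit 5) (nat_lit 440) (nat_lit 410) (nat_lit 290)) (XT.nd (nat_lit 78) (nat_lit 0) (nat_lit 0) (XT.lf (nat_lit 0) (nat_lit 3722820833) (nat_lit 988) (nat_lit 1577780365) (nat_lit 1064) (nat_lit 5394886207) (nat_lit 360) (nat_lit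 5) (nat_lit 373) (nat_lit 5) (nat_lit 374) (nat_lit 5) (nat_lit 441) (nat_lit 410) (nat_lit 289)) (XT.lf (nat_lit 0) (nat_lit 6910080449) (nat_lit 1064) (nat_lit 1304620224) (nat_lit 76) (nat_lit 2588405009) (nat_lit 360) (nat_lit 5) (nat_lit 374) (nat_lit 5) (nat_lit 361) (nat_lit 5) (nat_lit 442) (nat_lit 410) (nat_lit 288)))))) (XT.nd (nat_lit 390) (nat_lit 2356) (nat_lit 0) (XT.nd (nat_lit 156) (nat_lit 1748) (nat_lit 0) (XT.nd (nat_lit 78) (nat_lit 0) (nat_lit 0) (XT.lf (nat_lit 0) (nat_lit 4509673828) (nat_lit 912) (nat_lit 4064718076) (nat_lit 988) (nat_lit 2338040101) (nat_lit 348) (nat_lit 5) (nat_lit 360) (nat_lit 5) (nat_lit 361) (nat_lit 5) (nat_lit 443) (nat_lit 410) (nat_lit 287)) (XT.lf (nat_lit 0) (nat_lit 10265049187) (nat_lit 988) (nat_lit 583040383) (nat_lit 76) (nat_lit 176002456) (nat_lit 348) (nat_lit 5) (nat_lit 361) (nat_lit 5) (nat_lit 349) (nat_lit 5) (nat_lit 444) (nat_lit 410) (nat_lit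 286))) (XT.nd (nat_lit 78) (nat_lit 836) (nat_lit 0) (XT.lf (nat_lit 0) (nat_lit 885998836) (nat_lit 912) (nat_lit 5761933453) (nat_lit 76) (nat_lit 4489037774) (nat_lit 336) (nat_lit 5) (nat_lit 348) (nat_lit 5) (nat_lit 337) (nat_lit 5) (nat_lit 445) (nat_lit 410) (nat_lit 285)) (XT.nd (nat_lit 78) (nat_lit 0) (nat_lit 0) (XT.lf (nat_lit 0) (nat_lit 189720643) (nat_lit 836) (nat_lit 2352828034) (nat_lit 912) (nat_lit 8709689101) (nat_lit 325) (nat_lit 5) (nat_lit 336) (nat_lit 5) (nat_lit 337) (nat_lit 5) (nat_lit 446) (nat_lit 410) (nat_lit 284)) (XT.lf (nat_lit 0) (nat_lit 4268132853) (nat_lit 912) (nat_lit 5060045338) (nat_lit 76) (nat_lit 2040922318) (nat_lit 325) (nat_lit 5) (nat_lit 337) (nat_lit 5) (nat_lit 326) (nat_lit 5) (nat_lit 447) (nat_lit 410) (nat_lit 283))))) (XT.nd (nat_lit 234) (nat_lit 836) (nat_lit 0) (XT.nd (nat_lit 78) (nat_lit 760) (nat_lit 0) (XT.lf (nat_lit 0) (nat_lit 1044817015)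 (nat_lit 760) (nat_lit 4989907757) (nat_lit 836) (nat_lit 5453453375) (nat_lit 315) (nat_lit 5) (nat_lit 325) (nat_lit 5) (nat_lit 326) (nat_lit 5) (nat_lit 448) (nat_lit 410) (nat_lit 282)) (XT.nd (nat_lit 78) (nat_lit 760) (nat_lit 0) (XT.lf (nat_lit 0) (nat_lit 7324690478) (nat_lit 760) (nat_lit 530253772) (nat_lit 836) (nat_lit 3754334602) (nat_lit 315) (nat_lit 5) (nat_lit 325) (nat_lit 5) (nat_lit 326) (nat_lit 5) (nat_lit 449) (nat_lit 410) (nat_lit 281)) (XT.lf (nat_lit 0) (nat_lit 1981573928) (nat_lit 760) (nat_lit 7753598358) (nat_lit 836) (nat_lit 1997164482) (nat_lit 305) (nat_lit 5) (nat_lit 315) (nat_lit 5) (nat_lit 316) (nat_lit 5) (nat_lit 450) (nat_lit 410) (nat_lit 280)))) (XT.nd (nat_lit 78) (nat_lit 836) (nat_lit 0) (XT.lf (nat_lit 0) (nat_lit 8411999861) (nat_lit 760) (nat_lit 3258092361) (nat_lit 836) (nat_lit 187429013) (nat_lit 305) (nat_lit 5) (nat_lit 315) (nat_lit 5) (nat_lit 316)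 (nat_lit 5) (nat_lit 451) (nat_lit 410) (nat_lit 279)) (XT.nd (nat_lit 78) (nat_lit 0) (nat_lit 0) (XT.lf (nat_lit 0) (nat_lit 1650074088) (nat_lit 836) (nat_lit 8994817658) (nat_lit 76) (nat_lit 1339842655) (nat_lit 294) (nat_lit 5) (nat_lit 305) (nat_lit 5) (nat_lit 295) (nat_lit 5) (nat_lit 452) (nat_lit 410) (nat_lit 278)) (XT.lf (nat_lit 0) (nat_lit 3551899434) (nat_lit 836) (nat_lit 2551908500) (nat_lit 76) (nat_lit 6010064208) (nat_lit 294) (nat_lit 5) (nat_lit 305) (nat_lit 5) (nat_lit 295) (nat_lit 5) (nat_lit 453) (nat_lit 410) (nat_lit 277))))))))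
noncomputable def xc175 : XT := (XT.nd (nat_lit 1638) (nat_lit 5244) (nat_lit 0) (XT.nd (nat_lit 780) (nat_lit 3572) (nat_lit 0) (XT.nd (nat_lit 390) (nat_lit 1976) (nat_lit 0) (XT.nd (nat_lit 156) (nat_lit 1444) (nat_lit 0) (XT.nd (nat_lit 78) (nat_lit 0) (nat_lit 0) (XT.lf (nat_lit 0) (nat_lit 4057707258) (nat_lit 760) (nat_lit 1445917352) (nat_lit 836) (nat_lit 6741737358) (nat_lit 284) (nat_lit 5) (nat_lit 294) (nat_lit 5) (nat_lit 295) (nat_lit 5) (nat_lit 454) (nat_lit 410) (nat_lit 276)) (XT.lf (nat_lit 0) (nat_lit 7518777975) (nat_lit 836) (nat_lit 1582158618) (nat_lit 76) (nat_lit 3278063588) (nat_lit 284) (nat_lit 5) (nat_lit 295) (nat_lit 5) (nat_lit 285) (nat_lit 5) (nat_lit 455) (nat_lit 410) (nat_lit 275))) (XT.nd (nat_lit 78) (nat_lit 760) (nat_lit 0) (XT.lf (nat_lit 0) (nat_lit 5198805905) (nat_lit 684) (nat_lit 4404735192) (nat_lit 760) (nat_lit 2911190266) (nat_lit 275) (nat_lit 5) (nat_lit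 284) (nat_lit 5) (nat_lit 285) (nat_lit 5) (nat_lit 456) (nat_lit 410) (nat_lit 274)) (XT.nd (nat_lit 78) (nat_lit 760) (nat_lit 0) (XT.lf (nat_lit 0) (nat_lit 11729334255) (nat_lit 760) (nat_lit 534124568) (nat_lit 76) (nat_lit 389737867) (nat_lit 275) (nat_lit 5) (nat_lit 285) (nat_lit 5) (nat_lit 276) (nat_lit 5) (nat_lit 457) (nat_lit 410) (nat_lit 273)) (XT.lf (nat_lit 0) (nat_lit 1146407841) (nat_lit 760) (nat_lit 6377570681) (nat_lit 76) (nat_lit 5269162224) (nat_lit 265) (nat_lit 5) (nat_lit 275) (nat_lit 5) (nat_lit 266) (nat_lit 5) (nat_lit 458) (nat_lit 410) (nat_lit 272))))) (XT.nd (nat_lit 156) (nat_lit 1292) (nat_lit 0) (XT.nd (nat_lit 78) (nat_lit 0) (nat_lit 0) (XT.lf (nat_lit 0) (nat_lit 561704621) (nat_lit 684) (nat_lit 2677765773) (nat_lit 760) (nat_lit 9696421862) (nat_lit 256) (nat_lit 5) (nat_lit 265) (nat_lit 5) (nat_lit 266) (nat_lit 5) (nat_lit 459) (nat_lit 410) (nat_lit 271)) (XT.lf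 (nat_lit 0) (nat_lit 5418828986) (nat_lit 760) (nat_lit 5384787579) (nat_lit 76) (nat_lit 2276999278) (nat_lit 256) (nat_lit 5) (nat_lit 266) (nat_lit 5) (nat_lit 257) (nat_lit 5) (nat_lit 460) (nat_lit 410) (nat_lit 270))) (XT.nd (nat_lit 78) (nat_lit 608) (nat_lit 0) (XT.lf (nat_lit 0) (nat_lit 1734346447) (nat_lit 684) (nat_lit 5923330430) (nat_lit 760) (nat_lit 5570244609) (nat_lit 247) (nat_lit 5) (nat_lit 256) (nat_lit 5) (nat_lit 257) (nat_lit 5) (nat_lit 461) (nat_lit 410) (nat_lit 269)) (XT.nd (nat_lit 78) (nat_lit 608) (nat_lit 0) (XT.lf (nat_lit 0) (nat_lit 9053887744) (nat_lit 684) (nat_lit 910616323) (nat_lit 760) (nat_lit 3413210650) (nat_lit 247) (nat_lit 5) (nat_lit 256) (nat_lit 5) (nat_lit 257) (nat_lit 5) (nat_lit 462) (nat_lit 410) (nat_lit 268)) (XT.lf (nat_lit 0) (nat_lit 2986276984) (nat_lit 608) (nat_lit 9365172364) (nat_lit 684) (nat_lit 1178380240) (nat_lit 239) (nat_lit 5) (nat_lit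 247) (nat_lit 5) (nat_lit 248) (nat_lit 5) (nat_lit 463) (nat_lit 410) (nat_lit 267)))))) (XT.nd (nat_lit 390) (nat_lit 2280) (nat_lit 0) (XT.nd (nat_lit 156) (nat_lit 608) (nat_lit 0) (XT.nd (nat_lit 78) (nat_lit 608) (nat_lit 0) (XT.lf (nat_lit 0) (nat_lit 1109315468) (nat_lit 684) (nat_lit 3211579950) (nat_lit 76) (nat_lit 9363501345) (nat_lit 238) (nat_lit 5) (nat_lit 247) (nat_lit 5) (nat_lit 239) (nat_lit 5) (nat_lit 464) (nat_lit 410) (nat_lit 266)) (XT.lf (nat_lit 0) (nat_lit 3448119228) (nat_lit 684) (nat_lit 9546231797) (nat_lit 76) (nat_lit 847130919) (nat_lit 230) (nat_lit 5) (nat_lit 239) (nat_lit 5) (nat_lit 231) (nat_lit 5) (nat_lit 465) (nat_lit 410) (nat_lit 265))) (XT.nd (nat_lit 78) (nat_lit 608) (nat_lit 0) (XT.lf (nat_lit 0) (nat_lit 5871761047) (nat_lit 684) (nat_lit 2049123592) (nat_lit 76) (nat_lit 6080067948) (nat_lit 230) (nat_lit 5) (nat_lit 239) (nat_lit 5) (nat_lit 231) (nat_lit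 5) (nat_lit 466) (nat_lit 410) (nat_lit 264)) (XT.nd (nat_lit 78) (nat_lit 0) (nat_lit 0) (XT.lf (nat_lit 0) (nat_lit 5657579376) (nat_lit 608) (nat_lit 2711021894) (nat_lit 684) (nat_lit 5794521762) (nat_lit 222) (nat_lit 5) (nat_lit 230) (nat_lit 5) (nat_lit 231) (nat_lit 5) (nat_lit 467) (nat_lit 410) (nat_lit 263)) (XT.lf (nat_lit 0) (nat_lit 10934238332) (nat_lit 684) (nat_lit 813737963) (nat_lit 76) (nat_lit 2580188195) (nat_lit 222) (nat_lit 5) (nat_lit 231) (nat_lit 5) (nat_lit 223) (nat_lit 5) (nat_lit 468) (nat_lit 410) (nat_lit 262))))) (XT.nd (nat_lit 234) (nat_lit 1064) (nat_lit 0) (XT.nd (nat_lit 78) (nat_lit 608) (nat_lit 0) (XT.lf (nat_lit 0) (nat_lit 7092581135) (nat_lit 608) (nat_lit 6510961138) (nat_lit 684) (nat_lit 891922131) (nat_lit 214) (nat_lit 5) (nat_lit 222) (nat_lit 5) (nat_lit 223) (nat_lit 5) (nat_lit 469) (nat_lit 410) (nat_lit 261)) (XT.nd (nat_lit 78) (nat_lit 0) (nat_lit 0)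 (XT.lf (nat_lit 0) (nat_lit 483124079) (nat_lit 532) (nat_lit 1152264044) (nat_lit 608) (nat_lit 13030570368) (nat_lit 206) (nat_lit 5) (nat_lit 213) (nat_lit 5) (nat_lit 214) (nat_lit 5) (nat_lit 470) (nat_lit 410) (nat_lit 260)) (XT.lf (nat_lit 0) (nat_lit 4267846659) (nat_lit 608) (nat_lit 6260484957) (nat_lit 76) (nat_lit 4310086473) (nat_lit 206) (nat_lit 5) (nat_lit 214) (nat_lit 5) (nat_lit 207) (nat_lit 5) (nat_lit 471) (nat_lit 410) (nat_lit 259)))) (XT.nd (nat_lit 78) (nat_lit 532) (nat_lit 0) (XT.lf (nat_lit 0) (nat_lit 1822292954) (nat_lit 532) (nat_lit 5138869634) (nat_lit 608) (nat_lit 8053004477) (nat_lit 199) (nat_lit 5) (nat_lit 206) (nat_lit 5) (nat_lit 207) (nat_lit 5) (nat_lit 472) (nat_lit 410) (nat_lit 258)) (XT.nd (nat_lit 78) (nat_lit 532) (nat_lit 0) (XT.lf (nat_lit 0) (nat_lit 9741815459) (nat_lit 608) (nat_lit 5058007134) (nat_lit 76) (nat_lit 392943280) (nat_lit 199) (nat_lit 5) (nat_lit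 207) (nat_lit 5) (nat_lit 200) (nat_lit 5) (nat_lit 473) (nat_lit 410) (nat_lit 257)) (XT.lf (nat_lit 0) (nat_lit 3232785643) (nat_lit 532) (nat_lit 9389390326) (nat_lit 608) (nat_lit 2751882981) (nat_lit 192) (nat_lit 5) (nat_lit 199) (nat_lit 5) (nat_lit 200) (nat_lit 5) (nat_lit 474) (nat_lit 410) (nat_lit 256))))))) (XT.nd (nat_lit 780) (nat_lit 2660) (nat_lit 0) (XT.nd (nat_lit 390) (nat_lit 1520) (nat_lit 0) (XT.nd (nat_lit 156) (nat_lit 456) (nat_lit 0) (XT.nd (nat_lit 78) (nat_lit 532) (nat_lit 0) (XT.lf (nat_lit 0) (nat_lit 24437727) (nat_lit 608) (nat_lit 3814748082) (nat_lit 76) (nat_lit 11719330203) (nat_lit 191) (nat_lit 5) (nat_lit 199) (nat_lit 5) (nat_lit 192) (nat_lit 5) (nat_lit 475) (nat_lit 410) (nat_lit 255)) (XT.lf (nat_lit 0) (nat_lit 2851504407) (nat_lit 608) (nat_lit 11050102602) (nat_lit 76) (nat_lit 1844054003) (nat_lit 184) (nat_lit 5) (nat_lit 192) (nat_lit 5) (nat_lit 185) (nat_lit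 5) (nat_lit 476) (nat_lit 410) (nat_lit 254))) (XT.nd (nat_lit 78) (nat_lit 456) (nat_lit 0) (XT.lf (nat_lit 0) (nat_lit 5775738219) (nat_lit 608) (nat_lit 2547848477) (nat_lit 76) (nat_lit 7612153563) (nat_lit 184) (nat_lit 5) (nat_lit 192) (nat_lit 5) (nat_lit 185) (nat_lit 5) (nat_lit 477) (nat_lit 410) (nat_lit 253)) (XT.nd (nat_lit 78) (nat_lit 0) (nat_lit 0) (XT.lf (nat_lit 0) (nat_lit 6191935660) (nat_lit 456) (nat_lit 2596362643) (nat_lit 532) (nat_lit 7340729744) (nat_lit 178) (nat_lit 5) (nat_lit 184) (nat_lit 5) (nat_lit 185) (nat_lit 5) (nat_lit 478) (nat_lit 410) (nat_lit 252)) (XT.lf (nat_lit 0) (nat_lit 11889123632) (nat_lit 532) (nat_lit 1219791739) (nat_lit 76) (nat_lit 3216709654) (nat_lit 178) (nat_lit 5) (nat_lit 185) (nat_lit 5) (nat_lit 179) (nat_lit 5) (nat_lit 479) (nat_lit 410) (nat_lit 251))))) (XT.nd (nat_lit 156) (nat_lit 456) (nat_lit 0) (XT.nd (nat_lit 78) (nat_lit 532) (nat_lit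 0) (XT.lf (nat_lit 0) (nat_lit 7742658021) (nat_lit 532) (nat_lit 7366705785) (nat_lit 608) (nat_lit 1415645809) (nat_lit 171) (nat_lit 5) (nat_lit 178) (nat_lit 5) (nat_lit 179) (nat_lit 5) (nat_lit 480) (nat_lit 410) (nat_lit 250)) (XT.lf (nat_lit 0) (nat_lit 150177828) (nat_lit 456) (nat_lit 1492792718) (nat_lit 532) (nat_lit 15085214792) (nat_lit 164) (nat_lit 5) (nat_lit 170) (nat_lit 5) (nat_lit 171) (nat_lit 5) (nat_lit 481) (nat_lit 410) (nat_lit 249))) (XT.nd (nat_lit 78) (nat_lit 456) (nat_lit 0) (XT.lf (nat_lit 0) (nat_lit 4822413366) (nat_lit 532) (nat_lit 7606499699) (nat_lit 76) (nat_lit 4504755599) (nat_lit 164) (nat_lit 5) (nat_lit 171) (nat_lit 5) (nat_lit 165) (nat_lit 5) (nat_lit 482) (nat_lit 410) (nat_lit 248)) (XT.nd (nat_lit 78) (nat_lit 0) (nat_lit 0) (XT.lf (nat_lit 0) (nat_lit 1541350229) (nat_lit 456) (nat_lit 6534242771) (nat_lit 532) (nat_lit 9067469061) (nat_lit 158) (nat_lit 5)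 (nat_lit 164) (nat_lit 5) (nat_lit 165) (nat_lit 5) (nat_lit 483) (nat_lit 410) (nat_lit 247)) (XT.lf (nat_lit 0) (nat_lit 10961936455) (nat_lit 456) (nat_lit 473302384) (nat_lit 532) (nat_lit 5920579732) (nat_lit 158) (nat_lit 5) (nat_lit 164) (nat_lit 5) (nat_lit 165) (nat_lit 5) (nat_lit 484) (nat_lit 410) (nat_lit 246)))))) (XT.nd (nat_lit 390) (nat_lit 1292) (nat_lit 0) (XT.nd (nat_lit 156) (nat_lit 836) (nat_lit 0) (XT.nd (nat_lit 78) (nat_lit 76) (nat_lit 0) (XT.lf (nat_lit 0) (nat_lit 2986976989) (nat_lit 456) (nat_lit 11922084288) (nat_lit 532) (nat_lit 2662832495) (nat_lit 152) (nat_lit 5) (nat_lit 158) (nat_lit 5) (nat_lit 159) (nat_lit 5) (nat_lit 485) (nat_lit 410) (nat_lit 245)) (XT.lf (nat_lit 0) (nat_lit 688297435) (nat_lit 532) (nat_lit 5170290267) (nat_lit 76) (nat_lit 11932882476) (nat_lit 151) (nat_lit 5) (nat_lit 158) (nat_lit 5) (nat_lit 152) (nat_lit 5) (nat_lit 486) (nat_lit 410) (nat_lit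 244))) (XT.nd (nat_lit 78) (nat_lit 380) (nat_lit 0) (XT.lf (nat_lit 0) (nat_lit 4092935127) (nat_lit 532) (nat_lit 13556619592) (nat_lit 76) (nat_lit 365091603) (nat_lit 145) (nat_lit 5) (nat_lit 152) (nat_lit 5) (nat_lit 146) (nat_lit 5) (nat_lit 487) (nat_lit 410) (nat_lit 243)) (XT.nd (nat_lit 78) (nat_lit 380) (nat_lit 0) (XT.lf (nat_lit 0) (nat_lit 7630207184) (nat_lit 532) (nat_lit 3944719118) (nat_lit 76) (nat_lit 6666071843) (nat_lit 145) (nat_lit 5) (nat_lit 152) (nat_lit 5) (nat_lit 146) (nat_lit 5) (nat_lit 488) (nat_lit 410) (nat_lit 242)) (XT.lf (nat_lit 0) (nat_lit 5924280718) (nat_lit 380) (nat_lit 5343406240) (nat_lit 456) (nat_lit 7203603727) (nat_lit 140) (nat_lit 5) (nat_lit 145) (nat_lit 5) (nat_lit 146) (nat_lit 5) (nat_lit 489) (nat_lit 410) (nat_lit 241))))) (XT.nd (nat_lit 234) (nat_lit 760) (nat_lit 0) (XT.nd (nat_lit 78) (nat_lit 532) (nat_lit 0) (XT.lf (nat_lit 0) (nat_lit 15002204861)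 (nat_lit 456) (nat_lit 2681186392) (nat_lit 76) (nat_lit 1022314925) (nat_lit 140) (nat_lit 5) (nat_lit 146) (nat_lit 5) (nat_lit 141) (nat_lit 5) (nat_lit 490) (nat_lit 410) (nat_lit 240)) (XT.nd (nat_lit 78) (nat_lit 76) (nat_lit 0) (XT.lf (nat_lit 0) (nat_lit 7431375505) (nat_lit 456) (nat_lit 11454915671) (nat_lit 532) (nat_lit 57024057) (nat_lit 134) (nat_lit 5) (nat_lit 140) (nat_lit 5) (nat_lit 141) (nat_lit 5) (nat_lit 491) (nat_lit 410) (nat_lit 239)) (XT.lf (nat_lit 0) (nat_lit 3623733080) (nat_lit 532) (nat_lit 1439372190) (nat_lit 76) (nat_lit 14121910670) (nat_lit 133) (nat_lit 5) (nat_lit 140) (nat_lit 5) (nat_lit 134) (nat_lit 5) (nat_lit 492) (nat_lit 410) (nat_lit 238)))) (XT.nd (nat_lit 78) (nat_lit 380) (nat_lit 0) (XT.lf (nat_lit 0) (nat_lit 7436642288) (nat_lit 456) (nat_lit 10501309893) (nat_lit 76) (nat_lit 1492407584) (nat_lit 128) (nat_lit 5) (nat_lit 134) (nat_lit 5) (nat_lit 129) (nat_lit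 5) (nat_lit 493) (nat_lit 410) (nat_lit 237)) (XT.nd (nat_lit 78) (nat_lit 380) (nat_lit 0) (XT.lf (nat_lit 0) (nat_lit 11360568323) (nat_lit 456) (nat_lit 202166968) (nat_lit 76) (nat_lit 8117182602) (nat_lit 128) (nat_lit 5) (nat_lit 134) (nat_lit 5) (nat_lit 129) (nat_lit 5) (nat_lit 494) (nat_lit 410) (nat_lit 236)) (XT.lf (nat_lit 0) (nat_lit 10427455335) (nat_lit 380) (nat_lit 4994891299) (nat_lit 456) (nat_lit 4510935625) (nat_lit 123) (nat_lit 5) (nat_lit 128) (nat_lit 5) (nat_lit 129) (nat_lit 5) (nat_lit 495) (nat_lit 410) (nat_lit 235))))))))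
noncomputable def xc176 : XT := (XT.nd (nat_lit 53898) (nat_lit 0) (nat_lit 17328) (XT.nd (nat_lit 53118) (nat_lit 0) (nat_lit 26448) (XT.nd (nat_lit 52728) (nat_lit 0) (nat_lit 27740) (XT.nd (nat_lit 156) (nat_lit 684) (nat_lit 0) (XT.nd (nat_lit 78) (nat_lit 76) (nat_lit 0) (XT.lf (nat_lit 0) (nat_lit 1071377968) (nat_lit 380) (nat_lit 18505100229) (nat_lit 456) (nat_lit 615015860) (nat_lit 118) (nat_lit 5) (nat_lit 123) (nat_lit 5) (nat_lit 124) (nat_lit 5) (nat_lit 496) (nat_lit 410) (nat_lit 234)) (XT.lf (nat_lit 0) (nat_lit 3403817520) (nat_lit 456) (nat_lit 8532275729) (nat_lit 76) (nat_lit 8516562154) (nat_lit 117) (nat_lit 5) (nat_lit 123) (nat_lit 5) (nat_lit 118) (nat_lit 5) (nat_lit 497) (nat_lit 410) (nat_lit 233))) (XT.nd (nat_lit 78) (nat_lit 304) (nat_lit 0) (XT.lf (nat_lit 0) (nat_lit 2281053669) (nat_lit 380) (nat_lit 5220474768) (nat_lit 456) (nat_lit 13217297872) (nat_lit 112) (nat_lit 5)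 (nat_lit 117) (nat_lit 5) (nat_lit 118) (nat_lit 5) (nat_lit 498) (nat_lit 410) (nat_lit 232)) (XT.nd (nat_lit 78) (nat_lit 304) (nat_lit 0) (XT.lf (nat_lit 0) (nat_lit 11741380628) (nat_lit 456) (nat_lit 7585995039) (nat_lit 76) (nat_lit 1661743532) (nat_lit 112) (nat_lit 5) (nat_lit 118) (nat_lit 5) (nat_lit 113) (nat_lit 5) (nat_lit 499) (nat_lit 410) (nat_lit 231)) (XT.lf (nat_lit 0) (nat_lit 3481983111) (nat_lit 304) (nat_lit 12633356487) (nat_lit 380) (nat_lit 5148494419) (nat_lit 108) (nat_lit 5) (nat_lit 112) (nat_lit 5) (nat_lit 113) (nat_lit 5) (nat_lit 500) (nat_lit 410) (nat_lit 230))))) (XT.nd (nat_lit 156) (nat_lit 1368) (nat_lit 0) (XT.nd (nat_lit 78) (nat_lit 0) (nat_lit 0) (XT.lf (nat_lit 0) (nat_lit 2291359818) (nat_lit 1444) (nat_lit 928560504) (nat_lit 1444) (nat_lit 928560504) (nat_lit 491) (nat_lit 3) (nat_lit 510) (nat_lit 3) (nat_lit 510) (nat_lit 5) (nat_lit 411) (nat_lit 411) (nat_lit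 318)) (XT.lf (nat_lit 76) (nat_lit 2085499209) (nat_lit 0) (nat_lit 3623992531) (nat_lit 1444) (nat_lit 2648195430) (nat_lit 492) (nat_lit 5) (nat_lit 491) (nat_lit 3) (nat_lit 510) (nat_lit 5) (nat_lit 412) (nat_lit 411) (nat_lit 317))) (XT.nd (nat_lit 78) (nat_lit 1368) (nat_lit 0) (XT.lf (nat_lit 76) (nat_lit 6117668339) (nat_lit 0) (nat_lit 725500806) (nat_lit 1444) (nat_lit 1576787052) (nat_lit 492) (nat_lit 5) (nat_lit 491) (nat_lit 3) (nat_lit 510) (nat_lit 5) (nat_lit 413) (nat_lit 411) (nat_lit 316)) (XT.nd (nat_lit 78) (nat_lit 1444) (nat_lit 0) (XT.lf (nat_lit 76) (nat_lit 1740505445) (nat_lit 0) (nat_lit 6257345144) (nat_lit 1444) (nat_lit 485669484) (nat_lit 493) (nat_lit 5) (nat_lit 492) (nat_lit 5) (nat_lit 511) (nat_lit 5) (nat_lit 414) (nat_lit 411) (nat_lit 315)) (XT.lf (nat_lit 0) (nat_lit 612193410) (nat_lit 1444) (nat_lit 2676789418) (nat_lit 1520) (nat_lit 5259443405) (nat_lit 473) (nat_lit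 5) (nat_lit 492) (nat_lit 5) (nat_lit 493) (nat_lit 5) (nat_lit 415) (nat_lit 411) (nat_lit 314)))))) (XT.nd (nat_lit 390) (nat_lit 1292) (nat_lit 0) (XT.nd (nat_lit 156) (nat_lit 0) (nat_lit 76) (XT.nd (nat_lit 78) (nat_lit 0) (nat_lit 76) (XT.lf (nat_lit 76) (nat_lit 1472020041) (nat_lit 0) (nat_lit 236380505) (nat_lit 1520) (nat_lit 6906523113) (nat_lit 474) (nat_lit 5) (nat_lit 473) (nat_lit 5) (nat_lit 493) (nat_lit 5) (nat_lit 416) (nat_lit 411) (nat_lit 313)) (XT.lf (nat_lit 0) (nat_lit 2837123418) (nat_lit 1444) (nat_lit 2976448307) (nat_lit 1520) (nat_lit 2868982330) (nat_lit 474) (nat_lit 5) (nat_lit 493) (nat_lit 5) (nat_lit 494) (nat_lit 5) (nat_lit 417) (nat_lit 411) (nat_lit 312))) (XT.nd (nat_lit 78) (nat_lit 0) (nat_lit 76) (XT.lf (nat_lit 76) (nat_lit 1273426131) (nat_lit 0) (nat_lit 2699169935) (nat_lit 1520) (nat_lit 4779272048) (nat_lit 475) (nat_lit 5) (nat_lit 474) (nat_lit 5) (nat_lit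 494) (nat_lit 5) (nat_lit 418) (nat_lit 411) (nat_lit 311)) (XT.nd (nat_lit 78) (nat_lit 0) (nat_lit 0) (XT.lf (nat_lit 0) (nat_lit 5128799276) (nat_lit 1444) (nat_lit 3192290034) (nat_lit 1520) (nat_lit 501532999) (nat_lit 475) (nat_lit 5) (nat_lit 494) (nat_lit 5) (nat_lit 495) (nat_lit 5) (nat_lit 419) (nat_lit 411) (nat_lit 310)) (XT.lf (nat_lit 76) (nat_lit 1161717360) (nat_lit 0) (nat_lit 5147135874) (nat_lit 1520) (nat_lit 2585937817) (nat_lit 476) (nat_lit 5) (nat_lit 475) (nat_lit 5) (nat_lit 495) (nat_lit 5) (nat_lit 420) (nat_lit 411) (nat_lit 309))))) (XT.nd (nat_lit 156) (nat_lit 1444) (nat_lit 0) (XT.nd (nat_lit 78) (nat_lit 0) (nat_lit 76) (XT.lf (nat_lit 76) (nat_lit 5630948992) (nat_lit 0) (nat_lit 1878675891) (nat_lit 1520) (nat_lit 1458849674) (nat_lit 476) (nat_lit 5) (nat_lit 475) (nat_lit 5) (nat_lit 495) (nat_lit 5) (nat_lit 421) (nat_lit 411) (nat_lit 308)) (XT.lf (nat_lit 76) (nat_lit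 1136004552) (nat_lit 0) (nat_lit 7591460586) (nat_lit 1520) (nat_lit 316318985) (nat_lit 477) (nat_lit 5) (nat_lit 476) (nat_lit 5) (nat_lit 496) (nat_lit 5) (nat_lit 422) (nat_lit 411) (nat_lit 307))) (XT.nd (nat_lit 78) (nat_lit 0) (nat_lit 0) (XT.lf (nat_lit 0) (nat_lit 849341684) (nat_lit 1520) (nat_lit 3409613251) (nat_lit 1596) (nat_lit 4861319323) (nat_lit 456) (nat_lit 5) (nat_lit 476) (nat_lit 5) (nat_lit 477) (nat_lit 5) (nat_lit 423) (nat_lit 411) (nat_lit 306)) (XT.nd (nat_lit 78) (nat_lit 0) (nat_lit 76) (XT.lf (nat_lit 76) (nat_lit 1176553204) (nat_lit 0) (nat_lit 842060497) (nat_lit 1596) (nat_lit 7179960683) (nat_lit 457) (nat_lit 5) (nat_lit 456) (nat_lit 5) (nat_lit 477) (nat_lit 5) (nat_lit 424) (nat_lit 411) (nat_lit 305)) (XT.lf (nat_lit 0) (nat_lit 3228758435) (nat_lit 1520) (nat_lit 3410349468) (nat_lit 1596) (nat_lit 2638995292) (nat_lit 457) (nat_lit 5) (nat_lit 477) (nat_lit 5) (nat_lit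 478) (nat_lit 5) (nat_lit 425) (nat_lit 411) (nat_lit 304))))))) (XT.nd (nat_lit 780) (nat_lit 7752) (nat_lit 0) (XT.nd (nat_lit 390) (nat_lit 1444) (nat_lit 0) (XT.nd (nat_lit 156) (nat_lit 0) (nat_lit 76) (XT.nd (nat_lit 78) (nat_lit 0) (nat_lit 76) (XT.lf (nat_lit 76) (nat_lit 1289484067) (nat_lit 0) (nat_lit 3165310180) (nat_lit 1596) (nat_lit 4904606755) (nat_lit 458) (nat_lit 5) (nat_lit 457) (nat_lit 5) (nat_lit 478) (nat_lit 5) (nat_lit 426) (nat_lit 411) (nat_lit 303)) (XT.lf (nat_lit 0) (nat_lit 5708961080) (nat_lit 1520) (nat_lit 3330729042) (nat_lit 1596) (nat_lit 402574385) (nat_lit 458) (nat_lit 5) (nat_lit 478) (nat_lit 5) (nat_lit 479) (nat_lit 5) (nat_lit 427) (nat_lit 411) (nat_lit 302))) (XT.nd (nat_lit 78) (nat_lit 0) (nat_lit 0) (XT.lf (nat_lit 76) (nat_lit 1486284065) (nat_lit 0) (nat_lit 5511087987) (nat_lit 1596) (nat_lit 2529241725) (nat_lit 459) (nat_lit 5) (nat_lit 458) (nat_lit 5)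 (nat_lit 479) (nat_lit 5) (nat_lit 428) (nat_lit 411) (nat_lit 301)) (XT.nd (nat_lit 78) (nat_lit 0) (nat_lit 76) (XT.lf (nat_lit 76) (nat_lit 6429399138) (nat_lit 0) (nat_lit 1883372308) (nat_lit 1596) (nat_lit 1299865664) (nat_lit 459) (nat_lit 5) (nat_lit 458) (nat_lit 5) (nat_lit 479) (nat_lit 5) (nat_lit 429) (nat_lit 411) (nat_lit 300)) (XT.lf (nat_lit 76) (nat_lit 1766823665) (nat_lit 0) (nat_lit 7890243204) (nat_lit 1596) (nat_lit 43273538) (nat_lit 460) (nat_lit 5) (nat_lit 459) (nat_lit 5) (nat_lit 480) (nat_lit 5) (nat_lit 430) (nat_lit 411) (nat_lit 299))))) (XT.nd (nat_lit 156) (nat_lit 0) (nat_lit 76) (XT.nd (nat_lit 78) (nat_lit 0) (nat_lit 0) (XT.lf (nat_lit 0) (nat_lit 1235662789) (nat_lit 1596) (nat_lit 2966718231) (nat_lit 1672) (nat_lit 5586997654) (nat_lit 438) (nat_lit 5) (nat_lit 459) (nat_lit 5) (nat_lit 460) (nat_lit 5) (nat_lit 431) (nat_lit 411) (nat_lit 298)) (XT.lf (nat_lit 76) (nat_lit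 2111400597) (nat_lit 0) (nat_lit 421788858) (nat_lit 1672) (nat_lit 7347141319) (nat_lit 439) (nat_lit 5) (nat_lit 438) (nat_lit 5) (nat_lit 460) (nat_lit 5) (nat_lit 432) (nat_lit 411) (nat_lit 297))) (XT.nd (nat_lit 78) (nat_lit 0) (nat_lit 0) (XT.lf (nat_lit 0) (nat_lit 3879211385) (nat_lit 1596) (nat_lit 2679592770) (nat_lit 1672) (nat_lit 3413857266) (nat_lit 439) (nat_lit 5) (nat_lit 460) (nat_lit 5) (nat_lit 461) (nat_lit 5) (nat_lit 433) (nat_lit 411) (nat_lit 296)) (XT.nd (nat_lit 78) (nat_lit 0) (nat_lit 76) (XT.lf (nat_lit 76) (nat_lit 2526426416) (nat_lit 0) (nat_lit 2725518135) (nat_lit 1672) (nat_lit 4814908509) (nat_lit 440) (nat_lit 5) (nat_lit 439) (nat_lit 5) (nat_lit 461) (nat_lit 5) (nat_lit 434) (nat_lit 411) (nat_lit 295)) (XT.lf (nat_lit 0) (nat_lit 6658822753) (nat_lit 1596) (nat_lit 2313251160) (nat_lit 76) (nat_lit 1190730808) (nat_lit 440) (nat_lit 5) (nat_lit 461) (nat_lit 5) (nat_lit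 441) (nat_lit 5) (nat_lit 435) (nat_lit 411) (nat_lit 294)))))) (XT.nd (nat_lit 390) (nat_lit 2812) (nat_lit 0) (XT.nd (nat_lit 156) (nat_lit 3496) (nat_lit 0) (XT.nd (nat_lit 78) (nat_lit 0) (nat_lit 0) (XT.lf (nat_lit 0) (nat_lit 3024634096) (nat_lit 1596) (nat_lit 5088166338) (nat_lit 1672) (nat_lit 2147505542) (nat_lit 419) (nat_lit 5) (nat_lit 440) (nat_lit 5) (nat_lit 441) (nat_lit 5) (nat_lit 436) (nat_lit 411) (nat_lit 293)) (XT.lf (nat_lit 0) (nat_lit 8485282882) (nat_lit 1596) (nat_lit 1107639622) (nat_lit 1672) (nat_lit 766903063) (nat_lit 419) (nat_lit 5) (nat_lit 440) (nat_lit 5) (nat_lit 441) (nat_lit 5) (nat_lit 437) (nat_lit 411) (nat_lit 292))) (XT.nd (nat_lit 78) (nat_lit 1748) (nat_lit 0) (XT.lf (nat_lit 0) (nat_lit 657562324) (nat_lit 1748) (nat_lit 6858682505) (nat_lit 76) (nat_lit 2944523445) (nat_lit 396) (nat_lit 5) (nat_lit 419) (nat_lit 5) (nat_lit 397) (nat_lit 5) (nat_lit 438) (nat_lit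 411) (nat_lit 291)) (XT.nd (nat_lit 78) (nat_lit 1748) (nat_lit 0) (XT.lf (nat_lit 0) (nat_lit 2102306741) (nat_lit 1748) (nat_lit 1377906065) (nat_lit 76) (nat_lit 7083383525) (nat_lit 396) (nat_lit 5) (nat_lit 419) (nat_lit 5) (nat_lit 397) (nat_lit 5) (nat_lit 439) (nat_lit 411) (nat_lit 290)) (XT.lf (nat_lit 0) (nat_lit 3590293035) (nat_lit 1824) (nat_lit 6419637108) (nat_lit 76) (nat_lit 658272744) (nat_lit 373) (nat_lit 5) (nat_lit 397) (nat_lit 5) (nat_lit 374) (nat_lit 5) (nat_lit 440) (nat_lit 411) (nat_lit 289))))) (XT.nd (nat_lit 234) (nat_lit 1824) (nat_lit 0) (XT.nd (nat_lit 78) (nat_lit 988) (nat_lit 0) (XT.lf (nat_lit 0) (nat_lit 5123058150) (nat_lit 1824) (nat_lit 807131372) (nat_lit 76) (nat_lit 4844420372) (nat_lit 373) (nat_lit 5) (nat_lit 397) (nat_lit 5) (nat_lit 374) (nat_lit 5) (nat_lit 441) (nat_lit 411) (nat_lit 288)) (XT.nd (nat_lit 78) (nat_lit 0) (nat_lit 0) (XT.lf (nat_lit 0) (nat_lit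 4967528759) (nat_lit 988) (nat_lit 1734205847) (nat_lit 1064) (nat_lit 4181113846) (nat_lit 360) (nat_lit 5) (nat_lit 373) (nat_lit 5) (nat_lit 374) (nat_lit 5) (nat_lit 442) (nat_lit 411) (nat_lit 287)) (XT.lf (nat_lit 0) (nat_lit 8317214064) (nat_lit 1064) (nat_lit 156584248) (nat_lit 76) (nat_lit 2519357243) (nat_lit 360) (nat_lit 5) (nat_lit 374) (nat_lit 5) (nat_lit 361) (nat_lit 5) (nat_lit 443) (nat_lit 411) (nat_lit 286)))) (XT.nd (nat_lit 78) (nat_lit 912) (nat_lit 0) (XT.lf (nat_lit 0) (nat_lit 5766271156) (nat_lit 912) (nat_lit 4231232639) (nat_lit 988) (nat_lit 1107523191) (nat_lit 348) (nat_lit 5) (nat_lit 360) (nat_lit 5) (nat_lit 361) (nat_lit 5) (nat_lit 444) (nat_lit 411) (nat_lit 285)) (XT.nd (nat_lit 78) (nat_lit 0) (nat_lit 0) (XT.lf (nat_lit 0) (nat_lit 474998928) (nat_lit 912) (nat_lit 10640323232) (nat_lit 76) (nat_lit 103973814) (nat_lit 336) (nat_lit 5) (nat_lit 348) (nat_lit 5) (nat_lit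 337) (nat_lit 5) (nat_lit 445) (nat_lit 411) (nat_lit 284)) (XT.lf (nat_lit 0) (nat_lit 2122353088) (nat_lit 912) (nat_lit 4698857751) (nat_lit 76) (nat_lit 4513540590) (nat_lit 336) (nat_lit 5) (nat_lit 348) (nat_lit 5) (nat_lit 337) (nat_lit 5) (nat_lit 446) (nat_lit 411) (nat_lit 283))))))))
noncomputable def xc177 : XT := (XT.nd (nat_lit 1638) (nat_lit 6460) (nat_lit 0) (XT.nd (nat_lit 780) (nat_lit 4104) (nat_lit 0) (XT.nd (nat_lit 390) (nat_lit 1596) (nat_lit 0) (XT.nd (nat_lit 156) (nat_lit 1520) (nat_lit 0) (XT.nd (nat_lit 78) (nat_lit 0) (nat_lit 0) (XT.lf (nat_lit 0) (nat_lit 1364077359) (nat_lit 836) (nat_lit 2431661845) (nat_lit 912) (nat_lit 7656922667) (nat_lit 325) (nat_lit 5) (nat_lit 336) (nat_lit 5) (nat_lit 337) (nat_lit 5) (nat_lit 447) (nat_lit 411) (nat_lit 282)) (XT.lf (nat_lit 0) (nat_lit 5532057504) (nat_lit 912) (nat_lit 3989295965) (nat_lit 76) (nat_lit 2050995190) (nat_lit 325) (nat_lit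 5) (nat_lit 337) (nat_lit 5) (nat_lit 326) (nat_lit 5) (nat_lit 448) (nat_lit 411) (nat_lit 281))) (XT.nd (nat_lit 78) (nat_lit 760) (nat_lit 0) (XT.lf (nat_lit 0) (nat_lit 2229953436) (nat_lit 760) (nat_lit 5088477786) (nat_lit 836) (nat_lit 4375698662) (nat_lit 315) (nat_lit 5) (nat_lit 325) (nat_lit 5) (nat_lit 326) (nat_lit 5) (nat_lit 449) (nat_lit 411) (nat_lit 280)) (XT.nd (nat_lit 78) (nat_lit 760) (nat_lit 0) (XT.lf (nat_lit 0) (nat_lit 8612596131) (nat_lit 760) (nat_lit 539654802) (nat_lit 836) (nat_lit 2665868567) (nat_lit 315) (nat_lit 5) (nat_lit 325) (nat_lit 5) (nat_lit 326) (nat_lit 5) (nat_lit 450) (nat_lit 411) (nat_lit 279)) (XT.lf (nat_lit 0) (nat_lit 3178291539) (nat_lit 760) (nat_lit 7876955210) (nat_lit 836) (nat_lit 888699165) (nat_lit 305) (nat_lit 5) (nat_lit 315) (nat_lit 5) (nat_lit 316) (nat_lit 5) (nat_lit 451) (nat_lit 411) (nat_lit 278))))) (XT.nd (nat_lit 156) (nat_lit 760) (nat_lit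 0) (XT.nd (nat_lit 78) (nat_lit 760) (nat_lit 0) (XT.lf (nat_lit 0) (nat_lit 922454265) (nat_lit 836) (nat_lit 2363516538) (nat_lit 76) (nat_lit 8785993609) (nat_lit 304) (nat_lit 5) (nat_lit 315) (nat_lit 5) (nat_lit 305) (nat_lit 5) (nat_lit 452) (nat_lit 411) (nat_lit 277)) (XT.lf (nat_lit 0) (nat_lit 2780123173) (nat_lit 836) (nat_lit 8010463481) (nat_lit 76) (nat_lit 1411401893) (nat_lit 294) (nat_lit 5) (nat_lit 305) (nat_lit 5) (nat_lit 295) (nat_lit 5) (nat_lit 453) (nat_lit 411) (nat_lit 276))) (XT.nd (nat_lit 78) (nat_lit 760) (nat_lit 0) (XT.lf (nat_lit 0) (nat_lit 4698474288) (nat_lit 836) (nat_lit 1461524582) (nat_lit 76) (nat_lit 6174150184) (nat_lit 294) (nat_lit 5) (nat_lit 305) (nat_lit 5) (nat_lit 295) (nat_lit 5) (nat_lit 454) (nat_lit 411) (nat_lit 275)) (XT.nd (nat_lit 78) (nat_lit 0) (nat_lit 0) (XT.lf (nat_lit 0) (nat_lit 5272774136) (nat_lit 760) (nat_lit 1402732987) (nat_lit 836) (nat_lit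 5793045693) (nat_lit 284) (nat_lit 5) (nat_lit 294) (nat_lit 5) (nat_lit 295) (nat_lit 5) (nat_lit 455) (nat_lit 411) (nat_lit 274)) (XT.lf (nat_lit 0) (nat_lit 8710602710) (nat_lit 836) (nat_lit 481291021) (nat_lit 76) (nat_lit 3413386695) (nat_lit 284) (nat_lit 5) (nat_lit 295) (nat_lit 5) (nat_lit 285) (nat_lit 5) (nat_lit 456) (nat_lit 411) (nat_lit 273)))))) (XT.nd (nat_lit 390) (nat_lit 1976) (nat_lit 0) (XT.nd (nat_lit 156) (nat_lit 684) (nat_lit 0) (XT.nd (nat_lit 78) (nat_lit 760) (nat_lit 0) (XT.lf (nat_lit 0) (nat_lit 6427842065) (nat_lit 684) (nat_lit 4396103095) (nat_lit 760) (nat_lit 1920052623) (nat_lit 275) (nat_lit 5) (nat_lit 284) (nat_lit 5) (nat_lit 285) (nat_lit 5) (nat_lit 457) (nat_lit 411) (nat_lit 272)) (XT.lf (nat_lit 0) (nat_lit 89761166) (nat_lit 760) (nat_lit 12300269821) (nat_lit 76) (nat_lit 495513542) (nat_lit 265) (nat_lit 5) (nat_lit 275) (nat_lit 5) (nat_lit 266) (nat_lit 5)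 (nat_lit 458) (nat_lit 411) (nat_lit 271))) (XT.nd (nat_lit 78) (nat_lit 684) (nat_lit 0) (XT.lf (nat_lit 0) (nat_lit 2172620204) (nat_lit 760) (nat_lit 5375741980) (nat_lit 76) (nat_lit 5480140769) (nat_lit 265) (nat_lit 5) (nat_lit 275) (nat_lit 5) (nat_lit 266) (nat_lit 5) (nat_lit 459) (nat_lit 411) (nat_lit 270)) (XT.nd (nat_lit 78) (nat_lit 0) (nat_lit 0) (XT.lf (nat_lit 0) (nat_lit 1694888696) (nat_lit 684) (nat_lit 2600267516) (nat_lit 760) (nat_lit 8879209566) (nat_lit 256) (nat_lit 5) (nat_lit 265) (nat_lit 5) (nat_lit 266) (nat_lit 5) (nat_lit 460) (nat_lit 411) (nat_lit 269)) (XT.lf (nat_lit 0) (nat_lit 6499506837) (nat_lit 760) (nat_lit 4373519194) (nat_lit 76) (nat_lit 2449338068) (nat_lit 256) (nat_lit 5) (nat_lit 266) (nat_lit 5) (nat_lit 257) (nat_lit 5) (nat_lit 461) (nat_lit 411) (nat_lit 268))))) (XT.nd (nat_lit 234) (nat_lit 684) (nat_lit 0) (XT.nd (nat_lit 78) (nat_lit 608) (nat_lit 0)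 (XT.lf (nat_lit 0) (nat_lit 2880635906) (nat_lit 684) (nat_lit 5890648311) (nat_lit 760) (nat_lit 4701576786) (nat_lit 247) (nat_lit 5) (nat_lit 256) (nat_lit 5) (nat_lit 257) (nat_lit 5) (nat_lit 462) (nat_lit 411) (nat_lit 267)) (XT.nd (nat_lit 78) (nat_lit 608) (nat_lit 0) (XT.lf (nat_lit 0) (nat_lit 10324771901) (nat_lit 684) (nat_lit 780643621) (nat_lit 760) (nat_lit 2520619259) (nat_lit 247) (nat_lit 5) (nat_lit 256) (nat_lit 5) (nat_lit 257) (nat_lit 5) (nat_lit 463) (nat_lit 411) (nat_lit 266)) (XT.lf (nat_lit 0) (nat_lit 4146791050) (nat_lit 608) (nat_lit 9382935795) (nat_lit 684) (nat_lit 251680442) (nat_lit 239) (nat_lit 5) (nat_lit 247) (nat_lit 5) (nat_lit 248) (nat_lit 5) (nat_lit 464) (nat_lit 411) (nat_lit 265)))) (XT.nd (nat_lit 78) (nat_lit 608) (nat_lit 0) (XT.lf (nat_lit 0) (nat_lit 2050917930) (nat_lit 684) (nat_lit 2184009928) (nat_lit 76) (nat_lit 9704389890) (nat_lit 238) (nat_lit 5)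 (nat_lit 247) (nat_lit 5) (nat_lit 239) (nat_lit 5) (nat_lit 465) (nat_lit 411) (nat_lit 264)) (XT.nd (nat_lit 78) (nat_lit 0) (nat_lit 0) (XT.lf (nat_lit 0) (nat_lit 4426655993) (nat_lit 684) (nat_lit 8635141837) (nat_lit 76) (nat_lit 1037951063) (nat_lit 230) (nat_lit 5) (nat_lit 239) (nat_lit 5) (nat_lit 231) (nat_lit 5) (nat_lit 466) (nat_lit 411) (nat_lit 263)) (XT.lf (nat_lit 0) (nat_lit 6880935856) (nat_lit 684) (nat_lit 1009699597) (nat_lit 76) (nat_lit 6372137470) (nat_lit 230) (nat_lit 5) (nat_lit 239) (nat_lit 5) (nat_lit 231) (nat_lit 5) (nat_lit 467) (nat_lit 411) (nat_lit 262))))))) (XT.nd (nat_lit 780) (nat_lit 2964) (nat_lit 0) (XT.nd (nat_lit 390) (nat_lit 1672) (nat_lit 0) (XT.nd (nat_lit 156) (nat_lit 608) (nat_lit 0) (XT.nd (nat_lit 78) (nat_lit 608) (nat_lit 0) (XT.lf (nat_lit 0) (nat_lit 6844029493) (nat_lit 608) (nat_lit 2573166867) (nat_lit 684) (nat_lit 5011207883) (nat_lit 222) (nat_lit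 5) (nat_lit 230) (nat_lit 5) (nat_lit 231) (nat_lit 5) (nat_lit 468) (nat_lit 411) (nat_lit 261)) (XT.lf (nat_lit 0) (nat_lit 241818276) (nat_lit 608) (nat_lit 11777841676) (nat_lit 684) (nat_lit 2577383297) (nat_lit 214) (nat_lit 5) (nat_lit 222) (nat_lit 5) (nat_lit 223) (nat_lit 5) (nat_lit 469) (nat_lit 411) (nat_lit 260))) (XT.nd (nat_lit 78) (nat_lit 608) (nat_lit 0) (XT.lf (nat_lit 0) (nat_lit 8296061611) (nat_lit 608) (nat_lit 6434647060) (nat_lit 684) (nat_lit 37220175) (nat_lit 214) (nat_lit 5) (nat_lit 222) (nat_lit 5) (nat_lit 223) (nat_lit 5) (nat_lit 470) (nat_lit 411) (nat_lit 259)) (XT.nd (nat_lit 78) (nat_lit 0) (nat_lit 0) (XT.lf (nat_lit 0) (nat_lit 1559133250) (nat_lit 532) (nat_lit 960098687) (nat_lit 608) (nat_lit 12422693385) (nat_lit 206) (nat_lit 5) (nat_lit 213) (nat_lit 5) (nat_lit 214) (nat_lit 5) (nat_lit 471) (nat_lit 411) (nat_lit 258)) (XT.lf (nat_lit 0) (nat_lit 5189020594) (nat_lit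 608) (nat_lit 5324614521) (nat_lit 76) (nat_lit 4604511841) (nat_lit 206) (nat_lit 5) (nat_lit 214) (nat_lit 5) (nat_lit 207) (nat_lit 5) (nat_lit 472) (nat_lit 411) (nat_lit 257))))) (XT.nd (nat_lit 156) (nat_lit 1140) (nat_lit 0) (XT.nd (nat_lit 78) (nat_lit 0) (nat_lit 0) (XT.lf (nat_lit 0) (nat_lit 2912838158) (nat_lit 532) (nat_lit 5013820027) (nat_lit 608) (nat_lit 7370949956) (nat_lit 199) (nat_lit 5) (nat_lit 206) (nat_lit 5) (nat_lit 207) (nat_lit 5) (nat_lit 473) (nat_lit 411) (nat_lit 256)) (XT.lf (nat_lit 0) (nat_lit 10748172895) (nat_lit 608) (nat_lit 4110674722) (nat_lit 76) (nat_lit 621232546) (nat_lit 199) (nat_lit 5) (nat_lit 207) (nat_lit 5) (nat_lit 200) (nat_lit 5) (nat_lit 474) (nat_lit 411) (nat_lit 255))) (XT.nd (nat_lit 78) (nat_lit 608) (nat_lit 0) (XT.lf (nat_lit 0) (nat_lit 4339035933) (nat_lit 532) (nat_lit 9337955226) (nat_lit 608) (nat_lit 1988197021) (nat_lit 192) (nat_lit 5) (nat_lit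 199) (nat_lit 5) (nat_lit 200) (nat_lit 5) (nat_lit 475) (nat_lit 411) (nat_lit 254)) (XT.nd (nat_lit 78) (nat_lit 532) (nat_lit 0) (XT.lf (nat_lit 0) (nat_lit 817069533) (nat_lit 608) (nat_lit 2859052033) (nat_lit 76) (nat_lit 12177429214) (nat_lit 191) (nat_lit 5) (nat_lit 199) (nat_lit 5) (nat_lit 192) (nat_lit 5) (nat_lit 476) (nat_lit 411) (nat_lit 253)) (XT.lf (nat_lit 0) (nat_lit 3693372417) (nat_lit 608) (nat_lit 10231521564) (nat_lit 76) (nat_lit 2119696540) (nat_lit 184) (nat_lit 5) (nat_lit 192) (nat_lit 5) (nat_lit 185) (nat_lit 5) (nat_lit 477) (nat_lit 411) (nat_lit 252)))))) (XT.nd (nat_lit 390) (nat_lit 1444) (nat_lit 0) (XT.nd (nat_lit 156) (nat_lit 1064) (nat_lit 0) (XT.nd (nat_lit 78) (nat_lit 456) (nat_lit 0) (XT.lf (nat_lit 0) (nat_lit 6660701927) (nat_lit 608) (nat_lit 1579606338) (nat_lit 76) (nat_lit 7998476495) (nat_lit 184) (nat_lit 5) (nat_lit 192) (nat_lit 5) (nat_lit 185) (nat_lit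 5) (nat_lit 478) (nat_lit 411) (nat_lit 251)) (XT.lf (nat_lit 0) (nat_lit 7328268224) (nat_lit 456) (nat_lit 2396731536) (nat_lit 532) (nat_lit 6711114329) (nat_lit 178) (nat_lit 5) (nat_lit 184) (nat_lit 5) (nat_lit 185) (nat_lit 5) (nat_lit 479) (nat_lit 411) (nat_lit 250))) (XT.nd (nat_lit 78) (nat_lit 1064) (nat_lit 0) (XT.lf (nat_lit 0) (nat_lit 12874522550) (nat_lit 532) (nat_lit 237957097) (nat_lit 76) (nat_lit 3524435148) (nat_lit 178) (nat_lit 5) (nat_lit 185) (nat_lit 5) (nat_lit 179) (nat_lit 5) (nat_lit 480) (nat_lit 411) (nat_lit 249)) (XT.nd (nat_lit 78) (nat_lit 532) (nat_lit 0) (XT.lf (nat_lit 0) (nat_lit 8897121721) (nat_lit 532) (nat_lit 7253876796) (nat_lit 608) (nat_lit 689457243) (nat_lit 171) (nat_lit 5) (nat_lit 178) (nat_lit 5) (nat_lit 179) (nat_lit 5) (nat_lit 481) (nat_lit 411) (nat_lit 248)) (XT.lf (nat_lit 0) (nat_lit 1156304052) (nat_lit 456) (nat_lit 1256044784) (nat_lit 532) (nat_lit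 14635415026) (nat_lit 164) (nat_lit 5) (nat_lit 170) (nat_lit 5) (nat_lit 171) (nat_lit 5) (nat_lit 482) (nat_lit 411) (nat_lit 247))))) (XT.nd (nat_lit 234) (nat_lit 988) (nat_lit 0) (XT.nd (nat_lit 78) (nat_lit 456) (nat_lit 0) (XT.lf (nat_lit 0) (nat_lit 5642635993) (nat_lit 532) (nat_lit 6762181770) (nat_lit 76) (nat_lit 4852798977) (nat_lit 164) (nat_lit 5) (nat_lit 171) (nat_lit 5) (nat_lit 165) (nat_lit 5) (nat_lit 483) (nat_lit 411) (nat_lit 246)) (XT.nd (nat_lit 78) (nat_lit 0) (nat_lit 0) (XT.lf (nat_lit 0) (nat_lit 2562069578) (nat_lit 456) (nat_lit 6391045025) (nat_lit 532) (nat_lit 8518243593) (nat_lit 158) (nat_lit 5) (nat_lit 164) (nat_lit 5) (nat_lit 165) (nat_lit 5) (nat_lit 484) (nat_lit 411) (nat_lit 245)) (XT.lf (nat_lit 0) (nat_lit 12151657875) (nat_lit 456) (nat_lit 214256079) (nat_lit 532) (nat_lit 5322741475) (nat_lit 158) (nat_lit 5) (nat_lit 164) (nat_lit 5) (nat_lit 165) (nat_lit 5)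 (nat_lit 485) (nat_lit 411) (nat_lit 244)))) (XT.nd (nat_lit 78) (nat_lit 532) (nat_lit 0) (XT.lf (nat_lit 0) (nat_lit 4023268145) (nat_lit 456) (nat_lit 11880230168) (nat_lit 532) (nat_lit 2005672818) (nat_lit 152) (nat_lit 5) (nat_lit 158) (nat_lit 5) (nat_lit 159) (nat_lit 5) (nat_lit 486) (nat_lit 411) (nat_lit 243)) (XT.nd (nat_lit 78) (nat_lit 456) (nat_lit 0) (XT.lf (nat_lit 0) (nat_lit 1389415432) (nat_lit 532) (nat_lit 4306931721) (nat_lit 76) (nat_lit 12436979128) (nat_lit 151) (nat_lit 5) (nat_lit 158) (nat_lit 5) (nat_lit 152) (nat_lit 5) (nat_lit 487) (nat_lit 411) (nat_lit 242)) (XT.lf (nat_lit 0) (nat_lit 4856723821) (nat_lit 532) (nat_lit 12855343752) (nat_lit 76) (nat_lit 649011253) (nat_lit 145) (nat_lit 5) (nat_lit 152) (nat_lit 5) (nat_lit 146) (nat_lit 5) (nat_lit 488) (nat_lit 411) (nat_lit 241))))))))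
noncomputable def xc178 : XT := (XT.nd (nat_lit 53976) (nat_lit 0) (nat_lit 21584) (XT.nd (nat_lit 780) (nat_lit 380) (nat_lit 0) (XT.nd (nat_lit 390) (nat_lit 1216) (nat_lit 0) (XT.nd (nat_lit 156) (nat_lit 532) (nat_lit 0) (XT.nd (nat_lit 78) (nat_lit 380) (nat_lit 0) (XT.lf (nat_lit 0) (nat_lit 8451370142) (nat_lit 532) (nat_lit 3070272096) (nat_lit 76) (nat_lit 7070587219) (nat_lit 145) (nat_lit 5) (nat_lit 152) (nat_lit 5) (nat_lit 146) (nat_lit 5) (nat_lit 489) (nat_lit 411) (nat_lit 240)) (XT.lf (nat_lit 0) (nat_lit 6989835754) (nat_lit 380) (nat_lit 5164803765) (nat_lit 456) (nat_lit 6672631794) (nat_lit 140) (nat_lit 5) (nat_lit 145) (nat_lit 5) (nat_lit 146) (nat_lit 5) (nat_lit 490) (nat_lit 411) (nat_lit 239))) (XT.nd (nat_lit 78) (nat_lit 532) (nat_lit 0) (XT.lf (nat_lit 0) (nat_lit 15952692376) (nat_lit 456) (nat_lit 1794946255) (nat_lit 76) (nat_lit 1318963774) (nat_lit 140) (nat_lit 5) (nat_lit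 146) (nat_lit 5) (nat_lit 141) (nat_lit 5) (nat_lit 491) (nat_lit 411) (nat_lit 238)) (XT.nd (nat_lit 78) (nat_lit 0) (nat_lit 0) (XT.lf (nat_lit 0) (nat_lit 590815497) (nat_lit 532) (nat_lit 10799304953) (nat_lit 76) (nat_lit 7918903385) (nat_lit 133) (nat_lit 5) (nat_lit 140) (nat_lit 5) (nat_lit 134) (nat_lit 5) (nat_lit 492) (nat_lit 411) (nat_lit 237)) (XT.lf (nat_lit 0) (nat_lit 4331714798) (nat_lit 532) (nat_lit 544144018) (nat_lit 76) (nat_lit 14679950328) (nat_lit 133) (nat_lit 5) (nat_lit 140) (nat_lit 5) (nat_lit 134) (nat_lit 5) (nat_lit 493) (nat_lit 411) (nat_lit 236))))) (XT.nd (nat_lit 156) (nat_lit 456) (nat_lit 0) (XT.nd (nat_lit 78) (nat_lit 380) (nat_lit 0) (XT.lf (nat_lit 0) (nat_lit 8216257049) (nat_lit 456) (nat_lit 9782502224) (nat_lit 76) (nat_lit 1807396938) (nat_lit 128) (nat_lit 5) (nat_lit 134) (nat_lit 5) (nat_lit 129) (nat_lit 5) (nat_lit 494) (nat_lit 411) (nat_lit 235)) (XT.lf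 (nat_lit 0) (nat_lit 713772383) (nat_lit 380) (nat_lit 11497153272) (nat_lit 456) (nat_lit 7849938353) (nat_lit 123) (nat_lit 5) (nat_lit 128) (nat_lit 5) (nat_lit 129) (nat_lit 5) (nat_lit 495) (nat_lit 411) (nat_lit 234))) (XT.nd (nat_lit 78) (nat_lit 456) (nat_lit 0) (XT.lf (nat_lit 0) (nat_lit 11540634949) (nat_lit 380) (nat_lit 4802416081) (nat_lit 456) (nat_lit 3976466113) (nat_lit 123) (nat_lit 5) (nat_lit 128) (nat_lit 5) (nat_lit 129) (nat_lit 5) (nat_lit 496) (nat_lit 411) (nat_lit 233)) (XT.nd (nat_lit 78) (nat_lit 76) (nat_lit 0) (XT.lf (nat_lit 0) (nat_lit 2001947708) (nat_lit 380) (nat_lit 18574076281) (nat_lit 456) (nat_lit 6957653) (nat_lit 118) (nat_lit 5) (nat_lit 123) (nat_lit 5) (nat_lit 124) (nat_lit 5) (nat_lit 497) (nat_lit 411) (nat_lit 232)) (XT.lf (nat_lit 0) (nat_lit 4072111920) (nat_lit 456) (nat_lit 7803453893) (nat_lit 76) (nat_lit 8973963431) (nat_lit 117) (nat_lit 5) (nat_lit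 123) (nat_lit 5) (nat_lit 118) (nat_lit 5) (nat_lit 498) (nat_lit 411) (nat_lit 231)))))) (XT.nd (nat_lit 52806) (nat_lit 0) (nat_lit 27436) (XT.nd (nat_lit 52572) (nat_lit 0) (nat_lit 27360) (XT.nd (nat_lit 78) (nat_lit 0) (nat_lit 0) (XT.lf (nat_lit 0) (nat_lit 3220224545) (nat_lit 380) (nat_lit 5025585047) (nat_lit 456) (nat_lit 12875336755) (nat_lit 112) (nat_lit 5) (nat_lit 117) (nat_lit 5) (nat_lit 118) (nat_lit 5) (nat_lit 499) (nat_lit 411) (nat_lit 230)) (XT.lf (nat_lit 0) (nat_lit 12560712001) (nat_lit 456) (nat_lit 6851770782) (nat_lit 76) (nat_lit 1984560611) (nat_lit 112) (nat_lit 5) (nat_lit 118) (nat_lit 5) (nat_lit 113) (nat_lit 5) (nat_lit 500) (nat_lit 411) (nat_lit 229))) (XT.nd (nat_lit 78) (nat_lit 1444) (nat_lit 0) (XT.lf (nat_lit 0) (nat_lit 3397661180) (nat_lit 1444) (nat_lit 405979318) (nat_lit 1444) (nat_lit 405979318) (nat_lit 491) (nat_lit 3) (nat_lit 510) (nat_lit 3) (nat_lit 510)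 (nat_lit 5) (nat_lit 412) (nat_lit 412) (nat_lit 316)) (XT.nd (nat_lit 78) (nat_lit 1444) (nat_lit 0) (XT.lf (nat_lit 76) (nat_lit 3202393559) (nat_lit 0) (nat_lit 4707629933) (nat_lit 1444) (nat_lit 571872654) (nat_lit 492) (nat_lit 5) (nat_lit 491) (nat_lit 3) (nat_lit 510) (nat_lit 5) (nat_lit 413) (nat_lit 412) (nat_lit 315)) (XT.lf (nat_lit 0) (nat_lit 472928204) (nat_lit 1444) (nat_lit 1255239954) (nat_lit 1520) (nat_lit 6818022223) (nat_lit 472) (nat_lit 5) (nat_lit 491) (nat_lit 3) (nat_lit 492) (nat_lit 5) (nat_lit 414) (nat_lit 412) (nat_lit 314))))) (XT.nd (nat_lit 156) (nat_lit 0) (nat_lit 0) (XT.nd (nat_lit 78) (nat_lit 0) (nat_lit 0) (XT.lf (nat_lit 0) (nat_lit 1531683586) (nat_lit 1444) (nat_lit 5751271392) (nat_lit 1520) (nat_lit 1328740755) (nat_lit 473) (nat_lit 5) (nat_lit 492) (nat_lit 5) (nat_lit 493) (nat_lit 5) (nat_lit 415) (nat_lit 412) (nat_lit 313)) (XT.lf (nat_lit 0) (nat_lit 2605387695)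 (nat_lit 1444) (nat_lit 1628965230) (nat_lit 1520) (nat_lit 4444297647) (nat_lit 473) (nat_lit 5) (nat_lit 492) (nat_lit 5) (nat_lit 493) (nat_lit 5) (nat_lit 416) (nat_lit 412) (nat_lit 312))) (XT.nd (nat_lit 78) (nat_lit 0) (nat_lit 76) (XT.lf (nat_lit 76) (nat_lit 2595574629) (nat_lit 0) (nat_lit 1096205895) (nat_lit 1520) (nat_lit 5055354254) (nat_lit 474) (nat_lit 5) (nat_lit 473) (nat_lit 5) (nat_lit 493) (nat_lit 5) (nat_lit 417) (nat_lit 412) (nat_lit 311)) (XT.nd (nat_lit 78) (nat_lit 0) (nat_lit 0) (XT.lf (nat_lit 0) (nat_lit 4799415008) (nat_lit 1444) (nat_lit 1918571976) (nat_lit 1520) (nat_lit 2099025684) (nat_lit 474) (nat_lit 5) (nat_lit 493) (nat_lit 5) (nat_lit 494) (nat_lit 5) (nat_lit 418) (nat_lit 412) (nat_lit 310)) (XT.lf (nat_lit 76) (nat_lit 2408948600) (nat_lit 0) (nat_lit 3518492008) (nat_lit 1520) (nat_lit 2960896736) (nat_lit 475) (nat_lit 5) (nat_lit 474) (nat_lit 5) (nat_lit 494)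 (nat_lit 5) (nat_lit 419) (nat_lit 412) (nat_lit 309))))))) (XT.nd (nat_lit 780) (nat_lit 4484) (nat_lit 0) (XT.nd (nat_lit 390) (nat_lit 0) (nat_lit 76) (XT.nd (nat_lit 156) (nat_lit 1444) (nat_lit 0) (XT.nd (nat_lit 78) (nat_lit 0) (nat_lit 76) (XT.lf (nat_lit 76) (nat_lit 6834659966) (nat_lit 0) (nat_lit 231969961) (nat_lit 1520) (nat_lit 1894700245) (nat_lit 475) (nat_lit 5) (nat_lit 474) (nat_lit 5) (nat_lit 494) (nat_lit 5) (nat_lit 420) (nat_lit 412) (nat_lit 308)) (XT.lf (nat_lit 76) (nat_lit 2308482834) (nat_lit 0) (nat_lit 5931634882) (nat_lit 1520) (nat_lit 795448299) (nat_lit 476) (nat_lit 5) (nat_lit 475) (nat_lit 5) (nat_lit 495) (nat_lit 5) (nat_lit 421) (nat_lit 412) (nat_lit 307))) (XT.nd (nat_lit 78) (nat_lit 0) (nat_lit 76) (XT.lf (nat_lit 0) (nat_lit 313888463) (nat_lit 1520) (nat_lit 2268447031) (nat_lit 1596) (nat_lit 6529074257) (nat_lit 455) (nat_lit 5) (nat_lit 475) (nat_lit 5) (nat_lit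 476) (nat_lit 5) (nat_lit 422) (nat_lit 412) (nat_lit 306)) (XT.nd (nat_lit 78) (nat_lit 0) (nat_lit 0) (XT.lf (nat_lit 0) (nat_lit 1432171253) (nat_lit 1520) (nat_lit 6904897890) (nat_lit 1596) (nat_lit 851660530) (nat_lit 456) (nat_lit 5) (nat_lit 476) (nat_lit 5) (nat_lit 477) (nat_lit 5) (nat_lit 423) (nat_lit 412) (nat_lit 305)) (XT.lf (nat_lit 0) (nat_lit 2582588387) (nat_lit 1520) (nat_lit 2341587432) (nat_lit 1596) (nat_lit 4343237229) (nat_lit 456) (nat_lit 5) (nat_lit 476) (nat_lit 5) (nat_lit 477) (nat_lit 5) (nat_lit 424) (nat_lit 412) (nat_lit 304))))) (XT.nd (nat_lit 156) (nat_lit 0) (nat_lit 76) (XT.nd (nat_lit 78) (nat_lit 0) (nat_lit 76) (XT.lf (nat_lit 76) (nat_lit 2328827233) (nat_lit 0) (nat_lit 1420095005) (nat_lit 1596) (nat_lit 5598901871) (nat_lit 457) (nat_lit 5) (nat_lit 456) (nat_lit 5) (nat_lit 477) (nat_lit 5) (nat_lit 425) (nat_lit 412) (nat_lit 303)) (XT.lf (nat_lit 0) (nat_lit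 4946561667) (nat_lit 1520) (nat_lit 2334332567) (nat_lit 1596) (nat_lit 2148801524) (nat_lit 457) (nat_lit 5) (nat_lit 477) (nat_lit 5) (nat_lit 478) (nat_lit 5) (nat_lit 426) (nat_lit 412) (nat_lit 302))) (XT.nd (nat_lit 78) (nat_lit 0) (nat_lit 0) (XT.lf (nat_lit 76) (nat_lit 2451969849) (nat_lit 0) (nat_lit 3720112294) (nat_lit 1596) (nat_lit 3341055844) (nat_lit 458) (nat_lit 5) (nat_lit 457) (nat_lit 5) (nat_lit 478) (nat_lit 5) (nat_lit 427) (nat_lit 412) (nat_lit 301)) (XT.nd (nat_lit 78) (nat_lit 0) (nat_lit 76) (XT.lf (nat_lit 76) (nat_lit 7350929633) (nat_lit 0) (nat_lit 65775860) (nat_lit 1596) (nat_lit 2181663202) (nat_lit 458) (nat_lit 5) (nat_lit 457) (nat_lit 5) (nat_lit 478) (nat_lit 5) (nat_lit 428) (nat_lit 412) (nat_lit 300)) (XT.lf (nat_lit 76) (nat_lit 2658773396) (nat_lit 0) (nat_lit 6047865805) (nat_lit 1596) (nat_lit 978267713) (nat_lit 459) (nat_lit 5) (nat_lit 458) (nat_lit 5) (nat_lit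 479) (nat_lit 5) (nat_lit 429) (nat_lit 412) (nat_lit 299)))))) (XT.nd (nat_lit 390) (nat_lit 3116) (nat_lit 0) (XT.nd (nat_lit 156) (nat_lit 0) (nat_lit 76) (XT.nd (nat_lit 78) (nat_lit 0) (nat_lit 76) (XT.lf (nat_lit 0) (nat_lit 241088810) (nat_lit 1596) (nat_lit 2096525325) (nat_lit 1672) (nat_lit 7435636997) (nat_lit 437) (nat_lit 5) (nat_lit 458) (nat_lit 5) (nat_lit 459) (nat_lit 5) (nat_lit 430) (nat_lit 412) (nat_lit 298)) (XT.lf (nat_lit 0) (nat_lit 1480436522) (nat_lit 1596) (nat_lit 6923761696) (nat_lit 1672) (nat_lit 1458871236) (nat_lit 438) (nat_lit 5) (nat_lit 459) (nat_lit 5) (nat_lit 460) (nat_lit 5) (nat_lit 431) (nat_lit 412) (nat_lit 297))) (XT.nd (nat_lit 78) (nat_lit 0) (nat_lit 0) (XT.lf (nat_lit 0) (nat_lit 2754490398) (nat_lit 1596) (nat_lit 1880818477) (nat_lit 1672) (nat_lit 5319187282) (nat_lit 438) (nat_lit 5) (nat_lit 459) (nat_lit 5) (nat_lit 460) (nat_lit 5) (nat_lit 432) (nat_lit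 412) (nat_lit 296)) (XT.nd (nat_lit 78) (nat_lit 0) (nat_lit 76) (XT.lf (nat_lit 76) (nat_lit 3291328294) (nat_lit 0) (nat_lit 764729645) (nat_lit 1672) (nat_lit 5991663001) (nat_lit 439) (nat_lit 5) (nat_lit 438) (nat_lit 5) (nat_lit 460) (nat_lit 5) (nat_lit 433) (nat_lit 412) (nat_lit 295)) (XT.lf (nat_lit 0) (nat_lit 5398004305) (nat_lit 1596) (nat_lit 1586039564) (nat_lit 1672) (nat_lit 3158489395) (nat_lit 439) (nat_lit 5) (nat_lit 460) (nat_lit 5) (nat_lit 461) (nat_lit 5) (nat_lit 434) (nat_lit 412) (nat_lit 294))))) (XT.nd (nat_lit 234) (nat_lit 1748) (nat_lit 0) (XT.nd (nat_lit 78) (nat_lit 1520) (nat_lit 0) (XT.lf (nat_lit 76) (nat_lit 3716553000) (nat_lit 0) (nat_lit 3060779168) (nat_lit 1672) (nat_lit 3461708615) (nat_lit 440) (nat_lit 5) (nat_lit 439) (nat_lit 5) (nat_lit 461) (nat_lit 5) (nat_lit 435) (nat_lit 412) (nat_lit 293)) (XT.nd (nat_lit 78) (nat_lit 1596) (nat_lit 0) (XT.lf (nat_lit 0)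 (nat_lit 8182710879) (nat_lit 1596) (nat_lit 1211898327) (nat_lit 76) (nat_lit 942909567) (nat_lit 440) (nat_lit 5) (nat_lit 461) (nat_lit 5) (nat_lit 441) (nat_lit 5) (nat_lit 436) (nat_lit 412) (nat_lit 292)) (XT.lf (nat_lit 0) (nat_lit 4225194518) (nat_lit 1596) (nat_lit 5420706816) (nat_lit 1672) (nat_lit 791480325) (nat_lit 419) (nat_lit 5) (nat_lit 440) (nat_lit 5) (nat_lit 441) (nat_lit 5) (nat_lit 437) (nat_lit 412) (nat_lit 291)))) (XT.nd (nat_lit 78) (nat_lit 1672) (nat_lit 0) (XT.lf (nat_lit 0) (nat_lit 581574494) (nat_lit 1672) (nat_lit 770567359) (nat_lit 76) (nat_lit 9187224844) (nat_lit 418) (nat_lit 5) (nat_lit 440) (nat_lit 5) (nat_lit 419) (nat_lit 5) (nat_lit 438) (nat_lit 412) (nat_lit 290)) (XT.nd (nat_lit 78) (nat_lit 0) (nat_lit 0) (XT.lf (nat_lit 0) (nat_lit 2003725458) (nat_lit 1748) (nat_lit 5838251920) (nat_lit 76) (nat_lit 2800673641) (nat_lit 396) (nat_lit 5) (nat_lit 419) (nat_lit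 5) (nat_lit 397) (nat_lit 5) (nat_lit 439) (nat_lit 412) (nat_lit 289)) (XT.lf (nat_lit 0) (nat_lit 3451227276) (nat_lit 1748) (nat_lit 270558074) (nat_lit 76) (nat_lit 7026286222) (nat_lit 396) (nat_lit 5) (nat_lit 419) (nat_lit 5) (nat_lit 397) (nat_lit 5) (nat_lit 440) (nat_lit 412) (nat_lit 288))))))))
noncomputable def xc179 : XT := (XT.nd (nat_lit 1638) (nat_lit 6536) (nat_lit 0) (XT.nd (nat_lit 780) (nat_lit 4484) (nat_lit 0) (XT.nd (nat_lit 390) (nat_lit 2432) (nat_lit 0) (XT.nd (nat_lit 156) (nat_lit 988) (nat_lit 0) (XT.nd (nat_lit 78) (nat_lit 988) (nat_lit 0) (XT.lf (nat_lit 0) (nat_lit 4949622231) (nat_lit 1824) (nat_lit 5393126400) (nat_lit 76) (nat_lit 512421574) (nat_lit 373) (nat_lit 5) (nat_lit 397) (nat_lit 5) (nat_lit 374) (nat_lit 5) (nat_lit 441) (nat_lit 412) (nat_lit 287)) (XT.lf (nat_lit 0) (nat_lit 313090523) (nat_lit 988) (nat_lit 6176739360) (nat_lit 1064) (nat_lit 4474352396) (nat_lit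 360) (nat_lit 5) (nat_lit 373) (nat_lit 5) (nat_lit 374) (nat_lit 5) (nat_lit 442) (nat_lit 412) (nat_lit 286))) (XT.nd (nat_lit 78) (nat_lit 988) (nat_lit 0) (XT.lf (nat_lit 0) (nat_lit 6191688551) (nat_lit 988) (nat_lit 1888910989) (nat_lit 1064) (nat_lit 2994388097) (nat_lit 360) (nat_lit 5) (nat_lit 373) (nat_lit 5) (nat_lit 374) (nat_lit 5) (nat_lit 443) (nat_lit 412) (nat_lit 285)) (XT.nd (nat_lit 78) (nat_lit 76) (nat_lit 0) (XT.lf (nat_lit 0) (nat_lit 981694714) (nat_lit 912) (nat_lit 8727895273) (nat_lit 988) (nat_lit 1478299047) (nat_lit 348) (nat_lit 5) (nat_lit 360) (nat_lit 5) (nat_lit 361) (nat_lit 5) (nat_lit 444) (nat_lit 412) (nat_lit 284)) (XT.lf (nat_lit 0) (nat_lit 96720443) (nat_lit 988) (nat_lit 4300398801) (nat_lit 76) (nat_lit 6905338060) (nat_lit 347) (nat_lit 5) (nat_lit 360) (nat_lit 5) (nat_lit 348) (nat_lit 5) (nat_lit 445) (nat_lit 412) (nat_lit 283))))) (XT.nd (nat_lit 156) (nat_lit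 1596) (nat_lit 0) (XT.nd (nat_lit 78) (nat_lit 0) (nat_lit 0) (XT.lf (nat_lit 0) (nat_lit 1679238392) (nat_lit 912) (nat_lit 9697919529) (nat_lit 76) (nat_lit 42055310) (nat_lit 336) (nat_lit 5) (nat_lit 348) (nat_lit 5) (nat_lit 337) (nat_lit 5) (nat_lit 446) (nat_lit 412) (nat_lit 282)) (XT.lf (nat_lit 0) (nat_lit 3336113372) (nat_lit 912) (nat_lit 3660275918) (nat_lit 76) (nat_lit 4541068284) (nat_lit 336) (nat_lit 5) (nat_lit 348) (nat_lit 5) (nat_lit 337) (nat_lit 5) (nat_lit 447) (nat_lit 412) (nat_lit 281))) (XT.nd (nat_lit 78) (nat_lit 760) (nat_lit 0) (XT.lf (nat_lit 0) (nat_lit 2516466848) (nat_lit 836) (nat_lit 2510838382) (nat_lit 912) (nat_lit 6630745265) (nat_lit 325) (nat_lit 5) (nat_lit 336) (nat_lit 5) (nat_lit 337) (nat_lit 5) (nat_lit 448) (nat_lit 412) (nat_lit 280)) (XT.nd (nat_lit 78) (nat_lit 760) (nat_lit 0) (XT.lf (nat_lit 0) (nat_lit 6775495649) (nat_lit 912) (nat_lit 2942639862) (nat_lit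 76) (nat_lit 2062463408) (nat_lit 325) (nat_lit 5) (nat_lit 337) (nat_lit 5) (nat_lit 326) (nat_lit 5) (nat_lit 449) (nat_lit 412) (nat_lit 279)) (XT.lf (nat_lit 0) (nat_lit 3393583724) (nat_lit 760) (nat_lit 5189066905) (nat_lit 836) (nat_lit 3322474667) (nat_lit 315) (nat_lit 5) (nat_lit 325) (nat_lit 5) (nat_lit 326) (nat_lit 5) (nat_lit 450) (nat_lit 412) (nat_lit 278)))))) (XT.nd (nat_lit 390) (nat_lit 2888) (nat_lit 0) (XT.nd (nat_lit 156) (nat_lit 760) (nat_lit 0) (XT.nd (nat_lit 78) (nat_lit 836) (nat_lit 0) (XT.lf (nat_lit 0) (nat_lit 9881937484) (nat_lit 760) (nat_lit 549290607) (nat_lit 836) (nat_lit 1600815382) (nat_lit 315) (nat_lit 5) (nat_lit 325) (nat_lit 5) (nat_lit 326) (nat_lit 5) (nat_lit 451) (nat_lit 412) (nat_lit 277)) (XT.lf (nat_lit 0) (nat_lit 194753184) (nat_lit 836) (nat_lit 7807950654) (nat_lit 76) (nat_lit 4157952356) (nat_lit 304) (nat_lit 5) (nat_lit 315) (nat_lit 5) (nat_lit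 305) (nat_lit 5) (nat_lit 452) (nat_lit 412) (nat_lit 276))) (XT.nd (nat_lit 78) (nat_lit 760) (nat_lit 0) (XT.lf (nat_lit 0) (nat_lit 2008881562) (nat_lit 836) (nat_lit 1305756100) (nat_lit 76) (nat_lit 8976916680) (nat_lit 304) (nat_lit 5) (nat_lit 315) (nat_lit 5) (nat_lit 305) (nat_lit 5) (nat_lit 453) (nat_lit 412) (nat_lit 275)) (XT.nd (nat_lit 78) (nat_lit 0) (nat_lit 0) (XT.lf (nat_lit 0) (nat_lit 3890173544) (nat_lit 836) (nat_lit 7051631487) (nat_lit 76) (nat_lit 1482654138) (nat_lit 294) (nat_lit 5) (nat_lit 305) (nat_lit 5) (nat_lit 295) (nat_lit 5) (nat_lit 454) (nat_lit 412) (nat_lit 274)) (XT.lf (nat_lit 0) (nat_lit 5826216232) (nat_lit 836) (nat_lit 393655796) (nat_lit 76) (nat_lit 6339813783) (nat_lit 294) (nat_lit 5) (nat_lit 305) (nat_lit 5) (nat_lit 295) (nat_lit 5) (nat_lit 455) (nat_lit 412) (nat_lit 273))))) (XT.nd (nat_lit 234) (nat_lit 1444) (nat_lit 0) (XT.nd (nat_lit 78) (nat_lit 684)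 (nat_lit 0) (XT.lf (nat_lit 0) (nat_lit 6468111138) (nat_lit 760) (nat_lit 1361484771) (nat_lit 836) (nat_lit 4867454846) (nat_lit 284) (nat_lit 5) (nat_lit 294) (nat_lit 5) (nat_lit 295) (nat_lit 5) (nat_lit 456) (nat_lit 412) (nat_lit 272)) (XT.nd (nat_lit 78) (nat_lit 0) (nat_lit 0) (XT.lf (nat_lit 0) (nat_lit 605559171) (nat_lit 684) (nat_lit 9284195720) (nat_lit 760) (nat_lit 2947079847) (nat_lit 275) (nat_lit 5) (nat_lit 284) (nat_lit 5) (nat_lit 285) (nat_lit 5) (nat_lit 457) (nat_lit 412) (nat_lit 271)) (XT.lf (nat_lit 0) (nat_lit 7637771494) (nat_lit 684) (nat_lit 4391054376) (nat_lit 760) (nat_lit 949840210) (nat_lit 275) (nat_lit 5) (nat_lit 284) (nat_lit 5) (nat_lit 285) (nat_lit 5) (nat_lit 458) (nat_lit 412) (nat_lit 270)))) (XT.nd (nat_lit 78) (nat_lit 684) (nat_lit 0) (XT.lf (nat_lit 0) (nat_lit 1075168356) (nat_lit 760) (nat_lit 11439039812) (nat_lit 76) (nat_lit 608948618) (nat_lit 265) (nat_lit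 5) (nat_lit 275) (nat_lit 5) (nat_lit 266) (nat_lit 5) (nat_lit 459) (nat_lit 412) (nat_lit 269)) (XT.nd (nat_lit 78) (nat_lit 684) (nat_lit 0) (XT.lf (nat_lit 0) (nat_lit 3180398066) (nat_lit 760) (nat_lit 4397731912) (nat_lit 76) (nat_lit 5691238490) (nat_lit 265) (nat_lit 5) (nat_lit 275) (nat_lit 5) (nat_lit 266) (nat_lit 5) (nat_lit 460) (nat_lit 412) (nat_lit 268)) (XT.lf (nat_lit 0) (nat_lit 2807169766) (nat_lit 684) (nat_lit 2526308265) (nat_lit 760) (nat_lit 8084916850) (nat_lit 256) (nat_lit 5) (nat_lit 265) (nat_lit 5) (nat_lit 266) (nat_lit 5) (nat_lit 461) (nat_lit 412) (nat_lit 267))))))) (XT.nd (nat_lit 780) (nat_lit 3268) (nat_lit 0) (XT.nd (nat_lit 390) (nat_lit 1900) (nat_lit 0) (XT.nd (nat_lit 156) (nat_lit 684) (nat_lit 0) (XT.nd (nat_lit 78) (nat_lit 684) (nat_lit 0) (XT.lf (nat_lit 0) (nat_lit 7564042601) (nat_lit 760) (nat_lit 3385476183) (nat_lit 76) (nat_lit 2620199882) (nat_lit 256)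 (nat_lit 5) (nat_lit 266) (nat_lit 5) (nat_lit 257) (nat_lit 5) (nat_lit 462) (nat_lit 412) (nat_lit 266)) (XT.lf (nat_lit 0) (nat_lit 4006686273) (nat_lit 684) (nat_lit 5863181838) (nat_lit 760) (nat_lit 3853593024) (nat_lit 247) (nat_lit 5) (nat_lit 256) (nat_lit 5) (nat_lit 257) (nat_lit 5) (nat_lit 463) (nat_lit 412) (nat_lit 265))) (XT.nd (nat_lit 78) (nat_lit 684) (nat_lit 0) (XT.lf (nat_lit 0) (nat_lit 11578755230) (nat_lit 684) (nat_lit 653825671) (nat_lit 760) (nat_lit 1647487235) (nat_lit 247) (nat_lit 5) (nat_lit 256) (nat_lit 5) (nat_lit 257) (nat_lit 5) (nat_lit 464) (nat_lit 412) (nat_lit 264)) (XT.nd (nat_lit 78) (nat_lit 0) (nat_lit 0) (XT.lf (nat_lit 0) (nat_lit 648041184) (nat_lit 684) (nat_lit 8755248059) (nat_lit 76) (nat_lit 4635380554) (nat_lit 238) (nat_lit 5) (nat_lit 247) (nat_lit 5) (nat_lit 239) (nat_lit 5) (nat_lit 465) (nat_lit 412) (nat_lit 263)) (XT.lf (nat_lit 0) (nat_lit 2975650391)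 (nat_lit 684) (nat_lit 1178284493) (nat_lit 76) (nat_lit 10046131012) (nat_lit 238) (nat_lit 5) (nat_lit 247) (nat_lit 5) (nat_lit 239) (nat_lit 5) (nat_lit 466) (nat_lit 412) (nat_lit 262))))) (XT.nd (nat_lit 156) (nat_lit 684) (nat_lit 0) (XT.nd (nat_lit 78) (nat_lit 608) (nat_lit 0) (XT.lf (nat_lit 0) (nat_lit 5389443611) (nat_lit 684) (nat_lit 7748622647) (nat_lit 76) (nat_lit 1225835734) (nat_lit 230) (nat_lit 5) (nat_lit 239) (nat_lit 5) (nat_lit 231) (nat_lit 5) (nat_lit 467) (nat_lit 412) (nat_lit 261)) (XT.lf (nat_lit 0) (nat_lit 8673127) (nat_lit 608) (nat_lit 7867050011) (nat_lit 684) (nat_lit 6654812079) (nat_lit 222) (nat_lit 5) (nat_lit 230) (nat_lit 5) (nat_lit 231) (nat_lit 5) (nat_lit 468) (nat_lit 412) (nat_lit 260))) (XT.nd (nat_lit 78) (nat_lit 684) (nat_lit 0) (XT.lf (nat_lit 0) (nat_lit 8012531123) (nat_lit 608) (nat_lit 2440013263) (nat_lit 684) (nat_lit 4247144926) (nat_lit 222) (nat_lit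 5) (nat_lit 230) (nat_lit 5) (nat_lit 231) (nat_lit 5) (nat_lit 469) (nat_lit 412) (nat_lit 259)) (XT.nd (nat_lit 78) (nat_lit 76) (nat_lit 0) (XT.lf (nat_lit 0) (nat_lit 1287467243) (nat_lit 608) (nat_lit 11810914882) (nat_lit 684) (nat_lit 1773499200) (nat_lit 214) (nat_lit 5) (nat_lit 222) (nat_lit 5) (nat_lit 223) (nat_lit 5) (nat_lit 470) (nat_lit 412) (nat_lit 258)) (XT.lf (nat_lit 0) (nat_lit 790192766) (nat_lit 684) (nat_lit 5569331265) (nat_lit 76) (nat_lit 8686891979) (nat_lit 213) (nat_lit 5) (nat_lit 222) (nat_lit 5) (nat_lit 214) (nat_lit 5) (nat_lit 471) (nat_lit 412) (nat_lit 257)))))) (XT.nd (nat_lit 390) (nat_lit 1672) (nat_lit 0) (XT.nd (nat_lit 156) (nat_lit 1064) (nat_lit 0) (XT.nd (nat_lit 78) (nat_lit 0) (nat_lit 0) (XT.lf (nat_lit 0) (nat_lit 2615255063) (nat_lit 532) (nat_lit 772446915) (nat_lit 608) (nat_lit 11836383325) (nat_lit 206) (nat_lit 5) (nat_lit 213) (nat_lit 5) (nat_lit 214)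 (nat_lit 5) (nat_lit 472) (nat_lit 412) (nat_lit 256)) (XT.lf (nat_lit 0) (nat_lit 6096162215) (nat_lit 608) (nat_lit 4411229711) (nat_lit 76) (nat_lit 4896740139) (nat_lit 206) (nat_lit 5) (nat_lit 214) (nat_lit 5) (nat_lit 207) (nat_lit 5) (nat_lit 473) (nat_lit 412) (nat_lit 255))) (XT.nd (nat_lit 78) (nat_lit 532) (nat_lit 0) (XT.lf (nat_lit 0) (nat_lit 3984262304) (nat_lit 532) (nat_lit 4895116228) (nat_lit 608) (nat_lit 6707993512) (nat_lit 199) (nat_lit 5) (nat_lit 206) (nat_lit 5) (nat_lit 207) (nat_lit 5) (nat_lit 474) (nat_lit 412) (nat_lit 254)) (XT.nd (nat_lit 78) (nat_lit 532) (nat_lit 0) (XT.lf (nat_lit 0) (nat_lit 11743145125) (nat_lit 608) (nat_lit 3185109905) (nat_lit 76) (nat_lit 845528015) (nat_lit 199) (nat_lit 5) (nat_lit 207) (nat_lit 5) (nat_lit 200) (nat_lit 5) (nat_lit 475) (nat_lit 412) (nat_lit 253)) (XT.lf (nat_lit 0) (nat_lit 5426964843) (nat_lit 532) (nat_lit 9294780740) (nat_lit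 608) (nat_lit 1241029378) (nat_lit 192) (nat_lit 5) (nat_lit 199) (nat_lit 5) (nat_lit 200) (nat_lit 5) (nat_lit 476) (nat_lit 412) (nat_lit 252))))) (XT.nd (nat_lit 234) (nat_lit 1064) (nat_lit 0) (XT.nd (nat_lit 78) (nat_lit 532) (nat_lit 0) (XT.lf (nat_lit 0) (nat_lit 1594794094) (nat_lit 608) (nat_lit 1924315533) (nat_lit 76) (nat_lit 12636003179) (nat_lit 191) (nat_lit 5) (nat_lit 199) (nat_lit 5) (nat_lit 192) (nat_lit 5) (nat_lit 477) (nat_lit 412) (nat_lit 251)) (XT.nd (nat_lit 78) (nat_lit 0) (nat_lit 0) (XT.lf (nat_lit 0) (nat_lit 4521601575) (nat_lit 608) (nat_lit 9436937183) (nat_lit 76) (nat_lit 2391580531) (nat_lit 184) (nat_lit 5) (nat_lit 192) (nat_lit 5) (nat_lit 185) (nat_lit 5) (nat_lit 478) (nat_lit 412) (nat_lit 250)) (XT.lf (nat_lit 0) (nat_lit 7533486269) (nat_lit 608) (nat_lit 631576100) (nat_lit 76) (nat_lit 8383436279) (nat_lit 184) (nat_lit 5) (nat_lit 192) (nat_lit 5) (nat_lit 185)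 (nat_lit 5) (nat_lit 479) (nat_lit 412) (nat_lit 249)))) (XT.nd (nat_lit 78) (nat_lit 608) (nat_lit 0) (XT.lf (nat_lit 0) (nat_lit 8448011069) (nat_lit 456) (nat_lit 2202876124) (nat_lit 532) (nat_lit 6099056329) (nat_lit 178) (nat_lit 5) (nat_lit 184) (nat_lit 5) (nat_lit 185) (nat_lit 5) (nat_lit 480) (nat_lit 412) (nat_lit 248)) (XT.nd (nat_lit 78) (nat_lit 76) (nat_lit 0) (XT.lf (nat_lit 0) (nat_lit 734068522) (nat_lit 532) (nat_lit 13121296126) (nat_lit 608) (nat_lit 3099561508) (nat_lit 171) (nat_lit 5) (nat_lit 178) (nat_lit 5) (nat_lit 179) (nat_lit 5) (nat_lit 481) (nat_lit 412) (nat_lit 247)) (XT.lf (nat_lit 0) (nat_lit 21668913) (nat_lit 608) (nat_lit 7127079353) (nat_lit 76) (nat_lit 10014044276) (nat_lit 170) (nat_lit 5) (nat_lit 178) (nat_lit 5) (nat_lit 171) (nat_lit 5) (nat_lit 482) (nat_lit 412) (nat_lit 246))))))))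
noncomputable def xc180 : XT := (XT.nd (nat_lit 54054) (nat_lit 0) (nat_lit 24700) (XT.nd (nat_lit 780) (nat_lit 2128) (nat_lit 0) (XT.nd (nat_lit 390) (nat_lit 912) (nat_lit 0) (XT.nd (nat_lit 156) (nat_lit 912) (nat_lit 0) (XT.nd (nat_lit 78) (nat_lit 0) (nat_lit 0) (XT.lf (nat_lit 0) (nat_lit 2143600324) (nat_lit 456) (nat_lit 1024914441) (nat_lit 532) (nat_lit 14205801084) (nat_lit 164) (nat_lit 5) (nat_lit 170) (nat_lit 5) (nat_lit 171) (nat_lit 5) (nat_lit 483) (nat_lit 412) (nat_lit 245)) (XT.lf (nat_lit 0) (nat_lit 6451158033) (nat_lit 532) (nat_lit 5939670770) (nat_lit 76) (nat_lit 5197786777) (nat_lit 164) (nat_lit 5) (nat_lit 171) (nat_lit 5) (nat_lit 165) (nat_lit 5) (nat_lit 484) (nat_lit 412) (nat_lit 244))) (XT.nd (nat_lit 78) (nat_lit 456) (nat_lit 0) (XT.lf (nat_lit 0) (nat_lit 3564764588) (nat_lit 456) (nat_lit 6255618520) (nat_lit 532) (nat_lit 7986402727) (nat_lit 158) (nat_lit 5) (nat_lit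 164) (nat_lit 5) (nat_lit 165) (nat_lit 5) (nat_lit 485) (nat_lit 412) (nat_lit 243)) (XT.nd (nat_lit 78) (nat_lit 456) (nat_lit 0) (XT.lf (nat_lit 0) (nat_lit 13288200955) (nat_lit 532) (nat_lit 4701471565) (nat_lit 76) (nat_lit 39025857) (nat_lit 158) (nat_lit 5) (nat_lit 165) (nat_lit 5) (nat_lit 159) (nat_lit 5) (nat_lit 486) (nat_lit 412) (nat_lit 242)) (XT.lf (nat_lit 0) (nat_lit 5042364435) (nat_lit 456) (nat_lit 11848423193) (nat_lit 532) (nat_lit 1362956279) (nat_lit 152) (nat_lit 5) (nat_lit 158) (nat_lit 5) (nat_lit 159) (nat_lit 5) (nat_lit 487) (nat_lit 412) (nat_lit 241))))) (XT.nd (nat_lit 156) (nat_lit 380) (nat_lit 0) (XT.nd (nat_lit 78) (nat_lit 456) (nat_lit 0) (XT.lf (nat_lit 0) (nat_lit 2077865071) (nat_lit 532) (nat_lit 3463846641) (nat_lit 76) (nat_lit 12940850394) (nat_lit 151) (nat_lit 5) (nat_lit 158) (nat_lit 5) (nat_lit 152) (nat_lit 5) (nat_lit 488) (nat_lit 412) (nat_lit 240)) (XT.lf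 (nat_lit 0) (nat_lit 5609308116) (nat_lit 532) (nat_lit 12177802191) (nat_lit 76) (nat_lit 927867889) (nat_lit 145) (nat_lit 5) (nat_lit 152) (nat_lit 5) (nat_lit 146) (nat_lit 5) (nat_lit 489) (nat_lit 412) (nat_lit 239))) (XT.nd (nat_lit 78) (nat_lit 380) (nat_lit 0) (XT.lf (nat_lit 0) (nat_lit 9262995407) (nat_lit 532) (nat_lit 2215355543) (nat_lit 76) (nat_lit 7472662111) (nat_lit 145) (nat_lit 5) (nat_lit 152) (nat_lit 5) (nat_lit 146) (nat_lit 5) (nat_lit 490) (nat_lit 412) (nat_lit 238)) (XT.nd (nat_lit 78) (nat_lit 0) (nat_lit 0) (XT.lf (nat_lit 0) (nat_lit 8039926031) (nat_lit 380) (nat_lit 4993714412) (nat_lit 456) (nat_lit 6157253204) (nat_lit 140) (nat_lit 5) (nat_lit 145) (nat_lit 5) (nat_lit 146) (nat_lit 5) (nat_lit 491) (nat_lit 412) (nat_lit 237)) (XT.lf (nat_lit 0) (nat_lit 16896932130) (nat_lit 456) (nat_lit 927477374) (nat_lit 76) (nat_lit 1610820318) (nat_lit 140) (nat_lit 5) (nat_lit 146)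 (nat_lit 5) (nat_lit 141) (nat_lit 5) (nat_lit 492) (nat_lit 412) (nat_lit 236)))))) (XT.nd (nat_lit 390) (nat_lit 836) (nat_lit 0) (XT.nd (nat_lit 156) (nat_lit 380) (nat_lit 0) (XT.nd (nat_lit 78) (nat_lit 380) (nat_lit 0) (XT.lf (nat_lit 0) (nat_lit 1225677940) (nat_lit 532) (nat_lit 10109393389) (nat_lit 76) (nat_lit 8347478949) (nat_lit 133) (nat_lit 5) (nat_lit 140) (nat_lit 5) (nat_lit 134) (nat_lit 5) (nat_lit 493) (nat_lit 412) (nat_lit 235)) (XT.lf (nat_lit 0) (nat_lit 337534894) (nat_lit 380) (nat_lit 4693835242) (nat_lit 456) (nat_lit 14903105446) (nat_lit 128) (nat_lit 5) (nat_lit 133) (nat_lit 5) (nat_lit 134) (nat_lit 5) (nat_lit 494) (nat_lit 412) (nat_lit 234))) (XT.nd (nat_lit 78) (nat_lit 380) (nat_lit 0) (XT.lf (nat_lit 0) (nat_lit 8986966192) (nat_lit 456) (nat_lit 9085386152) (nat_lit 76) (nat_lit 2117613699) (nat_lit 128) (nat_lit 5) (nat_lit 134) (nat_lit 5) (nat_lit 129) (nat_lit 5)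 (nat_lit 495) (nat_lit 412) (nat_lit 233)) (XT.nd (nat_lit 78) (nat_lit 0) (nat_lit 0) (XT.lf (nat_lit 0) (nat_lit 1614940486) (nat_lit 380) (nat_lit 11440456098) (nat_lit 456) (nat_lit 7394497684) (nat_lit 123) (nat_lit 5) (nat_lit 128) (nat_lit 5) (nat_lit 129) (nat_lit 5) (nat_lit 496) (nat_lit 412) (nat_lit 232)) (XT.lf (nat_lit 0) (nat_lit 12640950251) (nat_lit 380) (nat_lit 4617444560) (nat_lit 456) (nat_lit 3455564616) (nat_lit 123) (nat_lit 5) (nat_lit 128) (nat_lit 5) (nat_lit 129) (nat_lit 5) (nat_lit 497) (nat_lit 412) (nat_lit 231))))) (XT.nd (nat_lit 156) (nat_lit 380) (nat_lit 0) (XT.nd (nat_lit 78) (nat_lit 0) (nat_lit 0) (XT.lf (nat_lit 0) (nat_lit 581445338) (nat_lit 456) (nat_lit 18070777800) (nat_lit 76) (nat_lit 2330478600) (nat_lit 117) (nat_lit 5) (nat_lit 123) (nat_lit 5) (nat_lit 118) (nat_lit 5) (nat_lit 498) (nat_lit 412) (nat_lit 230)) (XT.lf (nat_lit 0) (nat_lit 4730465010) (nat_lit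 456) (nat_lit 7094983034) (nat_lit 76) (nat_lit 9429365454) (nat_lit 117) (nat_lit 5) (nat_lit 123) (nat_lit 5) (nat_lit 118) (nat_lit 5) (nat_lit 499) (nat_lit 412) (nat_lit 229))) (XT.nd (nat_lit 52572) (nat_lit 0) (nat_lit 27360) (XT.lf (nat_lit 0) (nat_lit 4143481210) (nat_lit 380) (nat_lit 4838419686) (nat_lit 456) (nat_lit 12550080058) (nat_lit 112) (nat_lit 5) (nat_lit 117) (nat_lit 5) (nat_lit 118) (nat_lit 5) (nat_lit 500) (nat_lit 412) (nat_lit 228)) (XT.nd (nat_lit 78) (nat_lit 0) (nat_lit 0) (XT.lf (nat_lit 0) (nat_lit 105342252) (nat_lit 0) (nat_lit 105342252) (nat_lit 1444) (nat_lit 4062089527) (nat_lit 472) (nat_lit 5) (nat_lit 472) (nat_lit 3) (nat_lit 491) (nat_lit 3) (nat_lit 413) (nat_lit 413) (nat_lit 314)) (XT.lf (nat_lit 0) (nat_lit 1444102419) (nat_lit 1444) (nat_lit 4319882498) (nat_lit 1520) (nat_lit 2846081970) (nat_lit 472) (nat_lit 5) (nat_lit 491) (nat_lit 3) (nat_lit 492) (nat_lit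 5) (nat_lit 414) (nat_lit 413) (nat_lit 313))))))) (XT.nd (nat_lit 780) (nat_lit 1368) (nat_lit 0) (XT.nd (nat_lit 390) (nat_lit 1292) (nat_lit 0) (XT.nd (nat_lit 156) (nat_lit 0) (nat_lit 76) (XT.nd (nat_lit 78) (nat_lit 0) (nat_lit 76) (XT.lf (nat_lit 0) (nat_lit 2462545895) (nat_lit 1444) (nat_lit 239734061) (nat_lit 1520) (nat_lit 5974105872) (nat_lit 472) (nat_lit 5) (nat_lit 491) (nat_lit 3) (nat_lit 492) (nat_lit 5) (nat_lit 415) (nat_lit 413) (nat_lit 312)) (XT.lf (nat_lit 0) (nat_lit 3504425509) (nat_lit 1444) (nat_lit 4786532137) (nat_lit 1520) (nat_lit 453026720) (nat_lit 473) (nat_lit 5) (nat_lit 492) (nat_lit 5) (nat_lit 493) (nat_lit 5) (nat_lit 416) (nat_lit 413) (nat_lit 311))) (XT.nd (nat_lit 78) (nat_lit 0) (nat_lit 0) (XT.lf (nat_lit 0) (nat_lit 4561523147) (nat_lit 1444) (nat_lit 602951709) (nat_lit 1520) (nat_lit 3648586688) (nat_lit 473) (nat_lit 5) (nat_lit 492) (nat_lit 5) (nat_lit 493)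 (nat_lit 5) (nat_lit 417) (nat_lit 413) (nat_lit 310)) (XT.nd (nat_lit 78) (nat_lit 0) (nat_lit 76) (XT.lf (nat_lit 76) (nat_lit 3699114520) (nat_lit 0) (nat_lit 1940023304) (nat_lit 1520) (nat_lit 3244408935) (nat_lit 474) (nat_lit 5) (nat_lit 473) (nat_lit 5) (nat_lit 493) (nat_lit 5) (nat_lit 418) (nat_lit 413) (nat_lit 309)) (XT.lf (nat_lit 0) (nat_lit 6726957636) (nat_lit 1444) (nat_lit 882928327) (nat_lit 1520) (nat_lit 1345796381) (nat_lit 474) (nat_lit 5) (nat_lit 493) (nat_lit 5) (nat_lit 494) (nat_lit 5) (nat_lit 419) (nat_lit 413) (nat_lit 308))))) (XT.nd (nat_lit 156) (nat_lit 1444) (nat_lit 0) (XT.nd (nat_lit 78) (nat_lit 0) (nat_lit 0) (XT.lf (nat_lit 76) (nat_lit 3524076771) (nat_lit 0) (nat_lit 4324481488) (nat_lit 1520) (nat_lit 1180475346) (nat_lit 475) (nat_lit 5) (nat_lit 474) (nat_lit 5) (nat_lit 494) (nat_lit 5) (nat_lit 420) (nat_lit 413) (nat_lit 307)) (XT.lf (nat_lit 76) (nat_lit 8017381792)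 (nat_lit 0) (nat_lit 957805086) (nat_lit 1520) (nat_lit 129026284) (nat_lit 475) (nat_lit 5) (nat_lit 474) (nat_lit 5) (nat_lit 494) (nat_lit 5) (nat_lit 421) (nat_lit 413) (nat_lit 306))) (XT.nd (nat_lit 78) (nat_lit 0) (nat_lit 0) (XT.lf (nat_lit 0) (nat_lit 946734217) (nat_lit 1520) (nat_lit 5752270906) (nat_lit 1596) (nat_lit 2481468234) (nat_lit 455) (nat_lit 5) (nat_lit 475) (nat_lit 5) (nat_lit 476) (nat_lit 5) (nat_lit 422) (nat_lit 413) (nat_lit 305)) (XT.nd (nat_lit 78) (nat_lit 0) (nat_lit 76) (XT.lf (nat_lit 0) (nat_lit 2033352885) (nat_lit 1520) (nat_lit 1231378649) (nat_lit 1596) (nat_lit 5993701180) (nat_lit 455) (nat_lit 5) (nat_lit 475) (nat_lit 5) (nat_lit 476) (nat_lit 5) (nat_lit 423) (nat_lit 413) (nat_lit 304)) (XT.lf (nat_lit 0) (nat_lit 3143422393) (nat_lit 1520) (nat_lit 5929056549) (nat_lit 1596) (nat_lit 265450132) (nat_lit 456) (nat_lit 5) (nat_lit 476) (nat_lit 5) (nat_lit 477) (nat_lit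 5) (nat_lit 424) (nat_lit 413) (nat_lit 303)))))) (XT.nd (nat_lit 390) (nat_lit 1444) (nat_lit 0) (XT.nd (nat_lit 156) (nat_lit 0) (nat_lit 76) (XT.nd (nat_lit 78) (nat_lit 0) (nat_lit 0) (XT.lf (nat_lit 0) (nat_lit 4283855562) (nat_lit 1520) (nat_lit 1296321829) (nat_lit 1596) (nat_lit 3838686671) (nat_lit 456) (nat_lit 5) (nat_lit 476) (nat_lit 5) (nat_lit 477) (nat_lit 5) (nat_lit 425) (nat_lit 413) (nat_lit 302)) (XT.lf (nat_lit 76) (nat_lit 3460316278) (nat_lit 0) (nat_lit 1987898383) (nat_lit 1596) (nat_lit 4053192455) (nat_lit 457) (nat_lit 5) (nat_lit 456) (nat_lit 5) (nat_lit 477) (nat_lit 5) (nat_lit 426) (nat_lit 413) (nat_lit 301))) (XT.nd (nat_lit 78) (nat_lit 0) (nat_lit 0) (XT.lf (nat_lit 0) (nat_lit 6634524102) (nat_lit 1520) (nat_lit 1281226937) (nat_lit 1596) (nat_lit 1669888211) (nat_lit 457) (nat_lit 5) (nat_lit 477) (nat_lit 5) (nat_lit 478) (nat_lit 5) (nat_lit 427) (nat_lit 413) (nat_lit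 300)) (XT.nd (nat_lit 78) (nat_lit 0) (nat_lit 0) (XT.lf (nat_lit 76) (nat_lit 3593566052) (nat_lit 0) (nat_lit 4266925065) (nat_lit 1596) (nat_lit 1810757539) (nat_lit 458) (nat_lit 5) (nat_lit 457) (nat_lit 5) (nat_lit 478) (nat_lit 5) (nat_lit 428) (nat_lit 413) (nat_lit 299)) (XT.lf (nat_lit 76) (nat_lit 8569082349) (nat_lit 0) (nat_lit 530238951) (nat_lit 1596) (nat_lit 659493112) (nat_lit 458) (nat_lit 5) (nat_lit 457) (nat_lit 5) (nat_lit 478) (nat_lit 5) (nat_lit 429) (nat_lit 413) (nat_lit 298))))) (XT.nd (nat_lit 234) (nat_lit 0) (nat_lit 76) (XT.nd (nat_lit 78) (nat_lit 0) (nat_lit 0) (XT.lf (nat_lit 0) (nat_lit 534432963) (nat_lit 1596) (nat_lit 6040796198) (nat_lit 1672) (nat_lit 3272318318) (nat_lit 437) (nat_lit 5) (nat_lit 458) (nat_lit 5) (nat_lit 459) (nat_lit 5) (nat_lit 430) (nat_lit 413) (nat_lit 297)) (XT.nd (nat_lit 78) (nat_lit 0) (nat_lit 76) (XT.lf (nat_lit 0) (nat_lit 1735302029) (nat_lit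 1596) (nat_lit 1041023089) (nat_lit 1672) (nat_lit 7161815404) (nat_lit 437) (nat_lit 5) (nat_lit 458) (nat_lit 5) (nat_lit 459) (nat_lit 5) (nat_lit 431) (nat_lit 413) (nat_lit 296)) (XT.lf (nat_lit 0) (nat_lit 2974863246) (nat_lit 1596) (nat_lit 5939458381) (nat_lit 1672) (nat_lit 1115940499) (nat_lit 438) (nat_lit 5) (nat_lit 459) (nat_lit 5) (nat_lit 460) (nat_lit 5) (nat_lit 432) (nat_lit 413) (nat_lit 295)))) (XT.nd (nat_lit 78) (nat_lit 0) (nat_lit 0) (XT.lf (nat_lit 0) (nat_lit 4245676278) (nat_lit 1596) (nat_lit 817671564) (nat_lit 1672) (nat_lit 5060759105) (nat_lit 438) (nat_lit 5) (nat_lit 459) (nat_lit 5) (nat_lit 460) (nat_lit 5) (nat_lit 433) (nat_lit 413) (nat_lit 294)) (XT.nd (nat_lit 78) (nat_lit 0) (nat_lit 76) (XT.lf (nat_lit 76) (nat_lit 4450676279) (nat_lit 0) (nat_lit 1101540011) (nat_lit 1672) (nat_lit 4667415960) (nat_lit 439) (nat_lit 5) (nat_lit 438) (nat_lit 5) (nat_lit 460) (nat_lit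 5) (nat_lit 434) (nat_lit 413) (nat_lit 293)) (XT.lf (nat_lit 0) (nat_lit 6891209193) (nat_lit 1596) (nat_lit 515160334) (nat_lit 1672) (nat_lit 2910581697) (nat_lit 439) (nat_lit 5) (nat_lit 460) (nat_lit 5) (nat_lit 461) (nat_lit 5) (nat_lit 435) (nat_lit 413) (nat_lit 292))))))))
noncomputable def xc181 : XT := (XT.nd (nat_lit 1638) (nat_lit 6992) (nat_lit 0) (XT.nd (nat_lit 780) (nat_lit 4864) (nat_lit 0) (XT.nd (nat_lit 390) (nat_lit 3648) (nat_lit 0) (XT.nd (nat_lit 156) (nat_lit 3268) (nat_lit 0) (XT.nd (nat_lit 78) (nat_lit 0) (nat_lit 76) (XT.lf (nat_lit 76) (nat_lit 4886230133) (nat_lit 0) (nat_lit 3391843530) (nat_lit 1672) (nat_lit 2137730499) (nat_lit 440) (nat_lit 5) (nat_lit 439) (nat_lit 5) (nat_lit 461) (nat_lit 5) (nat_lit 436) (nat_lit 413) (nat_lit 291)) (XT.lf (nat_lit 0) (nat_lit 9683073740) (nat_lit 1596) (nat_lit 133081836) (nat_lit 76) (nat_lit 700679853) (nat_lit 440) (nat_lit 5) (nat_lit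 461) (nat_lit 5) (nat_lit 441) (nat_lit 5) (nat_lit 437) (nat_lit 413) (nat_lit 290))) (XT.nd (nat_lit 78) (nat_lit 1672) (nat_lit 0) (XT.lf (nat_lit 0) (nat_lit 530294147) (nat_lit 1672) (nat_lit 5217084046) (nat_lit 76) (nat_lit 4871643227) (nat_lit 418) (nat_lit 5) (nat_lit 440) (nat_lit 5) (nat_lit 419) (nat_lit 5) (nat_lit 438) (nat_lit 413) (nat_lit 289)) (XT.nd (nat_lit 78) (nat_lit 0) (nat_lit 0) (XT.lf (nat_lit 0) (nat_lit 310351658) (nat_lit 1672) (nat_lit 1585865477) (nat_lit 1748) (nat_lit 8827217474) (nat_lit 396) (nat_lit 5) (nat_lit 418) (nat_lit 5) (nat_lit 419) (nat_lit 5) (nat_lit 439) (nat_lit 413) (nat_lit 288)) (XT.lf (nat_lit 0) (nat_lit 3325049378) (nat_lit 1748) (nat_lit 4842363907) (nat_lit 76) (nat_lit 2661819492) (nat_lit 396) (nat_lit 5) (nat_lit 419) (nat_lit 5) (nat_lit 397) (nat_lit 5) (nat_lit 440) (nat_lit 413) (nat_lit 287))))) (XT.nd (nat_lit 156) (nat_lit 1900) (nat_lit 0)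 (XT.nd (nat_lit 78) (nat_lit 0) (nat_lit 0) (XT.lf (nat_lit 0) (nat_lit 825696243) (nat_lit 1748) (nat_lit 3956043419) (nat_lit 1824) (nat_lit 6155429982) (nat_lit 373) (nat_lit 5) (nat_lit 396) (nat_lit 5) (nat_lit 397) (nat_lit 5) (nat_lit 441) (nat_lit 413) (nat_lit 286)) (XT.lf (nat_lit 0) (nat_lit 6286141910) (nat_lit 1824) (nat_lit 4390931786) (nat_lit 76) (nat_lit 369828190) (nat_lit 373) (nat_lit 5) (nat_lit 397) (nat_lit 5) (nat_lit 374) (nat_lit 5) (nat_lit 442) (nat_lit 413) (nat_lit 285))) (XT.nd (nat_lit 78) (nat_lit 912) (nat_lit 0) (XT.lf (nat_lit 0) (nat_lit 1422106468) (nat_lit 988) (nat_lit 6417941819) (nat_lit 1064) (nat_lit 3318400203) (nat_lit 360) (nat_lit 5) (nat_lit 373) (nat_lit 5) (nat_lit 374) (nat_lit 5) (nat_lit 443) (nat_lit 413) (nat_lit 284)) (XT.nd (nat_lit 78) (nat_lit 912) (nat_lit 0) (XT.lf (nat_lit 0) (nat_lit 7396653826) (nat_lit 988) (nat_lit 2042049671) (nat_lit 1064)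 (nat_lit 1833256996) (nat_lit 360) (nat_lit 5) (nat_lit 373) (nat_lit 5) (nat_lit 374) (nat_lit 5) (nat_lit 444) (nat_lit 413) (nat_lit 283)) (XT.lf (nat_lit 0) (nat_lit 2100457009) (nat_lit 912) (nat_lit 8982758078) (nat_lit 988) (nat_lit 304257712) (nat_lit 348) (nat_lit 5) (nat_lit 360) (nat_lit 5) (nat_lit 361) (nat_lit 5) (nat_lit 445) (nat_lit 413) (nat_lit 282)))))) (XT.nd (nat_lit 390) (nat_lit 3116) (nat_lit 0) (XT.nd (nat_lit 156) (nat_lit 836) (nat_lit 0) (XT.nd (nat_lit 78) (nat_lit 836) (nat_lit 0) (XT.lf (nat_lit 0) (nat_lit 1263186018) (nat_lit 988) (nat_lit 3292791287) (nat_lit 76) (nat_lit 6948675901) (nat_lit 347) (nat_lit 5) (nat_lit 360) (nat_lit 5) (nat_lit 348) (nat_lit 5) (nat_lit 446) (nat_lit 413) (nat_lit 281)) (XT.lf (nat_lit 0) (nat_lit 2842428086) (nat_lit 836) (nat_lit 18863846) (nat_lit 912) (nat_lit 8762784602) (nat_lit 336) (nat_lit 5) (nat_lit 347) (nat_lit 5) (nat_lit 348)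 (nat_lit 5) (nat_lit 447) (nat_lit 413) (nat_lit 280))) (XT.nd (nat_lit 78) (nat_lit 836) (nat_lit 0) (XT.lf (nat_lit 0) (nat_lit 4528665340) (nat_lit 912) (nat_lit 2644901094) (nat_lit 76) (nat_lit 4571582924) (nat_lit 336) (nat_lit 5) (nat_lit 348) (nat_lit 5) (nat_lit 337) (nat_lit 5) (nat_lit 448) (nat_lit 413) (nat_lit 279)) (XT.nd (nat_lit 78) (nat_lit 0) (nat_lit 0) (XT.lf (nat_lit 0) (nat_lit 3648214814) (nat_lit 836) (nat_lit 2590412417) (nat_lit 912) (nat_lit 5629838586) (nat_lit 325) (nat_lit 5) (nat_lit 336) (nat_lit 5) (nat_lit 337) (nat_lit 5) (nat_lit 449) (nat_lit 413) (nat_lit 278)) (XT.lf (nat_lit 0) (nat_lit 7999814669) (nat_lit 912) (nat_lit 1918791754) (nat_lit 76) (nat_lit 2075308518) (nat_lit 325) (nat_lit 5) (nat_lit 337) (nat_lit 5) (nat_lit 326) (nat_lit 5) (nat_lit 450) (nat_lit 413) (nat_lit 277))))) (XT.nd (nat_lit 234) (nat_lit 1520) (nat_lit 0) (XT.nd (nat_lit 78) (nat_lit 836)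 (nat_lit 0) (XT.lf (nat_lit 0) (nat_lit 4537033271) (nat_lit 760) (nat_lit 5291713644) (nat_lit 836) (nat_lit 2292482439) (nat_lit 315) (nat_lit 5) (nat_lit 325) (nat_lit 5) (nat_lit 326) (nat_lit 5) (nat_lit 451) (nat_lit 413) (nat_lit 276)) (XT.nd (nat_lit 78) (nat_lit 836) (nat_lit 0) (XT.lf (nat_lit 0) (nat_lit 11134064345) (nat_lit 760) (nat_lit 559164067) (nat_lit 836) (nat_lit 557888825) (nat_lit 315) (nat_lit 5) (nat_lit 325) (nat_lit 5) (nat_lit 326) (nat_lit 5) (nat_lit 452) (nat_lit 413) (nat_lit 275)) (XT.lf (nat_lit 0) (nat_lit 1245685710) (nat_lit 836) (nat_lit 6880746168) (nat_lit 76) (nat_lit 4256016501) (nat_lit 304) (nat_lit 5) (nat_lit 315) (nat_lit 5) (nat_lit 305) (nat_lit 5) (nat_lit 453) (nat_lit 413) (nat_lit 274)))) (XT.nd (nat_lit 78) (nat_lit 1520) (nat_lit 0) (XT.lf (nat_lit 0) (nat_lit 3075566508) (nat_lit 836) (nat_lit 269750145) (nat_lit 76) (nat_lit 9171067853) (nat_lit 304) (nat_lit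 5) (nat_lit 315) (nat_lit 5) (nat_lit 305) (nat_lit 5) (nat_lit 454) (nat_lit 413) (nat_lit 273)) (XT.nd (nat_lit 78) (nat_lit 760) (nat_lit 0) (XT.lf (nat_lit 0) (nat_lit 4981479425) (nat_lit 836) (nat_lit 6117076590) (nat_lit 76) (nat_lit 1553660745) (nat_lit 294) (nat_lit 5) (nat_lit 305) (nat_lit 5) (nat_lit 295) (nat_lit 5) (nat_lit 455) (nat_lit 413) (nat_lit 272)) (XT.lf (nat_lit 0) (nat_lit 661646273) (nat_lit 760) (nat_lit 6279019944) (nat_lit 836) (nat_lit 5849802303) (nat_lit 284) (nat_lit 5) (nat_lit 294) (nat_lit 5) (nat_lit 295) (nat_lit 5) (nat_lit 456) (nat_lit 413) (nat_lit 271))))))) (XT.nd (nat_lit 780) (nat_lit 3496) (nat_lit 0) (XT.nd (nat_lit 390) (nat_lit 2052) (nat_lit 0) (XT.nd (nat_lit 156) (nat_lit 760) (nat_lit 0) (XT.nd (nat_lit 78) (nat_lit 684) (nat_lit 0) (XT.lf (nat_lit 0) (nat_lit 7645033453) (nat_lit 760) (nat_lit 1322102706) (nat_lit 836) (nat_lit 3963793023) (nat_lit 284)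 (nat_lit 5) (nat_lit 294) (nat_lit 5) (nat_lit 295) (nat_lit 5) (nat_lit 457) (nat_lit 413) (nat_lit 270)) (XT.lf (nat_lit 0) (nat_lit 1677839559) (nat_lit 684) (nat_lit 9378731809) (nat_lit 760) (nat_lit 2017184713) (nat_lit 275) (nat_lit 5) (nat_lit 284) (nat_lit 5) (nat_lit 285) (nat_lit 5) (nat_lit 458) (nat_lit 413) (nat_lit 269))) (XT.nd (nat_lit 78) (nat_lit 684) (nat_lit 0) (XT.lf (nat_lit 0) (nat_lit 602750) (nat_lit 760) (nat_lit 4388908056) (nat_lit 76) (nat_lit 8829301702) (nat_lit 274) (nat_lit 5) (nat_lit 284) (nat_lit 5) (nat_lit 275) (nat_lit 5) (nat_lit 459) (nat_lit 413) (nat_lit 268)) (XT.nd (nat_lit 78) (nat_lit 0) (nat_lit 0) (XT.lf (nat_lit 0) (nat_lit 2042088838) (nat_lit 760) (nat_lit 10603580503) (nat_lit 76) (nat_lit 720632400) (nat_lit 265) (nat_lit 5) (nat_lit 275) (nat_lit 5) (nat_lit 266) (nat_lit 5) (nat_lit 460) (nat_lit 413) (nat_lit 267)) (XT.lf (nat_lit 0) (nat_lit 4170885552)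 (nat_lit 760) (nat_lit 3442313898) (nat_lit 76) (nat_lit 5902616995) (nat_lit 265) (nat_lit 5) (nat_lit 275) (nat_lit 5) (nat_lit 266) (nat_lit 5) (nat_lit 461) (nat_lit 413) (nat_lit 266))))) (XT.nd (nat_lit 156) (nat_lit 1368) (nat_lit 0) (XT.nd (nat_lit 78) (nat_lit 0) (nat_lit 0) (XT.lf (nat_lit 0) (nat_lit 3899821520) (nat_lit 684) (nat_lit 2455761188) (nat_lit 760) (nat_lit 7312477445) (nat_lit 256) (nat_lit 5) (nat_lit 265) (nat_lit 5) (nat_lit 266) (nat_lit 5) (nat_lit 462) (nat_lit 413) (nat_lit 265)) (XT.lf (nat_lit 0) (nat_lit 8613579536) (nat_lit 760) (nat_lit 2419435808) (nat_lit 76) (nat_lit 2789746375) (nat_lit 256) (nat_lit 5) (nat_lit 266) (nat_lit 5) (nat_lit 257) (nat_lit 5) (nat_lit 463) (nat_lit 413) (nat_lit 264))) (XT.nd (nat_lit 78) (nat_lit 684) (nat_lit 0) (XT.lf (nat_lit 0) (nat_lit 5113768912) (nat_lit 684) (nat_lit 5840807413) (nat_lit 760) (nat_lit 3025229189) (nat_lit 247) (nat_lit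 5) (nat_lit 256) (nat_lit 5) (nat_lit 257) (nat_lit 5) (nat_lit 464) (nat_lit 413) (nat_lit 263)) (XT.nd (nat_lit 78) (nat_lit 684) (nat_lit 0) (XT.lf (nat_lit 0) (nat_lit 12817142994) (nat_lit 684) (nat_lit 530002124) (nat_lit 760) (nat_lit 792754925) (nat_lit 247) (nat_lit 5) (nat_lit 256) (nat_lit 5) (nat_lit 257) (nat_lit 5) (nat_lit 465) (nat_lit 413) (nat_lit 262)) (XT.lf (nat_lit 0) (nat_lit 1527388383) (nat_lit 684) (nat_lit 7901523968) (nat_lit 76) (nat_lit 4872846326) (nat_lit 238) (nat_lit 5) (nat_lit 247) (nat_lit 5) (nat_lit 239) (nat_lit 5) (nat_lit 466) (nat_lit 413) (nat_lit 261)))))) (XT.nd (nat_lit 390) (nat_lit 1672) (nat_lit 0) (XT.nd (nat_lit 156) (nat_lit 1216) (nat_lit 0) (XT.nd (nat_lit 78) (nat_lit 608) (nat_lit 0) (XT.lf (nat_lit 0) (nat_lit 3884561806) (nat_lit 684) (nat_lit 193194250) (nat_lit 76) (nat_lit 10388973398) (nat_lit 238) (nat_lit 5) (nat_lit 247) (nat_lit 5) (nat_lit 239)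 (nat_lit 5) (nat_lit 467) (nat_lit 413) (nat_lit 260)) (XT.lf (nat_lit 0) (nat_lit 6337538614) (nat_lit 684) (nat_lit 6885503956) (nat_lit 76) (nat_lit 1410988405) (nat_lit 230) (nat_lit 5) (nat_lit 239) (nat_lit 5) (nat_lit 231) (nat_lit 5) (nat_lit 468) (nat_lit 413) (nat_lit 259))) (XT.nd (nat_lit 78) (nat_lit 608) (nat_lit 0) (XT.lf (nat_lit 0) (nat_lit 1020239766) (nat_lit 608) (nat_lit 7843394010) (nat_lit 684) (nat_lit 5940568012) (nat_lit 222) (nat_lit 5) (nat_lit 230) (nat_lit 5) (nat_lit 231) (nat_lit 5) (nat_lit 469) (nat_lit 413) (nat_lit 258)) (XT.nd (nat_lit 78) (nat_lit 608) (nat_lit 0) (XT.lf (nat_lit 0) (nat_lit 9164343683) (nat_lit 608) (nat_lit 2311365488) (nat_lit 684) (nat_lit 3501362032) (nat_lit 222) (nat_lit 5) (nat_lit 230) (nat_lit 5) (nat_lit 231) (nat_lit 5) (nat_lit 470) (nat_lit 413) (nat_lit 257)) (XT.lf (nat_lit 0) (nat_lit 2313613168) (nat_lit 608) (nat_lit 11852512237) (nat_lit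 684) (nat_lit 986754879) (nat_lit 214) (nat_lit 5) (nat_lit 222) (nat_lit 5) (nat_lit 223) (nat_lit 5) (nat_lit 471) (nat_lit 413) (nat_lit 256))))) (XT.nd (nat_lit 234) (nat_lit 1064) (nat_lit 0) (XT.nd (nat_lit 78) (nat_lit 532) (nat_lit 0) (XT.lf (nat_lit 0) (nat_lit 1601517029) (nat_lit 684) (nat_lit 4689054276) (nat_lit 76) (nat_lit 9040552010) (nat_lit 213) (nat_lit 5) (nat_lit 222) (nat_lit 5) (nat_lit 214) (nat_lit 5) (nat_lit 472) (nat_lit 413) (nat_lit 255)) (XT.nd (nat_lit 78) (nat_lit 0) (nat_lit 0) (XT.lf (nat_lit 0) (nat_lit 3652699676) (nat_lit 532) (nat_lit 589074490) (nat_lit 608) (nat_lit 11270761964) (nat_lit 206) (nat_lit 5) (nat_lit 213) (nat_lit 5) (nat_lit 214) (nat_lit 5) (nat_lit 473) (nat_lit 413) (nat_lit 254)) (XT.lf (nat_lit 0) (nat_lit 6990251173) (nat_lit 608) (nat_lit 3519180275) (nat_lit 76) (nat_lit 5187041398) (nat_lit 206) (nat_lit 5) (nat_lit 214) (nat_lit 5) (nat_lit 207)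 (nat_lit 5) (nat_lit 474) (nat_lit 413) (nat_lit 253)))) (XT.nd (nat_lit 78) (nat_lit 532) (nat_lit 0) (XT.lf (nat_lit 0) (nat_lit 5037772408) (nat_lit 532) (nat_lit 4782541621) (nat_lit 608) (nat_lit 6063245806) (nat_lit 199) (nat_lit 5) (nat_lit 206) (nat_lit 5) (nat_lit 207) (nat_lit 5) (nat_lit 475) (nat_lit 413) (nat_lit 252)) (XT.nd (nat_lit 78) (nat_lit 532) (nat_lit 0) (XT.lf (nat_lit 0) (nat_lit 12727728109) (nat_lit 608) (nat_lit 2280167052) (nat_lit 76) (nat_lit 1066082192) (nat_lit 199) (nat_lit 5) (nat_lit 207) (nat_lit 5) (nat_lit 200) (nat_lit 5) (nat_lit 476) (nat_lit 413) (nat_lit 251)) (XT.lf (nat_lit 0) (nat_lit 6497776526) (nat_lit 532) (nat_lit 9259671367) (nat_lit 608) (nat_lit 509475894) (nat_lit 192) (nat_lit 5) (nat_lit 199) (nat_lit 5) (nat_lit 200) (nat_lit 5) (nat_lit 477) (nat_lit 413) (nat_lit 250))))))))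
noncomputable def xc182 : XT := (XT.nd (nat_lit 1638) (nat_lit 456) (nat_lit 0) (XT.nd (nat_lit 780) (nat_lit 2660) (nat_lit 0) (XT.nd (nat_lit 390) (nat_lit 988) (nat_lit 0) (XT.nd (nat_lit 156) (nat_lit 988) (nat_lit 0) (XT.nd (nat_lit 78) (nat_lit 532) (nat_lit 0) (XT.lf (nat_lit 0) (nat_lit 2358507711) (nat_lit 608) (nat_lit 1009401670) (nat_lit 76) (nat_lit 13095398926) (nat_lit 191) (nat_lit 5) (nat_lit 199) (nat_lit 5) (nat_lit 192) (nat_lit 5) (nat_lit 478) (nat_lit 413) (nat_lit 249)) (XT.lf (nat_lit 0) (nat_lit 5337102531) (nat_lit 608) (nat_lit 8665261843) (nat_lit 76) (nat_lit 2659990822) (nat_lit 184) (nat_lit 5) (nat_lit 192) (nat_lit 5) (nat_lit 185) (nat_lit 5) (nat_lit 479) (nat_lit 413) (nat_lit 248))) (XT.nd (nat_lit 78) (nat_lit 532) (nat_lit 0) (XT.lf (nat_lit 0) (nat_lit 301326767) (nat_lit 456) (nat_lit 8095637527) (nat_lit 532) (nat_lit 8467988259) (nat_lit 178) (nat_lit 5) (nat_lit 184)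 (nat_lit 5) (nat_lit 185) (nat_lit 5) (nat_lit 480) (nat_lit 413) (nat_lit 247)) (XT.nd (nat_lit 78) (nat_lit 532) (nat_lit 0) (XT.lf (nat_lit 0) (nat_lit 9552359104) (nat_lit 456) (nat_lit 2014532606) (nat_lit 532) (nat_lit 5503736142) (nat_lit 178) (nat_lit 5) (nat_lit 184) (nat_lit 5) (nat_lit 185) (nat_lit 5) (nat_lit 481) (nat_lit 413) (nat_lit 246)) (XT.lf (nat_lit 0) (nat_lit 1690705230) (nat_lit 532) (nat_lit 13138564544) (nat_lit 608) (nat_lit 2450569140) (nat_lit 171) (nat_lit 5) (nat_lit 178) (nat_lit 5) (nat_lit 179) (nat_lit 5) (nat_lit 482) (nat_lit 413) (nat_lit 245))))) (XT.nd (nat_lit 156) (nat_lit 456) (nat_lit 0) (XT.nd (nat_lit 78) (nat_lit 456) (nat_lit 0) (XT.lf (nat_lit 0) (nat_lit 710003194) (nat_lit 608) (nat_lit 6336753366) (nat_lit 76) (nat_lit 10445293707) (nat_lit 170) (nat_lit 5) (nat_lit 178) (nat_lit 5) (nat_lit 171) (nat_lit 5) (nat_lit 483) (nat_lit 413) (nat_lit 244)) (XT.lf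 (nat_lit 0) (nat_lit 3113202618) (nat_lit 456) (nat_lit 799112039) (nat_lit 532) (nat_lit 13795643516) (nat_lit 164) (nat_lit 5) (nat_lit 170) (nat_lit 5) (nat_lit 171) (nat_lit 5) (nat_lit 484) (nat_lit 413) (nat_lit 243))) (XT.nd (nat_lit 78) (nat_lit 456) (nat_lit 0) (XT.lf (nat_lit 0) (nat_lit 7248836826) (nat_lit 532) (nat_lit 5137900330) (nat_lit 76) (nat_lit 5540046839) (nat_lit 164) (nat_lit 5) (nat_lit 171) (nat_lit 5) (nat_lit 165) (nat_lit 5) (nat_lit 485) (nat_lit 413) (nat_lit 242)) (XT.nd (nat_lit 78) (nat_lit 0) (nat_lit 0) (XT.lf (nat_lit 0) (nat_lit 4550567395) (nat_lit 456) (nat_lit 6127705703) (nat_lit 532) (nat_lit 7471192549) (nat_lit 158) (nat_lit 5) (nat_lit 164) (nat_lit 5) (nat_lit 165) (nat_lit 5) (nat_lit 486) (nat_lit 413) (nat_lit 241)) (XT.lf (nat_lit 0) (nat_lit 14204087655) (nat_lit 532) (nat_lit 3887343532) (nat_lit 76) (nat_lit 284616881) (nat_lit 158) (nat_lit 5) (nat_lit 165)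 (nat_lit 5) (nat_lit 159) (nat_lit 5) (nat_lit 487) (nat_lit 413) (nat_lit 240)))))) (XT.nd (nat_lit 390) (nat_lit 1292) (nat_lit 0) (XT.nd (nat_lit 156) (nat_lit 836) (nat_lit 0) (XT.nd (nat_lit 78) (nat_lit 76) (nat_lit 0) (XT.lf (nat_lit 0) (nat_lit 6045394468) (nat_lit 456) (nat_lit 11826441658) (nat_lit 532) (nat_lit 733900530) (nat_lit 152) (nat_lit 5) (nat_lit 158) (nat_lit 5) (nat_lit 159) (nat_lit 5) (nat_lit 488) (nat_lit 413) (nat_lit 239)) (XT.lf (nat_lit 0) (nat_lit 2754429418) (nat_lit 532) (nat_lit 2639982749) (nat_lit 76) (nat_lit 13444892011) (nat_lit 151) (nat_lit 5) (nat_lit 158) (nat_lit 5) (nat_lit 152) (nat_lit 5) (nat_lit 489) (nat_lit 413) (nat_lit 238))) (XT.nd (nat_lit 78) (nat_lit 380) (nat_lit 0) (XT.lf (nat_lit 0) (nat_lit 6351492182) (nat_lit 532) (nat_lit 11523003337) (nat_lit 76) (nat_lit 1201977352) (nat_lit 145) (nat_lit 5) (nat_lit 152) (nat_lit 5) (nat_lit 146) (nat_lit 5)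 (nat_lit 490) (nat_lit 413) (nat_lit 237)) (XT.nd (nat_lit 78) (nat_lit 380) (nat_lit 0) (XT.lf (nat_lit 0) (nat_lit 10065900318) (nat_lit 532) (nat_lit 1378922558) (nat_lit 76) (nat_lit 7872656633) (nat_lit 145) (nat_lit 5) (nat_lit 152) (nat_lit 5) (nat_lit 146) (nat_lit 5) (nat_lit 491) (nat_lit 413) (nat_lit 236)) (XT.lf (nat_lit 0) (nat_lit 9075670304) (nat_lit 380) (nat_lit 4829857992) (nat_lit 456) (nat_lit 5656761949) (nat_lit 140) (nat_lit 5) (nat_lit 145) (nat_lit 5) (nat_lit 146) (nat_lit 5) (nat_lit 492) (nat_lit 413) (nat_lit 235))))) (XT.nd (nat_lit 234) (nat_lit 380) (nat_lit 0) (XT.nd (nat_lit 78) (nat_lit 912) (nat_lit 0) (XT.lf (nat_lit 0) (nat_lit 17835779949) (nat_lit 456) (nat_lit 77737988) (nat_lit 76) (nat_lit 1898205187) (nat_lit 140) (nat_lit 5) (nat_lit 146) (nat_lit 5) (nat_lit 141) (nat_lit 5) (nat_lit 493) (nat_lit 413) (nat_lit 234)) (XT.nd (nat_lit 78) (nat_lit 380) (nat_lit 0)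 (XT.lf (nat_lit 0) (nat_lit 1849043992) (nat_lit 532) (nat_lit 9440860705) (nat_lit 76) (nat_lit 8774133925) (nat_lit 133) (nat_lit 5) (nat_lit 140) (nat_lit 5) (nat_lit 134) (nat_lit 5) (nat_lit 494) (nat_lit 413) (nat_lit 233)) (XT.lf (nat_lit 0) (nat_lit 1209277720) (nat_lit 380) (nat_lit 4515446210) (nat_lit 456) (nat_lit 14596404665) (nat_lit 128) (nat_lit 5) (nat_lit 133) (nat_lit 5) (nat_lit 134) (nat_lit 5) (nat_lit 495) (nat_lit 413) (nat_lit 232)))) (XT.nd (nat_lit 78) (nat_lit 380) (nat_lit 0) (XT.lf (nat_lit 0) (nat_lit 9749542888) (nat_lit 456) (nat_lit 8408994956) (nat_lit 76) (nat_lit 2423392369) (nat_lit 128) (nat_lit 5) (nat_lit 134) (nat_lit 5) (nat_lit 129) (nat_lit 5) (nat_lit 496) (nat_lit 413) (nat_lit 231)) (XT.nd (nat_lit 78) (nat_lit 0) (nat_lit 0) (XT.lf (nat_lit 0) (nat_lit 2499692827) (nat_lit 380) (nat_lit 11393755570) (nat_lit 456) (nat_lit 6953729972) (nat_lit 123) (nat_lit 5)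 (nat_lit 128) (nat_lit 5) (nat_lit 129) (nat_lit 5) (nat_lit 497) (nat_lit 413) (nat_lit 230)) (XT.lf (nat_lit 0) (nat_lit 13729508012) (nat_lit 380) (nat_lit 4439685951) (nat_lit 456) (nat_lit 2947560549) (nat_lit 123) (nat_lit 5) (nat_lit 128) (nat_lit 5) (nat_lit 129) (nat_lit 5) (nat_lit 498) (nat_lit 413) (nat_lit 229))))))) (XT.nd (nat_lit 53352) (nat_lit 0) (nat_lit 24244) (XT.nd (nat_lit 52962) (nat_lit 0) (nat_lit 25612) (XT.nd (nat_lit 52728) (nat_lit 0) (nat_lit 26980) (XT.nd (nat_lit 78) (nat_lit 0) (nat_lit 0) (XT.lf (nat_lit 0) (nat_lit 1158673119) (nat_lit 456) (nat_lit 17584605182) (nat_lit 76) (nat_lit 2647600676) (nat_lit 117) (nat_lit 5) (nat_lit 123) (nat_lit 5) (nat_lit 118) (nat_lit 5) (nat_lit 499) (nat_lit 413) (nat_lit 228)) (XT.lf (nat_lit 0) (nat_lit 5379583010) (nat_lit 456) (nat_lit 6405913897) (nat_lit 76) (nat_lit 9883161101) (nat_lit 117) (nat_lit 5) (nat_lit 123) (nat_lit 5)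 (nat_lit 118) (nat_lit 5) (nat_lit 500) (nat_lit 413) (nat_lit 227))) (XT.nd (nat_lit 78) (nat_lit 0) (nat_lit 0) (XT.lf (nat_lit 0) (nat_lit 604101177) (nat_lit 0) (nat_lit 604101177) (nat_lit 1444) (nat_lit 3129598487) (nat_lit 472) (nat_lit 5) (nat_lit 472) (nat_lit 3) (nat_lit 491) (nat_lit 3) (nat_lit 414) (nat_lit 414) (nat_lit 312)) (XT.nd (nat_lit 78) (nat_lit 0) (nat_lit 0) (XT.lf (nat_lit 0) (nat_lit 3414316944) (nat_lit 1444) (nat_lit 3386073587) (nat_lit 1520) (nat_lit 1941947927) (nat_lit 472) (nat_lit 5) (nat_lit 491) (nat_lit 3) (nat_lit 492) (nat_lit 5) (nat_lit 415) (nat_lit 414) (nat_lit 311)) (XT.lf (nat_lit 76) (nat_lit 765716273) (nat_lit 0) (nat_lit 3654319212) (nat_lit 1520) (nat_lit 4390631801) (nat_lit 473) (nat_lit 5) (nat_lit 472) (nat_lit 5) (nat_lit 492) (nat_lit 5) (nat_lit 416) (nat_lit 414) (nat_lit 310))))) (XT.nd (nat_lit 156) (nat_lit 1368) (nat_lit 0) (XT.nd (nat_lit 78) (nat_lit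 0) (nat_lit 76) (XT.lf (nat_lit 76) (nat_lit 5033324354) (nat_lit 0) (nat_lit 410549043) (nat_lit 1520) (nat_lit 3436543189) (nat_lit 473) (nat_lit 5) (nat_lit 472) (nat_lit 5) (nat_lit 492) (nat_lit 5) (nat_lit 417) (nat_lit 414) (nat_lit 309)) (XT.lf (nat_lit 76) (nat_lit 407824321) (nat_lit 0) (nat_lit 6077669136) (nat_lit 1520) (nat_lit 2466135030) (nat_lit 474) (nat_lit 5) (nat_lit 473) (nat_lit 5) (nat_lit 493) (nat_lit 5) (nat_lit 418) (nat_lit 414) (nat_lit 308))) (XT.nd (nat_lit 78) (nat_lit 1444) (nat_lit 0) (XT.lf (nat_lit 76) (nat_lit 4783889198) (nat_lit 0) (nat_lit 2768801943) (nat_lit 1520) (nat_lit 1471492034) (nat_lit 474) (nat_lit 5) (nat_lit 473) (nat_lit 5) (nat_lit 493) (nat_lit 5) (nat_lit 419) (nat_lit 414) (nat_lit 307)) (XT.nd (nat_lit 78) (nat_lit 1520) (nat_lit 0) (XT.lf (nat_lit 76) (nat_lit 133473406) (nat_lit 0) (nat_lit 8489322821) (nat_lit 1520) (nat_lit 475774649) (nat_lit 475)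 (nat_lit 5) (nat_lit 474) (nat_lit 5) (nat_lit 494) (nat_lit 5) (nat_lit 420) (nat_lit 414) (nat_lit 306)) (XT.lf (nat_lit 0) (nat_lit 556720511) (nat_lit 1520) (nat_lit 4557569352) (nat_lit 1596) (nat_lit 4059620169) (nat_lit 454) (nat_lit 5) (nat_lit 474) (nat_lit 5) (nat_lit 475) (nat_lit 5) (nat_lit 421) (nat_lit 414) (nat_lit 305)))))) (XT.nd (nat_lit 390) (nat_lit 1368) (nat_lit 0) (XT.nd (nat_lit 156) (nat_lit 0) (nat_lit 76) (XT.nd (nat_lit 78) (nat_lit 0) (nat_lit 76) (XT.lf (nat_lit 0) (nat_lit 1580916859) (nat_lit 1520) (nat_lit 78626361) (nat_lit 1596) (nat_lit 7591613844) (nat_lit 454) (nat_lit 5) (nat_lit 474) (nat_lit 5) (nat_lit 475) (nat_lit 5) (nat_lit 422) (nat_lit 414) (nat_lit 304)) (XT.lf (nat_lit 0) (nat_lit 2645263659) (nat_lit 1520) (nat_lit 4806103263) (nat_lit 1596) (nat_lit 1878200969) (nat_lit 455) (nat_lit 5) (nat_lit 475) (nat_lit 5) (nat_lit 476) (nat_lit 5) (nat_lit 423) (nat_lit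 414) (nat_lit 303))) (XT.nd (nat_lit 78) (nat_lit 0) (nat_lit 0) (XT.lf (nat_lit 0) (nat_lit 3720681470) (nat_lit 1520) (nat_lit 215601260) (nat_lit 1596) (nat_lit 5473480469) (nat_lit 455) (nat_lit 5) (nat_lit 475) (nat_lit 5) (nat_lit 476) (nat_lit 5) (nat_lit 424) (nat_lit 414) (nat_lit 302)) (XT.nd (nat_lit 78) (nat_lit 0) (nat_lit 76) (XT.lf (nat_lit 76) (nat_lit 4512427105) (nat_lit 0) (nat_lit 313167030) (nat_lit 1596) (nat_lit 4665820260) (nat_lit 456) (nat_lit 5) (nat_lit 455) (nat_lit 5) (nat_lit 476) (nat_lit 5) (nat_lit 425) (nat_lit 414) (nat_lit 301)) (XT.lf (nat_lit 0) (nat_lit 5955091503) (nat_lit 1520) (nat_lit 272558386) (nat_lit 1596) (nat_lit 3347010479) (nat_lit 456) (nat_lit 5) (nat_lit 476) (nat_lit 5) (nat_lit 477) (nat_lit 5) (nat_lit 426) (nat_lit 414) (nat_lit 300))))) (XT.nd (nat_lit 234) (nat_lit 1520) (nat_lit 0) (XT.nd (nat_lit 78) (nat_lit 0) (nat_lit 76) (XT.lf (nat_lit 76) (nat_lit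 4572306629) (nat_lit 0) (nat_lit 2546112212) (nat_lit 1596) (nat_lit 2540938876) (nat_lit 457) (nat_lit 5) (nat_lit 456) (nat_lit 5) (nat_lit 477) (nat_lit 5) (nat_lit 427) (nat_lit 414) (nat_lit 299)) (XT.nd (nat_lit 78) (nat_lit 0) (nat_lit 0) (XT.lf (nat_lit 0) (nat_lit 8294541768) (nat_lit 1520) (nat_lit 249765469) (nat_lit 1596) (nat_lit 1201662231) (nat_lit 457) (nat_lit 5) (nat_lit 477) (nat_lit 5) (nat_lit 478) (nat_lit 5) (nat_lit 428) (nat_lit 414) (nat_lit 298)) (XT.lf (nat_lit 76) (nat_lit 4715568867) (nat_lit 0) (nat_lit 4806329815) (nat_lit 1596) (nat_lit 311871362) (nat_lit 458) (nat_lit 5) (nat_lit 457) (nat_lit 5) (nat_lit 478) (nat_lit 5) (nat_lit 429) (nat_lit 414) (nat_lit 297)))) (XT.nd (nat_lit 78) (nat_lit 0) (nat_lit 76) (XT.lf (nat_lit 0) (nat_lit 821402323) (nat_lit 1596) (nat_lit 159092353) (nat_lit 1672) (nat_lit 8943090310) (nat_lit 436) (nat_lit 5) (nat_lit 457) (nat_lit 5) (nat_lit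 458) (nat_lit 5) (nat_lit 430) (nat_lit 414) (nat_lit 296)) (XT.nd (nat_lit 78) (nat_lit 0) (nat_lit 0) (XT.lf (nat_lit 0) (nat_lit 2005309311) (nat_lit 1596) (nat_lit 5085697668) (nat_lit 1672) (nat_lit 2923515339) (nat_lit 437) (nat_lit 5) (nat_lit 458) (nat_lit 5) (nat_lit 459) (nat_lit 5) (nat_lit 431) (nat_lit 414) (nat_lit 295)) (XT.lf (nat_lit 0) (nat_lit 3201564627) (nat_lit 1596) (nat_lit 7025460) (nat_lit 1672) (nat_lit 6898924903) (nat_lit 437) (nat_lit 5) (nat_lit 458) (nat_lit 5) (nat_lit 459) (nat_lit 5) (nat_lit 432) (nat_lit 414) (nat_lit 294))))))))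
noncomputable def xc183 : XT := (XT.nd (nat_lit 1638) (nat_lit 8208) (nat_lit 0) (XT.nd (nat_lit 780) (nat_lit 4484) (nat_lit 0) (XT.nd (nat_lit 390) (nat_lit 4940) (nat_lit 0) (XT.nd (nat_lit 156) (nat_lit 0) (nat_lit 0) (XT.nd (nat_lit 78) (nat_lit 0) (nat_lit 0) (XT.lf (nat_lit 0) (nat_lit 4442297836) (nat_lit 1596) (nat_lit 4979067860) (nat_lit 1672) (nat_lit 780600561) (nat_lit 438) (nat_lit 5) (nat_lit 459) (nat_lit 5) (nat_lit 460) (nat_lit 5) (nat_lit 433) (nat_lit 414) (nat_lit 293)) (XT.lf (nat_lit 76) (nat_lit 226971074) (nat_lit 0) (nat_lit 5485423088) (nat_lit 1672) (nat_lit 4585831028) (nat_lit 439) (nat_lit 5) (nat_lit 438) (nat_lit 5) (nat_lit 460) (nat_lit 5) (nat_lit 434) (nat_lit 414) (nat_lit 292))) (XT.nd (nat_lit 78) (nat_lit 0) (nat_lit 76) (XT.lf (nat_lit 76) (nat_lit 5590748454) (nat_lit 0) (nat_lit 1432601734) (nat_lit 1672) (nat_lit 3372759376) (nat_lit 439) (nat_lit 5) (nat_lit 438)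 (nat_lit 5) (nat_lit 460) (nat_lit 5) (nat_lit 435) (nat_lit 414) (nat_lit 291)) (XT.nd (nat_lit 78) (nat_lit 0) (nat_lit 0) (XT.lf (nat_lit 76) (nat_lit 541422024) (nat_lit 0) (nat_lit 7822580681) (nat_lit 1672) (nat_lit 2131888609) (nat_lit 440) (nat_lit 5) (nat_lit 439) (nat_lit 5) (nat_lit 461) (nat_lit 5) (nat_lit 436) (nat_lit 414) (nat_lit 290)) (XT.lf (nat_lit 76) (nat_lit 6036767187) (nat_lit 0) (nat_lit 3719050622) (nat_lit 1672) (nat_lit 841372952) (nat_lit 440) (nat_lit 5) (nat_lit 439) (nat_lit 5) (nat_lit 461) (nat_lit 5) (nat_lit 437) (nat_lit 414) (nat_lit 289))))) (XT.nd (nat_lit 156) (nat_lit 3420) (nat_lit 0) (XT.nd (nat_lit 78) (nat_lit 0) (nat_lit 0) (XT.lf (nat_lit 0) (nat_lit 460813888) (nat_lit 1672) (nat_lit 9766949870) (nat_lit 76) (nat_lit 472857668) (nat_lit 418) (nat_lit 5) (nat_lit 440) (nat_lit 5) (nat_lit 419) (nat_lit 5) (nat_lit 438) (nat_lit 414) (nat_lit 288)) (XT.lf (nat_lit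 0) (nat_lit 1816386444) (nat_lit 1672) (nat_lit 4250582543) (nat_lit 76) (nat_lit 4738276859) (nat_lit 418) (nat_lit 5) (nat_lit 440) (nat_lit 5) (nat_lit 419) (nat_lit 5) (nat_lit 439) (nat_lit 414) (nat_lit 287))) (XT.nd (nat_lit 78) (nat_lit 1748) (nat_lit 0) (XT.lf (nat_lit 0) (nat_lit 1380356853) (nat_lit 1672) (nat_lit 1811168384) (nat_lit 1748) (nat_lit 7720596787) (nat_lit 396) (nat_lit 5) (nat_lit 418) (nat_lit 5) (nat_lit 419) (nat_lit 5) (nat_lit 440) (nat_lit 414) (nat_lit 286)) (XT.nd (nat_lit 78) (nat_lit 1748) (nat_lit 0) (XT.lf (nat_lit 0) (nat_lit 4623047301) (nat_lit 1748) (nat_lit 3869763808) (nat_lit 76) (nat_lit 2527755208) (nat_lit 396) (nat_lit 5) (nat_lit 419) (nat_lit 5) (nat_lit 397) (nat_lit 5) (nat_lit 441) (nat_lit 414) (nat_lit 285)) (XT.lf (nat_lit 0) (nat_lit 1904621708) (nat_lit 1748) (nat_lit 4187000564) (nat_lit 1824) (nat_lit 5039396811) (nat_lit 373) (nat_lit 5) (nat_lit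 396) (nat_lit 5) (nat_lit 397) (nat_lit 5) (nat_lit 442) (nat_lit 414) (nat_lit 284)))))) (XT.nd (nat_lit 390) (nat_lit 2508) (nat_lit 0) (XT.nd (nat_lit 156) (nat_lit 988) (nat_lit 0) (XT.nd (nat_lit 78) (nat_lit 988) (nat_lit 0) (XT.lf (nat_lit 0) (nat_lit 7601337292) (nat_lit 1824) (nat_lit 3411798151) (nat_lit 76) (nat_lit 230317973) (nat_lit 373) (nat_lit 5) (nat_lit 397) (nat_lit 5) (nat_lit 374) (nat_lit 5) (nat_lit 443) (nat_lit 414) (nat_lit 283)) (XT.lf (nat_lit 0) (nat_lit 2510481444) (nat_lit 988) (nat_lit 6659399148) (nat_lit 1064) (nat_lit 2187690891) (nat_lit 360) (nat_lit 5) (nat_lit 373) (nat_lit 5) (nat_lit 374) (nat_lit 5) (nat_lit 444) (nat_lit 414) (nat_lit 282))) (XT.nd (nat_lit 78) (nat_lit 988) (nat_lit 0) (XT.lf (nat_lit 0) (nat_lit 8583736753) (nat_lit 988) (nat_lit 2193771540) (nat_lit 1064) (nat_lit 696316924) (nat_lit 360) (nat_lit 5) (nat_lit 373) (nat_lit 5) (nat_lit 374) (nat_lit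 5) (nat_lit 445) (nat_lit 414) (nat_lit 281)) (XT.nd (nat_lit 78) (nat_lit 0) (nat_lit 0) (XT.lf (nat_lit 0) (nat_lit 835424557) (nat_lit 988) (nat_lit 8398569106) (nat_lit 76) (nat_lit 2357883359) (nat_lit 347) (nat_lit 5) (nat_lit 360) (nat_lit 5) (nat_lit 348) (nat_lit 5) (nat_lit 446) (nat_lit 414) (nat_lit 280)) (XT.lf (nat_lit 0) (nat_lit 2407760740) (nat_lit 988) (nat_lit 2307498045) (nat_lit 76) (nat_lit 6996560492) (nat_lit 347) (nat_lit 5) (nat_lit 360) (nat_lit 5) (nat_lit 348) (nat_lit 5) (nat_lit 447) (nat_lit 414) (nat_lit 279))))) (XT.nd (nat_lit 234) (nat_lit 836) (nat_lit 0) (XT.nd (nat_lit 78) (nat_lit 836) (nat_lit 0) (XT.lf (nat_lit 0) (nat_lit 3943510261) (nat_lit 836) (nat_lit 79151094) (nat_lit 912) (nat_lit 7811283668) (nat_lit 336) (nat_lit 5) (nat_lit 347) (nat_lit 5) (nat_lit 348) (nat_lit 5) (nat_lit 448) (nat_lit 414) (nat_lit 278)) (XT.nd (nat_lit 78) (nat_lit 836) (nat_lit 0) (XT.lf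 (nat_lit 0) (nat_lit 5701351009) (nat_lit 912) (nat_lit 1651489675) (nat_lit 76) (nat_lit 4605049640) (nat_lit 336) (nat_lit 5) (nat_lit 348) (nat_lit 5) (nat_lit 337) (nat_lit 5) (nat_lit 449) (nat_lit 414) (nat_lit 277)) (XT.lf (nat_lit 0) (nat_lit 4760604937) (nat_lit 836) (nat_lit 2670437954) (nat_lit 912) (nat_lit 4652929799) (nat_lit 325) (nat_lit 5) (nat_lit 336) (nat_lit 5) (nat_lit 337) (nat_lit 5) (nat_lit 450) (nat_lit 414) (nat_lit 276)))) (XT.nd (nat_lit 78) (nat_lit 836) (nat_lit 0) (XT.lf (nat_lit 0) (nat_lit 9206340286) (nat_lit 912) (nat_lit 916509279) (nat_lit 76) (nat_lit 2089513498) (nat_lit 325) (nat_lit 5) (nat_lit 337) (nat_lit 5) (nat_lit 326) (nat_lit 5) (nat_lit 451) (nat_lit 414) (nat_lit 275)) (XT.nd (nat_lit 78) (nat_lit 76) (nat_lit 0) (XT.lf (nat_lit 0) (nat_lit 5661585810) (nat_lit 760) (nat_lit 5396457375) (nat_lit 836) (nat_lit 1284466534) (nat_lit 315) (nat_lit 5) (nat_lit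 325) (nat_lit 5) (nat_lit 326) (nat_lit 5) (nat_lit 452) (nat_lit 414) (nat_lit 274)) (XT.lf (nat_lit 0) (nat_lit 458067445) (nat_lit 836) (nat_lit 108136872) (nat_lit 76) (nat_lit 11909145365) (nat_lit 314) (nat_lit 5) (nat_lit 325) (nat_lit 5) (nat_lit 315) (nat_lit 5) (nat_lit 453) (nat_lit 414) (nat_lit 273))))))) (XT.nd (nat_lit 780) (nat_lit 3800) (nat_lit 0) (XT.nd (nat_lit 390) (nat_lit 2128) (nat_lit 0) (XT.nd (nat_lit 156) (nat_lit 760) (nat_lit 0) (XT.nd (nat_lit 78) (nat_lit 760) (nat_lit 0) (XT.lf (nat_lit 0) (nat_lit 2276979145) (nat_lit 836) (nat_lit 5977065918) (nat_lit 76) (nat_lit 4355463144) (nat_lit 304) (nat_lit 5) (nat_lit 315) (nat_lit 5) (nat_lit 305) (nat_lit 5) (nat_lit 454) (nat_lit 414) (nat_lit 272)) (XT.lf (nat_lit 0) (nat_lit 755642864) (nat_lit 760) (nat_lit 3372987894) (nat_lit 836) (nat_lit 8617797886) (nat_lit 294) (nat_lit 5) (nat_lit 304) (nat_lit 5) (nat_lit 305) (nat_lit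 5) (nat_lit 455) (nat_lit 414) (nat_lit 271))) (XT.nd (nat_lit 78) (nat_lit 760) (nat_lit 0) (XT.lf (nat_lit 0) (nat_lit 6055255889) (nat_lit 836) (nat_lit 5205596969) (nat_lit 76) (nat_lit 1624481677) (nat_lit 294) (nat_lit 5) (nat_lit 305) (nat_lit 5) (nat_lit 295) (nat_lit 5) (nat_lit 456) (nat_lit 414) (nat_lit 270)) (XT.nd (nat_lit 78) (nat_lit 0) (nat_lit 0) (XT.lf (nat_lit 0) (nat_lit 1701898896) (nat_lit 760) (nat_lit 6339294695) (nat_lit 836) (nat_lit 4985415094) (nat_lit 284) (nat_lit 5) (nat_lit 294) (nat_lit 5) (nat_lit 295) (nat_lit 5) (nat_lit 457) (nat_lit 414) (nat_lit 269)) (XT.lf (nat_lit 0) (nat_lit 8804816178) (nat_lit 760) (nat_lit 1284519616) (nat_lit 836) (nat_lit 3080928438) (nat_lit 284) (nat_lit 5) (nat_lit 294) (nat_lit 5) (nat_lit 295) (nat_lit 5) (nat_lit 458) (nat_lit 414) (nat_lit 268))))) (XT.nd (nat_lit 156) (nat_lit 1368) (nat_lit 0) (XT.nd (nat_lit 78) (nat_lit 76) (nat_lit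 0) (XT.lf (nat_lit 0) (nat_lit 2730397892) (nat_lit 684) (nat_lit 9478698002) (nat_lit 760) (nat_lit 1107089412) (nat_lit 275) (nat_lit 5) (nat_lit 284) (nat_lit 5) (nat_lit 285) (nat_lit 5) (nat_lit 459) (nat_lit 414) (nat_lit 267)) (XT.lf (nat_lit 0) (nat_lit 920196978) (nat_lit 760) (nat_lit 3465042532) (nat_lit 76) (nat_lit 9079155802) (nat_lit 274) (nat_lit 5) (nat_lit 284) (nat_lit 5) (nat_lit 275) (nat_lit 5) (nat_lit 460) (nat_lit 414) (nat_lit 266))) (XT.nd (nat_lit 78) (nat_lit 684) (nat_lit 0) (XT.lf (nat_lit 0) (nat_lit 2991636031) (nat_lit 760) (nat_lit 9792737747) (nat_lit 76) (nat_lit 830685965) (nat_lit 265) (nat_lit 5) (nat_lit 275) (nat_lit 5) (nat_lit 266) (nat_lit 5) (nat_lit 461) (nat_lit 414) (nat_lit 265)) (XT.nd (nat_lit 78) (nat_lit 684) (nat_lit 0) (XT.lf (nat_lit 0) (nat_lit 5145190926) (nat_lit 760) (nat_lit 2508302955) (nat_lit 76) (nat_lit 6114434940) (nat_lit 265) (nat_lit 5) (nat_lit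 275) (nat_lit 5) (nat_lit 266) (nat_lit 5) (nat_lit 462) (nat_lit 414) (nat_lit 264)) (XT.lf (nat_lit 0) (nat_lit 4974077427) (nat_lit 684) (nat_lit 2388504590) (nat_lit 760) (nat_lit 6560862959) (nat_lit 256) (nat_lit 5) (nat_lit 265) (nat_lit 5) (nat_lit 266) (nat_lit 5) (nat_lit 463) (nat_lit 414) (nat_lit 263)))))) (XT.nd (nat_lit 390) (nat_lit 1824) (nat_lit 0) (XT.nd (nat_lit 156) (nat_lit 1292) (nat_lit 0) (XT.nd (nat_lit 78) (nat_lit 684) (nat_lit 0) (XT.lf (nat_lit 0) (nat_lit 9649226830) (nat_lit 760) (nat_lit 1474216394) (nat_lit 76) (nat_lit 2958135012) (nat_lit 256) (nat_lit 5) (nat_lit 266) (nat_lit 5) (nat_lit 257) (nat_lit 5) (nat_lit 464) (nat_lit 414) (nat_lit 262)) (XT.lf (nat_lit 0) (nat_lit 6203115525) (nat_lit 684) (nat_lit 5823407816) (nat_lit 760) (nat_lit 2215457249) (nat_lit 247) (nat_lit 5) (nat_lit 256) (nat_lit 5) (nat_lit 257) (nat_lit 5) (nat_lit 465) (nat_lit 414) (nat_lit 261)))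 (XT.nd (nat_lit 78) (nat_lit 1216) (nat_lit 0) (XT.lf (nat_lit 0) (nat_lit 44017288) (nat_lit 760) (nat_lit 364705436) (nat_lit 76) (nat_lit 13996890084) (nat_lit 246) (nat_lit 5) (nat_lit 256) (nat_lit 5) (nat_lit 247) (nat_lit 5) (nat_lit 466) (nat_lit 414) (nat_lit 260)) (XT.nd (nat_lit 78) (nat_lit 608) (nat_lit 0) (XT.lf (nat_lit 0) (nat_lit 2390679687) (nat_lit 684) (nat_lit 7070676081) (nat_lit 76) (nat_lit 5109440278) (nat_lit 238) (nat_lit 5) (nat_lit 247) (nat_lit 5) (nat_lit 239) (nat_lit 5) (nat_lit 467) (nat_lit 414) (nat_lit 259)) (XT.lf (nat_lit 0) (nat_lit 782695653) (nat_lit 608) (nat_lit 4001054400) (nat_lit 684) (nat_lit 9955547840) (nat_lit 230) (nat_lit 5) (nat_lit 238) (nat_lit 5) (nat_lit 239) (nat_lit 5) (nat_lit 468) (nat_lit 414) (nat_lit 258))))) (XT.nd (nat_lit 234) (nat_lit 1216) (nat_lit 0) (XT.nd (nat_lit 78) (nat_lit 608) (nat_lit 0) (XT.lf (nat_lit 0) (nat_lit 7271965405) (nat_lit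 684) (nat_lit 6044656610) (nat_lit 76) (nat_lit 1593606440) (nat_lit 230) (nat_lit 5) (nat_lit 239) (nat_lit 5) (nat_lit 231) (nat_lit 5) (nat_lit 469) (nat_lit 414) (nat_lit 257)) (XT.nd (nat_lit 78) (nat_lit 0) (nat_lit 0) (XT.lf (nat_lit 0) (nat_lit 2012764108) (nat_lit 608) (nat_lit 7826293223) (nat_lit 684) (nat_lit 5244942321) (nat_lit 222) (nat_lit 5) (nat_lit 230) (nat_lit 5) (nat_lit 231) (nat_lit 5) (nat_lit 470) (nat_lit 414) (nat_lit 256)) (XT.lf (nat_lit 0) (nat_lit 10300688935) (nat_lit 608) (nat_lit 2187035281) (nat_lit 684) (nat_lit 2772921575) (nat_lit 222) (nat_lit 5) (nat_lit 230) (nat_lit 5) (nat_lit 231) (nat_lit 5) (nat_lit 471) (nat_lit 414) (nat_lit 255)))) (XT.nd (nat_lit 78) (nat_lit 608) (nat_lit 0) (XT.lf (nat_lit 0) (nat_lit 3321435392) (nat_lit 608) (nat_lit 11902498908) (nat_lit 684) (nat_lit 216203255) (nat_lit 214) (nat_lit 5) (nat_lit 222) (nat_lit 5) (nat_lit 223) (nat_lit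 5) (nat_lit 472) (nat_lit 414) (nat_lit 254)) (XT.nd (nat_lit 78) (nat_lit 532) (nat_lit 0) (XT.lf (nat_lit 0) (nat_lit 2398176751) (nat_lit 684) (nat_lit 3829679254) (nat_lit 76) (nat_lit 9394298644) (nat_lit 213) (nat_lit 5) (nat_lit 222) (nat_lit 5) (nat_lit 214) (nat_lit 5) (nat_lit 473) (nat_lit 414) (nat_lit 253)) (XT.lf (nat_lit 0) (nat_lit 4672639013) (nat_lit 532) (nat_lit 409755092) (nat_lit 608) (nat_lit 10724984367) (nat_lit 206) (nat_lit 5) (nat_lit 213) (nat_lit 5) (nat_lit 214) (nat_lit 5) (nat_lit 474) (nat_lit 414) (nat_lit 252))))))))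
noncomputable def xc184 : XT := (XT.nd (nat_lit 1560) (nat_lit 1292) (nat_lit 0) (XT.nd (nat_lit 780) (nat_lit 2736) (nat_lit 0) (XT.nd (nat_lit 390) (nat_lit 1596) (nat_lit 0) (XT.nd (nat_lit 156) (nat_lit 608) (nat_lit 0) (XT.nd (nat_lit 78) (nat_lit 532) (nat_lit 0) (XT.lf (nat_lit 0) (nat_lit 7872237775) (nat_lit 608) (nat_lit 2647355087) (nat_lit 76) (nat_lit 5475678859) (nat_lit 206) (nat_lit 5) (nat_lit 214) (nat_lit 5) (nat_lit 207) (nat_lit 5) (nat_lit 475) (nat_lit 414) (nat_lit 251)) (XT.lf (nat_lit 0) (nat_lit 6074537909) (nat_lit 532) (nat_lit 4675888598) (nat_lit 608) (nat_lit 5435849077) (nat_lit 199) (nat_lit 5) (nat_lit 206) (nat_lit 5) (nat_lit 207) (nat_lit 5) (nat_lit 476) (nat_lit 414) (nat_lit 250))) (XT.nd (nat_lit 78) (nat_lit 608) (nat_lit 0) (XT.lf (nat_lit 0) (nat_lit 13702890208) (nat_lit 608) (nat_lit 1394739010) (nat_lit 76) (nat_lit 1283139722) (nat_lit 199) (nat_lit 5) (nat_lit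 207) (nat_lit 5) (nat_lit 200) (nat_lit 5) (nat_lit 477) (nat_lit 414) (nat_lit 249)) (XT.nd (nat_lit 78) (nat_lit 0) (nat_lit 0) (XT.lf (nat_lit 0) (nat_lit 204618460) (nat_lit 608) (nat_lit 9026450141) (nat_lit 76) (nat_lit 7346646675) (nat_lit 191) (nat_lit 5) (nat_lit 199) (nat_lit 5) (nat_lit 192) (nat_lit 5) (nat_lit 478) (nat_lit 414) (nat_lit 248)) (XT.lf (nat_lit 0) (nat_lit 3109078225) (nat_lit 608) (nat_lit 113211220) (nat_lit 76) (nat_lit 13555957119) (nat_lit 191) (nat_lit 5) (nat_lit 199) (nat_lit 5) (nat_lit 192) (nat_lit 5) (nat_lit 479) (nat_lit 414) (nat_lit 247))))) (XT.nd (nat_lit 156) (nat_lit 608) (nat_lit 0) (XT.nd (nat_lit 78) (nat_lit 456) (nat_lit 0) (XT.lf (nat_lit 0) (nat_lit 6140758196) (nat_lit 608) (nat_lit 7915447046) (nat_lit 76) (nat_lit 2925203980) (nat_lit 184) (nat_lit 5) (nat_lit 192) (nat_lit 5) (nat_lit 185) (nat_lit 5) (nat_lit 480) (nat_lit 414) (nat_lit 246)) (XT.lf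 (nat_lit 0) (nat_lit 1224400178) (nat_lit 456) (nat_lit 8029706121) (nat_lit 532) (nat_lit 7934111442) (nat_lit 178) (nat_lit 5) (nat_lit 184) (nat_lit 5) (nat_lit 185) (nat_lit 5) (nat_lit 481) (nat_lit 414) (nat_lit 245))) (XT.nd (nat_lit 78) (nat_lit 608) (nat_lit 0) (XT.lf (nat_lit 0) (nat_lit 10642471851) (nat_lit 456) (nat_lit 1831446634) (nat_lit 532) (nat_lit 4924363236) (nat_lit 178) (nat_lit 5) (nat_lit 184) (nat_lit 5) (nat_lit 185) (nat_lit 5) (nat_lit 482) (nat_lit 414) (nat_lit 244)) (XT.nd (nat_lit 78) (nat_lit 76) (nat_lit 0) (XT.lf (nat_lit 0) (nat_lit 2629897398) (nat_lit 532) (nat_lit 13165698095) (nat_lit 608) (nat_lit 1816205284) (nat_lit 171) (nat_lit 5) (nat_lit 178) (nat_lit 5) (nat_lit 179) (nat_lit 5) (nat_lit 483) (nat_lit 414) (nat_lit 243)) (XT.lf (nat_lit 0) (nat_lit 1385392130) (nat_lit 608) (nat_lit 5566845244) (nat_lit 76) (nat_lit 10876199336) (nat_lit 170) (nat_lit 5) (nat_lit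 178) (nat_lit 5) (nat_lit 171) (nat_lit 5) (nat_lit 484) (nat_lit 414) (nat_lit 242)))))) (XT.nd (nat_lit 390) (nat_lit 1368) (nat_lit 0) (XT.nd (nat_lit 156) (nat_lit 912) (nat_lit 0) (XT.nd (nat_lit 78) (nat_lit 0) (nat_lit 0) (XT.lf (nat_lit 0) (nat_lit 4066210892) (nat_lit 456) (nat_lit 578357745) (nat_lit 532) (nat_lit 13404242286) (nat_lit 164) (nat_lit 5) (nat_lit 170) (nat_lit 5) (nat_lit 171) (nat_lit 5) (nat_lit 485) (nat_lit 414) (nat_lit 241)) (XT.lf (nat_lit 0) (nat_lit 8036504481) (nat_lit 532) (nat_lit 4355841097) (nat_lit 76) (nat_lit 5879898455) (nat_lit 164) (nat_lit 5) (nat_lit 171) (nat_lit 5) (nat_lit 165) (nat_lit 5) (nat_lit 486) (nat_lit 414) (nat_lit 240))) (XT.nd (nat_lit 78) (nat_lit 456) (nat_lit 0) (XT.lf (nat_lit 0) (nat_lit 5520574816) (nat_lit 456) (nat_lit 6007059905) (nat_lit 532) (nat_lit 6971886841) (nat_lit 158) (nat_lit 5) (nat_lit 164) (nat_lit 5) (nat_lit 165) (nat_lit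 5) (nat_lit 487) (nat_lit 414) (nat_lit 239)) (XT.nd (nat_lit 78) (nat_lit 456) (nat_lit 0) (XT.lf (nat_lit 0) (nat_lit 15113047032) (nat_lit 532) (nat_lit 3092197799) (nat_lit 76) (nat_lit 525613436) (nat_lit 158) (nat_lit 5) (nat_lit 165) (nat_lit 5) (nat_lit 159) (nat_lit 5) (nat_lit 488) (nat_lit 414) (nat_lit 238)) (XT.lf (nat_lit 0) (nat_lit 7033452246) (nat_lit 456) (nat_lit 11814075837) (nat_lit 532) (nat_lit 117749173) (nat_lit 152) (nat_lit 5) (nat_lit 158) (nat_lit 5) (nat_lit 159) (nat_lit 5) (nat_lit 489) (nat_lit 414) (nat_lit 237))))) (XT.nd (nat_lit 156) (nat_lit 836) (nat_lit 0) (XT.nd (nat_lit 78) (nat_lit 456) (nat_lit 0) (XT.lf (nat_lit 0) (nat_lit 3419866955) (nat_lit 532) (nat_lit 1834323326) (nat_lit 76) (nat_lit 13949492090) (nat_lit 151) (nat_lit 5) (nat_lit 158) (nat_lit 5) (nat_lit 152) (nat_lit 5) (nat_lit 490) (nat_lit 414) (nat_lit 236)) (XT.lf (nat_lit 0) (nat_lit 7084056343) (nat_lit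 532) (nat_lit 10889992722) (nat_lit 76) (nat_lit 1471645606) (nat_lit 145) (nat_lit 5) (nat_lit 152) (nat_lit 5) (nat_lit 146) (nat_lit 5) (nat_lit 491) (nat_lit 414) (nat_lit 235))) (XT.nd (nat_lit 78) (nat_lit 836) (nat_lit 0) (XT.lf (nat_lit 0) (nat_lit 10860879419) (nat_lit 532) (nat_lit 559961125) (nat_lit 76) (nat_lit 8270922223) (nat_lit 145) (nat_lit 5) (nat_lit 152) (nat_lit 5) (nat_lit 146) (nat_lit 5) (nat_lit 492) (nat_lit 414) (nat_lit 234)) (XT.nd (nat_lit 78) (nat_lit 456) (nat_lit 0) (XT.lf (nat_lit 0) (nat_lit 10098154253) (nat_lit 380) (nat_lit 4672965429) (nat_lit 456) (nat_lit 5170477428) (nat_lit 140) (nat_lit 5) (nat_lit 145) (nat_lit 5) (nat_lit 146) (nat_lit 5) (nat_lit 493) (nat_lit 414) (nat_lit 233)) (XT.lf (nat_lit 0) (nat_lit 765316734) (nat_lit 456) (nat_lit 18009722899) (nat_lit 532) (nat_lit 1421081461) (nat_lit 134) (nat_lit 5) (nat_lit 140) (nat_lit 5) (nat_lit 141) (nat_lit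 5) (nat_lit 494) (nat_lit 414) (nat_lit 232))))))) (XT.nd (nat_lit 53430) (nat_lit 0) (nat_lit 24244) (XT.nd (nat_lit 390) (nat_lit 456) (nat_lit 0) (XT.nd (nat_lit 156) (nat_lit 380) (nat_lit 0) (XT.nd (nat_lit 78) (nat_lit 380) (nat_lit 0) (XT.lf (nat_lit 0) (nat_lit 2461623193) (nat_lit 532) (nat_lit 8792768507) (nat_lit 76) (nat_lit 9199237324) (nat_lit 133) (nat_lit 5) (nat_lit 140) (nat_lit 5) (nat_lit 134) (nat_lit 5) (nat_lit 495) (nat_lit 414) (nat_lit 231)) (XT.lf (nat_lit 0) (nat_lit 2064866703) (nat_lit 380) (nat_lit 4344061807) (nat_lit 456) (nat_lit 14307053548) (nat_lit 128) (nat_lit 5) (nat_lit 133) (nat_lit 5) (nat_lit 134) (nat_lit 5) (nat_lit 496) (nat_lit 414) (nat_lit 230))) (XT.nd (nat_lit 78) (nat_lit 380) (nat_lit 0) (XT.lf (nat_lit 0) (nat_lit 10504738833) (nat_lit 456) (nat_lit 7752396962) (nat_lit 76) (nat_lit 2725057444) (nat_lit 128) (nat_lit 5) (nat_lit 134) (nat_lit 5) (nat_lit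 129) (nat_lit 5) (nat_lit 497) (nat_lit 414) (nat_lit 229)) (XT.nd (nat_lit 78) (nat_lit 0) (nat_lit 0) (XT.lf (nat_lit 0) (nat_lit 3369038406) (nat_lit 380) (nat_lit 11356819407) (nat_lit 456) (nat_lit 6527005200) (nat_lit 123) (nat_lit 5) (nat_lit 128) (nat_lit 5) (nat_lit 129) (nat_lit 5) (nat_lit 498) (nat_lit 414) (nat_lit 228)) (XT.lf (nat_lit 0) (nat_lit 14807384175) (nat_lit 380) (nat_lit 4268860774) (nat_lit 456) (nat_lit 2451806494) (nat_lit 123) (nat_lit 5) (nat_lit 128) (nat_lit 5) (nat_lit 129) (nat_lit 5) (nat_lit 499) (nat_lit 414) (nat_lit 227))))) (XT.nd (nat_lit 52806) (nat_lit 0) (nat_lit 26980) (XT.nd (nat_lit 52728) (nat_lit 0) (nat_lit 26980) (XT.lf (nat_lit 0) (nat_lit 1725482562) (nat_lit 456) (nat_lit 17121621994) (nat_lit 76) (nat_lit 2960560864) (nat_lit 117) (nat_lit 5) (nat_lit 123) (nat_lit 5) (nat_lit 118) (nat_lit 5) (nat_lit 500) (nat_lit 414) (nat_lit 226)) (XT.lf (nat_lit 0)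 (nat_lit 1093549674) (nat_lit 0) (nat_lit 1093549674) (nat_lit 1444) (nat_lit 2217822108) (nat_lit 472) (nat_lit 5) (nat_lit 472) (nat_lit 3) (nat_lit 491) (nat_lit 3) (nat_lit 415) (nat_lit 415) (nat_lit 310))) (XT.nd (nat_lit 78) (nat_lit 0) (nat_lit 0) (XT.lf (nat_lit 0) (nat_lit 5348551455) (nat_lit 1444) (nat_lit 2473204362) (nat_lit 1520) (nat_lit 1057050167) (nat_lit 472) (nat_lit 5) (nat_lit 491) (nat_lit 3) (nat_lit 492) (nat_lit 5) (nat_lit 416) (nat_lit 415) (nat_lit 309)) (XT.nd (nat_lit 78) (nat_lit 0) (nat_lit 0) (XT.lf (nat_lit 76) (nat_lit 1755170041) (nat_lit 0) (nat_lit 4588951866) (nat_lit 1520) (nat_lit 2605005520) (nat_lit 473) (nat_lit 5) (nat_lit 472) (nat_lit 5) (nat_lit 492) (nat_lit 5) (nat_lit 417) (nat_lit 415) (nat_lit 308)) (XT.lf (nat_lit 76) (nat_lit 6089029509) (nat_lit 0) (nat_lit 1263413230) (nat_lit 1520) (nat_lit 1668569233) (nat_lit 473) (nat_lit 5) (nat_lit 472) (nat_lit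 5) (nat_lit 492) (nat_lit 5) (nat_lit 418) (nat_lit 415) (nat_lit 307)))))) (XT.nd (nat_lit 390) (nat_lit 1292) (nat_lit 0) (XT.nd (nat_lit 156) (nat_lit 0) (nat_lit 0) (XT.nd (nat_lit 78) (nat_lit 1520) (nat_lit 0) (XT.lf (nat_lit 76) (nat_lit 1406953736) (nat_lit 0) (nat_lit 6973710923) (nat_lit 1520) (nat_lit 713688045) (nat_lit 474) (nat_lit 5) (nat_lit 473) (nat_lit 5) (nat_lit 493) (nat_lit 5) (nat_lit 419) (nat_lit 415) (nat_lit 306)) (XT.lf (nat_lit 0) (nat_lit 262036663) (nat_lit 1520) (nat_lit 3319685272) (nat_lit 1596) (nat_lit 5587314001) (nat_lit 453) (nat_lit 5) (nat_lit 473) (nat_lit 5) (nat_lit 474) (nat_lit 5) (nat_lit 420) (nat_lit 415) (nat_lit 305))) (XT.nd (nat_lit 78) (nat_lit 0) (nat_lit 76) (XT.lf (nat_lit 76) (nat_lit 1132624862) (nat_lit 0) (nat_lit 99895875) (nat_lit 1596) (nat_lit 8012914151) (nat_lit 454) (nat_lit 5) (nat_lit 453) (nat_lit 5) (nat_lit 474) (nat_lit 5) (nat_lit 421)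 (nat_lit 415) (nat_lit 304)) (XT.nd (nat_lit 78) (nat_lit 0) (nat_lit 0) (XT.lf (nat_lit 0) (nat_lit 2245107493) (nat_lit 1520) (nat_lit 3639811760) (nat_lit 1596) (nat_lit 3438000891) (nat_lit 454) (nat_lit 5) (nat_lit 474) (nat_lit 5) (nat_lit 475) (nat_lit 5) (nat_lit 422) (nat_lit 415) (nat_lit 303)) (XT.lf (nat_lit 76) (nat_lit 921006729) (nat_lit 0) (nat_lit 2341873519) (nat_lit 1596) (nat_lit 6139388117) (nat_lit 455) (nat_lit 5) (nat_lit 454) (nat_lit 5) (nat_lit 475) (nat_lit 5) (nat_lit 423) (nat_lit 415) (nat_lit 302))))) (XT.nd (nat_lit 234) (nat_lit 1444) (nat_lit 0) (XT.nd (nat_lit 78) (nat_lit 0) (nat_lit 0) (XT.lf (nat_lit 0) (nat_lit 4312542979) (nat_lit 1520) (nat_lit 3882220464) (nat_lit 1596) (nat_lit 1288221130) (nat_lit 455) (nat_lit 5) (nat_lit 475) (nat_lit 5) (nat_lit 476) (nat_lit 5) (nat_lit 424) (nat_lit 415) (nat_lit 301)) (XT.nd (nat_lit 78) (nat_lit 0) (nat_lit 0) (XT.lf (nat_lit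 76) (nat_lit 790458488) (nat_lit 0) (nat_lit 4592488445) (nat_lit 1596) (nat_lit 4182384694) (nat_lit 456) (nat_lit 5) (nat_lit 455) (nat_lit 5) (nat_lit 476) (nat_lit 5) (nat_lit 425) (nat_lit 415) (nat_lit 300)) (XT.lf (nat_lit 76) (nat_lit 5596101438) (nat_lit 0) (nat_lit 884140494) (nat_lit 1596) (nat_lit 3168985289) (nat_lit 456) (nat_lit 5) (nat_lit 455) (nat_lit 5) (nat_lit 476) (nat_lit 5) (nat_lit 426) (nat_lit 415) (nat_lit 299)))) (XT.nd (nat_lit 78) (nat_lit 1520) (nat_lit 0) (XT.lf (nat_lit 76) (nat_lit 740633125) (nat_lit 0) (nat_lit 6862358538) (nat_lit 1596) (nat_lit 2131749922) (nat_lit 457) (nat_lit 5) (nat_lit 456) (nat_lit 5) (nat_lit 477) (nat_lit 5) (nat_lit 427) (nat_lit 415) (nat_lit 298)) (XT.nd (nat_lit 78) (nat_lit 1520) (nat_lit 0) (XT.lf (nat_lit 76) (nat_lit 5666044213) (nat_lit 0) (nat_lit 3095358044) (nat_lit 1596) (nat_lit 1060310682) (nat_lit 457) (nat_lit 5) (nat_lit 456) (nat_lit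 5) (nat_lit 477) (nat_lit 5) (nat_lit 428) (nat_lit 415) (nat_lit 297)) (XT.lf (nat_lit 0) (nat_lit 22535976) (nat_lit 1596) (nat_lit 9139378745) (nat_lit 1672) (nat_lit 748707059) (nat_lit 436) (nat_lit 5) (nat_lit 457) (nat_lit 5) (nat_lit 458) (nat_lit 5) (nat_lit 429) (nat_lit 415) (nat_lit 296))))))))
noncomputable def xc185 : XT := (XT.nd (nat_lit 1638) (nat_lit 8664) (nat_lit 0) (XT.nd (nat_lit 780) (nat_lit 6156) (nat_lit 0) (XT.nd (nat_lit 390) (nat_lit 1444) (nat_lit 0) (XT.nd (nat_lit 156) (nat_lit 0) (nat_lit 76) (XT.nd (nat_lit 78) (nat_lit 0) (nat_lit 0) (XT.lf (nat_lit 0) (nat_lit 1142203401) (nat_lit 1596) (nat_lit 4189022527) (nat_lit 1672) (nat_lit 4669365665) (nat_lit 436) (nat_lit 5) (nat_lit 457) (nat_lit 5) (nat_lit 458) (nat_lit 5) (nat_lit 430) (nat_lit 415) (nat_lit 295)) (XT.lf (nat_lit 76) (nat_lit 858273683) (nat_lit 0) (nat_lit 1412717537) (nat_lit 1672) (nat_lit 7821645037) (nat_lit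 437) (nat_lit 5) (nat_lit 436) (nat_lit 5) (nat_lit 458) (nat_lit 5) (nat_lit 431) (nat_lit 415) (nat_lit 294))) (XT.nd (nat_lit 78) (nat_lit 0) (nat_lit 0) (XT.lf (nat_lit 0) (nat_lit 3448902319) (nat_lit 1596) (nat_lit 4153276237) (nat_lit 1672) (nat_lit 2583822107) (nat_lit 437) (nat_lit 5) (nat_lit 458) (nat_lit 5) (nat_lit 459) (nat_lit 5) (nat_lit 432) (nat_lit 415) (nat_lit 293)) (XT.nd (nat_lit 78) (nat_lit 0) (nat_lit 76) (XT.lf (nat_lit 76) (nat_lit 1020070660) (nat_lit 0) (nat_lit 3628115706) (nat_lit 1672) (nat_lit 5633099305) (nat_lit 438) (nat_lit 5) (nat_lit 437) (nat_lit 5) (nat_lit 459) (nat_lit 5) (nat_lit 433) (nat_lit 415) (nat_lit 292)) (XT.lf (nat_lit 0) (nat_lit 5884409196) (nat_lit 1596) (nat_lit 4041375391) (nat_lit 1672) (nat_lit 452442149) (nat_lit 438) (nat_lit 5) (nat_lit 459) (nat_lit 5) (nat_lit 460) (nat_lit 5) (nat_lit 434) (nat_lit 415) (nat_lit 291))))) (XT.nd (nat_lit 156)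 (nat_lit 1596) (nat_lit 0) (XT.nd (nat_lit 78) (nat_lit 0) (nat_lit 0) (XT.lf (nat_lit 76) (nat_lit 1261960151) (nat_lit 0) (nat_lit 5898103043) (nat_lit 1672) (nat_lit 3316758529) (nat_lit 439) (nat_lit 5) (nat_lit 438) (nat_lit 5) (nat_lit 460) (nat_lit 5) (nat_lit 435) (nat_lit 415) (nat_lit 290)) (XT.lf (nat_lit 76) (nat_lit 6712808184) (nat_lit 0) (nat_lit 1758284645) (nat_lit 1672) (nat_lit 2106107583) (nat_lit 439) (nat_lit 5) (nat_lit 438) (nat_lit 5) (nat_lit 460) (nat_lit 5) (nat_lit 436) (nat_lit 415) (nat_lit 289))) (XT.nd (nat_lit 78) (nat_lit 1672) (nat_lit 0) (XT.lf (nat_lit 76) (nat_lit 1584419534) (nat_lit 0) (nat_lit 8233316826) (nat_lit 1672) (nat_lit 861671325) (nat_lit 440) (nat_lit 5) (nat_lit 439) (nat_lit 5) (nat_lit 461) (nat_lit 5) (nat_lit 437) (nat_lit 415) (nat_lit 288)) (XT.nd (nat_lit 78) (nat_lit 0) (nat_lit 76) (XT.lf (nat_lit 0) (nat_lit 423287124) (nat_lit 1672) (nat_lit 3616602591)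 (nat_lit 1748) (nat_lit 6743305386) (nat_lit 417) (nat_lit 5) (nat_lit 439) (nat_lit 5) (nat_lit 440) (nat_lit 5) (nat_lit 438) (nat_lit 415) (nat_lit 287)) (XT.lf (nat_lit 0) (nat_lit 1720507043) (nat_lit 1672) (nat_lit 8912442609) (nat_lit 76) (nat_lit 256041064) (nat_lit 418) (nat_lit 5) (nat_lit 440) (nat_lit 5) (nat_lit 419) (nat_lit 5) (nat_lit 439) (nat_lit 415) (nat_lit 286)))))) (XT.nd (nat_lit 390) (nat_lit 2812) (nat_lit 0) (XT.nd (nat_lit 156) (nat_lit 1748) (nat_lit 0) (XT.nd (nat_lit 78) (nat_lit 1672) (nat_lit 0) (XT.lf (nat_lit 0) (nat_lit 3078671895) (nat_lit 1672) (nat_lit 3306333157) (nat_lit 76) (nat_lit 4611205379) (nat_lit 418) (nat_lit 5) (nat_lit 440) (nat_lit 5) (nat_lit 419) (nat_lit 5) (nat_lit 440) (nat_lit 415) (nat_lit 285)) (XT.lf (nat_lit 0) (nat_lit 2430453573) (nat_lit 1672) (nat_lit 2033460185) (nat_lit 1748) (nat_lit 6641670549) (nat_lit 396) (nat_lit 5) (nat_lit 418) (nat_lit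 5) (nat_lit 419) (nat_lit 5) (nat_lit 441) (nat_lit 415) (nat_lit 284))) (XT.nd (nat_lit 78) (nat_lit 1748) (nat_lit 0) (XT.lf (nat_lit 0) (nat_lit 5899184655) (nat_lit 1748) (nat_lit 2919239651) (nat_lit 76) (nat_lit 2398282751) (nat_lit 396) (nat_lit 5) (nat_lit 419) (nat_lit 5) (nat_lit 397) (nat_lit 5) (nat_lit 442) (nat_lit 415) (nat_lit 283)) (XT.nd (nat_lit 78) (nat_lit 0) (nat_lit 0) (XT.lf (nat_lit 0) (nat_lit 2963870946) (nat_lit 1748) (nat_lit 4416680865) (nat_lit 1824) (nat_lit 3949160361) (nat_lit 373) (nat_lit 5) (nat_lit 396) (nat_lit 5) (nat_lit 397) (nat_lit 5) (nat_lit 443) (nat_lit 415) (nat_lit 282)) (XT.lf (nat_lit 0) (nat_lit 8896647914) (nat_lit 1824) (nat_lit 2454512901) (nat_lit 76) (nat_lit 93722120) (nat_lit 373) (nat_lit 5) (nat_lit 397) (nat_lit 5) (nat_lit 374) (nat_lit 5) (nat_lit 444) (nat_lit 415) (nat_lit 281))))) (XT.nd (nat_lit 234) (nat_lit 836) (nat_lit 0) (XT.nd (nat_lit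 78) (nat_lit 988) (nat_lit 0) (XT.lf (nat_lit 0) (nat_lit 3579465436) (nat_lit 988) (nat_lit 6901293872) (nat_lit 1064) (nat_lit 1080851363) (nat_lit 360) (nat_lit 5) (nat_lit 373) (nat_lit 5) (nat_lit 374) (nat_lit 5) (nat_lit 445) (nat_lit 415) (nat_lit 280)) (XT.nd (nat_lit 78) (nat_lit 912) (nat_lit 0) (XT.lf (nat_lit 0) (nat_lit 412310045) (nat_lit 1064) (nat_lit 1929145344) (nat_lit 76) (nat_lit 9339133021) (nat_lit 359) (nat_lit 5) (nat_lit 373) (nat_lit 5) (nat_lit 360) (nat_lit 5) (nat_lit 446) (nat_lit 415) (nat_lit 279)) (XT.lf (nat_lit 0) (nat_lit 1949496775) (nat_lit 988) (nat_lit 7536002187) (nat_lit 76) (nat_lit 2315738157) (nat_lit 347) (nat_lit 5) (nat_lit 360) (nat_lit 5) (nat_lit 348) (nat_lit 5) (nat_lit 447) (nat_lit 415) (nat_lit 278)))) (XT.nd (nat_lit 78) (nat_lit 836) (nat_lit 0) (XT.lf (nat_lit 0) (nat_lit 3531762747) (nat_lit 988) (nat_lit 1343316338) (nat_lit 76) (nat_lit 7048939869)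 (nat_lit 347) (nat_lit 5) (nat_lit 360) (nat_lit 5) (nat_lit 348) (nat_lit 5) (nat_lit 448) (nat_lit 415) (nat_lit 277)) (XT.nd (nat_lit 78) (nat_lit 0) (nat_lit 0) (XT.lf (nat_lit 0) (nat_lit 5026065216) (nat_lit 836) (nat_lit 138317710) (nat_lit 912) (nat_lit 6884506049) (nat_lit 336) (nat_lit 5) (nat_lit 347) (nat_lit 5) (nat_lit 348) (nat_lit 5) (nat_lit 449) (nat_lit 415) (nat_lit 276)) (XT.lf (nat_lit 0) (nat_lit 6855470650) (nat_lit 912) (nat_lit 678839499) (nat_lit 76) (nat_lit 4641436539) (nat_lit 336) (nat_lit 5) (nat_lit 348) (nat_lit 5) (nat_lit 337) (nat_lit 5) (nat_lit 450) (nat_lit 415) (nat_lit 275))))))) (XT.nd (nat_lit 780) (nat_lit 4028) (nat_lit 0) (XT.nd (nat_lit 390) (nat_lit 2204) (nat_lit 0) (XT.nd (nat_lit 156) (nat_lit 836) (nat_lit 0) (XT.nd (nat_lit 78) (nat_lit 760) (nat_lit 0) (XT.lf (nat_lit 0) (nat_lit 5854880690) (nat_lit 836) (nat_lit 2750968289) (nat_lit 912) (nat_lit 3698789665)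 (nat_lit 325) (nat_lit 5) (nat_lit 336) (nat_lit 5) (nat_lit 337) (nat_lit 5) (nat_lit 451) (nat_lit 415) (nat_lit 274)) (XT.lf (nat_lit 0) (nat_lit 66278062) (nat_lit 760) (nat_lit 10330510664) (nat_lit 836) (nat_lit 2039214976) (nat_lit 315) (nat_lit 5) (nat_lit 325) (nat_lit 5) (nat_lit 326) (nat_lit 5) (nat_lit 452) (nat_lit 415) (nat_lit 273))) (XT.nd (nat_lit 78) (nat_lit 836) (nat_lit 0) (XT.lf (nat_lit 0) (nat_lit 6768485224) (nat_lit 760) (nat_lit 5503338329) (nat_lit 836) (nat_lit 297213195) (nat_lit 315) (nat_lit 5) (nat_lit 325) (nat_lit 5) (nat_lit 326) (nat_lit 5) (nat_lit 453) (nat_lit 415) (nat_lit 272)) (XT.nd (nat_lit 78) (nat_lit 0) (nat_lit 0) (XT.lf (nat_lit 0) (nat_lit 889021009) (nat_lit 760) (nat_lit 564036510) (nat_lit 836) (nat_lit 11251630087) (nat_lit 304) (nat_lit 5) (nat_lit 314) (nat_lit 5) (nat_lit 315) (nat_lit 5) (nat_lit 454) (nat_lit 415) (nat_lit 271)) (XT.lf (nat_lit 0)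 (nat_lit 3289819498) (nat_lit 836) (nat_lit 5095746823) (nat_lit 76) (nat_lit 4456342413) (nat_lit 304) (nat_lit 5) (nat_lit 315) (nat_lit 5) (nat_lit 305) (nat_lit 5) (nat_lit 455) (nat_lit 415) (nat_lit 270))))) (XT.nd (nat_lit 156) (nat_lit 1444) (nat_lit 0) (XT.nd (nat_lit 78) (nat_lit 0) (nat_lit 0) (XT.lf (nat_lit 0) (nat_lit 1765031527) (nat_lit 760) (nat_lit 3400961433) (nat_lit 836) (nat_lit 7815833542) (nat_lit 294) (nat_lit 5) (nat_lit 304) (nat_lit 5) (nat_lit 305) (nat_lit 5) (nat_lit 456) (nat_lit 415) (nat_lit 269)) (XT.lf (nat_lit 0) (nat_lit 7112680573) (nat_lit 836) (nat_lit 4316032291) (nat_lit 76) (nat_lit 1695175575) (nat_lit 294) (nat_lit 5) (nat_lit 305) (nat_lit 5) (nat_lit 295) (nat_lit 5) (nat_lit 457) (nat_lit 415) (nat_lit 268))) (XT.nd (nat_lit 78) (nat_lit 684) (nat_lit 0) (XT.lf (nat_lit 0) (nat_lit 2723076145) (nat_lit 760) (nat_lit 6403310840) (nat_lit 836) (nat_lit 4141848449)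 (nat_lit 284) (nat_lit 5) (nat_lit 294) (nat_lit 5) (nat_lit 295) (nat_lit 5) (nat_lit 458) (nat_lit 415) (nat_lit 267)) (XT.nd (nat_lit 78) (nat_lit 684) (nat_lit 0) (XT.lf (nat_lit 0) (nat_lit 9948696101) (nat_lit 760) (nat_lit 1248671038) (nat_lit 836) (nat_lit 2217767647) (nat_lit 284) (nat_lit 5) (nat_lit 294) (nat_lit 5) (nat_lit 295) (nat_lit 5) (nat_lit 459) (nat_lit 415) (nat_lit 266)) (XT.lf (nat_lit 0) (nat_lit 3764438320) (nat_lit 684) (nat_lit 9584065460) (nat_lit 760) (nat_lit 215698910) (nat_lit 275) (nat_lit 5) (nat_lit 284) (nat_lit 5) (nat_lit 285) (nat_lit 5) (nat_lit 460) (nat_lit 415) (nat_lit 265)))))) (XT.nd (nat_lit 390) (nat_lit 2584) (nat_lit 0) (XT.nd (nat_lit 156) (nat_lit 684) (nat_lit 0) (XT.nd (nat_lit 78) (nat_lit 684) (nat_lit 0) (XT.lf (nat_lit 0) (nat_lit 1822474594) (nat_lit 760) (nat_lit 2561983055) (nat_lit 76) (nat_lit 9331161896) (nat_lit 274) (nat_lit 5) (nat_lit 284)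 (nat_lit 5) (nat_lit 275) (nat_lit 5) (nat_lit 461) (nat_lit 415) (nat_lit 264)) (XT.lf (nat_lit 0) (nat_lit 3924888030) (nat_lit 760) (nat_lit 9005399148) (nat_lit 76) (nat_lit 939226748) (nat_lit 265) (nat_lit 5) (nat_lit 275) (nat_lit 5) (nat_lit 266) (nat_lit 5) (nat_lit 462) (nat_lit 415) (nat_lit 263))) (XT.nd (nat_lit 78) (nat_lit 684) (nat_lit 0) (XT.lf (nat_lit 0) (nat_lit 6104388154) (nat_lit 760) (nat_lit 1594553961) (nat_lit 76) (nat_lit 6326848211) (nat_lit 265) (nat_lit 5) (nat_lit 275) (nat_lit 5) (nat_lit 266) (nat_lit 5) (nat_lit 463) (nat_lit 415) (nat_lit 262)) (XT.nd (nat_lit 78) (nat_lit 0) (nat_lit 0) (XT.lf (nat_lit 0) (nat_lit 6031132482) (nat_lit 684) (nat_lit 2324421720) (nat_lit 760) (nat_lit 5829081338) (nat_lit 256) (nat_lit 5) (nat_lit 265) (nat_lit 5) (nat_lit 266) (nat_lit 5) (nat_lit 464) (nat_lit 415) (nat_lit 261)) (XT.lf (nat_lit 0) (nat_lit 10672061140) (nat_lit 760) (nat_lit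 548675606) (nat_lit 76) (nat_lit 3125519271) (nat_lit 256) (nat_lit 5) (nat_lit 266) (nat_lit 5) (nat_lit 257) (nat_lit 5) (nat_lit 465) (nat_lit 415) (nat_lit 260))))) (XT.nd (nat_lit 234) (nat_lit 1216) (nat_lit 0) (XT.nd (nat_lit 78) (nat_lit 684) (nat_lit 0) (XT.lf (nat_lit 0) (nat_lit 7275919891) (nat_lit 684) (nat_lit 5810871988) (nat_lit 760) (nat_lit 1423283768) (nat_lit 247) (nat_lit 5) (nat_lit 256) (nat_lit 5) (nat_lit 257) (nat_lit 5) (nat_lit 466) (nat_lit 415) (nat_lit 259)) (XT.nd (nat_lit 78) (nat_lit 0) (nat_lit 0) (XT.lf (nat_lit 0) (nat_lit 576796231) (nat_lit 608) (nat_lit 281171841) (nat_lit 684) (nat_lit 13819159372) (nat_lit 238) (nat_lit 5) (nat_lit 246) (nat_lit 5) (nat_lit 247) (nat_lit 5) (nat_lit 467) (nat_lit 415) (nat_lit 258)) (XT.lf (nat_lit 0) (nat_lit 3238900371) (nat_lit 684) (nat_lit 6261610588) (nat_lit 76) (nat_lit 5345363248) (nat_lit 238) (nat_lit 5) (nat_lit 247) (nat_lit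 5) (nat_lit 239) (nat_lit 5) (nat_lit 468) (nat_lit 415) (nat_lit 257)))) (XT.nd (nat_lit 78) (nat_lit 608) (nat_lit 0) (XT.lf (nat_lit 0) (nat_lit 1742575429) (nat_lit 608) (nat_lit 3927692999) (nat_lit 684) (nat_lit 9347675401) (nat_lit 230) (nat_lit 5) (nat_lit 238) (nat_lit 5) (nat_lit 239) (nat_lit 5) (nat_lit 469) (nat_lit 415) (nat_lit 256)) (XT.nd (nat_lit 78) (nat_lit 608) (nat_lit 0) (XT.lf (nat_lit 0) (nat_lit 8193717688) (nat_lit 684) (nat_lit 5224990896) (nat_lit 76) (nat_lit 1773881363) (nat_lit 230) (nat_lit 5) (nat_lit 239) (nat_lit 5) (nat_lit 231) (nat_lit 5) (nat_lit 470) (nat_lit 415) (nat_lit 255)) (XT.lf (nat_lit 0) (nat_lit 2987390350) (nat_lit 608) (nat_lit 7815605836) (nat_lit 684) (nat_lit 4567029699) (nat_lit 222) (nat_lit 5) (nat_lit 230) (nat_lit 5) (nat_lit 231) (nat_lit 5) (nat_lit 471) (nat_lit 415) (nat_lit 254))))))))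
noncomputable def xc186 : XT := (XT.nd (nat_lit 1638) (nat_lit 1672) (nat_lit 0) (XT.nd (nat_lit 780) (nat_lit 2964) (nat_lit 0) (XT.nd (nat_lit 390) (nat_lit 1672) (nat_lit 0) (XT.nd (nat_lit 156) (nat_lit 532) (nat_lit 0) (XT.nd (nat_lit 78) (nat_lit 684) (nat_lit 0) (XT.lf (nat_lit 0) (nat_lit 11422752675) (nat_lit 608) (nat_lit 2066841426) (nat_lit 684) (nat_lit 2060917783) (nat_lit 222) (nat_lit 5) (nat_lit 230) (nat_lit 5) (nat_lit 231) (nat_lit 5) (nat_lit 472) (nat_lit 415) (nat_lit 253)) (XT.lf (nat_lit 0) (nat_lit 532001582) (nat_lit 684) (nat_lit 11425177626) (nat_lit 76) (nat_lit 3776504311) (nat_lit 213) (nat_lit 5) (nat_lit 222) (nat_lit 5) (nat_lit 214) (nat_lit 5) (nat_lit 473) (nat_lit 415) (nat_lit 252))) (XT.nd (nat_lit 78) (nat_lit 532) (nat_lit 0) (XT.lf (nat_lit 0) (nat_lit 3181078177) (nat_lit 684) (nat_lit 2990128945) (nat_lit 76) (nat_lit 9748404911) (nat_lit 213) (nat_lit 5) (nat_lit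 222) (nat_lit 5) (nat_lit 214) (nat_lit 5) (nat_lit 474) (nat_lit 415) (nat_lit 251)) (XT.nd (nat_lit 78) (nat_lit 0) (nat_lit 0) (XT.lf (nat_lit 0) (nat_lit 5676208425) (nat_lit 532) (nat_lit 234269987) (nat_lit 608) (nat_lit 10198237576) (nat_lit 206) (nat_lit 5) (nat_lit 213) (nat_lit 5) (nat_lit 214) (nat_lit 5) (nat_lit 475) (nat_lit 415) (nat_lit 250)) (XT.lf (nat_lit 0) (nat_lit 8743044293) (nat_lit 608) (nat_lit 1794680510) (nat_lit 76) (nat_lit 5762909307) (nat_lit 206) (nat_lit 5) (nat_lit 214) (nat_lit 5) (nat_lit 207) (nat_lit 5) (nat_lit 476) (nat_lit 415) (nat_lit 249))))) (XT.nd (nat_lit 156) (nat_lit 1140) (nat_lit 0) (XT.nd (nat_lit 78) (nat_lit 0) (nat_lit 0) (XT.lf (nat_lit 0) (nat_lit 7095692308) (nat_lit 532) (nat_lit 4574958219) (nat_lit 608) (nat_lit 4824975857) (nat_lit 199) (nat_lit 5) (nat_lit 206) (nat_lit 5) (nat_lit 207) (nat_lit 5) (nat_lit 477) (nat_lit 415) (nat_lit 248)) (XT.lf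 (nat_lit 0) (nat_lit 14669573479) (nat_lit 608) (nat_lit 527755491) (nat_lit 76) (nat_lit 1496937740) (nat_lit 199) (nat_lit 5) (nat_lit 207) (nat_lit 5) (nat_lit 200) (nat_lit 5) (nat_lit 478) (nat_lit 415) (nat_lit 247))) (XT.nd (nat_lit 78) (nat_lit 532) (nat_lit 0) (XT.lf (nat_lit 0) (nat_lit 898319025) (nat_lit 608) (nat_lit 8308568866) (nat_lit 76) (nat_lit 7688334721) (nat_lit 191) (nat_lit 5) (nat_lit 199) (nat_lit 5) (nat_lit 192) (nat_lit 5) (nat_lit 479) (nat_lit 415) (nat_lit 246)) (XT.nd (nat_lit 78) (nat_lit 0) (nat_lit 0) (XT.lf (nat_lit 0) (nat_lit 775489631) (nat_lit 532) (nat_lit 3076891618) (nat_lit 608) (nat_lit 13247558008) (nat_lit 184) (nat_lit 5) (nat_lit 191) (nat_lit 5) (nat_lit 192) (nat_lit 5) (nat_lit 480) (nat_lit 415) (nat_lit 245)) (XT.lf (nat_lit 0) (nat_lit 6933424970) (nat_lit 608) (nat_lit 7186481829) (nat_lit 76) (nat_lit 3187488665) (nat_lit 184) (nat_lit 5) (nat_lit 192)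 (nat_lit 5) (nat_lit 185) (nat_lit 5) (nat_lit 481) (nat_lit 415) (nat_lit 244)))))) (XT.nd (nat_lit 390) (nat_lit 1444) (nat_lit 0) (XT.nd (nat_lit 156) (nat_lit 1064) (nat_lit 0) (XT.nd (nat_lit 78) (nat_lit 0) (nat_lit 0) (XT.lf (nat_lit 0) (nat_lit 2130325009) (nat_lit 456) (nat_lit 7971303552) (nat_lit 532) (nat_lit 7416864623) (nat_lit 178) (nat_lit 5) (nat_lit 184) (nat_lit 5) (nat_lit 185) (nat_lit 5) (nat_lit 482) (nat_lit 415) (nat_lit 243)) (XT.lf (nat_lit 0) (nat_lit 11719475040) (nat_lit 456) (nat_lit 1653372928) (nat_lit 532) (nat_lit 4360174963) (nat_lit 178) (nat_lit 5) (nat_lit 184) (nat_lit 5) (nat_lit 185) (nat_lit 5) (nat_lit 483) (nat_lit 415) (nat_lit 242))) (XT.nd (nat_lit 78) (nat_lit 532) (nat_lit 0) (XT.lf (nat_lit 0) (nat_lit 3552716476) (nat_lit 532) (nat_lit 13202524417) (nat_lit 608) (nat_lit 1195690444) (nat_lit 171) (nat_lit 5) (nat_lit 178) (nat_lit 5) (nat_lit 179) (nat_lit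 5) (nat_lit 484) (nat_lit 415) (nat_lit 241)) (XT.nd (nat_lit 78) (nat_lit 456) (nat_lit 0) (XT.lf (nat_lit 0) (nat_lit 2048614075) (nat_lit 608) (nat_lit 4816356707) (nat_lit 76) (nat_lit 11307102557) (nat_lit 170) (nat_lit 5) (nat_lit 178) (nat_lit 5) (nat_lit 171) (nat_lit 5) (nat_lit 485) (nat_lit 415) (nat_lit 240)) (XT.lf (nat_lit 0) (nat_lit 5003690647) (nat_lit 456) (nat_lit 362381134) (nat_lit 532) (nat_lit 13030925651) (nat_lit 164) (nat_lit 5) (nat_lit 170) (nat_lit 5) (nat_lit 171) (nat_lit 5) (nat_lit 486) (nat_lit 415) (nat_lit 239))))) (XT.nd (nat_lit 234) (nat_lit 988) (nat_lit 0) (XT.nd (nat_lit 78) (nat_lit 456) (nat_lit 0) (XT.lf (nat_lit 0) (nat_lit 8814969018) (nat_lit 532) (nat_lit 3592499212) (nat_lit 76) (nat_lit 6217652785) (nat_lit 164) (nat_lit 5) (nat_lit 171) (nat_lit 5) (nat_lit 165) (nat_lit 5) (nat_lit 487) (nat_lit 415) (nat_lit 238)) (XT.nd (nat_lit 78) (nat_lit 0) (nat_lit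 0) (XT.lf (nat_lit 0) (nat_lit 6475849896) (nat_lit 456) (nat_lit 5893444941) (nat_lit 532) (nat_lit 6487785978) (nat_lit 158) (nat_lit 5) (nat_lit 164) (nat_lit 5) (nat_lit 165) (nat_lit 5) (nat_lit 488) (nat_lit 415) (nat_lit 237)) (XT.lf (nat_lit 0) (nat_lit 16015920837) (nat_lit 532) (nat_lit 2315044636) (nat_lit 76) (nat_lit 762292771) (nat_lit 158) (nat_lit 5) (nat_lit 165) (nat_lit 5) (nat_lit 159) (nat_lit 5) (nat_lit 489) (nat_lit 415) (nat_lit 236)))) (XT.nd (nat_lit 78) (nat_lit 456) (nat_lit 0) (XT.lf (nat_lit 0) (nat_lit 479852352) (nat_lit 532) (nat_lit 11328055168) (nat_lit 76) (nat_lit 7524526277) (nat_lit 151) (nat_lit 5) (nat_lit 158) (nat_lit 5) (nat_lit 152) (nat_lit 5) (nat_lit 490) (nat_lit 415) (nat_lit 235)) (XT.nd (nat_lit 78) (nat_lit 456) (nat_lit 0) (XT.lf (nat_lit 0) (nat_lit 4074912649) (nat_lit 532) (nat_lit 1045885727) (nat_lit 76) (nat_lit 14455031565) (nat_lit 151) (nat_lit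 5) (nat_lit 158) (nat_lit 5) (nat_lit 152) (nat_lit 5) (nat_lit 491) (nat_lit 415) (nat_lit 234)) (XT.lf (nat_lit 0) (nat_lit 7807758151) (nat_lit 532) (nat_lit 10277851514) (nat_lit 76) (nat_lit 1737169162) (nat_lit 145) (nat_lit 5) (nat_lit 152) (nat_lit 5) (nat_lit 146) (nat_lit 5) (nat_lit 492) (nat_lit 415) (nat_lit 233))))))) (XT.nd (nat_lit 53508) (nat_lit 0) (nat_lit 25004) (XT.nd (nat_lit 390) (nat_lit 380) (nat_lit 0) (XT.nd (nat_lit 156) (nat_lit 912) (nat_lit 0) (XT.nd (nat_lit 78) (nat_lit 0) (nat_lit 0) (XT.lf (nat_lit 0) (nat_lit 245730156) (nat_lit 380) (nat_lit 11404570806) (nat_lit 456) (nat_lit 8423667370) (nat_lit 140) (nat_lit 5) (nat_lit 145) (nat_lit 5) (nat_lit 146) (nat_lit 5) (nat_lit 493) (nat_lit 415) (nat_lit 232)) (XT.lf (nat_lit 0) (nat_lit 11108431970) (nat_lit 380) (nat_lit 4522778330) (nat_lit 456) (nat_lit 4697743416) (nat_lit 140) (nat_lit 5) (nat_lit 145) (nat_lit 5) (nat_lit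 146) (nat_lit 5) (nat_lit 494) (nat_lit 415) (nat_lit 231))) (XT.nd (nat_lit 78) (nat_lit 456) (nat_lit 0) (XT.lf (nat_lit 0) (nat_lit 1593448175) (nat_lit 456) (nat_lit 18117516844) (nat_lit 532) (nat_lit 877691600) (nat_lit 134) (nat_lit 5) (nat_lit 140) (nat_lit 5) (nat_lit 141) (nat_lit 5) (nat_lit 495) (nat_lit 415) (nat_lit 230)) (XT.nd (nat_lit 78) (nat_lit 380) (nat_lit 0) (XT.lf (nat_lit 0) (nat_lit 3064102793) (nat_lit 532) (nat_lit 8164212678) (nat_lit 76) (nat_lit 9623149714) (nat_lit 133) (nat_lit 5) (nat_lit 140) (nat_lit 5) (nat_lit 134) (nat_lit 5) (nat_lit 496) (nat_lit 415) (nat_lit 229)) (XT.lf (nat_lit 0) (nat_lit 2905283058) (nat_lit 380) (nat_lit 4179411587) (nat_lit 456) (nat_lit 14034487190) (nat_lit 128) (nat_lit 5) (nat_lit 133) (nat_lit 5) (nat_lit 134) (nat_lit 5) (nat_lit 497) (nat_lit 415) (nat_lit 228))))) (XT.nd (nat_lit 156) (nat_lit 0) (nat_lit 0) (XT.nd (nat_lit 78) (nat_lit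 380) (nat_lit 0) (XT.lf (nat_lit 0) (nat_lit 11253285250) (nat_lit 456) (nat_lit 7114694140) (nat_lit 76) (nat_lit 3022923863) (nat_lit 128) (nat_lit 5) (nat_lit 134) (nat_lit 5) (nat_lit 129) (nat_lit 5) (nat_lit 498) (nat_lit 415) (nat_lit 227)) (XT.lf (nat_lit 0) (nat_lit 4223954471) (nat_lit 380) (nat_lit 11329427466) (nat_lit 456) (nat_lit 6113716612) (nat_lit 123) (nat_lit 5) (nat_lit 128) (nat_lit 5) (nat_lit 129) (nat_lit 5) (nat_lit 499) (nat_lit 415) (nat_lit 226))) (XT.nd (nat_lit 52806) (nat_lit 0) (nat_lit 26524) (XT.lf (nat_lit 0) (nat_lit 15875625286) (nat_lit 380) (nat_lit 4104700412) (nat_lit 456) (nat_lit 1967677240) (nat_lit 123) (nat_lit 5) (nat_lit 128) (nat_lit 5) (nat_lit 129) (nat_lit 5) (nat_lit 500) (nat_lit 415) (nat_lit 225)) (XT.nd (nat_lit 78) (nat_lit 0) (nat_lit 0) (XT.lf (nat_lit 0) (nat_lit 1574250419) (nat_lit 0) (nat_lit 1574250419) (nat_lit 1444) (nat_lit 1325646112) (nat_lit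 472) (nat_lit 5) (nat_lit 472) (nat_lit 3) (nat_lit 491) (nat_lit 3) (nat_lit 416) (nat_lit 416) (nat_lit 308)) (XT.lf (nat_lit 0) (nat_lit 7249013613) (nat_lit 1444) (nat_lit 1580155285) (nat_lit 1520) (nat_lit 190324275) (nat_lit 472) (nat_lit 5) (nat_lit 491) (nat_lit 3) (nat_lit 492) (nat_lit 5) (nat_lit 417) (nat_lit 416) (nat_lit 307)))))) (XT.nd (nat_lit 390) (nat_lit 0) (nat_lit 152) (XT.nd (nat_lit 156) (nat_lit 0) (nat_lit 76) (XT.nd (nat_lit 78) (nat_lit 1520) (nat_lit 0) (XT.lf (nat_lit 76) (nat_lit 2726585861) (nat_lit 0) (nat_lit 5508822282) (nat_lit 1520) (nat_lit 856414631) (nat_lit 473) (nat_lit 5) (nat_lit 472) (nat_lit 5) (nat_lit 492) (nat_lit 5) (nat_lit 418) (nat_lit 416) (nat_lit 306)) (XT.lf (nat_lit 0) (nat_lit 62610651) (nat_lit 1520) (nat_lit 2037504984) (nat_lit 1596) (nat_lit 7065732650) (nat_lit 452) (nat_lit 5) (nat_lit 472) (nat_lit 5) (nat_lit 473) (nat_lit 5) (nat_lit 419) (nat_lit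 416) (nat_lit 305))) (XT.nd (nat_lit 78) (nat_lit 0) (nat_lit 0) (XT.lf (nat_lit 0) (nat_lit 990677385) (nat_lit 1520) (nat_lit 6860273866) (nat_lit 1596) (nat_lit 1390259701) (nat_lit 453) (nat_lit 5) (nat_lit 473) (nat_lit 5) (nat_lit 474) (nat_lit 5) (nat_lit 420) (nat_lit 416) (nat_lit 304)) (XT.nd (nat_lit 78) (nat_lit 0) (nat_lit 0) (XT.lf (nat_lit 0) (nat_lit 1942857633) (nat_lit 1520) (nat_lit 2429072437) (nat_lit 1596) (nat_lit 4946051942) (nat_lit 453) (nat_lit 5) (nat_lit 473) (nat_lit 5) (nat_lit 474) (nat_lit 5) (nat_lit 421) (nat_lit 416) (nat_lit 303)) (XT.lf (nat_lit 76) (nat_lit 2105987804) (nat_lit 0) (nat_lit 800081713) (nat_lit 1596) (nat_lit 6490391163) (nat_lit 454) (nat_lit 5) (nat_lit 453) (nat_lit 5) (nat_lit 474) (nat_lit 5) (nat_lit 422) (nat_lit 416) (nat_lit 302))))) (XT.nd (nat_lit 234) (nat_lit 0) (nat_lit 76) (XT.nd (nat_lit 78) (nat_lit 0) (nat_lit 0) (XT.lf (nat_lit 0) (nat_lit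 3902132453) (nat_lit 1520) (nat_lit 2742876182) (nat_lit 1596) (nat_lit 2831240261) (nat_lit 454) (nat_lit 5) (nat_lit 474) (nat_lit 5) (nat_lit 475) (nat_lit 5) (nat_lit 423) (nat_lit 416) (nat_lit 301)) (XT.nd (nat_lit 78) (nat_lit 0) (nat_lit 76) (XT.lf (nat_lit 76) (nat_lit 1902778863) (nat_lit 0) (nat_lit 3012126269) (nat_lit 1596) (nat_lit 4642803456) (nat_lit 455) (nat_lit 5) (nat_lit 454) (nat_lit 5) (nat_lit 475) (nat_lit 5) (nat_lit 424) (nat_lit 416) (nat_lit 300)) (XT.lf (nat_lit 0) (nat_lit 5950479773) (nat_lit 1520) (nat_lit 2979468041) (nat_lit 1596) (nat_lit 710809988) (nat_lit 455) (nat_lit 5) (nat_lit 475) (nat_lit 5) (nat_lit 476) (nat_lit 5) (nat_lit 425) (nat_lit 416) (nat_lit 299)))) (XT.nd (nat_lit 78) (nat_lit 0) (nat_lit 0) (XT.lf (nat_lit 76) (nat_lit 1780214512) (nat_lit 0) (nat_lit 5237975590) (nat_lit 1596) (nat_lit 2707060450) (nat_lit 456) (nat_lit 5) (nat_lit 455) (nat_lit 5)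 (nat_lit 476) (nat_lit 5) (nat_lit 426) (nat_lit 416) (nat_lit 298)) (XT.nd (nat_lit 78) (nat_lit 0) (nat_lit 76) (XT.lf (nat_lit 76) (nat_lit 6662873323) (nat_lit 0) (nat_lit 1444605045) (nat_lit 1596) (nat_lit 1703961134) (nat_lit 456) (nat_lit 5) (nat_lit 455) (nat_lit 5) (nat_lit 476) (nat_lit 5) (nat_lit 427) (nat_lit 416) (nat_lit 297)) (XT.lf (nat_lit 76) (nat_lit 1738084465) (nat_lit 0) (nat_lit 7488158246) (nat_lit 1596) (nat_lit 672966322) (nat_lit 457) (nat_lit 5) (nat_lit 456) (nat_lit 5) (nat_lit 477) (nat_lit 5) (nat_lit 428) (nat_lit 416) (nat_lit 296))))))))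
noncomputable def xc187 : XT := (XT.nd (nat_lit 1638) (nat_lit 8892) (nat_lit 0) (XT.nd (nat_lit 780) (nat_lit 5320) (nat_lit 0) (XT.nd (nat_lit 390) (nat_lit 1368) (nat_lit 0) (XT.nd (nat_lit 156) (nat_lit 0) (nat_lit 76) (XT.nd (nat_lit 78) (nat_lit 0) (nat_lit 76) (XT.lf (nat_lit 0) (nat_lit 385341141) (nat_lit 1596) (nat_lit 3248311298) (nat_lit 1672) (nat_lit 6354809366) (nat_lit 435) (nat_lit 5) (nat_lit 456) (nat_lit 5) (nat_lit 457) (nat_lit 5) (nat_lit 429) (nat_lit 416) (nat_lit 295)) (XT.lf (nat_lit 0) (nat_lit 1450575065) (nat_lit 1596) (nat_lit 8312874849) (nat_lit 1672) (nat_lit 316075322) (nat_lit 436) (nat_lit 5) (nat_lit 457) (nat_lit 5) (nat_lit 458) (nat_lit 5) (nat_lit 430) (nat_lit 416) (nat_lit 294))) (XT.nd (nat_lit 78) (nat_lit 0) (nat_lit 0) (XT.lf (nat_lit 0) (nat_lit 2564643909) (nat_lit 1596) (nat_lit 3283301536) (nat_lit 1672) (nat_lit 4323923686) (nat_lit 436) (nat_lit 5) (nat_lit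 457) (nat_lit 5) (nat_lit 458) (nat_lit 5) (nat_lit 431) (nat_lit 416) (nat_lit 293)) (XT.nd (nat_lit 78) (nat_lit 0) (nat_lit 76) (XT.lf (nat_lit 76) (nat_lit 1858430721) (nat_lit 0) (nat_lit 1836515929) (nat_lit 1672) (nat_lit 6571243810) (nat_lit 437) (nat_lit 5) (nat_lit 436) (nat_lit 5) (nat_lit 458) (nat_lit 5) (nat_lit 432) (nat_lit 416) (nat_lit 292)) (XT.lf (nat_lit 0) (nat_lit 4866868083) (nat_lit 1596) (nat_lit 3242363116) (nat_lit 1672) (nat_lit 2252796186) (nat_lit 437) (nat_lit 5) (nat_lit 458) (nat_lit 5) (nat_lit 459) (nat_lit 5) (nat_lit 433) (nat_lit 416) (nat_lit 291))))) (XT.nd (nat_lit 156) (nat_lit 1520) (nat_lit 0) (XT.nd (nat_lit 78) (nat_lit 0) (nat_lit 76) (XT.lf (nat_lit 76) (nat_lit 2027911387) (nat_lit 0) (nat_lit 4042186796) (nat_lit 1672) (nat_lit 4389534693) (nat_lit 438) (nat_lit 5) (nat_lit 437) (nat_lit 5) (nat_lit 459) (nat_lit 5) (nat_lit 434) (nat_lit 416) (nat_lit 290))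 (XT.lf (nat_lit 0) (nat_lit 7302813838) (nat_lit 1596) (nat_lit 3125207679) (nat_lit 1672) (nat_lit 131069594) (nat_lit 438) (nat_lit 5) (nat_lit 459) (nat_lit 5) (nat_lit 460) (nat_lit 5) (nat_lit 435) (nat_lit 416) (nat_lit 289))) (XT.nd (nat_lit 78) (nat_lit 1596) (nat_lit 0) (XT.lf (nat_lit 76) (nat_lit 2277635395) (nat_lit 0) (nat_lit 6307271845) (nat_lit 1672) (nat_lit 2075145679) (nat_lit 439) (nat_lit 5) (nat_lit 438) (nat_lit 5) (nat_lit 460) (nat_lit 5) (nat_lit 436) (nat_lit 416) (nat_lit 288)) (XT.nd (nat_lit 78) (nat_lit 1596) (nat_lit 0) (XT.lf (nat_lit 76) (nat_lit 7818080074) (nat_lit 0) (nat_lit 2078947143) (nat_lit 1672) (nat_lit 865927754) (nat_lit 439) (nat_lit 5) (nat_lit 438) (nat_lit 5) (nat_lit 460) (nat_lit 5) (nat_lit 437) (nat_lit 416) (nat_lit 287)) (XT.lf (nat_lit 0) (nat_lit 377947813) (nat_lit 1672) (nat_lit 8261909473) (nat_lit 1748) (nat_lit 2227712569) (nat_lit 417) (nat_lit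 5) (nat_lit 439) (nat_lit 5) (nat_lit 440) (nat_lit 5) (nat_lit 438) (nat_lit 416) (nat_lit 286)))))) (XT.nd (nat_lit 390) (nat_lit 3724) (nat_lit 0) (XT.nd (nat_lit 156) (nat_lit 1596) (nat_lit 0) (XT.nd (nat_lit 78) (nat_lit 0) (nat_lit 76) (XT.lf (nat_lit 0) (nat_lit 1652660290) (nat_lit 1672) (nat_lit 2699452281) (nat_lit 1748) (nat_lit 6621707106) (nat_lit 417) (nat_lit 5) (nat_lit 439) (nat_lit 5) (nat_lit 440) (nat_lit 5) (nat_lit 439) (nat_lit 416) (nat_lit 285)) (XT.lf (nat_lit 0) (nat_lit 2956836519) (nat_lit 1672) (nat_lit 8081612013) (nat_lit 76) (nat_lit 43674614) (nat_lit 418) (nat_lit 5) (nat_lit 440) (nat_lit 5) (nat_lit 419) (nat_lit 5) (nat_lit 440) (nat_lit 416) (nat_lit 284))) (XT.nd (nat_lit 78) (nat_lit 1672) (nat_lit 0) (XT.lf (nat_lit 0) (nat_lit 4318597623) (nat_lit 1672) (nat_lit 2383166243) (nat_lit 76) (nat_lit 4490206671) (nat_lit 418) (nat_lit 5) (nat_lit 440) (nat_lit 5) (nat_lit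 419) (nat_lit 5) (nat_lit 441) (nat_lit 416) (nat_lit 283)) (XT.nd (nat_lit 78) (nat_lit 0) (nat_lit 0) (XT.lf (nat_lit 0) (nat_lit 3461847711) (nat_lit 1672) (nat_lit 2252972557) (nat_lit 1748) (nat_lit 5589057810) (nat_lit 396) (nat_lit 5) (nat_lit 418) (nat_lit 5) (nat_lit 419) (nat_lit 5) (nat_lit 442) (nat_lit 416) (nat_lit 282)) (XT.lf (nat_lit 0) (nat_lit 7154881158) (nat_lit 1748) (nat_lit 1989620376) (nat_lit 76) (nat_lit 2273211535) (nat_lit 396) (nat_lit 5) (nat_lit 419) (nat_lit 5) (nat_lit 397) (nat_lit 5) (nat_lit 443) (nat_lit 416) (nat_lit 281))))) (XT.nd (nat_lit 234) (nat_lit 912) (nat_lit 0) (XT.nd (nat_lit 78) (nat_lit 1064) (nat_lit 0) (XT.lf (nat_lit 0) (nat_lit 4004652407) (nat_lit 1748) (nat_lit 4645287733) (nat_lit 1824) (nat_lit 2883368111) (nat_lit 373) (nat_lit 5) (nat_lit 396) (nat_lit 5) (nat_lit 397) (nat_lit 5) (nat_lit 444) (nat_lit 416) (nat_lit 280)) (XT.nd (nat_lit 78) (nat_lit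 1064) (nat_lit 0) (XT.lf (nat_lit 0) (nat_lit 10133077802) (nat_lit 1748) (nat_lit 40655803) (nat_lit 1824) (nat_lit 1477512346) (nat_lit 373) (nat_lit 5) (nat_lit 396) (nat_lit 5) (nat_lit 397) (nat_lit 5) (nat_lit 445) (nat_lit 416) (nat_lit 279)) (XT.lf (nat_lit 0) (nat_lit 3400817) (nat_lit 1064) (nat_lit 7140381636) (nat_lit 76) (nat_lit 4626845219) (nat_lit 359) (nat_lit 5) (nat_lit 373) (nat_lit 5) (nat_lit 360) (nat_lit 5) (nat_lit 446) (nat_lit 416) (nat_lit 278)))) (XT.nd (nat_lit 78) (nat_lit 912) (nat_lit 0) (XT.lf (nat_lit 0) (nat_lit 1490566184) (nat_lit 1064) (nat_lit 992974772) (nat_lit 76) (nat_lit 9408739249) (nat_lit 359) (nat_lit 5) (nat_lit 373) (nat_lit 5) (nat_lit 360) (nat_lit 5) (nat_lit 447) (nat_lit 416) (nat_lit 277)) (XT.nd (nat_lit 78) (nat_lit 0) (nat_lit 0) (XT.lf (nat_lit 0) (nat_lit 3043238467) (nat_lit 988) (nat_lit 6696200987) (nat_lit 76) (nat_lit 2276217790) (nat_lit 347)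 (nat_lit 5) (nat_lit 360) (nat_lit 5) (nat_lit 348) (nat_lit 5) (nat_lit 448) (nat_lit 416) (nat_lit 276)) (XT.lf (nat_lit 0) (nat_lit 4636468351) (nat_lit 988) (nat_lit 399083406) (nat_lit 76) (nat_lit 7105766578) (nat_lit 347) (nat_lit 5) (nat_lit 360) (nat_lit 5) (nat_lit 348) (nat_lit 5) (nat_lit 449) (nat_lit 416) (nat_lit 275))))))) (XT.nd (nat_lit 780) (nat_lit 4104) (nat_lit 0) (XT.nd (nat_lit 390) (nat_lit 2280) (nat_lit 0) (XT.nd (nat_lit 156) (nat_lit 836) (nat_lit 0) (XT.nd (nat_lit 78) (nat_lit 836) (nat_lit 0) (XT.lf (nat_lit 0) (nat_lit 6091296967) (nat_lit 836) (nat_lit 196431617) (nat_lit 912) (nat_lit 5981247215) (nat_lit 336) (nat_lit 5) (nat_lit 347) (nat_lit 5) (nat_lit 348) (nat_lit 5) (nat_lit 450) (nat_lit 416) (nat_lit 274)) (XT.lf (nat_lit 0) (nat_lit 277856033) (nat_lit 836) (nat_lit 7716232611) (nat_lit 912) (nat_lit 4404662615) (nat_lit 325) (nat_lit 5) (nat_lit 336) (nat_lit 5)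 (nat_lit 337) (nat_lit 5) (nat_lit 451) (nat_lit 416) (nat_lit 273))) (XT.nd (nat_lit 78) (nat_lit 836) (nat_lit 0) (XT.lf (nat_lit 0) (nat_lit 6932247098) (nat_lit 836) (nat_lit 2832056068) (nat_lit 912) (nat_lit 2766230731) (nat_lit 325) (nat_lit 5) (nat_lit 336) (nat_lit 5) (nat_lit 337) (nat_lit 5) (nat_lit 452) (nat_lit 416) (nat_lit 272)) (XT.nd (nat_lit 78) (nat_lit 76) (nat_lit 0) (XT.lf (nat_lit 0) (nat_lit 1041787641) (nat_lit 760) (nat_lit 10536093236) (nat_lit 836) (nat_lit 1086918227) (nat_lit 315) (nat_lit 5) (nat_lit 325) (nat_lit 5) (nat_lit 326) (nat_lit 5) (nat_lit 453) (nat_lit 416) (nat_lit 271)) (XT.lf (nat_lit 0) (nat_lit 661658320) (nat_lit 836) (nat_lit 4946299208) (nat_lit 76) (nat_lit 7192838904) (nat_lit 314) (nat_lit 5) (nat_lit 325) (nat_lit 5) (nat_lit 315) (nat_lit 5) (nat_lit 454) (nat_lit 416) (nat_lit 270))))) (XT.nd (nat_lit 156) (nat_lit 1520) (nat_lit 0) (XT.nd (nat_lit 78)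 (nat_lit 0) (nat_lit 0) (XT.lf (nat_lit 0) (nat_lit 1868726115) (nat_lit 760) (nat_lit 561637827) (nat_lit 836) (nat_lit 10509017587) (nat_lit 304) (nat_lit 5) (nat_lit 314) (nat_lit 5) (nat_lit 315) (nat_lit 5) (nat_lit 455) (nat_lit 416) (nat_lit 269)) (XT.lf (nat_lit 0) (nat_lit 4285355191) (nat_lit 836) (nat_lit 4235665976) (nat_lit 76) (nat_lit 4558704561) (nat_lit 304) (nat_lit 5) (nat_lit 315) (nat_lit 5) (nat_lit 305) (nat_lit 5) (nat_lit 456) (nat_lit 416) (nat_lit 268))) (XT.nd (nat_lit 78) (nat_lit 760) (nat_lit 0) (XT.lf (nat_lit 0) (nat_lit 2755999021) (nat_lit 760) (nat_lit 3431027741) (nat_lit 836) (nat_lit 7035663956) (nat_lit 294) (nat_lit 5) (nat_lit 304) (nat_lit 5) (nat_lit 305) (nat_lit 5) (nat_lit 457) (nat_lit 416) (nat_lit 267)) (XT.nd (nat_lit 78) (nat_lit 760) (nat_lit 0) (XT.lf (nat_lit 0) (nat_lit 8154895320) (nat_lit 836) (nat_lit 3447261994) (nat_lit 76) (nat_lit 1765799833) (nat_lit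 294) (nat_lit 5) (nat_lit 305) (nat_lit 5) (nat_lit 295) (nat_lit 5) (nat_lit 458) (nat_lit 416) (nat_lit 266)) (XT.lf (nat_lit 0) (nat_lit 3726345118) (nat_lit 760) (nat_lit 6471044733) (nat_lit 836) (nat_lit 3318038987) (nat_lit 284) (nat_lit 5) (nat_lit 294) (nat_lit 5) (nat_lit 295) (nat_lit 5) (nat_lit 459) (nat_lit 416) (nat_lit 265)))))) (XT.nd (nat_lit 390) (nat_lit 2660) (nat_lit 0) (XT.nd (nat_lit 156) (nat_lit 684) (nat_lit 0) (XT.nd (nat_lit 78) (nat_lit 760) (nat_lit 0) (XT.lf (nat_lit 0) (nat_lit 11077873405) (nat_lit 760) (nat_lit 1214495122) (nat_lit 836) (nat_lit 1373253950) (nat_lit 284) (nat_lit 5) (nat_lit 294) (nat_lit 5) (nat_lit 295) (nat_lit 5) (nat_lit 460) (nat_lit 416) (nat_lit 264)) (XT.lf (nat_lit 0) (nat_lit 649415440) (nat_lit 760) (nat_lit 9041036750) (nat_lit 76) (nat_lit 4127353641) (nat_lit 274) (nat_lit 5) (nat_lit 284) (nat_lit 5) (nat_lit 275) (nat_lit 5) (nat_lit 461) (nat_lit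 416) (nat_lit 263))) (XT.nd (nat_lit 78) (nat_lit 684) (nat_lit 0) (XT.lf (nat_lit 0) (nat_lit 2708475871) (nat_lit 760) (nat_lit 1678620325) (nat_lit 76) (nat_lit 9585473502) (nat_lit 274) (nat_lit 5) (nat_lit 284) (nat_lit 5) (nat_lit 275) (nat_lit 5) (nat_lit 462) (nat_lit 416) (nat_lit 262)) (XT.nd (nat_lit 78) (nat_lit 0) (nat_lit 0) (XT.lf (nat_lit 0) (nat_lit 4842889133) (nat_lit 760) (nat_lit 8240492374) (nat_lit 76) (nat_lit 1046368707) (nat_lit 265) (nat_lit 5) (nat_lit 275) (nat_lit 5) (nat_lit 266) (nat_lit 5) (nat_lit 463) (nat_lit 416) (nat_lit 261)) (XT.lf (nat_lit 0) (nat_lit 7049518410) (nat_lit 760) (nat_lit 699959984) (nat_lit 76) (nat_lit 6540010101) (nat_lit 265) (nat_lit 5) (nat_lit 275) (nat_lit 5) (nat_lit 266) (nat_lit 5) (nat_lit 464) (nat_lit 416) (nat_lit 260))))) (XT.nd (nat_lit 234) (nat_lit 1292) (nat_lit 0) (XT.nd (nat_lit 78) (nat_lit 684) (nat_lit 0) (XT.lf (nat_lit 0) (nat_lit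 7072144891) (nat_lit 684) (nat_lit 2263400580) (nat_lit 760) (nat_lit 5116175382) (nat_lit 256) (nat_lit 5) (nat_lit 265) (nat_lit 5) (nat_lit 266) (nat_lit 5) (nat_lit 465) (nat_lit 416) (nat_lit 259)) (XT.nd (nat_lit 78) (nat_lit 0) (nat_lit 0) (XT.lf (nat_lit 0) (nat_lit 363052710) (nat_lit 684) (nat_lit 11322432527) (nat_lit 760) (nat_lit 2931353309) (nat_lit 247) (nat_lit 5) (nat_lit 256) (nat_lit 5) (nat_lit 257) (nat_lit 5) (nat_lit 466) (nat_lit 416) (nat_lit 258)) (XT.lf (nat_lit 0) (nat_lit 8333339535) (nat_lit 684) (nat_lit 5803094825) (nat_lit 760) (nat_lit 647748457) (nat_lit 247) (nat_lit 5) (nat_lit 256) (nat_lit 5) (nat_lit 257) (nat_lit 5) (nat_lit 467) (nat_lit 416) (nat_lit 257)))) (XT.nd (nat_lit 78) (nat_lit 608) (nat_lit 0) (XT.lf (nat_lit 0) (nat_lit 1505036746) (nat_lit 608) (nat_lit 153940943) (nat_lit 684) (nat_lit 13295692145) (nat_lit 238) (nat_lit 5) (nat_lit 246) (nat_lit 5) (nat_lit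 247) (nat_lit 5) (nat_lit 468) (nat_lit 416) (nat_lit 256)) (XT.nd (nat_lit 78) (nat_lit 608) (nat_lit 0) (XT.lf (nat_lit 0) (nat_lit 4073004685) (nat_lit 684) (nat_lit 5473272044) (nat_lit 76) (nat_lit 5580811617) (nat_lit 238) (nat_lit 5) (nat_lit 247) (nat_lit 5) (nat_lit 239) (nat_lit 5) (nat_lit 469) (nat_lit 416) (nat_lit 255)) (XT.lf (nat_lit 0) (nat_lit 2684987359) (nat_lit 608) (nat_lit 3858820399) (nat_lit 684) (nat_lit 8758981662) (nat_lit 230) (nat_lit 5) (nat_lit 238) (nat_lit 5) (nat_lit 239) (nat_lit 5) (nat_lit 470) (nat_lit 416) (nat_lit 254))))))))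
noncomputable def xc188 : XT := (XT.nd (nat_lit 1560) (nat_lit 2660) (nat_lit 0) (XT.nd (nat_lit 780) (nat_lit 2508) (nat_lit 0) (XT.nd (nat_lit 390) (nat_lit 1672) (nat_lit 0) (XT.nd (nat_lit 156) (nat_lit 684) (nat_lit 0) (XT.nd (nat_lit 78) (nat_lit 608) (nat_lit 0) (XT.lf (nat_lit 0) (nat_lit 9103759838) (nat_lit 684) (nat_lit 4425454913) (nat_lit 76) (nat_lit 1951999123) (nat_lit 230) (nat_lit 5) (nat_lit 239) (nat_lit 5) (nat_lit 231) (nat_lit 5) (nat_lit 471) (nat_lit 416) (nat_lit 253)) (XT.lf (nat_lit 0) (nat_lit 3945226354) (nat_lit 608) (nat_lit 7811197795) (nat_lit 684) (nat_lit 3905956348) (nat_lit 222) (nat_lit 5) (nat_lit 230) (nat_lit 5) (nat_lit 231) (nat_lit 5) (nat_lit 472) (nat_lit 416) (nat_lit 252))) (XT.nd (nat_lit 78) (nat_lit 684) (nat_lit 0) (XT.lf (nat_lit 0) (nat_lit 12531686352) (nat_lit 608) (nat_lit 1950609473) (nat_lit 684) (nat_lit 1364475408) (nat_lit 222) (nat_lit 5) (nat_lit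 230) (nat_lit 5) (nat_lit 231) (nat_lit 5) (nat_lit 473) (nat_lit 416) (nat_lit 251)) (XT.nd (nat_lit 78) (nat_lit 0) (nat_lit 0) (XT.lf (nat_lit 0) (nat_lit 1263168958) (nat_lit 684) (nat_lit 10755500890) (nat_lit 76) (nat_lit 4014995470) (nat_lit 213) (nat_lit 5) (nat_lit 222) (nat_lit 5) (nat_lit 214) (nat_lit 5) (nat_lit 474) (nat_lit 416) (nat_lit 250)) (XT.lf (nat_lit 0) (nat_lit 3951099097) (nat_lit 684) (nat_lit 2169362613) (nat_lit 76) (nat_lit 10103138766) (nat_lit 213) (nat_lit 5) (nat_lit 222) (nat_lit 5) (nat_lit 214) (nat_lit 5) (nat_lit 475) (nat_lit 416) (nat_lit 249))))) (XT.nd (nat_lit 156) (nat_lit 1140) (nat_lit 0) (XT.nd (nat_lit 78) (nat_lit 0) (nat_lit 0) (XT.lf (nat_lit 0) (nat_lit 6664508287) (nat_lit 532) (nat_lit 62407705) (nat_lit 608) (nat_lit 9689739353) (nat_lit 206) (nat_lit 5) (nat_lit 213) (nat_lit 5) (nat_lit 214) (nat_lit 5) (nat_lit 476) (nat_lit 416) (nat_lit 248)) (XT.lf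 (nat_lit 0) (nat_lit 9603566235) (nat_lit 608) (nat_lit 960118835) (nat_lit 76) (nat_lit 6048983401) (nat_lit 206) (nat_lit 5) (nat_lit 214) (nat_lit 5) (nat_lit 207) (nat_lit 5) (nat_lit 477) (nat_lit 416) (nat_lit 247))) (XT.nd (nat_lit 78) (nat_lit 608) (nat_lit 0) (XT.lf (nat_lit 0) (nat_lit 8102334760) (nat_lit 532) (nat_lit 4479559892) (nat_lit 608) (nat_lit 4229827736) (nat_lit 199) (nat_lit 5) (nat_lit 206) (nat_lit 5) (nat_lit 207) (nat_lit 5) (nat_lit 478) (nat_lit 416) (nat_lit 246)) (XT.nd (nat_lit 78) (nat_lit 76) (nat_lit 0) (XT.lf (nat_lit 0) (nat_lit 326095282) (nat_lit 532) (nat_lit 15304716870) (nat_lit 608) (nat_lit 1383728143) (nat_lit 192) (nat_lit 5) (nat_lit 199) (nat_lit 5) (nat_lit 200) (nat_lit 5) (nat_lit 479) (nat_lit 416) (nat_lit 245)) (XT.lf (nat_lit 0) (nat_lit 1579115275) (nat_lit 608) (nat_lit 7611216331) (nat_lit 76) (nat_lit 8029293949) (nat_lit 191) (nat_lit 5) (nat_lit 199)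 (nat_lit 5) (nat_lit 192) (nat_lit 5) (nat_lit 480) (nat_lit 416) (nat_lit 244)))))) (XT.nd (nat_lit 390) (nat_lit 988) (nat_lit 0) (XT.nd (nat_lit 156) (nat_lit 988) (nat_lit 0) (XT.nd (nat_lit 78) (nat_lit 0) (nat_lit 0) (XT.lf (nat_lit 0) (nat_lit 1648842257) (nat_lit 532) (nat_lit 2935989507) (nat_lit 608) (nat_lit 12843758112) (nat_lit 184) (nat_lit 5) (nat_lit 191) (nat_lit 5) (nat_lit 192) (nat_lit 5) (nat_lit 481) (nat_lit 416) (nat_lit 243)) (XT.lf (nat_lit 0) (nat_lit 7715933925) (nat_lit 608) (nat_lit 6477391245) (nat_lit 76) (nat_lit 3447105994) (nat_lit 184) (nat_lit 5) (nat_lit 192) (nat_lit 5) (nat_lit 185) (nat_lit 5) (nat_lit 482) (nat_lit 416) (nat_lit 242))) (XT.nd (nat_lit 78) (nat_lit 532) (nat_lit 0) (XT.lf (nat_lit 0) (nat_lit 3020141071) (nat_lit 456) (nat_lit 7920236840) (nat_lit 532) (nat_lit 6915520016) (nat_lit 178) (nat_lit 5) (nat_lit 184) (nat_lit 5) (nat_lit 185) (nat_lit 5) (nat_lit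 483) (nat_lit 416) (nat_lit 241)) (XT.nd (nat_lit 78) (nat_lit 532) (nat_lit 0) (XT.lf (nat_lit 0) (nat_lit 12784462151) (nat_lit 456) (nat_lit 1480074914) (nat_lit 532) (nat_lit 3810435424) (nat_lit 178) (nat_lit 5) (nat_lit 184) (nat_lit 5) (nat_lit 185) (nat_lit 5) (nat_lit 484) (nat_lit 416) (nat_lit 240)) (XT.lf (nat_lit 0) (nat_lit 4460200189) (nat_lit 532) (nat_lit 13248882057) (nat_lit 608) (nat_lit 588271165) (nat_lit 171) (nat_lit 5) (nat_lit 178) (nat_lit 5) (nat_lit 179) (nat_lit 5) (nat_lit 485) (nat_lit 416) (nat_lit 239))))) (XT.nd (nat_lit 156) (nat_lit 456) (nat_lit 0) (XT.nd (nat_lit 78) (nat_lit 456) (nat_lit 0) (XT.lf (nat_lit 0) (nat_lit 2700422672) (nat_lit 608) (nat_lit 4084324132) (nat_lit 76) (nat_lit 11738338066) (nat_lit 170) (nat_lit 5) (nat_lit 178) (nat_lit 5) (nat_lit 171) (nat_lit 5) (nat_lit 486) (nat_lit 416) (nat_lit 238)) (XT.lf (nat_lit 0) (nat_lit 5926674435) (nat_lit 456)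 (nat_lit 150920792) (nat_lit 532) (nat_lit 12675049085) (nat_lit 164) (nat_lit 5) (nat_lit 170) (nat_lit 5) (nat_lit 171) (nat_lit 5) (nat_lit 487) (nat_lit 416) (nat_lit 237))) (XT.nd (nat_lit 78) (nat_lit 456) (nat_lit 0) (XT.lf (nat_lit 0) (nat_lit 9585015464) (nat_lit 532) (nat_lit 2846914837) (nat_lit 76) (nat_lit 6553613263) (nat_lit 164) (nat_lit 5) (nat_lit 171) (nat_lit 5) (nat_lit 165) (nat_lit 5) (nat_lit 488) (nat_lit 416) (nat_lit 236)) (XT.nd (nat_lit 78) (nat_lit 0) (nat_lit 0) (XT.lf (nat_lit 0) (nat_lit 7417423396) (nat_lit 456) (nat_lit 5786634714) (nat_lit 532) (nat_lit 6018215862) (nat_lit 158) (nat_lit 5) (nat_lit 164) (nat_lit 5) (nat_lit 165) (nat_lit 5) (nat_lit 489) (nat_lit 416) (nat_lit 235)) (XT.lf (nat_lit 0) (nat_lit 16913529589) (nat_lit 532) (nat_lit 1554927690) (nat_lit 76) (nat_lit 994923351) (nat_lit 158) (nat_lit 5) (nat_lit 165) (nat_lit 5) (nat_lit 159) (nat_lit 5) (nat_lit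 490) (nat_lit 416) (nat_lit 234))))))) (XT.nd (nat_lit 53586) (nat_lit 0) (nat_lit 25004) (XT.nd (nat_lit 390) (nat_lit 1292) (nat_lit 0) (XT.nd (nat_lit 156) (nat_lit 836) (nat_lit 0) (XT.nd (nat_lit 78) (nat_lit 0) (nat_lit 0) (XT.lf (nat_lit 0) (nat_lit 1064594845) (nat_lit 532) (nat_lit 10745671108) (nat_lit 76) (nat_lit 7897124287) (nat_lit 151) (nat_lit 5) (nat_lit 158) (nat_lit 5) (nat_lit 152) (nat_lit 5) (nat_lit 491) (nat_lit 416) (nat_lit 233)) (XT.lf (nat_lit 0) (nat_lit 4720278986) (nat_lit 532) (nat_lit 273719949) (nat_lit 76) (nat_lit 14961884631) (nat_lit 151) (nat_lit 5) (nat_lit 158) (nat_lit 5) (nat_lit 152) (nat_lit 5) (nat_lit 492) (nat_lit 416) (nat_lit 232))) (XT.nd (nat_lit 78) (nat_lit 380) (nat_lit 0) (XT.lf (nat_lit 0) (nat_lit 8523333423) (nat_lit 532) (nat_lit 9685695104) (nat_lit 76) (nat_lit 1998835501) (nat_lit 145) (nat_lit 5) (nat_lit 152) (nat_lit 5) (nat_lit 146) (nat_lit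 5) (nat_lit 493) (nat_lit 416) (nat_lit 231)) (XT.nd (nat_lit 78) (nat_lit 0) (nat_lit 0) (XT.lf (nat_lit 0) (nat_lit 1043110084) (nat_lit 380) (nat_lit 11393793194) (nat_lit 456) (nat_lit 8027294089) (nat_lit 140) (nat_lit 5) (nat_lit 145) (nat_lit 5) (nat_lit 146) (nat_lit 5) (nat_lit 494) (nat_lit 416) (nat_lit 230)) (XT.lf (nat_lit 0) (nat_lit 12107527399) (nat_lit 380) (nat_lit 4379048575) (nat_lit 456) (nat_lit 4237927080) (nat_lit 140) (nat_lit 5) (nat_lit 145) (nat_lit 5) (nat_lit 146) (nat_lit 5) (nat_lit 495) (nat_lit 416) (nat_lit 229))))) (XT.nd (nat_lit 156) (nat_lit 760) (nat_lit 0) (XT.nd (nat_lit 78) (nat_lit 76) (nat_lit 0) (XT.lf (nat_lit 0) (nat_lit 2406579256) (nat_lit 456) (nat_lit 18237267687) (nat_lit 532) (nat_lit 345638080) (nat_lit 134) (nat_lit 5) (nat_lit 140) (nat_lit 5) (nat_lit 141) (nat_lit 5) (nat_lit 496) (nat_lit 416) (nat_lit 228)) (XT.lf (nat_lit 0) (nat_lit 3657148725) (nat_lit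 532) (nat_lit 7554321999) (nat_lit 76) (nat_lit 10046223669) (nat_lit 133) (nat_lit 5) (nat_lit 140) (nat_lit 5) (nat_lit 134) (nat_lit 5) (nat_lit 497) (nat_lit 416) (nat_lit 227))) (XT.nd (nat_lit 78) (nat_lit 380) (nat_lit 0) (XT.lf (nat_lit 0) (nat_lit 3731476974) (nat_lit 380) (nat_lit 4021235635) (nat_lit 456) (nat_lit 13778164794) (nat_lit 128) (nat_lit 5) (nat_lit 133) (nat_lit 5) (nat_lit 134) (nat_lit 5) (nat_lit 498) (nat_lit 416) (nat_lit 226)) (XT.nd (nat_lit 78) (nat_lit 380) (nat_lit 0) (XT.lf (nat_lit 0) (nat_lit 11995893862) (nat_lit 456) (nat_lit 6495020739) (nat_lit 76) (nat_lit 3317297441) (nat_lit 128) (nat_lit 5) (nat_lit 134) (nat_lit 5) (nat_lit 129) (nat_lit 5) (nat_lit 499) (nat_lit 416) (nat_lit 225)) (XT.lf (nat_lit 0) (nat_lit 5065387901) (nat_lit 380) (nat_lit 11311371331) (nat_lit 456) (nat_lit 5713279783) (nat_lit 123) (nat_lit 5) (nat_lit 128) (nat_lit 5) (nat_lit 129) (nat_lit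 5) (nat_lit 500) (nat_lit 416) (nat_lit 224)))))) (XT.nd (nat_lit 390) (nat_lit 0) (nat_lit 76) (XT.nd (nat_lit 156) (nat_lit 1520) (nat_lit 0) (XT.nd (nat_lit 78) (nat_lit 0) (nat_lit 0) (XT.lf (nat_lit 0) (nat_lit 2046748260) (nat_lit 0) (nat_lit 2046748260) (nat_lit 1444) (nat_lit 451993292) (nat_lit 472) (nat_lit 5) (nat_lit 472) (nat_lit 3) (nat_lit 491) (nat_lit 3) (nat_lit 417) (nat_lit 417) (nat_lit 306)) (XT.lf (nat_lit 0) (nat_lit 8454158411) (nat_lit 0) (nat_lit 668020388) (nat_lit 1444) (nat_lit 42161004) (nat_lit 472) (nat_lit 5) (nat_lit 472) (nat_lit 3) (nat_lit 491) (nat_lit 3) (nat_lit 418) (nat_lit 417) (nat_lit 305))) (XT.nd (nat_lit 78) (nat_lit 0) (nat_lit 0) (XT.lf (nat_lit 0) (nat_lit 845982388) (nat_lit 1520) (nat_lit 5563274932) (nat_lit 1596) (nat_lit 2829412470) (nat_lit 452) (nat_lit 5) (nat_lit 472) (nat_lit 5) (nat_lit 473) (nat_lit 5) (nat_lit 419) (nat_lit 417) (nat_lit 304))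 (XT.nd (nat_lit 78) (nat_lit 0) (nat_lit 76) (XT.lf (nat_lit 0) (nat_lit 1738439963) (nat_lit 1520) (nat_lit 1172769693) (nat_lit 1596) (nat_lit 6403541017) (nat_lit 452) (nat_lit 5) (nat_lit 472) (nat_lit 5) (nat_lit 473) (nat_lit 5) (nat_lit 420) (nat_lit 417) (nat_lit 303)) (XT.lf (nat_lit 0) (nat_lit 2653216655) (nat_lit 1520) (nat_lit 6059237637) (nat_lit 1596) (nat_lit 679821425) (nat_lit 453) (nat_lit 5) (nat_lit 473) (nat_lit 5) (nat_lit 474) (nat_lit 5) (nat_lit 421) (nat_lit 417) (nat_lit 302))))) (XT.nd (nat_lit 234) (nat_lit 0) (nat_lit 76) (XT.nd (nat_lit 78) (nat_lit 0) (nat_lit 0) (XT.lf (nat_lit 0) (nat_lit 3592230200) (nat_lit 1520) (nat_lit 1557809076) (nat_lit 1596) (nat_lit 4321204873) (nat_lit 453) (nat_lit 5) (nat_lit 473) (nat_lit 5) (nat_lit 474) (nat_lit 5) (nat_lit 422) (nat_lit 417) (nat_lit 301)) (XT.nd (nat_lit 78) (nat_lit 0) (nat_lit 76) (XT.lf (nat_lit 76) (nat_lit 3061900759)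 (nat_lit 0) (nat_lit 1487159780) (nat_lit 1596) (nat_lit 5002762162) (nat_lit 454) (nat_lit 5) (nat_lit 453) (nat_lit 5) (nat_lit 474) (nat_lit 5) (nat_lit 423) (nat_lit 417) (nat_lit 300)) (XT.lf (nat_lit 0) (nat_lit 5529697218) (nat_lit 1520) (nat_lit 1865657760) (nat_lit 1596) (nat_lit 2238575709) (nat_lit 454) (nat_lit 5) (nat_lit 474) (nat_lit 5) (nat_lit 475) (nat_lit 5) (nat_lit 424) (nat_lit 417) (nat_lit 299)))) (XT.nd (nat_lit 78) (nat_lit 0) (nat_lit 76) (XT.lf (nat_lit 76) (nat_lit 2866778307) (nat_lit 0) (nat_lit 3671576099) (nat_lit 1596) (nat_lit 3179169306) (nat_lit 455) (nat_lit 5) (nat_lit 454) (nat_lit 5) (nat_lit 475) (nat_lit 5) (nat_lit 425) (nat_lit 417) (nat_lit 298)) (XT.nd (nat_lit 78) (nat_lit 0) (nat_lit 0) (XT.lf (nat_lit 0) (nat_lit 7560921448) (nat_lit 1520) (nat_lit 2096730573) (nat_lit 1596) (nat_lit 145272665) (nat_lit 455) (nat_lit 5) (nat_lit 475) (nat_lit 5) (nat_lit 476)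 (nat_lit 5) (nat_lit 426) (nat_lit 417) (nat_lit 297)) (XT.lf (nat_lit 76) (nat_lit 2751946112) (nat_lit 0) (nat_lit 5874874064) (nat_lit 1596) (nat_lit 1262766502) (nat_lit 456) (nat_lit 5) (nat_lit 455) (nat_lit 5) (nat_lit 476) (nat_lit 5) (nat_lit 427) (nat_lit 417) (nat_lit 296))))))))
noncomputable def xc189 : XT := (XT.nd (nat_lit 1638) (nat_lit 9196) (nat_lit 0) (XT.nd (nat_lit 780) (nat_lit 5776) (nat_lit 0) (XT.nd (nat_lit 390) (nat_lit 0) (nat_lit 76) (XT.nd (nat_lit 156) (nat_lit 0) (nat_lit 0) (XT.nd (nat_lit 78) (nat_lit 1520) (nat_lit 0) (XT.lf (nat_lit 76) (nat_lit 7713902662) (nat_lit 0) (nat_lit 1995202011) (nat_lit 1596) (nat_lit 268986281) (nat_lit 456) (nat_lit 5) (nat_lit 455) (nat_lit 5) (nat_lit 476) (nat_lit 5) (nat_lit 428) (nat_lit 417) (nat_lit 295)) (XT.lf (nat_lit 0) (nat_lit 746766897) (nat_lit 1596) (nat_lit 7355724762) (nat_lit 1672) (nat_lit 1965549678) (nat_lit 435) (nat_lit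 5) (nat_lit 456) (nat_lit 5) (nat_lit 457) (nat_lit 5) (nat_lit 429) (nat_lit 417) (nat_lit 294))) (XT.nd (nat_lit 78) (nat_lit 0) (nat_lit 0) (XT.lf (nat_lit 0) (nat_lit 1789312621) (nat_lit 1596) (nat_lit 2368017164) (nat_lit 1672) (nat_lit 6002233599) (nat_lit 435) (nat_lit 5) (nat_lit 456) (nat_lit 5) (nat_lit 457) (nat_lit 5) (nat_lit 430) (nat_lit 417) (nat_lit 293)) (XT.nd (nat_lit 78) (nat_lit 0) (nat_lit 76) (XT.lf (nat_lit 76) (nat_lit 2743188389) (nat_lit 0) (nat_lit 109260944) (nat_lit 1672) (nat_lit 7400481344) (nat_lit 436) (nat_lit 5) (nat_lit 435) (nat_lit 5) (nat_lit 457) (nat_lit 5) (nat_lit 431) (nat_lit 417) (nat_lit 292)) (XT.lf (nat_lit 0) (nat_lit 3961185192) (nat_lit 1596) (nat_lit 2397889671) (nat_lit 1672) (nat_lit 3988613144) (nat_lit 436) (nat_lit 5) (nat_lit 457) (nat_lit 5) (nat_lit 458) (nat_lit 5) (nat_lit 432) (nat_lit 417) (nat_lit 291))))) (XT.nd (nat_lit 156) (nat_lit 0) (nat_lit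 76) (XT.nd (nat_lit 78) (nat_lit 0) (nat_lit 76) (XT.lf (nat_lit 76) (nat_lit 2840420140) (nat_lit 0) (nat_lit 2253430832) (nat_lit 1672) (nat_lit 5350463643) (nat_lit 437) (nat_lit 5) (nat_lit 436) (nat_lit 5) (nat_lit 458) (nat_lit 5) (nat_lit 433) (nat_lit 417) (nat_lit 290)) (XT.lf (nat_lit 0) (nat_lit 6260810325) (nat_lit 1596) (nat_lit 2351829134) (nat_lit 1672) (nat_lit 1930010545) (nat_lit 437) (nat_lit 5) (nat_lit 458) (nat_lit 5) (nat_lit 459) (nat_lit 5) (nat_lit 434) (nat_lit 417) (nat_lit 289))) (XT.nd (nat_lit 78) (nat_lit 0) (nat_lit 0) (XT.lf (nat_lit 76) (nat_lit 3017565456) (nat_lit 0) (nat_lit 4451278105) (nat_lit 1672) (nat_lit 3173762721) (nat_lit 438) (nat_lit 5) (nat_lit 437) (nat_lit 5) (nat_lit 459) (nat_lit 5) (nat_lit 435) (nat_lit 417) (nat_lit 288)) (XT.nd (nat_lit 78) (nat_lit 0) (nat_lit 76) (XT.lf (nat_lit 76) (nat_lit 8513944357) (nat_lit 0) (nat_lit 186343677) (nat_lit 1672)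 (nat_lit 2044297342) (nat_lit 438) (nat_lit 5) (nat_lit 437) (nat_lit 5) (nat_lit 459) (nat_lit 5) (nat_lit 436) (nat_lit 417) (nat_lit 287)) (XT.lf (nat_lit 76) (nat_lit 3275164305) (nat_lit 0) (nat_lit 6713316111) (nat_lit 1672) (nat_lit 859489788) (nat_lit 439) (nat_lit 5) (nat_lit 438) (nat_lit 5) (nat_lit 460) (nat_lit 5) (nat_lit 437) (nat_lit 417) (nat_lit 286)))))) (XT.nd (nat_lit 390) (nat_lit 4332) (nat_lit 0) (XT.nd (nat_lit 156) (nat_lit 0) (nat_lit 76) (XT.nd (nat_lit 78) (nat_lit 0) (nat_lit 76) (XT.lf (nat_lit 0) (nat_lit 344681683) (nat_lit 1672) (nat_lit 2047942023) (nat_lit 1748) (nat_lit 8560756997) (nat_lit 416) (nat_lit 5) (nat_lit 438) (nat_lit 5) (nat_lit 439) (nat_lit 5) (nat_lit 438) (nat_lit 417) (nat_lit 285)) (XT.lf (nat_lit 0) (nat_lit 1582474832) (nat_lit 1672) (nat_lit 7457066915) (nat_lit 1748) (nat_lit 2020831145) (nat_lit 417) (nat_lit 5) (nat_lit 439) (nat_lit 5) (nat_lit 440)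 (nat_lit 5) (nat_lit 439) (nat_lit 417) (nat_lit 284))) (XT.nd (nat_lit 78) (nat_lit 0) (nat_lit 0) (XT.lf (nat_lit 0) (nat_lit 2859211597) (nat_lit 1672) (nat_lit 1802381771) (nat_lit 1748) (nat_lit 6507635685) (nat_lit 417) (nat_lit 5) (nat_lit 439) (nat_lit 5) (nat_lit 440) (nat_lit 5) (nat_lit 440) (nat_lit 417) (nat_lit 283)) (XT.nd (nat_lit 78) (nat_lit 0) (nat_lit 76) (XT.lf (nat_lit 76) (nat_lit 4005622882) (nat_lit 0) (nat_lit 166679906) (nat_lit 1748) (nat_lit 7107750880) (nat_lit 418) (nat_lit 5) (nat_lit 417) (nat_lit 5) (nat_lit 440) (nat_lit 5) (nat_lit 441) (nat_lit 417) (nat_lit 282)) (XT.lf (nat_lit 0) (nat_lit 5537565009) (nat_lit 1672) (nat_lit 1479951467) (nat_lit 76) (nat_lit 4375067691) (nat_lit 418) (nat_lit 5) (nat_lit 440) (nat_lit 5) (nat_lit 419) (nat_lit 5) (nat_lit 442) (nat_lit 417) (nat_lit 281))))) (XT.nd (nat_lit 234) (nat_lit 1064) (nat_lit 0) (XT.nd (nat_lit 78) (nat_lit 1748)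 (nat_lit 0) (XT.lf (nat_lit 0) (nat_lit 4475706990) (nat_lit 1672) (nat_lit 2469930479) (nat_lit 1748) (nat_lit 4561425135) (nat_lit 396) (nat_lit 5) (nat_lit 418) (nat_lit 5) (nat_lit 419) (nat_lit 5) (nat_lit 443) (nat_lit 417) (nat_lit 280)) (XT.nd (nat_lit 78) (nat_lit 1748) (nat_lit 0) (XT.lf (nat_lit 0) (nat_lit 8391512817) (nat_lit 1748) (nat_lit 1079774118) (nat_lit 76) (nat_lit 2152358127) (nat_lit 396) (nat_lit 5) (nat_lit 419) (nat_lit 5) (nat_lit 397) (nat_lit 5) (nat_lit 444) (nat_lit 417) (nat_lit 279)) (XT.lf (nat_lit 0) (nat_lit 5028136498) (nat_lit 1748) (nat_lit 4873019756) (nat_lit 1824) (nat_lit 1840713043) (nat_lit 373) (nat_lit 5) (nat_lit 396) (nat_lit 5) (nat_lit 397) (nat_lit 5) (nat_lit 445) (nat_lit 417) (nat_lit 278)))) (XT.nd (nat_lit 78) (nat_lit 1064) (nat_lit 0) (XT.lf (nat_lit 0) (nat_lit 11260632537) (nat_lit 1748) (nat_lit 173651536) (nat_lit 1824) (nat_lit 428315111) (nat_lit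 373) (nat_lit 5) (nat_lit 396) (nat_lit 5) (nat_lit 397) (nat_lit 5) (nat_lit 446) (nat_lit 417) (nat_lit 277)) (XT.nd (nat_lit 78) (nat_lit 0) (nat_lit 0) (XT.lf (nat_lit 0) (nat_lit 1052498185) (nat_lit 1064) (nat_lit 6327548603) (nat_lit 76) (nat_lit 4604503268) (nat_lit 359) (nat_lit 5) (nat_lit 373) (nat_lit 5) (nat_lit 360) (nat_lit 5) (nat_lit 447) (nat_lit 417) (nat_lit 276)) (XT.lf (nat_lit 0) (nat_lit 2548837656) (nat_lit 1064) (nat_lit 75931654) (nat_lit 76) (nat_lit 9484287705) (nat_lit 359) (nat_lit 5) (nat_lit 373) (nat_lit 5) (nat_lit 360) (nat_lit 5) (nat_lit 448) (nat_lit 417) (nat_lit 275))))))) (XT.nd (nat_lit 780) (nat_lit 4256) (nat_lit 0) (XT.nd (nat_lit 390) (nat_lit 2356) (nat_lit 0) (XT.nd (nat_lit 156) (nat_lit 836) (nat_lit 0) (XT.nd (nat_lit 78) (nat_lit 836) (nat_lit 0) (XT.lf (nat_lit 0) (nat_lit 4117897697) (nat_lit 988) (nat_lit 5878066910) (nat_lit 76) (nat_lit 2239240098) (nat_lit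 347) (nat_lit 5) (nat_lit 360) (nat_lit 5) (nat_lit 348) (nat_lit 5) (nat_lit 449) (nat_lit 417) (nat_lit 274)) (XT.lf (nat_lit 0) (nat_lit 533319800) (nat_lit 836) (nat_lit 5193256721) (nat_lit 912) (nat_lit 6637140415) (nat_lit 336) (nat_lit 5) (nat_lit 347) (nat_lit 5) (nat_lit 348) (nat_lit 5) (nat_lit 450) (nat_lit 417) (nat_lit 273))) (XT.nd (nat_lit 78) (nat_lit 836) (nat_lit 0) (XT.lf (nat_lit 0) (nat_lit 7140372471) (nat_lit 836) (nat_lit 253558589) (nat_lit 912) (nat_lit 5100344521) (nat_lit 336) (nat_lit 5) (nat_lit 347) (nat_lit 5) (nat_lit 348) (nat_lit 5) (nat_lit 451) (nat_lit 417) (nat_lit 272)) (XT.nd (nat_lit 78) (nat_lit 0) (nat_lit 0) (XT.lf (nat_lit 0) (nat_lit 1224853149) (nat_lit 836) (nat_lit 7896114531) (nat_lit 912) (nat_lit 3505957115) (nat_lit 325) (nat_lit 5) (nat_lit 336) (nat_lit 5) (nat_lit 337) (nat_lit 5) (nat_lit 452) (nat_lit 417) (nat_lit 271)) (XT.lf (nat_lit 0) (nat_lit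 7993872428) (nat_lit 836) (nat_lit 2913753334) (nat_lit 912) (nat_lit 1854105589) (nat_lit 325) (nat_lit 5) (nat_lit 336) (nat_lit 5) (nat_lit 337) (nat_lit 5) (nat_lit 453) (nat_lit 417) (nat_lit 270))))) (XT.nd (nat_lit 156) (nat_lit 1520) (nat_lit 0) (XT.nd (nat_lit 78) (nat_lit 76) (nat_lit 0) (XT.lf (nat_lit 0) (nat_lit 1998978659) (nat_lit 760) (nat_lit 10745827364) (nat_lit 836) (nat_lit 154138090) (nat_lit 315) (nat_lit 5) (nat_lit 325) (nat_lit 5) (nat_lit 326) (nat_lit 5) (nat_lit 454) (nat_lit 417) (nat_lit 269)) (XT.lf (nat_lit 0) (nat_lit 1598420721) (nat_lit 836) (nat_lit 4114530221) (nat_lit 76) (nat_lit 7324964438) (nat_lit 314) (nat_lit 5) (nat_lit 325) (nat_lit 5) (nat_lit 315) (nat_lit 5) (nat_lit 455) (nat_lit 417) (nat_lit 268))) (XT.nd (nat_lit 78) (nat_lit 760) (nat_lit 0) (XT.lf (nat_lit 0) (nat_lit 2830672616) (nat_lit 760) (nat_lit 559722358) (nat_lit 836) (nat_lit 9789127676) (nat_lit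 304) (nat_lit 5) (nat_lit 314) (nat_lit 5) (nat_lit 315) (nat_lit 5) (nat_lit 456) (nat_lit 417) (nat_lit 267)) (XT.nd (nat_lit 78) (nat_lit 760) (nat_lit 0) (XT.lf (nat_lit 0) (nat_lit 5264698686) (nat_lit 836) (nat_lit 3395738981) (nat_lit 76) (nat_lit 4662600008) (nat_lit 304) (nat_lit 5) (nat_lit 315) (nat_lit 5) (nat_lit 305) (nat_lit 5) (nat_lit 457) (nat_lit 417) (nat_lit 266)) (XT.lf (nat_lit 0) (nat_lit 3729676156) (nat_lit 760) (nat_lit 3463169133) (nat_lit 836) (nat_lit 6276255881) (nat_lit 294) (nat_lit 5) (nat_lit 304) (nat_lit 5) (nat_lit 305) (nat_lit 5) (nat_lit 458) (nat_lit 417) (nat_lit 265)))))) (XT.nd (nat_lit 390) (nat_lit 2736) (nat_lit 0) (XT.nd (nat_lit 156) (nat_lit 760) (nat_lit 0) (XT.nd (nat_lit 78) (nat_lit 760) (nat_lit 0) (XT.lf (nat_lit 0) (nat_lit 9183007774) (nat_lit 836) (nat_lit 2598203636) (nat_lit 76) (nat_lit 1836410665) (nat_lit 294) (nat_lit 5) (nat_lit 305) (nat_lit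 5) (nat_lit 295) (nat_lit 5) (nat_lit 459) (nat_lit 417) (nat_lit 264)) (XT.lf (nat_lit 0) (nat_lit 4712836121) (nat_lit 760) (nat_lit 6542476081) (nat_lit 836) (nat_lit 2512959522) (nat_lit 284) (nat_lit 5) (nat_lit 294) (nat_lit 5) (nat_lit 295) (nat_lit 5) (nat_lit 460) (nat_lit 417) (nat_lit 263))) (XT.nd (nat_lit 78) (nat_lit 760) (nat_lit 0) (XT.lf (nat_lit 0) (nat_lit 12193513325) (nat_lit 760) (nat_lit 1181932528) (nat_lit 836) (nat_lit 546365848) (nat_lit 284) (nat_lit 5) (nat_lit 294) (nat_lit 5) (nat_lit 295) (nat_lit 5) (nat_lit 461) (nat_lit 417) (nat_lit 262)) (XT.nd (nat_lit 78) (nat_lit 0) (nat_lit 0) (XT.lf (nat_lit 0) (nat_lit 1495297655) (nat_lit 760) (nat_lit 8305580631) (nat_lit 76) (nat_lit 4276261859) (nat_lit 274) (nat_lit 5) (nat_lit 284) (nat_lit 5) (nat_lit 275) (nat_lit 5) (nat_lit 462) (nat_lit 417) (nat_lit 261)) (XT.lf (nat_lit 0) (nat_lit 3579208041) (nat_lit 760) (nat_lit 813882091)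 (nat_lit 76) (nat_lit 9842242917) (nat_lit 274) (nat_lit 5) (nat_lit 284) (nat_lit 5) (nat_lit 275) (nat_lit 5) (nat_lit 463) (nat_lit 417) (nat_lit 260))))) (XT.nd (nat_lit 234) (nat_lit 1368) (nat_lit 0) (XT.nd (nat_lit 78) (nat_lit 684) (nat_lit 0) (XT.lf (nat_lit 0) (nat_lit 5746651320) (nat_lit 760) (nat_lit 7496983538) (nat_lit 76) (nat_lit 1152222478) (nat_lit 265) (nat_lit 5) (nat_lit 275) (nat_lit 5) (nat_lit 266) (nat_lit 5) (nat_lit 464) (nat_lit 417) (nat_lit 259)) (XT.nd (nat_lit 78) (nat_lit 0) (nat_lit 0) (XT.lf (nat_lit 0) (nat_lit 178895576) (nat_lit 684) (nat_lit 7803857460) (nat_lit 760) (nat_lit 6576337409) (nat_lit 256) (nat_lit 5) (nat_lit 265) (nat_lit 5) (nat_lit 266) (nat_lit 5) (nat_lit 465) (nat_lit 417) (nat_lit 258)) (XT.lf (nat_lit 0) (nat_lit 8098237693) (nat_lit 684) (nat_lit 2205333745) (nat_lit 760) (nat_lit 4421221322) (nat_lit 256) (nat_lit 5) (nat_lit 265) (nat_lit 5) (nat_lit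 266) (nat_lit 5) (nat_lit 466) (nat_lit 417) (nat_lit 257)))) (XT.nd (nat_lit 78) (nat_lit 684) (nat_lit 0) (XT.lf (nat_lit 0) (nat_lit 1264334593) (nat_lit 684) (nat_lit 11427317841) (nat_lit 760) (nat_lit 2201744114) (nat_lit 247) (nat_lit 5) (nat_lit 256) (nat_lit 5) (nat_lit 257) (nat_lit 5) (nat_lit 467) (nat_lit 417) (nat_lit 256)) (XT.nd (nat_lit 78) (nat_lit 608) (nat_lit 0) (XT.lf (nat_lit 0) (nat_lit 110607308) (nat_lit 760) (nat_lit 5688627439) (nat_lit 76) (nat_lit 9265147793) (nat_lit 246) (nat_lit 5) (nat_lit 256) (nat_lit 5) (nat_lit 247) (nat_lit 5) (nat_lit 468) (nat_lit 417) (nat_lit 255)) (XT.lf (nat_lit 0) (nat_lit 2416245313) (nat_lit 608) (nat_lit 29324323) (nat_lit 684) (nat_lit 12792814740) (nat_lit 238) (nat_lit 5) (nat_lit 246) (nat_lit 5) (nat_lit 247) (nat_lit 5) (nat_lit 469) (nat_lit 417) (nat_lit 254))))))))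
noncomputable def xc190 : XT := (XT.nd (nat_lit 1638) (nat_lit 2280) (nat_lit 0) (XT.nd (nat_lit 780) (nat_lit 3116) (nat_lit 0) (XT.nd (nat_lit 390) (nat_lit 1748) (nat_lit 0) (XT.nd (nat_lit 156) (nat_lit 608) (nat_lit 0) (XT.nd (nat_lit 78) (nat_lit 608) (nat_lit 0) (XT.lf (nat_lit 0) (nat_lit 4893917208) (nat_lit 684) (nat_lit 4704641796) (nat_lit 76) (nat_lit 5815977546) (nat_lit 238) (nat_lit 5) (nat_lit 247) (nat_lit 5) (nat_lit 239) (nat_lit 5) (nat_lit 470) (nat_lit 417) (nat_lit 253)) (XT.lf (nat_lit 0) (nat_lit 3611005850) (nat_lit 608) (nat_lit 3794295096) (nat_lit 684) (nat_lit 8188633376) (nat_lit 230) (nat_lit 5) (nat_lit 238) (nat_lit 5) (nat_lit 239) (nat_lit 5) (nat_lit 471) (nat_lit 417) (nat_lit 252))) (XT.nd (nat_lit 78) (nat_lit 608) (nat_lit 0) (XT.lf (nat_lit 0) (nat_lit 10003028227) (nat_lit 684) (nat_lit 3645033023) (nat_lit 76) (nat_lit 2128140348) (nat_lit 230) (nat_lit 5) (nat_lit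 239) (nat_lit 5) (nat_lit 231) (nat_lit 5) (nat_lit 472) (nat_lit 417) (nat_lit 251)) (XT.nd (nat_lit 78) (nat_lit 0) (nat_lit 0) (XT.lf (nat_lit 0) (nat_lit 4887345218) (nat_lit 608) (nat_lit 7812942553) (nat_lit 684) (nat_lit 3260878680) (nat_lit 222) (nat_lit 5) (nat_lit 230) (nat_lit 5) (nat_lit 231) (nat_lit 5) (nat_lit 473) (nat_lit 417) (nat_lit 250)) (XT.lf (nat_lit 0) (nat_lit 13628608645) (nat_lit 608) (nat_lit 1838171469) (nat_lit 684) (nat_lit 682748451) (nat_lit 222) (nat_lit 5) (nat_lit 230) (nat_lit 5) (nat_lit 231) (nat_lit 5) (nat_lit 474) (nat_lit 417) (nat_lit 249))))) (XT.nd (nat_lit 156) (nat_lit 1064) (nat_lit 0) (XT.nd (nat_lit 78) (nat_lit 0) (nat_lit 0) (XT.lf (nat_lit 0) (nat_lit 1980980726) (nat_lit 684) (nat_lit 10107308054) (nat_lit 76) (nat_lit 4251928475) (nat_lit 213) (nat_lit 5) (nat_lit 222) (nat_lit 5) (nat_lit 214) (nat_lit 5) (nat_lit 475) (nat_lit 417) (nat_lit 248)) (XT.lf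 (nat_lit 0) (nat_lit 4709090088) (nat_lit 684) (nat_lit 1366374520) (nat_lit 76) (nat_lit 10458763400) (nat_lit 213) (nat_lit 5) (nat_lit 222) (nat_lit 5) (nat_lit 214) (nat_lit 5) (nat_lit 476) (nat_lit 417) (nat_lit 247))) (XT.nd (nat_lit 78) (nat_lit 532) (nat_lit 0) (XT.lf (nat_lit 0) (nat_lit 7533257739) (nat_lit 608) (nat_lit 9093389170) (nat_lit 76) (nat_lit 104645574) (nat_lit 206) (nat_lit 5) (nat_lit 214) (nat_lit 5) (nat_lit 207) (nat_lit 5) (nat_lit 477) (nat_lit 417) (nat_lit 246)) (XT.nd (nat_lit 78) (nat_lit 532) (nat_lit 0) (XT.lf (nat_lit 0) (nat_lit 10454673562) (nat_lit 608) (nat_lit 142666767) (nat_lit 76) (nat_lit 6334145987) (nat_lit 206) (nat_lit 5) (nat_lit 214) (nat_lit 5) (nat_lit 207) (nat_lit 5) (nat_lit 478) (nat_lit 417) (nat_lit 245)) (XT.lf (nat_lit 0) (nat_lit 9095531595) (nat_lit 532) (nat_lit 4389511055) (nat_lit 608) (nat_lit 3649634175) (nat_lit 199) (nat_lit 5) (nat_lit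 206) (nat_lit 5) (nat_lit 207) (nat_lit 5) (nat_lit 479) (nat_lit 417) (nat_lit 244)))))) (XT.nd (nat_lit 390) (nat_lit 1520) (nat_lit 0) (XT.nd (nat_lit 156) (nat_lit 988) (nat_lit 0) (XT.nd (nat_lit 78) (nat_lit 76) (nat_lit 0) (XT.lf (nat_lit 0) (nat_lit 1170333208) (nat_lit 532) (nat_lit 15418413066) (nat_lit 608) (nat_lit 752933560) (nat_lit 192) (nat_lit 5) (nat_lit 199) (nat_lit 5) (nat_lit 200) (nat_lit 5) (nat_lit 480) (nat_lit 417) (nat_lit 243)) (XT.lf (nat_lit 0) (nat_lit 2247788959) (nat_lit 608) (nat_lit 6933448432) (nat_lit 76) (nat_lit 8369803448) (nat_lit 191) (nat_lit 5) (nat_lit 199) (nat_lit 5) (nat_lit 192) (nat_lit 5) (nat_lit 481) (nat_lit 417) (nat_lit 242))) (XT.nd (nat_lit 78) (nat_lit 456) (nat_lit 0) (XT.lf (nat_lit 0) (nat_lit 2506350852) (nat_lit 532) (nat_lit 2800130344) (nat_lit 608) (nat_lit 12457850636) (nat_lit 184) (nat_lit 5) (nat_lit 191) (nat_lit 5) (nat_lit 192) (nat_lit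 5) (nat_lit 482) (nat_lit 417) (nat_lit 241)) (XT.nd (nat_lit 78) (nat_lit 456) (nat_lit 0) (XT.lf (nat_lit 0) (nat_lit 8489091949) (nat_lit 608) (nat_lit 5787234897) (nat_lit 76) (nat_lit 3704309894) (nat_lit 184) (nat_lit 5) (nat_lit 192) (nat_lit 5) (nat_lit 185) (nat_lit 5) (nat_lit 483) (nat_lit 417) (nat_lit 240)) (XT.lf (nat_lit 0) (nat_lit 3894855274) (nat_lit 456) (nat_lit 7876322486) (nat_lit 532) (nat_lit 6429376457) (nat_lit 178) (nat_lit 5) (nat_lit 184) (nat_lit 5) (nat_lit 185) (nat_lit 5) (nat_lit 484) (nat_lit 417) (nat_lit 239))))) (XT.nd (nat_lit 234) (nat_lit 912) (nat_lit 0) (XT.nd (nat_lit 78) (nat_lit 608) (nat_lit 0) (XT.lf (nat_lit 0) (nat_lit 13838495886) (nat_lit 456) (nat_lit 1311324362) (nat_lit 532) (nat_lit 3274434368) (nat_lit 178) (nat_lit 5) (nat_lit 184) (nat_lit 5) (nat_lit 185) (nat_lit 5) (nat_lit 485) (nat_lit 417) (nat_lit 238)) (XT.nd (nat_lit 78) (nat_lit 0) (nat_lit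 0) (XT.lf (nat_lit 0) (nat_lit 6692131) (nat_lit 608) (nat_lit 13297883089) (nat_lit 76) (nat_lit 5346616964) (nat_lit 170) (nat_lit 5) (nat_lit 178) (nat_lit 5) (nat_lit 171) (nat_lit 5) (nat_lit 486) (nat_lit 417) (nat_lit 237)) (XT.lf (nat_lit 0) (nat_lit 3341547922) (nat_lit 608) (nat_lit 3369817122) (nat_lit 76) (nat_lit 12170234257) (nat_lit 170) (nat_lit 5) (nat_lit 178) (nat_lit 5) (nat_lit 171) (nat_lit 5) (nat_lit 487) (nat_lit 417) (nat_lit 236)))) (XT.nd (nat_lit 78) (nat_lit 456) (nat_lit 0) (XT.lf (nat_lit 0) (nat_lit 6780252623) (nat_lit 532) (nat_lit 12280083565) (nat_lit 76) (nat_lit 55537988) (nat_lit 164) (nat_lit 5) (nat_lit 171) (nat_lit 5) (nat_lit 165) (nat_lit 5) (nat_lit 488) (nat_lit 417) (nat_lit 235)) (XT.nd (nat_lit 78) (nat_lit 456) (nat_lit 0) (XT.lf (nat_lit 0) (nat_lit 10347406917) (nat_lit 532) (nat_lit 2118160746) (nat_lit 76) (nat_lit 6888075976) (nat_lit 164) (nat_lit 5)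 (nat_lit 171) (nat_lit 5) (nat_lit 165) (nat_lit 5) (nat_lit 489) (nat_lit 417) (nat_lit 234)) (XT.lf (nat_lit 0) (nat_lit 8346295222) (nat_lit 456) (nat_lit 5686412847) (nat_lit 532) (nat_lit 5562526897) (nat_lit 158) (nat_lit 5) (nat_lit 164) (nat_lit 5) (nat_lit 165) (nat_lit 5) (nat_lit 490) (nat_lit 417) (nat_lit 233))))))) (XT.nd (nat_lit 53742) (nat_lit 0) (nat_lit 23256) (XT.nd (nat_lit 390) (nat_lit 912) (nat_lit 0) (XT.nd (nat_lit 156) (nat_lit 836) (nat_lit 0) (XT.nd (nat_lit 78) (nat_lit 532) (nat_lit 0) (XT.lf (nat_lit 0) (nat_lit 17806673629) (nat_lit 532) (nat_lit 810922593) (nat_lit 76) (nat_lit 1223765228) (nat_lit 158) (nat_lit 5) (nat_lit 165) (nat_lit 5) (nat_lit 159) (nat_lit 5) (nat_lit 491) (nat_lit 417) (nat_lit 232)) (XT.lf (nat_lit 0) (nat_lit 1638698590) (nat_lit 532) (nat_lit 10183051695) (nat_lit 76) (nat_lit 8268549552) (nat_lit 151) (nat_lit 5) (nat_lit 158) (nat_lit 5) (nat_lit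 152) (nat_lit 5) (nat_lit 492) (nat_lit 417) (nat_lit 231))) (XT.nd (nat_lit 78) (nat_lit 380) (nat_lit 0) (XT.lf (nat_lit 0) (nat_lit 489512793) (nat_lit 456) (nat_lit 4870322413) (nat_lit 532) (nat_lit 14984084614) (nat_lit 145) (nat_lit 5) (nat_lit 151) (nat_lit 5) (nat_lit 152) (nat_lit 5) (nat_lit 493) (nat_lit 417) (nat_lit 230)) (XT.nd (nat_lit 78) (nat_lit 380) (nat_lit 0) (XT.lf (nat_lit 0) (nat_lit 9231497236) (nat_lit 532) (nat_lit 9112671751) (nat_lit 76) (nat_lit 2256923473) (nat_lit 145) (nat_lit 5) (nat_lit 152) (nat_lit 5) (nat_lit 146) (nat_lit 5) (nat_lit 494) (nat_lit 417) (nat_lit 229)) (XT.lf (nat_lit 0) (nat_lit 1825665217) (nat_lit 380) (nat_lit 11392075606) (nat_lit 456) (nat_lit 7644927026) (nat_lit 140) (nat_lit 5) (nat_lit 145) (nat_lit 5) (nat_lit 146) (nat_lit 5) (nat_lit 495) (nat_lit 417) (nat_lit 228))))) (XT.nd (nat_lit 156) (nat_lit 380) (nat_lit 0) (XT.nd (nat_lit 78) (nat_lit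 532) (nat_lit 0) (XT.lf (nat_lit 0) (nat_lit 13096435723) (nat_lit 380) (nat_lit 4241537927) (nat_lit 456) (nat_lit 3790418029) (nat_lit 140) (nat_lit 5) (nat_lit 145) (nat_lit 5) (nat_lit 146) (nat_lit 5) (nat_lit 496) (nat_lit 417) (nat_lit 227)) (XT.lf (nat_lit 0) (nat_lit 173410059) (nat_lit 532) (nat_lit 18194260249) (nat_lit 76) (nat_lit 3031061866) (nat_lit 133) (nat_lit 5) (nat_lit 140) (nat_lit 5) (nat_lit 134) (nat_lit 5) (nat_lit 497) (nat_lit 417) (nat_lit 226))) (XT.nd (nat_lit 78) (nat_lit 380) (nat_lit 0) (XT.lf (nat_lit 0) (nat_lit 4241406536) (nat_lit 532) (nat_lit 6962256832) (nat_lit 76) (nat_lit 10468804199) (nat_lit 133) (nat_lit 5) (nat_lit 140) (nat_lit 5) (nat_lit 134) (nat_lit 5) (nat_lit 498) (nat_lit 417) (nat_lit 225)) (XT.nd (nat_lit 53040) (nat_lit 0) (nat_lit 24548) (XT.lf (nat_lit 0) (nat_lit 4544368965) (nat_lit 380) (nat_lit 3869284162) (nat_lit 456) (nat_lit 13537568786) (nat_lit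 128) (nat_lit 5) (nat_lit 133) (nat_lit 5) (nat_lit 134) (nat_lit 5) (nat_lit 499) (nat_lit 417) (nat_lit 224)) (XT.lf (nat_lit 0) (nat_lit 398877183) (nat_lit 1596) (nat_lit 2110017133) (nat_lit 1596) (nat_lit 2110017133) (nat_lit 451) (nat_lit 3) (nat_lit 472) (nat_lit 3) (nat_lit 472) (nat_lit 5) (nat_lit 418) (nat_lit 418) (nat_lit 304)))))) (XT.nd (nat_lit 390) (nat_lit 1292) (nat_lit 0) (XT.nd (nat_lit 156) (nat_lit 0) (nat_lit 76) (XT.nd (nat_lit 78) (nat_lit 0) (nat_lit 76) (XT.lf (nat_lit 76) (nat_lit 131950067) (nat_lit 0) (nat_lit 1500709186) (nat_lit 1596) (nat_lit 7680547904) (nat_lit 452) (nat_lit 5) (nat_lit 451) (nat_lit 3) (nat_lit 472) (nat_lit 5) (nat_lit 419) (nat_lit 418) (nat_lit 303)) (XT.lf (nat_lit 0) (nat_lit 2504644289) (nat_lit 1520) (nat_lit 4786809655) (nat_lit 1596) (nat_lit 2098249458) (nat_lit 452) (nat_lit 5) (nat_lit 472) (nat_lit 5) (nat_lit 473) (nat_lit 5) (nat_lit 420)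 (nat_lit 418) (nat_lit 302))) (XT.nd (nat_lit 78) (nat_lit 0) (nat_lit 0) (XT.lf (nat_lit 0) (nat_lit 3382759991) (nat_lit 1520) (nat_lit 325900796) (nat_lit 1596) (nat_lit 5759306679) (nat_lit 452) (nat_lit 5) (nat_lit 472) (nat_lit 5) (nat_lit 473) (nat_lit 5) (nat_lit 421) (nat_lit 418) (nat_lit 301)) (XT.nd (nat_lit 78) (nat_lit 0) (nat_lit 76) (XT.lf (nat_lit 76) (nat_lit 4268950514) (nat_lit 0) (nat_lit 16373462) (nat_lit 1596) (nat_lit 5262346598) (nat_lit 453) (nat_lit 5) (nat_lit 452) (nat_lit 5) (nat_lit 473) (nat_lit 5) (nat_lit 422) (nat_lit 418) (nat_lit 300)) (XT.lf (nat_lit 0) (nat_lit 5212051942) (nat_lit 1520) (nat_lit 704839142) (nat_lit 1596) (nat_lit 3711965661) (nat_lit 453) (nat_lit 5) (nat_lit 473) (nat_lit 5) (nat_lit 474) (nat_lit 5) (nat_lit 423) (nat_lit 418) (nat_lit 299))))) (XT.nd (nat_lit 234) (nat_lit 1444) (nat_lit 0) (XT.nd (nat_lit 78) (nat_lit 0) (nat_lit 76) (XT.lf (nat_lit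 76) (nat_lit 4001448270) (nat_lit 0) (nat_lit 2161920692) (nat_lit 1596) (nat_lit 3548187625) (nat_lit 454) (nat_lit 5) (nat_lit 453) (nat_lit 5) (nat_lit 474) (nat_lit 5) (nat_lit 424) (nat_lit 418) (nat_lit 298)) (XT.nd (nat_lit 78) (nat_lit 0) (nat_lit 0) (XT.lf (nat_lit 0) (nat_lit 7129643447) (nat_lit 1520) (nat_lit 1007088614) (nat_lit 1596) (nat_lit 1659270563) (nat_lit 454) (nat_lit 5) (nat_lit 474) (nat_lit 5) (nat_lit 475) (nat_lit 5) (nat_lit 425) (nat_lit 418) (nat_lit 297)) (XT.lf (nat_lit 76) (nat_lit 3814102212) (nat_lit 0) (nat_lit 4320946976) (nat_lit 1596) (nat_lit 1746702886) (nat_lit 455) (nat_lit 5) (nat_lit 454) (nat_lit 5) (nat_lit 475) (nat_lit 5) (nat_lit 426) (nat_lit 418) (nat_lit 296)))) (XT.nd (nat_lit 78) (nat_lit 1520) (nat_lit 0) (XT.lf (nat_lit 76) (nat_lit 8733849935) (nat_lit 0) (nat_lit 414499098) (nat_lit 1596) (nat_lit 821122159) (nat_lit 455) (nat_lit 5) (nat_lit 454) (nat_lit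 5) (nat_lit 475) (nat_lit 5) (nat_lit 427) (nat_lit 418) (nat_lit 295)) (XT.nd (nat_lit 78) (nat_lit 0) (nat_lit 0) (XT.lf (nat_lit 0) (nat_lit 150230773) (nat_lit 1596) (nat_lit 6352608001) (nat_lit 1672) (nat_lit 3555522479) (nat_lit 434) (nat_lit 5) (nat_lit 455) (nat_lit 5) (nat_lit 456) (nat_lit 5) (nat_lit 428) (nat_lit 418) (nat_lit 294)) (XT.lf (nat_lit 0) (nat_lit 1122722517) (nat_lit 1596) (nat_lit 1406295904) (nat_lit 1672) (nat_lit 7620057811) (nat_lit 434) (nat_lit 5) (nat_lit 455) (nat_lit 5) (nat_lit 456) (nat_lit 5) (nat_lit 429) (nat_lit 418) (nat_lit 293))))))))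
noncomputable def xc191 : XT := (XT.nd (nat_lit 1638) (nat_lit 8284) (nat_lit 0) (XT.nd (nat_lit 780) (nat_lit 5244) (nat_lit 0) (XT.nd (nat_lit 390) (nat_lit 1444) (nat_lit 0) (XT.nd (nat_lit 156) (nat_lit 0) (nat_lit 0) (XT.nd (nat_lit 78) (nat_lit 0) (nat_lit 0) (XT.lf (nat_lit 0) (nat_lit 2130589154) (nat_lit 1596) (nat_lit 6576113414) (nat_lit 1672) (nat_lit 1534594049) (nat_lit 435) (nat_lit 5) (nat_lit 456) (nat_lit 5) (nat_lit 457) (nat_lit 5) (nat_lit 430) (nat_lit 418) (nat_lit 292)) (XT.lf (nat_lit 0) (nat_lit 3167144872) (nat_lit 1596) (nat_lit 1506822759) (nat_lit 1672) (nat_lit 5661232562) (nat_lit 435) (nat_lit 5) (nat_lit 456) (nat_lit 5) (nat_lit 457) (nat_lit 5) (nat_lit 431) (nat_lit 418) (nat_lit 291))) (XT.nd (nat_lit 78) (nat_lit 0) (nat_lit 76) (XT.lf (nat_lit 76) (nat_lit 3700629572) (nat_lit 0) (nat_lit 530460251) (nat_lit 1672) (nat_lit 6199768091) (nat_lit 436) (nat_lit 5) (nat_lit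 435) (nat_lit 5) (nat_lit 457) (nat_lit 5) (nat_lit 432) (nat_lit 418) (nat_lit 290)) (XT.nd (nat_lit 78) (nat_lit 0) (nat_lit 0) (XT.lf (nat_lit 0) (nat_lit 5333419666) (nat_lit 1596) (nat_lit 1531701083) (nat_lit 1672) (nat_lit 3662974973) (nat_lit 436) (nat_lit 5) (nat_lit 457) (nat_lit 5) (nat_lit 458) (nat_lit 5) (nat_lit 433) (nat_lit 418) (nat_lit 289)) (XT.lf (nat_lit 76) (nat_lit 3805360803) (nat_lit 0) (nat_lit 2663921003) (nat_lit 1672) (nat_lit 4157775643) (nat_lit 437) (nat_lit 5) (nat_lit 436) (nat_lit 5) (nat_lit 458) (nat_lit 5) (nat_lit 434) (nat_lit 418) (nat_lit 288))))) (XT.nd (nat_lit 156) (nat_lit 1596) (nat_lit 0) (XT.nd (nat_lit 78) (nat_lit 0) (nat_lit 0) (XT.lf (nat_lit 0) (nat_lit 7632282664) (nat_lit 1596) (nat_lit 1480583090) (nat_lit 1672) (nat_lit 1615052928) (nat_lit 437) (nat_lit 5) (nat_lit 458) (nat_lit 5) (nat_lit 459) (nat_lit 5) (nat_lit 435) (nat_lit 418) (nat_lit 287))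 (XT.lf (nat_lit 76) (nat_lit 3990158058) (nat_lit 0) (nat_lit 4855804988) (nat_lit 1672) (nat_lit 1984294236) (nat_lit 438) (nat_lit 5) (nat_lit 437) (nat_lit 5) (nat_lit 459) (nat_lit 5) (nat_lit 436) (nat_lit 418) (nat_lit 286))) (XT.nd (nat_lit 78) (nat_lit 1596) (nat_lit 0) (XT.lf (nat_lit 76) (nat_lit 9578577453) (nat_lit 0) (nat_lit 499385570) (nat_lit 1672) (nat_lit 856807074) (nat_lit 438) (nat_lit 5) (nat_lit 437) (nat_lit 5) (nat_lit 459) (nat_lit 5) (nat_lit 437) (nat_lit 418) (nat_lit 285)) (XT.nd (nat_lit 78) (nat_lit 0) (nat_lit 0) (XT.lf (nat_lit 0) (nat_lit 327312402) (nat_lit 1672) (nat_lit 6787103608) (nat_lit 1748) (nat_lit 3926168556) (nat_lit 416) (nat_lit 5) (nat_lit 438) (nat_lit 5) (nat_lit 439) (nat_lit 5) (nat_lit 438) (nat_lit 418) (nat_lit 284)) (XT.lf (nat_lit 0) (nat_lit 1520687254) (nat_lit 1672) (nat_lit 1175698487) (nat_lit 1748) (nat_lit 8452083281) (nat_lit 416) (nat_lit 5)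 (nat_lit 438) (nat_lit 5) (nat_lit 439) (nat_lit 5) (nat_lit 439) (nat_lit 418) (nat_lit 283)))))) (XT.nd (nat_lit 390) (nat_lit 3724) (nat_lit 0) (XT.nd (nat_lit 156) (nat_lit 1596) (nat_lit 0) (XT.nd (nat_lit 78) (nat_lit 0) (nat_lit 0) (XT.lf (nat_lit 0) (nat_lit 2764612663) (nat_lit 1672) (nat_lit 6673796924) (nat_lit 1748) (nat_lit 1819575647) (nat_lit 417) (nat_lit 5) (nat_lit 439) (nat_lit 5) (nat_lit 440) (nat_lit 5) (nat_lit 440) (nat_lit 418) (nat_lit 282)) (XT.lf (nat_lit 0) (nat_lit 4044325568) (nat_lit 1672) (nat_lit 924300652) (nat_lit 1748) (nat_lit 6400854946) (nat_lit 417) (nat_lit 5) (nat_lit 439) (nat_lit 5) (nat_lit 440) (nat_lit 5) (nat_lit 441) (nat_lit 418) (nat_lit 281))) (XT.nd (nat_lit 78) (nat_lit 1596) (nat_lit 0) (XT.lf (nat_lit 76) (nat_lit 4993850089) (nat_lit 0) (nat_lit 373608308) (nat_lit 1748) (nat_lit 6115399533) (nat_lit 418) (nat_lit 5) (nat_lit 417) (nat_lit 5) (nat_lit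 440) (nat_lit 5) (nat_lit 442) (nat_lit 418) (nat_lit 280)) (XT.nd (nat_lit 78) (nat_lit 1672) (nat_lit 0) (XT.lf (nat_lit 0) (nat_lit 6736931683) (nat_lit 1672) (nat_lit 595596150) (nat_lit 76) (nat_lit 4265584122) (nat_lit 418) (nat_lit 5) (nat_lit 440) (nat_lit 5) (nat_lit 419) (nat_lit 5) (nat_lit 443) (nat_lit 418) (nat_lit 279)) (XT.lf (nat_lit 0) (nat_lit 5473162618) (nat_lit 1672) (nat_lit 2684552532) (nat_lit 1748) (nat_lit 3557484635) (nat_lit 396) (nat_lit 5) (nat_lit 418) (nat_lit 5) (nat_lit 419) (nat_lit 5) (nat_lit 444) (nat_lit 418) (nat_lit 278))))) (XT.nd (nat_lit 234) (nat_lit 912) (nat_lit 0) (XT.nd (nat_lit 78) (nat_lit 2812) (nat_lit 0) (XT.lf (nat_lit 0) (nat_lit 9610413850) (nat_lit 1748) (nat_lit 188606561) (nat_lit 76) (nat_lit 2035545968) (nat_lit 396) (nat_lit 5) (nat_lit 419) (nat_lit 5) (nat_lit 397) (nat_lit 5) (nat_lit 445) (nat_lit 418) (nat_lit 277)) (XT.nd (nat_lit 78) (nat_lit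 1064) (nat_lit 0) (XT.lf (nat_lit 0) (nat_lit 6035457247) (nat_lit 1748) (nat_lit 5100070952) (nat_lit 1824) (nat_lit 819931733) (nat_lit 373) (nat_lit 5) (nat_lit 396) (nat_lit 5) (nat_lit 397) (nat_lit 5) (nat_lit 446) (nat_lit 418) (nat_lit 276)) (XT.lf (nat_lit 0) (nat_lit 295786460) (nat_lit 988) (nat_lit 298242163) (nat_lit 1064) (nat_lit 11484876080) (nat_lit 359) (nat_lit 5) (nat_lit 372) (nat_lit 5) (nat_lit 373) (nat_lit 5) (nat_lit 447) (nat_lit 418) (nat_lit 275)))) (XT.nd (nat_lit 78) (nat_lit 912) (nat_lit 0) (XT.lf (nat_lit 0) (nat_lit 2081842412) (nat_lit 1064) (nat_lit 5535567601) (nat_lit 76) (nat_lit 4586175365) (nat_lit 359) (nat_lit 5) (nat_lit 373) (nat_lit 5) (nat_lit 360) (nat_lit 5) (nat_lit 448) (nat_lit 418) (nat_lit 274)) (XT.nd (nat_lit 78) (nat_lit 0) (nat_lit 0) (XT.lf (nat_lit 0) (nat_lit 834009439) (nat_lit 912) (nat_lit 2759743700) (nat_lit 988) (nat_lit 8737126052) (nat_lit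 347) (nat_lit 5) (nat_lit 359) (nat_lit 5) (nat_lit 360) (nat_lit 5) (nat_lit 449) (nat_lit 418) (nat_lit 273)) (XT.lf (nat_lit 0) (nat_lit 5174683236) (nat_lit 988) (nat_lit 5080539729) (nat_lit 76) (nat_lit 2204726507) (nat_lit 347) (nat_lit 5) (nat_lit 360) (nat_lit 5) (nat_lit 348) (nat_lit 5) (nat_lit 450) (nat_lit 418) (nat_lit 272))))))) (XT.nd (nat_lit 780) (nat_lit 4256) (nat_lit 0) (XT.nd (nat_lit 390) (nat_lit 1520) (nat_lit 0) (XT.nd (nat_lit 156) (nat_lit 1672) (nat_lit 0) (XT.nd (nat_lit 78) (nat_lit 0) (nat_lit 0) (XT.lf (nat_lit 0) (nat_lit 1453054397) (nat_lit 836) (nat_lit 5349277090) (nat_lit 912) (nat_lit 5788973774) (nat_lit 336) (nat_lit 5) (nat_lit 347) (nat_lit 5) (nat_lit 348) (nat_lit 5) (nat_lit 451) (nat_lit 418) (nat_lit 271)) (XT.lf (nat_lit 0) (nat_lit 8174423255) (nat_lit 836) (nat_lit 309762345) (nat_lit 912) (nat_lit 4240675481) (nat_lit 336) (nat_lit 5) (nat_lit 347) (nat_lit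 5) (nat_lit 348) (nat_lit 5) (nat_lit 452) (nat_lit 418) (nat_lit 270))) (XT.nd (nat_lit 78) (nat_lit 836) (nat_lit 0) (XT.lf (nat_lit 0) (nat_lit 2154232945) (nat_lit 836) (nat_lit 8078601669) (nat_lit 912) (nat_lit 2627596104) (nat_lit 325) (nat_lit 5) (nat_lit 336) (nat_lit 5) (nat_lit 337) (nat_lit 5) (nat_lit 453) (nat_lit 418) (nat_lit 269)) (XT.nd (nat_lit 78) (nat_lit 836) (nat_lit 0) (XT.lf (nat_lit 0) (nat_lit 9040889810) (nat_lit 836) (nat_lit 2996111585) (nat_lit 912) (nat_lit 961305196) (nat_lit 325) (nat_lit 5) (nat_lit 336) (nat_lit 5) (nat_lit 337) (nat_lit 5) (nat_lit 454) (nat_lit 418) (nat_lit 268)) (XT.lf (nat_lit 0) (nat_lit 750261945) (nat_lit 836) (nat_lit 10204497931) (nat_lit 76) (nat_lit 2183657083) (nat_lit 314) (nat_lit 5) (nat_lit 325) (nat_lit 5) (nat_lit 315) (nat_lit 5) (nat_lit 455) (nat_lit 418) (nat_lit 267))))) (XT.nd (nat_lit 156) (nat_lit 760) (nat_lit 0) (XT.nd (nat_lit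 78) (nat_lit 760) (nat_lit 0) (XT.lf (nat_lit 0) (nat_lit 2518056604) (nat_lit 836) (nat_lit 3302265874) (nat_lit 76) (nat_lit 7460188021) (nat_lit 314) (nat_lit 5) (nat_lit 325) (nat_lit 5) (nat_lit 315) (nat_lit 5) (nat_lit 456) (nat_lit 418) (nat_lit 266)) (XT.lf (nat_lit 0) (nat_lit 3775955789) (nat_lit 760) (nat_lit 558279142) (nat_lit 836) (nat_lit 9090955729) (nat_lit 304) (nat_lit 5) (nat_lit 314) (nat_lit 5) (nat_lit 315) (nat_lit 5) (nat_lit 457) (nat_lit 418) (nat_lit 265))) (XT.nd (nat_lit 78) (nat_lit 760) (nat_lit 0) (XT.lf (nat_lit 0) (nat_lit 6228928062) (nat_lit 836) (nat_lit 2574918356) (nat_lit 76) (nat_lit 4768079379) (nat_lit 304) (nat_lit 5) (nat_lit 315) (nat_lit 5) (nat_lit 305) (nat_lit 5) (nat_lit 458) (nat_lit 418) (nat_lit 264)) (XT.nd (nat_lit 78) (nat_lit 0) (nat_lit 0) (XT.lf (nat_lit 0) (nat_lit 4687158140) (nat_lit 760) (nat_lit 3497369883) (nat_lit 836) (nat_lit 5536612454)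 (nat_lit 294) (nat_lit 5) (nat_lit 304) (nat_lit 5) (nat_lit 305) (nat_lit 5) (nat_lit 459) (nat_lit 418) (nat_lit 263)) (XT.lf (nat_lit 0) (nat_lit 10198092909) (nat_lit 836) (nat_lit 1767811310) (nat_lit 76) (nat_lit 1907063172) (nat_lit 294) (nat_lit 5) (nat_lit 305) (nat_lit 5) (nat_lit 295) (nat_lit 5) (nat_lit 460) (nat_lit 418) (nat_lit 262)))))) (XT.nd (nat_lit 390) (nat_lit 2052) (nat_lit 0) (XT.nd (nat_lit 156) (nat_lit 1368) (nat_lit 0) (XT.nd (nat_lit 78) (nat_lit 76) (nat_lit 0) (XT.lf (nat_lit 0) (nat_lit 5683644266) (nat_lit 760) (nat_lit 6617587862) (nat_lit 836) (nat_lit 1725617554) (nat_lit 284) (nat_lit 5) (nat_lit 294) (nat_lit 5) (nat_lit 295) (nat_lit 5) (nat_lit 461) (nat_lit 418) (nat_lit 261)) (XT.lf (nat_lit 0) (nat_lit 260423549) (nat_lit 836) (nat_lit 888755206) (nat_lit 76) (nat_lit 13034576603) (nat_lit 283) (nat_lit 5) (nat_lit 294) (nat_lit 5) (nat_lit 284) (nat_lit 5) (nat_lit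 462) (nat_lit 418) (nat_lit 260))) (XT.nd (nat_lit 78) (nat_lit 684) (nat_lit 0) (XT.lf (nat_lit 0) (nat_lit 2325755229) (nat_lit 760) (nat_lit 7590995537) (nat_lit 76) (nat_lit 4425571357) (nat_lit 274) (nat_lit 5) (nat_lit 284) (nat_lit 5) (nat_lit 275) (nat_lit 5) (nat_lit 463) (nat_lit 418) (nat_lit 259)) (XT.nd (nat_lit 78) (nat_lit 0) (nat_lit 0) (XT.lf (nat_lit 0) (nat_lit 33710530) (nat_lit 684) (nat_lit 4402155073) (nat_lit 760) (nat_lit 10068129705) (nat_lit 265) (nat_lit 5) (nat_lit 274) (nat_lit 5) (nat_lit 275) (nat_lit 5) (nat_lit 464) (nat_lit 418) (nat_lit 258)) (XT.lf (nat_lit 0) (nat_lit 6637155669) (nat_lit 760) (nat_lit 6773875648) (nat_lit 76) (nat_lit 1256895529) (nat_lit 265) (nat_lit 5) (nat_lit 275) (nat_lit 5) (nat_lit 266) (nat_lit 5) (nat_lit 465) (nat_lit 418) (nat_lit 257))))) (XT.nd (nat_lit 234) (nat_lit 684) (nat_lit 0) (XT.nd (nat_lit 78) (nat_lit 684) (nat_lit 0) (XT.lf (nat_lit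 0) (nat_lit 1049777315) (nat_lit 684) (nat_lit 7858625935) (nat_lit 760) (nat_lit 5926219482) (nat_lit 256) (nat_lit 5) (nat_lit 265) (nat_lit 5) (nat_lit 266) (nat_lit 5) (nat_lit 466) (nat_lit 418) (nat_lit 256)) (XT.nd (nat_lit 78) (nat_lit 684) (nat_lit 0) (XT.lf (nat_lit 0) (nat_lit 9110500317) (nat_lit 684) (nat_lit 2150118191) (nat_lit 760) (nat_lit 3743327440) (nat_lit 256) (nat_lit 5) (nat_lit 265) (nat_lit 5) (nat_lit 266) (nat_lit 5) (nat_lit 467) (nat_lit 418) (nat_lit 255)) (XT.lf (nat_lit 0) (nat_lit 2148926195) (nat_lit 684) (nat_lit 11539021315) (nat_lit 760) (nat_lit 1488150910) (nat_lit 247) (nat_lit 5) (nat_lit 256) (nat_lit 5) (nat_lit 257) (nat_lit 5) (nat_lit 468) (nat_lit 418) (nat_lit 254)))) (XT.nd (nat_lit 78) (nat_lit 608) (nat_lit 0) (XT.lf (nat_lit 0) (nat_lit 845850491) (nat_lit 760) (nat_lit 4949898081) (nat_lit 76) (nat_lit 9554956482) (nat_lit 246) (nat_lit 5) (nat_lit 256) (nat_lit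 5) (nat_lit 247) (nat_lit 5) (nat_lit 469) (nat_lit 418) (nat_lit 253)) (XT.nd (nat_lit 78) (nat_lit 0) (nat_lit 0) (XT.lf (nat_lit 0) (nat_lit 3219240191) (nat_lit 684) (nat_lit 12217509517) (nat_lit 76) (nat_lit 91608628) (nat_lit 238) (nat_lit 5) (nat_lit 247) (nat_lit 5) (nat_lit 239) (nat_lit 5) (nat_lit 470) (nat_lit 418) (nat_lit 252)) (XT.lf (nat_lit 0) (nat_lit 5702534142) (nat_lit 684) (nat_lit 3954736468) (nat_lit 76) (nat_lit 6051049208) (nat_lit 238) (nat_lit 5) (nat_lit 247) (nat_lit 5) (nat_lit 239) (nat_lit 5) (nat_lit 471) (nat_lit 418) (nat_lit 251))))))))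
noncomputable def xc192 : XT := (XT.nd (nat_lit 1560) (nat_lit 1900) (nat_lit 0) (XT.nd (nat_lit 780) (nat_lit 2584) (nat_lit 0) (XT.nd (nat_lit 390) (nat_lit 1596) (nat_lit 0) (XT.nd (nat_lit 156) (nat_lit 1292) (nat_lit 0) (XT.nd (nat_lit 78) (nat_lit 0) (nat_lit 0) (XT.lf (nat_lit 0) (nat_lit 4521671512) (nat_lit 608) (nat_lit 3733981737) (nat_lit 684) (nat_lit 7635827882) (nat_lit 230) (nat_lit 5) (nat_lit 238) (nat_lit 5) (nat_lit 239) (nat_lit 5) (nat_lit 472) (nat_lit 418) (nat_lit 250)) (XT.lf (nat_lit 0) (nat_lit 10892432497) (nat_lit 684) (nat_lit 2882744344) (nat_lit 76) (nat_lit 2302480589) (nat_lit 230) (nat_lit 5) (nat_lit 239) (nat_lit 5) (nat_lit 231) (nat_lit 5) (nat_lit 473) (nat_lit 418) (nat_lit 249))) (XT.nd (nat_lit 78) (nat_lit 684) (nat_lit 0) (XT.lf (nat_lit 0) (nat_lit 5814786795) (nat_lit 608) (nat_lit 7820720822) (nat_lit 684) (nat_lit 2630982072) (nat_lit 222) (nat_lit 5) (nat_lit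 230) (nat_lit 5) (nat_lit 231) (nat_lit 5) (nat_lit 474) (nat_lit 418) (nat_lit 248)) (XT.nd (nat_lit 78) (nat_lit 684) (nat_lit 0) (XT.lf (nat_lit 0) (nat_lit 14714606968) (nat_lit 608) (nat_lit 1729365700) (nat_lit 684) (nat_lit 14918928) (nat_lit 222) (nat_lit 5) (nat_lit 230) (nat_lit 5) (nat_lit 231) (nat_lit 5) (nat_lit 475) (nat_lit 418) (nat_lit 247)) (XT.lf (nat_lit 0) (nat_lit 2686256231) (nat_lit 684) (nat_lit 9479674464) (nat_lit 76) (nat_lit 4487517885) (nat_lit 213) (nat_lit 5) (nat_lit 222) (nat_lit 5) (nat_lit 214) (nat_lit 5) (nat_lit 476) (nat_lit 418) (nat_lit 246))))) (XT.nd (nat_lit 156) (nat_lit 1064) (nat_lit 0) (XT.nd (nat_lit 78) (nat_lit 532) (nat_lit 0) (XT.lf (nat_lit 0) (nat_lit 5455875704) (nat_lit 684) (nat_lit 580192450) (nat_lit 76) (nat_lit 10815537532) (nat_lit 213) (nat_lit 5) (nat_lit 222) (nat_lit 5) (nat_lit 214) (nat_lit 5) (nat_lit 477) (nat_lit 418) (nat_lit 245)) (XT.lf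 (nat_lit 0) (nat_lit 8330036621) (nat_lit 608) (nat_lit 8455007497) (nat_lit 76) (nat_lit 267702131) (nat_lit 206) (nat_lit 5) (nat_lit 214) (nat_lit 5) (nat_lit 207) (nat_lit 5) (nat_lit 478) (nat_lit 418) (nat_lit 244))) (XT.nd (nat_lit 78) (nat_lit 532) (nat_lit 0) (XT.lf (nat_lit 0) (nat_lit 667399090) (nat_lit 532) (nat_lit 10634145972) (nat_lit 608) (nat_lit 5955570510) (nat_lit 199) (nat_lit 5) (nat_lit 206) (nat_lit 5) (nat_lit 207) (nat_lit 5) (nat_lit 479) (nat_lit 418) (nat_lit 243)) (XT.nd (nat_lit 78) (nat_lit 532) (nat_lit 0) (XT.lf (nat_lit 0) (nat_lit 10076317793) (nat_lit 532) (nat_lit 4304636883) (nat_lit 608) (nat_lit 3083651352) (nat_lit 199) (nat_lit 5) (nat_lit 206) (nat_lit 5) (nat_lit 207) (nat_lit 5) (nat_lit 480) (nat_lit 418) (nat_lit 242)) (XT.lf (nat_lit 0) (nat_lit 1998926358) (nat_lit 532) (nat_lit 15541854239) (nat_lit 608) (nat_lit 135092244) (nat_lit 192) (nat_lit 5) (nat_lit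 199) (nat_lit 5) (nat_lit 200) (nat_lit 5) (nat_lit 481) (nat_lit 418) (nat_lit 241)))))) (XT.nd (nat_lit 390) (nat_lit 1520) (nat_lit 0) (XT.nd (nat_lit 156) (nat_lit 456) (nat_lit 0) (XT.nd (nat_lit 78) (nat_lit 532) (nat_lit 0) (XT.lf (nat_lit 0) (nat_lit 2905097081) (nat_lit 608) (nat_lit 6274354785) (nat_lit 76) (nat_lit 8710136484) (nat_lit 191) (nat_lit 5) (nat_lit 199) (nat_lit 5) (nat_lit 192) (nat_lit 5) (nat_lit 482) (nat_lit 418) (nat_lit 240)) (XT.lf (nat_lit 0) (nat_lit 3348992047) (nat_lit 532) (nat_lit 2669109735) (nat_lit 608) (nat_lit 12089185045) (nat_lit 184) (nat_lit 5) (nat_lit 191) (nat_lit 5) (nat_lit 192) (nat_lit 5) (nat_lit 483) (nat_lit 418) (nat_lit 239))) (XT.nd (nat_lit 78) (nat_lit 456) (nat_lit 0) (XT.lf (nat_lit 0) (nat_lit 9253682848) (nat_lit 608) (nat_lit 5115105535) (nat_lit 76) (nat_lit 3959347438) (nat_lit 184) (nat_lit 5) (nat_lit 192) (nat_lit 5) (nat_lit 185) (nat_lit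 5) (nat_lit 484) (nat_lit 418) (nat_lit 238)) (XT.nd (nat_lit 78) (nat_lit 0) (nat_lit 0) (XT.lf (nat_lit 0) (nat_lit 4755443058) (nat_lit 456) (nat_lit 7839386141) (nat_lit 532) (nat_lit 5957758335) (nat_lit 178) (nat_lit 5) (nat_lit 184) (nat_lit 5) (nat_lit 185) (nat_lit 5) (nat_lit 485) (nat_lit 418) (nat_lit 237)) (XT.lf (nat_lit 0) (nat_lit 14882609606) (nat_lit 456) (nat_lit 1146901050) (nat_lit 532) (nat_lit 2751486142) (nat_lit 178) (nat_lit 5) (nat_lit 184) (nat_lit 5) (nat_lit 185) (nat_lit 5) (nat_lit 486) (nat_lit 418) (nat_lit 236))))) (XT.nd (nat_lit 156) (nat_lit 912) (nat_lit 0) (XT.nd (nat_lit 78) (nat_lit 0) (nat_lit 0) (XT.lf (nat_lit 0) (nat_lit 582430677) (nat_lit 608) (nat_lit 12783258896) (nat_lit 76) (nat_lit 5646813449) (nat_lit 170) (nat_lit 5) (nat_lit 178) (nat_lit 5) (nat_lit 171) (nat_lit 5) (nat_lit 487) (nat_lit 418) (nat_lit 235)) (XT.lf (nat_lit 0) (nat_lit 3972697216) (nat_lit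 608) (nat_lit 2671937136) (nat_lit 76) (nat_lit 12603113596) (nat_lit 170) (nat_lit 5) (nat_lit 178) (nat_lit 5) (nat_lit 171) (nat_lit 5) (nat_lit 488) (nat_lit 418) (nat_lit 234))) (XT.nd (nat_lit 78) (nat_lit 456) (nat_lit 0) (XT.lf (nat_lit 0) (nat_lit 7475358797) (nat_lit 532) (nat_lit 11755398582) (nat_lit 76) (nat_lit 256051148) (nat_lit 164) (nat_lit 5) (nat_lit 171) (nat_lit 5) (nat_lit 165) (nat_lit 5) (nat_lit 489) (nat_lit 418) (nat_lit 233)) (XT.nd (nat_lit 78) (nat_lit 456) (nat_lit 0) (XT.lf (nat_lit 0) (nat_lit 11102885566) (nat_lit 532) (nat_lit 1405340967) (nat_lit 76) (nat_lit 7221330044) (nat_lit 164) (nat_lit 5) (nat_lit 171) (nat_lit 5) (nat_lit 165) (nat_lit 5) (nat_lit 490) (nat_lit 418) (nat_lit 232)) (XT.lf (nat_lit 0) (nat_lit 9263435811) (nat_lit 456) (nat_lit 5592572321) (nat_lit 532) (nat_lit 5120093003) (nat_lit 158) (nat_lit 5) (nat_lit 164) (nat_lit 5) (nat_lit 165) (nat_lit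 5) (nat_lit 491) (nat_lit 418) (nat_lit 231))))))) (XT.nd (nat_lit 53820) (nat_lit 0) (nat_lit 22800) (XT.nd (nat_lit 390) (nat_lit 532) (nat_lit 0) (XT.nd (nat_lit 156) (nat_lit 836) (nat_lit 0) (XT.nd (nat_lit 78) (nat_lit 532) (nat_lit 0) (XT.lf (nat_lit 0) (nat_lit 18696134137) (nat_lit 532) (nat_lit 82135613) (nat_lit 76) (nat_lit 1449070416) (nat_lit 158) (nat_lit 5) (nat_lit 165) (nat_lit 5) (nat_lit 159) (nat_lit 5) (nat_lit 492) (nat_lit 418) (nat_lit 230)) (XT.lf (nat_lit 0) (nat_lit 2202818051) (nat_lit 532) (nat_lit 9639372440) (nat_lit 76) (nat_lit 8639113526) (nat_lit 151) (nat_lit 5) (nat_lit 158) (nat_lit 5) (nat_lit 152) (nat_lit 5) (nat_lit 493) (nat_lit 418) (nat_lit 229))) (XT.nd (nat_lit 78) (nat_lit 380) (nat_lit 0) (XT.lf (nat_lit 0) (nat_lit 1241726625) (nat_lit 456) (nat_lit 4751052542) (nat_lit 532) (nat_lit 14747332628) (nat_lit 145) (nat_lit 5) (nat_lit 151) (nat_lit 5) (nat_lit 152)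 (nat_lit 5) (nat_lit 494) (nat_lit 418) (nat_lit 228)) (XT.nd (nat_lit 78) (nat_lit 380) (nat_lit 0) (XT.lf (nat_lit 0) (nat_lit 9932944890) (nat_lit 532) (nat_lit 8557961273) (nat_lit 76) (nat_lit 2511703678) (nat_lit 145) (nat_lit 5) (nat_lit 152) (nat_lit 5) (nat_lit 146) (nat_lit 5) (nat_lit 495) (nat_lit 418) (nat_lit 227)) (XT.lf (nat_lit 0) (nat_lit 2594293987) (nat_lit 380) (nat_lit 11399239060) (nat_lit 456) (nat_lit 7275994593) (nat_lit 140) (nat_lit 5) (nat_lit 145) (nat_lit 5) (nat_lit 146) (nat_lit 5) (nat_lit 496) (nat_lit 418) (nat_lit 226))))) (XT.nd (nat_lit 156) (nat_lit 0) (nat_lit 0) (XT.nd (nat_lit 78) (nat_lit 532) (nat_lit 0) (XT.lf (nat_lit 0) (nat_lit 14076124698) (nat_lit 380) (nat_lit 4110017648) (nat_lit 456) (nat_lit 3354627396) (nat_lit 140) (nat_lit 5) (nat_lit 145) (nat_lit 5) (nat_lit 146) (nat_lit 5) (nat_lit 497) (nat_lit 418) (nat_lit 225)) (XT.lf (nat_lit 0) (nat_lit 677971237)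 (nat_lit 532) (nat_lit 17829565447) (nat_lit 76) (nat_lit 3308992963) (nat_lit 133) (nat_lit 5) (nat_lit 140) (nat_lit 5) (nat_lit 134) (nat_lit 5) (nat_lit 498) (nat_lit 418) (nat_lit 224))) (XT.nd (nat_lit 53118) (nat_lit 0) (nat_lit 24168) (XT.lf (nat_lit 0) (nat_lit 4817502292) (nat_lit 532) (nat_lit 6387207844) (nat_lit 76) (nat_lit 10891229164) (nat_lit 133) (nat_lit 5) (nat_lit 140) (nat_lit 5) (nat_lit 134) (nat_lit 5) (nat_lit 499) (nat_lit 418) (nat_lit 223)) (XT.nd (nat_lit 78) (nat_lit 0) (nat_lit 0) (XT.lf (nat_lit 0) (nat_lit 1227561964) (nat_lit 1596) (nat_lit 1733430550) (nat_lit 1596) (nat_lit 1733430550) (nat_lit 451) (nat_lit 3) (nat_lit 472) (nat_lit 3) (nat_lit 472) (nat_lit 5) (nat_lit 419) (nat_lit 419) (nat_lit 302)) (XT.lf (nat_lit 76) (nat_lit 966652565) (nat_lit 0) (nat_lit 2313292057) (nat_lit 1596) (nat_lit 6186346840) (nat_lit 452) (nat_lit 5) (nat_lit 451) (nat_lit 3) (nat_lit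 472) (nat_lit 5) (nat_lit 420) (nat_lit 419) (nat_lit 301)))))) (XT.nd (nat_lit 390) (nat_lit 1444) (nat_lit 0) (XT.nd (nat_lit 156) (nat_lit 0) (nat_lit 0) (XT.nd (nat_lit 78) (nat_lit 0) (nat_lit 0) (XT.lf (nat_lit 0) (nat_lit 4132728576) (nat_lit 1520) (nat_lit 4029286740) (nat_lit 1596) (nat_lit 1383052528) (nat_lit 452) (nat_lit 5) (nat_lit 472) (nat_lit 5) (nat_lit 473) (nat_lit 5) (nat_lit 421) (nat_lit 419) (nat_lit 300)) (XT.lf (nat_lit 76) (nat_lit 510809077) (nat_lit 0) (nat_lit 4489973018) (nat_lit 1596) (nat_lit 4624684638) (nat_lit 453) (nat_lit 5) (nat_lit 452) (nat_lit 5) (nat_lit 473) (nat_lit 5) (nat_lit 422) (nat_lit 419) (nat_lit 299))) (XT.nd (nat_lit 78) (nat_lit 0) (nat_lit 76) (XT.lf (nat_lit 76) (nat_lit 5185354584) (nat_lit 0) (nat_lit 707787509) (nat_lit 1596) (nat_lit 3814203636) (nat_lit 453) (nat_lit 5) (nat_lit 452) (nat_lit 5) (nat_lit 473) (nat_lit 5) (nat_lit 423) (nat_lit 419)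 (nat_lit 298)) (XT.nd (nat_lit 78) (nat_lit 0) (nat_lit 0) (XT.lf (nat_lit 76) (nat_lit 132597535) (nat_lit 0) (nat_lit 6672423656) (nat_lit 1596) (nat_lit 2985818495) (nat_lit 454) (nat_lit 5) (nat_lit 453) (nat_lit 5) (nat_lit 474) (nat_lit 5) (nat_lit 424) (nat_lit 419) (nat_lit 297)) (XT.lf (nat_lit 76) (nat_lit 4925680904) (nat_lit 0) (nat_lit 2825129999) (nat_lit 1596) (nat_lit 2124889766) (nat_lit 454) (nat_lit 5) (nat_lit 453) (nat_lit 5) (nat_lit 474) (nat_lit 5) (nat_lit 425) (nat_lit 419) (nat_lit 296))))) (XT.nd (nat_lit 234) (nat_lit 0) (nat_lit 76) (XT.nd (nat_lit 78) (nat_lit 1596) (nat_lit 0) (XT.lf (nat_lit 0) (nat_lit 8703755236) (nat_lit 1520) (nat_lit 166136287) (nat_lit 1596) (nat_lit 1092612971) (nat_lit 454) (nat_lit 5) (nat_lit 474) (nat_lit 5) (nat_lit 475) (nat_lit 5) (nat_lit 426) (nat_lit 419) (nat_lit 295)) (XT.nd (nat_lit 78) (nat_lit 1596) (nat_lit 0) (XT.lf (nat_lit 76) (nat_lit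 4745813262) (nat_lit 0) (nat_lit 4960940843) (nat_lit 1596) (nat_lit 343680574) (nat_lit 455) (nat_lit 5) (nat_lit 454) (nat_lit 5) (nat_lit 475) (nat_lit 5) (nat_lit 427) (nat_lit 419) (nat_lit 294)) (XT.lf (nat_lit 0) (nat_lit 564711820) (nat_lit 1596) (nat_lit 397008263) (nat_lit 1672) (nat_lit 9178681488) (nat_lit 433) (nat_lit 5) (nat_lit 454) (nat_lit 5) (nat_lit 455) (nat_lit 5) (nat_lit 428) (nat_lit 419) (nat_lit 293)))) (XT.nd (nat_lit 78) (nat_lit 0) (nat_lit 0) (XT.lf (nat_lit 0) (nat_lit 1519402217) (nat_lit 1596) (nat_lit 5595939780) (nat_lit 1672) (nat_lit 3116135335) (nat_lit 434) (nat_lit 5) (nat_lit 455) (nat_lit 5) (nat_lit 456) (nat_lit 5) (nat_lit 429) (nat_lit 419) (nat_lit 292)) (XT.nd (nat_lit 78) (nat_lit 0) (nat_lit 76) (XT.lf (nat_lit 0) (nat_lit 2484556210) (nat_lit 1596) (nat_lit 568029292) (nat_lit 1672) (nat_lit 7271971131) (nat_lit 434) (nat_lit 5) (nat_lit 455) (nat_lit 5) (nat_lit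 456) (nat_lit 5) (nat_lit 430) (nat_lit 419) (nat_lit 291)) (XT.lf (nat_lit 0) (nat_lit 3488932308) (nat_lit 1596) (nat_lit 5816895733) (nat_lit 1672) (nat_lit 1113280333) (nat_lit 435) (nat_lit 5) (nat_lit 456) (nat_lit 5) (nat_lit 457) (nat_lit 5) (nat_lit 431) (nat_lit 419) (nat_lit 290))))))))
noncomputable def xc193 : XT := (XT.nd (nat_lit 1638) (nat_lit 8056) (nat_lit 0) (XT.nd (nat_lit 780) (nat_lit 6004) (nat_lit 0) (XT.nd (nat_lit 390) (nat_lit 1520) (nat_lit 0) (XT.nd (nat_lit 156) (nat_lit 0) (nat_lit 76) (XT.nd (nat_lit 78) (nat_lit 0) (nat_lit 0) (XT.lf (nat_lit 0) (nat_lit 4520420486) (nat_lit 1596) (nat_lit 663684754) (nat_lit 1672) (nat_lit 5331314472) (nat_lit 435) (nat_lit 5) (nat_lit 456) (nat_lit 5) (nat_lit 457) (nat_lit 5) (nat_lit 432) (nat_lit 419) (nat_lit 289)) (XT.lf (nat_lit 76) (nat_lit 4642171396) (nat_lit 0) (nat_lit 943812716) (nat_lit 1672) (nat_lit 5027413126) (nat_lit 436)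 (nat_lit 5) (nat_lit 435) (nat_lit 5) (nat_lit 457) (nat_lit 5) (nat_lit 433) (nat_lit 419) (nat_lit 288))) (XT.nd (nat_lit 78) (nat_lit 0) (nat_lit 0) (XT.lf (nat_lit 0) (nat_lit 6682889645) (nat_lit 1596) (nat_lit 683686142) (nat_lit 1672) (nat_lit 3346566619) (nat_lit 436) (nat_lit 5) (nat_lit 457) (nat_lit 5) (nat_lit 458) (nat_lit 5) (nat_lit 434) (nat_lit 419) (nat_lit 287)) (XT.nd (nat_lit 78) (nat_lit 0) (nat_lit 76) (XT.lf (nat_lit 76) (nat_lit 4754336397) (nat_lit 0) (nat_lit 3068431213) (nat_lit 1672) (nat_lit 2991702711) (nat_lit 437) (nat_lit 5) (nat_lit 436) (nat_lit 5) (nat_lit 458) (nat_lit 5) (nat_lit 435) (nat_lit 419) (nat_lit 286)) (XT.lf (nat_lit 0) (nat_lit 8982790805) (nat_lit 1596) (nat_lit 627570159) (nat_lit 1672) (nat_lit 1307525240) (nat_lit 437) (nat_lit 5) (nat_lit 458) (nat_lit 5) (nat_lit 459) (nat_lit 5) (nat_lit 436) (nat_lit 419) (nat_lit 285))))) (XT.nd (nat_lit 156) (nat_lit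 0) (nat_lit 76) (XT.nd (nat_lit 78) (nat_lit 1672) (nat_lit 0) (XT.lf (nat_lit 76) (nat_lit 4946779071) (nat_lit 0) (nat_lit 5256171107) (nat_lit 1672) (nat_lit 819689714) (nat_lit 438) (nat_lit 5) (nat_lit 437) (nat_lit 5) (nat_lit 459) (nat_lit 5) (nat_lit 437) (nat_lit 419) (nat_lit 284)) (XT.lf (nat_lit 0) (nat_lit 302710786) (nat_lit 1672) (nat_lit 501935088) (nat_lit 1748) (nat_lit 10325032212) (nat_lit 415) (nat_lit 5) (nat_lit 437) (nat_lit 5) (nat_lit 438) (nat_lit 5) (nat_lit 438) (nat_lit 419) (nat_lit 283))) (XT.nd (nat_lit 78) (nat_lit 0) (nat_lit 0) (XT.lf (nat_lit 0) (nat_lit 1480046824) (nat_lit 1672) (nat_lit 6027549233) (nat_lit 1748) (nat_lit 3730291087) (nat_lit 416) (nat_lit 5) (nat_lit 438) (nat_lit 5) (nat_lit 439) (nat_lit 5) (nat_lit 439) (nat_lit 419) (nat_lit 282)) (XT.nd (nat_lit 78) (nat_lit 0) (nat_lit 76) (XT.lf (nat_lit 0) (nat_lit 2674814895) (nat_lit 1672) (nat_lit 321470842)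 (nat_lit 1748) (nat_lit 8352104515) (nat_lit 416) (nat_lit 5) (nat_lit 438) (nat_lit 5) (nat_lit 439) (nat_lit 5) (nat_lit 440) (nat_lit 419) (nat_lit 281)) (XT.lf (nat_lit 0) (nat_lit 3925718386) (nat_lit 1672) (nat_lit 5911068202) (nat_lit 1748) (nat_lit 1623679462) (nat_lit 417) (nat_lit 5) (nat_lit 439) (nat_lit 5) (nat_lit 440) (nat_lit 5) (nat_lit 441) (nat_lit 419) (nat_lit 280)))))) (XT.nd (nat_lit 390) (nat_lit 2812) (nat_lit 0) (XT.nd (nat_lit 156) (nat_lit 3344) (nat_lit 0) (XT.nd (nat_lit 78) (nat_lit 0) (nat_lit 0) (XT.lf (nat_lit 0) (nat_lit 5209342932) (nat_lit 1672) (nat_lit 64154644) (nat_lit 1748) (nat_lit 6301139008) (nat_lit 417) (nat_lit 5) (nat_lit 439) (nat_lit 5) (nat_lit 440) (nat_lit 5) (nat_lit 442) (nat_lit 419) (nat_lit 279)) (XT.lf (nat_lit 76) (nat_lit 5966578638) (nat_lit 0) (nat_lit 576769443) (nat_lit 1748) (nat_lit 5147255425) (nat_lit 418) (nat_lit 5) (nat_lit 417) (nat_lit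 5) (nat_lit 440) (nat_lit 5) (nat_lit 443) (nat_lit 419) (nat_lit 278))) (XT.nd (nat_lit 78) (nat_lit 1748) (nat_lit 0) (XT.lf (nat_lit 0) (nat_lit 274557177) (nat_lit 1672) (nat_lit 7645238857) (nat_lit 1748) (nat_lit 3888785476) (nat_lit 396) (nat_lit 5) (nat_lit 418) (nat_lit 5) (nat_lit 419) (nat_lit 5) (nat_lit 444) (nat_lit 419) (nat_lit 277)) (XT.nd (nat_lit 78) (nat_lit 1748) (nat_lit 0) (XT.lf (nat_lit 0) (nat_lit 6455310884) (nat_lit 1672) (nat_lit 2897051199) (nat_lit 1748) (nat_lit 2575992071) (nat_lit 396) (nat_lit 5) (nat_lit 418) (nat_lit 5) (nat_lit 419) (nat_lit 5) (nat_lit 445) (nat_lit 419) (nat_lit 276)) (XT.lf (nat_lit 0) (nat_lit 694043145) (nat_lit 1748) (nat_lit 10123341587) (nat_lit 1824) (nat_lit 1233068141) (nat_lit 373) (nat_lit 5) (nat_lit 396) (nat_lit 5) (nat_lit 397) (nat_lit 5) (nat_lit 446) (nat_lit 419) (nat_lit 275))))) (XT.nd (nat_lit 234) (nat_lit 1748) (nat_lit 0) (XT.nd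 (nat_lit 78) (nat_lit 988) (nat_lit 0) (XT.lf (nat_lit 0) (nat_lit 177834154) (nat_lit 1824) (nat_lit 5147603488) (nat_lit 76) (nat_lit 6848686377) (nat_lit 372) (nat_lit 5) (nat_lit 396) (nat_lit 5) (nat_lit 373) (nat_lit 5) (nat_lit 447) (nat_lit 419) (nat_lit 274)) (XT.nd (nat_lit 78) (nat_lit 0) (nat_lit 0) (XT.lf (nat_lit 0) (nat_lit 1181246632) (nat_lit 988) (nat_lit 413898541) (nat_lit 1064) (nat_lit 10705072714) (nat_lit 359) (nat_lit 5) (nat_lit 372) (nat_lit 5) (nat_lit 373) (nat_lit 5) (nat_lit 448) (nat_lit 419) (nat_lit 273)) (XT.lf (nat_lit 0) (nat_lit 3092620228) (nat_lit 1064) (nat_lit 4763414695) (nat_lit 76) (nat_lit 4571768567) (nat_lit 359) (nat_lit 5) (nat_lit 373) (nat_lit 5) (nat_lit 360) (nat_lit 5) (nat_lit 449) (nat_lit 419) (nat_lit 272)))) (XT.nd (nat_lit 78) (nat_lit 836) (nat_lit 0) (XT.lf (nat_lit 0) (nat_lit 1727745568) (nat_lit 912) (nat_lit 2893715267) (nat_lit 988) (nat_lit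 7936457743) (nat_lit 347) (nat_lit 5) (nat_lit 359) (nat_lit 5) (nat_lit 360) (nat_lit 5) (nat_lit 450) (nat_lit 419) (nat_lit 271)) (XT.nd (nat_lit 78) (nat_lit 836) (nat_lit 0) (XT.lf (nat_lit 0) (nat_lit 6214766276) (nat_lit 988) (nat_lit 4302596006) (nat_lit 76) (nat_lit 2172601898) (nat_lit 347) (nat_lit 5) (nat_lit 360) (nat_lit 5) (nat_lit 348) (nat_lit 5) (nat_lit 451) (nat_lit 419) (nat_lit 270)) (XT.lf (nat_lit 0) (nat_lit 2355883460) (nat_lit 836) (nat_lit 5506392616) (nat_lit 912) (nat_lit 4961933709) (nat_lit 336) (nat_lit 5) (nat_lit 347) (nat_lit 5) (nat_lit 348) (nat_lit 5) (nat_lit 452) (nat_lit 419) (nat_lit 269))))))) (XT.nd (nat_lit 780) (nat_lit 4104) (nat_lit 0) (XT.nd (nat_lit 390) (nat_lit 2280) (nat_lit 0) (XT.nd (nat_lit 156) (nat_lit 836) (nat_lit 0) (XT.nd (nat_lit 78) (nat_lit 836) (nat_lit 0) (XT.lf (nat_lit 0) (nat_lit 9194546989) (nat_lit 836) (nat_lit 365104635) (nat_lit 912)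 (nat_lit 3401156109) (nat_lit 336) (nat_lit 5) (nat_lit 347) (nat_lit 5) (nat_lit 348) (nat_lit 5) (nat_lit 453) (nat_lit 419) (nat_lit 268)) (XT.lf (nat_lit 0) (nat_lit 3067062637) (nat_lit 836) (nat_lit 8263784667) (nat_lit 912) (nat_lit 1768498512) (nat_lit 325) (nat_lit 5) (nat_lit 336) (nat_lit 5) (nat_lit 337) (nat_lit 5) (nat_lit 454) (nat_lit 419) (nat_lit 267))) (XT.nd (nat_lit 78) (nat_lit 836) (nat_lit 0) (XT.lf (nat_lit 0) (nat_lit 10074398816) (nat_lit 836) (nat_lit 3079181821) (nat_lit 912) (nat_lit 86757267) (nat_lit 325) (nat_lit 5) (nat_lit 336) (nat_lit 5) (nat_lit 337) (nat_lit 5) (nat_lit 455) (nat_lit 419) (nat_lit 266)) (XT.nd (nat_lit 78) (nat_lit 0) (nat_lit 0) (XT.lf (nat_lit 0) (nat_lit 1635529408) (nat_lit 836) (nat_lit 9531573232) (nat_lit 76) (nat_lit 2216275612) (nat_lit 314) (nat_lit 5) (nat_lit 325) (nat_lit 5) (nat_lit 315) (nat_lit 5) (nat_lit 456) (nat_lit 419) (nat_lit 265))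 (XT.lf (nat_lit 0) (nat_lit 3421615996) (nat_lit 836) (nat_lit 2508492900) (nat_lit 76) (nat_lit 7598553926) (nat_lit 314) (nat_lit 5) (nat_lit 325) (nat_lit 5) (nat_lit 315) (nat_lit 5) (nat_lit 457) (nat_lit 419) (nat_lit 264))))) (XT.nd (nat_lit 156) (nat_lit 1520) (nat_lit 0) (XT.nd (nat_lit 78) (nat_lit 0) (nat_lit 0) (XT.lf (nat_lit 0) (nat_lit 4705636498) (nat_lit 760) (nat_lit 557297797) (nat_lit 836) (nat_lit 8413533685) (nat_lit 304) (nat_lit 5) (nat_lit 314) (nat_lit 5) (nat_lit 315) (nat_lit 5) (nat_lit 458) (nat_lit 419) (nat_lit 263)) (XT.lf (nat_lit 0) (nat_lit 7179088516) (nat_lit 836) (nat_lit 1772191998) (nat_lit 76) (nat_lit 4875193534) (nat_lit 304) (nat_lit 5) (nat_lit 315) (nat_lit 5) (nat_lit 305) (nat_lit 5) (nat_lit 459) (nat_lit 419) (nat_lit 262))) (XT.nd (nat_lit 78) (nat_lit 760) (nat_lit 0) (XT.lf (nat_lit 0) (nat_lit 5629506129) (nat_lit 760) (nat_lit 3533616174) (nat_lit 836)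 (nat_lit 4815771707) (nat_lit 294) (nat_lit 5) (nat_lit 304) (nat_lit 5) (nat_lit 305) (nat_lit 5) (nat_lit 460) (nat_lit 419) (nat_lit 261)) (XT.nd (nat_lit 78) (nat_lit 760) (nat_lit 0) (XT.lf (nat_lit 0) (nat_lit 11201194501) (nat_lit 836) (nat_lit 955074111) (nat_lit 76) (nat_lit 1977811407) (nat_lit 294) (nat_lit 5) (nat_lit 305) (nat_lit 5) (nat_lit 295) (nat_lit 5) (nat_lit 461) (nat_lit 419) (nat_lit 260)) (XT.lf (nat_lit 0) (nat_lit 6639831014) (nat_lit 760) (nat_lit 6696366242) (nat_lit 836) (nat_lit 955053821) (nat_lit 284) (nat_lit 5) (nat_lit 294) (nat_lit 5) (nat_lit 295) (nat_lit 5) (nat_lit 462) (nat_lit 419) (nat_lit 259)))))) (XT.nd (nat_lit 390) (nat_lit 1976) (nat_lit 0) (XT.nd (nat_lit 156) (nat_lit 1368) (nat_lit 0) (XT.nd (nat_lit 78) (nat_lit 684) (nat_lit 0) (XT.lf (nat_lit 0) (nat_lit 1044570615) (nat_lit 836) (nat_lit 69841709) (nat_lit 76) (nat_lit 13337096435) (nat_lit 283) (nat_lit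 5) (nat_lit 294) (nat_lit 5) (nat_lit 284) (nat_lit 5) (nat_lit 463) (nat_lit 419) (nat_lit 258)) (XT.lf (nat_lit 0) (nat_lit 3141735559) (nat_lit 760) (nat_lit 6896317267) (nat_lit 76) (nat_lit 4575390224) (nat_lit 274) (nat_lit 5) (nat_lit 284) (nat_lit 5) (nat_lit 275) (nat_lit 5) (nat_lit 464) (nat_lit 419) (nat_lit 257))) (XT.nd (nat_lit 78) (nat_lit 684) (nat_lit 0) (XT.lf (nat_lit 0) (nat_lit 875313854) (nat_lit 684) (nat_lit 4409106603) (nat_lit 760) (nat_lit 9494128389) (nat_lit 265) (nat_lit 5) (nat_lit 274) (nat_lit 5) (nat_lit 275) (nat_lit 5) (nat_lit 465) (nat_lit 419) (nat_lit 256)) (XT.nd (nat_lit 78) (nat_lit 684) (nat_lit 0) (XT.lf (nat_lit 0) (nat_lit 7515353726) (nat_lit 760) (nat_lit 6070207100) (nat_lit 76) (nat_lit 1360492304) (nat_lit 265) (nat_lit 5) (nat_lit 275) (nat_lit 5) (nat_lit 266) (nat_lit 5) (nat_lit 466) (nat_lit 419) (nat_lit 255)) (XT.lf (nat_lit 0) (nat_lit 1904398224)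 (nat_lit 684) (nat_lit 7918423720) (nat_lit 760) (nat_lit 5293451413) (nat_lit 256) (nat_lit 5) (nat_lit 265) (nat_lit 5) (nat_lit 266) (nat_lit 5) (nat_lit 467) (nat_lit 419) (nat_lit 254))))) (XT.nd (nat_lit 234) (nat_lit 1216) (nat_lit 0) (XT.nd (nat_lit 78) (nat_lit 760) (nat_lit 0) (XT.lf (nat_lit 0) (nat_lit 10109990091) (nat_lit 684) (nat_lit 2097655129) (nat_lit 760) (nat_lit 3081632754) (nat_lit 256) (nat_lit 5) (nat_lit 265) (nat_lit 5) (nat_lit 266) (nat_lit 5) (nat_lit 468) (nat_lit 419) (nat_lit 253)) (XT.nd (nat_lit 78) (nat_lit 76) (nat_lit 0) (XT.lf (nat_lit 0) (nat_lit 3017841773) (nat_lit 684) (nat_lit 11657496010) (nat_lit 760) (nat_lit 789705464) (nat_lit 247) (nat_lit 5) (nat_lit 256) (nat_lit 5) (nat_lit 257) (nat_lit 5) (nat_lit 469) (nat_lit 419) (nat_lit 252)) (XT.lf (nat_lit 0) (nat_lit 1567334049) (nat_lit 760) (nat_lit 4229497823) (nat_lit 76) (nat_lit 9846503261) (nat_lit 246) (nat_lit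 5) (nat_lit 256) (nat_lit 5) (nat_lit 247) (nat_lit 5) (nat_lit 470) (nat_lit 419) (nat_lit 251)))) (XT.nd (nat_lit 78) (nat_lit 608) (nat_lit 0) (XT.lf (nat_lit 0) (nat_lit 3980427534) (nat_lit 684) (nat_lit 11634410527) (nat_lit 76) (nat_lit 209864439) (nat_lit 238) (nat_lit 5) (nat_lit 247) (nat_lit 5) (nat_lit 239) (nat_lit 5) (nat_lit 471) (nat_lit 419) (nat_lit 250)) (XT.nd (nat_lit 78) (nat_lit 608) (nat_lit 0) (XT.lf (nat_lit 0) (nat_lit 6499724569) (nat_lit 684) (nat_lit 3222606510) (nat_lit 76) (nat_lit 6286211014) (nat_lit 238) (nat_lit 5) (nat_lit 247) (nat_lit 5) (nat_lit 239) (nat_lit 5) (nat_lit 472) (nat_lit 419) (nat_lit 249)) (XT.lf (nat_lit 0) (nat_lit 5417992624) (nat_lit 608) (nat_lit 3677750895) (nat_lit 684) (nat_lit 7099791881) (nat_lit 230) (nat_lit 5) (nat_lit 238) (nat_lit 5) (nat_lit 239) (nat_lit 5) (nat_lit 473) (nat_lit 419) (nat_lit 248))))))))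
noncomputable def xc194 : XT := (XT.nd (nat_lit 1560) (nat_lit 1444) (nat_lit 0) (XT.nd (nat_lit 780) (nat_lit 2964) (nat_lit 0) (XT.nd (nat_lit 390) (nat_lit 1140) (nat_lit 0) (XT.nd (nat_lit 156) (nat_lit 1216) (nat_lit 0) (XT.nd (nat_lit 78) (nat_lit 608) (nat_lit 0) (XT.lf (nat_lit 0) (nat_lit 11772856796) (nat_lit 684) (nat_lit 2137641311) (nat_lit 76) (nat_lit 2475190557) (nat_lit 230) (nat_lit 5) (nat_lit 239) (nat_lit 5) (nat_lit 231) (nat_lit 5) (nat_lit 474) (nat_lit 419) (nat_lit 247)) (XT.lf (nat_lit 0) (nat_lit 6728559148) (nat_lit 608) (nat_lit 7834420339) (nat_lit 684) (nat_lit 2015479663) (nat_lit 222) (nat_lit 5) (nat_lit 230) (nat_lit 5) (nat_lit 231) (nat_lit 5) (nat_lit 475) (nat_lit 419) (nat_lit 246))) (XT.nd (nat_lit 78) (nat_lit 1140) (nat_lit 0) (XT.lf (nat_lit 0) (nat_lit 631413162) (nat_lit 684) (nat_lit 988386167) (nat_lit 76) (nat_lit 15155088651) (nat_lit 221) (nat_lit 5) (nat_lit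 230) (nat_lit 5) (nat_lit 222) (nat_lit 5) (nat_lit 476) (nat_lit 419) (nat_lit 245)) (XT.nd (nat_lit 78) (nat_lit 532) (nat_lit 0) (XT.lf (nat_lit 0) (nat_lit 3379789017) (nat_lit 684) (nat_lit 8871709561) (nat_lit 76) (nat_lit 4721973012) (nat_lit 213) (nat_lit 5) (nat_lit 222) (nat_lit 5) (nat_lit 214) (nat_lit 5) (nat_lit 477) (nat_lit 419) (nat_lit 244)) (XT.lf (nat_lit 0) (nat_lit 192650336) (nat_lit 532) (nat_lit 6000856108) (nat_lit 608) (nat_lit 10982316180) (nat_lit 206) (nat_lit 5) (nat_lit 213) (nat_lit 5) (nat_lit 214) (nat_lit 5) (nat_lit 478) (nat_lit 419) (nat_lit 243))))) (XT.nd (nat_lit 156) (nat_lit 608) (nat_lit 0) (XT.nd (nat_lit 78) (nat_lit 532) (nat_lit 0) (XT.lf (nat_lit 0) (nat_lit 9117661697) (nat_lit 608) (nat_lit 7835709477) (nat_lit 76) (nat_lit 427769404) (nat_lit 206) (nat_lit 5) (nat_lit 214) (nat_lit 5) (nat_lit 207) (nat_lit 5) (nat_lit 479) (nat_lit 419) (nat_lit 242)) (XT.lf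 (nat_lit 0) (nat_lit 1463958411) (nat_lit 532) (nat_lit 10677550074) (nat_lit 608) (nat_lit 5448235346) (nat_lit 199) (nat_lit 5) (nat_lit 206) (nat_lit 5) (nat_lit 207) (nat_lit 5) (nat_lit 480) (nat_lit 419) (nat_lit 241))) (XT.nd (nat_lit 78) (nat_lit 608) (nat_lit 0) (XT.lf (nat_lit 0) (nat_lit 11045698404) (nat_lit 532) (nat_lit 4224769997) (nat_lit 608) (nat_lit 2531161071) (nat_lit 199) (nat_lit 5) (nat_lit 206) (nat_lit 5) (nat_lit 207) (nat_lit 5) (nat_lit 481) (nat_lit 419) (nat_lit 240)) (XT.nd (nat_lit 78) (nat_lit 0) (nat_lit 0) (XT.lf (nat_lit 0) (nat_lit 464358539) (nat_lit 608) (nat_lit 15207470551) (nat_lit 76) (nat_lit 2345350369) (nat_lit 191) (nat_lit 5) (nat_lit 199) (nat_lit 5) (nat_lit 192) (nat_lit 5) (nat_lit 482) (nat_lit 419) (nat_lit 239)) (XT.lf (nat_lit 0) (nat_lit 3551772978) (nat_lit 608) (nat_lit 5633057359) (nat_lit 76) (nat_lit 9050560826) (nat_lit 191) (nat_lit 5) (nat_lit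 199) (nat_lit 5) (nat_lit 192) (nat_lit 5) (nat_lit 483) (nat_lit 419) (nat_lit 238)))))) (XT.nd (nat_lit 390) (nat_lit 1368) (nat_lit 0) (XT.nd (nat_lit 156) (nat_lit 1064) (nat_lit 0) (XT.nd (nat_lit 78) (nat_lit 0) (nat_lit 0) (XT.lf (nat_lit 0) (nat_lit 4177711775) (nat_lit 532) (nat_lit 2542731054) (nat_lit 608) (nat_lit 11737136946) (nat_lit 184) (nat_lit 5) (nat_lit 191) (nat_lit 5) (nat_lit 192) (nat_lit 5) (nat_lit 484) (nat_lit 419) (nat_lit 237)) (XT.lf (nat_lit 0) (nat_lit 10010468404) (nat_lit 608) (nat_lit 4460127695) (nat_lit 76) (nat_lit 4212459171) (nat_lit 184) (nat_lit 5) (nat_lit 192) (nat_lit 5) (nat_lit 185) (nat_lit 5) (nat_lit 485) (nat_lit 419) (nat_lit 236))) (XT.nd (nat_lit 78) (nat_lit 608) (nat_lit 0) (XT.lf (nat_lit 0) (nat_lit 5602849765) (nat_lit 456) (nat_lit 7809262297) (nat_lit 532) (nat_lit 5500014567) (nat_lit 178) (nat_lit 5) (nat_lit 184) (nat_lit 5) (nat_lit 185) (nat_lit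 5) (nat_lit 486) (nat_lit 419) (nat_lit 235)) (XT.nd (nat_lit 78) (nat_lit 608) (nat_lit 0) (XT.lf (nat_lit 0) (nat_lit 15917808705) (nat_lit 456) (nat_lit 986592437) (nat_lit 532) (nat_lit 2240928675) (nat_lit 178) (nat_lit 5) (nat_lit 184) (nat_lit 5) (nat_lit 185) (nat_lit 5) (nat_lit 487) (nat_lit 419) (nat_lit 234)) (XT.lf (nat_lit 0) (nat_lit 1147332561) (nat_lit 608) (nat_lit 12288653163) (nat_lit 76) (nat_lit 5945509183) (nat_lit 170) (nat_lit 5) (nat_lit 178) (nat_lit 5) (nat_lit 171) (nat_lit 5) (nat_lit 488) (nat_lit 419) (nat_lit 233))))) (XT.nd (nat_lit 156) (nat_lit 912) (nat_lit 0) (XT.nd (nat_lit 78) (nat_lit 456) (nat_lit 0) (XT.lf (nat_lit 0) (nat_lit 4594556328) (nat_lit 608) (nat_lit 1989816162) (nat_lit 76) (nat_lit 13037292989) (nat_lit 170) (nat_lit 5) (nat_lit 178) (nat_lit 5) (nat_lit 171) (nat_lit 5) (nat_lit 489) (nat_lit 419) (nat_lit 232)) (XT.lf (nat_lit 0) (nat_lit 8162640984)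 (nat_lit 532) (nat_lit 11250131070) (nat_lit 76) (nat_lit 452831532) (nat_lit 164) (nat_lit 5) (nat_lit 171) (nat_lit 5) (nat_lit 165) (nat_lit 5) (nat_lit 490) (nat_lit 419) (nat_lit 231))) (XT.nd (nat_lit 78) (nat_lit 912) (nat_lit 0) (XT.lf (nat_lit 0) (nat_lit 11852173680) (nat_lit 532) (nat_lit 707589469) (nat_lit 76) (nat_lit 7553657980) (nat_lit 164) (nat_lit 5) (nat_lit 171) (nat_lit 5) (nat_lit 165) (nat_lit 5) (nat_lit 491) (nat_lit 419) (nat_lit 230)) (XT.nd (nat_lit 78) (nat_lit 456) (nat_lit 0) (XT.lf (nat_lit 0) (nat_lit 10169787462) (nat_lit 456) (nat_lit 5504915134) (nat_lit 532) (nat_lit 4690310672) (nat_lit 158) (nat_lit 5) (nat_lit 164) (nat_lit 5) (nat_lit 165) (nat_lit 5) (nat_lit 492) (nat_lit 419) (nat_lit 229)) (XT.lf (nat_lit 0) (nat_lit 640700540) (nat_lit 456) (nat_lit 18946133429) (nat_lit 532) (nat_lit 1034542551) (nat_lit 152) (nat_lit 5) (nat_lit 158) (nat_lit 5) (nat_lit 159)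 (nat_lit 5) (nat_lit 493) (nat_lit 419) (nat_lit 228))))))) (XT.nd (nat_lit 53898) (nat_lit 0) (nat_lit 22800) (XT.nd (nat_lit 390) (nat_lit 532) (nat_lit 0) (XT.nd (nat_lit 156) (nat_lit 380) (nat_lit 0) (XT.nd (nat_lit 78) (nat_lit 456) (nat_lit 0) (XT.lf (nat_lit 0) (nat_lit 2757587108) (nat_lit 532) (nat_lit 9113839735) (nat_lit 76) (nat_lit 9009120886) (nat_lit 151) (nat_lit 5) (nat_lit 158) (nat_lit 5) (nat_lit 152) (nat_lit 5) (nat_lit 494) (nat_lit 419) (nat_lit 227)) (XT.lf (nat_lit 0) (nat_lit 1980155521) (nat_lit 456) (nat_lit 4637811079) (nat_lit 532) (nat_lit 14526675976) (nat_lit 145) (nat_lit 5) (nat_lit 151) (nat_lit 5) (nat_lit 152) (nat_lit 5) (nat_lit 495) (nat_lit 419) (nat_lit 226))) (XT.nd (nat_lit 78) (nat_lit 380) (nat_lit 0) (XT.lf (nat_lit 0) (nat_lit 10628352835) (nat_lit 532) (nat_lit 8020773792) (nat_lit 76) (nat_lit 2763438843) (nat_lit 145) (nat_lit 5) (nat_lit 152) (nat_lit 5)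 (nat_lit 146) (nat_lit 5) (nat_lit 496) (nat_lit 419) (nat_lit 225)) (XT.nd (nat_lit 78) (nat_lit 0) (nat_lit 0) (XT.lf (nat_lit 0) (nat_lit 3349866398) (nat_lit 380) (nat_lit 11415114981) (nat_lit 456) (nat_lit 6919946844) (nat_lit 140) (nat_lit 5) (nat_lit 145) (nat_lit 5) (nat_lit 146) (nat_lit 5) (nat_lit 497) (nat_lit 419) (nat_lit 224)) (XT.lf (nat_lit 0) (nat_lit 15047535947) (nat_lit 380) (nat_lit 3984268138) (nat_lit 456) (nat_lit 2929986962) (nat_lit 140) (nat_lit 5) (nat_lit 145) (nat_lit 5) (nat_lit 146) (nat_lit 5) (nat_lit 498) (nat_lit 419) (nat_lit 223))))) (XT.nd (nat_lit 53274) (nat_lit 0) (nat_lit 24168) (XT.nd (nat_lit 53196) (nat_lit 0) (nat_lit 24168) (XT.lf (nat_lit 0) (nat_lit 1173165588) (nat_lit 532) (nat_lit 17485868398) (nat_lit 76) (nat_lit 3584044274) (nat_lit 133) (nat_lit 5) (nat_lit 140) (nat_lit 5) (nat_lit 134) (nat_lit 5) (nat_lit 499) (nat_lit 419) (nat_lit 222)) (XT.lf (nat_lit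 0) (nat_lit 2040951377) (nat_lit 1596) (nat_lit 1365574243) (nat_lit 1596) (nat_lit 1365574243) (nat_lit 451) (nat_lit 3) (nat_lit 472) (nat_lit 3) (nat_lit 472) (nat_lit 5) (nat_lit 420) (nat_lit 420) (nat_lit 300))) (XT.nd (nat_lit 78) (nat_lit 0) (nat_lit 76) (XT.lf (nat_lit 76) (nat_lit 1785739073) (nat_lit 0) (nat_lit 3111738489) (nat_lit 1596) (nat_lit 4726248303) (nat_lit 452) (nat_lit 5) (nat_lit 451) (nat_lit 3) (nat_lit 472) (nat_lit 5) (nat_lit 421) (nat_lit 420) (nat_lit 299)) (XT.nd (nat_lit 78) (nat_lit 0) (nat_lit 0) (XT.lf (nat_lit 0) (nat_lit 5732099219) (nat_lit 1520) (nat_lit 3289746458) (nat_lit 1596) (nat_lit 682953179) (nat_lit 452) (nat_lit 5) (nat_lit 472) (nat_lit 5) (nat_lit 473) (nat_lit 5) (nat_lit 422) (nat_lit 420) (nat_lit 298)) (XT.lf (nat_lit 76) (nat_lit 1335755709) (nat_lit 0) (nat_lit 5257308338) (nat_lit 1596) (nat_lit 3194247063) (nat_lit 453) (nat_lit 5) (nat_lit 452) (nat_lit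 5) (nat_lit 473) (nat_lit 5) (nat_lit 423) (nat_lit 420) (nat_lit 297)))))) (XT.nd (nat_lit 390) (nat_lit 0) (nat_lit 0) (XT.nd (nat_lit 156) (nat_lit 1444) (nat_lit 0) (XT.nd (nat_lit 78) (nat_lit 0) (nat_lit 76) (XT.lf (nat_lit 76) (nat_lit 6087817020) (nat_lit 0) (nat_lit 1386194102) (nat_lit 1596) (nat_lit 2397417838) (nat_lit 453) (nat_lit 5) (nat_lit 452) (nat_lit 5) (nat_lit 473) (nat_lit 5) (nat_lit 424) (nat_lit 420) (nat_lit 296)) (XT.lf (nat_lit 76) (nat_lit 962900140) (nat_lit 0) (nat_lit 7413686730) (nat_lit 1596) (nat_lit 1580572500) (nat_lit 454) (nat_lit 5) (nat_lit 453) (nat_lit 5) (nat_lit 474) (nat_lit 5) (nat_lit 425) (nat_lit 420) (nat_lit 295))) (XT.nd (nat_lit 78) (nat_lit 1520) (nat_lit 0) (XT.lf (nat_lit 76) (nat_lit 5835616732) (nat_lit 0) (nat_lit 3477529267) (nat_lit 1596) (nat_lit 731149949) (nat_lit 454) (nat_lit 5) (nat_lit 453) (nat_lit 5) (nat_lit 474) (nat_lit 5) (nat_lit 426)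 (nat_lit 420) (nat_lit 294)) (XT.nd (nat_lit 78) (nat_lit 0) (nat_lit 0) (XT.lf (nat_lit 0) (nat_lit 123064282) (nat_lit 1596) (nat_lit 9467256922) (nat_lit 1672) (nat_lit 543054744) (nat_lit 433) (nat_lit 5) (nat_lit 454) (nat_lit 5) (nat_lit 455) (nat_lit 5) (nat_lit 427) (nat_lit 420) (nat_lit 293)) (XT.lf (nat_lit 0) (nat_lit 1018035429) (nat_lit 1596) (nat_lit 4567371616) (nat_lit 1672) (nat_lit 4638074200) (nat_lit 433) (nat_lit 5) (nat_lit 454) (nat_lit 5) (nat_lit 455) (nat_lit 5) (nat_lit 428) (nat_lit 420) (nat_lit 292))))) (XT.nd (nat_lit 234) (nat_lit 0) (nat_lit 152) (XT.nd (nat_lit 78) (nat_lit 0) (nat_lit 76) (XT.lf (nat_lit 76) (nat_lit 425202889) (nat_lit 0) (nat_lit 1490810959) (nat_lit 1672) (nat_lit 8399682061) (nat_lit 434) (nat_lit 5) (nat_lit 433) (nat_lit 5) (nat_lit 455) (nat_lit 5) (nat_lit 429) (nat_lit 420) (nat_lit 291)) (XT.nd (nat_lit 78) (nat_lit 0) (nat_lit 0) (XT.lf (nat_lit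 0) (nat_lit 2862907166) (nat_lit 1596) (nat_lit 4858454135) (nat_lit 1672) (nat_lit 2687783693) (nat_lit 434) (nat_lit 5) (nat_lit 455) (nat_lit 5) (nat_lit 456) (nat_lit 5) (nat_lit 430) (nat_lit 420) (nat_lit 290)) (XT.lf (nat_lit 76) (nat_lit 256726589) (nat_lit 0) (nat_lit 3566557099) (nat_lit 1672) (nat_lit 6681297520) (nat_lit 435) (nat_lit 5) (nat_lit 434) (nat_lit 5) (nat_lit 456) (nat_lit 5) (nat_lit 431) (nat_lit 420) (nat_lit 289)))) (XT.nd (nat_lit 78) (nat_lit 0) (nat_lit 0) (XT.lf (nat_lit 0) (nat_lit 4823350873) (nat_lit 1596) (nat_lit 5077082216) (nat_lit 1672) (nat_lit 701092271) (nat_lit 435) (nat_lit 5) (nat_lit 456) (nat_lit 5) (nat_lit 457) (nat_lit 5) (nat_lit 432) (nat_lit 420) (nat_lit 288)) (XT.nd (nat_lit 78) (nat_lit 0) (nat_lit 0) (XT.lf (nat_lit 76) (nat_lit 164563985) (nat_lit 0) (nat_lit 5687176427) (nat_lit 1672) (nat_lit 4848510265) (nat_lit 436) (nat_lit 5) (nat_lit 435) (nat_lit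 5) (nat_lit 457) (nat_lit 5) (nat_lit 433) (nat_lit 420) (nat_lit 287)) (XT.lf (nat_lit 76) (nat_lit 5568856840) (nat_lit 0) (nat_lit 1349793219) (nat_lit 1672) (nat_lit 3881949925) (nat_lit 436) (nat_lit 5) (nat_lit 435) (nat_lit 5) (nat_lit 457) (nat_lit 5) (nat_lit 434) (nat_lit 420) (nat_lit 286))))))))
noncomputable def xc195 : XT := (XT.nd (nat_lit 1638) (nat_lit 7828) (nat_lit 0) (XT.nd (nat_lit 780) (nat_lit 6840) (nat_lit 0) (XT.nd (nat_lit 390) (nat_lit 0) (nat_lit 76) (XT.nd (nat_lit 156) (nat_lit 1596) (nat_lit 0) (XT.nd (nat_lit 78) (nat_lit 0) (nat_lit 0) (XT.lf (nat_lit 76) (nat_lit 149125901) (nat_lit 0) (nat_lit 7862931846) (nat_lit 1672) (nat_lit 2890803699) (nat_lit 437) (nat_lit 5) (nat_lit 436) (nat_lit 5) (nat_lit 458) (nat_lit 5) (nat_lit 435) (nat_lit 420) (nat_lit 285)) (XT.lf (nat_lit 76) (nat_lit 5688396960) (nat_lit 0) (nat_lit 3467392868) (nat_lit 1672) (nat_lit 1850817384) (nat_lit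 437) (nat_lit 5) (nat_lit 436) (nat_lit 5) (nat_lit 458) (nat_lit 5) (nat_lit 436) (nat_lit 420) (nat_lit 284))) (XT.nd (nat_lit 78) (nat_lit 1672) (nat_lit 0) (XT.lf (nat_lit 76) (nat_lit 210996903) (nat_lit 0) (nat_lit 10104167677) (nat_lit 1672) (nat_lit 797415991) (nat_lit 438) (nat_lit 5) (nat_lit 437) (nat_lit 5) (nat_lit 459) (nat_lit 5) (nat_lit 437) (nat_lit 420) (nat_lit 283)) (XT.nd (nat_lit 78) (nat_lit 0) (nat_lit 0) (XT.lf (nat_lit 0) (nat_lit 317227053) (nat_lit 1672) (nat_lit 5333413167) (nat_lit 1748) (nat_lit 5569128785) (nat_lit 415) (nat_lit 5) (nat_lit 437) (nat_lit 5) (nat_lit 438) (nat_lit 5) (nat_lit 438) (nat_lit 420) (nat_lit 282)) (XT.lf (nat_lit 76) (nat_lit 334110543) (nat_lit 0) (nat_lit 1096769976) (nat_lit 1748) (nat_lit 9898374945) (nat_lit 416) (nat_lit 5) (nat_lit 415) (nat_lit 5) (nat_lit 438) (nat_lit 5) (nat_lit 439) (nat_lit 420) (nat_lit 281))))) (XT.nd (nat_lit 156) (nat_lit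 0) (nat_lit 76) (XT.nd (nat_lit 78) (nat_lit 0) (nat_lit 0) (XT.lf (nat_lit 0) (nat_lit 2611328050) (nat_lit 1672) (nat_lit 5287569223) (nat_lit 1748) (nat_lit 3541151388) (nat_lit 416) (nat_lit 5) (nat_lit 438) (nat_lit 5) (nat_lit 439) (nat_lit 5) (nat_lit 440) (nat_lit 420) (nat_lit 280)) (XT.lf (nat_lit 76) (nat_lit 522611725) (nat_lit 0) (nat_lit 3289171326) (nat_lit 1748) (nat_lit 7741353982) (nat_lit 417) (nat_lit 5) (nat_lit 416) (nat_lit 5) (nat_lit 439) (nat_lit 5) (nat_lit 441) (nat_lit 420) (nat_lit 279))) (XT.nd (nat_lit 78) (nat_lit 0) (nat_lit 0) (XT.lf (nat_lit 0) (nat_lit 5067106138) (nat_lit 1672) (nat_lit 5167885624) (nat_lit 1748) (nat_lit 1432885368) (nat_lit 417) (nat_lit 5) (nat_lit 439) (nat_lit 5) (nat_lit 440) (nat_lit 5) (nat_lit 442) (nat_lit 420) (nat_lit 278)) (XT.nd (nat_lit 78) (nat_lit 0) (nat_lit 0) (XT.lf (nat_lit 76) (nat_lit 789429439) (nat_lit 0) (nat_lit 5571258580) (nat_lit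 1748) (nat_lit 5423967962) (nat_lit 418) (nat_lit 5) (nat_lit 417) (nat_lit 5) (nat_lit 440) (nat_lit 5) (nat_lit 443) (nat_lit 420) (nat_lit 277)) (XT.lf (nat_lit 76) (nat_lit 6924867868) (nat_lit 0) (nat_lit 776394960) (nat_lit 1748) (nat_lit 4202092018) (nat_lit 418) (nat_lit 5) (nat_lit 417) (nat_lit 5) (nat_lit 440) (nat_lit 5) (nat_lit 444) (nat_lit 420) (nat_lit 276)))))) (XT.nd (nat_lit 390) (nat_lit 2584) (nat_lit 0) (XT.nd (nat_lit 156) (nat_lit 2812) (nat_lit 0) (XT.nd (nat_lit 78) (nat_lit 0) (nat_lit 0) (XT.lf (nat_lit 0) (nat_lit 1135621864) (nat_lit 1672) (nat_lit 7953837376) (nat_lit 1748) (nat_lit 2934558974) (nat_lit 396) (nat_lit 5) (nat_lit 418) (nat_lit 5) (nat_lit 419) (nat_lit 5) (nat_lit 445) (nat_lit 420) (nat_lit 275)) (XT.lf (nat_lit 0) (nat_lit 7423214693) (nat_lit 1672) (nat_lit 3107633146) (nat_lit 1748) (nat_lit 1615745038) (nat_lit 396) (nat_lit 5) (nat_lit 418) (nat_lit 5) (nat_lit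 419) (nat_lit 5) (nat_lit 446) (nat_lit 420) (nat_lit 274))) (XT.nd (nat_lit 78) (nat_lit 1064) (nat_lit 0) (XT.lf (nat_lit 0) (nat_lit 1562382341) (nat_lit 1748) (nat_lit 10447924724) (nat_lit 1824) (nat_lit 261133577) (nat_lit 373) (nat_lit 5) (nat_lit 396) (nat_lit 5) (nat_lit 397) (nat_lit 5) (nat_lit 447) (nat_lit 420) (nat_lit 273)) (XT.nd (nat_lit 78) (nat_lit 988) (nat_lit 0) (XT.lf (nat_lit 0) (nat_lit 1145631417) (nat_lit 1824) (nat_lit 4399566284) (nat_lit 76) (nat_lit 6852653211) (nat_lit 372) (nat_lit 5) (nat_lit 396) (nat_lit 5) (nat_lit 373) (nat_lit 5) (nat_lit 448) (nat_lit 420) (nat_lit 272)) (XT.lf (nat_lit 0) (nat_lit 2050262224) (nat_lit 988) (nat_lit 527608591) (nat_lit 1064) (nat_lit 9948873430) (nat_lit 359) (nat_lit 5) (nat_lit 372) (nat_lit 5) (nat_lit 373) (nat_lit 5) (nat_lit 449) (nat_lit 420) (nat_lit 271))))) (XT.nd (nat_lit 234) (nat_lit 1672) (nat_lit 0) (XT.nd (nat_lit 78) (nat_lit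 912) (nat_lit 0) (XT.lf (nat_lit 0) (nat_lit 4085980676) (nat_lit 1064) (nat_lit 4010101426) (nat_lit 76) (nat_lit 4561194803) (nat_lit 359) (nat_lit 5) (nat_lit 373) (nat_lit 5) (nat_lit 360) (nat_lit 5) (nat_lit 450) (nat_lit 420) (nat_lit 270)) (XT.nd (nat_lit 78) (nat_lit 0) (nat_lit 0) (XT.lf (nat_lit 0) (nat_lit 2605299268) (nat_lit 912) (nat_lit 3027307270) (nat_lit 988) (nat_lit 7157652459) (nat_lit 347) (nat_lit 5) (nat_lit 359) (nat_lit 5) (nat_lit 360) (nat_lit 5) (nat_lit 451) (nat_lit 420) (nat_lit 269)) (XT.lf (nat_lit 0) (nat_lit 7239282069) (nat_lit 988) (nat_lit 3543247582) (nat_lit 76) (nat_lit 2142794479) (nat_lit 347) (nat_lit 5) (nat_lit 360) (nat_lit 5) (nat_lit 348) (nat_lit 5) (nat_lit 452) (nat_lit 420) (nat_lit 268)))) (XT.nd (nat_lit 78) (nat_lit 836) (nat_lit 0) (XT.lf (nat_lit 0) (nat_lit 3242839628) (nat_lit 836) (nat_lit 5664703844) (nat_lit 912) (nat_lit 4154963676) (nat_lit 336)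 (nat_lit 5) (nat_lit 347) (nat_lit 5) (nat_lit 348) (nat_lit 5) (nat_lit 453) (nat_lit 420) (nat_lit 267)) (XT.nd (nat_lit 78) (nat_lit 836) (nat_lit 0) (XT.lf (nat_lit 0) (nat_lit 10201809007) (nat_lit 836) (nat_lit 419645331) (nat_lit 912) (nat_lit 2580739321) (nat_lit 336) (nat_lit 5) (nat_lit 347) (nat_lit 5) (nat_lit 348) (nat_lit 5) (nat_lit 454) (nat_lit 420) (nat_lit 266)) (XT.lf (nat_lit 0) (nat_lit 3964375663) (nat_lit 836) (nat_lit 8451754483) (nat_lit 912) (nat_lit 927619430) (nat_lit 325) (nat_lit 5) (nat_lit 336) (nat_lit 5) (nat_lit 337) (nat_lit 5) (nat_lit 455) (nat_lit 420) (nat_lit 265))))))) (XT.nd (nat_lit 780) (nat_lit 3952) (nat_lit 0) (XT.nd (nat_lit 390) (nat_lit 2280) (nat_lit 0) (XT.nd (nat_lit 156) (nat_lit 760) (nat_lit 0) (XT.nd (nat_lit 78) (nat_lit 760) (nat_lit 0) (XT.lf (nat_lit 0) (nat_lit 760469051) (nat_lit 912) (nat_lit 2397442398) (nat_lit 76) (nat_lit 10329894763) (nat_lit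 324) (nat_lit 5) (nat_lit 336) (nat_lit 5) (nat_lit 325) (nat_lit 5) (nat_lit 456) (nat_lit 420) (nat_lit 264)) (XT.lf (nat_lit 0) (nat_lit 2504708878) (nat_lit 836) (nat_lit 8879245587) (nat_lit 76) (nat_lit 2249975775) (nat_lit 314) (nat_lit 5) (nat_lit 325) (nat_lit 5) (nat_lit 315) (nat_lit 5) (nat_lit 457) (nat_lit 420) (nat_lit 263))) (XT.nd (nat_lit 78) (nat_lit 760) (nat_lit 0) (XT.lf (nat_lit 0) (nat_lit 4310115847) (nat_lit 836) (nat_lit 1732232258) (nat_lit 76) (nat_lit 7740107996) (nat_lit 314) (nat_lit 5) (nat_lit 325) (nat_lit 5) (nat_lit 315) (nat_lit 5) (nat_lit 458) (nat_lit 420) (nat_lit 262)) (XT.nd (nat_lit 78) (nat_lit 0) (nat_lit 0) (XT.lf (nat_lit 0) (nat_lit 5620742685) (nat_lit 760) (nat_lit 556768505) (nat_lit 836) (nat_lit 7755928582) (nat_lit 304) (nat_lit 5) (nat_lit 314) (nat_lit 5) (nat_lit 315) (nat_lit 5) (nat_lit 459) (nat_lit 420) (nat_lit 261)) (XT.lf (nat_lit 0) (nat_lit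 8116193829) (nat_lit 836) (nat_lit 986581700) (nat_lit 76) (nat_lit 4983993606) (nat_lit 304) (nat_lit 5) (nat_lit 315) (nat_lit 5) (nat_lit 305) (nat_lit 5) (nat_lit 460) (nat_lit 420) (nat_lit 260))))) (XT.nd (nat_lit 156) (nat_lit 1520) (nat_lit 0) (XT.nd (nat_lit 78) (nat_lit 0) (nat_lit 0) (XT.lf (nat_lit 0) (nat_lit 6557748718) (nat_lit 760) (nat_lit 3571896045) (nat_lit 836) (nat_lit 4112805138) (nat_lit 294) (nat_lit 5) (nat_lit 304) (nat_lit 5) (nat_lit 305) (nat_lit 5) (nat_lit 461) (nat_lit 420) (nat_lit 259)) (XT.lf (nat_lit 0) (nat_lit 12193326555) (nat_lit 836) (nat_lit 159014670) (nat_lit 76) (nat_lit 2048708439) (nat_lit 294) (nat_lit 5) (nat_lit 305) (nat_lit 5) (nat_lit 295) (nat_lit 5) (nat_lit 462) (nat_lit 420) (nat_lit 258))) (XT.nd (nat_lit 78) (nat_lit 760) (nat_lit 0) (XT.lf (nat_lit 0) (nat_lit 7582425657) (nat_lit 760) (nat_lit 6778800509) (nat_lit 836) (nat_lit 200340898) (nat_lit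 284) (nat_lit 5) (nat_lit 294) (nat_lit 5) (nat_lit 295) (nat_lit 5) (nat_lit 463) (nat_lit 420) (nat_lit 257)) (XT.nd (nat_lit 78) (nat_lit 0) (nat_lit 0) (XT.lf (nat_lit 0) (nat_lit 742701078) (nat_lit 684) (nat_lit 1076274517) (nat_lit 760) (nat_lit 12906163450) (nat_lit 274) (nat_lit 5) (nat_lit 283) (nat_lit 5) (nat_lit 284) (nat_lit 5) (nat_lit 464) (nat_lit 420) (nat_lit 256)) (XT.lf (nat_lit 0) (nat_lit 3944156224) (nat_lit 760) (nat_lit 6220615988) (nat_lit 76) (nat_lit 4725824826) (nat_lit 274) (nat_lit 5) (nat_lit 284) (nat_lit 5) (nat_lit 275) (nat_lit 5) (nat_lit 465) (nat_lit 420) (nat_lit 255)))))) (XT.nd (nat_lit 390) (nat_lit 1900) (nat_lit 0) (XT.nd (nat_lit 156) (nat_lit 1368) (nat_lit 0) (XT.nd (nat_lit 78) (nat_lit 0) (nat_lit 0) (XT.lf (nat_lit 0) (nat_lit 1701094943) (nat_lit 684) (nat_lit 4419346048) (nat_lit 760) (nat_lit 8938755372) (nat_lit 265) (nat_lit 5) (nat_lit 274) (nat_lit 5)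 (nat_lit 275) (nat_lit 5) (nat_lit 466) (nat_lit 420) (nat_lit 254)) (XT.lf (nat_lit 0) (nat_lit 8382168820) (nat_lit 760) (nat_lit 5385050246) (nat_lit 76) (nat_lit 1463114360) (nat_lit 265) (nat_lit 5) (nat_lit 275) (nat_lit 5) (nat_lit 266) (nat_lit 5) (nat_lit 467) (nat_lit 420) (nat_lit 253))) (XT.nd (nat_lit 78) (nat_lit 684) (nat_lit 0) (XT.lf (nat_lit 0) (nat_lit 2743740862) (nat_lit 684) (nat_lit 7983198640) (nat_lit 760) (nat_lit 4677201583) (nat_lit 256) (nat_lit 5) (nat_lit 265) (nat_lit 5) (nat_lit 266) (nat_lit 5) (nat_lit 468) (nat_lit 420) (nat_lit 252)) (XT.nd (nat_lit 78) (nat_lit 684) (nat_lit 0) (XT.lf (nat_lit 0) (nat_lit 11097733691) (nat_lit 684) (nat_lit 2047849845) (nat_lit 760) (nat_lit 2435305745) (nat_lit 256) (nat_lit 5) (nat_lit 265) (nat_lit 5) (nat_lit 266) (nat_lit 5) (nat_lit 469) (nat_lit 420) (nat_lit 251)) (XT.lf (nat_lit 0) (nat_lit 3872063520) (nat_lit 684) (nat_lit 11782701167)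 (nat_lit 760) (nat_lit 105568332) (nat_lit 247) (nat_lit 5) (nat_lit 256) (nat_lit 5) (nat_lit 257) (nat_lit 5) (nat_lit 470) (nat_lit 420) (nat_lit 250))))) (XT.nd (nat_lit 234) (nat_lit 1216) (nat_lit 0) (XT.nd (nat_lit 78) (nat_lit 608) (nat_lit 0) (XT.lf (nat_lit 0) (nat_lit 2275888101) (nat_lit 760) (nat_lit 3526507792) (nat_lit 76) (nat_lit 10139980470) (nat_lit 246) (nat_lit 5) (nat_lit 256) (nat_lit 5) (nat_lit 247) (nat_lit 5) (nat_lit 471) (nat_lit 420) (nat_lit 249)) (XT.nd (nat_lit 78) (nat_lit 0) (nat_lit 0) (XT.lf (nat_lit 0) (nat_lit 4729780932) (nat_lit 684) (nat_lit 11071780417) (nat_lit 76) (nat_lit 325964495) (nat_lit 238) (nat_lit 5) (nat_lit 247) (nat_lit 5) (nat_lit 239) (nat_lit 5) (nat_lit 472) (nat_lit 420) (nat_lit 248)) (XT.lf (nat_lit 0) (nat_lit 7286331656) (nat_lit 684) (nat_lit 2507334797) (nat_lit 76) (nat_lit 6521643829) (nat_lit 238) (nat_lit 5) (nat_lit 247) (nat_lit 5) (nat_lit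 239) (nat_lit 5) (nat_lit 473) (nat_lit 420) (nat_lit 247)))) (XT.nd (nat_lit 78) (nat_lit 608) (nat_lit 0) (XT.lf (nat_lit 0) (nat_lit 6300946558) (nat_lit 608) (nat_lit 3625478849) (nat_lit 684) (nat_lit 6579780262) (nat_lit 230) (nat_lit 5) (nat_lit 238) (nat_lit 5) (nat_lit 239) (nat_lit 5) (nat_lit 474) (nat_lit 420) (nat_lit 246)) (XT.nd (nat_lit 78) (nat_lit 608) (nat_lit 0) (XT.lf (nat_lit 0) (nat_lit 12645160961) (nat_lit 684) (nat_lit 1408808286) (nat_lit 76) (nat_lit 2646436348) (nat_lit 230) (nat_lit 5) (nat_lit 239) (nat_lit 5) (nat_lit 231) (nat_lit 5) (nat_lit 475) (nat_lit 420) (nat_lit 245)) (XT.lf (nat_lit 0) (nat_lit 7629639960) (nat_lit 608) (nat_lit 7853935639) (nat_lit 684) (nat_lit 1413611199) (nat_lit 222) (nat_lit 5) (nat_lit 230) (nat_lit 5) (nat_lit 231) (nat_lit 5) (nat_lit 476) (nat_lit 420) (nat_lit 244))))))))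
noncomputable def xc196 : XT := (XT.nd (nat_lit 1560) (nat_lit 380) (nat_lit 0) (XT.nd (nat_lit 780) (nat_lit 2964) (nat_lit 0) (XT.nd (nat_lit 390) (nat_lit 1140) (nat_lit 0) (XT.nd (nat_lit 156) (nat_lit 1064) (nat_lit 0) (XT.nd (nat_lit 78) (nat_lit 608) (nat_lit 0) (XT.lf (nat_lit 0) (nat_lit 1265370618) (nat_lit 684) (nat_lit 248171814) (nat_lit 76) (nat_lit 15584171813) (nat_lit 221) (nat_lit 5) (nat_lit 230) (nat_lit 5) (nat_lit 222) (nat_lit 5) (nat_lit 477) (nat_lit 420) (nat_lit 243)) (XT.lf (nat_lit 0) (nat_lit 4062347947) (nat_lit 684) (nat_lit 8282555525) (nat_lit 76) (nat_lit 4955498178) (nat_lit 213) (nat_lit 5) (nat_lit 222) (nat_lit 5) (nat_lit 214) (nat_lit 5) (nat_lit 478) (nat_lit 420) (nat_lit 242))) (XT.nd (nat_lit 78) (nat_lit 532) (nat_lit 0) (XT.lf (nat_lit 0) (nat_lit 958048227) (nat_lit 532) (nat_lit 5967177850) (nat_lit 608) (nat_lit 10581720609) (nat_lit 206) (nat_lit 5) (nat_lit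 213) (nat_lit 5) (nat_lit 214) (nat_lit 5) (nat_lit 479) (nat_lit 420) (nat_lit 241)) (XT.nd (nat_lit 78) (nat_lit 532) (nat_lit 0) (XT.lf (nat_lit 0) (nat_lit 9896924143) (nat_lit 608) (nat_lit 7234639958) (nat_lit 76) (nat_lit 585030320) (nat_lit 206) (nat_lit 5) (nat_lit 214) (nat_lit 5) (nat_lit 207) (nat_lit 5) (nat_lit 480) (nat_lit 420) (nat_lit 240)) (XT.lf (nat_lit 0) (nat_lit 2246035869) (nat_lit 532) (nat_lit 10728395562) (nat_lit 608) (nat_lit 4955079162) (nat_lit 199) (nat_lit 5) (nat_lit 206) (nat_lit 5) (nat_lit 207) (nat_lit 5) (nat_lit 481) (nat_lit 420) (nat_lit 239))))) (XT.nd (nat_lit 156) (nat_lit 532) (nat_lit 0) (XT.nd (nat_lit 78) (nat_lit 608) (nat_lit 0) (XT.lf (nat_lit 0) (nat_lit 12004649911) (nat_lit 532) (nat_lit 4149750187) (nat_lit 608) (nat_lit 1991469694) (nat_lit 199) (nat_lit 5) (nat_lit 206) (nat_lit 5) (nat_lit 207) (nat_lit 5) (nat_lit 482) (nat_lit 420) (nat_lit 238))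 (XT.lf (nat_lit 0) (nat_lit 1050679000) (nat_lit 608) (nat_lit 14759870431) (nat_lit 76) (nat_lit 2555219742) (nat_lit 191) (nat_lit 5) (nat_lit 199) (nat_lit 5) (nat_lit 192) (nat_lit 5) (nat_lit 483) (nat_lit 420) (nat_lit 237))) (XT.nd (nat_lit 78) (nat_lit 532) (nat_lit 0) (XT.lf (nat_lit 0) (nat_lit 4188527349) (nat_lit 608) (nat_lit 5008709162) (nat_lit 76) (nat_lit 9391339068) (nat_lit 191) (nat_lit 5) (nat_lit 199) (nat_lit 5) (nat_lit 192) (nat_lit 5) (nat_lit 484) (nat_lit 420) (nat_lit 236)) (XT.nd (nat_lit 78) (nat_lit 0) (nat_lit 0) (XT.lf (nat_lit 0) (nat_lit 4993426608) (nat_lit 532) (nat_lit 2420805132) (nat_lit 608) (nat_lit 11401107097) (nat_lit 184) (nat_lit 5) (nat_lit 191) (nat_lit 5) (nat_lit 192) (nat_lit 5) (nat_lit 485) (nat_lit 420) (nat_lit 235)) (XT.lf (nat_lit 0) (nat_lit 10760189401) (nat_lit 608) (nat_lit 3821456402) (nat_lit 76) (nat_lit 4463879427) (nat_lit 184) (nat_lit 5) (nat_lit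 192) (nat_lit 5) (nat_lit 185) (nat_lit 5) (nat_lit 486) (nat_lit 420) (nat_lit 234)))))) (XT.nd (nat_lit 390) (nat_lit 1444) (nat_lit 0) (XT.nd (nat_lit 156) (nat_lit 1064) (nat_lit 0) (XT.nd (nat_lit 78) (nat_lit 0) (nat_lit 0) (XT.lf (nat_lit 0) (nat_lit 6437991963) (nat_lit 456) (nat_lit 7785793980) (nat_lit 532) (nat_lit 5055517613) (nat_lit 178) (nat_lit 5) (nat_lit 184) (nat_lit 5) (nat_lit 185) (nat_lit 5) (nat_lit 487) (nat_lit 420) (nat_lit 233)) (XT.lf (nat_lit 0) (nat_lit 16945071941) (nat_lit 456) (nat_lit 830193342) (nat_lit 532) (nat_lit 1742122498) (nat_lit 178) (nat_lit 5) (nat_lit 184) (nat_lit 5) (nat_lit 185) (nat_lit 5) (nat_lit 488) (nat_lit 420) (nat_lit 232))) (XT.nd (nat_lit 78) (nat_lit 456) (nat_lit 0) (XT.lf (nat_lit 0) (nat_lit 1702048984) (nat_lit 608) (nat_lit 11813289250) (nat_lit 76) (nat_lit 6242965564) (nat_lit 170) (nat_lit 5) (nat_lit 178) (nat_lit 5) (nat_lit 171) (nat_lit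 5) (nat_lit 489) (nat_lit 420) (nat_lit 231)) (XT.nd (nat_lit 78) (nat_lit 456) (nat_lit 0) (XT.lf (nat_lit 0) (nat_lit 5207790368) (nat_lit 608) (nat_lit 1322615449) (nat_lit 76) (nat_lit 13473084141) (nat_lit 170) (nat_lit 5) (nat_lit 178) (nat_lit 5) (nat_lit 171) (nat_lit 5) (nat_lit 490) (nat_lit 420) (nat_lit 230)) (XT.lf (nat_lit 0) (nat_lit 8842786355) (nat_lit 532) (nat_lit 10763507889) (nat_lit 76) (nat_lit 646105158) (nat_lit 164) (nat_lit 5) (nat_lit 171) (nat_lit 5) (nat_lit 165) (nat_lit 5) (nat_lit 491) (nat_lit 420) (nat_lit 229))))) (XT.nd (nat_lit 156) (nat_lit 988) (nat_lit 0) (XT.nd (nat_lit 78) (nat_lit 456) (nat_lit 0) (XT.lf (nat_lit 0) (nat_lit 12595974558) (nat_lit 532) (nat_lit 24068903) (nat_lit 76) (nat_lit 7885336037) (nat_lit 164) (nat_lit 5) (nat_lit 171) (nat_lit 5) (nat_lit 165) (nat_lit 5) (nat_lit 492) (nat_lit 420) (nat_lit 228)) (XT.lf (nat_lit 0) (nat_lit 11066265616) (nat_lit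 456) (nat_lit 5423251966) (nat_lit 532) (nat_lit 4272598056) (nat_lit 158) (nat_lit 5) (nat_lit 164) (nat_lit 5) (nat_lit 165) (nat_lit 5) (nat_lit 493) (nat_lit 420) (nat_lit 227))) (XT.nd (nat_lit 78) (nat_lit 532) (nat_lit 0) (XT.lf (nat_lit 0) (nat_lit 1350931155) (nat_lit 456) (nat_lit 19124879327) (nat_lit 532) (nat_lit 547880658) (nat_lit 152) (nat_lit 5) (nat_lit 158) (nat_lit 5) (nat_lit 159) (nat_lit 5) (nat_lit 494) (nat_lit 420) (nat_lit 226)) (XT.nd (nat_lit 78) (nat_lit 456) (nat_lit 0) (XT.lf (nat_lit 0) (nat_lit 3303619951) (nat_lit 532) (nat_lit 8605689623) (nat_lit 76) (nat_lit 9378869902) (nat_lit 151) (nat_lit 5) (nat_lit 158) (nat_lit 5) (nat_lit 152) (nat_lit 5) (nat_lit 495) (nat_lit 420) (nat_lit 225)) (XT.lf (nat_lit 0) (nat_lit 2705643256) (nat_lit 456) (nat_lit 4530391875) (nat_lit 532) (nat_lit 14321627695) (nat_lit 145) (nat_lit 5) (nat_lit 151) (nat_lit 5) (nat_lit 152) (nat_lit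 5) (nat_lit 496) (nat_lit 420) (nat_lit 224))))))) (XT.nd (nat_lit 53976) (nat_lit 0) (nat_lit 20900) (XT.nd (nat_lit 53586) (nat_lit 0) (nat_lit 22192) (XT.nd (nat_lit 156) (nat_lit 0) (nat_lit 0) (XT.nd (nat_lit 78) (nat_lit 380) (nat_lit 0) (XT.lf (nat_lit 0) (nat_lit 11318379568) (nat_lit 532) (nat_lit 7500348528) (nat_lit 76) (nat_lit 3012384178) (nat_lit 145) (nat_lit 5) (nat_lit 152) (nat_lit 5) (nat_lit 146) (nat_lit 5) (nat_lit 497) (nat_lit 420) (nat_lit 223)) (XT.lf (nat_lit 0) (nat_lit 4093225250) (nat_lit 380) (nat_lit 11439544865) (nat_lit 456) (nat_lit 6576254622) (nat_lit 140) (nat_lit 5) (nat_lit 145) (nat_lit 5) (nat_lit 146) (nat_lit 5) (nat_lit 498) (nat_lit 420) (nat_lit 222))) (XT.nd (nat_lit 53274) (nat_lit 0) (nat_lit 23636) (XT.lf (nat_lit 0) (nat_lit 16011586200) (nat_lit 380) (nat_lit 3864078584) (nat_lit 456) (nat_lit 2515948311) (nat_lit 140) (nat_lit 5) (nat_lit 145) (nat_lit 5)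 (nat_lit 146) (nat_lit 5) (nat_lit 499) (nat_lit 420) (nat_lit 221)) (XT.nd (nat_lit 78) (nat_lit 0) (nat_lit 0) (XT.lf (nat_lit 0) (nat_lit 2839977031) (nat_lit 1596) (nat_lit 1005991342) (nat_lit 1596) (nat_lit 1005991342) (nat_lit 451) (nat_lit 3) (nat_lit 472) (nat_lit 3) (nat_lit 472) (nat_lit 5) (nat_lit 421) (nat_lit 421) (nat_lit 298)) (XT.lf (nat_lit 76) (nat_lit 2590151910) (nat_lit 0) (nat_lit 3896945761) (nat_lit 1596) (nat_lit 3298449669) (nat_lit 452) (nat_lit 5) (nat_lit 451) (nat_lit 3) (nat_lit 472) (nat_lit 5) (nat_lit 422) (nat_lit 421) (nat_lit 297))))) (XT.nd (nat_lit 156) (nat_lit 1444) (nat_lit 0) (XT.nd (nat_lit 78) (nat_lit 0) (nat_lit 76) (XT.lf (nat_lit 76) (nat_lit 7301653625) (nat_lit 0) (nat_lit 2926718) (nat_lit 1596) (nat_lit 2564354147) (nat_lit 452) (nat_lit 5) (nat_lit 451) (nat_lit 3) (nat_lit 472) (nat_lit 5) (nat_lit 423) (nat_lit 421) (nat_lit 296)) (XT.lf (nat_lit 76)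 (nat_lit 2145564298) (nat_lit 0) (nat_lit 6013680822) (nat_lit 1596) (nat_lit 1794338013) (nat_lit 453) (nat_lit 5) (nat_lit 452) (nat_lit 5) (nat_lit 473) (nat_lit 5) (nat_lit 424) (nat_lit 421) (nat_lit 295))) (XT.nd (nat_lit 78) (nat_lit 1520) (nat_lit 0) (XT.lf (nat_lit 76) (nat_lit 6977312061) (nat_lit 0) (nat_lit 2052375158) (nat_lit 1596) (nat_lit 1010274046) (nat_lit 453) (nat_lit 5) (nat_lit 452) (nat_lit 5) (nat_lit 473) (nat_lit 5) (nat_lit 425) (nat_lit 421) (nat_lit 294)) (XT.nd (nat_lit 78) (nat_lit 1596) (nat_lit 0) (XT.lf (nat_lit 76) (nat_lit 1777670114) (nat_lit 0) (nat_lit 8146172884) (nat_lit 1596) (nat_lit 204107860) (nat_lit 454) (nat_lit 5) (nat_lit 453) (nat_lit 5) (nat_lit 474) (nat_lit 5) (nat_lit 426) (nat_lit 421) (nat_lit 293)) (XT.lf (nat_lit 0) (nat_lit 626369683) (nat_lit 1596) (nat_lit 3489264172) (nat_lit 1672) (nat_lit 6101669810) (nat_lit 432) (nat_lit 5) (nat_lit 453) (nat_lit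 5) (nat_lit 454) (nat_lit 5) (nat_lit 427) (nat_lit 421) (nat_lit 292)))))) (XT.nd (nat_lit 390) (nat_lit 1368) (nat_lit 0) (XT.nd (nat_lit 156) (nat_lit 0) (nat_lit 0) (XT.nd (nat_lit 78) (nat_lit 0) (nat_lit 0) (XT.lf (nat_lit 0) (nat_lit 1462772661) (nat_lit 1596) (nat_lit 8832027354) (nat_lit 1672) (nat_lit 13784973) (nat_lit 433) (nat_lit 5) (nat_lit 454) (nat_lit 5) (nat_lit 455) (nat_lit 5) (nat_lit 428) (nat_lit 421) (nat_lit 291)) (XT.lf (nat_lit 0) (nat_lit 2349422699) (nat_lit 1596) (nat_lit 3850312473) (nat_lit 1672) (nat_lit 4201295619) (nat_lit 433) (nat_lit 5) (nat_lit 454) (nat_lit 5) (nat_lit 455) (nat_lit 5) (nat_lit 429) (nat_lit 421) (nat_lit 290))) (XT.nd (nat_lit 78) (nat_lit 0) (nat_lit 76) (XT.lf (nat_lit 76) (nat_lit 1236795058) (nat_lit 0) (nat_lit 2008073406) (nat_lit 1672) (nat_lit 7250644846) (nat_lit 434) (nat_lit 5) (nat_lit 433) (nat_lit 5) (nat_lit 455) (nat_lit 5) (nat_lit 430)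 (nat_lit 421) (nat_lit 289)) (XT.nd (nat_lit 78) (nat_lit 0) (nat_lit 0) (XT.lf (nat_lit 0) (nat_lit 4182292285) (nat_lit 1596) (nat_lit 4139202186) (nat_lit 1672) (nat_lit 2269918501) (nat_lit 434) (nat_lit 5) (nat_lit 455) (nat_lit 5) (nat_lit 456) (nat_lit 5) (nat_lit 431) (nat_lit 421) (nat_lit 288)) (XT.lf (nat_lit 76) (nat_lit 1072910961) (nat_lit 0) (nat_lit 4069483662) (nat_lit 1672) (nat_lit 5546766105) (nat_lit 435) (nat_lit 5) (nat_lit 434) (nat_lit 5) (nat_lit 456) (nat_lit 5) (nat_lit 432) (nat_lit 421) (nat_lit 287))))) (XT.nd (nat_lit 234) (nat_lit 1520) (nat_lit 0) (XT.nd (nat_lit 78) (nat_lit 0) (nat_lit 0) (XT.lf (nat_lit 0) (nat_lit 6135350299) (nat_lit 1596) (nat_lit 4355717832) (nat_lit 1672) (nat_lit 297530814) (nat_lit 435) (nat_lit 5) (nat_lit 456) (nat_lit 5) (nat_lit 457) (nat_lit 5) (nat_lit 433) (nat_lit 421) (nat_lit 286)) (XT.nd (nat_lit 78) (nat_lit 0) (nat_lit 0) (XT.lf (nat_lit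 76) (nat_lit 985347437) (nat_lit 0) (nat_lit 6180433924) (nat_lit 1672) (nat_lit 3723900605) (nat_lit 436) (nat_lit 5) (nat_lit 435) (nat_lit 5) (nat_lit 457) (nat_lit 5) (nat_lit 434) (nat_lit 421) (nat_lit 285)) (XT.lf (nat_lit 76) (nat_lit 6481696891) (nat_lit 0) (nat_lit 1748861602) (nat_lit 1672) (nat_lit 2761961604) (nat_lit 436) (nat_lit 5) (nat_lit 435) (nat_lit 5) (nat_lit 457) (nat_lit 5) (nat_lit 435) (nat_lit 421) (nat_lit 284)))) (XT.nd (nat_lit 78) (nat_lit 1596) (nat_lit 0) (XT.lf (nat_lit 76) (nat_lit 974631786) (nat_lit 0) (nat_lit 8351164043) (nat_lit 1672) (nat_lit 1771443909) (nat_lit 437) (nat_lit 5) (nat_lit 436) (nat_lit 5) (nat_lit 458) (nat_lit 5) (nat_lit 436) (nat_lit 421) (nat_lit 283)) (XT.nd (nat_lit 78) (nat_lit 1596) (nat_lit 0) (XT.lf (nat_lit 76) (nat_lit 6608560358) (nat_lit 0) (nat_lit 3861224608) (nat_lit 1672) (nat_lit 733739747) (nat_lit 437) (nat_lit 5) (nat_lit 436) (nat_lit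 5) (nat_lit 458) (nat_lit 5) (nat_lit 437) (nat_lit 421) (nat_lit 282)) (XT.lf (nat_lit 0) (nat_lit 317249359) (nat_lit 1672) (nat_lit 10272632028) (nat_lit 1748) (nat_lit 722083617) (nat_lit 415) (nat_lit 5) (nat_lit 437) (nat_lit 5) (nat_lit 438) (nat_lit 5) (nat_lit 438) (nat_lit 421) (nat_lit 281))))))))
noncomputable def xc197 : XT := (XT.nd (nat_lit 1638) (nat_lit 8208) (nat_lit 0) (XT.nd (nat_lit 780) (nat_lit 4408) (nat_lit 0) (XT.nd (nat_lit 390) (nat_lit 3268) (nat_lit 0) (XT.nd (nat_lit 156) (nat_lit 0) (nat_lit 76) (XT.nd (nat_lit 78) (nat_lit 0) (nat_lit 0) (XT.lf (nat_lit 0) (nat_lit 1421558114) (nat_lit 1672) (nat_lit 4614882985) (nat_lit 1748) (nat_lit 5385200935) (nat_lit 415) (nat_lit 5) (nat_lit 437) (nat_lit 5) (nat_lit 438) (nat_lit 5) (nat_lit 439) (nat_lit 421) (nat_lit 280)) (XT.lf (nat_lit 76) (nat_lit 1160562262) (nat_lit 0) (nat_lit 1380715729) (nat_lit 1748) (nat_lit 8992375398) (nat_lit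 416) (nat_lit 5) (nat_lit 415) (nat_lit 5) (nat_lit 438) (nat_lit 5) (nat_lit 440) (nat_lit 421) (nat_lit 279))) (XT.nd (nat_lit 78) (nat_lit 0) (nat_lit 0) (XT.lf (nat_lit 0) (nat_lit 3722455313) (nat_lit 1672) (nat_lit 4566205080) (nat_lit 1748) (nat_lit 3358470455) (nat_lit 416) (nat_lit 5) (nat_lit 438) (nat_lit 5) (nat_lit 439) (nat_lit 5) (nat_lit 441) (nat_lit 421) (nat_lit 278)) (XT.nd (nat_lit 78) (nat_lit 0) (nat_lit 76) (XT.lf (nat_lit 76) (nat_lit 1354737937) (nat_lit 0) (nat_lit 3576753570) (nat_lit 1748) (nat_lit 6831308641) (nat_lit 417) (nat_lit 5) (nat_lit 416) (nat_lit 5) (nat_lit 439) (nat_lit 5) (nat_lit 442) (nat_lit 421) (nat_lit 277)) (XT.lf (nat_lit 0) (nat_lit 6190048977) (nat_lit 1672) (nat_lit 4443288760) (nat_lit 1748) (nat_lit 1246945148) (nat_lit 417) (nat_lit 5) (nat_lit 439) (nat_lit 5) (nat_lit 440) (nat_lit 5) (nat_lit 443) (nat_lit 421) (nat_lit 276))))) (XT.nd (nat_lit 156)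 (nat_lit 3420) (nat_lit 0) (XT.nd (nat_lit 78) (nat_lit 0) (nat_lit 0) (XT.lf (nat_lit 76) (nat_lit 1627725535) (nat_lit 0) (nat_lit 5867085838) (nat_lit 1748) (nat_lit 4504889954) (nat_lit 418) (nat_lit 5) (nat_lit 417) (nat_lit 5) (nat_lit 440) (nat_lit 5) (nat_lit 444) (nat_lit 421) (nat_lit 275)) (XT.lf (nat_lit 76) (nat_lit 7869745134) (nat_lit 0) (nat_lit 972709219) (nat_lit 1748) (nat_lit 3278724674) (nat_lit 418) (nat_lit 5) (nat_lit 417) (nat_lit 5) (nat_lit 440) (nat_lit 5) (nat_lit 445) (nat_lit 421) (nat_lit 274))) (XT.nd (nat_lit 78) (nat_lit 1824) (nat_lit 0) (XT.lf (nat_lit 0) (nat_lit 1980684880) (nat_lit 1672) (nat_lit 8262562086) (nat_lit 1748) (nat_lit 2001321845) (nat_lit 396) (nat_lit 5) (nat_lit 418) (nat_lit 5) (nat_lit 419) (nat_lit 5) (nat_lit 446) (nat_lit 421) (nat_lit 273)) (XT.nd (nat_lit 78) (nat_lit 1824) (nat_lit 0) (XT.lf (nat_lit 0) (nat_lit 8377905045) (nat_lit 1672) (nat_lit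 3316499498) (nat_lit 1748) (nat_lit 675581206) (nat_lit 396) (nat_lit 5) (nat_lit 418) (nat_lit 5) (nat_lit 419) (nat_lit 5) (nat_lit 447) (nat_lit 421) (nat_lit 272)) (XT.lf (nat_lit 0) (nat_lit 682470963) (nat_lit 1824) (nat_lit 10087206897) (nat_lit 76) (nat_lit 1727857960) (nat_lit 372) (nat_lit 5) (nat_lit 396) (nat_lit 5) (nat_lit 373) (nat_lit 5) (nat_lit 448) (nat_lit 421) (nat_lit 271)))))) (XT.nd (nat_lit 390) (nat_lit 2508) (nat_lit 0) (XT.nd (nat_lit 156) (nat_lit 912) (nat_lit 0) (XT.nd (nat_lit 78) (nat_lit 988) (nat_lit 0) (XT.lf (nat_lit 0) (nat_lit 2095341989) (nat_lit 1824) (nat_lit 3669613287) (nat_lit 76) (nat_lit 6861864202) (nat_lit 372) (nat_lit 5) (nat_lit 396) (nat_lit 5) (nat_lit 373) (nat_lit 5) (nat_lit 449) (nat_lit 421) (nat_lit 270)) (XT.lf (nat_lit 0) (nat_lit 2903830579) (nat_lit 988) (nat_lit 639498786) (nat_lit 1064) (nat_lit 9215228120) (nat_lit 359) (nat_lit 5) (nat_lit 372)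 (nat_lit 5) (nat_lit 373) (nat_lit 5) (nat_lit 450) (nat_lit 421) (nat_lit 269))) (XT.nd (nat_lit 78) (nat_lit 912) (nat_lit 0) (XT.lf (nat_lit 0) (nat_lit 5063036740) (nat_lit 1064) (nat_lit 3274673349) (nat_lit 76) (nat_lit 4554370702) (nat_lit 359) (nat_lit 5) (nat_lit 373) (nat_lit 5) (nat_lit 360) (nat_lit 5) (nat_lit 451) (nat_lit 421) (nat_lit 268)) (XT.nd (nat_lit 78) (nat_lit 0) (nat_lit 0) (XT.lf (nat_lit 0) (nat_lit 3467669373) (nat_lit 912) (nat_lit 3160630902) (nat_lit 988) (nat_lit 6399676675) (nat_lit 347) (nat_lit 5) (nat_lit 359) (nat_lit 5) (nat_lit 360) (nat_lit 5) (nat_lit 452) (nat_lit 421) (nat_lit 267)) (XT.lf (nat_lit 0) (nat_lit 8249331521) (nat_lit 988) (nat_lit 2801540116) (nat_lit 76) (nat_lit 2115235665) (nat_lit 347) (nat_lit 5) (nat_lit 360) (nat_lit 5) (nat_lit 348) (nat_lit 5) (nat_lit 453) (nat_lit 421) (nat_lit 266))))) (XT.nd (nat_lit 234) (nat_lit 836) (nat_lit 0) (XT.nd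 (nat_lit 78) (nat_lit 836) (nat_lit 0) (XT.lf (nat_lit 0) (nat_lit 4114922967) (nat_lit 836) (nat_lit 5824310277) (nat_lit 912) (nat_lit 3367043430) (nat_lit 336) (nat_lit 5) (nat_lit 347) (nat_lit 5) (nat_lit 348) (nat_lit 5) (nat_lit 454) (nat_lit 421) (nat_lit 265)) (XT.nd (nat_lit 78) (nat_lit 836) (nat_lit 0) (XT.lf (nat_lit 0) (nat_lit 11197243762) (nat_lit 836) (nat_lit 473442509) (nat_lit 912) (nat_lit 1778413402) (nat_lit 336) (nat_lit 5) (nat_lit 347) (nat_lit 5) (nat_lit 348) (nat_lit 5) (nat_lit 455) (nat_lit 421) (nat_lit 264)) (XT.lf (nat_lit 0) (nat_lit 4847173147) (nat_lit 836) (nat_lit 8642602454) (nat_lit 912) (nat_lit 103948586) (nat_lit 325) (nat_lit 5) (nat_lit 336) (nat_lit 5) (nat_lit 337) (nat_lit 5) (nat_lit 456) (nat_lit 421) (nat_lit 263)))) (XT.nd (nat_lit 78) (nat_lit 760) (nat_lit 0) (XT.lf (nat_lit 0) (nat_lit 1590558162) (nat_lit 912) (nat_lit 1646428423) (nat_lit 76) (nat_lit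 10503899531) (nat_lit 324) (nat_lit 5) (nat_lit 336) (nat_lit 5) (nat_lit 325) (nat_lit 5) (nat_lit 457) (nat_lit 421) (nat_lit 262)) (XT.nd (nat_lit 78) (nat_lit 0) (nat_lit 0) (XT.lf (nat_lit 0) (nat_lit 3358790831) (nat_lit 836) (nat_lit 8246604518) (nat_lit 76) (nat_lit 2284762537) (nat_lit 314) (nat_lit 5) (nat_lit 325) (nat_lit 5) (nat_lit 315) (nat_lit 5) (nat_lit 458) (nat_lit 421) (nat_lit 261)) (XT.lf (nat_lit 0) (nat_lit 5184541473) (nat_lit 836) (nat_lit 972537706) (nat_lit 76) (nat_lit 7884897652) (nat_lit 314) (nat_lit 5) (nat_lit 325) (nat_lit 5) (nat_lit 315) (nat_lit 5) (nat_lit 459) (nat_lit 421) (nat_lit 260))))))) (XT.nd (nat_lit 780) (nat_lit 3800) (nat_lit 0) (XT.nd (nat_lit 390) (nat_lit 2052) (nat_lit 0) (XT.nd (nat_lit 156) (nat_lit 1596) (nat_lit 0) (XT.nd (nat_lit 78) (nat_lit 0) (nat_lit 0) (XT.lf (nat_lit 0) (nat_lit 6522270819) (nat_lit 760) (nat_lit 556681992) (nat_lit 836) (nat_lit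 7117241140) (nat_lit 304) (nat_lit 5) (nat_lit 314) (nat_lit 5) (nat_lit 315) (nat_lit 5) (nat_lit 460) (nat_lit 421) (nat_lit 259)) (XT.lf (nat_lit 0) (nat_lit 9041227761) (nat_lit 836) (nat_lit 217141729) (nat_lit 76) (nat_lit 5094531033) (nat_lit 304) (nat_lit 5) (nat_lit 315) (nat_lit 5) (nat_lit 305) (nat_lit 5) (nat_lit 461) (nat_lit 421) (nat_lit 258))) (XT.nd (nat_lit 78) (nat_lit 836) (nat_lit 0) (XT.lf (nat_lit 0) (nat_lit 7472883379) (nat_lit 760) (nat_lit 3612199352) (nat_lit 836) (nat_lit 3426816333) (nat_lit 294) (nat_lit 5) (nat_lit 304) (nat_lit 5) (nat_lit 305) (nat_lit 5) (nat_lit 462) (nat_lit 421) (nat_lit 257)) (XT.nd (nat_lit 78) (nat_lit 76) (nat_lit 0) (XT.lf (nat_lit 0) (nat_lit 629569180) (nat_lit 760) (nat_lit 12549993074) (nat_lit 836) (nat_lit 1494324810) (nat_lit 284) (nat_lit 5) (nat_lit 294) (nat_lit 5) (nat_lit 295) (nat_lit 5) (nat_lit 463) (nat_lit 421) (nat_lit 256)) (XT.lf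 (nat_lit 0) (nat_lit 532343575) (nat_lit 836) (nat_lit 6328967119) (nat_lit 76) (nat_lit 7976510868) (nat_lit 283) (nat_lit 5) (nat_lit 294) (nat_lit 5) (nat_lit 284) (nat_lit 5) (nat_lit 464) (nat_lit 421) (nat_lit 255))))) (XT.nd (nat_lit 156) (nat_lit 1368) (nat_lit 0) (XT.nd (nat_lit 78) (nat_lit 0) (nat_lit 0) (XT.lf (nat_lit 0) (nat_lit 1540798414) (nat_lit 684) (nat_lit 1039260886) (nat_lit 760) (nat_lit 12424771624) (nat_lit 274) (nat_lit 5) (nat_lit 283) (nat_lit 5) (nat_lit 284) (nat_lit 5) (nat_lit 465) (nat_lit 421) (nat_lit 254)) (XT.lf (nat_lit 0) (nat_lit 4733906278) (nat_lit 760) (nat_lit 5562994836) (nat_lit 76) (nat_lit 4876979920) (nat_lit 274) (nat_lit 5) (nat_lit 284) (nat_lit 5) (nat_lit 275) (nat_lit 5) (nat_lit 466) (nat_lit 421) (nat_lit 253))) (XT.nd (nat_lit 78) (nat_lit 684) (nat_lit 0) (XT.lf (nat_lit 0) (nat_lit 2512005356) (nat_lit 684) (nat_lit 4432816892) (nat_lit 760) (nat_lit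 8401214077) (nat_lit 265) (nat_lit 5) (nat_lit 274) (nat_lit 5) (nat_lit 275) (nat_lit 5) (nat_lit 467) (nat_lit 421) (nat_lit 252)) (XT.nd (nat_lit 78) (nat_lit 684) (nat_lit 0) (XT.lf (nat_lit 0) (nat_lit 9238497336) (nat_lit 760) (nat_lit 4717510001) (nat_lit 76) (nat_lit 1564860510) (nat_lit 265) (nat_lit 5) (nat_lit 275) (nat_lit 5) (nat_lit 266) (nat_lit 5) (nat_lit 468) (nat_lit 421) (nat_lit 251)) (XT.lf (nat_lit 0) (nat_lit 3568756658) (nat_lit 684) (nat_lit 8052903410) (nat_lit 760) (nat_lit 4076667513) (nat_lit 256) (nat_lit 5) (nat_lit 265) (nat_lit 5) (nat_lit 266) (nat_lit 5) (nat_lit 469) (nat_lit 421) (nat_lit 250)))))) (XT.nd (nat_lit 390) (nat_lit 2432) (nat_lit 0) (XT.nd (nat_lit 156) (nat_lit 608) (nat_lit 0) (XT.nd (nat_lit 78) (nat_lit 760) (nat_lit 0) (XT.lf (nat_lit 0) (nat_lit 12074728539) (nat_lit 684) (nat_lit 2000611545) (nat_lit 760) (nat_lit 1803543132) (nat_lit 256) (nat_lit 5)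 (nat_lit 265) (nat_lit 5) (nat_lit 266) (nat_lit 5) (nat_lit 470) (nat_lit 421) (nat_lit 249)) (XT.lf (nat_lit 0) (nat_lit 557661334) (nat_lit 760) (nat_lit 11353198518) (nat_lit 76) (nat_lit 4151139424) (nat_lit 246) (nat_lit 5) (nat_lit 256) (nat_lit 5) (nat_lit 247) (nat_lit 5) (nat_lit 471) (nat_lit 421) (nat_lit 248))) (XT.nd (nat_lit 78) (nat_lit 608) (nat_lit 0) (XT.lf (nat_lit 0) (nat_lit 2972316446) (nat_lit 760) (nat_lit 2840040651) (nat_lit 76) (nat_lit 10435578181) (nat_lit 246) (nat_lit 5) (nat_lit 256) (nat_lit 5) (nat_lit 247) (nat_lit 5) (nat_lit 472) (nat_lit 421) (nat_lit 247)) (XT.nd (nat_lit 78) (nat_lit 0) (nat_lit 0) (XT.lf (nat_lit 0) (nat_lit 5468114389) (nat_lit 684) (nat_lit 10528780885) (nat_lit 76) (nat_lit 440041230) (nat_lit 238) (nat_lit 5) (nat_lit 247) (nat_lit 5) (nat_lit 239) (nat_lit 5) (nat_lit 473) (nat_lit 421) (nat_lit 246)) (XT.lf (nat_lit 0) (nat_lit 8063173817) (nat_lit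 684) (nat_lit 1808035277) (nat_lit 76) (nat_lit 6757525182) (nat_lit 238) (nat_lit 5) (nat_lit 247) (nat_lit 5) (nat_lit 239) (nat_lit 5) (nat_lit 474) (nat_lit 421) (nat_lit 245))))) (XT.nd (nat_lit 234) (nat_lit 1216) (nat_lit 0) (XT.nd (nat_lit 78) (nat_lit 608) (nat_lit 0) (XT.lf (nat_lit 0) (nat_lit 7171481138) (nat_lit 608) (nat_lit 3577047380) (nat_lit 684) (nat_lit 6075074967) (nat_lit 230) (nat_lit 5) (nat_lit 238) (nat_lit 5) (nat_lit 239) (nat_lit 5) (nat_lit 475) (nat_lit 421) (nat_lit 244)) (XT.nd (nat_lit 78) (nat_lit 608) (nat_lit 0) (XT.lf (nat_lit 0) (nat_lit 13510181664) (nat_lit 684) (nat_lit 695360220) (nat_lit 76) (nat_lit 2816379665) (nat_lit 230) (nat_lit 5) (nat_lit 239) (nat_lit 5) (nat_lit 231) (nat_lit 5) (nat_lit 476) (nat_lit 421) (nat_lit 243)) (XT.lf (nat_lit 0) (nat_lit 8518977884) (nat_lit 608) (nat_lit 7879167844) (nat_lit 684) (nat_lit 824641922) (nat_lit 222) (nat_lit 5) (nat_lit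 230) (nat_lit 5) (nat_lit 231) (nat_lit 5) (nat_lit 477) (nat_lit 421) (nat_lit 242)))) (XT.nd (nat_lit 78) (nat_lit 532) (nat_lit 0) (XT.lf (nat_lit 0) (nat_lit 483679336) (nat_lit 608) (nat_lit 1407341284) (nat_lit 684) (nat_lit 15536405658) (nat_lit 213) (nat_lit 5) (nat_lit 221) (nat_lit 5) (nat_lit 222) (nat_lit 5) (nat_lit 478) (nat_lit 421) (nat_lit 241)) (XT.nd (nat_lit 78) (nat_lit 532) (nat_lit 0) (XT.lf (nat_lit 0) (nat_lit 4734678288) (nat_lit 684) (nat_lit 7711385963) (nat_lit 76) (nat_lit 5188292980) (nat_lit 213) (nat_lit 5) (nat_lit 222) (nat_lit 5) (nat_lit 214) (nat_lit 5) (nat_lit 479) (nat_lit 421) (nat_lit 240)) (XT.lf (nat_lit 0) (nat_lit 1709182360) (nat_lit 532) (nat_lit 5938794205) (nat_lit 608) (nat_lit 10197197876) (nat_lit 206) (nat_lit 5) (nat_lit 213) (nat_lit 5) (nat_lit 214) (nat_lit 5) (nat_lit 480) (nat_lit 421) (nat_lit 239))))))))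
noncomputable def xc198 : XT := (XT.nd (nat_lit 54912) (nat_lit 0) (nat_lit 20824) (XT.nd (nat_lit 780) (nat_lit 2280) (nat_lit 0) (XT.nd (nat_lit 390) (nat_lit 1596) (nat_lit 0) (XT.nd (nat_lit 156) (nat_lit 608) (nat_lit 0) (XT.nd (nat_lit 78) (nat_lit 532) (nat_lit 0) (XT.lf (nat_lit 0) (nat_lit 10668593125) (nat_lit 608) (nat_lit 6650974714) (nat_lit 76) (nat_lit 739662037) (nat_lit 206) (nat_lit 5) (nat_lit 214) (nat_lit 5) (nat_lit 207) (nat_lit 5) (nat_lit 481) (nat_lit 421) (nat_lit 238)) (XT.lf (nat_lit 0) (nat_lit 3014522800) (nat_lit 532) (nat_lit 10786576013) (nat_lit 608) (nat_lit 4475440943) (nat_lit 199) (nat_lit 5) (nat_lit 206) (nat_lit 5) (nat_lit 207) (nat_lit 5) (nat_lit 482) (nat_lit 421) (nat_lit 237))) (XT.nd (nat_lit 78) (nat_lit 608) (nat_lit 0) (XT.lf (nat_lit 0) (nat_lit 12954121550) (nat_lit 532) (nat_lit 4079424151) (nat_lit 608) (nat_lit 1463907124) (nat_lit 199) (nat_lit 5) (nat_lit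 206) (nat_lit 5) (nat_lit 207) (nat_lit 5) (nat_lit 483) (nat_lit 421) (nat_lit 236)) (XT.nd (nat_lit 78) (nat_lit 0) (nat_lit 0) (XT.lf (nat_lit 0) (nat_lit 1626318963) (nat_lit 608) (nat_lit 14332509659) (nat_lit 76) (nat_lit 2762958476) (nat_lit 191) (nat_lit 5) (nat_lit 199) (nat_lit 5) (nat_lit 192) (nat_lit 5) (nat_lit 484) (nat_lit 421) (nat_lit 235)) (XT.lf (nat_lit 0) (nat_lit 4816049252) (nat_lit 608) (nat_lit 4400492973) (nat_lit 76) (nat_lit 9732728927) (nat_lit 191) (nat_lit 5) (nat_lit 199) (nat_lit 5) (nat_lit 192) (nat_lit 5) (nat_lit 485) (nat_lit 421) (nat_lit 234))))) (XT.nd (nat_lit 156) (nat_lit 1064) (nat_lit 0) (XT.nd (nat_lit 78) (nat_lit 0) (nat_lit 0) (XT.lf (nat_lit 0) (nat_lit 5797025051) (nat_lit 532) (nat_lit 2303149972) (nat_lit 608) (nat_lit 11080520447) (nat_lit 184) (nat_lit 5) (nat_lit 191) (nat_lit 5) (nat_lit 192) (nat_lit 5) (nat_lit 486) (nat_lit 421) (nat_lit 233)) (XT.lf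 (nat_lit 0) (nat_lit 11503566612) (nat_lit 608) (nat_lit 3198275912) (nat_lit 76) (nat_lit 4713836632) (nat_lit 184) (nat_lit 5) (nat_lit 192) (nat_lit 5) (nat_lit 185) (nat_lit 5) (nat_lit 487) (nat_lit 421) (nat_lit 232))) (XT.nd (nat_lit 78) (nat_lit 608) (nat_lit 0) (XT.lf (nat_lit 0) (nat_lit 7261758726) (nat_lit 456) (nat_lit 7768832463) (nat_lit 532) (nat_lit 4623662523) (nat_lit 178) (nat_lit 5) (nat_lit 184) (nat_lit 5) (nat_lit 185) (nat_lit 5) (nat_lit 488) (nat_lit 421) (nat_lit 231)) (XT.nd (nat_lit 78) (nat_lit 608) (nat_lit 0) (XT.lf (nat_lit 0) (nat_lit 17965352717) (nat_lit 456) (nat_lit 677505643) (nat_lit 532) (nat_lit 1254449809) (nat_lit 178) (nat_lit 5) (nat_lit 184) (nat_lit 5) (nat_lit 185) (nat_lit 5) (nat_lit 489) (nat_lit 421) (nat_lit 230)) (XT.lf (nat_lit 0) (nat_lit 2247210467) (nat_lit 608) (nat_lit 11356420686) (nat_lit 76) (nat_lit 6539437906) (nat_lit 170) (nat_lit 5) (nat_lit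 178) (nat_lit 5) (nat_lit 171) (nat_lit 5) (nat_lit 490) (nat_lit 421) (nat_lit 229)))))) (XT.nd (nat_lit 390) (nat_lit 912) (nat_lit 0) (XT.nd (nat_lit 156) (nat_lit 912) (nat_lit 0) (XT.nd (nat_lit 78) (nat_lit 456) (nat_lit 0) (XT.lf (nat_lit 0) (nat_lit 5813044708) (nat_lit 608) (nat_lit 669524279) (nat_lit 76) (nat_lit 13910793894) (nat_lit 170) (nat_lit 5) (nat_lit 178) (nat_lit 5) (nat_lit 171) (nat_lit 5) (nat_lit 491) (nat_lit 421) (nat_lit 228)) (XT.lf (nat_lit 0) (nat_lit 9516463066) (nat_lit 532) (nat_lit 10294785542) (nat_lit 76) (nat_lit 836090885) (nat_lit 164) (nat_lit 5) (nat_lit 171) (nat_lit 5) (nat_lit 165) (nat_lit 5) (nat_lit 492) (nat_lit 421) (nat_lit 227))) (XT.nd (nat_lit 78) (nat_lit 456) (nat_lit 0) (XT.lf (nat_lit 0) (nat_lit 654616011) (nat_lit 456) (nat_lit 12684607634) (nat_lit 532) (nat_lit 7566268736) (nat_lit 158) (nat_lit 5) (nat_lit 164) (nat_lit 5) (nat_lit 165) (nat_lit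 5) (nat_lit 493) (nat_lit 421) (nat_lit 226)) (XT.nd (nat_lit 78) (nat_lit 456) (nat_lit 0) (XT.lf (nat_lit 0) (nat_lit 11953760099) (nat_lit 456) (nat_lit 5347401866) (nat_lit 532) (nat_lit 3866394087) (nat_lit 158) (nat_lit 5) (nat_lit 164) (nat_lit 5) (nat_lit 165) (nat_lit 5) (nat_lit 494) (nat_lit 421) (nat_lit 225)) (XT.lf (nat_lit 0) (nat_lit 2048284846) (nat_lit 456) (nat_lit 19314973250) (nat_lit 532) (nat_lit 71186652) (nat_lit 152) (nat_lit 5) (nat_lit 158) (nat_lit 5) (nat_lit 159) (nat_lit 5) (nat_lit 495) (nat_lit 421) (nat_lit 224))))) (XT.nd (nat_lit 234) (nat_lit 380) (nat_lit 0) (XT.nd (nat_lit 78) (nat_lit 456) (nat_lit 0) (XT.lf (nat_lit 0) (nat_lit 3841511938) (nat_lit 532) (nat_lit 8114186627) (nat_lit 76) (nat_lit 9748652797) (nat_lit 151) (nat_lit 5) (nat_lit 158) (nat_lit 5) (nat_lit 152) (nat_lit 5) (nat_lit 496) (nat_lit 421) (nat_lit 223)) (XT.nd (nat_lit 78) (nat_lit 0) (nat_lit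 0) (XT.lf (nat_lit 0) (nat_lit 3419007010) (nat_lit 456) (nat_lit 4428597342) (nat_lit 532) (nat_lit 14131722494) (nat_lit 145) (nat_lit 5) (nat_lit 151) (nat_lit 5) (nat_lit 152) (nat_lit 5) (nat_lit 497) (nat_lit 421) (nat_lit 222)) (XT.lf (nat_lit 0) (nat_lit 12003666495) (nat_lit 532) (nat_lit 6995952634) (nat_lit 76) (nat_lit 3258787724) (nat_lit 145) (nat_lit 5) (nat_lit 152) (nat_lit 5) (nat_lit 146) (nat_lit 5) (nat_lit 498) (nat_lit 421) (nat_lit 221)))) (XT.nd (nat_lit 53352) (nat_lit 0) (nat_lit 23636) (XT.lf (nat_lit 0) (nat_lit 4825187338) (nat_lit 380) (nat_lit 11472379962) (nat_lit 456) (nat_lit 6244408744) (nat_lit 140) (nat_lit 5) (nat_lit 145) (nat_lit 5) (nat_lit 146) (nat_lit 5) (nat_lit 499) (nat_lit 421) (nat_lit 220)) (XT.nd (nat_lit 78) (nat_lit 0) (nat_lit 0) (XT.lf (nat_lit 0) (nat_lit 3625541111) (nat_lit 1596) (nat_lit 654240364) (nat_lit 1596) (nat_lit 654240364) (nat_lit 451) (nat_lit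 3) (nat_lit 472) (nat_lit 3) (nat_lit 472) (nat_lit 5) (nat_lit 422) (nat_lit 422) (nat_lit 296)) (XT.lf (nat_lit 76) (nat_lit 3380803521) (nat_lit 0) (nat_lit 4669783276) (nat_lit 1596) (nat_lit 1901208744) (nat_lit 452) (nat_lit 5) (nat_lit 451) (nat_lit 3) (nat_lit 472) (nat_lit 5) (nat_lit 423) (nat_lit 422) (nat_lit 295))))))) (XT.nd (nat_lit 780) (nat_lit 1292) (nat_lit 0) (XT.nd (nat_lit 390) (nat_lit 0) (nat_lit 76) (XT.nd (nat_lit 156) (nat_lit 1520) (nat_lit 0) (XT.nd (nat_lit 78) (nat_lit 0) (nat_lit 76) (XT.lf (nat_lit 76) (nat_lit 8172048044) (nat_lit 0) (nat_lit 684258388) (nat_lit 1596) (nat_lit 1181121701) (nat_lit 452) (nat_lit 5) (nat_lit 451) (nat_lit 3) (nat_lit 472) (nat_lit 5) (nat_lit 424) (nat_lit 422) (nat_lit 294)) (XT.lf (nat_lit 76) (nat_lit 2941160585) (nat_lit 0) (nat_lit 6759892844) (nat_lit 1596) (nat_lit 423271687) (nat_lit 453) (nat_lit 5) (nat_lit 452) (nat_lit 5) (nat_lit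 473) (nat_lit 5) (nat_lit 425) (nat_lit 422) (nat_lit 293))) (XT.nd (nat_lit 78) (nat_lit 0) (nat_lit 76) (XT.lf (nat_lit 0) (nat_lit 344310537) (nat_lit 1596) (nat_lit 2360466722) (nat_lit 1672) (nat_lit 7508163731) (nat_lit 431) (nat_lit 5) (nat_lit 452) (nat_lit 5) (nat_lit 453) (nat_lit 5) (nat_lit 426) (nat_lit 422) (nat_lit 292)) (XT.nd (nat_lit 78) (nat_lit 0) (nat_lit 0) (XT.lf (nat_lit 0) (nat_lit 1130189142) (nat_lit 1596) (nat_lit 7732849773) (nat_lit 1672) (nat_lit 1440071481) (nat_lit 432) (nat_lit 5) (nat_lit 453) (nat_lit 5) (nat_lit 454) (nat_lit 5) (nat_lit 427) (nat_lit 422) (nat_lit 291)) (XT.lf (nat_lit 0) (nat_lit 1948356597) (nat_lit 1596) (nat_lit 2791319183) (nat_lit 1672) (nat_lit 5655085221) (nat_lit 432) (nat_lit 5) (nat_lit 453) (nat_lit 5) (nat_lit 454) (nat_lit 5) (nat_lit 428) (nat_lit 422) (nat_lit 290))))) (XT.nd (nat_lit 156) (nat_lit 0) (nat_lit 76) (XT.nd (nat_lit 78) (nat_lit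 0) (nat_lit 76) (XT.lf (nat_lit 76) (nat_lit 2268862557) (nat_lit 0) (nat_lit 511808716) (nat_lit 1672) (nat_lit 7707626720) (nat_lit 433) (nat_lit 5) (nat_lit 432) (nat_lit 5) (nat_lit 454) (nat_lit 5) (nat_lit 429) (nat_lit 422) (nat_lit 289)) (XT.lf (nat_lit 0) (nat_lit 3656528956) (nat_lit 1596) (nat_lit 3150303560) (nat_lit 1672) (nat_lit 3776344152) (nat_lit 433) (nat_lit 5) (nat_lit 454) (nat_lit 5) (nat_lit 455) (nat_lit 5) (nat_lit 430) (nat_lit 422) (nat_lit 288))) (XT.nd (nat_lit 78) (nat_lit 0) (nat_lit 76) (XT.lf (nat_lit 76) (nat_lit 2033434179) (nat_lit 0) (nat_lit 2516752972) (nat_lit 1672) (nat_lit 6129768799) (nat_lit 434) (nat_lit 5) (nat_lit 433) (nat_lit 5) (nat_lit 455) (nat_lit 5) (nat_lit 431) (nat_lit 422) (nat_lit 287)) (XT.nd (nat_lit 78) (nat_lit 0) (nat_lit 0) (XT.lf (nat_lit 0) (nat_lit 5479055178) (nat_lit 1596) (nat_lit 3437267822) (nat_lit 1672) (nat_lit 1862009617) (nat_lit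 434) (nat_lit 5) (nat_lit 455) (nat_lit 5) (nat_lit 456) (nat_lit 5) (nat_lit 432) (nat_lit 422) (nat_lit 286)) (XT.lf (nat_lit 76) (nat_lit 1873924968) (nat_lit 0) (nat_lit 4565709379) (nat_lit 1672) (nat_lit 4438788158) (nat_lit 435) (nat_lit 5) (nat_lit 434) (nat_lit 5) (nat_lit 456) (nat_lit 5) (nat_lit 433) (nat_lit 422) (nat_lit 285)))))) (XT.nd (nat_lit 390) (nat_lit 0) (nat_lit 76) (XT.nd (nat_lit 156) (nat_lit 1520) (nat_lit 0) (XT.nd (nat_lit 78) (nat_lit 0) (nat_lit 76) (XT.lf (nat_lit 76) (nat_lit 7327845635) (nat_lit 0) (nat_lit 99187465) (nat_lit 1672) (nat_lit 3553337131) (nat_lit 435) (nat_lit 5) (nat_lit 434) (nat_lit 5) (nat_lit 456) (nat_lit 5) (nat_lit 434) (nat_lit 422) (nat_lit 284)) (XT.lf (nat_lit 76) (nat_lit 1790802341) (nat_lit 0) (nat_lit 6668819582) (nat_lit 1672) (nat_lit 2624234186) (nat_lit 436) (nat_lit 5) (nat_lit 435) (nat_lit 5) (nat_lit 457) (nat_lit 5) (nat_lit 435) (nat_lit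 422) (nat_lit 283))) (XT.nd (nat_lit 78) (nat_lit 1596) (nat_lit 0) (XT.lf (nat_lit 76) (nat_lit 7381671962) (nat_lit 0) (nat_lit 2141463324) (nat_lit 1672) (nat_lit 1666078845) (nat_lit 436) (nat_lit 5) (nat_lit 435) (nat_lit 5) (nat_lit 457) (nat_lit 5) (nat_lit 436) (nat_lit 422) (nat_lit 282)) (XT.nd (nat_lit 78) (nat_lit 1672) (nat_lit 0) (XT.lf (nat_lit 76) (nat_lit 1784708205) (nat_lit 0) (nat_lit 8836308777) (nat_lit 1672) (nat_lit 675408097) (nat_lit 437) (nat_lit 5) (nat_lit 436) (nat_lit 5) (nat_lit 458) (nat_lit 5) (nat_lit 437) (nat_lit 422) (nat_lit 281)) (XT.lf (nat_lit 0) (nat_lit 356131762) (nat_lit 1672) (nat_lit 3891811284) (nat_lit 1748) (nat_lit 7157292111) (nat_lit 414) (nat_lit 5) (nat_lit 436) (nat_lit 5) (nat_lit 437) (nat_lit 5) (nat_lit 438) (nat_lit 422) (nat_lit 280))))) (XT.nd (nat_lit 234) (nat_lit 0) (nat_lit 76) (XT.nd (nat_lit 78) (nat_lit 0) (nat_lit 0) (XT.lf (nat_lit 0) (nat_lit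 1400051719) (nat_lit 1672) (nat_lit 9669066585) (nat_lit 1748) (nat_lit 447005264) (nat_lit 415) (nat_lit 5) (nat_lit 437) (nat_lit 5) (nat_lit 438) (nat_lit 5) (nat_lit 439) (nat_lit 422) (nat_lit 279)) (XT.nd (nat_lit 78) (nat_lit 0) (nat_lit 0) (XT.lf (nat_lit 0) (nat_lit 2505339643) (nat_lit 1672) (nat_lit 3914025661) (nat_lit 1748) (nat_lit 5209061791) (nat_lit 415) (nat_lit 5) (nat_lit 437) (nat_lit 5) (nat_lit 438) (nat_lit 5) (nat_lit 440) (nat_lit 422) (nat_lit 278)) (XT.lf (nat_lit 76) (nat_lit 1971710366) (nat_lit 0) (nat_lit 1660166215) (nat_lit 1748) (nat_lit 8111124246) (nat_lit 416) (nat_lit 5) (nat_lit 415) (nat_lit 5) (nat_lit 438) (nat_lit 5) (nat_lit 441) (nat_lit 422) (nat_lit 277)))) (XT.nd (nat_lit 78) (nat_lit 0) (nat_lit 0) (XT.lf (nat_lit 0) (nat_lit 4814686716) (nat_lit 1672) (nat_lit 3862531558) (nat_lit 1748) (nat_lit 3181979771) (nat_lit 416) (nat_lit 5) (nat_lit 438) (nat_lit 5)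 (nat_lit 439) (nat_lit 5) (nat_lit 442) (nat_lit 422) (nat_lit 276)) (XT.nd (nat_lit 78) (nat_lit 0) (nat_lit 76) (XT.lf (nat_lit 76) (nat_lit 2171600072) (nat_lit 0) (nat_lit 3861474740) (nat_lit 1748) (nat_lit 5944412687) (nat_lit 417) (nat_lit 5) (nat_lit 416) (nat_lit 5) (nat_lit 439) (nat_lit 5) (nat_lit 443) (nat_lit 422) (nat_lit 275)) (XT.lf (nat_lit 0) (nat_lit 7295780672) (nat_lit 1672) (nat_lit 3736350443) (nat_lit 1748) (nat_lit 1065619223) (nat_lit 417) (nat_lit 5) (nat_lit 439) (nat_lit 5) (nat_lit 440) (nat_lit 5) (nat_lit 444) (nat_lit 422) (nat_lit 274))))))))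
noncomputable def xc199 : XT := (XT.nd (nat_lit 1638) (nat_lit 6992) (nat_lit 0) (XT.nd (nat_lit 780) (nat_lit 4864) (nat_lit 0) (XT.nd (nat_lit 390) (nat_lit 1900) (nat_lit 0) (XT.nd (nat_lit 156) (nat_lit 3420) (nat_lit 0) (XT.nd (nat_lit 78) (nat_lit 0) (nat_lit 0) (XT.lf (nat_lit 76) (nat_lit 2450848584) (nat_lit 0) (nat_lit 6161669084) (nat_lit 1748) (nat_lit 3607331690) (nat_lit 418) (nat_lit 5) (nat_lit 417) (nat_lit 5) (nat_lit 440) (nat_lit 5) (nat_lit 445) (nat_lit 422) (nat_lit 273)) (XT.lf (nat_lit 76) (nat_lit 8802207231) (nat_lit 0) (nat_lit 1165929608) (nat_lit 1748) (nat_lit 2376008910) (nat_lit 418) (nat_lit 5) (nat_lit 417) (nat_lit 5) (nat_lit 440) (nat_lit 5) (nat_lit 446) (nat_lit 422) (nat_lit 272))) (XT.nd (nat_lit 78) (nat_lit 1824) (nat_lit 0) (XT.lf (nat_lit 0) (nat_lit 2810716282) (nat_lit 1672) (nat_lit 8571650279) (nat_lit 1748) (nat_lit 1087937759) (nat_lit 396) (nat_lit 5) (nat_lit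 418) (nat_lit 5) (nat_lit 419) (nat_lit 5) (nat_lit 447) (nat_lit 422) (nat_lit 271)) (XT.nd (nat_lit 78) (nat_lit 1748) (nat_lit 0) (XT.lf (nat_lit 0) (nat_lit 242401974) (nat_lit 1748) (nat_lit 3279817487) (nat_lit 76) (nat_lit 9076353845) (nat_lit 395) (nat_lit 5) (nat_lit 418) (nat_lit 5) (nat_lit 396) (nat_lit 5) (nat_lit 448) (nat_lit 422) (nat_lit 270)) (XT.lf (nat_lit 0) (nat_lit 1604745817) (nat_lit 1824) (nat_lit 9487044836) (nat_lit 76) (nat_lit 1637079753) (nat_lit 372) (nat_lit 5) (nat_lit 396) (nat_lit 5) (nat_lit 373) (nat_lit 5) (nat_lit 449) (nat_lit 422) (nat_lit 269))))) (XT.nd (nat_lit 156) (nat_lit 912) (nat_lit 0) (XT.nd (nat_lit 78) (nat_lit 988) (nat_lit 0) (XT.lf (nat_lit 0) (nat_lit 3028058078) (nat_lit 1824) (nat_lit 2956823005) (nat_lit 76) (nat_lit 6876223675) (nat_lit 372) (nat_lit 5) (nat_lit 396) (nat_lit 5) (nat_lit 373) (nat_lit 5) (nat_lit 450) (nat_lit 422) (nat_lit 268))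 (XT.lf (nat_lit 0) (nat_lit 3742917485) (nat_lit 988) (nat_lit 749691706) (nat_lit 1064) (nat_lit 8503124784) (nat_lit 359) (nat_lit 5) (nat_lit 372) (nat_lit 5) (nat_lit 373) (nat_lit 5) (nat_lit 451) (nat_lit 422) (nat_lit 267))) (XT.nd (nat_lit 78) (nat_lit 912) (nat_lit 0) (XT.lf (nat_lit 0) (nat_lit 6024866920) (nat_lit 1064) (nat_lit 2556208620) (nat_lit 76) (nat_lit 4551217442) (nat_lit 359) (nat_lit 5) (nat_lit 373) (nat_lit 5) (nat_lit 360) (nat_lit 5) (nat_lit 452) (nat_lit 422) (nat_lit 266)) (XT.nd (nat_lit 78) (nat_lit 0) (nat_lit 0) (XT.lf (nat_lit 0) (nat_lit 4315823336) (nat_lit 912) (nat_lit 3293794969) (nat_lit 988) (nat_lit 5661533305) (nat_lit 347) (nat_lit 5) (nat_lit 359) (nat_lit 5) (nat_lit 360) (nat_lit 5) (nat_lit 453) (nat_lit 422) (nat_lit 265)) (XT.lf (nat_lit 0) (nat_lit 9245982713) (nat_lit 988) (nat_lit 2076551678) (nat_lit 76) (nat_lit 2089859964) (nat_lit 347) (nat_lit 5) (nat_lit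 360) (nat_lit 5) (nat_lit 348) (nat_lit 5) (nat_lit 454) (nat_lit 422) (nat_lit 264)))))) (XT.nd (nat_lit 390) (nat_lit 2356) (nat_lit 0) (XT.nd (nat_lit 156) (nat_lit 1672) (nat_lit 0) (XT.nd (nat_lit 78) (nat_lit 0) (nat_lit 0) (XT.lf (nat_lit 0) (nat_lit 4973102383) (nat_lit 836) (nat_lit 5985310474) (nat_lit 912) (nat_lit 2597187528) (nat_lit 336) (nat_lit 5) (nat_lit 347) (nat_lit 5) (nat_lit 348) (nat_lit 5) (nat_lit 455) (nat_lit 422) (nat_lit 263)) (XT.lf (nat_lit 0) (nat_lit 12181856242) (nat_lit 836) (nat_lit 526552527) (nat_lit 912) (nat_lit 993200523) (nat_lit 336) (nat_lit 5) (nat_lit 347) (nat_lit 5) (nat_lit 348) (nat_lit 5) (nat_lit 456) (nat_lit 422) (nat_lit 262))) (XT.nd (nat_lit 78) (nat_lit 760) (nat_lit 0) (XT.lf (nat_lit 0) (nat_lit 694264708) (nat_lit 912) (nat_lit 8137496774) (nat_lit 76) (nat_lit 5017501720) (nat_lit 324) (nat_lit 5) (nat_lit 336) (nat_lit 5) (nat_lit 325) (nat_lit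 5) (nat_lit 457) (nat_lit 422) (nat_lit 261)) (XT.nd (nat_lit 78) (nat_lit 760) (nat_lit 0) (XT.lf (nat_lit 0) (nat_lit 2405606281) (nat_lit 912) (nat_lit 911418868) (nat_lit 76) (nat_lit 10682650024) (nat_lit 324) (nat_lit 5) (nat_lit 336) (nat_lit 5) (nat_lit 325) (nat_lit 5) (nat_lit 458) (nat_lit 422) (nat_lit 260)) (XT.lf (nat_lit 0) (nat_lit 4198734598) (nat_lit 836) (nat_lit 7632772690) (nat_lit 76) (nat_lit 2320641608) (nat_lit 314) (nat_lit 5) (nat_lit 325) (nat_lit 5) (nat_lit 315) (nat_lit 5) (nat_lit 459) (nat_lit 422) (nat_lit 259))))) (XT.nd (nat_lit 234) (nat_lit 836) (nat_lit 0) (XT.nd (nat_lit 78) (nat_lit 1520) (nat_lit 0) (XT.lf (nat_lit 0) (nat_lit 6045847940) (nat_lit 836) (nat_lit 228494423) (nat_lit 76) (nat_lit 8032971899) (nat_lit 314) (nat_lit 5) (nat_lit 325) (nat_lit 5) (nat_lit 315) (nat_lit 5) (nat_lit 460) (nat_lit 422) (nat_lit 258)) (XT.nd (nat_lit 78) (nat_lit 760) (nat_lit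 0) (XT.lf (nat_lit 0) (nat_lit 7411187286) (nat_lit 760) (nat_lit 557029508) (nat_lit 836) (nat_lit 6496604404) (nat_lit 304) (nat_lit 5) (nat_lit 314) (nat_lit 5) (nat_lit 315) (nat_lit 5) (nat_lit 461) (nat_lit 422) (nat_lit 257)) (XT.lf (nat_lit 0) (nat_lit 544179559) (nat_lit 760) (nat_lit 9414499027) (nat_lit 836) (nat_lit 4666211213) (nat_lit 294) (nat_lit 5) (nat_lit 304) (nat_lit 5) (nat_lit 305) (nat_lit 5) (nat_lit 462) (nat_lit 422) (nat_lit 256)))) (XT.nd (nat_lit 78) (nat_lit 836) (nat_lit 0) (XT.lf (nat_lit 0) (nat_lit 8375877847) (nat_lit 760) (nat_lit 3654517720) (nat_lit 836) (nat_lit 2756939637) (nat_lit 294) (nat_lit 5) (nat_lit 304) (nat_lit 5) (nat_lit 305) (nat_lit 5) (nat_lit 463) (nat_lit 422) (nat_lit 255)) (XT.nd (nat_lit 78) (nat_lit 76) (nat_lit 0) (XT.lf (nat_lit 0) (nat_lit 1405251327) (nat_lit 760) (nat_lit 12752469877) (nat_lit 836) (nat_lit 795029092) (nat_lit 284) (nat_lit 5)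 (nat_lit 294) (nat_lit 5) (nat_lit 295) (nat_lit 5) (nat_lit 464) (nat_lit 422) (nat_lit 254)) (XT.lf (nat_lit 0) (nat_lit 1248499131) (nat_lit 836) (nat_lit 5697731817) (nat_lit 76) (nat_lit 8173926265) (nat_lit 283) (nat_lit 5) (nat_lit 294) (nat_lit 5) (nat_lit 284) (nat_lit 5) (nat_lit 465) (nat_lit 422) (nat_lit 253))))))) (XT.nd (nat_lit 780) (nat_lit 3572) (nat_lit 0) (XT.nd (nat_lit 390) (nat_lit 1368) (nat_lit 0) (XT.nd (nat_lit 156) (nat_lit 1368) (nat_lit 0) (XT.nd (nat_lit 78) (nat_lit 0) (nat_lit 0) (XT.lf (nat_lit 0) (nat_lit 2324443404) (nat_lit 684) (nat_lit 1003780128) (nat_lit 760) (nat_lit 11962468234) (nat_lit 274) (nat_lit 5) (nat_lit 283) (nat_lit 5) (nat_lit 284) (nat_lit 5) (nat_lit 466) (nat_lit 422) (nat_lit 252)) (XT.lf (nat_lit 0) (nat_lit 5511847504) (nat_lit 760) (nat_lit 4922588573) (nat_lit 76) (nat_lit 5028958771) (nat_lit 274) (nat_lit 5) (nat_lit 284) (nat_lit 5) (nat_lit 275)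 (nat_lit 5) (nat_lit 467) (nat_lit 422) (nat_lit 251))) (XT.nd (nat_lit 78) (nat_lit 684) (nat_lit 0) (XT.lf (nat_lit 0) (nat_lit 3308966451) (nat_lit 684) (nat_lit 4449466235) (nat_lit 760) (nat_lit 7880737395) (nat_lit 265) (nat_lit 5) (nat_lit 274) (nat_lit 5) (nat_lit 275) (nat_lit 5) (nat_lit 468) (nat_lit 422) (nat_lit 250)) (XT.nd (nat_lit 78) (nat_lit 684) (nat_lit 0) (XT.lf (nat_lit 0) (nat_lit 10085209940) (nat_lit 760) (nat_lit 4066722514) (nat_lit 76) (nat_lit 1665826946) (nat_lit 265) (nat_lit 5) (nat_lit 275) (nat_lit 5) (nat_lit 266) (nat_lit 5) (nat_lit 469) (nat_lit 422) (nat_lit 249)) (XT.lf (nat_lit 0) (nat_lit 4380367257) (nat_lit 684) (nat_lit 8127495501) (nat_lit 760) (nat_lit 3491074659) (nat_lit 256) (nat_lit 5) (nat_lit 265) (nat_lit 5) (nat_lit 266) (nat_lit 5) (nat_lit 470) (nat_lit 422) (nat_lit 248))))) (XT.nd (nat_lit 156) (nat_lit 608) (nat_lit 0) (XT.nd (nat_lit 78) (nat_lit 760)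 (nat_lit 0) (XT.lf (nat_lit 0) (nat_lit 13041944155) (nat_lit 684) (nat_lit 1955853210) (nat_lit 760) (nat_lit 1185568697) (nat_lit 256) (nat_lit 5) (nat_lit 265) (nat_lit 5) (nat_lit 266) (nat_lit 5) (nat_lit 471) (nat_lit 422) (nat_lit 247)) (XT.lf (nat_lit 0) (nat_lit 1206962191) (nat_lit 760) (nat_lit 10838108276) (nat_lit 76) (nat_lit 4325140742) (nat_lit 246) (nat_lit 5) (nat_lit 256) (nat_lit 5) (nat_lit 247) (nat_lit 5) (nat_lit 472) (nat_lit 422) (nat_lit 246))) (XT.nd (nat_lit 78) (nat_lit 608) (nat_lit 0) (XT.lf (nat_lit 0) (nat_lit 3657397706) (nat_lit 760) (nat_lit 2169239295) (nat_lit 76) (nat_lit 10733484382) (nat_lit 246) (nat_lit 5) (nat_lit 256) (nat_lit 5) (nat_lit 247) (nat_lit 5) (nat_lit 473) (nat_lit 422) (nat_lit 245)) (XT.nd (nat_lit 78) (nat_lit 0) (nat_lit 0) (XT.lf (nat_lit 0) (nat_lit 6196217390) (nat_lit 684) (nat_lit 10004605310) (nat_lit 76) (nat_lit 552222914) (nat_lit 238) (nat_lit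 5) (nat_lit 247) (nat_lit 5) (nat_lit 239) (nat_lit 5) (nat_lit 474) (nat_lit 422) (nat_lit 244)) (XT.lf (nat_lit 0) (nat_lit 8831045836) (nat_lit 684) (nat_lit 1123851676) (nat_lit 76) (nat_lit 6994029469) (nat_lit 238) (nat_lit 5) (nat_lit 247) (nat_lit 5) (nat_lit 239) (nat_lit 5) (nat_lit 475) (nat_lit 422) (nat_lit 243)))))) (XT.nd (nat_lit 390) (nat_lit 1672) (nat_lit 0) (XT.nd (nat_lit 156) (nat_lit 684) (nat_lit 0) (XT.nd (nat_lit 78) (nat_lit 608) (nat_lit 0) (XT.lf (nat_lit 0) (nat_lit 8030515960) (nat_lit 608) (nat_lit 3532343570) (nat_lit 684) (nat_lit 5584983905) (nat_lit 230) (nat_lit 5) (nat_lit 238) (nat_lit 5) (nat_lit 239) (nat_lit 5) (nat_lit 476) (nat_lit 422) (nat_lit 242)) (XT.lf (nat_lit 0) (nat_lit 3605926) (nat_lit 608) (nat_lit 14365150997) (nat_lit 684) (nat_lit 2981595515) (nat_lit 222) (nat_lit 5) (nat_lit 230) (nat_lit 5) (nat_lit 231) (nat_lit 5) (nat_lit 477) (nat_lit 422) (nat_lit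 241))) (XT.nd (nat_lit 78) (nat_lit 684) (nat_lit 0) (XT.lf (nat_lit 0) (nat_lit 9397493856) (nat_lit 608) (nat_lit 7910024453) (nat_lit 684) (nat_lit 247861500) (nat_lit 222) (nat_lit 5) (nat_lit 230) (nat_lit 5) (nat_lit 231) (nat_lit 5) (nat_lit 478) (nat_lit 422) (nat_lit 240)) (XT.nd (nat_lit 78) (nat_lit 0) (nat_lit 0) (XT.lf (nat_lit 0) (nat_lit 1204789507) (nat_lit 608) (nat_lit 1302682776) (nat_lit 684) (nat_lit 15256703635) (nat_lit 213) (nat_lit 5) (nat_lit 221) (nat_lit 5) (nat_lit 222) (nat_lit 5) (nat_lit 479) (nat_lit 422) (nat_lit 239)) (XT.lf (nat_lit 0) (nat_lit 5397502747) (nat_lit 684) (nat_lit 7157404654) (nat_lit 76) (nat_lit 5420552533) (nat_lit 213) (nat_lit 5) (nat_lit 222) (nat_lit 5) (nat_lit 214) (nat_lit 5) (nat_lit 480) (nat_lit 422) (nat_lit 238))))) (XT.nd (nat_lit 234) (nat_lit 608) (nat_lit 0) (XT.nd (nat_lit 78) (nat_lit 532) (nat_lit 0) (XT.lf (nat_lit 0) (nat_lit 2446915765)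 (nat_lit 532) (nat_lit 5915579315) (nat_lit 608) (nat_lit 9828134196) (nat_lit 206) (nat_lit 5) (nat_lit 213) (nat_lit 5) (nat_lit 214) (nat_lit 5) (nat_lit 481) (nat_lit 422) (nat_lit 237)) (XT.nd (nat_lit 78) (nat_lit 532) (nat_lit 0) (XT.lf (nat_lit 0) (nat_lit 11433416833) (nat_lit 608) (nat_lit 6083919196) (nat_lit 76) (nat_lit 891836199) (nat_lit 206) (nat_lit 5) (nat_lit 214) (nat_lit 5) (nat_lit 207) (nat_lit 5) (nat_lit 482) (nat_lit 422) (nat_lit 236)) (XT.lf (nat_lit 0) (nat_lit 3770282513) (nat_lit 532) (nat_lit 10851992788) (nat_lit 608) (nat_lit 4008683131) (nat_lit 199) (nat_lit 5) (nat_lit 206) (nat_lit 5) (nat_lit 207) (nat_lit 5) (nat_lit 483) (nat_lit 422) (nat_lit 235)))) (XT.nd (nat_lit 78) (nat_lit 608) (nat_lit 0) (XT.lf (nat_lit 0) (nat_lit 13895036585) (nat_lit 532) (nat_lit 4013645237) (nat_lit 608) (nat_lit 947825825) (nat_lit 199) (nat_lit 5) (nat_lit 206) (nat_lit 5) (nat_lit 207)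 (nat_lit 5) (nat_lit 484) (nat_lit 422) (nat_lit 234)) (XT.nd (nat_lit 78) (nat_lit 0) (nat_lit 0) (XT.lf (nat_lit 0) (nat_lit 2191934908) (nat_lit 608) (nat_lit 13924659487) (nat_lit 76) (nat_lit 2968769682) (nat_lit 191) (nat_lit 5) (nat_lit 199) (nat_lit 5) (nat_lit 192) (nat_lit 5) (nat_lit 485) (nat_lit 422) (nat_lit 233)) (XT.lf (nat_lit 0) (nat_lit 5435007066) (nat_lit 608) (nat_lit 3807620121) (nat_lit 76) (nat_lit 10074983541) (nat_lit 191) (nat_lit 5) (nat_lit 199) (nat_lit 5) (nat_lit 192) (nat_lit 5) (nat_lit 486) (nat_lit 422) (nat_lit 232))))))))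
noncomputable def xc200 : XT := (XT.nd (nat_lit 54912) (nat_lit 0) (nat_lit 17252) (XT.nd (nat_lit 780) (nat_lit 456) (nat_lit 0) (XT.nd (nat_lit 390) (nat_lit 1444) (nat_lit 0) (XT.nd (nat_lit 156) (nat_lit 1064) (nat_lit 0) (XT.nd (nat_lit 78) (nat_lit 0) (nat_lit 0) (XT.lf (nat_lit 0) (nat_lit 6589368771) (nat_lit 532) (nat_lit 2189590457) (nat_lit 608) (nat_lit 10774825212) (nat_lit 184) (nat_lit 5) (nat_lit 191) (nat_lit 5) (nat_lit 192) (nat_lit 5) (nat_lit 487) (nat_lit 422) (nat_lit 231)) (XT.lf (nat_lit 0) (nat_lit 12241301749) (nat_lit 608) (nat_lit 2589798506) (nat_lit 76) (nat_lit 4962553596) (nat_lit 184) (nat_lit 5) (nat_lit 192) (nat_lit 5) (nat_lit 185) (nat_lit 5) (nat_lit 488) (nat_lit 422) (nat_lit 230))) (XT.nd (nat_lit 78) (nat_lit 608) (nat_lit 0) (XT.lf (nat_lit 0) (nat_lit 8075012858) (nat_lit 456) (nat_lit 7758236990) (nat_lit 532) (nat_lit 4203866030) (nat_lit 178) (nat_lit 5) (nat_lit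 184) (nat_lit 5) (nat_lit 185) (nat_lit 5) (nat_lit 489) (nat_lit 422) (nat_lit 229)) (XT.nd (nat_lit 78) (nat_lit 608) (nat_lit 0) (XT.lf (nat_lit 0) (nat_lit 18979580318) (nat_lit 456) (nat_lit 528337989) (nat_lit 532) (nat_lit 777313565) (nat_lit 178) (nat_lit 5) (nat_lit 184) (nat_lit 5) (nat_lit 185) (nat_lit 5) (nat_lit 490) (nat_lit 422) (nat_lit 228)) (XT.lf (nat_lit 0) (nat_lit 2783427747) (nat_lit 608) (nat_lit 10917330002) (nat_lit 76) (nat_lit 6835175753) (nat_lit 170) (nat_lit 5) (nat_lit 178) (nat_lit 5) (nat_lit 171) (nat_lit 5) (nat_lit 491) (nat_lit 422) (nat_lit 227))))) (XT.nd (nat_lit 156) (nat_lit 988) (nat_lit 0) (XT.nd (nat_lit 78) (nat_lit 456) (nat_lit 0) (XT.lf (nat_lit 0) (nat_lit 6410945868) (nat_lit 608) (nat_lit 29758787) (nat_lit 76) (nat_lit 14350724564) (nat_lit 170) (nat_lit 5) (nat_lit 178) (nat_lit 5) (nat_lit 171) (nat_lit 5) (nat_lit 492) (nat_lit 422) (nat_lit 226)) (XT.lf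 (nat_lit 0) (nat_lit 10184321147) (nat_lit 532) (nat_lit 9843249011) (nat_lit 76) (nat_lit 1023000731) (nat_lit 164) (nat_lit 5) (nat_lit 171) (nat_lit 5) (nat_lit 165) (nat_lit 5) (nat_lit 493) (nat_lit 422) (nat_lit 225))) (XT.nd (nat_lit 78) (nat_lit 532) (nat_lit 0) (XT.lf (nat_lit 0) (nat_lit 1320815362) (nat_lit 456) (nat_lit 12757598671) (nat_lit 532) (nat_lit 7235578493) (nat_lit 158) (nat_lit 5) (nat_lit 164) (nat_lit 5) (nat_lit 165) (nat_lit 5) (nat_lit 494) (nat_lit 422) (nat_lit 224)) (XT.nd (nat_lit 78) (nat_lit 532) (nat_lit 0) (XT.lf (nat_lit 0) (nat_lit 12833136311) (nat_lit 456) (nat_lit 5277191946) (nat_lit 532) (nat_lit 3471157637) (nat_lit 158) (nat_lit 5) (nat_lit 164) (nat_lit 5) (nat_lit 165) (nat_lit 5) (nat_lit 495) (nat_lit 422) (nat_lit 223)) (XT.lf (nat_lit 0) (nat_lit 390910137) (nat_lit 532) (nat_lit 19122806971) (nat_lit 76) (nat_lit 2340022333) (nat_lit 151) (nat_lit 5) (nat_lit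 158) (nat_lit 5) (nat_lit 152) (nat_lit 5) (nat_lit 496) (nat_lit 422) (nat_lit 222)))))) (XT.nd (nat_lit 53742) (nat_lit 0) (nat_lit 21660) (XT.nd (nat_lit 156) (nat_lit 0) (nat_lit 0) (XT.nd (nat_lit 78) (nat_lit 456) (nat_lit 0) (XT.lf (nat_lit 0) (nat_lit 4371840436) (nat_lit 532) (nat_lit 7638622619) (nat_lit 76) (nat_lit 10118756088) (nat_lit 151) (nat_lit 5) (nat_lit 158) (nat_lit 5) (nat_lit 152) (nat_lit 5) (nat_lit 497) (nat_lit 422) (nat_lit 221)) (XT.lf (nat_lit 0) (nat_lit 4121038524) (nat_lit 456) (nat_lit 4332238136) (nat_lit 532) (nat_lit 13956515964) (nat_lit 145) (nat_lit 5) (nat_lit 151) (nat_lit 5) (nat_lit 152) (nat_lit 5) (nat_lit 498) (nat_lit 422) (nat_lit 220))) (XT.nd (nat_lit 53430) (nat_lit 0) (nat_lit 23256) (XT.lf (nat_lit 0) (nat_lit 12684838763) (nat_lit 532) (nat_lit 6506880083) (nat_lit 76) (nat_lit 3502890681) (nat_lit 145) (nat_lit 5) (nat_lit 152) (nat_lit 5) (nat_lit 146)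 (nat_lit 5) (nat_lit 499) (nat_lit 422) (nat_lit 219)) (XT.nd (nat_lit 78) (nat_lit 0) (nat_lit 0) (XT.lf (nat_lit 0) (nat_lit 4398517658) (nat_lit 1596) (nat_lit 309894563) (nat_lit 1596) (nat_lit 309894563) (nat_lit 451) (nat_lit 3) (nat_lit 472) (nat_lit 3) (nat_lit 472) (nat_lit 5) (nat_lit 423) (nat_lit 423) (nat_lit 294)) (XT.lf (nat_lit 76) (nat_lit 4158577774) (nat_lit 0) (nat_lit 5431093781) (nat_lit 1596) (nat_lit 532841224) (nat_lit 452) (nat_lit 5) (nat_lit 451) (nat_lit 3) (nat_lit 472) (nat_lit 5) (nat_lit 424) (nat_lit 423) (nat_lit 293))))) (XT.nd (nat_lit 156) (nat_lit 0) (nat_lit 76) (XT.nd (nat_lit 78) (nat_lit 0) (nat_lit 76) (XT.lf (nat_lit 0) (nat_lit 171788275) (nat_lit 1596) (nat_lit 1179820961) (nat_lit 1672) (nat_lit 8858781452) (nat_lit 430) (nat_lit 5) (nat_lit 451) (nat_lit 3) (nat_lit 452) (nat_lit 5) (nat_lit 425) (nat_lit 423) (nat_lit 292)) (XT.lf (nat_lit 0) (nat_lit 908508660)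 (nat_lit 1596) (nat_lit 6582117923) (nat_lit 1672) (nat_lit 2808835889) (nat_lit 431) (nat_lit 5) (nat_lit 452) (nat_lit 5) (nat_lit 453) (nat_lit 5) (nat_lit 426) (nat_lit 423) (nat_lit 291))) (XT.nd (nat_lit 78) (nat_lit 0) (nat_lit 76) (XT.lf (nat_lit 0) (nat_lit 1659611916) (nat_lit 1596) (nat_lit 1680316473) (nat_lit 1672) (nat_lit 7050403570) (nat_lit 431) (nat_lit 5) (nat_lit 452) (nat_lit 5) (nat_lit 453) (nat_lit 5) (nat_lit 427) (nat_lit 423) (nat_lit 290)) (XT.nd (nat_lit 78) (nat_lit 0) (nat_lit 0) (XT.lf (nat_lit 0) (nat_lit 2436576769) (nat_lit 1596) (nat_lit 7134830031) (nat_lit 1672) (nat_lit 911404297) (nat_lit 432) (nat_lit 5) (nat_lit 453) (nat_lit 5) (nat_lit 454) (nat_lit 5) (nat_lit 428) (nat_lit 423) (nat_lit 289)) (XT.lf (nat_lit 0) (nat_lit 3245935341) (nat_lit 1596) (nat_lit 2109227196) (nat_lit 1672) (nat_lit 5221649069) (nat_lit 432) (nat_lit 5) (nat_lit 453) (nat_lit 5) (nat_lit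 454) (nat_lit 5) (nat_lit 429) (nat_lit 423) (nat_lit 288))))))) (XT.nd (nat_lit 780) (nat_lit 3192) (nat_lit 0) (XT.nd (nat_lit 390) (nat_lit 1368) (nat_lit 0) (XT.nd (nat_lit 156) (nat_lit 0) (nat_lit 76) (XT.nd (nat_lit 78) (nat_lit 0) (nat_lit 76) (XT.lf (nat_lit 76) (nat_lit 3047303452) (nat_lit 0) (nat_lit 1027673734) (nat_lit 1672) (nat_lit 6597653718) (nat_lit 433) (nat_lit 5) (nat_lit 432) (nat_lit 5) (nat_lit 454) (nat_lit 5) (nat_lit 430) (nat_lit 423) (nat_lit 287)) (XT.lf (nat_lit 0) (nat_lit 4940845427) (nat_lit 1596) (nat_lit 2466466915) (nat_lit 1672) (nat_lit 3362657868) (nat_lit 433) (nat_lit 5) (nat_lit 454) (nat_lit 5) (nat_lit 455) (nat_lit 5) (nat_lit 431) (nat_lit 423) (nat_lit 286))) (XT.nd (nat_lit 78) (nat_lit 0) (nat_lit 76) (XT.lf (nat_lit 76) (nat_lit 2816032141) (nat_lit 0) (nat_lit 3017413000) (nat_lit 1672) (nat_lit 5035631243) (nat_lit 434) (nat_lit 5) (nat_lit 433) (nat_lit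 5) (nat_lit 455) (nat_lit 5) (nat_lit 432) (nat_lit 423) (nat_lit 285)) (XT.nd (nat_lit 78) (nat_lit 0) (nat_lit 0) (XT.lf (nat_lit 0) (nat_lit 6754646514) (nat_lit 1596) (nat_lit 2751766343) (nat_lit 1672) (nat_lit 1463545030) (nat_lit 434) (nat_lit 5) (nat_lit 455) (nat_lit 5) (nat_lit 456) (nat_lit 5) (nat_lit 433) (nat_lit 423) (nat_lit 284)) (XT.lf (nat_lit 76) (nat_lit 2660688152) (nat_lit 0) (nat_lit 5055751022) (nat_lit 1672) (nat_lit 3355982540) (nat_lit 435) (nat_lit 5) (nat_lit 434) (nat_lit 5) (nat_lit 456) (nat_lit 5) (nat_lit 434) (nat_lit 423) (nat_lit 283))))) (XT.nd (nat_lit 156) (nat_lit 1520) (nat_lit 0) (XT.nd (nat_lit 78) (nat_lit 0) (nat_lit 76) (XT.lf (nat_lit 76) (nat_lit 8208995377) (nat_lit 0) (nat_lit 492080484) (nat_lit 1672) (nat_lit 2475794676) (nat_lit 435) (nat_lit 5) (nat_lit 434) (nat_lit 5) (nat_lit 456) (nat_lit 5) (nat_lit 435) (nat_lit 423) (nat_lit 282)) (XT.lf (nat_lit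 76) (nat_lit 2581854792) (nat_lit 0) (nat_lit 7152808219) (nat_lit 1672) (nat_lit 1548167897) (nat_lit 436) (nat_lit 5) (nat_lit 435) (nat_lit 5) (nat_lit 457) (nat_lit 5) (nat_lit 436) (nat_lit 423) (nat_lit 281))) (XT.nd (nat_lit 78) (nat_lit 1596) (nat_lit 0) (XT.lf (nat_lit 76) (nat_lit 8269733248) (nat_lit 0) (nat_lit 2528030085) (nat_lit 1672) (nat_lit 592977900) (nat_lit 436) (nat_lit 5) (nat_lit 435) (nat_lit 5) (nat_lit 457) (nat_lit 5) (nat_lit 437) (nat_lit 423) (nat_lit 280)) (XT.nd (nat_lit 78) (nat_lit 0) (nat_lit 0) (XT.lf (nat_lit 0) (nat_lit 393384406) (nat_lit 1672) (nat_lit 8922779139) (nat_lit 1748) (nat_lit 2184262597) (nat_lit 414) (nat_lit 5) (nat_lit 436) (nat_lit 5) (nat_lit 437) (nat_lit 5) (nat_lit 438) (nat_lit 423) (nat_lit 279)) (XT.lf (nat_lit 0) (nat_lit 1415475383) (nat_lit 1672) (nat_lit 3210138518) (nat_lit 1748) (nat_lit 6986140767) (nat_lit 414) (nat_lit 5) (nat_lit 436)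 (nat_lit 5) (nat_lit 437) (nat_lit 5) (nat_lit 439) (nat_lit 423) (nat_lit 278)))))) (XT.nd (nat_lit 390) (nat_lit 3268) (nat_lit 0) (XT.nd (nat_lit 156) (nat_lit 0) (nat_lit 0) (XT.nd (nat_lit 78) (nat_lit 0) (nat_lit 0) (XT.lf (nat_lit 0) (nat_lit 2462709975) (nat_lit 1672) (nat_lit 9084844992) (nat_lit 1748) (nat_lit 177667759) (nat_lit 415) (nat_lit 5) (nat_lit 437) (nat_lit 5) (nat_lit 438) (nat_lit 5) (nat_lit 440) (nat_lit 423) (nat_lit 277)) (XT.lf (nat_lit 0) (nat_lit 3569816261) (nat_lit 1672) (nat_lit 3229950366) (nat_lit 1748) (nat_lit 5040421840) (nat_lit 415) (nat_lit 5) (nat_lit 437) (nat_lit 5) (nat_lit 438) (nat_lit 5) (nat_lit 441) (nat_lit 423) (nat_lit 276))) (XT.nd (nat_lit 78) (nat_lit 0) (nat_lit 76) (XT.lf (nat_lit 76) (nat_lit 2768484884) (nat_lit 0) (nat_lit 1935426605) (nat_lit 1748) (nat_lit 7253451824) (nat_lit 416) (nat_lit 5) (nat_lit 415) (nat_lit 5) (nat_lit 438) (nat_lit 5)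 (nat_lit 442) (nat_lit 423) (nat_lit 275)) (XT.nd (nat_lit 78) (nat_lit 0) (nat_lit 0) (XT.lf (nat_lit 0) (nat_lit 5889241020) (nat_lit 1672) (nat_lit 3175655292) (nat_lit 1748) (nat_lit 3011420891) (nat_lit 416) (nat_lit 5) (nat_lit 438) (nat_lit 5) (nat_lit 439) (nat_lit 5) (nat_lit 443) (nat_lit 423) (nat_lit 274)) (XT.lf (nat_lit 76) (nat_lit 2974131820) (nat_lit 0) (nat_lit 4143612058) (nat_lit 1748) (nat_lit 5079523426) (nat_lit 417) (nat_lit 5) (nat_lit 416) (nat_lit 5) (nat_lit 439) (nat_lit 5) (nat_lit 444) (nat_lit 423) (nat_lit 273))))) (XT.nd (nat_lit 234) (nat_lit 3420) (nat_lit 0) (XT.nd (nat_lit 78) (nat_lit 0) (nat_lit 0) (XT.lf (nat_lit 0) (nat_lit 8385497434) (nat_lit 1672) (nat_lit 3046175403) (nat_lit 1748) (nat_lit 888676293) (nat_lit 417) (nat_lit 5) (nat_lit 439) (nat_lit 5) (nat_lit 440) (nat_lit 5) (nat_lit 445) (nat_lit 423) (nat_lit 272)) (XT.nd (nat_lit 78) (nat_lit 0) (nat_lit 0)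 (XT.lf (nat_lit 76) (nat_lit 3259735355) (nat_lit 0) (nat_lit 6455261490) (nat_lit 1748) (nat_lit 2730174149) (nat_lit 418) (nat_lit 5) (nat_lit 417) (nat_lit 5) (nat_lit 440) (nat_lit 5) (nat_lit 446) (nat_lit 423) (nat_lit 271)) (XT.lf (nat_lit 76) (nat_lit 9723221767) (nat_lit 0) (nat_lit 1356266851) (nat_lit 1748) (nat_lit 1492838722) (nat_lit 418) (nat_lit 5) (nat_lit 417) (nat_lit 5) (nat_lit 440) (nat_lit 5) (nat_lit 447) (nat_lit 423) (nat_lit 270)))) (XT.nd (nat_lit 78) (nat_lit 1824) (nat_lit 0) (XT.lf (nat_lit 0) (nat_lit 3626655429) (nat_lit 1672) (nat_lit 8881334871) (nat_lit 1748) (nat_lit 193308083) (nat_lit 396) (nat_lit 5) (nat_lit 418) (nat_lit 5) (nat_lit 419) (nat_lit 5) (nat_lit 448) (nat_lit 423) (nat_lit 269)) (XT.nd (nat_lit 78) (nat_lit 1748) (nat_lit 0) (XT.lf (nat_lit 0) (nat_lit 1133887103) (nat_lit 1748) (nat_lit 2588367717) (nat_lit 76) (nat_lit 9110122287) (nat_lit 395) (nat_lit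 5) (nat_lit 418) (nat_lit 5) (nat_lit 396) (nat_lit 5) (nat_lit 449) (nat_lit 423) (nat_lit 268)) (XT.lf (nat_lit 0) (nat_lit 2510183135) (nat_lit 1824) (nat_lit 8906018529) (nat_lit 76) (nat_lit 1549352907) (nat_lit 372) (nat_lit 5) (nat_lit 396) (nat_lit 5) (nat_lit 373) (nat_lit 5) (nat_lit 450) (nat_lit 423) (nat_lit 267))))))))
noncomputable def xc201 : XT := (XT.nd (nat_lit 1638) (nat_lit 6536) (nat_lit 0) (XT.nd (nat_lit 780) (nat_lit 4408) (nat_lit 0) (XT.nd (nat_lit 390) (nat_lit 2508) (nat_lit 0) (XT.nd (nat_lit 156) (nat_lit 912) (nat_lit 0) (XT.nd (nat_lit 78) (nat_lit 988) (nat_lit 0) (XT.lf (nat_lit 0) (nat_lit 3944837280) (nat_lit 1824) (nat_lit 2260305344) (nat_lit 76) (nat_lit 6895641834) (nat_lit 372) (nat_lit 5) (nat_lit 396) (nat_lit 5) (nat_lit 373) (nat_lit 5) (nat_lit 451) (nat_lit 423) (nat_lit 266)) (XT.lf (nat_lit 0) (nat_lit 4568458547) (nat_lit 988) (nat_lit 858306209) (nat_lit 1064)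 (nat_lit 7811587992) (nat_lit 359) (nat_lit 5) (nat_lit 372) (nat_lit 5) (nat_lit 373) (nat_lit 5) (nat_lit 452) (nat_lit 423) (nat_lit 265))) (XT.nd (nat_lit 78) (nat_lit 912) (nat_lit 0) (XT.lf (nat_lit 0) (nat_lit 6972516743) (nat_lit 1064) (nat_lit 1853816649) (nat_lit 76) (nat_lit 4551660598) (nat_lit 359) (nat_lit 5) (nat_lit 373) (nat_lit 5) (nat_lit 360) (nat_lit 5) (nat_lit 453) (nat_lit 423) (nat_lit 264)) (XT.nd (nat_lit 78) (nat_lit 0) (nat_lit 0) (XT.lf (nat_lit 0) (nat_lit 5150698603) (nat_lit 912) (nat_lit 3426906017) (nat_lit 988) (nat_lit 4942260220) (nat_lit 347) (nat_lit 5) (nat_lit 359) (nat_lit 5) (nat_lit 360) (nat_lit 5) (nat_lit 454) (nat_lit 423) (nat_lit 263)) (XT.lf (nat_lit 0) (nat_lit 10230272381) (nat_lit 988) (nat_lit 1367391399) (nat_lit 76) (nat_lit 2066604862) (nat_lit 347) (nat_lit 5) (nat_lit 360) (nat_lit 5) (nat_lit 348) (nat_lit 5) (nat_lit 455) (nat_lit 423) (nat_lit 262)))))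 (XT.nd (nat_lit 156) (nat_lit 1672) (nat_lit 0) (XT.nd (nat_lit 78) (nat_lit 0) (nat_lit 0) (XT.lf (nat_lit 0) (nat_lit 5818316984) (nat_lit 836) (nat_lit 6147802142) (nat_lit 912) (nat_lit 1844443880) (nat_lit 336) (nat_lit 5) (nat_lit 347) (nat_lit 5) (nat_lit 348) (nat_lit 5) (nat_lit 456) (nat_lit 423) (nat_lit 261)) (XT.lf (nat_lit 0) (nat_lit 13156623320) (nat_lit 836) (nat_lit 579030105) (nat_lit 912) (nat_lit 224155319) (nat_lit 336) (nat_lit 5) (nat_lit 347) (nat_lit 5) (nat_lit 348) (nat_lit 5) (nat_lit 457) (nat_lit 423) (nat_lit 260))) (XT.nd (nat_lit 78) (nat_lit 760) (nat_lit 0) (XT.lf (nat_lit 0) (nat_lit 1476029371) (nat_lit 912) (nat_lit 7547366197) (nat_lit 76) (nat_lit 5087138522) (nat_lit 324) (nat_lit 5) (nat_lit 336) (nat_lit 5) (nat_lit 325) (nat_lit 5) (nat_lit 458) (nat_lit 423) (nat_lit 259)) (XT.nd (nat_lit 78) (nat_lit 760) (nat_lit 0) (XT.lf (nat_lit 0) (nat_lit 3206541318) (nat_lit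 912) (nat_lit 191529096) (nat_lit 76) (nat_lit 10866192012) (nat_lit 324) (nat_lit 5) (nat_lit 336) (nat_lit 5) (nat_lit 325) (nat_lit 5) (nat_lit 459) (nat_lit 423) (nat_lit 258)) (XT.lf (nat_lit 0) (nat_lit 5025469719) (nat_lit 836) (nat_lit 7036904578) (nat_lit 76) (nat_lit 2357619435) (nat_lit 314) (nat_lit 5) (nat_lit 325) (nat_lit 5) (nat_lit 315) (nat_lit 5) (nat_lit 460) (nat_lit 423) (nat_lit 257)))))) (XT.nd (nat_lit 390) (nat_lit 2128) (nat_lit 0) (XT.nd (nat_lit 156) (nat_lit 1520) (nat_lit 0) (XT.nd (nat_lit 78) (nat_lit 0) (nat_lit 0) (XT.lf (nat_lit 0) (nat_lit 507437454) (nat_lit 760) (nat_lit 6390818563) (nat_lit 836) (nat_lit 7680238497) (nat_lit 304) (nat_lit 5) (nat_lit 314) (nat_lit 5) (nat_lit 315) (nat_lit 5) (nat_lit 461) (nat_lit 423) (nat_lit 256)) (XT.lf (nat_lit 0) (nat_lit 8288429727) (nat_lit 760) (nat_lit 557802812) (nat_lit 836) (nat_lit 5893182437) (nat_lit 304) (nat_lit 5) (nat_lit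 314) (nat_lit 5) (nat_lit 315) (nat_lit 5) (nat_lit 462) (nat_lit 423) (nat_lit 255))) (XT.nd (nat_lit 78) (nat_lit 760) (nat_lit 0) (XT.lf (nat_lit 0) (nat_lit 1293824719) (nat_lit 760) (nat_lit 9573450165) (nat_lit 836) (nat_lit 4035601101) (nat_lit 294) (nat_lit 5) (nat_lit 304) (nat_lit 5) (nat_lit 305) (nat_lit 5) (nat_lit 463) (nat_lit 423) (nat_lit 254)) (XT.nd (nat_lit 78) (nat_lit 760) (nat_lit 0) (XT.lf (nat_lit 0) (nat_lit 9267671452) (nat_lit 760) (nat_lit 3698844503) (nat_lit 836) (nat_lit 2102338885) (nat_lit 294) (nat_lit 5) (nat_lit 304) (nat_lit 5) (nat_lit 305) (nat_lit 5) (nat_lit 464) (nat_lit 423) (nat_lit 253)) (XT.lf (nat_lit 0) (nat_lit 2166815373) (nat_lit 760) (nat_lit 12960880426) (nat_lit 836) (nat_lit 110062494) (nat_lit 284) (nat_lit 5) (nat_lit 294) (nat_lit 5) (nat_lit 295) (nat_lit 5) (nat_lit 465) (nat_lit 423) (nat_lit 252))))) (XT.nd (nat_lit 234) (nat_lit 1368) (nat_lit 0)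 (XT.nd (nat_lit 78) (nat_lit 684) (nat_lit 0) (XT.lf (nat_lit 0) (nat_lit 1951582036) (nat_lit 836) (nat_lit 5083298675) (nat_lit 76) (nat_lit 8373818843) (nat_lit 283) (nat_lit 5) (nat_lit 294) (nat_lit 5) (nat_lit 284) (nat_lit 5) (nat_lit 466) (nat_lit 423) (nat_lit 251)) (XT.nd (nat_lit 78) (nat_lit 0) (nat_lit 0) (XT.lf (nat_lit 0) (nat_lit 3094528025) (nat_lit 684) (nat_lit 969774631) (nat_lit 760) (nat_lit 11518519960) (nat_lit 274) (nat_lit 5) (nat_lit 283) (nat_lit 5) (nat_lit 284) (nat_lit 5) (nat_lit 467) (nat_lit 423) (nat_lit 250)) (XT.lf (nat_lit 0) (nat_lit 6278815615) (nat_lit 760) (nat_lit 4298562298) (nat_lit 76) (nat_lit 5181863256) (nat_lit 274) (nat_lit 5) (nat_lit 284) (nat_lit 5) (nat_lit 275) (nat_lit 5) (nat_lit 468) (nat_lit 423) (nat_lit 249)))) (XT.nd (nat_lit 78) (nat_lit 684) (nat_lit 0) (XT.lf (nat_lit 0) (nat_lit 4092870681) (nat_lit 684) (nat_lit 4469244684) (nat_lit 760) (nat_lit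 7376586511) (nat_lit 265) (nat_lit 5) (nat_lit 274) (nat_lit 5) (nat_lit 275) (nat_lit 5) (nat_lit 469) (nat_lit 423) (nat_lit 248)) (XT.nd (nat_lit 78) (nat_lit 684) (nat_lit 0) (XT.lf (nat_lit 0) (nat_lit 10923152755) (nat_lit 760) (nat_lit 3431853882) (nat_lit 76) (nat_lit 1766107369) (nat_lit 265) (nat_lit 5) (nat_lit 275) (nat_lit 5) (nat_lit 266) (nat_lit 5) (nat_lit 470) (nat_lit 423) (nat_lit 247)) (XT.lf (nat_lit 0) (nat_lit 5179465822) (nat_lit 684) (nat_lit 8206937013) (nat_lit 760) (nat_lit 2919675273) (nat_lit 256) (nat_lit 5) (nat_lit 265) (nat_lit 5) (nat_lit 266) (nat_lit 5) (nat_lit 471) (nat_lit 423) (nat_lit 246))))))) (XT.nd (nat_lit 780) (nat_lit 3268) (nat_lit 0) (XT.nd (nat_lit 390) (nat_lit 1900) (nat_lit 0) (XT.nd (nat_lit 156) (nat_lit 608) (nat_lit 0) (XT.nd (nat_lit 78) (nat_lit 760) (nat_lit 0) (XT.lf (nat_lit 0) (nat_lit 14000323450) (nat_lit 684) (nat_lit 1913491453) (nat_lit 760)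 (nat_lit 580632149) (nat_lit 256) (nat_lit 5) (nat_lit 265) (nat_lit 5) (nat_lit 266) (nat_lit 5) (nat_lit 472) (nat_lit 423) (nat_lit 245)) (XT.lf (nat_lit 0) (nat_lit 1844469015) (nat_lit 760) (nat_lit 10341534981) (nat_lit 76) (nat_lit 4499089280) (nat_lit 246) (nat_lit 5) (nat_lit 256) (nat_lit 5) (nat_lit 247) (nat_lit 5) (nat_lit 473) (nat_lit 423) (nat_lit 244))) (XT.nd (nat_lit 78) (nat_lit 608) (nat_lit 0) (XT.lf (nat_lit 0) (nat_lit 4331886425) (nat_lit 760) (nat_lit 1513275591) (nat_lit 76) (nat_lit 11033885171) (nat_lit 246) (nat_lit 5) (nat_lit 256) (nat_lit 5) (nat_lit 247) (nat_lit 5) (nat_lit 474) (nat_lit 423) (nat_lit 243)) (XT.nd (nat_lit 78) (nat_lit 0) (nat_lit 0) (XT.lf (nat_lit 0) (nat_lit 6914855996) (nat_lit 684) (nat_lit 9498477508) (nat_lit 76) (nat_lit 662633827) (nat_lit 238) (nat_lit 5) (nat_lit 247) (nat_lit 5) (nat_lit 239) (nat_lit 5) (nat_lit 475) (nat_lit 423) (nat_lit 242))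 (XT.lf (nat_lit 0) (nat_lit 9590719947) (nat_lit 684) (nat_lit 453956251) (nat_lit 76) (nat_lit 7231328151) (nat_lit 238) (nat_lit 5) (nat_lit 247) (nat_lit 5) (nat_lit 239) (nat_lit 5) (nat_lit 476) (nat_lit 423) (nat_lit 241))))) (XT.nd (nat_lit 156) (nat_lit 684) (nat_lit 0) (XT.nd (nat_lit 78) (nat_lit 608) (nat_lit 0) (XT.lf (nat_lit 0) (nat_lit 8878943656) (nat_lit 608) (nat_lit 3491259609) (nat_lit 684) (nat_lit 5108839907) (nat_lit 230) (nat_lit 5) (nat_lit 238) (nat_lit 5) (nat_lit 239) (nat_lit 5) (nat_lit 477) (nat_lit 423) (nat_lit 240)) (XT.lf (nat_lit 0) (nat_lit 697929431) (nat_lit 608) (nat_lit 14528212108) (nat_lit 684) (nat_lit 2459586974) (nat_lit 222) (nat_lit 5) (nat_lit 230) (nat_lit 5) (nat_lit 231) (nat_lit 5) (nat_lit 478) (nat_lit 423) (nat_lit 239))) (XT.nd (nat_lit 78) (nat_lit 608) (nat_lit 0) (XT.lf (nat_lit 0) (nat_lit 313254025) (nat_lit 684) (nat_lit 7631063024) (nat_lit 76)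 (nat_lit 9950726222) (nat_lit 221) (nat_lit 5) (nat_lit 230) (nat_lit 5) (nat_lit 222) (nat_lit 5) (nat_lit 479) (nat_lit 423) (nat_lit 238)) (XT.nd (nat_lit 78) (nat_lit 0) (nat_lit 0) (XT.lf (nat_lit 0) (nat_lit 1912695932) (nat_lit 608) (nat_lit 1201088092) (nat_lit 684) (nat_lit 14994334694) (nat_lit 213) (nat_lit 5) (nat_lit 221) (nat_lit 5) (nat_lit 222) (nat_lit 5) (nat_lit 480) (nat_lit 423) (nat_lit 237)) (XT.lf (nat_lit 0) (nat_lit 6051522480) (nat_lit 684) (nat_lit 6619844339) (nat_lit 76) (nat_lit 5652467711) (nat_lit 213) (nat_lit 5) (nat_lit 222) (nat_lit 5) (nat_lit 214) (nat_lit 5) (nat_lit 481) (nat_lit 423) (nat_lit 236)))))) (XT.nd (nat_lit 390) (nat_lit 1596) (nat_lit 0) (XT.nd (nat_lit 156) (nat_lit 1140) (nat_lit 0) (XT.nd (nat_lit 78) (nat_lit 0) (nat_lit 0) (XT.lf (nat_lit 0) (nat_lit 3172084144) (nat_lit 532) (nat_lit 5897413802) (nat_lit 608) (nat_lit 9473939828) (nat_lit 206) (nat_lit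 5) (nat_lit 213) (nat_lit 5) (nat_lit 214) (nat_lit 5) (nat_lit 482) (nat_lit 423) (nat_lit 235)) (XT.lf (nat_lit 0) (nat_lit 12192123467) (nat_lit 608) (nat_lit 5532707333) (nat_lit 76) (nat_lit 1041719176) (nat_lit 206) (nat_lit 5) (nat_lit 214) (nat_lit 5) (nat_lit 207) (nat_lit 5) (nat_lit 483) (nat_lit 423) (nat_lit 234))) (XT.nd (nat_lit 78) (nat_lit 608) (nat_lit 0) (XT.lf (nat_lit 0) (nat_lit 4514151500) (nat_lit 532) (nat_lit 10924554804) (nat_lit 608) (nat_lit 3554190674) (nat_lit 199) (nat_lit 5) (nat_lit 206) (nat_lit 5) (nat_lit 207) (nat_lit 5) (nat_lit 484) (nat_lit 423) (nat_lit 233)) (XT.nd (nat_lit 78) (nat_lit 608) (nat_lit 0) (XT.lf (nat_lit 0) (nat_lit 14828293530) (nat_lit 532) (nat_lit 3952273201) (nat_lit 608) (nat_lit 442599872) (nat_lit 199) (nat_lit 5) (nat_lit 206) (nat_lit 5) (nat_lit 207) (nat_lit 5) (nat_lit 485) (nat_lit 423) (nat_lit 232)) (XT.lf (nat_lit 0) (nat_lit 2748162653)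 (nat_lit 608) (nat_lit 13535620606) (nat_lit 76) (nat_lit 3172850993) (nat_lit 191) (nat_lit 5) (nat_lit 199) (nat_lit 5) (nat_lit 192) (nat_lit 5) (nat_lit 486) (nat_lit 423) (nat_lit 231))))) (XT.nd (nat_lit 234) (nat_lit 1064) (nat_lit 0) (XT.nd (nat_lit 78) (nat_lit 532) (nat_lit 0) (XT.lf (nat_lit 0) (nat_lit 6046049411) (nat_lit 608) (nat_lit 3229329317) (nat_lit 76) (nat_lit 10418351758) (nat_lit 191) (nat_lit 5) (nat_lit 199) (nat_lit 5) (nat_lit 192) (nat_lit 5) (nat_lit 487) (nat_lit 423) (nat_lit 230)) (XT.nd (nat_lit 78) (nat_lit 0) (nat_lit 0) (XT.lf (nat_lit 0) (nat_lit 7371293805) (nat_lit 532) (nat_lit 2079958089) (nat_lit 608) (nat_lit 10483491993) (nat_lit 184) (nat_lit 5) (nat_lit 191) (nat_lit 5) (nat_lit 192) (nat_lit 5) (nat_lit 488) (nat_lit 423) (nat_lit 229)) (XT.lf (nat_lit 0) (nat_lit 12974078385) (nat_lit 608) (nat_lit 1995263330) (nat_lit 76) (nat_lit 5210247797) (nat_lit 184) (nat_lit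 5) (nat_lit 192) (nat_lit 5) (nat_lit 185) (nat_lit 5) (nat_lit 489) (nat_lit 423) (nat_lit 228)))) (XT.nd (nat_lit 78) (nat_lit 608) (nat_lit 0) (XT.lf (nat_lit 0) (nat_lit 8878592083) (nat_lit 456) (nat_lit 7753874507) (nat_lit 532) (nat_lit 3795565665) (nat_lit 178) (nat_lit 5) (nat_lit 184) (nat_lit 5) (nat_lit 185) (nat_lit 5) (nat_lit 490) (nat_lit 423) (nat_lit 227)) (XT.nd (nat_lit 78) (nat_lit 608) (nat_lit 0) (XT.lf (nat_lit 0) (nat_lit 19988661108) (nat_lit 456) (nat_lit 382505511) (nat_lit 532) (nat_lit 310136616) (nat_lit 178) (nat_lit 5) (nat_lit 184) (nat_lit 5) (nat_lit 185) (nat_lit 5) (nat_lit 491) (nat_lit 423) (nat_lit 226)) (XT.lf (nat_lit 0) (nat_lit 3311292641) (nat_lit 608) (nat_lit 10495327604) (nat_lit 76) (nat_lit 7130423182) (nat_lit 170) (nat_lit 5) (nat_lit 178) (nat_lit 5) (nat_lit 171) (nat_lit 5) (nat_lit 492) (nat_lit 423) (nat_lit 225))))))))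
noncomputable def xc202 : XT := (XT.nd (nat_lit 55068) (nat_lit 0) (nat_lit 14440) (XT.nd (nat_lit 54210) (nat_lit 0) (nat_lit 21736) (XT.nd (nat_lit 390) (nat_lit 456) (nat_lit 0) (XT.nd (nat_lit 156) (nat_lit 988) (nat_lit 0) (XT.nd (nat_lit 78) (nat_lit 0) (nat_lit 0) (XT.lf (nat_lit 0) (nat_lit 605378824) (nat_lit 456) (nat_lit 6400654070) (nat_lit 532) (nat_lit 14191725961) (nat_lit 164) (nat_lit 5) (nat_lit 170) (nat_lit 5) (nat_lit 171) (nat_lit 5) (nat_lit 493) (nat_lit 423) (nat_lit 224)) (XT.lf (nat_lit 0) (nat_lit 10846993363) (nat_lit 532) (nat_lit 9408210644) (nat_lit 76) (nat_lit 1207040166) (nat_lit 164) (nat_lit 5) (nat_lit 171) (nat_lit 5) (nat_lit 165) (nat_lit 5) (nat_lit 494) (nat_lit 423) (nat_lit 223))) (XT.nd (nat_lit 78) (nat_lit 532) (nat_lit 0) (XT.lf (nat_lit 0) (nat_lit 1974977757) (nat_lit 456) (nat_lit 12839066372) (nat_lit 532) (nat_lit 6916991698) (nat_lit 158) (nat_lit 5) (nat_lit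 164) (nat_lit 5) (nat_lit 165) (nat_lit 5) (nat_lit 495) (nat_lit 423) (nat_lit 222)) (XT.nd (nat_lit 78) (nat_lit 532) (nat_lit 0) (XT.lf (nat_lit 0) (nat_lit 13705236378) (nat_lit 456) (nat_lit 5212457087) (nat_lit 532) (nat_lit 3086366707) (nat_lit 158) (nat_lit 5) (nat_lit 164) (nat_lit 5) (nat_lit 165) (nat_lit 5) (nat_lit 496) (nat_lit 423) (nat_lit 221)) (XT.lf (nat_lit 0) (nat_lit 843334476) (nat_lit 532) (nat_lit 18879922188) (nat_lit 76) (nat_lit 2558519089) (nat_lit 151) (nat_lit 5) (nat_lit 158) (nat_lit 5) (nat_lit 152) (nat_lit 5) (nat_lit 497) (nat_lit 423) (nat_lit 220))))) (XT.nd (nat_lit 53586) (nat_lit 0) (nat_lit 21660) (XT.nd (nat_lit 78) (nat_lit 456) (nat_lit 0) (XT.lf (nat_lit 0) (nat_lit 4895165614) (nat_lit 532) (nat_lit 7178315737) (nat_lit 76) (nat_lit 10489460924) (nat_lit 151) (nat_lit 5) (nat_lit 158) (nat_lit 5) (nat_lit 152) (nat_lit 5) (nat_lit 498) (nat_lit 423) (nat_lit 219))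 (XT.lf (nat_lit 0) (nat_lit 4812505213) (nat_lit 456) (nat_lit 4241132849) (nat_lit 532) (nat_lit 13795583828) (nat_lit 145) (nat_lit 5) (nat_lit 151) (nat_lit 5) (nat_lit 152) (nat_lit 5) (nat_lit 499) (nat_lit 423) (nat_lit 218))) (XT.nd (nat_lit 78) (nat_lit 0) (nat_lit 0) (XT.lf (nat_lit 0) (nat_lit 27278038) (nat_lit 0) (nat_lit 27278038) (nat_lit 1596) (nat_lit 5050266035) (nat_lit 430) (nat_lit 5) (nat_lit 430) (nat_lit 3) (nat_lit 451) (nat_lit 3) (nat_lit 424) (nat_lit 424) (nat_lit 292)) (XT.nd (nat_lit 78) (nat_lit 0) (nat_lit 0) (XT.lf (nat_lit 0) (nat_lit 797680982) (nat_lit 1596) (nat_lit 5378660707) (nat_lit 1672) (nat_lit 4121297363) (nat_lit 430) (nat_lit 5) (nat_lit 451) (nat_lit 3) (nat_lit 452) (nat_lit 5) (nat_lit 425) (nat_lit 424) (nat_lit 291)) (XT.lf (nat_lit 0) (nat_lit 1483117135) (nat_lit 1596) (nat_lit 516138706) (nat_lit 1672) (nat_lit 8388485252) (nat_lit 430) (nat_lit 5) (nat_lit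 451) (nat_lit 3) (nat_lit 452) (nat_lit 5) (nat_lit 426) (nat_lit 424) (nat_lit 290)))))) (XT.nd (nat_lit 390) (nat_lit 0) (nat_lit 152) (XT.nd (nat_lit 156) (nat_lit 0) (nat_lit 76) (XT.nd (nat_lit 78) (nat_lit 0) (nat_lit 0) (XT.lf (nat_lit 0) (nat_lit 2209438802) (nat_lit 1596) (nat_lit 6000662651) (nat_lit 1672) (nat_lit 2269009239) (nat_lit 431) (nat_lit 5) (nat_lit 452) (nat_lit 5) (nat_lit 453) (nat_lit 5) (nat_lit 427) (nat_lit 424) (nat_lit 289)) (XT.lf (nat_lit 0) (nat_lit 2950411967) (nat_lit 1596) (nat_lit 1014807478) (nat_lit 1672) (nat_lit 6607094613) (nat_lit 431) (nat_lit 5) (nat_lit 452) (nat_lit 5) (nat_lit 453) (nat_lit 5) (nat_lit 428) (nat_lit 424) (nat_lit 288))) (XT.nd (nat_lit 78) (nat_lit 0) (nat_lit 0) (XT.lf (nat_lit 0) (nat_lit 3719241257) (nat_lit 1596) (nat_lit 6554077249) (nat_lit 1672) (nat_lit 393810955) (nat_lit 432) (nat_lit 5) (nat_lit 453) (nat_lit 5) (nat_lit 454) (nat_lit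 5) (nat_lit 429) (nat_lit 424) (nat_lit 287)) (XT.nd (nat_lit 78) (nat_lit 0) (nat_lit 0) (XT.lf (nat_lit 0) (nat_lit 4520592236) (nat_lit 1596) (nat_lit 1442147639) (nat_lit 1672) (nat_lit 4800766925) (nat_lit 432) (nat_lit 5) (nat_lit 453) (nat_lit 5) (nat_lit 454) (nat_lit 5) (nat_lit 430) (nat_lit 424) (nat_lit 286)) (XT.lf (nat_lit 76) (nat_lit 3812847411) (nat_lit 0) (nat_lit 1534221868) (nat_lit 1672) (nat_lit 5514568791) (nat_lit 433) (nat_lit 5) (nat_lit 432) (nat_lit 5) (nat_lit 454) (nat_lit 5) (nat_lit 431) (nat_lit 424) (nat_lit 285))))) (XT.nd (nat_lit 234) (nat_lit 0) (nat_lit 76) (XT.nd (nat_lit 78) (nat_lit 0) (nat_lit 0) (XT.lf (nat_lit 0) (nat_lit 6203816404) (nat_lit 1596) (nat_lit 1797954349) (nat_lit 1672) (nat_lit 2959694602) (nat_lit 433) (nat_lit 5) (nat_lit 454) (nat_lit 5) (nat_lit 455) (nat_lit 5) (nat_lit 432) (nat_lit 424) (nat_lit 284)) (XT.nd (nat_lit 78) (nat_lit 0) (nat_lit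 76) (XT.lf (nat_lit 76) (nat_lit 3585472043) (nat_lit 0) (nat_lit 3510599561) (nat_lit 1672) (nat_lit 3966858158) (nat_lit 434) (nat_lit 5) (nat_lit 433) (nat_lit 5) (nat_lit 455) (nat_lit 5) (nat_lit 433) (nat_lit 424) (nat_lit 283)) (XT.lf (nat_lit 0) (nat_lit 8010472079) (nat_lit 1596) (nat_lit 2081843158) (nat_lit 1672) (nat_lit 1074030098) (nat_lit 434) (nat_lit 5) (nat_lit 455) (nat_lit 5) (nat_lit 456) (nat_lit 5) (nat_lit 434) (nat_lit 424) (nat_lit 282)))) (XT.nd (nat_lit 78) (nat_lit 0) (nat_lit 0) (XT.lf (nat_lit 76) (nat_lit 3434090963) (nat_lit 0) (nat_lit 5540110425) (nat_lit 1672) (nat_lit 2297014742) (nat_lit 435) (nat_lit 5) (nat_lit 434) (nat_lit 5) (nat_lit 456) (nat_lit 5) (nat_lit 435) (nat_lit 424) (nat_lit 281)) (XT.nd (nat_lit 78) (nat_lit 0) (nat_lit 76) (XT.lf (nat_lit 76) (nat_lit 9079242979) (nat_lit 0) (nat_lit 877651880) (nat_lit 1672) (nat_lit 1421303267) (nat_lit 435) (nat_lit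 5) (nat_lit 434) (nat_lit 5) (nat_lit 456) (nat_lit 5) (nat_lit 436) (nat_lit 424) (nat_lit 280)) (XT.lf (nat_lit 76) (nat_lit 3359401542) (nat_lit 0) (nat_lit 7632861927) (nat_lit 1672) (nat_lit 494403293) (nat_lit 436) (nat_lit 5) (nat_lit 435) (nat_lit 5) (nat_lit 457) (nat_lit 5) (nat_lit 437) (nat_lit 424) (nat_lit 279))))))) (XT.nd (nat_lit 780) (nat_lit 5928) (nat_lit 0) (XT.nd (nat_lit 390) (nat_lit 0) (nat_lit 152) (XT.nd (nat_lit 156) (nat_lit 0) (nat_lit 76) (XT.nd (nat_lit 78) (nat_lit 0) (nat_lit 76) (XT.lf (nat_lit 0) (nat_lit 452606426) (nat_lit 1672) (nat_lit 2453336782) (nat_lit 1748) (nat_lit 8691160391) (nat_lit 413) (nat_lit 5) (nat_lit 435) (nat_lit 5) (nat_lit 436) (nat_lit 5) (nat_lit 438) (nat_lit 424) (nat_lit 278)) (XT.lf (nat_lit 0) (nat_lit 1432841296) (nat_lit 1672) (nat_lit 8356618063) (nat_lit 1748) (nat_lit 1919813353) (nat_lit 414) (nat_lit 5) (nat_lit 436) (nat_lit 5) (nat_lit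 437) (nat_lit 5) (nat_lit 439) (nat_lit 424) (nat_lit 277))) (XT.nd (nat_lit 78) (nat_lit 0) (nat_lit 0) (XT.lf (nat_lit 0) (nat_lit 2455146853) (nat_lit 1672) (nat_lit 2544324956) (nat_lit 1748) (nat_lit 6823770939) (nat_lit 414) (nat_lit 5) (nat_lit 436) (nat_lit 5) (nat_lit 437) (nat_lit 5) (nat_lit 440) (nat_lit 424) (nat_lit 276)) (XT.nd (nat_lit 78) (nat_lit 0) (nat_lit 76) (XT.lf (nat_lit 76) (nat_lit 3419614971) (nat_lit 0) (nat_lit 87396862) (nat_lit 1748) (nat_lit 8432304811) (nat_lit 415) (nat_lit 5) (nat_lit 414) (nat_lit 5) (nat_lit 437) (nat_lit 5) (nat_lit 441) (nat_lit 424) (nat_lit 275)) (XT.lf (nat_lit 0) (nat_lit 4616193195) (nat_lit 1672) (nat_lit 2561796769) (nat_lit 1748) (nat_lit 4879003070) (nat_lit 415) (nat_lit 5) (nat_lit 437) (nat_lit 5) (nat_lit 438) (nat_lit 5) (nat_lit 442) (nat_lit 424) (nat_lit 274))))) (XT.nd (nat_lit 156) (nat_lit 0) (nat_lit 76) (XT.nd (nat_lit 78) (nat_lit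 0) (nat_lit 76) (XT.lf (nat_lit 76) (nat_lit 3551786444) (nat_lit 0) (nat_lit 2206792833) (nat_lit 1748) (nat_lit 6418229717) (nat_lit 416) (nat_lit 5) (nat_lit 415) (nat_lit 5) (nat_lit 438) (nat_lit 5) (nat_lit 443) (nat_lit 424) (nat_lit 273)) (XT.lf (nat_lit 0) (nat_lit 6947299361) (nat_lit 1672) (nat_lit 2504713480) (nat_lit 1748) (nat_lit 2846545047) (nat_lit 416) (nat_lit 5) (nat_lit 438) (nat_lit 5) (nat_lit 439) (nat_lit 5) (nat_lit 444) (nat_lit 424) (nat_lit 272))) (XT.nd (nat_lit 78) (nat_lit 0) (nat_lit 76) (XT.lf (nat_lit 76) (nat_lit 3763237435) (nat_lit 0) (nat_lit 4423435301) (nat_lit 1748) (nat_lit 4235537659) (nat_lit 417) (nat_lit 5) (nat_lit 416) (nat_lit 5) (nat_lit 439) (nat_lit 5) (nat_lit 445) (nat_lit 424) (nat_lit 271)) (XT.nd (nat_lit 78) (nat_lit 0) (nat_lit 0) (XT.lf (nat_lit 0) (nat_lit 9460359583) (nat_lit 1672) (nat_lit 2371898941) (nat_lit 1748) (nat_lit 715893001) (nat_lit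 417) (nat_lit 5) (nat_lit 439) (nat_lit 5) (nat_lit 440) (nat_lit 5) (nat_lit 446) (nat_lit 424) (nat_lit 270)) (XT.lf (nat_lit 76) (nat_lit 4055293190) (nat_lit 0) (nat_lit 6748110495) (nat_lit 1748) (nat_lit 1872336096) (nat_lit 418) (nat_lit 5) (nat_lit 417) (nat_lit 5) (nat_lit 440) (nat_lit 5) (nat_lit 447) (nat_lit 424) (nat_lit 269)))))) (XT.nd (nat_lit 390) (nat_lit 2812) (nat_lit 0) (XT.nd (nat_lit 156) (nat_lit 1748) (nat_lit 0) (XT.nd (nat_lit 78) (nat_lit 1672) (nat_lit 0) (XT.lf (nat_lit 76) (nat_lit 10633728485) (nat_lit 0) (nat_lit 1543925301) (nat_lit 1748) (nat_lit 628144970) (nat_lit 418) (nat_lit 5) (nat_lit 417) (nat_lit 5) (nat_lit 440) (nat_lit 5) (nat_lit 448) (nat_lit 424) (nat_lit 268)) (XT.lf (nat_lit 0) (nat_lit 674663778) (nat_lit 1748) (nat_lit 8512653549) (nat_lit 76) (nat_lit 3750221191) (nat_lit 395) (nat_lit 5) (nat_lit 418) (nat_lit 5) (nat_lit 396) (nat_lit 5) (nat_lit 449)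 (nat_lit 424) (nat_lit 267))) (XT.nd (nat_lit 78) (nat_lit 1748) (nat_lit 0) (XT.lf (nat_lit 0) (nat_lit 2008772736) (nat_lit 1748) (nat_lit 1912485974) (nat_lit 76) (nat_lit 9150303746) (nat_lit 395) (nat_lit 5) (nat_lit 418) (nat_lit 5) (nat_lit 396) (nat_lit 5) (nat_lit 450) (nat_lit 424) (nat_lit 266)) (XT.nd (nat_lit 78) (nat_lit 0) (nat_lit 0) (XT.lf (nat_lit 0) (nat_lit 3399816249) (nat_lit 1824) (nat_lit 8343301525) (nat_lit 76) (nat_lit 1464549460) (nat_lit 372) (nat_lit 5) (nat_lit 396) (nat_lit 5) (nat_lit 373) (nat_lit 5) (nat_lit 451) (nat_lit 424) (nat_lit 265)) (XT.lf (nat_lit 0) (nat_lit 4846704077) (nat_lit 1824) (nat_lit 1579200300) (nat_lit 76) (nat_lit 6920034568) (nat_lit 372) (nat_lit 5) (nat_lit 396) (nat_lit 5) (nat_lit 373) (nat_lit 5) (nat_lit 452) (nat_lit 424) (nat_lit 264))))) (XT.nd (nat_lit 234) (nat_lit 912) (nat_lit 0) (XT.nd (nat_lit 78) (nat_lit 912) (nat_lit 0) (XT.lf (nat_lit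 0) (nat_lit 5381360506) (nat_lit 988) (nat_lit 965457598) (nat_lit 1064) (nat_lit 7139677415) (nat_lit 359) (nat_lit 5) (nat_lit 372) (nat_lit 5) (nat_lit 373) (nat_lit 5) (nat_lit 453) (nat_lit 424) (nat_lit 263)) (XT.nd (nat_lit 78) (nat_lit 912) (nat_lit 0) (XT.lf (nat_lit 0) (nat_lit 7907000223) (nat_lit 1064) (nat_lit 1166636790) (nat_lit 76) (nat_lit 4555629995) (nat_lit 359) (nat_lit 5) (nat_lit 373) (nat_lit 5) (nat_lit 360) (nat_lit 5) (nat_lit 454) (nat_lit 424) (nat_lit 262)) (XT.lf (nat_lit 0) (nat_lit 5973203924) (nat_lit 912) (nat_lit 3560068463) (nat_lit 988) (nat_lit 4240928809) (nat_lit 347) (nat_lit 5) (nat_lit 359) (nat_lit 5) (nat_lit 360) (nat_lit 5) (nat_lit 455) (nat_lit 424) (nat_lit 261)))) (XT.nd (nat_lit 78) (nat_lit 912) (nat_lit 0) (XT.lf (nat_lit 0) (nat_lit 11203207330) (nat_lit 988) (nat_lit 673198174) (nat_lit 76) (nat_lit 2045410718) (nat_lit 347) (nat_lit 5) (nat_lit 360) (nat_lit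 5) (nat_lit 348) (nat_lit 5) (nat_lit 456) (nat_lit 424) (nat_lit 260)) (XT.nd (nat_lit 78) (nat_lit 76) (nat_lit 0) (XT.lf (nat_lit 0) (nat_lit 6651477396) (nat_lit 836) (nat_lit 6311882232) (nat_lit 912) (nat_lit 1107892351) (nat_lit 336) (nat_lit 5) (nat_lit 347) (nat_lit 5) (nat_lit 348) (nat_lit 5) (nat_lit 457) (nat_lit 424) (nat_lit 259)) (XT.lf (nat_lit 0) (nat_lit 522690204) (nat_lit 912) (nat_lit 104730670) (nat_lit 76) (nat_lit 13596297342) (nat_lit 335) (nat_lit 5) (nat_lit 347) (nat_lit 5) (nat_lit 336) (nat_lit 5) (nat_lit 458) (nat_lit 424) (nat_lit 258))))))))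
noncomputable def xc203 : XT := (XT.nd (nat_lit 1638) (nat_lit 5396) (nat_lit 0) (XT.nd (nat_lit 780) (nat_lit 3952) (nat_lit 0) (XT.nd (nat_lit 390) (nat_lit 2280) (nat_lit 0) (XT.nd (nat_lit 156) (nat_lit 760) (nat_lit 0) (XT.nd (nat_lit 78) (nat_lit 760) (nat_lit 0) (XT.lf (nat_lit 0) (nat_lit 2243611636) (nat_lit 912) (nat_lit 6974668276) (nat_lit 76) (nat_lit 5159360692) (nat_lit 324) (nat_lit 5) (nat_lit 336) (nat_lit 5) (nat_lit 325) (nat_lit 5) (nat_lit 459) (nat_lit 424) (nat_lit 257)) (XT.lf (nat_lit 0) (nat_lit 520928515) (nat_lit 760) (nat_lit 3476715722) (nat_lit 836) (nat_lit 10537027786) (nat_lit 314) (nat_lit 5) (nat_lit 324) (nat_lit 5) (nat_lit 325) (nat_lit 5) (nat_lit 460) (nat_lit 424) (nat_lit 256))) (XT.nd (nat_lit 78) (nat_lit 760) (nat_lit 0) (XT.lf (nat_lit 0) (nat_lit 5839897250) (nat_lit 836) (nat_lit 6458185186) (nat_lit 76) (nat_lit 2395703190) (nat_lit 314) (nat_lit 5) (nat_lit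 325) (nat_lit 5) (nat_lit 315) (nat_lit 5) (nat_lit 461) (nat_lit 424) (nat_lit 255)) (XT.nd (nat_lit 78) (nat_lit 0) (nat_lit 0) (XT.lf (nat_lit 0) (nat_lit 1232310414) (nat_lit 760) (nat_lit 6508470929) (nat_lit 836) (nat_lit 7114868704) (nat_lit 304) (nat_lit 5) (nat_lit 314) (nat_lit 5) (nat_lit 315) (nat_lit 5) (nat_lit 462) (nat_lit 424) (nat_lit 254)) (XT.lf (nat_lit 0) (nat_lit 9154908332) (nat_lit 760) (nat_lit 558994157) (nat_lit 836) (nat_lit 5306169062) (nat_lit 304) (nat_lit 5) (nat_lit 314) (nat_lit 5) (nat_lit 315) (nat_lit 5) (nat_lit 463) (nat_lit 424) (nat_lit 253))))) (XT.nd (nat_lit 156) (nat_lit 1520) (nat_lit 0) (XT.nd (nat_lit 78) (nat_lit 0) (nat_lit 0) (XT.lf (nat_lit 0) (nat_lit 2029775770) (nat_lit 760) (nat_lit 9736719589) (nat_lit 836) (nat_lit 3420490040) (nat_lit 294) (nat_lit 5) (nat_lit 304) (nat_lit 5) (nat_lit 305) (nat_lit 5) (nat_lit 464) (nat_lit 424) (nat_lit 252)) (XT.lf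 (nat_lit 0) (nat_lit 10149176407) (nat_lit 760) (nat_lit 3745174747) (nat_lit 836) (nat_lit 1462206169) (nat_lit 294) (nat_lit 5) (nat_lit 304) (nat_lit 5) (nat_lit 305) (nat_lit 5) (nat_lit 465) (nat_lit 424) (nat_lit 251))) (XT.nd (nat_lit 78) (nat_lit 684) (nat_lit 0) (XT.lf (nat_lit 0) (nat_lit 554025205) (nat_lit 836) (nat_lit 12617527223) (nat_lit 76) (nat_lit 2357386585) (nat_lit 283) (nat_lit 5) (nat_lit 294) (nat_lit 5) (nat_lit 284) (nat_lit 5) (nat_lit 466) (nat_lit 424) (nat_lit 250)) (XT.nd (nat_lit 78) (nat_lit 684) (nat_lit 0) (XT.lf (nat_lit 0) (nat_lit 2642394648) (nat_lit 836) (nat_lit 4484861056) (nat_lit 76) (nat_lit 8576295271) (nat_lit 283) (nat_lit 5) (nat_lit 294) (nat_lit 5) (nat_lit 284) (nat_lit 5) (nat_lit 467) (nat_lit 424) (nat_lit 249)) (XT.lf (nat_lit 0) (nat_lit 3851916234) (nat_lit 684) (nat_lit 937189060) (nat_lit 760) (nat_lit 11092222118) (nat_lit 274) (nat_lit 5) (nat_lit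 283) (nat_lit 5) (nat_lit 284) (nat_lit 5) (nat_lit 468) (nat_lit 424) (nat_lit 248)))))) (XT.nd (nat_lit 390) (nat_lit 2508) (nat_lit 0) (XT.nd (nat_lit 156) (nat_lit 760) (nat_lit 0) (XT.nd (nat_lit 78) (nat_lit 684) (nat_lit 0) (XT.lf (nat_lit 0) (nat_lit 7035621417) (nat_lit 760) (nat_lit 3690110201) (nat_lit 76) (nat_lit 5335793975) (nat_lit 274) (nat_lit 5) (nat_lit 284) (nat_lit 5) (nat_lit 275) (nat_lit 5) (nat_lit 469) (nat_lit 424) (nat_lit 247)) (XT.lf (nat_lit 0) (nat_lit 4864582863) (nat_lit 684) (nat_lit 4492106245) (nat_lit 760) (nat_lit 6888049776) (nat_lit 265) (nat_lit 5) (nat_lit 274) (nat_lit 5) (nat_lit 275) (nat_lit 5) (nat_lit 470) (nat_lit 424) (nat_lit 246))) (XT.nd (nat_lit 78) (nat_lit 760) (nat_lit 0) (XT.lf (nat_lit 0) (nat_lit 11753148505) (nat_lit 760) (nat_lit 2812098915) (nat_lit 76) (nat_lit 1865793112) (nat_lit 265) (nat_lit 5) (nat_lit 275) (nat_lit 5) (nat_lit 266) (nat_lit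 5) (nat_lit 471) (nat_lit 424) (nat_lit 245)) (XT.nd (nat_lit 78) (nat_lit 76) (nat_lit 0) (XT.lf (nat_lit 0) (nat_lit 5966918288) (nat_lit 684) (nat_lit 8291194555) (nat_lit 760) (nat_lit 2361747286) (nat_lit 256) (nat_lit 5) (nat_lit 265) (nat_lit 5) (nat_lit 266) (nat_lit 5) (nat_lit 472) (nat_lit 424) (nat_lit 244)) (XT.lf (nat_lit 0) (nat_lit 11834687) (nat_lit 760) (nat_lit 1861532278) (nat_lit 76) (nat_lit 14938869883) (nat_lit 255) (nat_lit 5) (nat_lit 265) (nat_lit 5) (nat_lit 256) (nat_lit 5) (nat_lit 473) (nat_lit 424) (nat_lit 243))))) (XT.nd (nat_lit 234) (nat_lit 1216) (nat_lit 0) (XT.nd (nat_lit 78) (nat_lit 608) (nat_lit 0) (XT.lf (nat_lit 0) (nat_lit 2470908165) (nat_lit 760) (nat_lit 9862729906) (nat_lit 76) (nat_lit 4673121165) (nat_lit 246) (nat_lit 5) (nat_lit 256) (nat_lit 5) (nat_lit 247) (nat_lit 5) (nat_lit 474) (nat_lit 424) (nat_lit 242)) (XT.nd (nat_lit 78) (nat_lit 608) (nat_lit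 0) (XT.lf (nat_lit 0) (nat_lit 4996514124) (nat_lit 760) (nat_lit 871349167) (nat_lit 76) (nat_lit 11336964932) (nat_lit 246) (nat_lit 5) (nat_lit 256) (nat_lit 5) (nat_lit 247) (nat_lit 5) (nat_lit 475) (nat_lit 424) (nat_lit 241)) (XT.lf (nat_lit 0) (nat_lit 7624773894) (nat_lit 684) (nat_lit 9009650530) (nat_lit 76) (nat_lit 771394437) (nat_lit 238) (nat_lit 5) (nat_lit 247) (nat_lit 5) (nat_lit 239) (nat_lit 5) (nat_lit 476) (nat_lit 424) (nat_lit 240)))) (XT.nd (nat_lit 78) (nat_lit 608) (nat_lit 0) (XT.lf (nat_lit 0) (nat_lit 205141888) (nat_lit 608) (nat_lit 10139136902) (nat_lit 684) (nat_lit 7265779972) (nat_lit 230) (nat_lit 5) (nat_lit 238) (nat_lit 5) (nat_lit 239) (nat_lit 5) (nat_lit 477) (nat_lit 424) (nat_lit 239)) (XT.nd (nat_lit 78) (nat_lit 608) (nat_lit 0) (XT.lf (nat_lit 0) (nat_lit 9717631119) (nat_lit 608) (nat_lit 3453692614) (nat_lit 684) (nat_lit 4645999715) (nat_lit 230) (nat_lit 5)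 (nat_lit 238) (nat_lit 5) (nat_lit 239) (nat_lit 5) (nat_lit 478) (nat_lit 424) (nat_lit 238)) (XT.lf (nat_lit 0) (nat_lit 1379180779) (nat_lit 608) (nat_lit 14699358906) (nat_lit 684) (nat_lit 1949724069) (nat_lit 222) (nat_lit 5) (nat_lit 230) (nat_lit 5) (nat_lit 231) (nat_lit 5) (nat_lit 479) (nat_lit 424) (nat_lit 237))))))) (XT.nd (nat_lit 780) (nat_lit 2508) (nat_lit 0) (XT.nd (nat_lit 390) (nat_lit 1672) (nat_lit 0) (XT.nd (nat_lit 156) (nat_lit 532) (nat_lit 0) (XT.nd (nat_lit 78) (nat_lit 608) (nat_lit 0) (XT.lf (nat_lit 0) (nat_lit 860423559) (nat_lit 684) (nat_lit 7122074152) (nat_lit 76) (nat_lit 10259415127) (nat_lit 221) (nat_lit 5) (nat_lit 230) (nat_lit 5) (nat_lit 222) (nat_lit 5) (nat_lit 480) (nat_lit 424) (nat_lit 236)) (XT.lf (nat_lit 0) (nat_lit 2608207284) (nat_lit 608) (nat_lit 1102418254) (nat_lit 684) (nat_lit 14748755208) (nat_lit 213) (nat_lit 5) (nat_lit 221) (nat_lit 5) (nat_lit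 222) (nat_lit 5) (nat_lit 481) (nat_lit 424) (nat_lit 235))) (XT.nd (nat_lit 78) (nat_lit 532) (nat_lit 0) (XT.lf (nat_lit 0) (nat_lit 6697418057) (nat_lit 684) (nat_lit 6097965555) (nat_lit 76) (nat_lit 5884225376) (nat_lit 213) (nat_lit 5) (nat_lit 222) (nat_lit 5) (nat_lit 214) (nat_lit 5) (nat_lit 482) (nat_lit 424) (nat_lit 234)) (XT.nd (nat_lit 78) (nat_lit 0) (nat_lit 0) (XT.lf (nat_lit 0) (nat_lit 3885497052) (nat_lit 532) (nat_lit 5884184550) (nat_lit 608) (nat_lit 9134048140) (nat_lit 206) (nat_lit 5) (nat_lit 213) (nat_lit 5) (nat_lit 214) (nat_lit 5) (nat_lit 483) (nat_lit 424) (nat_lit 233)) (XT.lf (nat_lit 0) (nat_lit 12945422201) (nat_lit 608) (nat_lit 4996600381) (nat_lit 76) (nat_lit 1189472295) (nat_lit 206) (nat_lit 5) (nat_lit 214) (nat_lit 5) (nat_lit 207) (nat_lit 5) (nat_lit 484) (nat_lit 424) (nat_lit 232))))) (XT.nd (nat_lit 156) (nat_lit 1064) (nat_lit 0) (XT.nd (nat_lit 78) (nat_lit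 76) (nat_lit 0) (XT.lf (nat_lit 0) (nat_lit 5246940621) (nat_lit 532) (nat_lit 11004178311) (nat_lit 608) (nat_lit 3111370105) (nat_lit 199) (nat_lit 5) (nat_lit 206) (nat_lit 5) (nat_lit 207) (nat_lit 5) (nat_lit 485) (nat_lit 424) (nat_lit 231)) (XT.lf (nat_lit 0) (nat_lit 51689036) (nat_lit 608) (nat_lit 3843138073) (nat_lit 76) (nat_lit 15702731437) (nat_lit 198) (nat_lit 5) (nat_lit 206) (nat_lit 5) (nat_lit 199) (nat_lit 5) (nat_lit 486) (nat_lit 424) (nat_lit 230))) (XT.nd (nat_lit 78) (nat_lit 532) (nat_lit 0) (XT.lf (nat_lit 0) (nat_lit 3295618263) (nat_lit 608) (nat_lit 13164722032) (nat_lit 76) (nat_lit 3375394823) (nat_lit 191) (nat_lit 5) (nat_lit 199) (nat_lit 5) (nat_lit 192) (nat_lit 5) (nat_lit 487) (nat_lit 424) (nat_lit 229)) (XT.nd (nat_lit 78) (nat_lit 532) (nat_lit 0) (XT.lf (nat_lit 0) (nat_lit 6649806043) (nat_lit 608) (nat_lit 2664885525) (nat_lit 76) (nat_lit 10763078411) (nat_lit 191)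 (nat_lit 5) (nat_lit 199) (nat_lit 5) (nat_lit 192) (nat_lit 5) (nat_lit 488) (nat_lit 424) (nat_lit 228)) (XT.lf (nat_lit 0) (nat_lit 8143611702) (nat_lit 532) (nat_lit 1974090722) (nat_lit 608) (nat_lit 10206012925) (nat_lit 184) (nat_lit 5) (nat_lit 191) (nat_lit 5) (nat_lit 192) (nat_lit 5) (nat_lit 489) (nat_lit 424) (nat_lit 227)))))) (XT.nd (nat_lit 390) (nat_lit 988) (nat_lit 0) (XT.nd (nat_lit 156) (nat_lit 1064) (nat_lit 0) (XT.nd (nat_lit 78) (nat_lit 456) (nat_lit 0) (XT.lf (nat_lit 0) (nat_lit 13702562837) (nat_lit 608) (nat_lit 1413935277) (nat_lit 76) (nat_lit 5457131654) (nat_lit 184) (nat_lit 5) (nat_lit 192) (nat_lit 5) (nat_lit 185) (nat_lit 5) (nat_lit 490) (nat_lit 424) (nat_lit 226)) (XT.lf (nat_lit 0) (nat_lit 9673310183) (nat_lit 456) (nat_lit 7755619411) (nat_lit 532) (nat_lit 3398218918) (nat_lit 178) (nat_lit 5) (nat_lit 184) (nat_lit 5) (nat_lit 185) (nat_lit 5) (nat_lit 491) (nat_lit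 424) (nat_lit 225))) (XT.nd (nat_lit 78) (nat_lit 988) (nat_lit 0) (XT.lf (nat_lit 0) (nat_lit 145702827) (nat_lit 532) (nat_lit 93148986) (nat_lit 76) (nat_lit 20846799111) (nat_lit 177) (nat_lit 5) (nat_lit 184) (nat_lit 5) (nat_lit 178) (nat_lit 5) (nat_lit 492) (nat_lit 424) (nat_lit 224)) (XT.nd (nat_lit 78) (nat_lit 456) (nat_lit 0) (XT.lf (nat_lit 0) (nat_lit 3831378874) (nat_lit 608) (nat_lit 10089750691) (nat_lit 76) (nat_lit 7425419106) (nat_lit 170) (nat_lit 5) (nat_lit 178) (nat_lit 5) (nat_lit 171) (nat_lit 5) (nat_lit 493) (nat_lit 424) (nat_lit 223)) (XT.lf (nat_lit 0) (nat_lit 1228920633) (nat_lit 456) (nat_lit 6366163912) (nat_lit 532) (nat_lit 14017495556) (nat_lit 164) (nat_lit 5) (nat_lit 170) (nat_lit 5) (nat_lit 171) (nat_lit 5) (nat_lit 494) (nat_lit 424) (nat_lit 222))))) (XT.nd (nat_lit 234) (nat_lit 532) (nat_lit 0) (XT.nd (nat_lit 78) (nat_lit 456) (nat_lit 0) (XT.lf (nat_lit 0) (nat_lit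 11505096046) (nat_lit 532) (nat_lit 8989009088) (nat_lit 76) (nat_lit 1388408400) (nat_lit 164) (nat_lit 5) (nat_lit 171) (nat_lit 5) (nat_lit 165) (nat_lit 5) (nat_lit 495) (nat_lit 424) (nat_lit 221)) (XT.nd (nat_lit 78) (nat_lit 0) (nat_lit 0) (XT.lf (nat_lit 0) (nat_lit 2617847254) (nat_lit 456) (nat_lit 12928907799) (nat_lit 532) (nat_lit 6610023608) (nat_lit 158) (nat_lit 5) (nat_lit 164) (nat_lit 5) (nat_lit 165) (nat_lit 5) (nat_lit 496) (nat_lit 424) (nat_lit 220)) (XT.lf (nat_lit 0) (nat_lit 14570880265) (nat_lit 456) (nat_lit 5153039660) (nat_lit 532) (nat_lit 2711517646) (nat_lit 158) (nat_lit 5) (nat_lit 164) (nat_lit 5) (nat_lit 165) (nat_lit 5) (nat_lit 497) (nat_lit 424) (nat_lit 219)))) (XT.nd (nat_lit 53664) (nat_lit 0) (nat_lit 21204) (XT.lf (nat_lit 0) (nat_lit 1287542704) (nat_lit 532) (nat_lit 18656462461) (nat_lit 76) (nat_lit 2774718603) (nat_lit 151) (nat_lit 5) (nat_lit 158) (nat_lit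 5) (nat_lit 152) (nat_lit 5) (nat_lit 498) (nat_lit 424) (nat_lit 218)) (XT.nd (nat_lit 78) (nat_lit 0) (nat_lit 0) (XT.lf (nat_lit 0) (nat_lit 355861793) (nat_lit 0) (nat_lit 355861793) (nat_lit 1596) (nat_lit 4481723666) (nat_lit 430) (nat_lit 5) (nat_lit 430) (nat_lit 3) (nat_lit 451) (nat_lit 3) (nat_lit 425) (nat_lit 425) (nat_lit 290)) (XT.lf (nat_lit 0) (nat_lit 2095882733) (nat_lit 1596) (nat_lit 4812431299) (nat_lit 1672) (nat_lit 3568947008) (nat_lit 430) (nat_lit 5) (nat_lit 451) (nat_lit 3) (nat_lit 452) (nat_lit 5) (nat_lit 426) (nat_lit 425) (nat_lit 289))))))))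
noncomputable def xc204 : XT := (XT.nd (nat_lit 1560) (nat_lit 9880) (nat_lit 0) (XT.nd (nat_lit 780) (nat_lit 1292) (nat_lit 0) (XT.nd (nat_lit 390) (nat_lit 0) (nat_lit 152) (XT.nd (nat_lit 156) (nat_lit 0) (nat_lit 76) (XT.nd (nat_lit 78) (nat_lit 0) (nat_lit 76) (XT.lf (nat_lit 76) (nat_lit 135911833) (nat_lit 0) (nat_lit 2634856085) (nat_lit 1672) (nat_lit 7798895845) (nat_lit 431) (nat_lit 5) (nat_lit 430) (nat_lit 5) (nat_lit 452) (nat_lit 5) (nat_lit 427) (nat_lit 425) (nat_lit 288)) (XT.lf (nat_lit 0) (nat_lit 3486576414) (nat_lit 1596) (nat_lit 5435268724) (nat_lit 1672) (nat_lit 1741529593) (nat_lit 431) (nat_lit 5) (nat_lit 452) (nat_lit 5) (nat_lit 453) (nat_lit 5) (nat_lit 428) (nat_lit 425) (nat_lit 287))) (XT.nd (nat_lit 78) (nat_lit 0) (nat_lit 0) (XT.lf (nat_lit 0) (nat_lit 4218193575) (nat_lit 1596) (nat_lit 363135804) (nat_lit 1672) (nat_lit 6177609220) (nat_lit 431) (nat_lit 5) (nat_lit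 452) (nat_lit 5) (nat_lit 453) (nat_lit 5) (nat_lit 429) (nat_lit 425) (nat_lit 286)) (XT.nd (nat_lit 78) (nat_lit 0) (nat_lit 76) (XT.lf (nat_lit 76) (nat_lit 4865555772) (nat_lit 0) (nat_lit 114833718) (nat_lit 1672) (nat_lit 5875713690) (nat_lit 432) (nat_lit 5) (nat_lit 431) (nat_lit 5) (nat_lit 453) (nat_lit 5) (nat_lit 430) (nat_lit 425) (nat_lit 285)) (XT.lf (nat_lit 0) (nat_lit 5773766662) (nat_lit 1596) (nat_lit 789268081) (nat_lit 1672) (nat_lit 4391865765) (nat_lit 432) (nat_lit 5) (nat_lit 453) (nat_lit 5) (nat_lit 454) (nat_lit 5) (nat_lit 431) (nat_lit 425) (nat_lit 284))))) (XT.nd (nat_lit 156) (nat_lit 0) (nat_lit 76) (XT.nd (nat_lit 78) (nat_lit 0) (nat_lit 76) (XT.lf (nat_lit 76) (nat_lit 4566341854) (nat_lit 0) (nat_lit 2032029200) (nat_lit 1672) (nat_lit 4457003572) (nat_lit 433) (nat_lit 5) (nat_lit 432) (nat_lit 5) (nat_lit 454) (nat_lit 5) (nat_lit 432) (nat_lit 425) (nat_lit 283)) (XT.lf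 (nat_lit 0) (nat_lit 7446841278) (nat_lit 1596) (nat_lit 1143946209) (nat_lit 1672) (nat_lit 2566931147) (nat_lit 433) (nat_lit 5) (nat_lit 454) (nat_lit 5) (nat_lit 455) (nat_lit 5) (nat_lit 433) (nat_lit 425) (nat_lit 282))) (XT.nd (nat_lit 78) (nat_lit 0) (nat_lit 76) (XT.lf (nat_lit 76) (nat_lit 4342609453) (nat_lit 0) (nat_lit 3996842215) (nat_lit 1672) (nat_lit 2922122166) (nat_lit 434) (nat_lit 5) (nat_lit 433) (nat_lit 5) (nat_lit 455) (nat_lit 5) (nat_lit 434) (nat_lit 425) (nat_lit 281)) (XT.nd (nat_lit 78) (nat_lit 0) (nat_lit 0) (XT.lf (nat_lit 0) (nat_lit 9247894742) (nat_lit 1596) (nat_lit 1426672531) (nat_lit 1672) (nat_lit 692986832) (nat_lit 434) (nat_lit 5) (nat_lit 455) (nat_lit 5) (nat_lit 456) (nat_lit 5) (nat_lit 435) (nat_lit 425) (nat_lit 280)) (XT.lf (nat_lit 76) (nat_lit 4194996012) (nat_lit 0) (nat_lit 6019275169) (nat_lit 1672) (nat_lit 1260594937) (nat_lit 435) (nat_lit 5) (nat_lit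 434) (nat_lit 5) (nat_lit 456) (nat_lit 5) (nat_lit 436) (nat_lit 425) (nat_lit 279)))))) (XT.nd (nat_lit 390) (nat_lit 0) (nat_lit 76) (XT.nd (nat_lit 156) (nat_lit 0) (nat_lit 0) (XT.nd (nat_lit 78) (nat_lit 1596) (nat_lit 0) (XT.lf (nat_lit 76) (nat_lit 9939478063) (nat_lit 0) (nat_lit 1256344658) (nat_lit 1672) (nat_lit 388591979) (nat_lit 435) (nat_lit 5) (nat_lit 434) (nat_lit 5) (nat_lit 456) (nat_lit 5) (nat_lit 437) (nat_lit 425) (nat_lit 278)) (XT.lf (nat_lit 0) (nat_lit 531255191) (nat_lit 1672) (nat_lit 7574610490) (nat_lit 1748) (nat_lit 3589491077) (nat_lit 413) (nat_lit 5) (nat_lit 435) (nat_lit 5) (nat_lit 436) (nat_lit 5) (nat_lit 438) (nat_lit 425) (nat_lit 277))) (XT.nd (nat_lit 78) (nat_lit 0) (nat_lit 76) (XT.lf (nat_lit 0) (nat_lit 1470416083) (nat_lit 1672) (nat_lit 1804437007) (nat_lit 1748) (nat_lit 8533497656) (nat_lit 413) (nat_lit 5) (nat_lit 435) (nat_lit 5) (nat_lit 436) (nat_lit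 5) (nat_lit 439) (nat_lit 425) (nat_lit 276)) (XT.nd (nat_lit 78) (nat_lit 0) (nat_lit 0) (XT.lf (nat_lit 0) (nat_lit 2453029458) (nat_lit 1672) (nat_lit 7808048138) (nat_lit 1748) (nat_lit 1662040361) (nat_lit 414) (nat_lit 5) (nat_lit 436) (nat_lit 5) (nat_lit 437) (nat_lit 5) (nat_lit 440) (nat_lit 425) (nat_lit 275)) (XT.lf (nat_lit 0) (nat_lit 3476339334) (nat_lit 1672) (nat_lit 1893542547) (nat_lit 1748) (nat_lit 6669884340) (nat_lit 414) (nat_lit 5) (nat_lit 436) (nat_lit 5) (nat_lit 437) (nat_lit 5) (nat_lit 441) (nat_lit 425) (nat_lit 274))))) (XT.nd (nat_lit 156) (nat_lit 0) (nat_lit 76) (XT.nd (nat_lit 78) (nat_lit 0) (nat_lit 76) (XT.lf (nat_lit 76) (nat_lit 4185059936) (nat_lit 0) (nat_lit 349646828) (nat_lit 1748) (nat_lit 7623755325) (nat_lit 415) (nat_lit 5) (nat_lit 414) (nat_lit 5) (nat_lit 437) (nat_lit 5) (nat_lit 442) (nat_lit 425) (nat_lit 273)) (XT.lf (nat_lit 0) (nat_lit 5645637982) (nat_lit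 1672) (nat_lit 1908733778) (nat_lit 1748) (nat_lit 4724538526) (nat_lit 415) (nat_lit 5) (nat_lit 437) (nat_lit 5) (nat_lit 438) (nat_lit 5) (nat_lit 443) (nat_lit 425) (nat_lit 272))) (XT.nd (nat_lit 78) (nat_lit 0) (nat_lit 76) (XT.lf (nat_lit 76) (nat_lit 4322487555) (nat_lit 0) (nat_lit 2474552003) (nat_lit 1748) (nat_lit 5604369067) (nat_lit 416) (nat_lit 5) (nat_lit 415) (nat_lit 5) (nat_lit 438) (nat_lit 5) (nat_lit 444) (nat_lit 425) (nat_lit 271)) (XT.nd (nat_lit 78) (nat_lit 0) (nat_lit 0) (XT.lf (nat_lit 0) (nat_lit 7990006901) (nat_lit 1672) (nat_lit 1848872610) (nat_lit 1748) (nat_lit 2687112758) (nat_lit 416) (nat_lit 5) (nat_lit 438) (nat_lit 5) (nat_lit 439) (nat_lit 5) (nat_lit 445) (nat_lit 425) (nat_lit 270)) (XT.lf (nat_lit 76) (nat_lit 4539793012) (nat_lit 0) (nat_lit 4701207162) (nat_lit 1748) (nat_lit 3411390055) (nat_lit 417) (nat_lit 5) (nat_lit 416) (nat_lit 5) (nat_lit 439) (nat_lit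 5) (nat_lit 446) (nat_lit 425) (nat_lit 269))))))) (XT.nd (nat_lit 780) (nat_lit 4864) (nat_lit 0) (XT.nd (nat_lit 390) (nat_lit 3572) (nat_lit 0) (XT.nd (nat_lit 156) (nat_lit 1748) (nat_lit 0) (XT.nd (nat_lit 78) (nat_lit 0) (nat_lit 0) (XT.lf (nat_lit 0) (nat_lit 10521493149) (nat_lit 1672) (nat_lit 1712685661) (nat_lit 1748) (nat_lit 547053597) (nat_lit 417) (nat_lit 5) (nat_lit 439) (nat_lit 5) (nat_lit 440) (nat_lit 5) (nat_lit 447) (nat_lit 425) (nat_lit 268)) (XT.lf (nat_lit 76) (nat_lit 4838401291) (nat_lit 0) (nat_lit 7040458110) (nat_lit 1748) (nat_lit 1032772499) (nat_lit 418) (nat_lit 5) (nat_lit 417) (nat_lit 5) (nat_lit 440) (nat_lit 5) (nat_lit 448) (nat_lit 425) (nat_lit 267))) (XT.nd (nat_lit 78) (nat_lit 0) (nat_lit 76) (XT.lf (nat_lit 0) (nat_lit 216232551) (nat_lit 1748) (nat_lit 1511419639) (nat_lit 1824) (nat_lit 11316956957) (nat_lit 394) (nat_lit 5) (nat_lit 417) (nat_lit 5) (nat_lit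 418) (nat_lit 5) (nat_lit 449) (nat_lit 425) (nat_lit 266)) (XT.nd (nat_lit 78) (nat_lit 0) (nat_lit 0) (XT.lf (nat_lit 0) (nat_lit 1523654986) (nat_lit 1748) (nat_lit 7969525153) (nat_lit 76) (nat_lit 3685989353) (nat_lit 395) (nat_lit 5) (nat_lit 418) (nat_lit 5) (nat_lit 396) (nat_lit 5) (nat_lit 450) (nat_lit 425) (nat_lit 265)) (XT.lf (nat_lit 0) (nat_lit 2868063810) (nat_lit 1748) (nat_lit 1251342098) (nat_lit 76) (nat_lit 9196803682) (nat_lit 395) (nat_lit 5) (nat_lit 418) (nat_lit 5) (nat_lit 396) (nat_lit 5) (nat_lit 451) (nat_lit 425) (nat_lit 264))))) (XT.nd (nat_lit 156) (nat_lit 1900) (nat_lit 0) (XT.nd (nat_lit 78) (nat_lit 0) (nat_lit 0) (XT.lf (nat_lit 0) (nat_lit 4274645957) (nat_lit 1824) (nat_lit 7798097800) (nat_lit 76) (nat_lit 1382546231) (nat_lit 372) (nat_lit 5) (nat_lit 396) (nat_lit 5) (nat_lit 373) (nat_lit 5) (nat_lit 452) (nat_lit 425) (nat_lit 263)) (XT.lf (nat_lit 0) (nat_lit 5734651279)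 (nat_lit 1824) (nat_lit 912676702) (nat_lit 76) (nat_lit 6949323280) (nat_lit 372) (nat_lit 5) (nat_lit 396) (nat_lit 5) (nat_lit 373) (nat_lit 5) (nat_lit 453) (nat_lit 425) (nat_lit 262))) (XT.nd (nat_lit 78) (nat_lit 912) (nat_lit 0) (XT.lf (nat_lit 0) (nat_lit 6182502507) (nat_lit 988) (nat_lit 1071257777) (nat_lit 1064) (nat_lit 6486486402) (nat_lit 359) (nat_lit 5) (nat_lit 372) (nat_lit 5) (nat_lit 373) (nat_lit 5) (nat_lit 454) (nat_lit 425) (nat_lit 261)) (XT.nd (nat_lit 78) (nat_lit 912) (nat_lit 0) (XT.lf (nat_lit 0) (nat_lit 8829301267) (nat_lit 1064) (nat_lit 493837083) (nat_lit 76) (nat_lit 4563059574) (nat_lit 359) (nat_lit 5) (nat_lit 373) (nat_lit 5) (nat_lit 360) (nat_lit 5) (nat_lit 455) (nat_lit 425) (nat_lit 260)) (XT.lf (nat_lit 0) (nat_lit 6784220626) (nat_lit 912) (nat_lit 3693384717) (nat_lit 988) (nat_lit 3556642602) (nat_lit 347) (nat_lit 5) (nat_lit 359) (nat_lit 5) (nat_lit 360)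 (nat_lit 5) (nat_lit 456) (nat_lit 425) (nat_lit 259)))))) (XT.nd (nat_lit 390) (nat_lit 2356) (nat_lit 0) (XT.nd (nat_lit 156) (nat_lit 1672) (nat_lit 0) (XT.nd (nat_lit 78) (nat_lit 0) (nat_lit 0) (XT.lf (nat_lit 0) (nat_lit 6951769) (nat_lit 836) (nat_lit 12158859172) (nat_lit 912) (nat_lit 2019314026) (nat_lit 336) (nat_lit 5) (nat_lit 347) (nat_lit 5) (nat_lit 348) (nat_lit 5) (nat_lit 457) (nat_lit 425) (nat_lit 258)) (XT.lf (nat_lit 0) (nat_lit 7473467029) (nat_lit 836) (nat_lit 6477647027) (nat_lit 912) (nat_lit 386643425) (nat_lit 336) (nat_lit 5) (nat_lit 347) (nat_lit 5) (nat_lit 348) (nat_lit 5) (nat_lit 458) (nat_lit 425) (nat_lit 257))) (XT.nd (nat_lit 78) (nat_lit 760) (nat_lit 0) (XT.lf (nat_lit 0) (nat_lit 586208965) (nat_lit 836) (nat_lit 670012532) (nat_lit 912) (nat_lit 13237173325) (nat_lit 324) (nat_lit 5) (nat_lit 335) (nat_lit 5) (nat_lit 336) (nat_lit 5) (nat_lit 459) (nat_lit 425) (nat_lit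 256)) (XT.nd (nat_lit 78) (nat_lit 760) (nat_lit 0) (XT.lf (nat_lit 0) (nat_lit 2997885712) (nat_lit 912) (nat_lit 6418616423) (nat_lit 76) (nat_lit 5234173626) (nat_lit 324) (nat_lit 5) (nat_lit 336) (nat_lit 5) (nat_lit 325) (nat_lit 5) (nat_lit 460) (nat_lit 425) (nat_lit 255)) (XT.lf (nat_lit 0) (nat_lit 1222316348) (nat_lit 760) (nat_lit 3555259008) (nat_lit 836) (nat_lit 10033467388) (nat_lit 314) (nat_lit 5) (nat_lit 324) (nat_lit 5) (nat_lit 325) (nat_lit 5) (nat_lit 461) (nat_lit 425) (nat_lit 254))))) (XT.nd (nat_lit 234) (nat_lit 1596) (nat_lit 0) (XT.nd (nat_lit 78) (nat_lit 760) (nat_lit 0) (XT.lf (nat_lit 0) (nat_lit 6642891020) (nat_lit 836) (nat_lit 5895828817) (nat_lit 76) (nat_lit 2434900767) (nat_lit 314) (nat_lit 5) (nat_lit 325) (nat_lit 5) (nat_lit 315) (nat_lit 5) (nat_lit 462) (nat_lit 425) (nat_lit 253)) (XT.nd (nat_lit 78) (nat_lit 0) (nat_lit 0) (XT.lf (nat_lit 0) (nat_lit 1943927221)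 (nat_lit 760) (nat_lit 6628871023) (nat_lit 836) (nat_lit 6566110172) (nat_lit 304) (nat_lit 5) (nat_lit 314) (nat_lit 5) (nat_lit 315) (nat_lit 5) (nat_lit 463) (nat_lit 425) (nat_lit 252)) (XT.lf (nat_lit 0) (nat_lit 10011507085) (nat_lit 760) (nat_lit 560596270) (nat_lit 836) (nat_lit 4734786654) (nat_lit 304) (nat_lit 5) (nat_lit 314) (nat_lit 5) (nat_lit 315) (nat_lit 5) (nat_lit 464) (nat_lit 425) (nat_lit 251)))) (XT.nd (nat_lit 78) (nat_lit 836) (nat_lit 0) (XT.lf (nat_lit 0) (nat_lit 2752872781) (nat_lit 760) (nat_lit 9904349426) (nat_lit 836) (nat_lit 2820096416) (nat_lit 294) (nat_lit 5) (nat_lit 304) (nat_lit 5) (nat_lit 305) (nat_lit 5) (nat_lit 465) (nat_lit 425) (nat_lit 250)) (XT.nd (nat_lit 78) (nat_lit 836) (nat_lit 0) (XT.lf (nat_lit 0) (nat_lit 11021279049) (nat_lit 760) (nat_lit 3793505149) (nat_lit 836) (nat_lit 835760660) (nat_lit 294) (nat_lit 5) (nat_lit 304) (nat_lit 5) (nat_lit 305)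 (nat_lit 5) (nat_lit 466) (nat_lit 425) (nat_lit 249)) (XT.lf (nat_lit 0) (nat_lit 1204106661) (nat_lit 836) (nat_lit 12183501696) (nat_lit 76) (nat_lit 2438848092) (nat_lit 283) (nat_lit 5) (nat_lit 294) (nat_lit 5) (nat_lit 284) (nat_lit 5) (nat_lit 467) (nat_lit 425) (nat_lit 248))))))))
noncomputable def xc205 : XT := (XT.nd (nat_lit 1638) (nat_lit 2508) (nat_lit 0) (XT.nd (nat_lit 780) (nat_lit 3572) (nat_lit 0) (XT.nd (nat_lit 390) (nat_lit 2052) (nat_lit 0) (XT.nd (nat_lit 156) (nat_lit 684) (nat_lit 0) (XT.nd (nat_lit 78) (nat_lit 684) (nat_lit 0) (XT.lf (nat_lit 0) (nat_lit 3321714062) (nat_lit 836) (nat_lit 3901640560) (nat_lit 76) (nat_lit 8781462132) (nat_lit 283) (nat_lit 5) (nat_lit 294) (nat_lit 5) (nat_lit 284) (nat_lit 5) (nat_lit 468) (nat_lit 425) (nat_lit 247)) (XT.lf (nat_lit 0) (nat_lit 4597445186) (nat_lit 684) (nat_lit 905970265) (nat_lit 760) (nat_lit 10682897547) (nat_lit 274) (nat_lit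 5) (nat_lit 283) (nat_lit 5) (nat_lit 284) (nat_lit 5) (nat_lit 469) (nat_lit 425) (nat_lit 246))) (XT.nd (nat_lit 78) (nat_lit 684) (nat_lit 0) (XT.lf (nat_lit 0) (nat_lit 7783051925) (nat_lit 760) (nat_lit 3096454367) (nat_lit 76) (nat_lit 5490850353) (nat_lit 274) (nat_lit 5) (nat_lit 284) (nat_lit 5) (nat_lit 275) (nat_lit 5) (nat_lit 470) (nat_lit 425) (nat_lit 245)) (XT.nd (nat_lit 78) (nat_lit 0) (nat_lit 0) (XT.lf (nat_lit 0) (nat_lit 5624941388) (nat_lit 684) (nat_lit 4518008219) (nat_lit 760) (nat_lit 6414441619) (nat_lit 265) (nat_lit 5) (nat_lit 274) (nat_lit 5) (nat_lit 275) (nat_lit 5) (nat_lit 471) (nat_lit 425) (nat_lit 244)) (XT.lf (nat_lit 0) (nat_lit 12575997611) (nat_lit 760) (nat_lit 2206679951) (nat_lit 76) (nat_lit 1964973253) (nat_lit 265) (nat_lit 5) (nat_lit 275) (nat_lit 5) (nat_lit 266) (nat_lit 5) (nat_lit 472) (nat_lit 425) (nat_lit 243))))) (XT.nd (nat_lit 156) (nat_lit 1292) (nat_lit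 0) (XT.nd (nat_lit 78) (nat_lit 76) (nat_lit 0) (XT.lf (nat_lit 0) (nat_lit 6743564563) (nat_lit 684) (nat_lit 8380239133) (nat_lit 760) (nat_lit 1816593255) (nat_lit 256) (nat_lit 5) (nat_lit 265) (nat_lit 5) (nat_lit 266) (nat_lit 5) (nat_lit 473) (nat_lit 425) (nat_lit 242)) (XT.lf (nat_lit 0) (nat_lit 585227938) (nat_lit 760) (nat_lit 1246486347) (nat_lit 76) (nat_lit 15305064059) (nat_lit 255) (nat_lit 5) (nat_lit 265) (nat_lit 5) (nat_lit 256) (nat_lit 5) (nat_lit 474) (nat_lit 425) (nat_lit 241))) (XT.nd (nat_lit 78) (nat_lit 608) (nat_lit 0) (XT.lf (nat_lit 0) (nat_lit 3086983161) (nat_lit 760) (nat_lit 9400972802) (nat_lit 76) (nat_lit 4847369920) (nat_lit 246) (nat_lit 5) (nat_lit 256) (nat_lit 5) (nat_lit 247) (nat_lit 5) (nat_lit 475) (nat_lit 425) (nat_lit 240)) (XT.nd (nat_lit 78) (nat_lit 608) (nat_lit 0) (XT.lf (nat_lit 0) (nat_lit 5651990321) (nat_lit 760) (nat_lit 242686246) (nat_lit 76) (nat_lit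 11642906516) (nat_lit 246) (nat_lit 5) (nat_lit 256) (nat_lit 5) (nat_lit 247) (nat_lit 5) (nat_lit 476) (nat_lit 425) (nat_lit 239)) (XT.lf (nat_lit 0) (nat_lit 8326693419) (nat_lit 684) (nat_lit 8537405509) (nat_lit 76) (nat_lit 878621570) (nat_lit 238) (nat_lit 5) (nat_lit 247) (nat_lit 5) (nat_lit 239) (nat_lit 5) (nat_lit 477) (nat_lit 425) (nat_lit 238)))))) (XT.nd (nat_lit 390) (nat_lit 1672) (nat_lit 0) (XT.nd (nat_lit 156) (nat_lit 1292) (nat_lit 0) (XT.nd (nat_lit 78) (nat_lit 0) (nat_lit 0) (XT.lf (nat_lit 0) (nat_lit 857390402) (nat_lit 608) (nat_lit 10236633182) (nat_lit 684) (nat_lit 6857157346) (nat_lit 230) (nat_lit 5) (nat_lit 238) (nat_lit 5) (nat_lit 239) (nat_lit 5) (nat_lit 478) (nat_lit 425) (nat_lit 237)) (XT.lf (nat_lit 0) (nat_lit 10547420679) (nat_lit 608) (nat_lit 3419544448) (nat_lit 684) (nat_lit 4195843018) (nat_lit 230) (nat_lit 5) (nat_lit 238) (nat_lit 5) (nat_lit 239) (nat_lit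 5) (nat_lit 479) (nat_lit 425) (nat_lit 236))) (XT.nd (nat_lit 78) (nat_lit 684) (nat_lit 0) (XT.lf (nat_lit 0) (nat_lit 2048145362) (nat_lit 608) (nat_lit 14878565765) (nat_lit 684) (nat_lit 1451372679) (nat_lit 222) (nat_lit 5) (nat_lit 230) (nat_lit 5) (nat_lit 231) (nat_lit 5) (nat_lit 480) (nat_lit 425) (nat_lit 235)) (XT.nd (nat_lit 78) (nat_lit 608) (nat_lit 0) (XT.lf (nat_lit 0) (nat_lit 1397532504) (nat_lit 684) (nat_lit 6628596631) (nat_lit 76) (nat_lit 10570019021) (nat_lit 221) (nat_lit 5) (nat_lit 230) (nat_lit 5) (nat_lit 222) (nat_lit 5) (nat_lit 481) (nat_lit 425) (nat_lit 234)) (XT.lf (nat_lit 0) (nat_lit 3292106757) (nat_lit 608) (nat_lit 1006539284) (nat_lit 684) (nat_lit 14519445249) (nat_lit 213) (nat_lit 5) (nat_lit 221) (nat_lit 5) (nat_lit 222) (nat_lit 5) (nat_lit 482) (nat_lit 425) (nat_lit 233))))) (XT.nd (nat_lit 234) (nat_lit 1140) (nat_lit 0) (XT.nd (nat_lit 78) (nat_lit 532) (nat_lit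 0) (XT.lf (nat_lit 0) (nat_lit 7335850393) (nat_lit 684) (nat_lit 5591055517) (nat_lit 76) (nat_lit 6116008606) (nat_lit 213) (nat_lit 5) (nat_lit 222) (nat_lit 5) (nat_lit 214) (nat_lit 5) (nat_lit 483) (nat_lit 425) (nat_lit 232)) (XT.nd (nat_lit 78) (nat_lit 0) (nat_lit 0) (XT.lf (nat_lit 0) (nat_lit 4587939045) (nat_lit 532) (nat_lit 5875784497) (nat_lit 608) (nat_lit 8807914719) (nat_lit 206) (nat_lit 5) (nat_lit 213) (nat_lit 5) (nat_lit 214) (nat_lit 5) (nat_lit 484) (nat_lit 425) (nat_lit 231)) (XT.lf (nat_lit 0) (nat_lit 13694004102) (nat_lit 608) (nat_lit 4474885812) (nat_lit 76) (nat_lit 1335252068) (nat_lit 206) (nat_lit 5) (nat_lit 214) (nat_lit 5) (nat_lit 207) (nat_lit 5) (nat_lit 485) (nat_lit 425) (nat_lit 230)))) (XT.nd (nat_lit 78) (nat_lit 608) (nat_lit 0) (XT.lf (nat_lit 0) (nat_lit 5969436231) (nat_lit 532) (nat_lit 11090786685) (nat_lit 608) (nat_lit 2679648659) (nat_lit 199) (nat_lit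 5) (nat_lit 206) (nat_lit 5) (nat_lit 207) (nat_lit 5) (nat_lit 486) (nat_lit 425) (nat_lit 229)) (XT.nd (nat_lit 78) (nat_lit 532) (nat_lit 0) (XT.lf (nat_lit 0) (nat_lit 530635190) (nat_lit 608) (nat_lit 3308023386) (nat_lit 76) (nat_lit 16141114488) (nat_lit 198) (nat_lit 5) (nat_lit 206) (nat_lit 5) (nat_lit 199) (nat_lit 5) (nat_lit 487) (nat_lit 425) (nat_lit 228)) (XT.lf (nat_lit 0) (nat_lit 3834898906) (nat_lit 608) (nat_lit 12811320024) (nat_lit 76) (nat_lit 3576588619) (nat_lit 191) (nat_lit 5) (nat_lit 199) (nat_lit 5) (nat_lit 192) (nat_lit 5) (nat_lit 488) (nat_lit 425) (nat_lit 227))))))) (XT.nd (nat_lit 54444) (nat_lit 0) (nat_lit 20672) (XT.nd (nat_lit 390) (nat_lit 912) (nat_lit 0) (XT.nd (nat_lit 156) (nat_lit 1064) (nat_lit 0) (XT.nd (nat_lit 78) (nat_lit 532) (nat_lit 0) (XT.lf (nat_lit 0) (nat_lit 7246888711) (nat_lit 608) (nat_lit 2113578873) (nat_lit 76) (nat_lit 11109404587) (nat_lit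 191) (nat_lit 5) (nat_lit 199) (nat_lit 5) (nat_lit 192) (nat_lit 5) (nat_lit 489) (nat_lit 425) (nat_lit 226)) (XT.lf (nat_lit 0) (nat_lit 8907110638) (nat_lit 532) (nat_lit 1871832312) (nat_lit 608) (nat_lit 9941900862) (nat_lit 184) (nat_lit 5) (nat_lit 191) (nat_lit 5) (nat_lit 192) (nat_lit 5) (nat_lit 490) (nat_lit 425) (nat_lit 225))) (XT.nd (nat_lit 78) (nat_lit 1064) (nat_lit 0) (XT.lf (nat_lit 0) (nat_lit 14427405025) (nat_lit 608) (nat_lit 845103910) (nat_lit 76) (nat_lit 5703412793) (nat_lit 184) (nat_lit 5) (nat_lit 192) (nat_lit 5) (nat_lit 185) (nat_lit 5) (nat_lit 491) (nat_lit 425) (nat_lit 224)) (XT.nd (nat_lit 78) (nat_lit 608) (nat_lit 0) (XT.lf (nat_lit 0) (nat_lit 10459958104) (nat_lit 456) (nat_lit 7763353304) (nat_lit 532) (nat_lit 3011302424) (nat_lit 178) (nat_lit 5) (nat_lit 184) (nat_lit 5) (nat_lit 185) (nat_lit 5) (nat_lit 492) (nat_lit 425) (nat_lit 223)) (XT.lf (nat_lit 0) (nat_lit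 499088552) (nat_lit 532) (nat_lit 92881519) (nat_lit 608) (nat_lit 20906371497) (nat_lit 170) (nat_lit 5) (nat_lit 177) (nat_lit 5) (nat_lit 178) (nat_lit 5) (nat_lit 493) (nat_lit 425) (nat_lit 222))))) (XT.nd (nat_lit 156) (nat_lit 456) (nat_lit 0) (XT.nd (nat_lit 78) (nat_lit 456) (nat_lit 0) (XT.lf (nat_lit 0) (nat_lit 4344242880) (nat_lit 608) (nat_lit 9699962212) (nat_lit 76) (nat_lit 7720397558) (nat_lit 170) (nat_lit 5) (nat_lit 178) (nat_lit 5) (nat_lit 171) (nat_lit 5) (nat_lit 494) (nat_lit 425) (nat_lit 221)) (XT.lf (nat_lit 0) (nat_lit 1841190542) (nat_lit 456) (nat_lit 6337294150) (nat_lit 532) (nat_lit 13857567761) (nat_lit 164) (nat_lit 5) (nat_lit 170) (nat_lit 5) (nat_lit 171) (nat_lit 5) (nat_lit 495) (nat_lit 425) (nat_lit 220))) (XT.nd (nat_lit 78) (nat_lit 456) (nat_lit 0) (XT.lf (nat_lit 0) (nat_lit 12159229893) (nat_lit 532) (nat_lit 8585008253) (nat_lit 76) (nat_lit 1567298667) (nat_lit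 164) (nat_lit 5) (nat_lit 171) (nat_lit 5) (nat_lit 165) (nat_lit 5) (nat_lit 496) (nat_lit 425) (nat_lit 219)) (XT.nd (nat_lit 78) (nat_lit 0) (nat_lit 0) (XT.lf (nat_lit 0) (nat_lit 3250144552) (nat_lit 456) (nat_lit 13027028535) (nat_lit 532) (nat_lit 6314208006) (nat_lit 158) (nat_lit 5) (nat_lit 164) (nat_lit 5) (nat_lit 165) (nat_lit 5) (nat_lit 497) (nat_lit 425) (nat_lit 218)) (XT.lf (nat_lit 0) (nat_lit 15430866843) (nat_lit 456) (nat_lit 5098789257) (nat_lit 532) (nat_lit 2346124396) (nat_lit 158) (nat_lit 5) (nat_lit 164) (nat_lit 5) (nat_lit 165) (nat_lit 5) (nat_lit 498) (nat_lit 425) (nat_lit 217)))))) (XT.nd (nat_lit 390) (nat_lit 0) (nat_lit 76) (XT.nd (nat_lit 156) (nat_lit 0) (nat_lit 0) (XT.nd (nat_lit 78) (nat_lit 0) (nat_lit 0) (XT.lf (nat_lit 0) (nat_lit 678279100) (nat_lit 0) (nat_lit 678279100) (nat_lit 1596) (nat_lit 3927809802) (nat_lit 430) (nat_lit 5) (nat_lit 430) (nat_lit 3) (nat_lit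 451) (nat_lit 3) (nat_lit 426) (nat_lit 426) (nat_lit 288)) (XT.lf (nat_lit 0) (nat_lit 3370257261) (nat_lit 1596) (nat_lit 4261041880) (nat_lit 1672) (nat_lit 3030198782) (nat_lit 430) (nat_lit 5) (nat_lit 451) (nat_lit 3) (nat_lit 452) (nat_lit 5) (nat_lit 427) (nat_lit 426) (nat_lit 287))) (XT.nd (nat_lit 78) (nat_lit 0) (nat_lit 76) (XT.lf (nat_lit 76) (nat_lit 782007338) (nat_lit 0) (nat_lit 3256644223) (nat_lit 1672) (nat_lit 6717509838) (nat_lit 431) (nat_lit 5) (nat_lit 430) (nat_lit 5) (nat_lit 452) (nat_lit 5) (nat_lit 428) (nat_lit 426) (nat_lit 286)) (XT.nd (nat_lit 78) (nat_lit 0) (nat_lit 0) (XT.lf (nat_lit 0) (nat_lit 4741379872) (nat_lit 1596) (nat_lit 4885182114) (nat_lit 1672) (nat_lit 1225745199) (nat_lit 431) (nat_lit 5) (nat_lit 452) (nat_lit 5) (nat_lit 453) (nat_lit 5) (nat_lit 429) (nat_lit 426) (nat_lit 285)) (XT.lf (nat_lit 76) (nat_lit 279136904) (nat_lit 0) (nat_lit 5187068109) (nat_lit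 1672) (nat_lit 5484018229) (nat_lit 432) (nat_lit 5) (nat_lit 431) (nat_lit 5) (nat_lit 453) (nat_lit 5) (nat_lit 430) (nat_lit 426) (nat_lit 284))))) (XT.nd (nat_lit 234) (nat_lit 0) (nat_lit 152) (XT.nd (nat_lit 78) (nat_lit 0) (nat_lit 76) (XT.lf (nat_lit 76) (nat_lit 5604492208) (nat_lit 0) (nat_lit 618725072) (nat_lit 1672) (nat_lit 4826534566) (nat_lit 432) (nat_lit 5) (nat_lit 431) (nat_lit 5) (nat_lit 453) (nat_lit 5) (nat_lit 431) (nat_lit 426) (nat_lit 283)) (XT.nd (nat_lit 78) (nat_lit 0) (nat_lit 0) (XT.lf (nat_lit 0) (nat_lit 7006853087) (nat_lit 1596) (nat_lit 149803047) (nat_lit 1672) (nat_lit 3994393105) (nat_lit 432) (nat_lit 5) (nat_lit 453) (nat_lit 5) (nat_lit 454) (nat_lit 5) (nat_lit 432) (nat_lit 426) (nat_lit 282)) (XT.lf (nat_lit 76) (nat_lit 5308608229) (nat_lit 0) (nat_lit 2521653727) (nat_lit 1672) (nat_lit 3423636343) (nat_lit 433) (nat_lit 5) (nat_lit 432) (nat_lit 5) (nat_lit 454)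 (nat_lit 5) (nat_lit 433) (nat_lit 426) (nat_lit 281)))) (XT.nd (nat_lit 78) (nat_lit 0) (nat_lit 0) (XT.lf (nat_lit 0) (nat_lit 8671276515) (nat_lit 1596) (nat_lit 503650174) (nat_lit 1672) (nat_lit 2183862478) (nat_lit 433) (nat_lit 5) (nat_lit 454) (nat_lit 5) (nat_lit 455) (nat_lit 5) (nat_lit 434) (nat_lit 426) (nat_lit 280)) (XT.nd (nat_lit 78) (nat_lit 0) (nat_lit 76) (XT.lf (nat_lit 76) (nat_lit 5088273609) (nat_lit 0) (nat_lit 4476654744) (nat_lit 1672) (nat_lit 1900140586) (nat_lit 434) (nat_lit 5) (nat_lit 433) (nat_lit 5) (nat_lit 455) (nat_lit 5) (nat_lit 435) (nat_lit 426) (nat_lit 279)) (XT.lf (nat_lit 0) (nat_lit 10468236355) (nat_lit 1596) (nat_lit 785456377) (nat_lit 1672) (nat_lit 319953192) (nat_lit 434) (nat_lit 5) (nat_lit 455) (nat_lit 5) (nat_lit 456) (nat_lit 5) (nat_lit 436) (nat_lit 426) (nat_lit 278))))))))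
noncomputable def xc206 : XT := (XT.nd (nat_lit 1638) (nat_lit 8284) (nat_lit 0) (XT.nd (nat_lit 780) (nat_lit 4940) (nat_lit 0) (XT.nd (nat_lit 390) (nat_lit 0) (nat_lit 152) (XT.nd (nat_lit 156) (nat_lit 0) (nat_lit 76) (XT.nd (nat_lit 78) (nat_lit 1672) (nat_lit 0) (XT.lf (nat_lit 76) (nat_lit 4944239290) (nat_lit 0) (nat_lit 6493719242) (nat_lit 1672) (nat_lit 245476097) (nat_lit 435) (nat_lit 5) (nat_lit 434) (nat_lit 5) (nat_lit 456) (nat_lit 5) (nat_lit 437) (nat_lit 426) (nat_lit 277)) (XT.lf (nat_lit 0) (nat_lit 615390067) (nat_lit 1672) (nat_lit 1009068137) (nat_lit 1748) (nat_lit 10171045375) (nat_lit 412) (nat_lit 5) (nat_lit 434) (nat_lit 5) (nat_lit 435) (nat_lit 5) (nat_lit 438) (nat_lit 426) (nat_lit 276))) (XT.nd (nat_lit 78) (nat_lit 0) (nat_lit 0) (XT.lf (nat_lit 0) (nat_lit 1530858265) (nat_lit 1672) (nat_lit 7041821807) (nat_lit 1748) (nat_lit 3336294680) (nat_lit 413) (nat_lit 5) (nat_lit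 435) (nat_lit 5) (nat_lit 436) (nat_lit 5) (nat_lit 439) (nat_lit 426) (nat_lit 275)) (XT.nd (nat_lit 78) (nat_lit 0) (nat_lit 76) (XT.lf (nat_lit 0) (nat_lit 2469410650) (nat_lit 1672) (nat_lit 1169662127) (nat_lit 1748) (nat_lit 8385553670) (nat_lit 413) (nat_lit 5) (nat_lit 435) (nat_lit 5) (nat_lit 436) (nat_lit 5) (nat_lit 440) (nat_lit 426) (nat_lit 274)) (XT.lf (nat_lit 0) (nat_lit 3455119012) (nat_lit 1672) (nat_lit 7276298407) (nat_lit 1748) (nat_lit 1410612523) (nat_lit 414) (nat_lit 5) (nat_lit 436) (nat_lit 5) (nat_lit 437) (nat_lit 5) (nat_lit 441) (nat_lit 426) (nat_lit 273))))) (XT.nd (nat_lit 156) (nat_lit 0) (nat_lit 76) (XT.nd (nat_lit 78) (nat_lit 0) (nat_lit 0) (XT.lf (nat_lit 0) (nat_lit 4480208244) (nat_lit 1672) (nat_lit 1256991149) (nat_lit 1748) (nat_lit 6524195120) (nat_lit 414) (nat_lit 5) (nat_lit 436) (nat_lit 5) (nat_lit 437) (nat_lit 5) (nat_lit 442) (nat_lit 426) (nat_lit 272))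 (XT.lf (nat_lit 76) (nat_lit 4938746395) (nat_lit 0) (nat_lit 607026182) (nat_lit 1748) (nat_lit 6836980545) (nat_lit 415) (nat_lit 5) (nat_lit 414) (nat_lit 5) (nat_lit 437) (nat_lit 5) (nat_lit 443) (nat_lit 426) (nat_lit 271))) (XT.nd (nat_lit 78) (nat_lit 0) (nat_lit 0) (XT.lf (nat_lit 0) (nat_lit 6659282117) (nat_lit 1672) (nat_lit 1269958312) (nat_lit 1748) (nat_lit 4576771890) (nat_lit 415) (nat_lit 5) (nat_lit 437) (nat_lit 5) (nat_lit 438) (nat_lit 5) (nat_lit 444) (nat_lit 426) (nat_lit 270)) (XT.nd (nat_lit 78) (nat_lit 0) (nat_lit 76) (XT.lf (nat_lit 76) (nat_lit 5081433828) (nat_lit 0) (nat_lit 2738982791) (nat_lit 1748) (nat_lit 4810818959) (nat_lit 416) (nat_lit 5) (nat_lit 415) (nat_lit 5) (nat_lit 438) (nat_lit 5) (nat_lit 445) (nat_lit 426) (nat_lit 269)) (XT.lf (nat_lit 0) (nat_lit 9018474429) (nat_lit 1672) (nat_lit 1207327246) (nat_lit 1748) (nat_lit 2532893470) (nat_lit 416) (nat_lit 5)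 (nat_lit 438) (nat_lit 5) (nat_lit 439) (nat_lit 5) (nat_lit 446) (nat_lit 426) (nat_lit 268)))))) (XT.nd (nat_lit 390) (nat_lit 3572) (nat_lit 0) (XT.nd (nat_lit 156) (nat_lit 1672) (nat_lit 0) (XT.nd (nat_lit 78) (nat_lit 0) (nat_lit 76) (XT.lf (nat_lit 76) (nat_lit 5304647723) (nat_lit 0) (nat_lit 4977183588) (nat_lit 1748) (nat_lit 2606051576) (nat_lit 417) (nat_lit 5) (nat_lit 416) (nat_lit 5) (nat_lit 439) (nat_lit 5) (nat_lit 447) (nat_lit 426) (nat_lit 267)) (XT.lf (nat_lit 0) (nat_lit 11569991422) (nat_lit 1672) (nat_lit 1067728245) (nat_lit 1748) (nat_lit 381949624) (nat_lit 417) (nat_lit 5) (nat_lit 439) (nat_lit 5) (nat_lit 440) (nat_lit 5) (nat_lit 448) (nat_lit 426) (nat_lit 266))) (XT.nd (nat_lit 78) (nat_lit 1748) (nat_lit 0) (XT.lf (nat_lit 76) (nat_lit 5609911952) (nat_lit 0) (nat_lit 7332541211) (nat_lit 1748) (nat_lit 210473009) (nat_lit 418) (nat_lit 5) (nat_lit 417) (nat_lit 5) (nat_lit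 440) (nat_lit 5) (nat_lit 449) (nat_lit 426) (nat_lit 265)) (XT.nd (nat_lit 78) (nat_lit 0) (nat_lit 76) (XT.lf (nat_lit 0) (nat_lit 1036144882) (nat_lit 1748) (nat_lit 868895111) (nat_lit 1824) (nat_lit 11383747780) (nat_lit 394) (nat_lit 5) (nat_lit 417) (nat_lit 5) (nat_lit 418) (nat_lit 5) (nat_lit 450) (nat_lit 426) (nat_lit 264)) (XT.lf (nat_lit 0) (nat_lit 2357182615) (nat_lit 1748) (nat_lit 7443235661) (nat_lit 76) (nat_lit 3625879592) (nat_lit 395) (nat_lit 5) (nat_lit 418) (nat_lit 5) (nat_lit 396) (nat_lit 5) (nat_lit 451) (nat_lit 426) (nat_lit 263))))) (XT.nd (nat_lit 234) (nat_lit 1900) (nat_lit 0) (XT.nd (nat_lit 78) (nat_lit 1748) (nat_lit 0) (XT.lf (nat_lit 0) (nat_lit 3712733449) (nat_lit 1748) (nat_lit 604133651) (nat_lit 76) (nat_lit 9249534316) (nat_lit 395) (nat_lit 5) (nat_lit 418) (nat_lit 5) (nat_lit 396) (nat_lit 5) (nat_lit 452) (nat_lit 426) (nat_lit 262)) (XT.nd (nat_lit 78) (nat_lit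 0) (nat_lit 0) (XT.lf (nat_lit 0) (nat_lit 5135641936) (nat_lit 1824) (nat_lit 7269640537) (nat_lit 76) (nat_lit 1303224627) (nat_lit 372) (nat_lit 5) (nat_lit 396) (nat_lit 5) (nat_lit 373) (nat_lit 5) (nat_lit 453) (nat_lit 426) (nat_lit 261)) (XT.lf (nat_lit 0) (nat_lit 6609641422) (nat_lit 1824) (nat_lit 259931001) (nat_lit 76) (nat_lit 6983434718) (nat_lit 372) (nat_lit 5) (nat_lit 396) (nat_lit 5) (nat_lit 373) (nat_lit 5) (nat_lit 454) (nat_lit 426) (nat_lit 260)))) (XT.nd (nat_lit 78) (nat_lit 912) (nat_lit 0) (XT.lf (nat_lit 0) (nat_lit 6972737323) (nat_lit 988) (nat_lit 1175815407) (nat_lit 1064) (nat_lit 5851140620) (nat_lit 359) (nat_lit 5) (nat_lit 372) (nat_lit 5) (nat_lit 373) (nat_lit 5) (nat_lit 455) (nat_lit 426) (nat_lit 259)) (XT.nd (nat_lit 78) (nat_lit 0) (nat_lit 0) (XT.lf (nat_lit 0) (nat_lit 167584851) (nat_lit 912) (nat_lit 9573878248) (nat_lit 988) (nat_lit 4407390478) (nat_lit 347)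 (nat_lit 5) (nat_lit 359) (nat_lit 5) (nat_lit 360) (nat_lit 5) (nat_lit 456) (nat_lit 426) (nat_lit 258)) (XT.lf (nat_lit 0) (nat_lit 7584603831) (nat_lit 912) (nat_lit 3826955299) (nat_lit 988) (nat_lit 2888535947) (nat_lit 347) (nat_lit 5) (nat_lit 359) (nat_lit 5) (nat_lit 360) (nat_lit 5) (nat_lit 457) (nat_lit 426) (nat_lit 257))))))) (XT.nd (nat_lit 780) (nat_lit 4256) (nat_lit 0) (XT.nd (nat_lit 390) (nat_lit 1520) (nat_lit 0) (XT.nd (nat_lit 156) (nat_lit 1596) (nat_lit 0) (XT.nd (nat_lit 78) (nat_lit 76) (nat_lit 0) (XT.lf (nat_lit 0) (nat_lit 682541869) (nat_lit 836) (nat_lit 12440788464) (nat_lit 912) (nat_lit 1330870137) (nat_lit 336) (nat_lit 5) (nat_lit 347) (nat_lit 5) (nat_lit 348) (nat_lit 5) (nat_lit 458) (nat_lit 426) (nat_lit 256)) (XT.lf (nat_lit 0) (nat_lit 315964091) (nat_lit 912) (nat_lit 6327107854) (nat_lit 76) (nat_lit 7967058918) (nat_lit 335) (nat_lit 5) (nat_lit 347) (nat_lit 5)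 (nat_lit 336) (nat_lit 5) (nat_lit 459) (nat_lit 426) (nat_lit 255))) (XT.nd (nat_lit 78) (nat_lit 760) (nat_lit 0) (XT.lf (nat_lit 0) (nat_lit 1265420553) (nat_lit 836) (nat_lit 711600389) (nat_lit 912) (nat_lit 12792005121) (nat_lit 324) (nat_lit 5) (nat_lit 335) (nat_lit 5) (nat_lit 336) (nat_lit 5) (nat_lit 460) (nat_lit 426) (nat_lit 254)) (XT.nd (nat_lit 78) (nat_lit 760) (nat_lit 0) (XT.lf (nat_lit 0) (nat_lit 3739698331) (nat_lit 912) (nat_lit 5878452402) (nat_lit 76) (nat_lit 5311584627) (nat_lit 324) (nat_lit 5) (nat_lit 336) (nat_lit 5) (nat_lit 325) (nat_lit 5) (nat_lit 461) (nat_lit 426) (nat_lit 253)) (XT.lf (nat_lit 0) (nat_lit 1910900759) (nat_lit 760) (nat_lit 3635023329) (nat_lit 836) (nat_lit 9547572960) (nat_lit 314) (nat_lit 5) (nat_lit 324) (nat_lit 5) (nat_lit 325) (nat_lit 5) (nat_lit 462) (nat_lit 426) (nat_lit 252))))) (XT.nd (nat_lit 156) (nat_lit 760) (nat_lit 0) (XT.nd (nat_lit 78)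 (nat_lit 760) (nat_lit 0) (XT.lf (nat_lit 0) (nat_lit 7435298845) (nat_lit 836) (nat_lit 5349077888) (nat_lit 76) (nat_lit 2475220767) (nat_lit 314) (nat_lit 5) (nat_lit 325) (nat_lit 5) (nat_lit 315) (nat_lit 5) (nat_lit 463) (nat_lit 426) (nat_lit 251)) (XT.lf (nat_lit 0) (nat_lit 2643100458) (nat_lit 760) (nat_lit 6752058473) (nat_lit 836) (nat_lit 6033211014) (nat_lit 304) (nat_lit 5) (nat_lit 314) (nat_lit 5) (nat_lit 315) (nat_lit 5) (nat_lit 464) (nat_lit 426) (nat_lit 250))) (XT.nd (nat_lit 78) (nat_lit 760) (nat_lit 0) (XT.lf (nat_lit 0) (nat_lit 10859084965) (nat_lit 760) (nat_lit 562602343) (nat_lit 836) (nat_lit 4178284973) (nat_lit 304) (nat_lit 5) (nat_lit 314) (nat_lit 5) (nat_lit 315) (nat_lit 5) (nat_lit 465) (nat_lit 426) (nat_lit 249)) (XT.nd (nat_lit 78) (nat_lit 0) (nat_lit 0) (XT.lf (nat_lit 0) (nat_lit 3463929368) (nat_lit 760) (nat_lit 10076384362) (nat_lit 836) (nat_lit 2233665371) (nat_lit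 294) (nat_lit 5) (nat_lit 304) (nat_lit 5) (nat_lit 305) (nat_lit 5) (nat_lit 466) (nat_lit 426) (nat_lit 248)) (XT.lf (nat_lit 0) (nat_lit 11884841033) (nat_lit 760) (nat_lit 3843834024) (nat_lit 836) (nat_lit 222247469) (nat_lit 294) (nat_lit 5) (nat_lit 304) (nat_lit 5) (nat_lit 305) (nat_lit 5) (nat_lit 467) (nat_lit 426) (nat_lit 247)))))) (XT.nd (nat_lit 390) (nat_lit 2052) (nat_lit 0) (XT.nd (nat_lit 156) (nat_lit 1368) (nat_lit 0) (XT.nd (nat_lit 78) (nat_lit 0) (nat_lit 0) (XT.lf (nat_lit 0) (nat_lit 1842376561) (nat_lit 836) (nat_lit 11767448478) (nat_lit 76) (nat_lit 2520606383) (nat_lit 283) (nat_lit 5) (nat_lit 294) (nat_lit 5) (nat_lit 284) (nat_lit 5) (nat_lit 468) (nat_lit 426) (nat_lit 246)) (XT.lf (nat_lit 0) (nat_lit 3990293213) (nat_lit 836) (nat_lit 3332885869) (nat_lit 76) (nat_lit 8989426011) (nat_lit 283) (nat_lit 5) (nat_lit 294) (nat_lit 5) (nat_lit 284) (nat_lit 5) (nat_lit 469) (nat_lit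 426) (nat_lit 245))) (XT.nd (nat_lit 78) (nat_lit 684) (nat_lit 0) (XT.lf (nat_lit 0) (nat_lit 5331926411) (nat_lit 684) (nat_lit 876067201) (nat_lit 760) (nat_lit 10289895547) (nat_lit 274) (nat_lit 5) (nat_lit 283) (nat_lit 5) (nat_lit 284) (nat_lit 5) (nat_lit 470) (nat_lit 426) (nat_lit 244)) (XT.nd (nat_lit 78) (nat_lit 684) (nat_lit 0) (XT.lf (nat_lit 0) (nat_lit 8521871440) (nat_lit 760) (nat_lit 2516843625) (nat_lit 76) (nat_lit 5647130738) (nat_lit 274) (nat_lit 5) (nat_lit 284) (nat_lit 5) (nat_lit 275) (nat_lit 5) (nat_lit 471) (nat_lit 426) (nat_lit 243)) (XT.lf (nat_lit 0) (nat_lit 6374759388) (nat_lit 684) (nat_lit 4546911107) (nat_lit 760) (nat_lit 5955101509) (nat_lit 265) (nat_lit 5) (nat_lit 274) (nat_lit 5) (nat_lit 275) (nat_lit 5) (nat_lit 472) (nat_lit 426) (nat_lit 242))))) (XT.nd (nat_lit 234) (nat_lit 1292) (nat_lit 0) (XT.nd (nat_lit 78) (nat_lit 760) (nat_lit 0) (XT.lf (nat_lit 0)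 (nat_lit 13392479247) (nat_lit 760) (nat_lit 1614845709) (nat_lit 76) (nat_lit 2063734731) (nat_lit 265) (nat_lit 5) (nat_lit 275) (nat_lit 5) (nat_lit 266) (nat_lit 5) (nat_lit 473) (nat_lit 426) (nat_lit 241)) (XT.nd (nat_lit 78) (nat_lit 76) (nat_lit 0) (XT.lf (nat_lit 0) (nat_lit 7510219697) (nat_lit 684) (nat_lit 8474046037) (nat_lit 760) (nat_lit 1283539329) (nat_lit 256) (nat_lit 5) (nat_lit 265) (nat_lit 5) (nat_lit 266) (nat_lit 5) (nat_lit 474) (nat_lit 426) (nat_lit 240)) (XT.lf (nat_lit 0) (nat_lit 1147832687) (nat_lit 760) (nat_lit 644468191) (nat_lit 76) (nat_lit 15675964244) (nat_lit 255) (nat_lit 5) (nat_lit 265) (nat_lit 5) (nat_lit 256) (nat_lit 5) (nat_lit 475) (nat_lit 426) (nat_lit 239)))) (XT.nd (nat_lit 78) (nat_lit 608) (nat_lit 0) (XT.lf (nat_lit 0) (nat_lit 3693375683) (nat_lit 760) (nat_lit 8955570784) (nat_lit 76) (nat_lit 5021966618) (nat_lit 246) (nat_lit 5) (nat_lit 256) (nat_lit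 5) (nat_lit 247) (nat_lit 5) (nat_lit 476) (nat_lit 426) (nat_lit 238)) (XT.nd (nat_lit 78) (nat_lit 0) (nat_lit 0) (XT.lf (nat_lit 0) (nat_lit 378424580) (nat_lit 608) (nat_lit 5923035921) (nat_lit 684) (nat_lit 11575923814) (nat_lit 238) (nat_lit 5) (nat_lit 246) (nat_lit 5) (nat_lit 247) (nat_lit 5) (nat_lit 477) (nat_lit 426) (nat_lit 237)) (XT.lf (nat_lit 0) (nat_lit 9021316529) (nat_lit 684) (nat_lit 8081050551) (nat_lit 76) (nat_lit 984428569) (nat_lit 238) (nat_lit 5) (nat_lit 247) (nat_lit 5) (nat_lit 239) (nat_lit 5) (nat_lit 478) (nat_lit 426) (nat_lit 236))))))))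
noncomputable def xc207 : XT := (XT.nd (nat_lit 55380) (nat_lit 0) (nat_lit 19304) (XT.nd (nat_lit 780) (nat_lit 3040) (nat_lit 0) (XT.nd (nat_lit 390) (nat_lit 1140) (nat_lit 0) (XT.nd (nat_lit 156) (nat_lit 1292) (nat_lit 0) (XT.nd (nat_lit 78) (nat_lit 0) (nat_lit 0) (XT.lf (nat_lit 0) (nat_lit 1497515600) (nat_lit 608) (nat_lit 10340167789) (nat_lit 684) (nat_lit 6461872363) (nat_lit 230) (nat_lit 5) (nat_lit 238) (nat_lit 5) (nat_lit 239) (nat_lit 5) (nat_lit 479) (nat_lit 426) (nat_lit 235)) (XT.lf (nat_lit 0) (nat_lit 11369131239) (nat_lit 608) (nat_lit 3388721556) (nat_lit 684) (nat_lit 3757771516) (nat_lit 230) (nat_lit 5) (nat_lit 238) (nat_lit 5) (nat_lit 239) (nat_lit 5) (nat_lit 480) (nat_lit 426) (nat_lit 234))) (XT.nd (nat_lit 78) (nat_lit 684) (nat_lit 0) (XT.lf (nat_lit 0) (nat_lit 2705583633) (nat_lit 608) (nat_lit 15065813820) (nat_lit 684) (nat_lit 963920057) (nat_lit 222) (nat_lit 5) (nat_lit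 230) (nat_lit 5) (nat_lit 231) (nat_lit 5) (nat_lit 481) (nat_lit 426) (nat_lit 233)) (XT.nd (nat_lit 78) (nat_lit 608) (nat_lit 0) (XT.lf (nat_lit 0) (nat_lit 1925195259) (nat_lit 684) (nat_lit 6149943069) (nat_lit 76) (nat_lit 10882741576) (nat_lit 221) (nat_lit 5) (nat_lit 230) (nat_lit 5) (nat_lit 222) (nat_lit 5) (nat_lit 482) (nat_lit 426) (nat_lit 232)) (XT.lf (nat_lit 0) (nat_lit 3965153166) (nat_lit 608) (nat_lit 913321997) (nat_lit 684) (nat_lit 14305907718) (nat_lit 213) (nat_lit 5) (nat_lit 221) (nat_lit 5) (nat_lit 222) (nat_lit 5) (nat_lit 483) (nat_lit 426) (nat_lit 231))))) (XT.nd (nat_lit 156) (nat_lit 608) (nat_lit 0) (XT.nd (nat_lit 78) (nat_lit 532) (nat_lit 0) (XT.lf (nat_lit 0) (nat_lit 7967461648) (nat_lit 684) (nat_lit 5098427041) (nat_lit 76) (nat_lit 6347996908) (nat_lit 213) (nat_lit 5) (nat_lit 222) (nat_lit 5) (nat_lit 214) (nat_lit 5) (nat_lit 484) (nat_lit 426) (nat_lit 230)) (XT.lf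 (nat_lit 0) (nat_lit 5280170770) (nat_lit 532) (nat_lit 5872112428) (nat_lit 608) (nat_lit 8495016513) (nat_lit 206) (nat_lit 5) (nat_lit 213) (nat_lit 5) (nat_lit 214) (nat_lit 5) (nat_lit 485) (nat_lit 426) (nat_lit 229))) (XT.nd (nat_lit 78) (nat_lit 608) (nat_lit 0) (XT.lf (nat_lit 0) (nat_lit 14438543024) (nat_lit 608) (nat_lit 3966876245) (nat_lit 76) (nat_lit 1479210403) (nat_lit 206) (nat_lit 5) (nat_lit 214) (nat_lit 5) (nat_lit 207) (nat_lit 5) (nat_lit 486) (nat_lit 426) (nat_lit 228)) (XT.nd (nat_lit 78) (nat_lit 76) (nat_lit 0) (XT.lf (nat_lit 0) (nat_lit 6682401269) (nat_lit 532) (nat_lit 11184310232) (nat_lit 608) (nat_lit 2258473419) (nat_lit 199) (nat_lit 5) (nat_lit 206) (nat_lit 5) (nat_lit 207) (nat_lit 5) (nat_lit 487) (nat_lit 426) (nat_lit 227)) (XT.lf (nat_lit 0) (nat_lit 1000602347) (nat_lit 608) (nat_lit 2785970236) (nat_lit 76) (nat_lit 16583437377) (nat_lit 198) (nat_lit 5) (nat_lit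 206) (nat_lit 5) (nat_lit 199) (nat_lit 5) (nat_lit 488) (nat_lit 426) (nat_lit 226)))))) (XT.nd (nat_lit 390) (nat_lit 1520) (nat_lit 0) (XT.nd (nat_lit 156) (nat_lit 988) (nat_lit 0) (XT.nd (nat_lit 78) (nat_lit 0) (nat_lit 0) (XT.lf (nat_lit 0) (nat_lit 4366583695) (nat_lit 608) (nat_lit 12474797049) (nat_lit 76) (nat_lit 3776615105) (nat_lit 191) (nat_lit 5) (nat_lit 199) (nat_lit 5) (nat_lit 192) (nat_lit 5) (nat_lit 489) (nat_lit 426) (nat_lit 225)) (XT.lf (nat_lit 0) (nat_lit 7837891986) (nat_lit 608) (nat_lit 1574723613) (nat_lit 76) (nat_lit 11457567888) (nat_lit 191) (nat_lit 5) (nat_lit 199) (nat_lit 5) (nat_lit 192) (nat_lit 5) (nat_lit 490) (nat_lit 426) (nat_lit 224))) (XT.nd (nat_lit 78) (nat_lit 456) (nat_lit 0) (XT.lf (nat_lit 0) (nat_lit 9662556486) (nat_lit 532) (nat_lit 1773032680) (nat_lit 608) (nat_lit 9690688589) (nat_lit 184) (nat_lit 5) (nat_lit 191) (nat_lit 5) (nat_lit 192) (nat_lit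 5) (nat_lit 491) (nat_lit 426) (nat_lit 223)) (XT.nd (nat_lit 78) (nat_lit 456) (nat_lit 0) (XT.lf (nat_lit 0) (nat_lit 15149239295) (nat_lit 608) (nat_lit 288082427) (nat_lit 76) (nat_lit 5949294299) (nat_lit 184) (nat_lit 5) (nat_lit 192) (nat_lit 5) (nat_lit 185) (nat_lit 5) (nat_lit 492) (nat_lit 426) (nat_lit 222)) (XT.lf (nat_lit 0) (nat_lit 11239305014) (nat_lit 456) (nat_lit 7776964762) (nat_lit 532) (nat_lit 2634311178) (nat_lit 178) (nat_lit 5) (nat_lit 184) (nat_lit 5) (nat_lit 185) (nat_lit 5) (nat_lit 493) (nat_lit 426) (nat_lit 221))))) (XT.nd (nat_lit 234) (nat_lit 456) (nat_lit 0) (XT.nd (nat_lit 78) (nat_lit 456) (nat_lit 0) (XT.lf (nat_lit 0) (nat_lit 1030877135) (nat_lit 608) (nat_lit 20838639151) (nat_lit 76) (nat_lit 50101479) (nat_lit 170) (nat_lit 5) (nat_lit 178) (nat_lit 5) (nat_lit 171) (nat_lit 5) (nat_lit 494) (nat_lit 426) (nat_lit 220)) (XT.nd (nat_lit 78) (nat_lit 456) (nat_lit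 0) (XT.lf (nat_lit 0) (nat_lit 4850424573) (nat_lit 608) (nat_lit 9325349871) (nat_lit 76) (nat_lit 8015587967) (nat_lit 170) (nat_lit 5) (nat_lit 178) (nat_lit 5) (nat_lit 171) (nat_lit 5) (nat_lit 495) (nat_lit 426) (nat_lit 219)) (XT.lf (nat_lit 0) (nat_lit 2442885071) (nat_lit 456) (nat_lit 6313912158) (nat_lit 532) (nat_lit 13711537931) (nat_lit 164) (nat_lit 5) (nat_lit 170) (nat_lit 5) (nat_lit 171) (nat_lit 5) (nat_lit 496) (nat_lit 426) (nat_lit 218)))) (XT.nd (nat_lit 78) (nat_lit 456) (nat_lit 0) (XT.lf (nat_lit 0) (nat_lit 12809980741) (nat_lit 532) (nat_lit 8195596329) (nat_lit 76) (nat_lit 1743898484) (nat_lit 164) (nat_lit 5) (nat_lit 171) (nat_lit 5) (nat_lit 165) (nat_lit 5) (nat_lit 497) (nat_lit 426) (nat_lit 217)) (XT.nd (nat_lit 53820) (nat_lit 0) (nat_lit 20672) (XT.lf (nat_lit 0) (nat_lit 3872568004) (nat_lit 456) (nat_lit 13133342443) (nat_lit 532) (nat_lit 6029096478) (nat_lit 158) (nat_lit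 5) (nat_lit 164) (nat_lit 5) (nat_lit 165) (nat_lit 5) (nat_lit 498) (nat_lit 426) (nat_lit 216)) (XT.lf (nat_lit 0) (nat_lit 994901268) (nat_lit 0) (nat_lit 994901268) (nat_lit 1596) (nat_lit 3387807427) (nat_lit 430) (nat_lit 5) (nat_lit 430) (nat_lit 3) (nat_lit 451) (nat_lit 3) (nat_lit 427) (nat_lit 427) (nat_lit 286))))))) (XT.nd (nat_lit 780) (nat_lit 1368) (nat_lit 0) (XT.nd (nat_lit 390) (nat_lit 0) (nat_lit 152) (XT.nd (nat_lit 156) (nat_lit 0) (nat_lit 76) (XT.nd (nat_lit 78) (nat_lit 0) (nat_lit 0) (XT.lf (nat_lit 0) (nat_lit 4622261478) (nat_lit 1596) (nat_lit 3723773247) (nat_lit 1672) (nat_lit 2504367574) (nat_lit 430) (nat_lit 5) (nat_lit 451) (nat_lit 3) (nat_lit 452) (nat_lit 5) (nat_lit 428) (nat_lit 427) (nat_lit 285)) (XT.lf (nat_lit 76) (nat_lit 1416041630) (nat_lit 0) (nat_lit 3868769626) (nat_lit 1672) (nat_lit 5662544460) (nat_lit 431) (nat_lit 5) (nat_lit 430) (nat_lit 5) (nat_lit 452)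 (nat_lit 5) (nat_lit 429) (nat_lit 427) (nat_lit 284))) (XT.nd (nat_lit 78) (nat_lit 0) (nat_lit 0) (XT.lf (nat_lit 0) (nat_lit 5975261612) (nat_lit 1596) (nat_lit 4349675468) (nat_lit 1672) (nat_lit 721026168) (nat_lit 431) (nat_lit 5) (nat_lit 452) (nat_lit 5) (nat_lit 453) (nat_lit 5) (nat_lit 430) (nat_lit 427) (nat_lit 283)) (XT.nd (nat_lit 78) (nat_lit 0) (nat_lit 0) (XT.lf (nat_lit 76) (nat_lit 913764073) (nat_lit 0) (nat_lit 5782568961) (nat_lit 1672) (nat_lit 4449881537) (nat_lit 432) (nat_lit 5) (nat_lit 431) (nat_lit 5) (nat_lit 453) (nat_lit 5) (nat_lit 431) (nat_lit 427) (nat_lit 282)) (XT.lf (nat_lit 76) (nat_lit 6333292279) (nat_lit 0) (nat_lit 1113216720) (nat_lit 1672) (nat_lit 3801675987) (nat_lit 432) (nat_lit 5) (nat_lit 431) (nat_lit 5) (nat_lit 453) (nat_lit 5) (nat_lit 432) (nat_lit 427) (nat_lit 281))))) (XT.nd (nat_lit 156) (nat_lit 0) (nat_lit 76) (XT.nd (nat_lit 78) (nat_lit 0) (nat_lit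 0) (XT.lf (nat_lit 76) (nat_lit 483346289) (nat_lit 0) (nat_lit 7740994956) (nat_lit 1672) (nat_lit 3127608084) (nat_lit 433) (nat_lit 5) (nat_lit 432) (nat_lit 5) (nat_lit 454) (nat_lit 5) (nat_lit 433) (nat_lit 427) (nat_lit 280)) (XT.lf (nat_lit 76) (nat_lit 6040443155) (nat_lit 0) (nat_lit 3003636151) (nat_lit 1672) (nat_lit 2413190096) (nat_lit 433) (nat_lit 5) (nat_lit 432) (nat_lit 5) (nat_lit 454) (nat_lit 5) (nat_lit 434) (nat_lit 427) (nat_lit 279))) (XT.nd (nat_lit 78) (nat_lit 0) (nat_lit 0) (XT.lf (nat_lit 76) (nat_lit 125343796) (nat_lit 0) (nat_lit 9753907561) (nat_lit 1672) (nat_lit 1685471019) (nat_lit 434) (nat_lit 5) (nat_lit 433) (nat_lit 5) (nat_lit 455) (nat_lit 5) (nat_lit 435) (nat_lit 427) (nat_lit 278)) (XT.nd (nat_lit 78) (nat_lit 0) (nat_lit 0) (XT.lf (nat_lit 76) (nat_lit 5823268575) (nat_lit 0) (nat_lit 4950535864) (nat_lit 1672) (nat_lit 899673555) (nat_lit 434) (nat_lit 5) (nat_lit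 433) (nat_lit 5) (nat_lit 455) (nat_lit 5) (nat_lit 436) (nat_lit 427) (nat_lit 277)) (XT.lf (nat_lit 76) (nat_lit 11626956564) (nat_lit 0) (nat_lit 46122482) (nat_lit 1672) (nat_lit 111600068) (nat_lit 434) (nat_lit 5) (nat_lit 433) (nat_lit 5) (nat_lit 455) (nat_lit 5) (nat_lit 437) (nat_lit 427) (nat_lit 276)))))) (XT.nd (nat_lit 390) (nat_lit 0) (nat_lit 152) (XT.nd (nat_lit 156) (nat_lit 0) (nat_lit 76) (XT.nd (nat_lit 78) (nat_lit 0) (nat_lit 0) (XT.lf (nat_lit 0) (nat_lit 739717354) (nat_lit 1672) (nat_lit 6219222423) (nat_lit 1748) (nat_lit 4937950093) (nat_lit 412) (nat_lit 5) (nat_lit 434) (nat_lit 5) (nat_lit 435) (nat_lit 5) (nat_lit 438) (nat_lit 427) (nat_lit 275)) (XT.lf (nat_lit 0) (nat_lit 1595167595) (nat_lit 1672) (nat_lit 388924840) (nat_lit 1748) (nat_lit 10027472231) (nat_lit 412) (nat_lit 5) (nat_lit 434) (nat_lit 5) (nat_lit 435) (nat_lit 5) (nat_lit 439) (nat_lit 427) (nat_lit 274)))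 (XT.nd (nat_lit 78) (nat_lit 0) (nat_lit 0) (XT.lf (nat_lit 0) (nat_lit 2512050180) (nat_lit 1672) (nat_lit 6524948812) (nat_lit 1748) (nat_lit 3090653966) (nat_lit 413) (nat_lit 5) (nat_lit 435) (nat_lit 5) (nat_lit 436) (nat_lit 5) (nat_lit 440) (nat_lit 427) (nat_lit 273)) (XT.nd (nat_lit 78) (nat_lit 0) (nat_lit 76) (XT.lf (nat_lit 0) (nat_lit 3450734892) (nat_lit 1672) (nat_lit 548242201) (nat_lit 1748) (nat_lit 8247022971) (nat_lit 413) (nat_lit 5) (nat_lit 435) (nat_lit 5) (nat_lit 436) (nat_lit 5) (nat_lit 441) (nat_lit 427) (nat_lit 272)) (XT.lf (nat_lit 0) (nat_lit 4440243082) (nat_lit 1672) (nat_lit 6760626091) (nat_lit 1748) (nat_lit 1165210159) (nat_lit 414) (nat_lit 5) (nat_lit 436) (nat_lit 5) (nat_lit 437) (nat_lit 5) (nat_lit 442) (nat_lit 427) (nat_lit 271))))) (XT.nd (nat_lit 234) (nat_lit 0) (nat_lit 76) (XT.nd (nat_lit 78) (nat_lit 0) (nat_lit 0) (XT.lf (nat_lit 0) (nat_lit 5467872889) (nat_lit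 1672) (nat_lit 633897360) (nat_lit 1748) (nat_lit 6386429400) (nat_lit 414) (nat_lit 5) (nat_lit 436) (nat_lit 5) (nat_lit 437) (nat_lit 5) (nat_lit 443) (nat_lit 427) (nat_lit 270)) (XT.nd (nat_lit 78) (nat_lit 0) (nat_lit 76) (XT.lf (nat_lit 76) (nat_lit 5681490240) (nat_lit 0) (nat_lit 859830313) (nat_lit 1748) (nat_lit 6070942487) (nat_lit 415) (nat_lit 5) (nat_lit 414) (nat_lit 5) (nat_lit 437) (nat_lit 5) (nat_lit 444) (nat_lit 427) (nat_lit 269)) (XT.lf (nat_lit 0) (nat_lit 7658222638) (nat_lit 1672) (nat_lit 644694136) (nat_lit 1748) (nat_lit 4435457072) (nat_lit 415) (nat_lit 5) (nat_lit 437) (nat_lit 5) (nat_lit 438) (nat_lit 5) (nat_lit 445) (nat_lit 427) (nat_lit 268)))) (XT.nd (nat_lit 78) (nat_lit 0) (nat_lit 76) (XT.lf (nat_lit 76) (nat_lit 5829445167) (nat_lit 0) (nat_lit 3000355822) (nat_lit 1748) (nat_lit 4036564856) (nat_lit 416) (nat_lit 5) (nat_lit 415) (nat_lit 5) (nat_lit 438) (nat_lit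 5) (nat_lit 446) (nat_lit 427) (nat_lit 267)) (XT.nd (nat_lit 78) (nat_lit 0) (nat_lit 0) (XT.lf (nat_lit 0) (nat_lit 10033779895) (nat_lit 1672) (nat_lit 579298842) (nat_lit 1748) (nat_lit 2383665196) (nat_lit 416) (nat_lit 5) (nat_lit 438) (nat_lit 5) (nat_lit 439) (nat_lit 5) (nat_lit 447) (nat_lit 427) (nat_lit 266)) (XT.lf (nat_lit 76) (nat_lit 6058625002) (nat_lit 0) (nat_lit 5251614113) (nat_lit 1748) (nat_lit 1818527971) (nat_lit 417) (nat_lit 5) (nat_lit 416) (nat_lit 5) (nat_lit 439) (nat_lit 5) (nat_lit 448) (nat_lit 427) (nat_lit 265))))))))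
noncomputable def xc208 : XT := (XT.nd (nat_lit 1560) (nat_lit 7220) (nat_lit 0) (XT.nd (nat_lit 780) (nat_lit 4104) (nat_lit 0) (XT.nd (nat_lit 390) (nat_lit 1900) (nat_lit 0) (XT.nd (nat_lit 156) (nat_lit 1672) (nat_lit 0) (XT.nd (nat_lit 78) (nat_lit 1748) (nat_lit 0) (XT.lf (nat_lit 0) (nat_lit 12606916443) (nat_lit 1672) (nat_lit 436246276) (nat_lit 1748) (nat_lit 220379615) (nat_lit 417) (nat_lit 5) (nat_lit 439) (nat_lit 5) (nat_lit 440) (nat_lit 5) (nat_lit 449) (nat_lit 427) (nat_lit 264)) (XT.lf (nat_lit 0) (nat_lit 587728894) (nat_lit 1748) (nat_lit 7032918957) (nat_lit 1824) (nat_lit 5778978883) (nat_lit 394) (nat_lit 5) (nat_lit 417) (nat_lit 5) (nat_lit 418) (nat_lit 5) (nat_lit 450) (nat_lit 427) (nat_lit 263))) (XT.nd (nat_lit 78) (nat_lit 1672) (nat_lit 0) (XT.lf (nat_lit 0) (nat_lit 1840785197) (nat_lit 1748) (nat_lit 239643908) (nat_lit 1824) (nat_lit 11458069876) (nat_lit 394) (nat_lit 5)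 (nat_lit 417) (nat_lit 5) (nat_lit 418) (nat_lit 5) (nat_lit 451) (nat_lit 427) (nat_lit 262)) (XT.nd (nat_lit 78) (nat_lit 1748) (nat_lit 0) (XT.lf (nat_lit 0) (nat_lit 3176197210) (nat_lit 1748) (nat_lit 6933046168) (nat_lit 76) (nat_lit 3569764401) (nat_lit 395) (nat_lit 5) (nat_lit 418) (nat_lit 5) (nat_lit 396) (nat_lit 5) (nat_lit 452) (nat_lit 427) (nat_lit 261)) (XT.lf (nat_lit 0) (nat_lit 30312807) (nat_lit 1748) (nat_lit 4513608339) (nat_lit 1824) (nat_lit 9278298433) (nat_lit 372) (nat_lit 5) (nat_lit 395) (nat_lit 5) (nat_lit 396) (nat_lit 5) (nat_lit 453) (nat_lit 427) (nat_lit 260))))) (XT.nd (nat_lit 156) (nat_lit 912) (nat_lit 0) (XT.nd (nat_lit 78) (nat_lit 988) (nat_lit 0) (XT.lf (nat_lit 0) (nat_lit 5983744105) (nat_lit 1824) (nat_lit 6757190960) (nat_lit 76) (nat_lit 1226470465) (nat_lit 372) (nat_lit 5) (nat_lit 396) (nat_lit 5) (nat_lit 373) (nat_lit 5) (nat_lit 454) (nat_lit 427) (nat_lit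 259)) (XT.lf (nat_lit 0) (nat_lit 384861421) (nat_lit 988) (nat_lit 7090245458) (nat_lit 1064) (nat_lit 6639938164) (nat_lit 359) (nat_lit 5) (nat_lit 372) (nat_lit 5) (nat_lit 373) (nat_lit 5) (nat_lit 455) (nat_lit 427) (nat_lit 258))) (XT.nd (nat_lit 78) (nat_lit 912) (nat_lit 0) (XT.lf (nat_lit 0) (nat_lit 7752892537) (nat_lit 988) (nat_lit 1279236055) (nat_lit 1064) (nat_lit 5232796737) (nat_lit 359) (nat_lit 5) (nat_lit 372) (nat_lit 5) (nat_lit 373) (nat_lit 5) (nat_lit 456) (nat_lit 427) (nat_lit 257)) (XT.nd (nat_lit 78) (nat_lit 0) (nat_lit 0) (XT.lf (nat_lit 0) (nat_lit 822602031) (nat_lit 912) (nat_lit 9823888056) (nat_lit 988) (nat_lit 3770793673) (nat_lit 347) (nat_lit 5) (nat_lit 359) (nat_lit 5) (nat_lit 360) (nat_lit 5) (nat_lit 457) (nat_lit 427) (nat_lit 256)) (XT.lf (nat_lit 0) (nat_lit 8375183636) (nat_lit 912) (nat_lit 3960878957) (nat_lit 988) (nat_lit 2235772731) (nat_lit 347) (nat_lit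 5) (nat_lit 359) (nat_lit 5) (nat_lit 360) (nat_lit 5) (nat_lit 458) (nat_lit 427) (nat_lit 255)))))) (XT.nd (nat_lit 390) (nat_lit 1596) (nat_lit 0) (XT.nd (nat_lit 156) (nat_lit 1596) (nat_lit 0) (XT.nd (nat_lit 78) (nat_lit 76) (nat_lit 0) (XT.lf (nat_lit 0) (nat_lit 1345415182) (nat_lit 836) (nat_lit 12726851550) (nat_lit 912) (nat_lit 656958734) (nat_lit 336) (nat_lit 5) (nat_lit 347) (nat_lit 5) (nat_lit 348) (nat_lit 5) (nat_lit 459) (nat_lit 427) (nat_lit 254)) (XT.lf (nat_lit 0) (nat_lit 1000068906) (nat_lit 912) (nat_lit 5807833156) (nat_lit 76) (nat_lit 8080558888) (nat_lit 335) (nat_lit 5) (nat_lit 347) (nat_lit 5) (nat_lit 336) (nat_lit 5) (nat_lit 460) (nat_lit 427) (nat_lit 253))) (XT.nd (nat_lit 78) (nat_lit 760) (nat_lit 0) (XT.lf (nat_lit 0) (nat_lit 1932297023) (nat_lit 836) (nat_lit 752925444) (nat_lit 912) (nat_lit 12365500288) (nat_lit 324) (nat_lit 5) (nat_lit 335) (nat_lit 5) (nat_lit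 336) (nat_lit 5) (nat_lit 461) (nat_lit 427) (nat_lit 252)) (XT.nd (nat_lit 78) (nat_lit 760) (nat_lit 0) (XT.lf (nat_lit 0) (nat_lit 4469869945) (nat_lit 912) (nat_lit 5353445182) (nat_lit 76) (nat_lit 5391602872) (nat_lit 324) (nat_lit 5) (nat_lit 336) (nat_lit 5) (nat_lit 325) (nat_lit 5) (nat_lit 462) (nat_lit 427) (nat_lit 251)) (XT.lf (nat_lit 0) (nat_lit 2587467567) (nat_lit 760) (nat_lit 3716046692) (nat_lit 836) (nat_lit 9078620751) (nat_lit 314) (nat_lit 5) (nat_lit 324) (nat_lit 5) (nat_lit 325) (nat_lit 5) (nat_lit 463) (nat_lit 427) (nat_lit 250))))) (XT.nd (nat_lit 156) (nat_lit 836) (nat_lit 0) (XT.nd (nat_lit 78) (nat_lit 760) (nat_lit 0) (XT.lf (nat_lit 0) (nat_lit 8217943696) (nat_lit 836) (nat_lit 4817201789) (nat_lit 76) (nat_lit 2516672496) (nat_lit 314) (nat_lit 5) (nat_lit 325) (nat_lit 5) (nat_lit 315) (nat_lit 5) (nat_lit 464) (nat_lit 427) (nat_lit 249)) (XT.lf (nat_lit 0) (nat_lit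 3330617113) (nat_lit 760) (nat_lit 6878074296) (nat_lit 836) (nat_lit 5515446397) (nat_lit 304) (nat_lit 5) (nat_lit 314) (nat_lit 5) (nat_lit 315) (nat_lit 5) (nat_lit 465) (nat_lit 427) (nat_lit 248))) (XT.nd (nat_lit 78) (nat_lit 836) (nat_lit 0) (XT.lf (nat_lit 0) (nat_lit 11698477101) (nat_lit 760) (nat_lit 565006011) (nat_lit 836) (nat_lit 3635940048) (nat_lit 304) (nat_lit 5) (nat_lit 314) (nat_lit 5) (nat_lit 315) (nat_lit 5) (nat_lit 466) (nat_lit 427) (nat_lit 247)) (XT.nd (nat_lit 78) (nat_lit 76) (nat_lit 0) (XT.lf (nat_lit 0) (nat_lit 4163733841) (nat_lit 760) (nat_lit 10252871630) (nat_lit 836) (nat_lit 1660467694) (nat_lit 294) (nat_lit 5) (nat_lit 304) (nat_lit 5) (nat_lit 305) (nat_lit 5) (nat_lit 467) (nat_lit 427) (nat_lit 246)) (XT.lf (nat_lit 0) (nat_lit 374091963) (nat_lit 836) (nat_lit 3519558957) (nat_lit 76) (nat_lit 12364098169) (nat_lit 293) (nat_lit 5) (nat_lit 304) (nat_lit 5) (nat_lit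 294) (nat_lit 5) (nat_lit 468) (nat_lit 427) (nat_lit 245))))))) (XT.nd (nat_lit 780) (nat_lit 3040) (nat_lit 0) (XT.nd (nat_lit 390) (nat_lit 2052) (nat_lit 0) (XT.nd (nat_lit 156) (nat_lit 1368) (nat_lit 0) (XT.nd (nat_lit 78) (nat_lit 0) (nat_lit 0) (XT.lf (nat_lit 0) (nat_lit 2469562199) (nat_lit 836) (nat_lit 11368692053) (nat_lit 76) (nat_lit 2602719135) (nat_lit 283) (nat_lit 5) (nat_lit 294) (nat_lit 5) (nat_lit 284) (nat_lit 5) (nat_lit 469) (nat_lit 427) (nat_lit 244)) (XT.lf (nat_lit 0) (nat_lit 4648861927) (nat_lit 836) (nat_lit 2777871631) (nat_lit 76) (nat_lit 9200293575) (nat_lit 283) (nat_lit 5) (nat_lit 294) (nat_lit 5) (nat_lit 284) (nat_lit 5) (nat_lit 470) (nat_lit 427) (nat_lit 243))) (XT.nd (nat_lit 78) (nat_lit 684) (nat_lit 0) (XT.lf (nat_lit 0) (nat_lit 6056146947) (nat_lit 684) (nat_lit 847430848) (nat_lit 760) (nat_lit 9912590852) (nat_lit 274) (nat_lit 5) (nat_lit 283) (nat_lit 5)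 (nat_lit 284) (nat_lit 5) (nat_lit 471) (nat_lit 427) (nat_lit 242)) (XT.nd (nat_lit 78) (nat_lit 684) (nat_lit 0) (XT.lf (nat_lit 0) (nat_lit 9252822592) (nat_lit 760) (nat_lit 1950552441) (nat_lit 76) (nat_lit 5804732501) (nat_lit 274) (nat_lit 5) (nat_lit 284) (nat_lit 5) (nat_lit 275) (nat_lit 5) (nat_lit 472) (nat_lit 427) (nat_lit 241)) (XT.lf (nat_lit 0) (nat_lit 7114825868) (nat_lit 684) (nat_lit 4578778513) (nat_lit 760) (nat_lit 5509392944) (nat_lit 265) (nat_lit 5) (nat_lit 274) (nat_lit 5) (nat_lit 275) (nat_lit 5) (nat_lit 473) (nat_lit 427) (nat_lit 240))))) (XT.nd (nat_lit 156) (nat_lit 1368) (nat_lit 0) (XT.nd (nat_lit 78) (nat_lit 684) (nat_lit 0) (XT.lf (nat_lit 0) (nat_lit 14203352365) (nat_lit 760) (nat_lit 1035870188) (nat_lit 76) (nat_lit 2162162456) (nat_lit 265) (nat_lit 5) (nat_lit 275) (nat_lit 5) (nat_lit 266) (nat_lit 5) (nat_lit 474) (nat_lit 427) (nat_lit 239)) (XT.lf (nat_lit 0)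 (nat_lit 8267674996) (nat_lit 684) (nat_lit 8572594740) (nat_lit 760) (nat_lit 761934269) (nat_lit 256) (nat_lit 5) (nat_lit 265) (nat_lit 5) (nat_lit 266) (nat_lit 5) (nat_lit 475) (nat_lit 427) (nat_lit 238))) (XT.nd (nat_lit 78) (nat_lit 1292) (nat_lit 0) (XT.lf (nat_lit 0) (nat_lit 1700297406) (nat_lit 760) (nat_lit 54754823) (nat_lit 76) (nat_lit 16051766212) (nat_lit 255) (nat_lit 5) (nat_lit 265) (nat_lit 5) (nat_lit 256) (nat_lit 5) (nat_lit 476) (nat_lit 427) (nat_lit 237)) (XT.nd (nat_lit 78) (nat_lit 608) (nat_lit 0) (XT.lf (nat_lit 0) (nat_lit 4290746520) (nat_lit 760) (nat_lit 8525857253) (nat_lit 76) (nat_lit 5197040033) (nat_lit 246) (nat_lit 5) (nat_lit 256) (nat_lit 5) (nat_lit 247) (nat_lit 5) (nat_lit 477) (nat_lit 427) (nat_lit 236)) (XT.lf (nat_lit 0) (nat_lit 990812591) (nat_lit 608) (nat_lit 5953842562) (nat_lit 684) (nat_lit 11279720330) (nat_lit 238) (nat_lit 5) (nat_lit 246) (nat_lit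 5) (nat_lit 247) (nat_lit 5) (nat_lit 478) (nat_lit 427) (nat_lit 235)))))) (XT.nd (nat_lit 390) (nat_lit 1748) (nat_lit 0) (XT.nd (nat_lit 156) (nat_lit 684) (nat_lit 0) (XT.nd (nat_lit 78) (nat_lit 608) (nat_lit 0) (XT.lf (nat_lit 0) (nat_lit 9709325752) (nat_lit 684) (nat_lit 7639919671) (nat_lit 76) (nat_lit 1088925453) (nat_lit 238) (nat_lit 5) (nat_lit 247) (nat_lit 5) (nat_lit 239) (nat_lit 5) (nat_lit 479) (nat_lit 427) (nat_lit 234)) (XT.lf (nat_lit 0) (nat_lit 2126252331) (nat_lit 608) (nat_lit 10449702731) (nat_lit 684) (nat_lit 6079356515) (nat_lit 230) (nat_lit 5) (nat_lit 238) (nat_lit 5) (nat_lit 239) (nat_lit 5) (nat_lit 480) (nat_lit 427) (nat_lit 233))) (XT.nd (nat_lit 78) (nat_lit 684) (nat_lit 0) (XT.lf (nat_lit 0) (nat_lit 12183559372) (nat_lit 608) (nat_lit 3361134798) (nat_lit 684) (nat_lit 3331208029) (nat_lit 230) (nat_lit 5) (nat_lit 238) (nat_lit 5) (nat_lit 239) (nat_lit 5) (nat_lit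 481) (nat_lit 427) (nat_lit 232)) (XT.nd (nat_lit 78) (nat_lit 76) (nat_lit 0) (XT.lf (nat_lit 0) (nat_lit 3352232179) (nat_lit 608) (nat_lit 15261090824) (nat_lit 684) (nat_lit 486773933) (nat_lit 222) (nat_lit 5) (nat_lit 230) (nat_lit 5) (nat_lit 231) (nat_lit 5) (nat_lit 482) (nat_lit 427) (nat_lit 231)) (XT.lf (nat_lit 0) (nat_lit 2444006838) (nat_lit 684) (nat_lit 5685451067) (nat_lit 76) (nat_lit 11197784119) (nat_lit 221) (nat_lit 5) (nat_lit 230) (nat_lit 5) (nat_lit 222) (nat_lit 5) (nat_lit 483) (nat_lit 427) (nat_lit 230))))) (XT.nd (nat_lit 234) (nat_lit 608) (nat_lit 0) (XT.nd (nat_lit 78) (nat_lit 532) (nat_lit 0) (XT.lf (nat_lit 0) (nat_lit 4628082022) (nat_lit 608) (nat_lit 822641807) (nat_lit 684) (nat_lit 14107667514) (nat_lit 213) (nat_lit 5) (nat_lit 221) (nat_lit 5) (nat_lit 222) (nat_lit 5) (nat_lit 484) (nat_lit 427) (nat_lit 229)) (XT.nd (nat_lit 78) (nat_lit 532) (nat_lit 0) (XT.lf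 (nat_lit 0) (nat_lit 8592876093) (nat_lit 684) (nat_lit 4619417510) (nat_lit 76) (nat_lit 6580366429) (nat_lit 213) (nat_lit 5) (nat_lit 222) (nat_lit 5) (nat_lit 214) (nat_lit 5) (nat_lit 485) (nat_lit 427) (nat_lit 228)) (XT.lf (nat_lit 0) (nat_lit 5962930033) (nat_lit 532) (nat_lit 5873072787) (nat_lit 608) (nat_lit 8194851002) (nat_lit 206) (nat_lit 5) (nat_lit 213) (nat_lit 5) (nat_lit 214) (nat_lit 5) (nat_lit 486) (nat_lit 427) (nat_lit 227)))) (XT.nd (nat_lit 78) (nat_lit 608) (nat_lit 0) (XT.lf (nat_lit 0) (nat_lit 15179696468) (nat_lit 608) (nat_lit 3471908424) (nat_lit 76) (nat_lit 1621494816) (nat_lit 206) (nat_lit 5) (nat_lit 214) (nat_lit 5) (nat_lit 207) (nat_lit 5) (nat_lit 487) (nat_lit 427) (nat_lit 226)) (XT.nd (nat_lit 78) (nat_lit 76) (nat_lit 0) (XT.lf (nat_lit 0) (nat_lit 7386576316) (nat_lit 532) (nat_lit 11284685991) (nat_lit 608) (nat_lit 1847310502) (nat_lit 199) (nat_lit 5) (nat_lit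 206) (nat_lit 5) (nat_lit 207) (nat_lit 5) (nat_lit 488) (nat_lit 427) (nat_lit 225)) (XT.lf (nat_lit 0) (nat_lit 1462131554) (nat_lit 608) (nat_lit 2276317074) (nat_lit 76) (nat_lit 17029966369) (nat_lit 198) (nat_lit 5) (nat_lit 206) (nat_lit 5) (nat_lit 199) (nat_lit 5) (nat_lit 489) (nat_lit 427) (nat_lit 224))))))))
noncomputable def xc209 : XT := (XT.nd (nat_lit 55458) (nat_lit 0) (nat_lit 12996) (XT.nd (nat_lit 54600) (nat_lit 0) (nat_lit 18772) (XT.nd (nat_lit 390) (nat_lit 1064) (nat_lit 0) (XT.nd (nat_lit 156) (nat_lit 988) (nat_lit 0) (XT.nd (nat_lit 78) (nat_lit 0) (nat_lit 0) (XT.lf (nat_lit 0) (nat_lit 4891234488) (nat_lit 608) (nat_lit 12154560796) (nat_lit 76) (nat_lit 3975652514) (nat_lit 191) (nat_lit 5) (nat_lit 199) (nat_lit 5) (nat_lit 192) (nat_lit 5) (nat_lit 490) (nat_lit 427) (nat_lit 223)) (XT.lf (nat_lit 0) (nat_lit 8423394059) (nat_lit 608) (nat_lit 1047657110) (nat_lit 76) (nat_lit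 11807802684) (nat_lit 191) (nat_lit 5) (nat_lit 199) (nat_lit 5) (nat_lit 192) (nat_lit 5) (nat_lit 491) (nat_lit 427) (nat_lit 222))) (XT.nd (nat_lit 78) (nat_lit 456) (nat_lit 0) (XT.lf (nat_lit 0) (nat_lit 10410693847) (nat_lit 532) (nat_lit 1677547276) (nat_lit 608) (nat_lit 9451928072) (nat_lit 184) (nat_lit 5) (nat_lit 191) (nat_lit 5) (nat_lit 192) (nat_lit 5) (nat_lit 492) (nat_lit 427) (nat_lit 221)) (XT.nd (nat_lit 78) (nat_lit 0) (nat_lit 0) (XT.lf (nat_lit 0) (nat_lit 261219271) (nat_lit 456) (nat_lit 15609161957) (nat_lit 532) (nat_lit 5935451703) (nat_lit 178) (nat_lit 5) (nat_lit 184) (nat_lit 5) (nat_lit 185) (nat_lit 5) (nat_lit 493) (nat_lit 427) (nat_lit 220)) (XT.lf (nat_lit 0) (nat_lit 12012099330) (nat_lit 456) (nat_lit 7796349108) (nat_lit 532) (nat_lit 2266757788) (nat_lit 178) (nat_lit 5) (nat_lit 184) (nat_lit 5) (nat_lit 185) (nat_lit 5) (nat_lit 494) (nat_lit 427) (nat_lit 219)))))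 (XT.nd (nat_lit 156) (nat_lit 456) (nat_lit 0) (XT.nd (nat_lit 78) (nat_lit 0) (nat_lit 0) (XT.lf (nat_lit 0) (nat_lit 1462570007) (nat_lit 608) (nat_lit 20697949596) (nat_lit 76) (nat_lit 189125526) (nat_lit 170) (nat_lit 5) (nat_lit 178) (nat_lit 5) (nat_lit 171) (nat_lit 5) (nat_lit 495) (nat_lit 427) (nat_lit 218)) (XT.lf (nat_lit 0) (nat_lit 5350448093) (nat_lit 608) (nat_lit 8965325165) (nat_lit 76) (nat_lit 8311215431) (nat_lit 170) (nat_lit 5) (nat_lit 178) (nat_lit 5) (nat_lit 171) (nat_lit 5) (nat_lit 496) (nat_lit 427) (nat_lit 217))) (XT.nd (nat_lit 78) (nat_lit 0) (nat_lit 0) (XT.lf (nat_lit 0) (nat_lit 3034678873) (nat_lit 456) (nat_lit 6295892175) (nat_lit 532) (nat_lit 13579020145) (nat_lit 164) (nat_lit 5) (nat_lit 170) (nat_lit 5) (nat_lit 171) (nat_lit 5) (nat_lit 497) (nat_lit 427) (nat_lit 216)) (XT.nd (nat_lit 53898) (nat_lit 0) (nat_lit 20216) (XT.lf (nat_lit 0) (nat_lit 13457920311) (nat_lit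 532) (nat_lit 7820184834) (nat_lit 76) (nat_lit 1918389913) (nat_lit 164) (nat_lit 5) (nat_lit 171) (nat_lit 5) (nat_lit 165) (nat_lit 5) (nat_lit 498) (nat_lit 427) (nat_lit 215)) (XT.lf (nat_lit 0) (nat_lit 1306087822) (nat_lit 0) (nat_lit 1306087822) (nat_lit 1596) (nat_lit 2861024388) (nat_lit 430) (nat_lit 5) (nat_lit 430) (nat_lit 3) (nat_lit 451) (nat_lit 3) (nat_lit 428) (nat_lit 428) (nat_lit 284)))))) (XT.nd (nat_lit 390) (nat_lit 1444) (nat_lit 0) (XT.nd (nat_lit 156) (nat_lit 0) (nat_lit 76) (XT.nd (nat_lit 78) (nat_lit 0) (nat_lit 0) (XT.lf (nat_lit 0) (nat_lit 5853306353) (nat_lit 1596) (nat_lit 3199931267) (nat_lit 1672) (nat_lit 1990791735) (nat_lit 430) (nat_lit 5) (nat_lit 451) (nat_lit 3) (nat_lit 452) (nat_lit 5) (nat_lit 429) (nat_lit 428) (nat_lit 283)) (XT.lf (nat_lit 76) (nat_lit 2038743609) (nat_lit 0) (nat_lit 4471897151) (nat_lit 1672) (nat_lit 4632662348) (nat_lit 431) (nat_lit 5)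 (nat_lit 430) (nat_lit 5) (nat_lit 452) (nat_lit 5) (nat_lit 430) (nat_lit 428) (nat_lit 282))) (XT.nd (nat_lit 78) (nat_lit 0) (nat_lit 0) (XT.lf (nat_lit 0) (nat_lit 7189590126) (nat_lit 1596) (nat_lit 3828047016) (nat_lit 1672) (nat_lit 226763556) (nat_lit 431) (nat_lit 5) (nat_lit 452) (nat_lit 5) (nat_lit 453) (nat_lit 5) (nat_lit 431) (nat_lit 428) (nat_lit 281)) (XT.nd (nat_lit 78) (nat_lit 0) (nat_lit 0) (XT.lf (nat_lit 76) (nat_lit 1536657224) (nat_lit 0) (nat_lit 6370884210) (nat_lit 1672) (nat_lit 3439477922) (nat_lit 432) (nat_lit 5) (nat_lit 431) (nat_lit 5) (nat_lit 453) (nat_lit 5) (nat_lit 432) (nat_lit 428) (nat_lit 280)) (XT.lf (nat_lit 76) (nat_lit 7052720742) (nat_lit 0) (nat_lit 1598877005) (nat_lit 1672) (nat_lit 2799865147) (nat_lit 432) (nat_lit 5) (nat_lit 431) (nat_lit 5) (nat_lit 453) (nat_lit 5) (nat_lit 433) (nat_lit 428) (nat_lit 279))))) (XT.nd (nat_lit 234) (nat_lit 1596) (nat_lit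 0) (XT.nd (nat_lit 78) (nat_lit 0) (nat_lit 0) (XT.lf (nat_lit 76) (nat_lit 1106408079) (nat_lit 0) (nat_lit 8318902453) (nat_lit 1672) (nat_lit 2132396547) (nat_lit 433) (nat_lit 5) (nat_lit 432) (nat_lit 5) (nat_lit 454) (nat_lit 5) (nat_lit 434) (nat_lit 428) (nat_lit 278)) (XT.nd (nat_lit 78) (nat_lit 0) (nat_lit 76) (XT.lf (nat_lit 76) (nat_lit 6762619533) (nat_lit 0) (nat_lit 3478500637) (nat_lit 1672) (nat_lit 1424430663) (nat_lit 433) (nat_lit 5) (nat_lit 432) (nat_lit 5) (nat_lit 454) (nat_lit 5) (nat_lit 435) (nat_lit 428) (nat_lit 277)) (XT.lf (nat_lit 76) (nat_lit 748663902) (nat_lit 0) (nat_lit 10325797501) (nat_lit 1672) (nat_lit 701072751) (nat_lit 434) (nat_lit 5) (nat_lit 433) (nat_lit 5) (nat_lit 455) (nat_lit 5) (nat_lit 436) (nat_lit 428) (nat_lit 276)))) (XT.nd (nat_lit 78) (nat_lit 0) (nat_lit 0) (XT.lf (nat_lit 0) (nat_lit 79422285) (nat_lit 1672) (nat_lit 5339014652) (nat_lit 1748) (nat_lit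 6468419117) (nat_lit 411) (nat_lit 5) (nat_lit 433) (nat_lit 5) (nat_lit 434) (nat_lit 5) (nat_lit 437) (nat_lit 428) (nat_lit 275)) (XT.nd (nat_lit 78) (nat_lit 0) (nat_lit 76) (XT.lf (nat_lit 76) (nat_lit 455881085) (nat_lit 0) (nat_lit 400478816) (nat_lit 1748) (nat_lit 11144154006) (nat_lit 412) (nat_lit 5) (nat_lit 411) (nat_lit 5) (nat_lit 434) (nat_lit 5) (nat_lit 438) (nat_lit 428) (nat_lit 274)) (XT.lf (nat_lit 0) (nat_lit 1703011433) (nat_lit 1672) (nat_lit 5715837597) (nat_lit 1748) (nat_lit 4696518848) (nat_lit 412) (nat_lit 5) (nat_lit 434) (nat_lit 5) (nat_lit 435) (nat_lit 5) (nat_lit 439) (nat_lit 428) (nat_lit 273))))))) (XT.nd (nat_lit 780) (nat_lit 5852) (nat_lit 0) (XT.nd (nat_lit 390) (nat_lit 0) (nat_lit 152) (XT.nd (nat_lit 156) (nat_lit 0) (nat_lit 76) (XT.nd (nat_lit 78) (nat_lit 0) (nat_lit 76) (XT.lf (nat_lit 76) (nat_lit 221663897) (nat_lit 0) (nat_lit 2336747937) (nat_lit 1748) (nat_lit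 9674277118) (nat_lit 413) (nat_lit 5) (nat_lit 412) (nat_lit 5) (nat_lit 435) (nat_lit 5) (nat_lit 440) (nat_lit 428) (nat_lit 272)) (XT.lf (nat_lit 0) (nat_lit 3475953957) (nat_lit 1672) (nat_lit 6023278015) (nat_lit 1748) (nat_lit 2852230014) (nat_lit 413) (nat_lit 5) (nat_lit 435) (nat_lit 5) (nat_lit 436) (nat_lit 5) (nat_lit 441) (nat_lit 428) (nat_lit 271))) (XT.nd (nat_lit 78) (nat_lit 0) (nat_lit 76) (XT.lf (nat_lit 76) (nat_lit 61372148) (nat_lit 0) (nat_lit 4354523728) (nat_lit 1748) (nat_lit 8056639720) (nat_lit 414) (nat_lit 5) (nat_lit 413) (nat_lit 5) (nat_lit 436) (nat_lit 5) (nat_lit 442) (nat_lit 428) (nat_lit 270)) (XT.nd (nat_lit 78) (nat_lit 0) (nat_lit 0) (XT.lf (nat_lit 0) (nat_lit 5409499394) (nat_lit 1672) (nat_lit 6260315465) (nat_lit 1748) (nat_lit 925524537) (nat_lit 414) (nat_lit 5) (nat_lit 436) (nat_lit 5) (nat_lit 437) (nat_lit 5) (nat_lit 443) (nat_lit 428) (nat_lit 269)) (XT.lf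 (nat_lit 0) (nat_lit 6440418043) (nat_lit 1672) (nat_lit 23513398) (nat_lit 1748) (nat_lit 6256324825) (nat_lit 414) (nat_lit 5) (nat_lit 436) (nat_lit 5) (nat_lit 437) (nat_lit 5) (nat_lit 444) (nat_lit 428) (nat_lit 268))))) (XT.nd (nat_lit 156) (nat_lit 0) (nat_lit 76) (XT.nd (nat_lit 78) (nat_lit 0) (nat_lit 76) (XT.lf (nat_lit 76) (nat_lit 6414082863) (nat_lit 0) (nat_lit 1108345265) (nat_lit 1748) (nat_lit 5324639625) (nat_lit 415) (nat_lit 5) (nat_lit 414) (nat_lit 5) (nat_lit 437) (nat_lit 5) (nat_lit 445) (nat_lit 428) (nat_lit 267)) (XT.lf (nat_lit 0) (nat_lit 8643523652) (nat_lit 1672) (nat_lit 32190727) (nat_lit 1748) (nat_lit 4300357817) (nat_lit 415) (nat_lit 5) (nat_lit 437) (nat_lit 5) (nat_lit 438) (nat_lit 5) (nat_lit 446) (nat_lit 428) (nat_lit 266))) (XT.nd (nat_lit 78) (nat_lit 0) (nat_lit 76) (XT.lf (nat_lit 76) (nat_lit 6567316906) (nat_lit 0) (nat_lit 3258934041) (nat_lit 1748) (nat_lit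 3280627101) (nat_lit 416) (nat_lit 5) (nat_lit 415) (nat_lit 5) (nat_lit 438) (nat_lit 5) (nat_lit 447) (nat_lit 428) (nat_lit 265)) (XT.nd (nat_lit 78) (nat_lit 0) (nat_lit 0) (XT.lf (nat_lit 76) (nat_lit 36443342) (nat_lit 0) (nat_lit 11000763160) (nat_lit 1748) (nat_lit 2203007451) (nat_lit 417) (nat_lit 5) (nat_lit 416) (nat_lit 5) (nat_lit 439) (nat_lit 5) (nat_lit 448) (nat_lit 428) (nat_lit 264)) (XT.lf (nat_lit 76) (nat_lit 6802523688) (nat_lit 0) (nat_lit 5524742180) (nat_lit 1748) (nat_lit 1047858318) (nat_lit 417) (nat_lit 5) (nat_lit 416) (nat_lit 5) (nat_lit 439) (nat_lit 5) (nat_lit 449) (nat_lit 428) (nat_lit 263)))))) (XT.nd (nat_lit 390) (nat_lit 2812) (nat_lit 0) (XT.nd (nat_lit 156) (nat_lit 1672) (nat_lit 0) (XT.nd (nat_lit 78) (nat_lit 0) (nat_lit 0) (XT.lf (nat_lit 0) (nat_lit 119996179) (nat_lit 1748) (nat_lit 13328759358) (nat_lit 1824) (nat_lit 64139002) (nat_lit 394) (nat_lit 5) (nat_lit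 417) (nat_lit 5) (nat_lit 418) (nat_lit 5) (nat_lit 450) (nat_lit 428) (nat_lit 262)) (XT.lf (nat_lit 0) (nat_lit 1368029959) (nat_lit 1748) (nat_lit 6539627233) (nat_lit 1824) (nat_lit 5744212520) (nat_lit 394) (nat_lit 5) (nat_lit 417) (nat_lit 5) (nat_lit 418) (nat_lit 5) (nat_lit 451) (nat_lit 428) (nat_lit 261))) (XT.nd (nat_lit 78) (nat_lit 1672) (nat_lit 0) (XT.lf (nat_lit 76) (nat_lit 382094155) (nat_lit 0) (nat_lit 2251464502) (nat_lit 1824) (nat_lit 11160219945) (nat_lit 395) (nat_lit 5) (nat_lit 394) (nat_lit 5) (nat_lit 418) (nat_lit 5) (nat_lit 452) (nat_lit 428) (nat_lit 260)) (XT.nd (nat_lit 78) (nat_lit 1748) (nat_lit 0) (XT.lf (nat_lit 0) (nat_lit 3981619408) (nat_lit 1748) (nat_lit 6438244764) (nat_lit 76) (nat_lit 3517521873) (nat_lit 395) (nat_lit 5) (nat_lit 418) (nat_lit 5) (nat_lit 396) (nat_lit 5) (nat_lit 453) (nat_lit 428) (nat_lit 259)) (XT.lf (nat_lit 0) (nat_lit 660213876) (nat_lit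 1748) (nat_lit 4706022722) (nat_lit 1824) (nat_lit 8717441844) (nat_lit 372) (nat_lit 5) (nat_lit 395) (nat_lit 5) (nat_lit 396) (nat_lit 5) (nat_lit 454) (nat_lit 428) (nat_lit 258))))) (XT.nd (nat_lit 234) (nat_lit 1824) (nat_lit 0) (XT.nd (nat_lit 78) (nat_lit 988) (nat_lit 0) (XT.lf (nat_lit 0) (nat_lit 6819863941) (nat_lit 1824) (nat_lit 6260037214) (nat_lit 76) (nat_lit 1152173793) (nat_lit 372) (nat_lit 5) (nat_lit 396) (nat_lit 5) (nat_lit 373) (nat_lit 5) (nat_lit 455) (nat_lit 428) (nat_lit 257)) (XT.nd (nat_lit 78) (nat_lit 0) (nat_lit 0) (XT.lf (nat_lit 0) (nat_lit 1020696362) (nat_lit 988) (nat_lit 7310387955) (nat_lit 1064) (nat_lit 6051789186) (nat_lit 359) (nat_lit 5) (nat_lit 372) (nat_lit 5) (nat_lit 373) (nat_lit 5) (nat_lit 456) (nat_lit 428) (nat_lit 256)) (XT.lf (nat_lit 0) (nat_lit 8523771675) (nat_lit 988) (nat_lit 1381622333) (nat_lit 1064) (nat_lit 4630641161) (nat_lit 359) (nat_lit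 5) (nat_lit 372) (nat_lit 5) (nat_lit 373) (nat_lit 5) (nat_lit 457) (nat_lit 428) (nat_lit 255)))) (XT.nd (nat_lit 78) (nat_lit 912) (nat_lit 0) (XT.lf (nat_lit 0) (nat_lit 1465414589) (nat_lit 912) (nat_lit 10076625182) (nat_lit 988) (nat_lit 3149607649) (nat_lit 347) (nat_lit 5) (nat_lit 359) (nat_lit 5) (nat_lit 360) (nat_lit 5) (nat_lit 458) (nat_lit 428) (nat_lit 254)) (XT.nd (nat_lit 78) (nat_lit 912) (nat_lit 0) (XT.lf (nat_lit 0) (nat_lit 9156766248) (nat_lit 912) (nat_lit 4095252776) (nat_lit 988) (nat_lit 1597545148) (nat_lit 347) (nat_lit 5) (nat_lit 359) (nat_lit 5) (nat_lit 360) (nat_lit 5) (nat_lit 459) (nat_lit 428) (nat_lit 253)) (XT.lf (nat_lit 0) (nat_lit 3186166) (nat_lit 912) (nat_lit 13013981991) (nat_lit 76) (nat_lit 1993128314) (nat_lit 335) (nat_lit 5) (nat_lit 347) (nat_lit 5) (nat_lit 336) (nat_lit 5) (nat_lit 460) (nat_lit 428) (nat_lit 252))))))))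
noncomputable def xc210 : XT := (XT.nd (nat_lit 1560) (nat_lit 5624) (nat_lit 0) (XT.nd (nat_lit 780) (nat_lit 3420) (nat_lit 0) (XT.nd (nat_lit 390) (nat_lit 2356) (nat_lit 0) (XT.nd (nat_lit 156) (nat_lit 760) (nat_lit 0) (XT.nd (nat_lit 78) (nat_lit 836) (nat_lit 0) (XT.lf (nat_lit 0) (nat_lit 1671536580) (nat_lit 912) (nat_lit 5303250821) (nat_lit 76) (nat_lit 8198108928) (nat_lit 335) (nat_lit 5) (nat_lit 347) (nat_lit 5) (nat_lit 336) (nat_lit 5) (nat_lit 461) (nat_lit 428) (nat_lit 251)) (XT.lf (nat_lit 0) (nat_lit 2587598154) (nat_lit 836) (nat_lit 794024944) (nat_lit 912) (nat_lit 11956961644) (nat_lit 324) (nat_lit 5) (nat_lit 335) (nat_lit 5) (nat_lit 336) (nat_lit 5) (nat_lit 462) (nat_lit 428) (nat_lit 250))) (XT.nd (nat_lit 78) (nat_lit 760) (nat_lit 0) (XT.lf (nat_lit 0) (nat_lit 5189195879) (nat_lit 912) (nat_lit 4842889837) (nat_lit 76) (nat_lit 5474239381) (nat_lit 324) (nat_lit 5) (nat_lit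 336) (nat_lit 5) (nat_lit 325) (nat_lit 5) (nat_lit 463) (nat_lit 428) (nat_lit 249)) (XT.nd (nat_lit 78) (nat_lit 0) (nat_lit 0) (XT.lf (nat_lit 0) (nat_lit 3252777850) (nat_lit 760) (nat_lit 3798367335) (nat_lit 836) (nat_lit 8625914362) (nat_lit 314) (nat_lit 5) (nat_lit 324) (nat_lit 5) (nat_lit 325) (nat_lit 5) (nat_lit 464) (nat_lit 428) (nat_lit 248)) (XT.lf (nat_lit 0) (nat_lit 8991624825) (nat_lit 836) (nat_lit 4299495790) (nat_lit 76) (nat_lit 2559265955) (nat_lit 314) (nat_lit 5) (nat_lit 325) (nat_lit 5) (nat_lit 315) (nat_lit 5) (nat_lit 465) (nat_lit 428) (nat_lit 247))))) (XT.nd (nat_lit 156) (nat_lit 1596) (nat_lit 0) (XT.nd (nat_lit 78) (nat_lit 0) (nat_lit 0) (XT.lf (nat_lit 0) (nat_lit 4007239687) (nat_lit 760) (nat_lit 7006960901) (nat_lit 836) (nat_lit 5012117458) (nat_lit 304) (nat_lit 5) (nat_lit 314) (nat_lit 5) (nat_lit 315) (nat_lit 5) (nat_lit 466) (nat_lit 428) (nat_lit 246)) (XT.lf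 (nat_lit 0) (nat_lit 12530495890) (nat_lit 760) (nat_lit 567801346) (nat_lit 836) (nat_lit 3107053097) (nat_lit 304) (nat_lit 5) (nat_lit 314) (nat_lit 5) (nat_lit 315) (nat_lit 5) (nat_lit 467) (nat_lit 428) (nat_lit 245))) (XT.nd (nat_lit 78) (nat_lit 836) (nat_lit 0) (XT.lf (nat_lit 0) (nat_lit 4853050315) (nat_lit 760) (nat_lit 10433860994) (nat_lit 836) (nat_lit 1099798746) (nat_lit 294) (nat_lit 5) (nat_lit 304) (nat_lit 5) (nat_lit 305) (nat_lit 5) (nat_lit 468) (nat_lit 428) (nat_lit 244)) (XT.nd (nat_lit 78) (nat_lit 760) (nat_lit 0) (XT.lf (nat_lit 0) (nat_lit 956171333) (nat_lit 836) (nat_lit 2987900607) (nat_lit 76) (nat_lit 12627085375) (nat_lit 293) (nat_lit 5) (nat_lit 304) (nat_lit 5) (nat_lit 294) (nat_lit 5) (nat_lit 469) (nat_lit 428) (nat_lit 243)) (XT.lf (nat_lit 0) (nat_lit 3086368001) (nat_lit 836) (nat_lit 10986583585) (nat_lit 76) (nat_lit 2685243168) (nat_lit 283) (nat_lit 5) (nat_lit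 294) (nat_lit 5) (nat_lit 284) (nat_lit 5) (nat_lit 470) (nat_lit 428) (nat_lit 242)))))) (XT.nd (nat_lit 390) (nat_lit 2052) (nat_lit 0) (XT.nd (nat_lit 156) (nat_lit 684) (nat_lit 0) (XT.nd (nat_lit 78) (nat_lit 684) (nat_lit 0) (XT.lf (nat_lit 0) (nat_lit 5298127948) (nat_lit 836) (nat_lit 2235897388) (nat_lit 76) (nat_lit 9414171652) (nat_lit 283) (nat_lit 5) (nat_lit 294) (nat_lit 5) (nat_lit 284) (nat_lit 5) (nat_lit 471) (nat_lit 428) (nat_lit 241)) (XT.lf (nat_lit 0) (nat_lit 6770870432) (nat_lit 684) (nat_lit 820014127) (nat_lit 760) (nat_lit 9550382648) (nat_lit 274) (nat_lit 5) (nat_lit 283) (nat_lit 5) (nat_lit 284) (nat_lit 5) (nat_lit 472) (nat_lit 428) (nat_lit 240))) (XT.nd (nat_lit 78) (nat_lit 684) (nat_lit 0) (XT.lf (nat_lit 0) (nat_lit 9976627335) (nat_lit 760) (nat_lit 1396879853) (nat_lit 76) (nat_lit 5963752130) (nat_lit 274) (nat_lit 5) (nat_lit 284) (nat_lit 5) (nat_lit 275) (nat_lit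 5) (nat_lit 473) (nat_lit 428) (nat_lit 239)) (XT.nd (nat_lit 78) (nat_lit 0) (nat_lit 0) (XT.lf (nat_lit 0) (nat_lit 7845906788) (nat_lit 684) (nat_lit 4613577059) (nat_lit 760) (nat_lit 5076702492) (nat_lit 265) (nat_lit 5) (nat_lit 274) (nat_lit 5) (nat_lit 275) (nat_lit 5) (nat_lit 474) (nat_lit 428) (nat_lit 238)) (XT.lf (nat_lit 0) (nat_lit 15009356679) (nat_lit 760) (nat_lit 469051611) (nat_lit 76) (nat_lit 2260339415) (nat_lit 265) (nat_lit 5) (nat_lit 275) (nat_lit 5) (nat_lit 266) (nat_lit 5) (nat_lit 475) (nat_lit 428) (nat_lit 237))))) (XT.nd (nat_lit 156) (nat_lit 608) (nat_lit 0) (XT.nd (nat_lit 78) (nat_lit 760) (nat_lit 0) (XT.lf (nat_lit 0) (nat_lit 9016699109) (nat_lit 684) (nat_lit 8675868802) (nat_lit 760) (nat_lit 251148495) (nat_lit 256) (nat_lit 5) (nat_lit 265) (nat_lit 5) (nat_lit 266) (nat_lit 5) (nat_lit 476) (nat_lit 428) (nat_lit 236)) (XT.lf (nat_lit 0) (nat_lit 530308099) (nat_lit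 684) (nat_lit 1716384987) (nat_lit 760) (nat_lit 15905800719) (nat_lit 246) (nat_lit 5) (nat_lit 255) (nat_lit 5) (nat_lit 256) (nat_lit 5) (nat_lit 477) (nat_lit 428) (nat_lit 235))) (XT.nd (nat_lit 78) (nat_lit 608) (nat_lit 0) (XT.lf (nat_lit 0) (nat_lit 4879736502) (nat_lit 760) (nat_lit 8111190866) (nat_lit 76) (nat_lit 5372716784) (nat_lit 246) (nat_lit 5) (nat_lit 256) (nat_lit 5) (nat_lit 247) (nat_lit 5) (nat_lit 478) (nat_lit 428) (nat_lit 234)) (XT.nd (nat_lit 78) (nat_lit 0) (nat_lit 0) (XT.lf (nat_lit 0) (nat_lit 1591962483) (nat_lit 608) (nat_lit 5988669051) (nat_lit 684) (nat_lit 10998084863) (nat_lit 238) (nat_lit 5) (nat_lit 246) (nat_lit 5) (nat_lit 247) (nat_lit 5) (nat_lit 479) (nat_lit 428) (nat_lit 233)) (XT.lf (nat_lit 0) (nat_lit 10391385098) (nat_lit 684) (nat_lit 7213371764) (nat_lit 76) (nat_lit 1192219064) (nat_lit 238) (nat_lit 5) (nat_lit 247) (nat_lit 5) (nat_lit 239) (nat_lit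 5) (nat_lit 480) (nat_lit 428) (nat_lit 232))))))) (XT.nd (nat_lit 780) (nat_lit 2584) (nat_lit 0) (XT.nd (nat_lit 390) (nat_lit 1140) (nat_lit 0) (XT.nd (nat_lit 156) (nat_lit 1292) (nat_lit 0) (XT.nd (nat_lit 78) (nat_lit 0) (nat_lit 0) (XT.lf (nat_lit 0) (nat_lit 2744312189) (nat_lit 608) (nat_lit 10565205424) (nat_lit 684) (nat_lit 5709062353) (nat_lit 230) (nat_lit 5) (nat_lit 238) (nat_lit 5) (nat_lit 239) (nat_lit 5) (nat_lit 481) (nat_lit 428) (nat_lit 231)) (XT.lf (nat_lit 0) (nat_lit 12991480375) (nat_lit 608) (nat_lit 3336699296) (nat_lit 684) (nat_lit 2915595629) (nat_lit 230) (nat_lit 5) (nat_lit 238) (nat_lit 5) (nat_lit 239) (nat_lit 5) (nat_lit 482) (nat_lit 428) (nat_lit 230))) (XT.nd (nat_lit 78) (nat_lit 684) (nat_lit 0) (XT.lf (nat_lit 0) (nat_lit 3988804767) (nat_lit 608) (nat_lit 15464391002) (nat_lit 684) (nat_lit 19361656) (nat_lit 222) (nat_lit 5) (nat_lit 230) (nat_lit 5) (nat_lit 231)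 (nat_lit 5) (nat_lit 483) (nat_lit 428) (nat_lit 229)) (XT.nd (nat_lit 78) (nat_lit 608) (nat_lit 0) (XT.lf (nat_lit 0) (nat_lit 2954543718) (nat_lit 684) (nat_lit 5234482211) (nat_lit 76) (nat_lit 11515345829) (nat_lit 221) (nat_lit 5) (nat_lit 230) (nat_lit 5) (nat_lit 222) (nat_lit 5) (nat_lit 484) (nat_lit 428) (nat_lit 228)) (XT.lf (nat_lit 0) (nat_lit 5281606553) (nat_lit 608) (nat_lit 734378545) (nat_lit 684) (nat_lit 13924270732) (nat_lit 213) (nat_lit 5) (nat_lit 221) (nat_lit 5) (nat_lit 222) (nat_lit 5) (nat_lit 485) (nat_lit 428) (nat_lit 227))))) (XT.nd (nat_lit 156) (nat_lit 608) (nat_lit 0) (XT.nd (nat_lit 78) (nat_lit 532) (nat_lit 0) (XT.lf (nat_lit 0) (nat_lit 9212700947) (nat_lit 684) (nat_lit 4153387875) (nat_lit 76) (nat_lit 6813290158) (nat_lit 213) (nat_lit 5) (nat_lit 222) (nat_lit 5) (nat_lit 214) (nat_lit 5) (nat_lit 486) (nat_lit 428) (nat_lit 226)) (XT.lf (nat_lit 0) (nat_lit 6636932816)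 (nat_lit 532) (nat_lit 5878575486) (nat_lit 608) (nat_lit 7906935411) (nat_lit 206) (nat_lit 5) (nat_lit 213) (nat_lit 5) (nat_lit 214) (nat_lit 5) (nat_lit 487) (nat_lit 428) (nat_lit 225))) (XT.nd (nat_lit 78) (nat_lit 608) (nat_lit 0) (XT.lf (nat_lit 0) (nat_lit 15918106414) (nat_lit 608) (nat_lit 2989342222) (nat_lit 76) (nat_lit 1762248631) (nat_lit 206) (nat_lit 5) (nat_lit 214) (nat_lit 5) (nat_lit 207) (nat_lit 5) (nat_lit 488) (nat_lit 428) (nat_lit 224)) (XT.nd (nat_lit 78) (nat_lit 76) (nat_lit 0) (XT.lf (nat_lit 0) (nat_lit 8082680605) (nat_lit 532) (nat_lit 11391857560) (nat_lit 608) (nat_lit 1445644270) (nat_lit 199) (nat_lit 5) (nat_lit 206) (nat_lit 5) (nat_lit 207) (nat_lit 5) (nat_lit 489) (nat_lit 428) (nat_lit 223)) (XT.lf (nat_lit 0) (nat_lit 1915746696) (nat_lit 608) (nat_lit 1778424955) (nat_lit 76) (nat_lit 17480965778) (nat_lit 198) (nat_lit 5) (nat_lit 206) (nat_lit 5) (nat_lit 199)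 (nat_lit 5) (nat_lit 490) (nat_lit 428) (nat_lit 222)))))) (XT.nd (nat_lit 390) (nat_lit 1064) (nat_lit 0) (XT.nd (nat_lit 156) (nat_lit 988) (nat_lit 0) (XT.nd (nat_lit 78) (nat_lit 0) (nat_lit 0) (XT.lf (nat_lit 0) (nat_lit 5409396662) (nat_lit 608) (nat_lit 11850043213) (nat_lit 76) (nat_lit 4173874818) (nat_lit 191) (nat_lit 5) (nat_lit 199) (nat_lit 5) (nat_lit 192) (nat_lit 5) (nat_lit 491) (nat_lit 428) (nat_lit 221)) (XT.lf (nat_lit 0) (nat_lit 9003957513) (nat_lit 608) (nat_lit 531738881) (nat_lit 76) (nat_lit 12160340359) (nat_lit 191) (nat_lit 5) (nat_lit 199) (nat_lit 5) (nat_lit 192) (nat_lit 5) (nat_lit 492) (nat_lit 428) (nat_lit 220))) (XT.nd (nat_lit 78) (nat_lit 456) (nat_lit 0) (XT.lf (nat_lit 0) (nat_lit 11152247047) (nat_lit 532) (nat_lit 1585236958) (nat_lit 608) (nat_lit 9225189732) (nat_lit 184) (nat_lit 5) (nat_lit 191) (nat_lit 5) (nat_lit 192) (nat_lit 5) (nat_lit 493) (nat_lit 428)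 (nat_lit 219)) (XT.nd (nat_lit 78) (nat_lit 0) (nat_lit 0) (XT.lf (nat_lit 0) (nat_lit 803706613) (nat_lit 456) (nat_lit 15787859953) (nat_lit 532) (nat_lit 5642161116) (nat_lit 178) (nat_lit 5) (nat_lit 184) (nat_lit 5) (nat_lit 185) (nat_lit 5) (nat_lit 494) (nat_lit 428) (nat_lit 218)) (XT.lf (nat_lit 0) (nat_lit 12779069706) (nat_lit 456) (nat_lit 7821408205) (nat_lit 532) (nat_lit 1908171747) (nat_lit 178) (nat_lit 5) (nat_lit 184) (nat_lit 5) (nat_lit 185) (nat_lit 5) (nat_lit 495) (nat_lit 428) (nat_lit 217))))) (XT.nd (nat_lit 54132) (nat_lit 0) (nat_lit 20216) (XT.nd (nat_lit 78) (nat_lit 456) (nat_lit 0) (XT.lf (nat_lit 0) (nat_lit 1886934181) (nat_lit 608) (nat_lit 20576093192) (nat_lit 76) (nat_lit 325570492) (nat_lit 170) (nat_lit 5) (nat_lit 178) (nat_lit 5) (nat_lit 171) (nat_lit 5) (nat_lit 496) (nat_lit 428) (nat_lit 216)) (XT.nd (nat_lit 78) (nat_lit 456) (nat_lit 0) (XT.lf (nat_lit 0) (nat_lit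 5844822519) (nat_lit 608) (nat_lit 8619322456) (nat_lit 76) (nat_lit 8607500970) (nat_lit 170) (nat_lit 5) (nat_lit 178) (nat_lit 5) (nat_lit 171) (nat_lit 5) (nat_lit 497) (nat_lit 428) (nat_lit 215)) (XT.lf (nat_lit 0) (nat_lit 3617225681) (nat_lit 456) (nat_lit 6283115069) (nat_lit 532) (nat_lit 13459646546) (nat_lit 164) (nat_lit 5) (nat_lit 170) (nat_lit 5) (nat_lit 171) (nat_lit 5) (nat_lit 498) (nat_lit 428) (nat_lit 214)))) (XT.nd (nat_lit 78) (nat_lit 0) (nat_lit 0) (XT.lf (nat_lit 0) (nat_lit 1612187018) (nat_lit 0) (nat_lit 1612187018) (nat_lit 1596) (nat_lit 2346792369) (nat_lit 430) (nat_lit 5) (nat_lit 430) (nat_lit 3) (nat_lit 451) (nat_lit 3) (nat_lit 429) (nat_lit 429) (nat_lit 282)) (XT.nd (nat_lit 78) (nat_lit 0) (nat_lit 0) (XT.lf (nat_lit 0) (nat_lit 7064758914) (nat_lit 1596) (nat_lit 2688845842) (nat_lit 1672) (nat_lit 1488832107) (nat_lit 430) (nat_lit 5) (nat_lit 451) (nat_lit 3) (nat_lit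 452) (nat_lit 5) (nat_lit 430) (nat_lit 429) (nat_lit 281)) (XT.lf (nat_lit 76) (nat_lit 2650819084) (nat_lit 0) (nat_lit 5066671630) (nat_lit 1672) (nat_lit 3626571841) (nat_lit 431) (nat_lit 5) (nat_lit 430) (nat_lit 5) (nat_lit 452) (nat_lit 5) (nat_lit 431) (nat_lit 429) (nat_lit 280))))))))
noncomputable def xc211 : XT := (XT.nd (nat_lit 1638) (nat_lit 9044) (nat_lit 0) (XT.nd (nat_lit 780) (nat_lit 1368) (nat_lit 0) (XT.nd (nat_lit 390) (nat_lit 1444) (nat_lit 0) (XT.nd (nat_lit 156) (nat_lit 0) (nat_lit 76) (XT.nd (nat_lit 78) (nat_lit 0) (nat_lit 76) (XT.lf (nat_lit 76) (nat_lit 8126331522) (nat_lit 0) (nat_lit 261055309) (nat_lit 1672) (nat_lit 3060259162) (nat_lit 431) (nat_lit 5) (nat_lit 430) (nat_lit 5) (nat_lit 452) (nat_lit 5) (nat_lit 432) (nat_lit 429) (nat_lit 279)) (XT.lf (nat_lit 76) (nat_lit 2148530190) (nat_lit 0) (nat_lit 6952611649) (nat_lit 1672) (nat_lit 2451557324) (nat_lit 432) (nat_lit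 5) (nat_lit 431) (nat_lit 5) (nat_lit 453) (nat_lit 5) (nat_lit 433) (nat_lit 429) (nat_lit 278))) (XT.nd (nat_lit 78) (nat_lit 0) (nat_lit 76) (XT.lf (nat_lit 76) (nat_lit 7763520079) (nat_lit 0) (nat_lit 2076256266) (nat_lit 1672) (nat_lit 1819872101) (nat_lit 432) (nat_lit 5) (nat_lit 431) (nat_lit 5) (nat_lit 453) (nat_lit 5) (nat_lit 434) (nat_lit 429) (nat_lit 277)) (XT.nd (nat_lit 78) (nat_lit 0) (nat_lit 0) (XT.lf (nat_lit 76) (nat_lit 1718112235) (nat_lit 0) (nat_lit 8891939092) (nat_lit 1672) (nat_lit 1158355032) (nat_lit 433) (nat_lit 5) (nat_lit 432) (nat_lit 5) (nat_lit 454) (nat_lit 5) (nat_lit 435) (nat_lit 429) (nat_lit 276)) (XT.lf (nat_lit 76) (nat_lit 7475887604) (nat_lit 0) (nat_lit 3946755542) (nat_lit 1672) (nat_lit 456164918) (nat_lit 433) (nat_lit 5) (nat_lit 432) (nat_lit 5) (nat_lit 454) (nat_lit 5) (nat_lit 436) (nat_lit 429) (nat_lit 275))))) (XT.nd (nat_lit 156) (nat_lit 0) (nat_lit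 0) (XT.nd (nat_lit 78) (nat_lit 0) (nat_lit 0) (XT.lf (nat_lit 0) (nat_lit 260023544) (nat_lit 1672) (nat_lit 10632724740) (nat_lit 1748) (nat_lit 1098575037) (nat_lit 411) (nat_lit 5) (nat_lit 433) (nat_lit 5) (nat_lit 434) (nat_lit 5) (nat_lit 437) (nat_lit 429) (nat_lit 274)) (XT.lf (nat_lit 0) (nat_lit 1027813830) (nat_lit 1672) (nat_lit 4847716463) (nat_lit 1748) (nat_lit 6229637026) (nat_lit 411) (nat_lit 5) (nat_lit 433) (nat_lit 5) (nat_lit 434) (nat_lit 5) (nat_lit 438) (nat_lit 429) (nat_lit 273))) (XT.nd (nat_lit 78) (nat_lit 0) (nat_lit 76) (XT.lf (nat_lit 76) (nat_lit 1059142461) (nat_lit 0) (nat_lit 746440545) (nat_lit 1748) (nat_lit 10415819070) (nat_lit 412) (nat_lit 5) (nat_lit 411) (nat_lit 5) (nat_lit 434) (nat_lit 5) (nat_lit 439) (nat_lit 429) (nat_lit 272)) (XT.nd (nat_lit 78) (nat_lit 0) (nat_lit 0) (XT.lf (nat_lit 0) (nat_lit 2648739994) (nat_lit 1672) (nat_lit 5226762120) (nat_lit 1748)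 (nat_lit 4463468980) (nat_lit 412) (nat_lit 5) (nat_lit 434) (nat_lit 5) (nat_lit 435) (nat_lit 5) (nat_lit 440) (nat_lit 429) (nat_lit 271)) (XT.lf (nat_lit 76) (nat_lit 825519718) (nat_lit 0) (nat_lit 2681744683) (nat_lit 1748) (nat_lit 8951663098) (nat_lit 413) (nat_lit 5) (nat_lit 412) (nat_lit 5) (nat_lit 435) (nat_lit 5) (nat_lit 441) (nat_lit 429) (nat_lit 270)))))) (XT.nd (nat_lit 390) (nat_lit 1520) (nat_lit 0) (XT.nd (nat_lit 156) (nat_lit 0) (nat_lit 76) (XT.nd (nat_lit 78) (nat_lit 0) (nat_lit 0) (XT.lf (nat_lit 0) (nat_lit 4423657171) (nat_lit 1672) (nat_lit 5536121725) (nat_lit 1748) (nat_lit 2620696153) (nat_lit 413) (nat_lit 5) (nat_lit 435) (nat_lit 5) (nat_lit 436) (nat_lit 5) (nat_lit 442) (nat_lit 429) (nat_lit 269)) (XT.lf (nat_lit 76) (nat_lit 666223929) (nat_lit 0) (nat_lit 4702873832) (nat_lit 1748) (nat_lit 7335147246) (nat_lit 414) (nat_lit 5) (nat_lit 413) (nat_lit 5) (nat_lit 436)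 (nat_lit 5) (nat_lit 443) (nat_lit 429) (nat_lit 268))) (XT.nd (nat_lit 78) (nat_lit 0) (nat_lit 0) (XT.lf (nat_lit 0) (nat_lit 6363951829) (nat_lit 1672) (nat_lit 5774676764) (nat_lit 1748) (nat_lit 691257417) (nat_lit 414) (nat_lit 5) (nat_lit 436) (nat_lit 5) (nat_lit 437) (nat_lit 5) (nat_lit 444) (nat_lit 429) (nat_lit 267)) (XT.nd (nat_lit 78) (nat_lit 0) (nat_lit 0) (XT.lf (nat_lit 76) (nat_lit 582523896) (nat_lit 0) (nat_lit 6820153705) (nat_lit 1748) (nat_lit 5554888370) (nat_lit 415) (nat_lit 5) (nat_lit 414) (nat_lit 5) (nat_lit 437) (nat_lit 5) (nat_lit 445) (nat_lit 429) (nat_lit 266)) (XT.lf (nat_lit 76) (nat_lit 7137292258) (nat_lit 0) (nat_lit 1352848144) (nat_lit 1748) (nat_lit 4597105398) (nat_lit 415) (nat_lit 5) (nat_lit 414) (nat_lit 5) (nat_lit 437) (nat_lit 5) (nat_lit 446) (nat_lit 429) (nat_lit 265))))) (XT.nd (nat_lit 234) (nat_lit 1672) (nat_lit 0) (XT.nd (nat_lit 78) (nat_lit 0) (nat_lit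 0) (XT.lf (nat_lit 76) (nat_lit 575829923) (nat_lit 0) (nat_lit 9044126556) (nat_lit 1748) (nat_lit 3599156075) (nat_lit 416) (nat_lit 5) (nat_lit 415) (nat_lit 5) (nat_lit 438) (nat_lit 5) (nat_lit 447) (nat_lit 429) (nat_lit 264)) (XT.nd (nat_lit 78) (nat_lit 0) (nat_lit 76) (XT.lf (nat_lit 76) (nat_lit 7295820910) (nat_lit 0) (nat_lit 3514973066) (nat_lit 1748) (nat_lit 2542059470) (nat_lit 416) (nat_lit 5) (nat_lit 415) (nat_lit 5) (nat_lit 438) (nat_lit 5) (nat_lit 448) (nat_lit 429) (nat_lit 263)) (XT.lf (nat_lit 76) (nat_lit 647688078) (nat_lit 0) (nat_lit 11385578211) (nat_lit 1748) (nat_lit 1455851706) (nat_lit 417) (nat_lit 5) (nat_lit 416) (nat_lit 5) (nat_lit 439) (nat_lit 5) (nat_lit 449) (nat_lit 429) (nat_lit 262)))) (XT.nd (nat_lit 78) (nat_lit 1748) (nat_lit 0) (XT.lf (nat_lit 76) (nat_lit 7537119132) (nat_lit 0) (nat_lit 5796805443) (nat_lit 1748) (nat_lit 293113628) (nat_lit 417) (nat_lit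 5) (nat_lit 416) (nat_lit 5) (nat_lit 439) (nat_lit 5) (nat_lit 450) (nat_lit 429) (nat_lit 261)) (XT.nd (nat_lit 78) (nat_lit 0) (nat_lit 76) (XT.lf (nat_lit 76) (nat_lit 793346749) (nat_lit 0) (nat_lit 83065619) (nat_lit 1824) (nat_lit 12891288535) (nat_lit 394) (nat_lit 5) (nat_lit 393) (nat_lit 5) (nat_lit 417) (nat_lit 5) (nat_lit 451) (nat_lit 429) (nat_lit 260)) (XT.lf (nat_lit 0) (nat_lit 2134093449) (nat_lit 1748) (nat_lit 6061086730) (nat_lit 1824) (nat_lit 5714588945) (nat_lit 394) (nat_lit 5) (nat_lit 417) (nat_lit 5) (nat_lit 418) (nat_lit 5) (nat_lit 452) (nat_lit 429) (nat_lit 259))))))) (XT.nd (nat_lit 780) (nat_lit 4636) (nat_lit 0) (XT.nd (nat_lit 390) (nat_lit 1824) (nat_lit 0) (XT.nd (nat_lit 156) (nat_lit 2660) (nat_lit 0) (XT.nd (nat_lit 78) (nat_lit 0) (nat_lit 76) (XT.lf (nat_lit 76) (nat_lit 995060315) (nat_lit 0) (nat_lit 2419318202) (nat_lit 1824) (nat_lit 10640355895) (nat_lit 395)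 (nat_lit 5) (nat_lit 394) (nat_lit 5) (nat_lit 418) (nat_lit 5) (nat_lit 453) (nat_lit 429) (nat_lit 258)) (XT.lf (nat_lit 0) (nat_lit 4774341237) (nat_lit 1748) (nat_lit 5958145446) (nat_lit 76) (nat_lit 3469035502) (nat_lit 395) (nat_lit 5) (nat_lit 418) (nat_lit 5) (nat_lit 396) (nat_lit 5) (nat_lit 454) (nat_lit 429) (nat_lit 257))) (XT.nd (nat_lit 78) (nat_lit 988) (nat_lit 0) (XT.lf (nat_lit 0) (nat_lit 1278276681) (nat_lit 1748) (nat_lit 4898319086) (nat_lit 1824) (nat_lit 8174352621) (nat_lit 372) (nat_lit 5) (nat_lit 395) (nat_lit 5) (nat_lit 396) (nat_lit 5) (nat_lit 455) (nat_lit 429) (nat_lit 256)) (XT.nd (nat_lit 78) (nat_lit 988) (nat_lit 0) (XT.lf (nat_lit 0) (nat_lit 7644885744) (nat_lit 1824) (nat_lit 5777493278) (nat_lit 76) (nat_lit 1080228725) (nat_lit 372) (nat_lit 5) (nat_lit 396) (nat_lit 5) (nat_lit 373) (nat_lit 5) (nat_lit 456) (nat_lit 429) (nat_lit 255)) (XT.lf (nat_lit 0) (nat_lit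 1644856649) (nat_lit 988) (nat_lit 7531891358) (nat_lit 1064) (nat_lit 5479872508) (nat_lit 359) (nat_lit 5) (nat_lit 372) (nat_lit 5) (nat_lit 373) (nat_lit 5) (nat_lit 457) (nat_lit 429) (nat_lit 254))))) (XT.nd (nat_lit 156) (nat_lit 912) (nat_lit 0) (XT.nd (nat_lit 78) (nat_lit 912) (nat_lit 0) (XT.lf (nat_lit 0) (nat_lit 9286155304) (nat_lit 988) (nat_lit 1483074038) (nat_lit 1064) (nat_lit 4043888825) (nat_lit 359) (nat_lit 5) (nat_lit 372) (nat_lit 5) (nat_lit 373) (nat_lit 5) (nat_lit 458) (nat_lit 429) (nat_lit 253)) (XT.lf (nat_lit 0) (nat_lit 2096761056) (nat_lit 912) (nat_lit 10332232431) (nat_lit 988) (nat_lit 2543047805) (nat_lit 347) (nat_lit 5) (nat_lit 359) (nat_lit 5) (nat_lit 360) (nat_lit 5) (nat_lit 459) (nat_lit 429) (nat_lit 252))) (XT.nd (nat_lit 78) (nat_lit 912) (nat_lit 0) (XT.lf (nat_lit 0) (nat_lit 9930135078) (nat_lit 912) (nat_lit 4230172288) (nat_lit 988) (nat_lit 973072525) (nat_lit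 347) (nat_lit 5) (nat_lit 359) (nat_lit 5) (nat_lit 360) (nat_lit 5) (nat_lit 460) (nat_lit 429) (nat_lit 251)) (XT.nd (nat_lit 78) (nat_lit 0) (nat_lit 0) (XT.lf (nat_lit 0) (nat_lit 641942336) (nat_lit 912) (nat_lit 12665693985) (nat_lit 76) (nat_lit 1989793686) (nat_lit 335) (nat_lit 5) (nat_lit 347) (nat_lit 5) (nat_lit 336) (nat_lit 5) (nat_lit 461) (nat_lit 429) (nat_lit 250)) (XT.lf (nat_lit 0) (nat_lit 2331136377) (nat_lit 912) (nat_lit 4812680890) (nat_lit 76) (nat_lit 8319720916) (nat_lit 335) (nat_lit 5) (nat_lit 347) (nat_lit 5) (nat_lit 336) (nat_lit 5) (nat_lit 462) (nat_lit 429) (nat_lit 249)))))) (XT.nd (nat_lit 390) (nat_lit 2280) (nat_lit 0) (XT.nd (nat_lit 156) (nat_lit 1520) (nat_lit 0) (XT.nd (nat_lit 78) (nat_lit 0) (nat_lit 0) (XT.lf (nat_lit 0) (nat_lit 3232059834) (nat_lit 836) (nat_lit 834935231) (nat_lit 912) (nat_lit 11565719630) (nat_lit 324) (nat_lit 5) (nat_lit 335) (nat_lit 5)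 (nat_lit 336) (nat_lit 5) (nat_lit 463) (nat_lit 429) (nat_lit 248)) (XT.lf (nat_lit 0) (nat_lit 5898447439) (nat_lit 912) (nat_lit 4346106487) (nat_lit 76) (nat_lit 5559506995) (nat_lit 324) (nat_lit 5) (nat_lit 336) (nat_lit 5) (nat_lit 325) (nat_lit 5) (nat_lit 464) (nat_lit 429) (nat_lit 247))) (XT.nd (nat_lit 78) (nat_lit 760) (nat_lit 0) (XT.lf (nat_lit 0) (nat_lit 3907569019) (nat_lit 760) (nat_lit 3882023751) (nat_lit 836) (nat_lit 8188783663) (nat_lit 314) (nat_lit 5) (nat_lit 324) (nat_lit 5) (nat_lit 325) (nat_lit 5) (nat_lit 465) (nat_lit 429) (nat_lit 246)) (XT.nd (nat_lit 78) (nat_lit 760) (nat_lit 0) (XT.lf (nat_lit 0) (nat_lit 9757118851) (nat_lit 836) (nat_lit 3795279983) (nat_lit 76) (nat_lit 2603011837) (nat_lit 314) (nat_lit 5) (nat_lit 325) (nat_lit 5) (nat_lit 315) (nat_lit 5) (nat_lit 466) (nat_lit 429) (nat_lit 245)) (XT.lf (nat_lit 0) (nat_lit 4673707272) (nat_lit 760) (nat_lit 7138762094)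 (nat_lit 836) (nat_lit 4522550246) (nat_lit 304) (nat_lit 5) (nat_lit 314) (nat_lit 5) (nat_lit 315) (nat_lit 5) (nat_lit 467) (nat_lit 429) (nat_lit 244))))) (XT.nd (nat_lit 234) (nat_lit 1444) (nat_lit 0) (XT.nd (nat_lit 78) (nat_lit 836) (nat_lit 0) (XT.lf (nat_lit 0) (nat_lit 13355932074) (nat_lit 760) (nat_lit 570982839) (nat_lit 836) (nat_lit 2590949491) (nat_lit 304) (nat_lit 5) (nat_lit 314) (nat_lit 5) (nat_lit 315) (nat_lit 5) (nat_lit 468) (nat_lit 429) (nat_lit 243)) (XT.nd (nat_lit 78) (nat_lit 76) (nat_lit 0) (XT.lf (nat_lit 0) (nat_lit 5532619777) (nat_lit 760) (nat_lit 10619404737) (nat_lit 836) (nat_lit 550977438) (nat_lit 294) (nat_lit 5) (nat_lit 304) (nat_lit 5) (nat_lit 305) (nat_lit 5) (nat_lit 469) (nat_lit 429) (nat_lit 242)) (XT.lf (nat_lit 0) (nat_lit 1527579967) (nat_lit 836) (nat_lit 2468987408) (nat_lit 76) (nat_lit 12894722471) (nat_lit 293) (nat_lit 5) (nat_lit 304) (nat_lit 5)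 (nat_lit 294) (nat_lit 5) (nat_lit 470) (nat_lit 429) (nat_lit 241)))) (XT.nd (nat_lit 78) (nat_lit 684) (nat_lit 0) (XT.lf (nat_lit 0) (nat_lit 3693476521) (nat_lit 836) (nat_lit 10620499888) (nat_lit 76) (nat_lit 2768234508) (nat_lit 283) (nat_lit 5) (nat_lit 294) (nat_lit 5) (nat_lit 284) (nat_lit 5) (nat_lit 471) (nat_lit 429) (nat_lit 240)) (XT.nd (nat_lit 78) (nat_lit 684) (nat_lit 0) (XT.lf (nat_lit 0) (nat_lit 5938777919) (nat_lit 836) (nat_lit 1706286543) (nat_lit 76) (nat_lit 9631167318) (nat_lit 283) (nat_lit 5) (nat_lit 294) (nat_lit 5) (nat_lit 284) (nat_lit 5) (nat_lit 472) (nat_lit 429) (nat_lit 239)) (XT.lf (nat_lit 0) (nat_lit 7476838154) (nat_lit 684) (nat_lit 793771832) (nat_lit 760) (nat_lit 9202693626) (nat_lit 274) (nat_lit 5) (nat_lit 283) (nat_lit 5) (nat_lit 284) (nat_lit 5) (nat_lit 473) (nat_lit 429) (nat_lit 238))))))))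
noncomputable def xc212 : XT := (XT.nd (nat_lit 1560) (nat_lit 1596) (nat_lit 0) (XT.nd (nat_lit 780) (nat_lit 2964) (nat_lit 0) (XT.nd (nat_lit 390) (nat_lit 1216) (nat_lit 0) (XT.nd (nat_lit 156) (nat_lit 1444) (nat_lit 0) (XT.nd (nat_lit 78) (nat_lit 684) (nat_lit 0) (XT.lf (nat_lit 0) (nat_lit 10693987921) (nat_lit 760) (nat_lit 855148441) (nat_lit 76) (nat_lit 6124285322) (nat_lit 274) (nat_lit 5) (nat_lit 284) (nat_lit 5) (nat_lit 275) (nat_lit 5) (nat_lit 474) (nat_lit 429) (nat_lit 237)) (XT.lf (nat_lit 0) (nat_lit 8568746110) (nat_lit 684) (nat_lit 4651276298) (nat_lit 760) (nat_lit 4656438857) (nat_lit 265) (nat_lit 5) (nat_lit 274) (nat_lit 5) (nat_lit 275) (nat_lit 5) (nat_lit 475) (nat_lit 429) (nat_lit 236))) (XT.nd (nat_lit 78) (nat_lit 760) (nat_lit 0) (XT.lf (nat_lit 0) (nat_lit 87435329) (nat_lit 684) (nat_lit 15724345978) (nat_lit 760) (nat_lit 2271479128) (nat_lit 256) (nat_lit 5) (nat_lit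 265) (nat_lit 5) (nat_lit 266) (nat_lit 5) (nat_lit 476) (nat_lit 429) (nat_lit 235)) (XT.nd (nat_lit 78) (nat_lit 684) (nat_lit 0) (XT.lf (nat_lit 0) (nat_lit 246155544) (nat_lit 760) (nat_lit 8536048395) (nat_lit 76) (nat_lit 9510231685) (nat_lit 255) (nat_lit 5) (nat_lit 265) (nat_lit 5) (nat_lit 256) (nat_lit 5) (nat_lit 477) (nat_lit 429) (nat_lit 234)) (XT.lf (nat_lit 0) (nat_lit 1105024445) (nat_lit 684) (nat_lit 1679448684) (nat_lit 760) (nat_lit 15721008698) (nat_lit 246) (nat_lit 5) (nat_lit 255) (nat_lit 5) (nat_lit 256) (nat_lit 5) (nat_lit 478) (nat_lit 429) (nat_lit 233))))) (XT.nd (nat_lit 156) (nat_lit 608) (nat_lit 0) (XT.nd (nat_lit 78) (nat_lit 608) (nat_lit 0) (XT.lf (nat_lit 0) (nat_lit 5460967383) (nat_lit 760) (nat_lit 7710954542) (nat_lit 76) (nat_lit 5549121475) (nat_lit 246) (nat_lit 5) (nat_lit 256) (nat_lit 5) (nat_lit 247) (nat_lit 5) (nat_lit 479) (nat_lit 429) (nat_lit 232)) (XT.lf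 (nat_lit 0) (nat_lit 2182561479) (nat_lit 608) (nat_lit 6027463613) (nat_lit 684) (nat_lit 10730513040) (nat_lit 238) (nat_lit 5) (nat_lit 246) (nat_lit 5) (nat_lit 247) (nat_lit 5) (nat_lit 480) (nat_lit 429) (nat_lit 231))) (XT.nd (nat_lit 78) (nat_lit 608) (nat_lit 0) (XT.lf (nat_lit 0) (nat_lit 11068140933) (nat_lit 684) (nat_lit 6800789621) (nat_lit 76) (nat_lit 1294413216) (nat_lit 238) (nat_lit 5) (nat_lit 247) (nat_lit 5) (nat_lit 239) (nat_lit 5) (nat_lit 481) (nat_lit 429) (nat_lit 230)) (XT.nd (nat_lit 78) (nat_lit 0) (nat_lit 0) (XT.lf (nat_lit 0) (nat_lit 3352384527) (nat_lit 608) (nat_lit 10686648554) (nat_lit 684) (nat_lit 5350462658) (nat_lit 230) (nat_lit 5) (nat_lit 238) (nat_lit 5) (nat_lit 239) (nat_lit 5) (nat_lit 482) (nat_lit 429) (nat_lit 229)) (XT.lf (nat_lit 0) (nat_lit 13793649291) (nat_lit 608) (nat_lit 3315334284) (nat_lit 684) (nat_lit 2510396814) (nat_lit 230) (nat_lit 5) (nat_lit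 238) (nat_lit 5) (nat_lit 239) (nat_lit 5) (nat_lit 483) (nat_lit 429) (nat_lit 228)))))) (XT.nd (nat_lit 390) (nat_lit 1140) (nat_lit 0) (XT.nd (nat_lit 156) (nat_lit 1140) (nat_lit 0) (XT.nd (nat_lit 78) (nat_lit 0) (nat_lit 0) (XT.lf (nat_lit 0) (nat_lit 433114770) (nat_lit 684) (nat_lit 15239693726) (nat_lit 76) (nat_lit 4179972144) (nat_lit 221) (nat_lit 5) (nat_lit 230) (nat_lit 5) (nat_lit 222) (nat_lit 5) (nat_lit 484) (nat_lit 429) (nat_lit 227)) (XT.lf (nat_lit 0) (nat_lit 3457364640) (nat_lit 684) (nat_lit 4796421108) (nat_lit 76) (nat_lit 11835623938) (nat_lit 221) (nat_lit 5) (nat_lit 230) (nat_lit 5) (nat_lit 222) (nat_lit 5) (nat_lit 485) (nat_lit 429) (nat_lit 226))) (XT.nd (nat_lit 78) (nat_lit 532) (nat_lit 0) (XT.lf (nat_lit 0) (nat_lit 5926418703) (nat_lit 608) (nat_lit 648416270) (nat_lit 684) (nat_lit 13755283893) (nat_lit 213) (nat_lit 5) (nat_lit 221) (nat_lit 5) (nat_lit 222) (nat_lit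 5) (nat_lit 486) (nat_lit 429) (nat_lit 225)) (XT.nd (nat_lit 78) (nat_lit 532) (nat_lit 0) (XT.lf (nat_lit 0) (nat_lit 9827527181) (nat_lit 684) (nat_lit 3699721698) (nat_lit 76) (nat_lit 7046938122) (nat_lit 213) (nat_lit 5) (nat_lit 222) (nat_lit 5) (nat_lit 214) (nat_lit 5) (nat_lit 487) (nat_lit 429) (nat_lit 224)) (XT.lf (nat_lit 0) (nat_lit 7302874263) (nat_lit 532) (nat_lit 5888535734) (nat_lit 608) (nat_lit 7630805942) (nat_lit 206) (nat_lit 5) (nat_lit 213) (nat_lit 5) (nat_lit 214) (nat_lit 5) (nat_lit 488) (nat_lit 429) (nat_lit 223))))) (XT.nd (nat_lit 156) (nat_lit 608) (nat_lit 0) (XT.nd (nat_lit 78) (nat_lit 532) (nat_lit 0) (XT.lf (nat_lit 0) (nat_lit 16654400123) (nat_lit 608) (nat_lit 2518559699) (nat_lit 76) (nat_lit 1901611173) (nat_lit 206) (nat_lit 5) (nat_lit 214) (nat_lit 5) (nat_lit 207) (nat_lit 5) (nat_lit 489) (nat_lit 429) (nat_lit 222)) (XT.lf (nat_lit 0) (nat_lit 8771412997) (nat_lit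 532) (nat_lit 11505774921) (nat_lit 608) (nat_lit 1052976569) (nat_lit 199) (nat_lit 5) (nat_lit 206) (nat_lit 5) (nat_lit 207) (nat_lit 5) (nat_lit 490) (nat_lit 429) (nat_lit 221))) (XT.nd (nat_lit 78) (nat_lit 532) (nat_lit 0) (XT.lf (nat_lit 0) (nat_lit 2361955239) (nat_lit 608) (nat_lit 1291676595) (nat_lit 76) (nat_lit 17936698205) (nat_lit 198) (nat_lit 5) (nat_lit 206) (nat_lit 5) (nat_lit 199) (nat_lit 5) (nat_lit 491) (nat_lit 429) (nat_lit 220)) (XT.nd (nat_lit 78) (nat_lit 0) (nat_lit 0) (XT.lf (nat_lit 0) (nat_lit 5921599862) (nat_lit 608) (nat_lit 11560699596) (nat_lit 76) (nat_lit 4371451942) (nat_lit 191) (nat_lit 5) (nat_lit 199) (nat_lit 5) (nat_lit 192) (nat_lit 5) (nat_lit 492) (nat_lit 429) (nat_lit 219)) (XT.lf (nat_lit 0) (nat_lit 9580130063) (nat_lit 608) (nat_lit 26349657) (nat_lit 76) (nat_lit 12515409547) (nat_lit 191) (nat_lit 5) (nat_lit 199) (nat_lit 5) (nat_lit 192) (nat_lit 5)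 (nat_lit 493) (nat_lit 429) (nat_lit 218))))))) (XT.nd (nat_lit 54834) (nat_lit 0) (nat_lit 18240) (XT.nd (nat_lit 54444) (nat_lit 0) (nat_lit 19760) (XT.nd (nat_lit 156) (nat_lit 608) (nat_lit 0) (XT.nd (nat_lit 78) (nat_lit 456) (nat_lit 0) (XT.lf (nat_lit 0) (nat_lit 11887921095) (nat_lit 532) (nat_lit 1495967781) (nat_lit 608) (nat_lit 9010061748) (nat_lit 184) (nat_lit 5) (nat_lit 191) (nat_lit 5) (nat_lit 192) (nat_lit 5) (nat_lit 494) (nat_lit 429) (nat_lit 217)) (XT.lf (nat_lit 0) (nat_lit 1336181127) (nat_lit 456) (nat_lit 15975315303) (nat_lit 532) (nat_lit 5359003165) (nat_lit 178) (nat_lit 5) (nat_lit 184) (nat_lit 5) (nat_lit 185) (nat_lit 5) (nat_lit 495) (nat_lit 429) (nat_lit 216))) (XT.nd (nat_lit 78) (nat_lit 608) (nat_lit 0) (XT.lf (nat_lit 0) (nat_lit 13540925984) (nat_lit 456) (nat_lit 7852050242) (nat_lit 532) (nat_lit 1558098737) (nat_lit 178) (nat_lit 5) (nat_lit 184) (nat_lit 5) (nat_lit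 185) (nat_lit 5) (nat_lit 496) (nat_lit 429) (nat_lit 215)) (XT.nd (nat_lit 54132) (nat_lit 0) (nat_lit 19760) (XT.lf (nat_lit 0) (nat_lit 2304442927) (nat_lit 608) (nat_lit 20472606024) (nat_lit 76) (nat_lit 459592912) (nat_lit 170) (nat_lit 5) (nat_lit 178) (nat_lit 5) (nat_lit 171) (nat_lit 5) (nat_lit 497) (nat_lit 429) (nat_lit 214)) (XT.lf (nat_lit 0) (nat_lit 1913536334) (nat_lit 0) (nat_lit 1913536334) (nat_lit 1596) (nat_lit 1844465908) (nat_lit 430) (nat_lit 5) (nat_lit 430) (nat_lit 3) (nat_lit 451) (nat_lit 3) (nat_lit 430) (nat_lit 430) (nat_lit 280))))) (XT.nd (nat_lit 156) (nat_lit 0) (nat_lit 0) (XT.nd (nat_lit 78) (nat_lit 0) (nat_lit 0) (XT.lf (nat_lit 0) (nat_lit 8257944167) (nat_lit 1596) (nat_lit 2189869924) (nat_lit 1672) (nat_lit 997871089) (nat_lit 430) (nat_lit 5) (nat_lit 451) (nat_lit 3) (nat_lit 452) (nat_lit 5) (nat_lit 431) (nat_lit 430) (nat_lit 279)) (XT.lf (nat_lit 76) (nat_lit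 3252951769) (nat_lit 0) (nat_lit 5653718766) (nat_lit 1672) (nat_lit 2643025083) (nat_lit 431) (nat_lit 5) (nat_lit 430) (nat_lit 5) (nat_lit 452) (nat_lit 5) (nat_lit 432) (nat_lit 430) (nat_lit 278))) (XT.nd (nat_lit 78) (nat_lit 0) (nat_lit 76) (XT.lf (nat_lit 76) (nat_lit 8827207470) (nat_lit 0) (nat_lit 742466320) (nat_lit 1672) (nat_lit 2086093566) (nat_lit 431) (nat_lit 5) (nat_lit 430) (nat_lit 5) (nat_lit 452) (nat_lit 5) (nat_lit 433) (nat_lit 430) (nat_lit 277)) (XT.nd (nat_lit 78) (nat_lit 0) (nat_lit 0) (XT.lf (nat_lit 76) (nat_lit 2750074247) (nat_lit 0) (nat_lit 7528332236) (nat_lit 1672) (nat_lit 1484911658) (nat_lit 432) (nat_lit 5) (nat_lit 431) (nat_lit 5) (nat_lit 453) (nat_lit 5) (nat_lit 434) (nat_lit 430) (nat_lit 276)) (XT.lf (nat_lit 76) (nat_lit 8466411513) (nat_lit 0) (nat_lit 2545887621) (nat_lit 1672) (nat_lit 860507963) (nat_lit 432) (nat_lit 5) (nat_lit 431) (nat_lit 5) (nat_lit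 453) (nat_lit 5) (nat_lit 435) (nat_lit 430) (nat_lit 275)))))) (XT.nd (nat_lit 390) (nat_lit 0) (nat_lit 152) (XT.nd (nat_lit 156) (nat_lit 0) (nat_lit 76) (XT.nd (nat_lit 78) (nat_lit 1672) (nat_lit 0) (XT.lf (nat_lit 76) (nat_lit 2319156520) (nat_lit 0) (nat_lit 9460645416) (nat_lit 1672) (nat_lit 204311977) (nat_lit 433) (nat_lit 5) (nat_lit 432) (nat_lit 5) (nat_lit 454) (nat_lit 5) (nat_lit 436) (nat_lit 430) (nat_lit 274)) (XT.lf (nat_lit 0) (nat_lit 486298306) (nat_lit 1672) (nat_lit 3919332501) (nat_lit 1748) (nat_lit 7691414360) (nat_lit 410) (nat_lit 5) (nat_lit 432) (nat_lit 5) (nat_lit 433) (nat_lit 5) (nat_lit 437) (nat_lit 430) (nat_lit 273))) (XT.nd (nat_lit 78) (nat_lit 0) (nat_lit 0) (XT.lf (nat_lit 0) (nat_lit 1193462347) (nat_lit 1672) (nat_lit 10259027782) (nat_lit 1748) (nat_lit 759614700) (nat_lit 411) (nat_lit 5) (nat_lit 433) (nat_lit 5) (nat_lit 434) (nat_lit 5) (nat_lit 438) (nat_lit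 430) (nat_lit 272)) (XT.nd (nat_lit 78) (nat_lit 0) (nat_lit 0) (XT.lf (nat_lit 0) (nat_lit 1958407688) (nat_lit 1672) (nat_lit 4369816427) (nat_lit 1748) (nat_lit 6000375024) (nat_lit 411) (nat_lit 5) (nat_lit 433) (nat_lit 5) (nat_lit 434) (nat_lit 5) (nat_lit 439) (nat_lit 430) (nat_lit 271)) (XT.lf (nat_lit 76) (nat_lit 1651397739) (nat_lit 0) (nat_lit 1086198415) (nat_lit 1748) (nat_lit 9709854389) (nat_lit 412) (nat_lit 5) (nat_lit 411) (nat_lit 5) (nat_lit 434) (nat_lit 5) (nat_lit 440) (nat_lit 430) (nat_lit 270))))) (XT.nd (nat_lit 234) (nat_lit 0) (nat_lit 76) (XT.nd (nat_lit 78) (nat_lit 0) (nat_lit 0) (XT.lf (nat_lit 0) (nat_lit 3577981933) (nat_lit 1672) (nat_lit 4751335590) (nat_lit 1748) (nat_lit 4238455156) (nat_lit 412) (nat_lit 5) (nat_lit 434) (nat_lit 5) (nat_lit 435) (nat_lit 5) (nat_lit 441) (nat_lit 430) (nat_lit 269)) (XT.nd (nat_lit 78) (nat_lit 0) (nat_lit 76) (XT.lf (nat_lit 76) (nat_lit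 1418176347) (nat_lit 0) (nat_lit 3022059496) (nat_lit 1748) (nat_lit 8250170061) (nat_lit 413) (nat_lit 5) (nat_lit 412) (nat_lit 5) (nat_lit 435) (nat_lit 5) (nat_lit 442) (nat_lit 430) (nat_lit 268)) (XT.lf (nat_lit 0) (nat_lit 5356213489) (nat_lit 1672) (nat_lit 5062817007) (nat_lit 1748) (nat_lit 2395737468) (nat_lit 413) (nat_lit 5) (nat_lit 435) (nat_lit 5) (nat_lit 436) (nat_lit 5) (nat_lit 443) (nat_lit 430) (nat_lit 267)))) (XT.nd (nat_lit 78) (nat_lit 0) (nat_lit 76) (XT.lf (nat_lit 76) (nat_lit 1259733276) (nat_lit 0) (nat_lit 5048045908) (nat_lit 1748) (nat_lit 6633498337) (nat_lit 414) (nat_lit 5) (nat_lit 413) (nat_lit 5) (nat_lit 436) (nat_lit 5) (nat_lit 444) (nat_lit 430) (nat_lit 266)) (XT.nd (nat_lit 78) (nat_lit 0) (nat_lit 0) (XT.lf (nat_lit 0) (nat_lit 7304631911) (nat_lit 1672) (nat_lit 5303045146) (nat_lit 1748) (nat_lit 462120618) (nat_lit 414) (nat_lit 5) (nat_lit 436) (nat_lit 5) (nat_lit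 437) (nat_lit 5) (nat_lit 445) (nat_lit 430) (nat_lit 265)) (XT.lf (nat_lit 76) (nat_lit 1177436862) (nat_lit 0) (nat_lit 7174533223) (nat_lit 1748) (nat_lit 4848312589) (nat_lit 415) (nat_lit 5) (nat_lit 414) (nat_lit 5) (nat_lit 437) (nat_lit 5) (nat_lit 446) (nat_lit 430) (nat_lit 264))))))))
noncomputable def xc213 : XT := (XT.nd (nat_lit 1638) (nat_lit 7676) (nat_lit 0) (XT.nd (nat_lit 780) (nat_lit 4408) (nat_lit 0) (XT.nd (nat_lit 390) (nat_lit 1596) (nat_lit 0) (XT.nd (nat_lit 156) (nat_lit 1596) (nat_lit 0) (XT.nd (nat_lit 78) (nat_lit 0) (nat_lit 76) (XT.lf (nat_lit 76) (nat_lit 7851864072) (nat_lit 0) (nat_lit 1593607503) (nat_lit 1748) (nat_lit 3887406771) (nat_lit 415) (nat_lit 5) (nat_lit 414) (nat_lit 5) (nat_lit 437) (nat_lit 5) (nat_lit 447) (nat_lit 430) (nat_lit 263)) (XT.lf (nat_lit 76) (nat_lit 1172795214) (nat_lit 0) (nat_lit 9412127072) (nat_lit 1748) (nat_lit 2882727262) (nat_lit 416)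 (nat_lit 5) (nat_lit 415) (nat_lit 5) (nat_lit 438) (nat_lit 5) (nat_lit 448) (nat_lit 430) (nat_lit 262))) (XT.nd (nat_lit 78) (nat_lit 1672) (nat_lit 0) (XT.lf (nat_lit 76) (nat_lit 8015706635) (nat_lit 0) (nat_lit 3768721533) (nat_lit 1748) (nat_lit 1819947782) (nat_lit 416) (nat_lit 5) (nat_lit 415) (nat_lit 5) (nat_lit 438) (nat_lit 5) (nat_lit 449) (nat_lit 430) (nat_lit 261)) (XT.nd (nat_lit 78) (nat_lit 1748) (nat_lit 0) (XT.lf (nat_lit 76) (nat_lit 1247450633) (nat_lit 0) (nat_lit 11771690187) (nat_lit 1748) (nat_lit 724476724) (nat_lit 417) (nat_lit 5) (nat_lit 416) (nat_lit 5) (nat_lit 439) (nat_lit 5) (nat_lit 450) (nat_lit 430) (nat_lit 260)) (XT.lf (nat_lit 0) (nat_lit 440747209) (nat_lit 1748) (nat_lit 5624331218) (nat_lit 1824) (nat_lit 7819459398) (nat_lit 393) (nat_lit 5) (nat_lit 416) (nat_lit 5) (nat_lit 417) (nat_lit 5) (nat_lit 451) (nat_lit 430) (nat_lit 259))))) (XT.nd (nat_lit 156) (nat_lit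 1596) (nat_lit 0) (XT.nd (nat_lit 78) (nat_lit 0) (nat_lit 76) (XT.lf (nat_lit 76) (nat_lit 1390807156) (nat_lit 0) (nat_lit 228284047) (nat_lit 1824) (nat_lit 12409103917) (nat_lit 394) (nat_lit 5) (nat_lit 393) (nat_lit 5) (nat_lit 417) (nat_lit 5) (nat_lit 452) (nat_lit 430) (nat_lit 258)) (XT.lf (nat_lit 0) (nat_lit 2886793474) (nat_lit 1748) (nat_lit 5596636562) (nat_lit 1824) (nat_lit 5689984314) (nat_lit 394) (nat_lit 5) (nat_lit 417) (nat_lit 5) (nat_lit 418) (nat_lit 5) (nat_lit 453) (nat_lit 430) (nat_lit 257))) (XT.nd (nat_lit 78) (nat_lit 1672) (nat_lit 0) (XT.lf (nat_lit 76) (nat_lit 1596780320) (nat_lit 0) (nat_lit 2585759553) (nat_lit 1824) (nat_lit 10138948817) (nat_lit 395) (nat_lit 5) (nat_lit 394) (nat_lit 5) (nat_lit 418) (nat_lit 5) (nat_lit 454) (nat_lit 430) (nat_lit 256)) (XT.nd (nat_lit 78) (nat_lit 1748) (nat_lit 0) (XT.lf (nat_lit 0) (nat_lit 5555227370) (nat_lit 1748) (nat_lit 5492087081)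 (nat_lit 76) (nat_lit 3424193981) (nat_lit 395) (nat_lit 5) (nat_lit 418) (nat_lit 5) (nat_lit 396) (nat_lit 5) (nat_lit 455) (nat_lit 430) (nat_lit 255)) (XT.lf (nat_lit 0) (nat_lit 1885213348) (nat_lit 1748) (nat_lit 5090649087) (nat_lit 1824) (nat_lit 7648260608) (nat_lit 372) (nat_lit 5) (nat_lit 395) (nat_lit 5) (nat_lit 396) (nat_lit 5) (nat_lit 456) (nat_lit 430) (nat_lit 254)))))) (XT.nd (nat_lit 390) (nat_lit 2508) (nat_lit 0) (XT.nd (nat_lit 156) (nat_lit 912) (nat_lit 0) (XT.nd (nat_lit 78) (nat_lit 988) (nat_lit 0) (XT.lf (nat_lit 0) (nat_lit 8459667853) (nat_lit 1824) (nat_lit 5308897930) (nat_lit 76) (nat_lit 1010533277) (nat_lit 372) (nat_lit 5) (nat_lit 396) (nat_lit 5) (nat_lit 373) (nat_lit 5) (nat_lit 457) (nat_lit 430) (nat_lit 253)) (XT.lf (nat_lit 0) (nat_lit 2258055935) (nat_lit 988) (nat_lit 7754901007) (nat_lit 1064) (nat_lit 4923425686) (nat_lit 359) (nat_lit 5) (nat_lit 372) (nat_lit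 5) (nat_lit 373) (nat_lit 5) (nat_lit 458) (nat_lit 430) (nat_lit 252))) (XT.nd (nat_lit 78) (nat_lit 912) (nat_lit 0) (XT.lf (nat_lit 0) (nat_lit 10040802090) (nat_lit 988) (nat_lit 1583688286) (nat_lit 1064) (nat_lit 3471782021) (nat_lit 359) (nat_lit 5) (nat_lit 372) (nat_lit 5) (nat_lit 373) (nat_lit 5) (nat_lit 459) (nat_lit 430) (nat_lit 251)) (XT.nd (nat_lit 78) (nat_lit 0) (nat_lit 0) (XT.lf (nat_lit 0) (nat_lit 2717356577) (nat_lit 912) (nat_lit 10590852036) (nat_lit 988) (nat_lit 1950356284) (nat_lit 347) (nat_lit 5) (nat_lit 359) (nat_lit 5) (nat_lit 360) (nat_lit 5) (nat_lit 460) (nat_lit 430) (nat_lit 250)) (XT.lf (nat_lit 0) (nat_lit 10696051799) (nat_lit 912) (nat_lit 4365731573) (nat_lit 988) (nat_lit 361600174) (nat_lit 347) (nat_lit 5) (nat_lit 359) (nat_lit 5) (nat_lit 360) (nat_lit 5) (nat_lit 461) (nat_lit 430) (nat_lit 249))))) (XT.nd (nat_lit 234) (nat_lit 760) (nat_lit 0) (XT.nd (nat_lit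 78) (nat_lit 836) (nat_lit 0) (XT.lf (nat_lit 0) (nat_lit 1268672423) (nat_lit 912) (nat_lit 12334071642) (nat_lit 76) (nat_lit 1988069765) (nat_lit 335) (nat_lit 5) (nat_lit 347) (nat_lit 5) (nat_lit 336) (nat_lit 5) (nat_lit 462) (nat_lit 430) (nat_lit 248)) (XT.nd (nat_lit 78) (nat_lit 836) (nat_lit 0) (XT.lf (nat_lit 0) (nat_lit 2979613262) (nat_lit 912) (nat_lit 4335467623) (nat_lit 76) (nat_lit 8445409653) (nat_lit 335) (nat_lit 5) (nat_lit 347) (nat_lit 5) (nat_lit 336) (nat_lit 5) (nat_lit 463) (nat_lit 430) (nat_lit 247)) (XT.lf (nat_lit 0) (nat_lit 3866395107) (nat_lit 836) (nat_lit 875691786) (nat_lit 912) (nat_lit 11191131248) (nat_lit 324) (nat_lit 5) (nat_lit 335) (nat_lit 5) (nat_lit 336) (nat_lit 5) (nat_lit 464) (nat_lit 430) (nat_lit 246)))) (XT.nd (nat_lit 78) (nat_lit 760) (nat_lit 0) (XT.lf (nat_lit 0) (nat_lit 6598372983) (nat_lit 912) (nat_lit 3862439280) (nat_lit 76) (nat_lit 5647420343)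 (nat_lit 324) (nat_lit 5) (nat_lit 336) (nat_lit 5) (nat_lit 325) (nat_lit 5) (nat_lit 465) (nat_lit 430) (nat_lit 245)) (XT.nd (nat_lit 78) (nat_lit 0) (nat_lit 0) (XT.lf (nat_lit 0) (nat_lit 4552555859) (nat_lit 760) (nat_lit 3967054720) (nat_lit 836) (nat_lit 7766583764) (nat_lit 314) (nat_lit 5) (nat_lit 324) (nat_lit 5) (nat_lit 325) (nat_lit 5) (nat_lit 466) (nat_lit 430) (nat_lit 244)) (XT.lf (nat_lit 0) (nat_lit 10515180806) (nat_lit 836) (nat_lit 3303898266) (nat_lit 76) (nat_lit 2647921518) (nat_lit 314) (nat_lit 5) (nat_lit 325) (nat_lit 5) (nat_lit 315) (nat_lit 5) (nat_lit 467) (nat_lit 430) (nat_lit 243))))))) (XT.nd (nat_lit 780) (nat_lit 3268) (nat_lit 0) (XT.nd (nat_lit 390) (nat_lit 2052) (nat_lit 0) (XT.nd (nat_lit 156) (nat_lit 1596) (nat_lit 0) (XT.nd (nat_lit 78) (nat_lit 0) (nat_lit 0) (XT.lf (nat_lit 0) (nat_lit 5330736580) (nat_lit 760) (nat_lit 7273523087) (nat_lit 836) (nat_lit 4046094714)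 (nat_lit 304) (nat_lit 5) (nat_lit 314) (nat_lit 5) (nat_lit 315) (nat_lit 5) (nat_lit 468) (nat_lit 430) (nat_lit 242)) (XT.lf (nat_lit 0) (nat_lit 14175555777) (nat_lit 760) (nat_lit 574545388) (nat_lit 836) (nat_lit 2086977758) (nat_lit 304) (nat_lit 5) (nat_lit 314) (nat_lit 5) (nat_lit 315) (nat_lit 5) (nat_lit 469) (nat_lit 430) (nat_lit 241))) (XT.nd (nat_lit 78) (nat_lit 836) (nat_lit 0) (XT.lf (nat_lit 0) (nat_lit 6203161115) (nat_lit 760) (nat_lit 10809557656) (nat_lit 836) (nat_lit 13345234) (nat_lit 294) (nat_lit 5) (nat_lit 304) (nat_lit 5) (nat_lit 305) (nat_lit 5) (nat_lit 470) (nat_lit 430) (nat_lit 240)) (XT.nd (nat_lit 78) (nat_lit 760) (nat_lit 0) (XT.lf (nat_lit 0) (nat_lit 2088970867) (nat_lit 836) (nat_lit 1962166453) (nat_lit 76) (nat_lit 13167126137) (nat_lit 293) (nat_lit 5) (nat_lit 304) (nat_lit 5) (nat_lit 294) (nat_lit 5) (nat_lit 471) (nat_lit 430) (nat_lit 239)) (XT.lf (nat_lit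 0) (nat_lit 4291549396) (nat_lit 836) (nat_lit 10269842443) (nat_lit 76) (nat_lit 2851748445) (nat_lit 283) (nat_lit 5) (nat_lit 294) (nat_lit 5) (nat_lit 284) (nat_lit 5) (nat_lit 472) (nat_lit 430) (nat_lit 238))))) (XT.nd (nat_lit 156) (nat_lit 1368) (nat_lit 0) (XT.nd (nat_lit 78) (nat_lit 684) (nat_lit 0) (XT.lf (nat_lit 0) (nat_lit 6571478325) (nat_lit 836) (nat_lit 1188385369) (nat_lit 76) (nat_lit 9851387965) (nat_lit 283) (nat_lit 5) (nat_lit 294) (nat_lit 5) (nat_lit 284) (nat_lit 5) (nat_lit 473) (nat_lit 430) (nat_lit 237)) (XT.lf (nat_lit 0) (nat_lit 8174770067) (nat_lit 684) (nat_lit 768660554) (nat_lit 760) (nat_lit 8868969071) (nat_lit 274) (nat_lit 5) (nat_lit 283) (nat_lit 5) (nat_lit 284) (nat_lit 5) (nat_lit 474) (nat_lit 430) (nat_lit 236))) (XT.nd (nat_lit 78) (nat_lit 1368) (nat_lit 0) (XT.lf (nat_lit 0) (nat_lit 11405587824) (nat_lit 760) (nat_lit 324703343) (nat_lit 76) (nat_lit 6286427074)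 (nat_lit 274) (nat_lit 5) (nat_lit 284) (nat_lit 5) (nat_lit 275) (nat_lit 5) (nat_lit 475) (nat_lit 430) (nat_lit 235)) (XT.nd (nat_lit 78) (nat_lit 684) (nat_lit 0) (XT.lf (nat_lit 0) (nat_lit 9284066810) (nat_lit 684) (nat_lit 4691848630) (nat_lit 760) (nat_lit 4248031990) (nat_lit 265) (nat_lit 5) (nat_lit 274) (nat_lit 5) (nat_lit 275) (nat_lit 5) (nat_lit 476) (nat_lit 430) (nat_lit 234)) (XT.lf (nat_lit 0) (nat_lit 639189890) (nat_lit 684) (nat_lit 15974587403) (nat_lit 760) (nat_lit 1821224114) (nat_lit 256) (nat_lit 5) (nat_lit 265) (nat_lit 5) (nat_lit 266) (nat_lit 5) (nat_lit 477) (nat_lit 430) (nat_lit 233)))))) (XT.nd (nat_lit 390) (nat_lit 1900) (nat_lit 0) (XT.nd (nat_lit 156) (nat_lit 608) (nat_lit 0) (XT.nd (nat_lit 78) (nat_lit 684) (nat_lit 0) (XT.lf (nat_lit 0) (nat_lit 730670423) (nat_lit 760) (nat_lit 8160973503) (nat_lit 76) (nat_lit 9756847664) (nat_lit 255) (nat_lit 5) (nat_lit 265)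 (nat_lit 5) (nat_lit 256) (nat_lit 5) (nat_lit 478) (nat_lit 430) (nat_lit 232)) (XT.lf (nat_lit 0) (nat_lit 1669330032) (nat_lit 684) (nat_lit 1644540922) (nat_lit 760) (nat_lit 15552049369) (nat_lit 246) (nat_lit 5) (nat_lit 255) (nat_lit 5) (nat_lit 256) (nat_lit 5) (nat_lit 479) (nat_lit 430) (nat_lit 231))) (XT.nd (nat_lit 78) (nat_lit 608) (nat_lit 0) (XT.lf (nat_lit 0) (nat_lit 6035042700) (nat_lit 760) (nat_lit 7324554503) (nat_lit 76) (nat_lit 5726376834) (nat_lit 246) (nat_lit 5) (nat_lit 256) (nat_lit 5) (nat_lit 247) (nat_lit 5) (nat_lit 480) (nat_lit 430) (nat_lit 230)) (XT.nd (nat_lit 78) (nat_lit 0) (nat_lit 0) (XT.lf (nat_lit 0) (nat_lit 2763275133) (nat_lit 608) (nat_lit 6070178574) (nat_lit 684) (nat_lit 10476521303) (nat_lit 238) (nat_lit 5) (nat_lit 246) (nat_lit 5) (nat_lit 247) (nat_lit 5) (nat_lit 481) (nat_lit 430) (nat_lit 229)) (XT.lf (nat_lit 0) (nat_lit 11740222835) (nat_lit 684)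 (nat_lit 6401578983) (nat_lit 76) (nat_lit 1395608834) (nat_lit 238) (nat_lit 5) (nat_lit 247) (nat_lit 5) (nat_lit 239) (nat_lit 5) (nat_lit 482) (nat_lit 430) (nat_lit 228))))) (XT.nd (nat_lit 234) (nat_lit 608) (nat_lit 0) (XT.nd (nat_lit 78) (nat_lit 684) (nat_lit 0) (XT.lf (nat_lit 0) (nat_lit 3951137421) (nat_lit 608) (nat_lit 10814009958) (nat_lit 684) (nat_lit 5003049630) (nat_lit 230) (nat_lit 5) (nat_lit 238) (nat_lit 5) (nat_lit 239) (nat_lit 5) (nat_lit 483) (nat_lit 430) (nat_lit 227)) (XT.nd (nat_lit 78) (nat_lit 684) (nat_lit 0) (XT.lf (nat_lit 0) (nat_lit 14590801888) (nat_lit 608) (nat_lit 3296962962) (nat_lit 684) (nat_lit 2115092710) (nat_lit 230) (nat_lit 5) (nat_lit 238) (nat_lit 5) (nat_lit 239) (nat_lit 5) (nat_lit 484) (nat_lit 430) (nat_lit 226)) (XT.lf (nat_lit 0) (nat_lit 876806524) (nat_lit 684) (nat_lit 15012379025) (nat_lit 76) (nat_lit 4351778638) (nat_lit 221) (nat_lit 5) (nat_lit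 230) (nat_lit 5) (nat_lit 222) (nat_lit 5) (nat_lit 485) (nat_lit 430) (nat_lit 225)))) (XT.nd (nat_lit 78) (nat_lit 608) (nat_lit 0) (XT.lf (nat_lit 0) (nat_lit 3953011403) (nat_lit 684) (nat_lit 4370674456) (nat_lit 76) (nat_lit 12158813917) (nat_lit 221) (nat_lit 5) (nat_lit 230) (nat_lit 5) (nat_lit 222) (nat_lit 5) (nat_lit 486) (nat_lit 430) (nat_lit 224)) (XT.nd (nat_lit 78) (nat_lit 0) (nat_lit 0) (XT.lf (nat_lit 0) (nat_lit 6563190078) (nat_lit 608) (nat_lit 564643107) (nat_lit 684) (nat_lit 13600293210) (nat_lit 213) (nat_lit 5) (nat_lit 221) (nat_lit 5) (nat_lit 222) (nat_lit 5) (nat_lit 487) (nat_lit 430) (nat_lit 223)) (XT.lf (nat_lit 0) (nat_lit 10437930296) (nat_lit 684) (nat_lit 3257824230) (nat_lit 76) (nat_lit 7281477578) (nat_lit 213) (nat_lit 5) (nat_lit 222) (nat_lit 5) (nat_lit 214) (nat_lit 5) (nat_lit 488) (nat_lit 430) (nat_lit 222))))))))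
noncomputable def xc214 : XT := (XT.nd (nat_lit 55770) (nat_lit 0) (nat_lit 11932) (XT.nd (nat_lit 54912) (nat_lit 0) (nat_lit 17556) (XT.nd (nat_lit 390) (nat_lit 988) (nat_lit 0) (XT.nd (nat_lit 156) (nat_lit 1140) (nat_lit 0) (XT.nd (nat_lit 78) (nat_lit 0) (nat_lit 0) (XT.lf (nat_lit 0) (nat_lit 7961429624) (nat_lit 532) (nat_lit 5902873863) (nat_lit 608) (nat_lit 7366017047) (nat_lit 206) (nat_lit 5) (nat_lit 213) (nat_lit 5) (nat_lit 214) (nat_lit 5) (nat_lit 489) (nat_lit 430) (nat_lit 221)) (XT.lf (nat_lit 0) (nat_lit 17389190914) (nat_lit 608) (nat_lit 2058964181) (nat_lit 76) (nat_lit 2039717954) (nat_lit 206) (nat_lit 5) (nat_lit 214) (nat_lit 5) (nat_lit 207) (nat_lit 5) (nat_lit 490) (nat_lit 430) (nat_lit 220))) (XT.nd (nat_lit 78) (nat_lit 608) (nat_lit 0) (XT.lf (nat_lit 0) (nat_lit 9453452925) (nat_lit 532) (nat_lit 11626394273) (nat_lit 608) (nat_lit 668826002) (nat_lit 199) (nat_lit 5) (nat_lit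 206) (nat_lit 5) (nat_lit 207) (nat_lit 5) (nat_lit 491) (nat_lit 430) (nat_lit 219)) (XT.nd (nat_lit 78) (nat_lit 532) (nat_lit 0) (XT.lf (nat_lit 0) (nat_lit 2801248947) (nat_lit 608) (nat_lit 815475468) (nat_lit 76) (nat_lit 18397424780) (nat_lit 198) (nat_lit 5) (nat_lit 206) (nat_lit 5) (nat_lit 199) (nat_lit 5) (nat_lit 492) (nat_lit 430) (nat_lit 218)) (XT.lf (nat_lit 0) (nat_lit 6428358722) (nat_lit 608) (nat_lit 11286007704) (nat_lit 76) (nat_lit 4568549982) (nat_lit 191) (nat_lit 5) (nat_lit 199) (nat_lit 5) (nat_lit 192) (nat_lit 5) (nat_lit 493) (nat_lit 430) (nat_lit 217))))) (XT.nd (nat_lit 156) (nat_lit 456) (nat_lit 0) (XT.nd (nat_lit 78) (nat_lit 0) (nat_lit 0) (XT.lf (nat_lit 0) (nat_lit 475343728) (nat_lit 532) (nat_lit 9680187793) (nat_lit 608) (nat_lit 12400978884) (nat_lit 184) (nat_lit 5) (nat_lit 191) (nat_lit 5) (nat_lit 192) (nat_lit 5) (nat_lit 494) (nat_lit 430) (nat_lit 216)) (XT.lf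 (nat_lit 0) (nat_lit 12618402611) (nat_lit 532) (nat_lit 1409610785) (nat_lit 608) (nat_lit 8806149394) (nat_lit 184) (nat_lit 5) (nat_lit 191) (nat_lit 5) (nat_lit 192) (nat_lit 5) (nat_lit 495) (nat_lit 430) (nat_lit 215))) (XT.nd (nat_lit 78) (nat_lit 0) (nat_lit 0) (XT.lf (nat_lit 0) (nat_lit 1859252675) (nat_lit 456) (nat_lit 16171501877) (nat_lit 532) (nat_lit 5085559262) (nat_lit 178) (nat_lit 5) (nat_lit 184) (nat_lit 5) (nat_lit 185) (nat_lit 5) (nat_lit 496) (nat_lit 430) (nat_lit 214)) (XT.nd (nat_lit 54210) (nat_lit 0) (nat_lit 19152) (XT.lf (nat_lit 0) (nat_lit 14298360117) (nat_lit 456) (nat_lit 7888189549) (nat_lit 532) (nat_lit 1216099961) (nat_lit 178) (nat_lit 5) (nat_lit 184) (nat_lit 5) (nat_lit 185) (nat_lit 5) (nat_lit 497) (nat_lit 430) (nat_lit 213)) (XT.lf (nat_lit 0) (nat_lit 2210462938) (nat_lit 0) (nat_lit 2210462938) (nat_lit 1596) (nat_lit 1353421442) (nat_lit 430) (nat_lit 5) (nat_lit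 430) (nat_lit 3) (nat_lit 451) (nat_lit 3) (nat_lit 431) (nat_lit 431) (nat_lit 278)))))) (XT.nd (nat_lit 390) (nat_lit 0) (nat_lit 76) (XT.nd (nat_lit 156) (nat_lit 1596) (nat_lit 0) (XT.nd (nat_lit 78) (nat_lit 0) (nat_lit 0) (XT.lf (nat_lit 0) (nat_lit 9434146951) (nat_lit 1596) (nat_lit 1702378553) (nat_lit 1672) (nat_lit 517311728) (nat_lit 430) (nat_lit 5) (nat_lit 451) (nat_lit 3) (nat_lit 452) (nat_lit 5) (nat_lit 432) (nat_lit 431) (nat_lit 277)) (XT.lf (nat_lit 76) (nat_lit 3845804253) (nat_lit 0) (nat_lit 6233645989) (nat_lit 1672) (nat_lit 1680816193) (nat_lit 431) (nat_lit 5) (nat_lit 430) (nat_lit 5) (nat_lit 452) (nat_lit 5) (nat_lit 433) (nat_lit 431) (nat_lit 276))) (XT.nd (nat_lit 78) (nat_lit 1596) (nat_lit 0) (XT.lf (nat_lit 76) (nat_lit 9521196177) (nat_lit 0) (nat_lit 1215014517) (nat_lit 1672) (nat_lit 1132649367) (nat_lit 431) (nat_lit 5) (nat_lit 430) (nat_lit 5) (nat_lit 452) (nat_lit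 5) (nat_lit 434) (nat_lit 431) (nat_lit 275)) (XT.nd (nat_lit 78) (nat_lit 1672) (nat_lit 0) (XT.lf (nat_lit 76) (nat_lit 3341959097) (nat_lit 0) (nat_lit 8098610870) (nat_lit 1672) (nat_lit 538373047) (nat_lit 432) (nat_lit 5) (nat_lit 431) (nat_lit 5) (nat_lit 453) (nat_lit 5) (nat_lit 435) (nat_lit 431) (nat_lit 274)) (XT.lf (nat_lit 0) (nat_lit 78335781) (nat_lit 1672) (nat_lit 2929426260) (nat_lit 1748) (nat_lit 9083234528) (nat_lit 409) (nat_lit 5) (nat_lit 431) (nat_lit 5) (nat_lit 432) (nat_lit 5) (nat_lit 436) (nat_lit 431) (nat_lit 273))))) (XT.nd (nat_lit 234) (nat_lit 0) (nat_lit 76) (XT.nd (nat_lit 78) (nat_lit 0) (nat_lit 0) (XT.lf (nat_lit 0) (nat_lit 721280242) (nat_lit 1672) (nat_lit 9299427590) (nat_lit 1748) (nat_lit 2184096323) (nat_lit 410) (nat_lit 5) (nat_lit 432) (nat_lit 5) (nat_lit 433) (nat_lit 5) (nat_lit 437) (nat_lit 431) (nat_lit 272)) (XT.nd (nat_lit 78) (nat_lit 0) (nat_lit 76)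 (XT.lf (nat_lit 0) (nat_lit 1404794154) (nat_lit 1672) (nat_lit 3451174159) (nat_lit 1748) (nat_lit 7464371584) (nat_lit 410) (nat_lit 5) (nat_lit 432) (nat_lit 5) (nat_lit 433) (nat_lit 5) (nat_lit 438) (nat_lit 431) (nat_lit 271)) (XT.lf (nat_lit 0) (nat_lit 2109525300) (nat_lit 1672) (nat_lit 9900625627) (nat_lit 1748) (nat_lit 427890580) (nat_lit 411) (nat_lit 5) (nat_lit 433) (nat_lit 5) (nat_lit 434) (nat_lit 5) (nat_lit 439) (nat_lit 431) (nat_lit 270)))) (XT.nd (nat_lit 78) (nat_lit 0) (nat_lit 0) (XT.lf (nat_lit 0) (nat_lit 2872275554) (nat_lit 1672) (nat_lit 3904680686) (nat_lit 1748) (nat_lit 5780268393) (nat_lit 411) (nat_lit 5) (nat_lit 433) (nat_lit 5) (nat_lit 434) (nat_lit 5) (nat_lit 440) (nat_lit 431) (nat_lit 269)) (XT.nd (nat_lit 78) (nat_lit 0) (nat_lit 76) (XT.lf (nat_lit 76) (nat_lit 2233322684) (nat_lit 0) (nat_lit 1420137934) (nat_lit 1748) (nat_lit 9025273063) (nat_lit 412) (nat_lit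 5) (nat_lit 411) (nat_lit 5) (nat_lit 434) (nat_lit 5) (nat_lit 441) (nat_lit 431) (nat_lit 268)) (XT.lf (nat_lit 0) (nat_lit 4491782190) (nat_lit 1672) (nat_lit 4288921151) (nat_lit 1748) (nat_lit 4021145056) (nat_lit 412) (nat_lit 5) (nat_lit 434) (nat_lit 5) (nat_lit 435) (nat_lit 5) (nat_lit 442) (nat_lit 431) (nat_lit 267))))))) (XT.nd (nat_lit 780) (nat_lit 4408) (nat_lit 0) (XT.nd (nat_lit 390) (nat_lit 1444) (nat_lit 0) (XT.nd (nat_lit 156) (nat_lit 0) (nat_lit 76) (XT.nd (nat_lit 78) (nat_lit 0) (nat_lit 76) (XT.lf (nat_lit 76) (nat_lit 2000313649) (nat_lit 0) (nat_lit 3358048474) (nat_lit 1748) (nat_lit 7568839073) (nat_lit 413) (nat_lit 5) (nat_lit 412) (nat_lit 5) (nat_lit 435) (nat_lit 5) (nat_lit 443) (nat_lit 431) (nat_lit 266)) (XT.lf (nat_lit 0) (nat_lit 6274644154) (nat_lit 1672) (nat_lit 4602724680) (nat_lit 1748) (nat_lit 2177050325) (nat_lit 413) (nat_lit 5) (nat_lit 435) (nat_lit 5) (nat_lit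 436) (nat_lit 5) (nat_lit 444) (nat_lit 431) (nat_lit 265))) (XT.nd (nat_lit 78) (nat_lit 0) (nat_lit 76) (XT.lf (nat_lit 76) (nat_lit 1842583526) (nat_lit 0) (nat_lit 5390370340) (nat_lit 1748) (nat_lit 5950758986) (nat_lit 414) (nat_lit 5) (nat_lit 413) (nat_lit 5) (nat_lit 436) (nat_lit 5) (nat_lit 445) (nat_lit 431) (nat_lit 264)) (XT.nd (nat_lit 78) (nat_lit 0) (nat_lit 0) (XT.lf (nat_lit 0) (nat_lit 8232540241) (nat_lit 1672) (nat_lit 4844779680) (nat_lit 1748) (nat_lit 237835591) (nat_lit 414) (nat_lit 5) (nat_lit 436) (nat_lit 5) (nat_lit 437) (nat_lit 5) (nat_lit 446) (nat_lit 431) (nat_lit 263)) (XT.lf (nat_lit 76) (nat_lit 1761599294) (nat_lit 0) (nat_lit 7527536041) (nat_lit 1748) (nat_lit 4159356552) (nat_lit 415) (nat_lit 5) (nat_lit 414) (nat_lit 5) (nat_lit 437) (nat_lit 5) (nat_lit 447) (nat_lit 431) (nat_lit 262))))) (XT.nd (nat_lit 156) (nat_lit 1596) (nat_lit 0) (XT.nd (nat_lit 78) (nat_lit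 0) (nat_lit 76) (XT.lf (nat_lit 76) (nat_lit 8558522624) (nat_lit 0) (nat_lit 1830883724) (nat_lit 1748) (nat_lit 3194642859) (nat_lit 415) (nat_lit 5) (nat_lit 414) (nat_lit 5) (nat_lit 437) (nat_lit 5) (nat_lit 448) (nat_lit 431) (nat_lit 261)) (XT.lf (nat_lit 76) (nat_lit 1758966125) (nat_lit 0) (nat_lit 9780221579) (nat_lit 1748) (nat_lit 2182584869) (nat_lit 416) (nat_lit 5) (nat_lit 415) (nat_lit 5) (nat_lit 438) (nat_lit 5) (nat_lit 449) (nat_lit 431) (nat_lit 260))) (XT.nd (nat_lit 78) (nat_lit 1672) (nat_lit 0) (XT.lf (nat_lit 76) (nat_lit 8727702146) (nat_lit 0) (nat_lit 4020421420) (nat_lit 1748) (nat_lit 1113408563) (nat_lit 416) (nat_lit 5) (nat_lit 415) (nat_lit 5) (nat_lit 438) (nat_lit 5) (nat_lit 450) (nat_lit 431) (nat_lit 259)) (XT.nd (nat_lit 78) (nat_lit 1748) (nat_lit 0) (XT.lf (nat_lit 76) (nat_lit 1836421939) (nat_lit 0) (nat_lit 12159373521) (nat_lit 1748) (nat_lit 8005073) (nat_lit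 417) (nat_lit 5) (nat_lit 416) (nat_lit 5) (nat_lit 439) (nat_lit 5) (nat_lit 451) (nat_lit 431) (nat_lit 258)) (XT.lf (nat_lit 0) (nat_lit 1156792052) (nat_lit 1748) (nat_lit 5174106304) (nat_lit 1824) (nat_lit 7816835835) (nat_lit 393) (nat_lit 5) (nat_lit 416) (nat_lit 5) (nat_lit 417) (nat_lit 5) (nat_lit 452) (nat_lit 431) (nat_lit 257)))))) (XT.nd (nat_lit 390) (nat_lit 2812) (nat_lit 0) (XT.nd (nat_lit 156) (nat_lit 1596) (nat_lit 0) (XT.nd (nat_lit 78) (nat_lit 0) (nat_lit 76) (XT.lf (nat_lit 76) (nat_lit 1977632788) (nat_lit 0) (nat_lit 370832346) (nat_lit 1824) (nat_lit 11946011112) (nat_lit 394) (nat_lit 5) (nat_lit 393) (nat_lit 5) (nat_lit 417) (nat_lit 5) (nat_lit 453) (nat_lit 431) (nat_lit 256)) (XT.lf (nat_lit 0) (nat_lit 3626976630) (nat_lit 1748) (nat_lit 5145639744) (nat_lit 1824) (nat_lit 5670281107) (nat_lit 394) (nat_lit 5) (nat_lit 417) (nat_lit 5) (nat_lit 418) (nat_lit 5) (nat_lit 454)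 (nat_lit 431) (nat_lit 255))) (XT.nd (nat_lit 78) (nat_lit 1672) (nat_lit 0) (XT.lf (nat_lit 76) (nat_lit 2187941991) (nat_lit 0) (nat_lit 2750945513) (nat_lit 1824) (nat_lit 9655247405) (nat_lit 395) (nat_lit 5) (nat_lit 394) (nat_lit 5) (nat_lit 418) (nat_lit 5) (nat_lit 455) (nat_lit 431) (nat_lit 254)) (XT.nd (nat_lit 78) (nat_lit 1748) (nat_lit 0) (XT.lf (nat_lit 0) (nat_lit 6325116335) (nat_lit 1748) (nat_lit 5039432404) (nat_lit 76) (nat_lit 3382891019) (nat_lit 395) (nat_lit 5) (nat_lit 418) (nat_lit 5) (nat_lit 396) (nat_lit 5) (nat_lit 456) (nat_lit 431) (nat_lit 253)) (XT.lf (nat_lit 0) (nat_lit 2481713400) (nat_lit 1748) (nat_lit 5283161434) (nat_lit 1824) (nat_lit 7138423949) (nat_lit 372) (nat_lit 5) (nat_lit 395) (nat_lit 5) (nat_lit 396) (nat_lit 5) (nat_lit 457) (nat_lit 431) (nat_lit 252))))) (XT.nd (nat_lit 234) (nat_lit 1824) (nat_lit 0) (XT.nd (nat_lit 78) (nat_lit 988) (nat_lit 0) (XT.lf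 (nat_lit 0) (nat_lit 9265043826) (nat_lit 1824) (nat_lit 4853613746) (nat_lit 76) (nat_lit 942989211) (nat_lit 372) (nat_lit 5) (nat_lit 396) (nat_lit 5) (nat_lit 373) (nat_lit 5) (nat_lit 458) (nat_lit 431) (nat_lit 251)) (XT.nd (nat_lit 78) (nat_lit 0) (nat_lit 0) (XT.lf (nat_lit 0) (nat_lit 2860985367) (nat_lit 988) (nat_lit 7979560563) (nat_lit 1064) (nat_lit 4381713237) (nat_lit 359) (nat_lit 5) (nat_lit 372) (nat_lit 5) (nat_lit 373) (nat_lit 5) (nat_lit 459) (nat_lit 431) (nat_lit 250)) (XT.lf (nat_lit 0) (nat_lit 10788449811) (nat_lit 988) (nat_lit 1683559636) (nat_lit 1064) (nat_lit 2913589267) (nat_lit 359) (nat_lit 5) (nat_lit 372) (nat_lit 5) (nat_lit 373) (nat_lit 5) (nat_lit 460) (nat_lit 431) (nat_lit 249)))) (XT.nd (nat_lit 78) (nat_lit 912) (nat_lit 0) (XT.lf (nat_lit 0) (nat_lit 3327893923) (nat_lit 912) (nat_lit 10852625783) (nat_lit 988) (nat_lit 1370800860) (nat_lit 347) (nat_lit 5) (nat_lit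 359) (nat_lit 5) (nat_lit 360) (nat_lit 5) (nat_lit 461) (nat_lit 431) (nat_lit 248)) (XT.nd (nat_lit 78) (nat_lit 836) (nat_lit 0) (XT.lf (nat_lit 0) (nat_lit 234485505) (nat_lit 988) (nat_lit 4265964341) (nat_lit 76) (nat_lit 11219198332) (nat_lit 346) (nat_lit 5) (nat_lit 359) (nat_lit 5) (nat_lit 347) (nat_lit 5) (nat_lit 462) (nat_lit 431) (nat_lit 247)) (XT.lf (nat_lit 0) (nat_lit 1884098967) (nat_lit 912) (nat_lit 12018530639) (nat_lit 76) (nat_lit 1987923630) (nat_lit 335) (nat_lit 5) (nat_lit 347) (nat_lit 5) (nat_lit 336) (nat_lit 5) (nat_lit 463) (nat_lit 431) (nat_lit 246))))))))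
noncomputable def xc215 : XT := (XT.nd (nat_lit 1638) (nat_lit 3952) (nat_lit 0) (XT.nd (nat_lit 780) (nat_lit 4028) (nat_lit 0) (XT.nd (nat_lit 390) (nat_lit 2356) (nat_lit 0) (XT.nd (nat_lit 156) (nat_lit 760) (nat_lit 0) (XT.nd (nat_lit 78) (nat_lit 836) (nat_lit 0) (XT.lf (nat_lit 0) (nat_lit 3617688954) (nat_lit 912) (nat_lit 3870978508) (nat_lit 76) (nat_lit 8575192816) (nat_lit 335) (nat_lit 5) (nat_lit 347) (nat_lit 5) (nat_lit 336) (nat_lit 5) (nat_lit 464) (nat_lit 431) (nat_lit 245)) (XT.lf (nat_lit 0) (nat_lit 4491295170) (nat_lit 836) (nat_lit 916329277) (nat_lit 912) (nat_lit 10832579041) (nat_lit 324) (nat_lit 5) (nat_lit 335) (nat_lit 5) (nat_lit 336) (nat_lit 5) (nat_lit 465) (nat_lit 431) (nat_lit 244))) (XT.nd (nat_lit 78) (nat_lit 760) (nat_lit 0) (XT.lf (nat_lit 0) (nat_lit 7289698955) (nat_lit 912) (nat_lit 3391255408) (nat_lit 76) (nat_lit 5737995824) (nat_lit 324) (nat_lit 5) (nat_lit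 336) (nat_lit 5) (nat_lit 325) (nat_lit 5) (nat_lit 466) (nat_lit 431) (nat_lit 243)) (XT.nd (nat_lit 78) (nat_lit 0) (nat_lit 0) (XT.lf (nat_lit 0) (nat_lit 5188431525) (nat_lit 760) (nat_lit 4053499327) (nat_lit 836) (nat_lit 7358694013) (nat_lit 314) (nat_lit 5) (nat_lit 324) (nat_lit 5) (nat_lit 325) (nat_lit 5) (nat_lit 467) (nat_lit 431) (nat_lit 242)) (XT.lf (nat_lit 0) (nat_lit 11266545147) (nat_lit 836) (nat_lit 2824717373) (nat_lit 76) (nat_lit 2694007058) (nat_lit 314) (nat_lit 5) (nat_lit 325) (nat_lit 5) (nat_lit 315) (nat_lit 5) (nat_lit 468) (nat_lit 431) (nat_lit 241))))) (XT.nd (nat_lit 156) (nat_lit 1596) (nat_lit 0) (XT.nd (nat_lit 78) (nat_lit 0) (nat_lit 0) (XT.lf (nat_lit 0) (nat_lit 5979022940) (nat_lit 760) (nat_lit 7411290503) (nat_lit 836) (nat_lit 3582123743) (nat_lit 304) (nat_lit 5) (nat_lit 314) (nat_lit 5) (nat_lit 315) (nat_lit 5) (nat_lit 469) (nat_lit 431) (nat_lit 240)) (XT.lf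 (nat_lit 0) (nat_lit 14990117509) (nat_lit 760) (nat_lit 578484290) (nat_lit 836) (nat_lit 1594508622) (nat_lit 304) (nat_lit 5) (nat_lit 314) (nat_lit 5) (nat_lit 315) (nat_lit 5) (nat_lit 470) (nat_lit 431) (nat_lit 239))) (XT.nd (nat_lit 78) (nat_lit 760) (nat_lit 0) (XT.lf (nat_lit 0) (nat_lit 506997072) (nat_lit 836) (nat_lit 10493977762) (nat_lit 76) (nat_lit 6354972819) (nat_lit 293) (nat_lit 5) (nat_lit 304) (nat_lit 5) (nat_lit 294) (nat_lit 5) (nat_lit 471) (nat_lit 431) (nat_lit 238)) (XT.nd (nat_lit 78) (nat_lit 760) (nat_lit 0) (XT.lf (nat_lit 0) (nat_lit 2640976447) (nat_lit 836) (nat_lit 1466807030) (nat_lit 76) (nat_lit 13444414466) (nat_lit 293) (nat_lit 5) (nat_lit 304) (nat_lit 5) (nat_lit 294) (nat_lit 5) (nat_lit 472) (nat_lit 431) (nat_lit 237)) (XT.lf (nat_lit 0) (nat_lit 4881228274) (nat_lit 836) (nat_lit 9934036443) (nat_lit 76) (nat_lit 2935839592) (nat_lit 283) (nat_lit 5) (nat_lit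 294) (nat_lit 5) (nat_lit 284) (nat_lit 5) (nat_lit 473) (nat_lit 431) (nat_lit 236)))))) (XT.nd (nat_lit 390) (nat_lit 1976) (nat_lit 0) (XT.nd (nat_lit 156) (nat_lit 1368) (nat_lit 0) (XT.nd (nat_lit 78) (nat_lit 684) (nat_lit 0) (XT.lf (nat_lit 0) (nat_lit 7196876411) (nat_lit 836) (nat_lit 681562048) (nat_lit 76) (nat_lit 10074941388) (nat_lit 283) (nat_lit 5) (nat_lit 294) (nat_lit 5) (nat_lit 284) (nat_lit 5) (nat_lit 474) (nat_lit 431) (nat_lit 235)) (XT.lf (nat_lit 0) (nat_lit 8865365766) (nat_lit 684) (nat_lit 744638615) (nat_lit 760) (nat_lit 8548675993) (nat_lit 274) (nat_lit 5) (nat_lit 283) (nat_lit 5) (nat_lit 284) (nat_lit 5) (nat_lit 475) (nat_lit 431) (nat_lit 234))) (XT.nd (nat_lit 78) (nat_lit 684) (nat_lit 0) (XT.lf (nat_lit 0) (nat_lit 197681323) (nat_lit 684) (nat_lit 11915694800) (nat_lit 760) (nat_lit 6253873922) (nat_lit 265) (nat_lit 5) (nat_lit 274) (nat_lit 5) (nat_lit 275) (nat_lit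 5) (nat_lit 476) (nat_lit 431) (nat_lit 233)) (XT.nd (nat_lit 78) (nat_lit 684) (nat_lit 0) (XT.lf (nat_lit 0) (nat_lit 9992571846) (nat_lit 684) (nat_lit 4735269230) (nat_lit 760) (nat_lit 3850932226) (nat_lit 265) (nat_lit 5) (nat_lit 274) (nat_lit 5) (nat_lit 275) (nat_lit 5) (nat_lit 477) (nat_lit 431) (nat_lit 232)) (XT.lf (nat_lit 0) (nat_lit 1180622145) (nat_lit 684) (nat_lit 16232328387) (nat_lit 760) (nat_lit 1381212037) (nat_lit 256) (nat_lit 5) (nat_lit 265) (nat_lit 5) (nat_lit 266) (nat_lit 5) (nat_lit 478) (nat_lit 431) (nat_lit 231))))) (XT.nd (nat_lit 234) (nat_lit 1216) (nat_lit 0) (XT.nd (nat_lit 78) (nat_lit 684) (nat_lit 0) (XT.lf (nat_lit 0) (nat_lit 1206252467) (nat_lit 760) (nat_lit 7799591031) (nat_lit 76) (nat_lit 10006205440) (nat_lit 255) (nat_lit 5) (nat_lit 265) (nat_lit 5) (nat_lit 256) (nat_lit 5) (nat_lit 479) (nat_lit 431) (nat_lit 230)) (XT.nd (nat_lit 78) (nat_lit 0) (nat_lit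 0) (XT.lf (nat_lit 0) (nat_lit 2223867246) (nat_lit 684) (nat_lit 1611594818) (nat_lit 760) (nat_lit 15398481069) (nat_lit 246) (nat_lit 5) (nat_lit 255) (nat_lit 5) (nat_lit 256) (nat_lit 5) (nat_lit 480) (nat_lit 431) (nat_lit 229)) (XT.lf (nat_lit 0) (nat_lit 6602548600) (nat_lit 760) (nat_lit 6951419364) (nat_lit 76) (nat_lit 5904603842) (nat_lit 246) (nat_lit 5) (nat_lit 256) (nat_lit 5) (nat_lit 247) (nat_lit 5) (nat_lit 481) (nat_lit 431) (nat_lit 228)))) (XT.nd (nat_lit 78) (nat_lit 608) (nat_lit 0) (XT.lf (nat_lit 0) (nat_lit 3334748272) (nat_lit 608) (nat_lit 6116770234) (nat_lit 684) (nat_lit 10235646117) (nat_lit 238) (nat_lit 5) (nat_lit 246) (nat_lit 5) (nat_lit 247) (nat_lit 5) (nat_lit 482) (nat_lit 431) (nat_lit 227)) (XT.nd (nat_lit 78) (nat_lit 608) (nat_lit 0) (XT.lf (nat_lit 0) (nat_lit 12408244403) (nat_lit 684) (nat_lit 6015167627) (nat_lit 76) (nat_lit 1495904089) (nat_lit 238) (nat_lit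 5) (nat_lit 247) (nat_lit 5) (nat_lit 239) (nat_lit 5) (nat_lit 483) (nat_lit 431) (nat_lit 226)) (XT.lf (nat_lit 0) (nat_lit 4541218612) (nat_lit 608) (nat_lit 10947272503) (nat_lit 684) (nat_lit 4666334112) (nat_lit 230) (nat_lit 5) (nat_lit 238) (nat_lit 5) (nat_lit 239) (nat_lit 5) (nat_lit 484) (nat_lit 431) (nat_lit 225))))))) (XT.nd (nat_lit 780) (nat_lit 988) (nat_lit 0) (XT.nd (nat_lit 390) (nat_lit 1672) (nat_lit 0) (XT.nd (nat_lit 156) (nat_lit 608) (nat_lit 0) (XT.nd (nat_lit 78) (nat_lit 684) (nat_lit 0) (XT.lf (nat_lit 0) (nat_lit 15383655615) (nat_lit 608) (nat_lit 3281512365) (nat_lit 684) (nat_lit 1729182299) (nat_lit 230) (nat_lit 5) (nat_lit 238) (nat_lit 5) (nat_lit 239) (nat_lit 5) (nat_lit 485) (nat_lit 431) (nat_lit 224)) (XT.lf (nat_lit 0) (nat_lit 1312479390) (nat_lit 684) (nat_lit 14801180454) (nat_lit 76) (nat_lit 4523596074) (nat_lit 221) (nat_lit 5) (nat_lit 230) (nat_lit 5) (nat_lit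 222) (nat_lit 5) (nat_lit 486) (nat_lit 431) (nat_lit 223))) (XT.nd (nat_lit 78) (nat_lit 608) (nat_lit 0) (XT.lf (nat_lit 0) (nat_lit 4442009607) (nat_lit 684) (nat_lit 3956670149) (nat_lit 76) (nat_lit 12485109669) (nat_lit 221) (nat_lit 5) (nat_lit 230) (nat_lit 5) (nat_lit 222) (nat_lit 5) (nat_lit 487) (nat_lit 431) (nat_lit 222)) (XT.nd (nat_lit 78) (nat_lit 0) (nat_lit 0) (XT.lf (nat_lit 0) (nat_lit 7192572874) (nat_lit 608) (nat_lit 482951070) (nat_lit 684) (nat_lit 13458903880) (nat_lit 213) (nat_lit 5) (nat_lit 221) (nat_lit 5) (nat_lit 222) (nat_lit 5) (nat_lit 488) (nat_lit 431) (nat_lit 221)) (XT.lf (nat_lit 0) (nat_lit 11044471073) (nat_lit 684) (nat_lit 2827121524) (nat_lit 76) (nat_lit 7517073194) (nat_lit 213) (nat_lit 5) (nat_lit 222) (nat_lit 5) (nat_lit 214) (nat_lit 5) (nat_lit 489) (nat_lit 431) (nat_lit 220))))) (XT.nd (nat_lit 156) (nat_lit 1140) (nat_lit 0) (XT.nd (nat_lit 78) (nat_lit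 0) (nat_lit 0) (XT.lf (nat_lit 0) (nat_lit 8613255175) (nat_lit 532) (nat_lit 5921515169) (nat_lit 608) (nat_lit 7112140719) (nat_lit 206) (nat_lit 5) (nat_lit 213) (nat_lit 5) (nat_lit 214) (nat_lit 5) (nat_lit 490) (nat_lit 431) (nat_lit 219)) (XT.lf (nat_lit 0) (nat_lit 18123078911) (nat_lit 608) (nat_lit 1609979381) (nat_lit 76) (nat_lit 2176700853) (nat_lit 206) (nat_lit 5) (nat_lit 214) (nat_lit 5) (nat_lit 207) (nat_lit 5) (nat_lit 491) (nat_lit 431) (nat_lit 218))) (XT.nd (nat_lit 78) (nat_lit 608) (nat_lit 0) (XT.lf (nat_lit 0) (nat_lit 10129461303) (nat_lit 532) (nat_lit 11753677880) (nat_lit 608) (nat_lit 292727226) (nat_lit 199) (nat_lit 5) (nat_lit 206) (nat_lit 5) (nat_lit 207) (nat_lit 5) (nat_lit 492) (nat_lit 431) (nat_lit 217)) (XT.nd (nat_lit 78) (nat_lit 532) (nat_lit 0) (XT.lf (nat_lit 0) (nat_lit 3234104571) (nat_lit 608) (nat_lit 349244936) (nat_lit 76) (nat_lit 18863405388) (nat_lit 198)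 (nat_lit 5) (nat_lit 206) (nat_lit 5) (nat_lit 199) (nat_lit 5) (nat_lit 493) (nat_lit 431) (nat_lit 216)) (XT.lf (nat_lit 0) (nat_lit 6930173553) (nat_lit 608) (nat_lit 11025466916) (nat_lit 76) (nat_lit 4765331401) (nat_lit 191) (nat_lit 5) (nat_lit 199) (nat_lit 5) (nat_lit 192) (nat_lit 5) (nat_lit 494) (nat_lit 431) (nat_lit 215)))))) (XT.nd (nat_lit 54600) (nat_lit 0) (nat_lit 17556) (XT.nd (nat_lit 156) (nat_lit 456) (nat_lit 0) (XT.nd (nat_lit 78) (nat_lit 0) (nat_lit 0) (XT.lf (nat_lit 0) (nat_lit 967912459) (nat_lit 532) (nat_lit 9759795125) (nat_lit 608) (nat_lit 12272416512) (nat_lit 184) (nat_lit 5) (nat_lit 191) (nat_lit 5) (nat_lit 192) (nat_lit 5) (nat_lit 495) (nat_lit 431) (nat_lit 214)) (XT.lf (nat_lit 0) (nat_lit 13344360718) (nat_lit 532) (nat_lit 1326041801) (nat_lit 608) (nat_lit 8613074392) (nat_lit 184) (nat_lit 5) (nat_lit 191) (nat_lit 5) (nat_lit 192) (nat_lit 5) (nat_lit 496) (nat_lit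 431) (nat_lit 213))) (XT.nd (nat_lit 54288) (nat_lit 0) (nat_lit 19152) (XT.lf (nat_lit 0) (nat_lit 2373511859) (nat_lit 456) (nat_lit 16376400838) (nat_lit 532) (nat_lit 4821426574) (nat_lit 178) (nat_lit 5) (nat_lit 184) (nat_lit 5) (nat_lit 185) (nat_lit 5) (nat_lit 497) (nat_lit 431) (nat_lit 212)) (XT.nd (nat_lit 78) (nat_lit 0) (nat_lit 0) (XT.lf (nat_lit 0) (nat_lit 2503284151) (nat_lit 0) (nat_lit 2503284151) (nat_lit 1596) (nat_lit 873056398) (nat_lit 430) (nat_lit 5) (nat_lit 430) (nat_lit 3) (nat_lit 451) (nat_lit 3) (nat_lit 432) (nat_lit 432) (nat_lit 276)) (XT.lf (nat_lit 0) (nat_lit 10594613725) (nat_lit 1596) (nat_lit 1225767945) (nat_lit 1672) (nat_lit 46576856) (nat_lit 430) (nat_lit 5) (nat_lit 451) (nat_lit 3) (nat_lit 452) (nat_lit 5) (nat_lit 433) (nat_lit 432) (nat_lit 275))))) (XT.nd (nat_lit 234) (nat_lit 0) (nat_lit 0) (XT.nd (nat_lit 78) (nat_lit 1596) (nat_lit 0) (XT.lf (nat_lit 76)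 (nat_lit 4430018923) (nat_lit 0) (nat_lit 6807043291) (nat_lit 1672) (nat_lit 738779508) (nat_lit 431) (nat_lit 5) (nat_lit 430) (nat_lit 5) (nat_lit 452) (nat_lit 5) (nat_lit 434) (nat_lit 432) (nat_lit 274)) (XT.nd (nat_lit 78) (nat_lit 1596) (nat_lit 0) (XT.lf (nat_lit 76) (nat_lit 10208971654) (nat_lit 0) (nat_lit 1679240673) (nat_lit 1672) (nat_lit 198779796) (nat_lit 431) (nat_lit 5) (nat_lit 430) (nat_lit 5) (nat_lit 452) (nat_lit 5) (nat_lit 435) (nat_lit 432) (nat_lit 273)) (XT.lf (nat_lit 0) (nat_lit 384083599) (nat_lit 1672) (nat_lit 8277336146) (nat_lit 1748) (nat_lit 3538172806) (nat_lit 409) (nat_lit 5) (nat_lit 431) (nat_lit 5) (nat_lit 432) (nat_lit 5) (nat_lit 436) (nat_lit 432) (nat_lit 272)))) (XT.nd (nat_lit 78) (nat_lit 0) (nat_lit 76) (XT.lf (nat_lit 0) (nat_lit 987767234) (nat_lit 1672) (nat_lit 2469561780) (nat_lit 1748) (nat_lit 8856859417) (nat_lit 409) (nat_lit 5) (nat_lit 431) (nat_lit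 5) (nat_lit 432) (nat_lit 5) (nat_lit 437) (nat_lit 432) (nat_lit 271)) (XT.nd (nat_lit 78) (nat_lit 0) (nat_lit 0) (XT.lf (nat_lit 0) (nat_lit 1626656712) (nat_lit 1672) (nat_lit 8949587718) (nat_lit 1748) (nat_lit 1854375247) (nat_lit 410) (nat_lit 5) (nat_lit 432) (nat_lit 5) (nat_lit 433) (nat_lit 5) (nat_lit 438) (nat_lit 432) (nat_lit 270)) (XT.lf (nat_lit 0) (nat_lit 2306371277) (nat_lit 1672) (nat_lit 2994875659) (nat_lit 1748) (nat_lit 7247577640) (nat_lit 410) (nat_lit 5) (nat_lit 432) (nat_lit 5) (nat_lit 433) (nat_lit 5) (nat_lit 439) (nat_lit 432) (nat_lit 269))))))))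
noncomputable def xc216 : XT := (XT.nd (nat_lit 1560) (nat_lit 8892) (nat_lit 0) (XT.nd (nat_lit 780) (nat_lit 2964) (nat_lit 0) (XT.nd (nat_lit 390) (nat_lit 0) (nat_lit 152) (XT.nd (nat_lit 156) (nat_lit 0) (nat_lit 0) (XT.nd (nat_lit 78) (nat_lit 0) (nat_lit 0) (XT.lf (nat_lit 0) (nat_lit 3009264544) (nat_lit 1672) (nat_lit 9556940032) (nat_lit 1748) (nat_lit 103003165) (nat_lit 411) (nat_lit 5) (nat_lit 433) (nat_lit 5) (nat_lit 434) (nat_lit 5) (nat_lit 440) (nat_lit 432) (nat_lit 268)) (XT.lf (nat_lit 0) (nat_lit 3770455121) (nat_lit 1672) (nat_lit 3451697724) (nat_lit 1748) (nat_lit 5568966676) (nat_lit 411) (nat_lit 5) (nat_lit 433) (nat_lit 5) (nat_lit 434) (nat_lit 5) (nat_lit 441) (nat_lit 432) (nat_lit 267))) (XT.nd (nat_lit 78) (nat_lit 0) (nat_lit 76) (XT.lf (nat_lit 76) (nat_lit 2805571789) (nat_lit 0) (nat_lit 1748632533) (nat_lit 1748) (nat_lit 8361124148) (nat_lit 412) (nat_lit 5) (nat_lit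 411) (nat_lit 5) (nat_lit 434) (nat_lit 5) (nat_lit 442) (nat_lit 432) (nat_lit 266)) (XT.nd (nat_lit 78) (nat_lit 0) (nat_lit 0) (XT.lf (nat_lit 0) (nat_lit 5391153222) (nat_lit 1672) (nat_lit 3838904543) (nat_lit 1748) (nat_lit 3811218857) (nat_lit 412) (nat_lit 5) (nat_lit 434) (nat_lit 5) (nat_lit 435) (nat_lit 5) (nat_lit 443) (nat_lit 432) (nat_lit 265)) (XT.lf (nat_lit 76) (nat_lit 2572589986) (nat_lit 0) (nat_lit 3690057376) (nat_lit 1748) (nat_lit 6906745660) (nat_lit 413) (nat_lit 5) (nat_lit 412) (nat_lit 5) (nat_lit 435) (nat_lit 5) (nat_lit 444) (nat_lit 432) (nat_lit 264))))) (XT.nd (nat_lit 156) (nat_lit 0) (nat_lit 76) (XT.nd (nat_lit 78) (nat_lit 0) (nat_lit 0) (XT.lf (nat_lit 0) (nat_lit 7179939417) (nat_lit 1672) (nat_lit 4155228359) (nat_lit 1748) (nat_lit 1964341916) (nat_lit 413) (nat_lit 5) (nat_lit 435) (nat_lit 5) (nat_lit 436) (nat_lit 5) (nat_lit 445) (nat_lit 432) (nat_lit 263)) (XT.lf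 (nat_lit 76) (nat_lit 2415436334) (nat_lit 0) (nat_lit 5730168821) (nat_lit 1748) (nat_lit 5286028186) (nat_lit 414) (nat_lit 5) (nat_lit 413) (nat_lit 5) (nat_lit 436) (nat_lit 5) (nat_lit 446) (nat_lit 432) (nat_lit 262))) (XT.nd (nat_lit 78) (nat_lit 0) (nat_lit 0) (XT.lf (nat_lit 0) (nat_lit 9148647881) (nat_lit 1672) (nat_lit 4399262386) (nat_lit 1748) (nat_lit 18133019) (nat_lit 414) (nat_lit 5) (nat_lit 436) (nat_lit 5) (nat_lit 437) (nat_lit 5) (nat_lit 447) (nat_lit 432) (nat_lit 261)) (XT.nd (nat_lit 78) (nat_lit 0) (nat_lit 0) (XT.lf (nat_lit 76) (nat_lit 2335675662) (nat_lit 0) (nat_lit 7879463303) (nat_lit 1748) (nat_lit 3487139715) (nat_lit 415) (nat_lit 5) (nat_lit 414) (nat_lit 5) (nat_lit 437) (nat_lit 5) (nat_lit 448) (nat_lit 432) (nat_lit 260)) (XT.lf (nat_lit 76) (nat_lit 9257971882) (nat_lit 0) (nat_lit 2064929380) (nat_lit 1748) (nat_lit 2517943591) (nat_lit 415) (nat_lit 5) (nat_lit 414)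 (nat_lit 5) (nat_lit 437) (nat_lit 5) (nat_lit 449) (nat_lit 432) (nat_lit 259)))))) (XT.nd (nat_lit 390) (nat_lit 1596) (nat_lit 0) (XT.nd (nat_lit 156) (nat_lit 1672) (nat_lit 0) (XT.nd (nat_lit 78) (nat_lit 0) (nat_lit 0) (XT.lf (nat_lit 76) (nat_lit 2335009544) (nat_lit 0) (nat_lit 10148694106) (nat_lit 1748) (nat_lit 1497865807) (nat_lit 416) (nat_lit 5) (nat_lit 415) (nat_lit 5) (nat_lit 438) (nat_lit 5) (nat_lit 450) (nat_lit 432) (nat_lit 258)) (XT.lf (nat_lit 76) (nat_lit 9432515107) (nat_lit 0) (nat_lit 4270308373) (nat_lit 1748) (nat_lit 421587755) (nat_lit 416) (nat_lit 5) (nat_lit 415) (nat_lit 5) (nat_lit 438) (nat_lit 5) (nat_lit 451) (nat_lit 432) (nat_lit 257))) (XT.nd (nat_lit 78) (nat_lit 0) (nat_lit 0) (XT.lf (nat_lit 0) (nat_lit 685304558) (nat_lit 1748) (nat_lit 11858995175) (nat_lit 1824) (nat_lit 1725367685) (nat_lit 393) (nat_lit 5) (nat_lit 416) (nat_lit 5) (nat_lit 417) (nat_lit 5)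 (nat_lit 452) (nat_lit 432) (nat_lit 256)) (XT.nd (nat_lit 78) (nat_lit 0) (nat_lit 0) (XT.lf (nat_lit 0) (nat_lit 1859695194) (nat_lit 1748) (nat_lit 4736727667) (nat_lit 1824) (nat_lit 7820334458) (nat_lit 393) (nat_lit 5) (nat_lit 416) (nat_lit 5) (nat_lit 417) (nat_lit 5) (nat_lit 453) (nat_lit 432) (nat_lit 255)) (XT.lf (nat_lit 76) (nat_lit 2554487913) (nat_lit 0) (nat_lit 510873577) (nat_lit 1824) (nat_lit 11501276122) (nat_lit 394) (nat_lit 5) (nat_lit 393) (nat_lit 5) (nat_lit 417) (nat_lit 5) (nat_lit 454) (nat_lit 432) (nat_lit 254))))) (XT.nd (nat_lit 156) (nat_lit 1672) (nat_lit 0) (XT.nd (nat_lit 78) (nat_lit 0) (nat_lit 0) (XT.lf (nat_lit 0) (nat_lit 4355463189) (nat_lit 1748) (nat_lit 4707482231) (nat_lit 1824) (nat_lit 5655367916) (nat_lit 394) (nat_lit 5) (nat_lit 417) (nat_lit 5) (nat_lit 418) (nat_lit 5) (nat_lit 455) (nat_lit 432) (nat_lit 253)) (XT.lf (nat_lit 76) (nat_lit 2769211467) (nat_lit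 0) (nat_lit 2915028983) (nat_lit 1824) (nat_lit 9188528836) (nat_lit 395) (nat_lit 5) (nat_lit 394) (nat_lit 5) (nat_lit 418) (nat_lit 5) (nat_lit 456) (nat_lit 432) (nat_lit 252))) (XT.nd (nat_lit 78) (nat_lit 1748) (nat_lit 0) (XT.lf (nat_lit 0) (nat_lit 7084821678) (nat_lit 1748) (nat_lit 4599567055) (nat_lit 76) (nat_lit 3345025154) (nat_lit 395) (nat_lit 5) (nat_lit 418) (nat_lit 5) (nat_lit 396) (nat_lit 5) (nat_lit 457) (nat_lit 432) (nat_lit 251)) (XT.nd (nat_lit 78) (nat_lit 0) (nat_lit 0) (XT.lf (nat_lit 0) (nat_lit 3068444731) (nat_lit 1748) (nat_lit 5476002061) (nat_lit 1824) (nat_lit 6644127963) (nat_lit 372) (nat_lit 5) (nat_lit 395) (nat_lit 5) (nat_lit 396) (nat_lit 5) (nat_lit 458) (nat_lit 432) (nat_lit 250)) (XT.lf (nat_lit 0) (nat_lit 10061823573) (nat_lit 1824) (nat_lit 4411026137) (nat_lit 76) (nat_lit 877501886) (nat_lit 372) (nat_lit 5) (nat_lit 396) (nat_lit 5) (nat_lit 373) (nat_lit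 5) (nat_lit 459) (nat_lit 432) (nat_lit 249))))))) (XT.nd (nat_lit 780) (nat_lit 4484) (nat_lit 0) (XT.nd (nat_lit 390) (nat_lit 1596) (nat_lit 0) (XT.nd (nat_lit 156) (nat_lit 1824) (nat_lit 0) (XT.nd (nat_lit 78) (nat_lit 0) (nat_lit 0) (XT.lf (nat_lit 0) (nat_lit 3454314564) (nat_lit 988) (nat_lit 8206012151) (nat_lit 1064) (nat_lit 3854025547) (nat_lit 359) (nat_lit 5) (nat_lit 372) (nat_lit 5) (nat_lit 373) (nat_lit 5) (nat_lit 460) (nat_lit 432) (nat_lit 248)) (XT.lf (nat_lit 0) (nat_lit 11529816346) (nat_lit 988) (nat_lit 1782780218) (nat_lit 1064) (nat_lit 2368604234) (nat_lit 359) (nat_lit 5) (nat_lit 372) (nat_lit 5) (nat_lit 373) (nat_lit 5) (nat_lit 461) (nat_lit 432) (nat_lit 247))) (XT.nd (nat_lit 78) (nat_lit 912) (nat_lit 0) (XT.lf (nat_lit 0) (nat_lit 3929044472) (nat_lit 912) (nat_lit 11117695124) (nat_lit 988) (nat_lit 803673865) (nat_lit 347) (nat_lit 5) (nat_lit 359) (nat_lit 5) (nat_lit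 360) (nat_lit 5) (nat_lit 462) (nat_lit 432) (nat_lit 246)) (XT.nd (nat_lit 78) (nat_lit 836) (nat_lit 0) (XT.lf (nat_lit 0) (nat_lit 814415876) (nat_lit 988) (nat_lit 3819258119) (nat_lit 76) (nat_lit 11388591932) (nat_lit 346) (nat_lit 5) (nat_lit 359) (nat_lit 5) (nat_lit 347) (nat_lit 5) (nat_lit 463) (nat_lit 432) (nat_lit 245)) (XT.lf (nat_lit 0) (nat_lit 2488921561) (nat_lit 912) (nat_lit 11718510598) (nat_lit 76) (nat_lit 1989324230) (nat_lit 335) (nat_lit 5) (nat_lit 347) (nat_lit 5) (nat_lit 336) (nat_lit 5) (nat_lit 464) (nat_lit 432) (nat_lit 244))))) (XT.nd (nat_lit 156) (nat_lit 760) (nat_lit 0) (XT.nd (nat_lit 78) (nat_lit 836) (nat_lit 0) (XT.lf (nat_lit 0) (nat_lit 4246062943) (nat_lit 912) (nat_lit 3418603320) (nat_lit 76) (nat_lit 8709090915) (nat_lit 335) (nat_lit 5) (nat_lit 347) (nat_lit 5) (nat_lit 336) (nat_lit 5) (nat_lit 465) (nat_lit 432) (nat_lit 243)) (XT.lf (nat_lit 0) (nat_lit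 5107430341) (nat_lit 836) (nat_lit 956881598) (nat_lit 912) (nat_lit 10489470114) (nat_lit 324) (nat_lit 5) (nat_lit 335) (nat_lit 5) (nat_lit 336) (nat_lit 5) (nat_lit 466) (nat_lit 432) (nat_lit 242))) (XT.nd (nat_lit 78) (nat_lit 760) (nat_lit 0) (XT.lf (nat_lit 0) (nat_lit 7973130873) (nat_lit 912) (nat_lit 2931944167) (nat_lit 76) (nat_lit 5831251583) (nat_lit 324) (nat_lit 5) (nat_lit 336) (nat_lit 5) (nat_lit 325) (nat_lit 5) (nat_lit 467) (nat_lit 432) (nat_lit 241)) (XT.nd (nat_lit 78) (nat_lit 0) (nat_lit 0) (XT.lf (nat_lit 0) (nat_lit 5815868502) (nat_lit 760) (nat_lit 4141396988) (nat_lit 836) (nat_lit 6964517041) (nat_lit 314) (nat_lit 5) (nat_lit 324) (nat_lit 5) (nat_lit 325) (nat_lit 5) (nat_lit 468) (nat_lit 432) (nat_lit 240)) (XT.lf (nat_lit 0) (nat_lit 12011926728) (nat_lit 836) (nat_lit 2357125929) (nat_lit 76) (nat_lit 2741281192) (nat_lit 314) (nat_lit 5) (nat_lit 325) (nat_lit 5) (nat_lit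 315) (nat_lit 5) (nat_lit 469) (nat_lit 432) (nat_lit 239)))))) (XT.nd (nat_lit 390) (nat_lit 2128) (nat_lit 0) (XT.nd (nat_lit 156) (nat_lit 1596) (nat_lit 0) (XT.nd (nat_lit 78) (nat_lit 0) (nat_lit 0) (XT.lf (nat_lit 0) (nat_lit 6619241258) (nat_lit 760) (nat_lit 7552112386) (nat_lit 836) (nat_lit 3130032207) (nat_lit 304) (nat_lit 5) (nat_lit 314) (nat_lit 5) (nat_lit 315) (nat_lit 5) (nat_lit 470) (nat_lit 432) (nat_lit 238)) (XT.lf (nat_lit 0) (nat_lit 15800349133) (nat_lit 760) (nat_lit 582795224) (nat_lit 836) (nat_lit 1112934078) (nat_lit 304) (nat_lit 5) (nat_lit 314) (nat_lit 5) (nat_lit 315) (nat_lit 5) (nat_lit 471) (nat_lit 432) (nat_lit 237))) (XT.nd (nat_lit 78) (nat_lit 760) (nat_lit 0) (XT.lf (nat_lit 0) (nat_lit 1017358742) (nat_lit 836) (nat_lit 10179736973) (nat_lit 76) (nat_lit 6495744634) (nat_lit 293) (nat_lit 5) (nat_lit 304) (nat_lit 5) (nat_lit 294) (nat_lit 5) (nat_lit 472) (nat_lit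 432) (nat_lit 236)) (XT.nd (nat_lit 78) (nat_lit 760) (nat_lit 0) (XT.lf (nat_lit 0) (nat_lit 3184209435) (nat_lit 836) (nat_lit 982299695) (nat_lit 76) (nat_lit 13726707028) (nat_lit 293) (nat_lit 5) (nat_lit 304) (nat_lit 5) (nat_lit 294) (nat_lit 5) (nat_lit 473) (nat_lit 432) (nat_lit 235)) (XT.lf (nat_lit 0) (nat_lit 5463135702) (nat_lit 836) (nat_lit 9612529890) (nat_lit 76) (nat_lit 3020561937) (nat_lit 283) (nat_lit 5) (nat_lit 294) (nat_lit 5) (nat_lit 284) (nat_lit 5) (nat_lit 474) (nat_lit 432) (nat_lit 234))))) (XT.nd (nat_lit 234) (nat_lit 760) (nat_lit 0) (XT.nd (nat_lit 78) (nat_lit 1368) (nat_lit 0) (XT.lf (nat_lit 0) (nat_lit 7815601059) (nat_lit 836) (nat_lit 185205758) (nat_lit 76) (nat_lit 10301935856) (nat_lit 283) (nat_lit 5) (nat_lit 294) (nat_lit 5) (nat_lit 284) (nat_lit 5) (nat_lit 475) (nat_lit 432) (nat_lit 233)) (XT.nd (nat_lit 78) (nat_lit 684) (nat_lit 0) (XT.lf (nat_lit 0) (nat_lit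 9549305431) (nat_lit 684) (nat_lit 721665998) (nat_lit 760) (nat_lit 8241302282) (nat_lit 274) (nat_lit 5) (nat_lit 283) (nat_lit 5) (nat_lit 284) (nat_lit 5) (nat_lit 476) (nat_lit 432) (nat_lit 232)) (XT.lf (nat_lit 0) (nat_lit 714207204) (nat_lit 684) (nat_lit 12104580880) (nat_lit 760) (nat_lit 5906343161) (nat_lit 265) (nat_lit 5) (nat_lit 274) (nat_lit 5) (nat_lit 275) (nat_lit 5) (nat_lit 477) (nat_lit 432) (nat_lit 231)))) (XT.nd (nat_lit 78) (nat_lit 760) (nat_lit 0) (XT.lf (nat_lit 0) (nat_lit 10694945101) (nat_lit 684) (nat_lit 4781515971) (nat_lit 760) (nat_lit 3464609459) (nat_lit 265) (nat_lit 5) (nat_lit 274) (nat_lit 5) (nat_lit 275) (nat_lit 5) (nat_lit 478) (nat_lit 432) (nat_lit 230)) (XT.nd (nat_lit 78) (nat_lit 76) (nat_lit 0) (XT.lf (nat_lit 0) (nat_lit 1712354981) (nat_lit 684) (nat_lit 16497622049) (nat_lit 760) (nat_lit 950900331) (nat_lit 256) (nat_lit 5) (nat_lit 265) (nat_lit 5) (nat_lit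 266) (nat_lit 5) (nat_lit 479) (nat_lit 432) (nat_lit 229)) (XT.lf (nat_lit 0) (nat_lit 1673446177) (nat_lit 760) (nat_lit 7451351843) (nat_lit 76) (nat_lit 10258444912) (nat_lit 255) (nat_lit 5) (nat_lit 265) (nat_lit 5) (nat_lit 256) (nat_lit 5) (nat_lit 480) (nat_lit 432) (nat_lit 228))))))))
noncomputable def xc217 : XT := (XT.nd (nat_lit 55926) (nat_lit 0) (nat_lit 15808) (XT.nd (nat_lit 780) (nat_lit 2204) (nat_lit 0) (XT.nd (nat_lit 390) (nat_lit 1292) (nat_lit 0) (XT.nd (nat_lit 156) (nat_lit 1216) (nat_lit 0) (XT.nd (nat_lit 78) (nat_lit 0) (nat_lit 0) (XT.lf (nat_lit 0) (nat_lit 2769258291) (nat_lit 684) (nat_lit 1580546318) (nat_lit 760) (nat_lit 15259882748) (nat_lit 246) (nat_lit 5) (nat_lit 255) (nat_lit 5) (nat_lit 256) (nat_lit 5) (nat_lit 481) (nat_lit 432) (nat_lit 227)) (XT.lf (nat_lit 0) (nat_lit 7164054634) (nat_lit 760) (nat_lit 6590999241) (nat_lit 76) (nat_lit 6083921862) (nat_lit 246)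 (nat_lit 5) (nat_lit 256) (nat_lit 5) (nat_lit 247) (nat_lit 5) (nat_lit 482) (nat_lit 432) (nat_lit 226))) (XT.nd (nat_lit 78) (nat_lit 608) (nat_lit 0) (XT.lf (nat_lit 0) (nat_lit 3897605901) (nat_lit 608) (nat_lit 6167198766) (nat_lit 684) (nat_lit 10007443226) (nat_lit 238) (nat_lit 5) (nat_lit 246) (nat_lit 5) (nat_lit 247) (nat_lit 5) (nat_lit 483) (nat_lit 432) (nat_lit 225)) (XT.nd (nat_lit 78) (nat_lit 608) (nat_lit 0) (XT.lf (nat_lit 0) (nat_lit 13072804054) (nat_lit 684) (nat_lit 5641004490) (nat_lit 76) (nat_lit 1595394525) (nat_lit 238) (nat_lit 5) (nat_lit 247) (nat_lit 5) (nat_lit 239) (nat_lit 5) (nat_lit 484) (nat_lit 432) (nat_lit 224)) (XT.lf (nat_lit 0) (nat_lit 5123256405) (nat_lit 608) (nat_lit 11086423976) (nat_lit 684) (nat_lit 4339844848) (nat_lit 230) (nat_lit 5) (nat_lit 238) (nat_lit 5) (nat_lit 239) (nat_lit 5) (nat_lit 485) (nat_lit 432) (nat_lit 223))))) (XT.nd (nat_lit 156) (nat_lit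 608) (nat_lit 0) (XT.nd (nat_lit 78) (nat_lit 684) (nat_lit 0) (XT.lf (nat_lit 0) (nat_lit 16172910512) (nat_lit 608) (nat_lit 3268913223) (nat_lit 684) (nat_lit 1352181684) (nat_lit 230) (nat_lit 5) (nat_lit 238) (nat_lit 5) (nat_lit 239) (nat_lit 5) (nat_lit 486) (nat_lit 432) (nat_lit 222)) (XT.lf (nat_lit 0) (nat_lit 1740628954) (nat_lit 684) (nat_lit 14605617989) (nat_lit 76) (nat_lit 4695557676) (nat_lit 221) (nat_lit 5) (nat_lit 230) (nat_lit 5) (nat_lit 222) (nat_lit 5) (nat_lit 487) (nat_lit 432) (nat_lit 221))) (XT.nd (nat_lit 78) (nat_lit 608) (nat_lit 0) (XT.lf (nat_lit 0) (nat_lit 4924869383) (nat_lit 684) (nat_lit 3553856421) (nat_lit 76) (nat_lit 12814703706) (nat_lit 221) (nat_lit 5) (nat_lit 230) (nat_lit 5) (nat_lit 222) (nat_lit 5) (nat_lit 488) (nat_lit 432) (nat_lit 220)) (XT.nd (nat_lit 78) (nat_lit 0) (nat_lit 0) (XT.lf (nat_lit 0) (nat_lit 7815200758) (nat_lit 608) (nat_lit 403235909)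 (nat_lit 684) (nat_lit 13330739402) (nat_lit 213) (nat_lit 5) (nat_lit 221) (nat_lit 5) (nat_lit 222) (nat_lit 5) (nat_lit 489) (nat_lit 432) (nat_lit 219)) (XT.lf (nat_lit 0) (nat_lit 11647696299) (nat_lit 684) (nat_lit 2407059581) (nat_lit 76) (nat_lit 7753887230) (nat_lit 213) (nat_lit 5) (nat_lit 222) (nat_lit 5) (nat_lit 214) (nat_lit 5) (nat_lit 490) (nat_lit 432) (nat_lit 218)))))) (XT.nd (nat_lit 390) (nat_lit 532) (nat_lit 0) (XT.nd (nat_lit 156) (nat_lit 1140) (nat_lit 0) (XT.nd (nat_lit 78) (nat_lit 0) (nat_lit 0) (XT.lf (nat_lit 0) (nat_lit 9258989097) (nat_lit 532) (nat_lit 5944389752) (nat_lit 608) (nat_lit 6868765820) (nat_lit 206) (nat_lit 5) (nat_lit 213) (nat_lit 5) (nat_lit 214) (nat_lit 5) (nat_lit 491) (nat_lit 432) (nat_lit 217)) (XT.lf (nat_lit 0) (nat_lit 18856651772) (nat_lit 608) (nat_lit 1171048554) (nat_lit 76) (nat_lit 2312688292) (nat_lit 206) (nat_lit 5) (nat_lit 214) (nat_lit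 5) (nat_lit 207) (nat_lit 5) (nat_lit 492) (nat_lit 432) (nat_lit 216))) (XT.nd (nat_lit 78) (nat_lit 532) (nat_lit 0) (XT.lf (nat_lit 0) (nat_lit 74775991) (nat_lit 608) (nat_lit 11812316146) (nat_lit 76) (nat_lit 10724803624) (nat_lit 198) (nat_lit 5) (nat_lit 206) (nat_lit 5) (nat_lit 199) (nat_lit 5) (nat_lit 493) (nat_lit 432) (nat_lit 215)) (XT.nd (nat_lit 78) (nat_lit 0) (nat_lit 0) (XT.lf (nat_lit 0) (nat_lit 109002171) (nat_lit 532) (nat_lit 3552690057) (nat_lit 608) (nat_lit 19226604446) (nat_lit 191) (nat_lit 5) (nat_lit 198) (nat_lit 5) (nat_lit 199) (nat_lit 5) (nat_lit 494) (nat_lit 432) (nat_lit 214)) (XT.lf (nat_lit 0) (nat_lit 7427531019) (nat_lit 608) (nat_lit 10778597418) (nat_lit 76) (nat_lit 4961955234) (nat_lit 191) (nat_lit 5) (nat_lit 199) (nat_lit 5) (nat_lit 192) (nat_lit 5) (nat_lit 495) (nat_lit 432) (nat_lit 213))))) (XT.nd (nat_lit 54522) (nat_lit 0) (nat_lit 17024) (XT.nd (nat_lit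 78) (nat_lit 0) (nat_lit 0) (XT.lf (nat_lit 0) (nat_lit 1451574684) (nat_lit 532) (nat_lit 9845421224) (nat_lit 608) (nat_lit 12155906028) (nat_lit 184) (nat_lit 5) (nat_lit 191) (nat_lit 5) (nat_lit 192) (nat_lit 5) (nat_lit 496) (nat_lit 432) (nat_lit 212)) (XT.nd (nat_lit 54366) (nat_lit 0) (nat_lit 18696) (XT.lf (nat_lit 0) (nat_lit 14066447909) (nat_lit 532) (nat_lit 1245141261) (nat_lit 608) (nat_lit 8430474298) (nat_lit 184) (nat_lit 5) (nat_lit 191) (nat_lit 5) (nat_lit 192) (nat_lit 5) (nat_lit 497) (nat_lit 432) (nat_lit 211)) (XT.lf (nat_lit 0) (nat_lit 2792307884) (nat_lit 0) (nat_lit 2792307884) (nat_lit 1596) (nat_lit 402788314) (nat_lit 430) (nat_lit 5) (nat_lit 430) (nat_lit 3) (nat_lit 451) (nat_lit 3) (nat_lit 433) (nat_lit 433) (nat_lit 274)))) (XT.nd (nat_lit 78) (nat_lit 1672) (nat_lit 0) (XT.lf (nat_lit 0) (nat_lit 11322878394) (nat_lit 0) (nat_lit 420405439) (nat_lit 1596) (nat_lit 341778716)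 (nat_lit 430) (nat_lit 5) (nat_lit 430) (nat_lit 3) (nat_lit 451) (nat_lit 3) (nat_lit 434) (nat_lit 433) (nat_lit 273)) (XT.nd (nat_lit 78) (nat_lit 0) (nat_lit 0) (XT.lf (nat_lit 0) (nat_lit 181796141) (nat_lit 1672) (nat_lit 7191467936) (nat_lit 1748) (nat_lit 4823202776) (nat_lit 408) (nat_lit 5) (nat_lit 430) (nat_lit 5) (nat_lit 431) (nat_lit 5) (nat_lit 435) (nat_lit 433) (nat_lit 272)) (XT.lf (nat_lit 0) (nat_lit 707225573) (nat_lit 1672) (nat_lit 1423697065) (nat_lit 1748) (nat_lit 10179218445) (nat_lit 408) (nat_lit 5) (nat_lit 430) (nat_lit 5) (nat_lit 431) (nat_lit 5) (nat_lit 436) (nat_lit 433) (nat_lit 271))))))) (XT.nd (nat_lit 780) (nat_lit 1292) (nat_lit 0) (XT.nd (nat_lit 390) (nat_lit 0) (nat_lit 152) (XT.nd (nat_lit 156) (nat_lit 0) (nat_lit 76) (XT.nd (nat_lit 78) (nat_lit 0) (nat_lit 0) (XT.lf (nat_lit 0) (nat_lit 1281828739) (nat_lit 1672) (nat_lit 7934595608) (nat_lit 1748) (nat_lit 3208897241)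 (nat_lit 409) (nat_lit 5) (nat_lit 431) (nat_lit 5) (nat_lit 432) (nat_lit 5) (nat_lit 437) (nat_lit 433) (nat_lit 270)) (XT.lf (nat_lit 0) (nat_lit 1880133822) (nat_lit 1672) (nat_lit 2020632171) (nat_lit 1748) (nat_lit 8641801487) (nat_lit 409) (nat_lit 5) (nat_lit 431) (nat_lit 5) (nat_lit 432) (nat_lit 5) (nat_lit 438) (nat_lit 433) (nat_lit 269))) (XT.nd (nat_lit 78) (nat_lit 0) (nat_lit 0) (XT.lf (nat_lit 0) (nat_lit 2515544003) (nat_lit 1672) (nat_lit 8613557920) (nat_lit 1748) (nat_lit 1532559443) (nat_lit 410) (nat_lit 5) (nat_lit 432) (nat_lit 5) (nat_lit 433) (nat_lit 5) (nat_lit 439) (nat_lit 433) (nat_lit 268)) (XT.nd (nat_lit 78) (nat_lit 0) (nat_lit 0) (XT.lf (nat_lit 0) (nat_lit 3192061601) (nat_lit 1672) (nat_lit 2549850081) (nat_lit 1748) (nat_lit 7040663203) (nat_lit 410) (nat_lit 5) (nat_lit 432) (nat_lit 5) (nat_lit 433) (nat_lit 5) (nat_lit 440) (nat_lit 433) (nat_lit 267)) (XT.lf (nat_lit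 76) (nat_lit 3676819321) (nat_lit 0) (nat_lit 218296917) (nat_lit 1748) (nat_lit 9010535934) (nat_lit 411) (nat_lit 5) (nat_lit 410) (nat_lit 5) (nat_lit 433) (nat_lit 5) (nat_lit 441) (nat_lit 433) (nat_lit 266))))) (XT.nd (nat_lit 156) (nat_lit 0) (nat_lit 76) (XT.nd (nat_lit 78) (nat_lit 0) (nat_lit 0) (XT.lf (nat_lit 0) (nat_lit 4653951552) (nat_lit 1672) (nat_lit 3010277453) (nat_lit 1748) (nat_lit 5366133124) (nat_lit 411) (nat_lit 5) (nat_lit 433) (nat_lit 5) (nat_lit 434) (nat_lit 5) (nat_lit 442) (nat_lit 433) (nat_lit 265)) (XT.lf (nat_lit 76) (nat_lit 3368779198) (nat_lit 0) (nat_lit 2072044093) (nat_lit 1748) (nat_lit 7716491213) (nat_lit 412) (nat_lit 5) (nat_lit 411) (nat_lit 5) (nat_lit 434) (nat_lit 5) (nat_lit 443) (nat_lit 433) (nat_lit 264))) (XT.nd (nat_lit 78) (nat_lit 0) (nat_lit 0) (XT.lf (nat_lit 0) (nat_lit 6277076429) (nat_lit 1672) (nat_lit 3400693176) (nat_lit 1748) (nat_lit 3608368744)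 (nat_lit 412) (nat_lit 5) (nat_lit 434) (nat_lit 5) (nat_lit 435) (nat_lit 5) (nat_lit 444) (nat_lit 433) (nat_lit 263)) (XT.nd (nat_lit 78) (nat_lit 0) (nat_lit 76) (XT.lf (nat_lit 76) (nat_lit 3135643154) (nat_lit 0) (nat_lit 4018422087) (nat_lit 1748) (nat_lit 6262998419) (nat_lit 413) (nat_lit 5) (nat_lit 412) (nat_lit 5) (nat_lit 435) (nat_lit 5) (nat_lit 445) (nat_lit 433) (nat_lit 262)) (XT.lf (nat_lit 0) (nat_lit 8073059909) (nat_lit 1672) (nat_lit 3719733528) (nat_lit 1748) (nat_lit 1757329816) (nat_lit 413) (nat_lit 5) (nat_lit 435) (nat_lit 5) (nat_lit 436) (nat_lit 5) (nat_lit 446) (nat_lit 433) (nat_lit 261)))))) (XT.nd (nat_lit 390) (nat_lit 1596) (nat_lit 0) (XT.nd (nat_lit 156) (nat_lit 0) (nat_lit 76) (XT.nd (nat_lit 78) (nat_lit 0) (nat_lit 0) (XT.lf (nat_lit 76) (nat_lit 2978932621) (nat_lit 0) (nat_lit 6067754775) (nat_lit 1748) (nat_lit 4638436582) (nat_lit 414) (nat_lit 5) (nat_lit 413)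 (nat_lit 5) (nat_lit 436) (nat_lit 5) (nat_lit 447) (nat_lit 433) (nat_lit 260)) (XT.lf (nat_lit 76) (nat_lit 9855326478) (nat_lit 0) (nat_lit 199868892) (nat_lit 1748) (nat_lit 3767326088) (nat_lit 414) (nat_lit 5) (nat_lit 413) (nat_lit 5) (nat_lit 436) (nat_lit 5) (nat_lit 448) (nat_lit 433) (nat_lit 259))) (XT.nd (nat_lit 78) (nat_lit 0) (nat_lit 0) (XT.lf (nat_lit 76) (nat_lit 2900309573) (nat_lit 0) (nat_lit 8230609413) (nat_lit 1748) (nat_lit 2830811797) (nat_lit 415) (nat_lit 5) (nat_lit 414) (nat_lit 5) (nat_lit 437) (nat_lit 5) (nat_lit 449) (nat_lit 433) (nat_lit 258)) (XT.nd (nat_lit 78) (nat_lit 0) (nat_lit 76) (XT.lf (nat_lit 76) (nat_lit 9950896415) (nat_lit 0) (nat_lit 2295989580) (nat_lit 1748) (nat_lit 1856468432) (nat_lit 415) (nat_lit 5) (nat_lit 414) (nat_lit 5) (nat_lit 437) (nat_lit 5) (nat_lit 450) (nat_lit 433) (nat_lit 257)) (XT.lf (nat_lit 76) (nat_lit 2901571419) (nat_lit 0) (nat_lit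 10517823404) (nat_lit 1748) (nat_lit 827735888) (nat_lit 416) (nat_lit 5) (nat_lit 415) (nat_lit 5) (nat_lit 438) (nat_lit 5) (nat_lit 451) (nat_lit 433) (nat_lit 256))))) (XT.nd (nat_lit 234) (nat_lit 0) (nat_lit 76) (XT.nd (nat_lit 78) (nat_lit 0) (nat_lit 76) (XT.lf (nat_lit 0) (nat_lit 252978572) (nat_lit 1748) (nat_lit 4263935815) (nat_lit 1824) (nat_lit 9876157536) (nat_lit 392) (nat_lit 5) (nat_lit 415) (nat_lit 5) (nat_lit 416) (nat_lit 5) (nat_lit 452) (nat_lit 433) (nat_lit 255)) (XT.nd (nat_lit 78) (nat_lit 0) (nat_lit 0) (XT.lf (nat_lit 0) (nat_lit 1365449179) (nat_lit 1748) (nat_lit 11565919427) (nat_lit 1824) (nat_lit 1610033771) (nat_lit 393) (nat_lit 5) (nat_lit 416) (nat_lit 5) (nat_lit 417) (nat_lit 5) (nat_lit 453) (nat_lit 433) (nat_lit 254)) (XT.lf (nat_lit 0) (nat_lit 2550260205) (nat_lit 1748) (nat_lit 4311603739) (nat_lit 1824) (nat_lit 7829837944) (nat_lit 393) (nat_lit 5) (nat_lit 416)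 (nat_lit 5) (nat_lit 417) (nat_lit 5) (nat_lit 454) (nat_lit 433) (nat_lit 253)))) (XT.nd (nat_lit 78) (nat_lit 0) (nat_lit 76) (XT.lf (nat_lit 76) (nat_lit 3122016031) (nat_lit 0) (nat_lit 648565659) (nat_lit 1824) (nat_lit 11074193597) (nat_lit 394) (nat_lit 5) (nat_lit 393) (nat_lit 5) (nat_lit 417) (nat_lit 5) (nat_lit 455) (nat_lit 433) (nat_lit 252)) (XT.nd (nat_lit 78) (nat_lit 0) (nat_lit 0) (XT.lf (nat_lit 0) (nat_lit 5073048257) (nat_lit 1748) (nat_lit 4281571986) (nat_lit 1824) (nat_lit 5645139237) (nat_lit 394) (nat_lit 5) (nat_lit 417) (nat_lit 5) (nat_lit 418) (nat_lit 5) (nat_lit 456) (nat_lit 433) (nat_lit 251)) (XT.lf (nat_lit 76) (nat_lit 3341234138) (nat_lit 0) (nat_lit 3078159014) (nat_lit 1824) (nat_lit 8738097646) (nat_lit 395) (nat_lit 5) (nat_lit 394) (nat_lit 5) (nat_lit 418) (nat_lit 5) (nat_lit 457) (nat_lit 433) (nat_lit 250))))))))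
noncomputable def xc218 : XT := (XT.nd (nat_lit 1638) (nat_lit 6156) (nat_lit 0) (XT.nd (nat_lit 780) (nat_lit 4484) (nat_lit 0) (XT.nd (nat_lit 390) (nat_lit 2660) (nat_lit 0) (XT.nd (nat_lit 156) (nat_lit 988) (nat_lit 0) (XT.nd (nat_lit 78) (nat_lit 1748) (nat_lit 0) (XT.lf (nat_lit 0) (nat_lit 7835133082) (nat_lit 1748) (nat_lit 4171898653) (nat_lit 76) (nat_lit 3310499585) (nat_lit 395) (nat_lit 5) (nat_lit 418) (nat_lit 5) (nat_lit 396) (nat_lit 5) (nat_lit 458) (nat_lit 433) (nat_lit 249)) (XT.lf (nat_lit 0) (nat_lit 3646054554) (nat_lit 1748) (nat_lit 5669314295) (nat_lit 1824) (nat_lit 6164684046) (nat_lit 372) (nat_lit 5) (nat_lit 395) (nat_lit 5) (nat_lit 396) (nat_lit 5) (nat_lit 459) (nat_lit 433) (nat_lit 248))) (XT.nd (nat_lit 78) (nat_lit 988) (nat_lit 0) (XT.lf (nat_lit 0) (nat_lit 10850794444) (nat_lit 1824) (nat_lit 3980542427) (nat_lit 76) (nat_lit 813980116) (nat_lit 372) (nat_lit 5) (nat_lit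 396) (nat_lit 5) (nat_lit 373) (nat_lit 5) (nat_lit 460) (nat_lit 433) (nat_lit 247)) (XT.nd (nat_lit 78) (nat_lit 0) (nat_lit 0) (XT.lf (nat_lit 0) (nat_lit 4038692560) (nat_lit 988) (nat_lit 8434396501) (nat_lit 1064) (nat_lit 3339677804) (nat_lit 359) (nat_lit 5) (nat_lit 372) (nat_lit 5) (nat_lit 373) (nat_lit 5) (nat_lit 461) (nat_lit 433) (nat_lit 246)) (XT.lf (nat_lit 0) (nat_lit 12265600619) (nat_lit 988) (nat_lit 1881439849) (nat_lit 1064) (nat_lit 1836144697) (nat_lit 359) (nat_lit 5) (nat_lit 372) (nat_lit 5) (nat_lit 373) (nat_lit 5) (nat_lit 462) (nat_lit 433) (nat_lit 245))))) (XT.nd (nat_lit 156) (nat_lit 1672) (nat_lit 0) (XT.nd (nat_lit 78) (nat_lit 76) (nat_lit 0) (XT.lf (nat_lit 0) (nat_lit 4521459148) (nat_lit 912) (nat_lit 11386201301) (nat_lit 988) (nat_lit 248291160) (nat_lit 347) (nat_lit 5) (nat_lit 359) (nat_lit 5) (nat_lit 360) (nat_lit 5) (nat_lit 463) (nat_lit 433) (nat_lit 244))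 (XT.lf (nat_lit 0) (nat_lit 1383607558) (nat_lit 988) (nat_lit 3384276972) (nat_lit 76) (nat_lit 11563508747) (nat_lit 346) (nat_lit 5) (nat_lit 359) (nat_lit 5) (nat_lit 347) (nat_lit 5) (nat_lit 464) (nat_lit 433) (nat_lit 243))) (XT.nd (nat_lit 78) (nat_lit 836) (nat_lit 0) (XT.lf (nat_lit 0) (nat_lit 3083817845) (nat_lit 912) (nat_lit 11433474184) (nat_lit 76) (nat_lit 1992242325) (nat_lit 335) (nat_lit 5) (nat_lit 347) (nat_lit 5) (nat_lit 336) (nat_lit 5) (nat_lit 465) (nat_lit 433) (nat_lit 242)) (XT.nd (nat_lit 78) (nat_lit 836) (nat_lit 0) (XT.lf (nat_lit 0) (nat_lit 4865413470) (nat_lit 912) (nat_lit 2977753204) (nat_lit 76) (nat_lit 8847127254) (nat_lit 335) (nat_lit 5) (nat_lit 347) (nat_lit 5) (nat_lit 336) (nat_lit 5) (nat_lit 466) (nat_lit 433) (nat_lit 241)) (XT.lf (nat_lit 0) (nat_lit 5715450984) (nat_lit 836) (nat_lit 997381913) (nat_lit 912) (nat_lit 10161235192) (nat_lit 324) (nat_lit 5)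 (nat_lit 335) (nat_lit 5) (nat_lit 336) (nat_lit 5) (nat_lit 467) (nat_lit 433) (nat_lit 240)))))) (XT.nd (nat_lit 390) (nat_lit 2964) (nat_lit 0) (XT.nd (nat_lit 156) (nat_lit 760) (nat_lit 0) (XT.nd (nat_lit 78) (nat_lit 760) (nat_lit 0) (XT.lf (nat_lit 0) (nat_lit 8649354293) (nat_lit 912) (nat_lit 2483916048) (nat_lit 76) (nat_lit 5927207489) (nat_lit 324) (nat_lit 5) (nat_lit 336) (nat_lit 5) (nat_lit 325) (nat_lit 5) (nat_lit 468) (nat_lit 433) (nat_lit 239)) (XT.lf (nat_lit 0) (nat_lit 6435519539) (nat_lit 760) (nat_lit 4230787474) (nat_lit 836) (nat_lit 6583477843) (nat_lit 314) (nat_lit 5) (nat_lit 324) (nat_lit 5) (nat_lit 325) (nat_lit 5) (nat_lit 469) (nat_lit 433) (nat_lit 238))) (XT.nd (nat_lit 78) (nat_lit 760) (nat_lit 0) (XT.lf (nat_lit 0) (nat_lit 12752021739) (nat_lit 836) (nat_lit 1900533545) (nat_lit 76) (nat_lit 2789757327) (nat_lit 314) (nat_lit 5) (nat_lit 325) (nat_lit 5) (nat_lit 315)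 (nat_lit 5) (nat_lit 470) (nat_lit 433) (nat_lit 237)) (XT.nd (nat_lit 78) (nat_lit 0) (nat_lit 0) (XT.lf (nat_lit 0) (nat_lit 7252046940) (nat_lit 760) (nat_lit 7696038209) (nat_lit 836) (nat_lit 2689236070) (nat_lit 304) (nat_lit 5) (nat_lit 314) (nat_lit 5) (nat_lit 315) (nat_lit 5) (nat_lit 471) (nat_lit 433) (nat_lit 236)) (XT.lf (nat_lit 0) (nat_lit 16606964798) (nat_lit 760) (nat_lit 587474242) (nat_lit 836) (nat_lit 641666503) (nat_lit 304) (nat_lit 5) (nat_lit 314) (nat_lit 5) (nat_lit 315) (nat_lit 5) (nat_lit 472) (nat_lit 433) (nat_lit 235))))) (XT.nd (nat_lit 234) (nat_lit 1368) (nat_lit 0) (XT.nd (nat_lit 78) (nat_lit 760) (nat_lit 0) (XT.lf (nat_lit 0) (nat_lit 1518503426) (nat_lit 836) (nat_lit 9879563599) (nat_lit 76) (nat_lit 6638800971) (nat_lit 293) (nat_lit 5) (nat_lit 304) (nat_lit 5) (nat_lit 294) (nat_lit 5) (nat_lit 473) (nat_lit 433) (nat_lit 234)) (XT.nd (nat_lit 78) (nat_lit 760)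 (nat_lit 0) (XT.lf (nat_lit 0) (nat_lit 3719263731) (nat_lit 836) (nat_lit 508055382) (nat_lit 76) (nat_lit 14014124938) (nat_lit 293) (nat_lit 5) (nat_lit 304) (nat_lit 5) (nat_lit 294) (nat_lit 5) (nat_lit 474) (nat_lit 433) (nat_lit 233)) (XT.lf (nat_lit 0) (nat_lit 6037875984) (nat_lit 836) (nat_lit 9304792712) (nat_lit 76) (nat_lit 3105968901) (nat_lit 283) (nat_lit 5) (nat_lit 294) (nat_lit 5) (nat_lit 284) (nat_lit 5) (nat_lit 475) (nat_lit 433) (nat_lit 232)))) (XT.nd (nat_lit 78) (nat_lit 684) (nat_lit 0) (XT.lf (nat_lit 0) (nat_lit 305277996) (nat_lit 684) (nat_lit 8124967708) (nat_lit 760) (nat_lit 10229184258) (nat_lit 274) (nat_lit 5) (nat_lit 283) (nat_lit 5) (nat_lit 284) (nat_lit 5) (nat_lit 476) (nat_lit 433) (nat_lit 231)) (XT.nd (nat_lit 78) (nat_lit 684) (nat_lit 0) (XT.lf (nat_lit 0) (nat_lit 10227250739) (nat_lit 684) (nat_lit 699704289) (nat_lit 760) (nat_lit 7946355902) (nat_lit 274)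 (nat_lit 5) (nat_lit 283) (nat_lit 5) (nat_lit 284) (nat_lit 5) (nat_lit 477) (nat_lit 433) (nat_lit 230)) (XT.lf (nat_lit 0) (nat_lit 1221159798) (nat_lit 684) (nat_lit 12299164024) (nat_lit 760) (nat_lit 5570213739) (nat_lit 265) (nat_lit 5) (nat_lit 274) (nat_lit 5) (nat_lit 275) (nat_lit 5) (nat_lit 478) (nat_lit 433) (nat_lit 229))))))) (XT.nd (nat_lit 780) (nat_lit 2812) (nat_lit 0) (XT.nd (nat_lit 390) (nat_lit 1900) (nat_lit 0) (XT.nd (nat_lit 156) (nat_lit 760) (nat_lit 0) (XT.nd (nat_lit 78) (nat_lit 684) (nat_lit 0) (XT.lf (nat_lit 0) (nat_lit 11391852286) (nat_lit 684) (nat_lit 4830569355) (nat_lit 760) (nat_lit 3088552349) (nat_lit 265) (nat_lit 5) (nat_lit 274) (nat_lit 5) (nat_lit 275) (nat_lit 5) (nat_lit 479) (nat_lit 433) (nat_lit 228)) (XT.lf (nat_lit 0) (nat_lit 2234991539) (nat_lit 684) (nat_lit 16770526329) (nat_lit 760) (nat_lit 529764602) (nat_lit 256) (nat_lit 5) (nat_lit 265) (nat_lit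 5) (nat_lit 266) (nat_lit 5) (nat_lit 480) (nat_lit 433) (nat_lit 227))) (XT.nd (nat_lit 78) (nat_lit 684) (nat_lit 0) (XT.lf (nat_lit 0) (nat_lit 2132778866) (nat_lit 760) (nat_lit 7115727775) (nat_lit 76) (nat_lit 10513705470) (nat_lit 255) (nat_lit 5) (nat_lit 265) (nat_lit 5) (nat_lit 256) (nat_lit 5) (nat_lit 481) (nat_lit 433) (nat_lit 226)) (XT.nd (nat_lit 78) (nat_lit 0) (nat_lit 0) (XT.lf (nat_lit 0) (nat_lit 3306106067) (nat_lit 684) (nat_lit 1551334104) (nat_lit 760) (nat_lit 15135853237) (nat_lit 246) (nat_lit 5) (nat_lit 255) (nat_lit 5) (nat_lit 256) (nat_lit 5) (nat_lit 482) (nat_lit 433) (nat_lit 225)) (XT.lf (nat_lit 0) (nat_lit 7720114525) (nat_lit 760) (nat_lit 6242764911) (nat_lit 76) (nat_lit 6264448764) (nat_lit 246) (nat_lit 5) (nat_lit 256) (nat_lit 5) (nat_lit 247) (nat_lit 5) (nat_lit 483) (nat_lit 433) (nat_lit 224))))) (XT.nd (nat_lit 156) (nat_lit 1292) (nat_lit 0) (XT.nd (nat_lit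 78) (nat_lit 0) (nat_lit 0) (XT.lf (nat_lit 0) (nat_lit 4452454083) (nat_lit 608) (nat_lit 6221428099) (nat_lit 684) (nat_lit 9791486926) (nat_lit 238) (nat_lit 5) (nat_lit 246) (nat_lit 5) (nat_lit 247) (nat_lit 5) (nat_lit 484) (nat_lit 433) (nat_lit 223)) (XT.lf (nat_lit 0) (nat_lit 13734485782) (nat_lit 684) (nat_lit 5278558827) (nat_lit 76) (nat_lit 1694173191) (nat_lit 238) (nat_lit 5) (nat_lit 247) (nat_lit 5) (nat_lit 239) (nat_lit 5) (nat_lit 485) (nat_lit 433) (nat_lit 222))) (XT.nd (nat_lit 78) (nat_lit 684) (nat_lit 0) (XT.lf (nat_lit 0) (nat_lit 5697860537) (nat_lit 608) (nat_lit 11231456976) (nat_lit 684) (nat_lit 4023127763) (nat_lit 230) (nat_lit 5) (nat_lit 238) (nat_lit 5) (nat_lit 239) (nat_lit 5) (nat_lit 486) (nat_lit 433) (nat_lit 221)) (XT.nd (nat_lit 78) (nat_lit 684) (nat_lit 0) (XT.lf (nat_lit 0) (nat_lit 16959250099) (nat_lit 608) (nat_lit 3259099840) (nat_lit 684) (nat_lit 983623375)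 (nat_lit 230) (nat_lit 5) (nat_lit 238) (nat_lit 5) (nat_lit 239) (nat_lit 5) (nat_lit 487) (nat_lit 433) (nat_lit 220)) (XT.lf (nat_lit 0) (nat_lit 2161735243) (nat_lit 684) (nat_lit 14425233162) (nat_lit 76) (nat_lit 4867794166) (nat_lit 221) (nat_lit 5) (nat_lit 230) (nat_lit 5) (nat_lit 222) (nat_lit 5) (nat_lit 488) (nat_lit 433) (nat_lit 219)))))) (XT.nd (nat_lit 390) (nat_lit 1672) (nat_lit 0) (XT.nd (nat_lit 156) (nat_lit 532) (nat_lit 0) (XT.nd (nat_lit 78) (nat_lit 608) (nat_lit 0) (XT.lf (nat_lit 0) (nat_lit 5402086095) (nat_lit 684) (nat_lit 3161701013) (nat_lit 76) (nat_lit 13147787326) (nat_lit 221) (nat_lit 5) (nat_lit 230) (nat_lit 5) (nat_lit 222) (nat_lit 5) (nat_lit 489) (nat_lit 433) (nat_lit 218)) (XT.lf (nat_lit 0) (nat_lit 8431689727) (nat_lit 608) (nat_lit 325396954) (nat_lit 684) (nat_lit 13215440930) (nat_lit 213) (nat_lit 5) (nat_lit 221) (nat_lit 5) (nat_lit 222) (nat_lit 5) (nat_lit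 490) (nat_lit 433) (nat_lit 217))) (XT.nd (nat_lit 78) (nat_lit 532) (nat_lit 0) (XT.lf (nat_lit 0) (nat_lit 12248139464) (nat_lit 684) (nat_lit 1997103528) (nat_lit 76) (nat_lit 7992079711) (nat_lit 213) (nat_lit 5) (nat_lit 222) (nat_lit 5) (nat_lit 214) (nat_lit 5) (nat_lit 491) (nat_lit 433) (nat_lit 216)) (XT.nd (nat_lit 78) (nat_lit 0) (nat_lit 0) (XT.lf (nat_lit 0) (nat_lit 9899252326) (nat_lit 532) (nat_lit 5971432371) (nat_lit 608) (nat_lit 6635497428) (nat_lit 206) (nat_lit 5) (nat_lit 213) (nat_lit 5) (nat_lit 214) (nat_lit 5) (nat_lit 492) (nat_lit 433) (nat_lit 215)) (XT.lf (nat_lit 0) (nat_lit 19590485388) (nat_lit 608) (nat_lit 741633678) (nat_lit 76) (nat_lit 2447805400) (nat_lit 206) (nat_lit 5) (nat_lit 214) (nat_lit 5) (nat_lit 207) (nat_lit 5) (nat_lit 493) (nat_lit 433) (nat_lit 214))))) (XT.nd (nat_lit 234) (nat_lit 532) (nat_lit 0) (XT.nd (nat_lit 78) (nat_lit 532) (nat_lit 0) (XT.lf (nat_lit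 0) (nat_lit 431367444) (nat_lit 608) (nat_lit 11593854211) (nat_lit 76) (nat_lit 11031677546) (nat_lit 198) (nat_lit 5) (nat_lit 206) (nat_lit 5) (nat_lit 199) (nat_lit 5) (nat_lit 494) (nat_lit 433) (nat_lit 213)) (XT.nd (nat_lit 78) (nat_lit 0) (nat_lit 0) (XT.lf (nat_lit 0) (nat_lit 562898971) (nat_lit 532) (nat_lit 3523093214) (nat_lit 608) (nat_lit 19252919142) (nat_lit 191) (nat_lit 5) (nat_lit 198) (nat_lit 5) (nat_lit 199) (nat_lit 5) (nat_lit 495) (nat_lit 433) (nat_lit 212)) (XT.lf (nat_lit 0) (nat_lit 7920904780) (nat_lit 608) (nat_lit 10544939419) (nat_lit 76) (nat_lit 5158577273) (nat_lit 191) (nat_lit 5) (nat_lit 199) (nat_lit 5) (nat_lit 192) (nat_lit 5) (nat_lit 496) (nat_lit 433) (nat_lit 211)))) (XT.nd (nat_lit 54444) (nat_lit 0) (nat_lit 16948) (XT.lf (nat_lit 0) (nat_lit 1926880665) (nat_lit 532) (nat_lit 9937014574) (nat_lit 608) (nat_lit 12051120637) (nat_lit 184) (nat_lit 5) (nat_lit 191)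 (nat_lit 5) (nat_lit 192) (nat_lit 5) (nat_lit 497) (nat_lit 433) (nat_lit 210)) (XT.nd (nat_lit 78) (nat_lit 0) (nat_lit 0) (XT.lf (nat_lit 0) (nat_lit 57186038) (nat_lit 1748) (nat_lit 3020263272) (nat_lit 1748) (nat_lit 3020263272) (nat_lit 407) (nat_lit 3) (nat_lit 430) (nat_lit 3) (nat_lit 430) (nat_lit 5) (nat_lit 434) (nat_lit 434) (nat_lit 272)) (XT.lf (nat_lit 0) (nat_lit 563098682) (nat_lit 1748) (nat_lit 312287190) (nat_lit 1748) (nat_lit 11432809605) (nat_lit 407) (nat_lit 3) (nat_lit 430) (nat_lit 3) (nat_lit 430) (nat_lit 5) (nat_lit 435) (nat_lit 434) (nat_lit 271))))))))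
noncomputable def xc219 : XT := (XT.nd (nat_lit 1638) (nat_lit 8968) (nat_lit 0) (XT.nd (nat_lit 780) (nat_lit 1216) (nat_lit 0) (XT.nd (nat_lit 390) (nat_lit 0) (nat_lit 152) (XT.nd (nat_lit 156) (nat_lit 0) (nat_lit 76) (XT.nd (nat_lit 78) (nat_lit 0) (nat_lit 0) (XT.lf (nat_lit 0) (nat_lit 1074963233) (nat_lit 1672) (nat_lit 6854348872) (nat_lit 1748) (nat_lit 4492831917) (nat_lit 408) (nat_lit 5) (nat_lit 430) (nat_lit 5) (nat_lit 431) (nat_lit 5) (nat_lit 436) (nat_lit 434) (nat_lit 270)) (XT.lf (nat_lit 0) (nat_lit 1593459466) (nat_lit 1672) (nat_lit 980652944) (nat_lit 1748) (nat_lit 9964337212) (nat_lit 408) (nat_lit 5) (nat_lit 430) (nat_lit 5) (nat_lit 431) (nat_lit 5) (nat_lit 437) (nat_lit 434) (nat_lit 269))) (XT.nd (nat_lit 78) (nat_lit 0) (nat_lit 0) (XT.lf (nat_lit 0) (nat_lit 2162966533) (nat_lit 1672) (nat_lit 7604737674) (nat_lit 1748) (nat_lit 2888570167) (nat_lit 409) (nat_lit 5) (nat_lit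 431) (nat_lit 5) (nat_lit 432) (nat_lit 5) (nat_lit 438) (nat_lit 434) (nat_lit 268)) (XT.nd (nat_lit 78) (nat_lit 0) (nat_lit 76) (XT.lf (nat_lit 0) (nat_lit 2756463183) (nat_lit 1672) (nat_lit 1582074377) (nat_lit 1748) (nat_lit 8437671812) (nat_lit 409) (nat_lit 5) (nat_lit 431) (nat_lit 5) (nat_lit 432) (nat_lit 5) (nat_lit 439) (nat_lit 434) (nat_lit 267)) (XT.lf (nat_lit 0) (nat_lit 3388955764) (nat_lit 1672) (nat_lit 8290806441) (nat_lit 1748) (nat_lit 1218243975) (nat_lit 410) (nat_lit 5) (nat_lit 432) (nat_lit 5) (nat_lit 433) (nat_lit 5) (nat_lit 440) (nat_lit 434) (nat_lit 266))))) (XT.nd (nat_lit 156) (nat_lit 0) (nat_lit 76) (XT.nd (nat_lit 78) (nat_lit 0) (nat_lit 0) (XT.lf (nat_lit 0) (nat_lit 4062864481) (nat_lit 1672) (nat_lit 2115530771) (nat_lit 1748) (nat_lit 6843273863) (nat_lit 410) (nat_lit 5) (nat_lit 432) (nat_lit 5) (nat_lit 433) (nat_lit 5) (nat_lit 441) (nat_lit 434) (nat_lit 265))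 (XT.lf (nat_lit 76) (nat_lit 4232479149) (nat_lit 0) (nat_lit 534808550) (nat_lit 1748) (nat_lit 8380182296) (nat_lit 411) (nat_lit 5) (nat_lit 410) (nat_lit 5) (nat_lit 433) (nat_lit 5) (nat_lit 442) (nat_lit 434) (nat_lit 264))) (XT.nd (nat_lit 78) (nat_lit 0) (nat_lit 0) (XT.lf (nat_lit 0) (nat_lit 5523738896) (nat_lit 1672) (nat_lit 2579850337) (nat_lit 1748) (nat_lit 5171444172) (nat_lit 411) (nat_lit 5) (nat_lit 433) (nat_lit 5) (nat_lit 434) (nat_lit 5) (nat_lit 443) (nat_lit 434) (nat_lit 263)) (XT.nd (nat_lit 78) (nat_lit 0) (nat_lit 76) (XT.lf (nat_lit 76) (nat_lit 3923559601) (nat_lit 0) (nat_lit 2390723449) (nat_lit 1748) (nat_lit 7090490954) (nat_lit 412) (nat_lit 5) (nat_lit 411) (nat_lit 5) (nat_lit 434) (nat_lit 5) (nat_lit 444) (nat_lit 434) (nat_lit 262)) (XT.lf (nat_lit 0) (nat_lit 7150503523) (nat_lit 1672) (nat_lit 2973715251) (nat_lit 1748) (nat_lit 3412298431) (nat_lit 412) (nat_lit 5)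 (nat_lit 434) (nat_lit 5) (nat_lit 435) (nat_lit 5) (nat_lit 445) (nat_lit 434) (nat_lit 261)))))) (XT.nd (nat_lit 390) (nat_lit 1520) (nat_lit 0) (XT.nd (nat_lit 156) (nat_lit 0) (nat_lit 76) (XT.nd (nat_lit 78) (nat_lit 0) (nat_lit 76) (XT.lf (nat_lit 76) (nat_lit 3690091281) (nat_lit 0) (nat_lit 4343469079) (nat_lit 1748) (nat_lit 5636737669) (nat_lit 413) (nat_lit 5) (nat_lit 412) (nat_lit 5) (nat_lit 435) (nat_lit 5) (nat_lit 446) (nat_lit 434) (nat_lit 260)) (XT.lf (nat_lit 0) (nat_lit 8954937969) (nat_lit 1672) (nat_lit 3295666647) (nat_lit 1748) (nat_lit 1555741562) (nat_lit 413) (nat_lit 5) (nat_lit 435) (nat_lit 5) (nat_lit 436) (nat_lit 5) (nat_lit 447) (nat_lit 434) (nat_lit 259))) (XT.nd (nat_lit 78) (nat_lit 0) (nat_lit 0) (XT.lf (nat_lit 76) (nat_lit 3533693473) (nat_lit 0) (nat_lit 6403433764) (nat_lit 1748) (nat_lit 4007145175) (nat_lit 414) (nat_lit 5) (nat_lit 413) (nat_lit 5) (nat_lit 436)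 (nat_lit 5) (nat_lit 448) (nat_lit 434) (nat_lit 258)) (XT.nd (nat_lit 78) (nat_lit 0) (nat_lit 76) (XT.lf (nat_lit 76) (nat_lit 10537905753) (nat_lit 0) (nat_lit 413987734) (nat_lit 1748) (nat_lit 3132809729) (nat_lit 414) (nat_lit 5) (nat_lit 413) (nat_lit 5) (nat_lit 436) (nat_lit 5) (nat_lit 449) (nat_lit 434) (nat_lit 257)) (XT.lf (nat_lit 76) (nat_lit 3456124682) (nat_lit 0) (nat_lit 8581262397) (nat_lit 1748) (nat_lit 2189551532) (nat_lit 415) (nat_lit 5) (nat_lit 414) (nat_lit 5) (nat_lit 437) (nat_lit 5) (nat_lit 450) (nat_lit 434) (nat_lit 256))))) (XT.nd (nat_lit 234) (nat_lit 0) (nat_lit 76) (XT.nd (nat_lit 78) (nat_lit 1672) (nat_lit 0) (XT.lf (nat_lit 76) (nat_lit 10637962302) (nat_lit 0) (nat_lit 2524302309) (nat_lit 1748) (nat_lit 1209405152) (nat_lit 415) (nat_lit 5) (nat_lit 414) (nat_lit 5) (nat_lit 437) (nat_lit 5) (nat_lit 451) (nat_lit 434) (nat_lit 255)) (XT.nd (nat_lit 78) (nat_lit 1748)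 (nat_lit 0) (XT.lf (nat_lit 76) (nat_lit 3459277669) (nat_lit 0) (nat_lit 10887883270) (nat_lit 1748) (nat_lit 171388611) (nat_lit 416) (nat_lit 5) (nat_lit 415) (nat_lit 5) (nat_lit 438) (nat_lit 5) (nat_lit 452) (nat_lit 434) (nat_lit 254)) (XT.lf (nat_lit 0) (nat_lit 909093794) (nat_lit 1748) (nat_lit 3850361913) (nat_lit 1824) (nat_lit 9908133385) (nat_lit 392) (nat_lit 5) (nat_lit 415) (nat_lit 5) (nat_lit 416) (nat_lit 5) (nat_lit 453) (nat_lit 434) (nat_lit 253)))) (XT.nd (nat_lit 78) (nat_lit 0) (nat_lit 0) (XT.lf (nat_lit 0) (nat_lit 2033318072) (nat_lit 1748) (nat_lit 11287572639) (nat_lit 1824) (nat_lit 1498211698) (nat_lit 393) (nat_lit 5) (nat_lit 416) (nat_lit 5) (nat_lit 417) (nat_lit 5) (nat_lit 454) (nat_lit 434) (nat_lit 252)) (XT.nd (nat_lit 78) (nat_lit 0) (nat_lit 0) (XT.lf (nat_lit 0) (nat_lit 3229265321) (nat_lit 1748) (nat_lit 3898164071) (nat_lit 1824) (nat_lit 7845235930) (nat_lit 393)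 (nat_lit 5) (nat_lit 416) (nat_lit 5) (nat_lit 417) (nat_lit 5) (nat_lit 455) (nat_lit 434) (nat_lit 251)) (XT.lf (nat_lit 76) (nat_lit 3680840780) (nat_lit 0) (nat_lit 784061589) (nat_lit 1824) (nat_lit 10664085728) (nat_lit 394) (nat_lit 5) (nat_lit 393) (nat_lit 5) (nat_lit 417) (nat_lit 5) (nat_lit 456) (nat_lit 434) (nat_lit 250))))))) (XT.nd (nat_lit 780) (nat_lit 4636) (nat_lit 0) (XT.nd (nat_lit 390) (nat_lit 2812) (nat_lit 0) (XT.nd (nat_lit 156) (nat_lit 1672) (nat_lit 0) (XT.nd (nat_lit 78) (nat_lit 0) (nat_lit 0) (XT.lf (nat_lit 0) (nat_lit 5780502883) (nat_lit 1748) (nat_lit 3867338096) (nat_lit 1824) (nat_lit 5639495273) (nat_lit 394) (nat_lit 5) (nat_lit 417) (nat_lit 5) (nat_lit 418) (nat_lit 5) (nat_lit 457) (nat_lit 434) (nat_lit 249)) (XT.lf (nat_lit 76) (nat_lit 3904635563) (nat_lit 0) (nat_lit 3240480989) (nat_lit 1824) (nat_lit 8303284660) (nat_lit 395) (nat_lit 5) (nat_lit 394) (nat_lit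 5) (nat_lit 418) (nat_lit 5) (nat_lit 458) (nat_lit 434) (nat_lit 248))) (XT.nd (nat_lit 78) (nat_lit 1748) (nat_lit 0) (XT.lf (nat_lit 0) (nat_lit 8576817454) (nat_lit 1748) (nat_lit 3755855904) (nat_lit 76) (nat_lit 3279222003) (nat_lit 395) (nat_lit 5) (nat_lit 418) (nat_lit 5) (nat_lit 396) (nat_lit 5) (nat_lit 459) (nat_lit 434) (nat_lit 247)) (XT.nd (nat_lit 78) (nat_lit 0) (nat_lit 0) (XT.lf (nat_lit 0) (nat_lit 4215170310) (nat_lit 1748) (nat_lit 5863239022) (nat_lit 1824) (nat_lit 5699428634) (nat_lit 372) (nat_lit 5) (nat_lit 395) (nat_lit 5) (nat_lit 396) (nat_lit 5) (nat_lit 460) (nat_lit 434) (nat_lit 246)) (XT.lf (nat_lit 0) (nat_lit 11632722290) (nat_lit 1824) (nat_lit 3561590961) (nat_lit 76) (nat_lit 752336028) (nat_lit 372) (nat_lit 5) (nat_lit 396) (nat_lit 5) (nat_lit 373) (nat_lit 5) (nat_lit 461) (nat_lit 434) (nat_lit 245))))) (XT.nd (nat_lit 156) (nat_lit 1824) (nat_lit 0) (XT.nd (nat_lit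 78) (nat_lit 0) (nat_lit 0) (XT.lf (nat_lit 0) (nat_lit 4614748712) (nat_lit 988) (nat_lit 8664853085) (nat_lit 1064) (nat_lit 2838008987) (nat_lit 359) (nat_lit 5) (nat_lit 372) (nat_lit 5) (nat_lit 373) (nat_lit 5) (nat_lit 462) (nat_lit 434) (nat_lit 244)) (XT.lf (nat_lit 0) (nat_lit 12996483514) (nat_lit 988) (nat_lit 1979626149) (nat_lit 1064) (nat_lit 1315551538) (nat_lit 359) (nat_lit 5) (nat_lit 372) (nat_lit 5) (nat_lit 373) (nat_lit 5) (nat_lit 463) (nat_lit 434) (nat_lit 243))) (XT.nd (nat_lit 78) (nat_lit 836) (nat_lit 0) (XT.lf (nat_lit 0) (nat_lit 292126649) (nat_lit 988) (nat_lit 11364198479) (nat_lit 76) (nat_lit 4811682351) (nat_lit 346) (nat_lit 5) (nat_lit 359) (nat_lit 5) (nat_lit 347) (nat_lit 5) (nat_lit 464) (nat_lit 434) (nat_lit 242)) (XT.nd (nat_lit 78) (nat_lit 836) (nat_lit 0) (XT.lf (nat_lit 0) (nat_lit 1942713162) (nat_lit 988) (nat_lit 2960453179) (nat_lit 76) (nat_lit 11743976324)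 (nat_lit 346) (nat_lit 5) (nat_lit 359) (nat_lit 5) (nat_lit 347) (nat_lit 5) (nat_lit 465) (nat_lit 434) (nat_lit 241)) (XT.lf (nat_lit 0) (nat_lit 3669444465) (nat_lit 912) (nat_lit 11162906233) (nat_lit 76) (nat_lit 1996650427) (nat_lit 335) (nat_lit 5) (nat_lit 347) (nat_lit 5) (nat_lit 336) (nat_lit 5) (nat_lit 466) (nat_lit 434) (nat_lit 240)))))) (XT.nd (nat_lit 390) (nat_lit 3040) (nat_lit 0) (XT.nd (nat_lit 156) (nat_lit 760) (nat_lit 0) (XT.nd (nat_lit 78) (nat_lit 836) (nat_lit 0) (XT.lf (nat_lit 0) (nat_lit 5476398468) (nat_lit 912) (nat_lit 2547859803) (nat_lit 76) (nat_lit 8989327892) (nat_lit 335) (nat_lit 5) (nat_lit 347) (nat_lit 5) (nat_lit 336) (nat_lit 5) (nat_lit 467) (nat_lit 434) (nat_lit 239)) (XT.lf (nat_lit 0) (nat_lit 6315988413) (nat_lit 836) (nat_lit 1037862695) (nat_lit 912) (nat_lit 9847327711) (nat_lit 324) (nat_lit 5) (nat_lit 335) (nat_lit 5) (nat_lit 336) (nat_lit 5) (nat_lit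 468) (nat_lit 434) (nat_lit 238))) (XT.nd (nat_lit 78) (nat_lit 760) (nat_lit 0) (XT.lf (nat_lit 0) (nat_lit 9319035730) (nat_lit 912) (nat_lit 2046601863) (nat_lit 76) (nat_lit 6025885121) (nat_lit 324) (nat_lit 5) (nat_lit 336) (nat_lit 5) (nat_lit 325) (nat_lit 5) (nat_lit 469) (nat_lit 434) (nat_lit 237)) (XT.nd (nat_lit 78) (nat_lit 0) (nat_lit 0) (XT.lf (nat_lit 0) (nat_lit 7048018537) (nat_lit 760) (nat_lit 4321710939) (nat_lit 836) (nat_lit 6215022891) (nat_lit 314) (nat_lit 5) (nat_lit 324) (nat_lit 5) (nat_lit 325) (nat_lit 5) (nat_lit 470) (nat_lit 434) (nat_lit 236)) (XT.lf (nat_lit 0) (nat_lit 13487508613) (nat_lit 836) (nat_lit 1454369954) (nat_lit 76) (nat_lit 2839449543) (nat_lit 314) (nat_lit 5) (nat_lit 325) (nat_lit 5) (nat_lit 315) (nat_lit 5) (nat_lit 471) (nat_lit 434) (nat_lit 235))))) (XT.nd (nat_lit 234) (nat_lit 1444) (nat_lit 0) (XT.nd (nat_lit 78) (nat_lit 836) (nat_lit 0) (XT.lf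 (nat_lit 0) (nat_lit 7878076784) (nat_lit 760) (nat_lit 7843118889) (nat_lit 836) (nat_lit 2259171520) (nat_lit 304) (nat_lit 5) (nat_lit 314) (nat_lit 5) (nat_lit 315) (nat_lit 5) (nat_lit 472) (nat_lit 434) (nat_lit 234)) (XT.nd (nat_lit 78) (nat_lit 836) (nat_lit 0) (XT.lf (nat_lit 0) (nat_lit 17410661844) (nat_lit 760) (nat_lit 592517762) (nat_lit 836) (nat_lit 180137803) (nat_lit 304) (nat_lit 5) (nat_lit 314) (nat_lit 5) (nat_lit 315) (nat_lit 5) (nat_lit 473) (nat_lit 434) (nat_lit 233)) (XT.lf (nat_lit 0) (nat_lit 2011001051) (nat_lit 836) (nat_lit 9592948687) (nat_lit 76) (nat_lit 6784208137) (nat_lit 293) (nat_lit 5) (nat_lit 304) (nat_lit 5) (nat_lit 294) (nat_lit 5) (nat_lit 474) (nat_lit 434) (nat_lit 232)))) (XT.nd (nat_lit 78) (nat_lit 1444) (nat_lit 0) (XT.lf (nat_lit 0) (nat_lit 4246715237) (nat_lit 836) (nat_lit 43504545) (nat_lit 76) (nat_lit 14306790913) (nat_lit 293) (nat_lit 5) (nat_lit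 304) (nat_lit 5) (nat_lit 294) (nat_lit 5) (nat_lit 475) (nat_lit 434) (nat_lit 231)) (XT.nd (nat_lit 78) (nat_lit 684) (nat_lit 0) (XT.lf (nat_lit 0) (nat_lit 6606036011) (nat_lit 836) (nat_lit 9010315925) (nat_lit 76) (nat_lit 3192113390) (nat_lit 283) (nat_lit 5) (nat_lit 294) (nat_lit 5) (nat_lit 284) (nat_lit 5) (nat_lit 476) (nat_lit 434) (nat_lit 230)) (XT.lf (nat_lit 0) (nat_lit 788794535) (nat_lit 684) (nat_lit 8251785660) (nat_lit 760) (nat_lit 9983010663) (nat_lit 274) (nat_lit 5) (nat_lit 283) (nat_lit 5) (nat_lit 284) (nat_lit 5) (nat_lit 477) (nat_lit 434) (nat_lit 229))))))))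
noncomputable def xc220 : XT := (XT.nd (nat_lit 56082) (nat_lit 0) (nat_lit 15276) (XT.nd (nat_lit 780) (nat_lit 2964) (nat_lit 0) (XT.nd (nat_lit 390) (nat_lit 1900) (nat_lit 0) (XT.nd (nat_lit 156) (nat_lit 760) (nat_lit 0) (XT.nd (nat_lit 78) (nat_lit 684) (nat_lit 0) (XT.lf (nat_lit 0) (nat_lit 10899845733) (nat_lit 684) (nat_lit 678716608) (nat_lit 760) (nat_lit 7663364118) (nat_lit 274) (nat_lit 5) (nat_lit 283) (nat_lit 5) (nat_lit 284) (nat_lit 5) (nat_lit 478) (nat_lit 434) (nat_lit 228)) (XT.lf (nat_lit 0) (nat_lit 1719120527) (nat_lit 684) (nat_lit 12499483642) (nat_lit 760) (nat_lit 5245001054) (nat_lit 265) (nat_lit 5) (nat_lit 274) (nat_lit 5) (nat_lit 275) (nat_lit 5) (nat_lit 479) (nat_lit 434) (nat_lit 227))) (XT.nd (nat_lit 78) (nat_lit 760) (nat_lit 0) (XT.lf (nat_lit 0) (nat_lit 12083941815) (nat_lit 684) (nat_lit 4882412447) (nat_lit 760) (nat_lit 2722267553) (nat_lit 265) (nat_lit 5) (nat_lit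 274) (nat_lit 5) (nat_lit 275) (nat_lit 5) (nat_lit 480) (nat_lit 434) (nat_lit 226)) (XT.nd (nat_lit 78) (nat_lit 76) (nat_lit 0) (XT.lf (nat_lit 0) (nat_lit 2749116071) (nat_lit 684) (nat_lit 17051103944) (nat_lit 760) (nat_lit 117297864) (nat_lit 256) (nat_lit 5) (nat_lit 265) (nat_lit 5) (nat_lit 266) (nat_lit 5) (nat_lit 481) (nat_lit 434) (nat_lit 225)) (XT.lf (nat_lit 0) (nat_lit 2584761400) (nat_lit 760) (nat_lit 6792210819) (nat_lit 76) (nat_lit 10772126119) (nat_lit 255) (nat_lit 5) (nat_lit 265) (nat_lit 5) (nat_lit 256) (nat_lit 5) (nat_lit 482) (nat_lit 434) (nat_lit 224))))) (XT.nd (nat_lit 156) (nat_lit 1216) (nat_lit 0) (XT.nd (nat_lit 78) (nat_lit 0) (nat_lit 0) (XT.lf (nat_lit 0) (nat_lit 3834995019) (nat_lit 684) (nat_lit 1523899482) (nat_lit 760) (nat_lit 15026010551) (nat_lit 246) (nat_lit 5) (nat_lit 255) (nat_lit 5) (nat_lit 256) (nat_lit 5) (nat_lit 483) (nat_lit 434) (nat_lit 223)) (XT.lf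 (nat_lit 0) (nat_lit 8271266910) (nat_lit 760) (nat_lit 5906206987) (nat_lit 76) (nat_lit 6446301046) (nat_lit 246) (nat_lit 5) (nat_lit 256) (nat_lit 5) (nat_lit 247) (nat_lit 5) (nat_lit 484) (nat_lit 434) (nat_lit 222))) (XT.nd (nat_lit 78) (nat_lit 608) (nat_lit 0) (XT.lf (nat_lit 0) (nat_lit 4999880773) (nat_lit 608) (nat_lit 6279425825) (nat_lit 684) (nat_lit 9587369371) (nat_lit 238) (nat_lit 5) (nat_lit 246) (nat_lit 5) (nat_lit 247) (nat_lit 5) (nat_lit 485) (nat_lit 434) (nat_lit 221)) (XT.nd (nat_lit 78) (nat_lit 608) (nat_lit 0) (XT.lf (nat_lit 0) (nat_lit 14393859895) (nat_lit 684) (nat_lit 4927319399) (nat_lit 76) (nat_lit 1792330756) (nat_lit 238) (nat_lit 5) (nat_lit 247) (nat_lit 5) (nat_lit 239) (nat_lit 5) (nat_lit 486) (nat_lit 434) (nat_lit 220)) (XT.lf (nat_lit 0) (nat_lit 6265623020) (nat_lit 608) (nat_lit 11382368815) (nat_lit 684) (nat_lit 3715745277) (nat_lit 230) (nat_lit 5) (nat_lit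 238) (nat_lit 5) (nat_lit 239) (nat_lit 5) (nat_lit 487) (nat_lit 434) (nat_lit 219)))))) (XT.nd (nat_lit 390) (nat_lit 1672) (nat_lit 0) (XT.nd (nat_lit 156) (nat_lit 608) (nat_lit 0) (XT.nd (nat_lit 78) (nat_lit 684) (nat_lit 0) (XT.lf (nat_lit 0) (nat_lit 17743342230) (nat_lit 608) (nat_lit 3252009973) (nat_lit 684) (nat_lit 623055605) (nat_lit 230) (nat_lit 5) (nat_lit 238) (nat_lit 5) (nat_lit 239) (nat_lit 5) (nat_lit 488) (nat_lit 434) (nat_lit 218)) (XT.lf (nat_lit 0) (nat_lit 2576263403) (nat_lit 684) (nat_lit 14259588279) (nat_lit 76) (nat_lit 5040433918) (nat_lit 221) (nat_lit 5) (nat_lit 230) (nat_lit 5) (nat_lit 222) (nat_lit 5) (nat_lit 489) (nat_lit 434) (nat_lit 217))) (XT.nd (nat_lit 78) (nat_lit 608) (nat_lit 0) (XT.lf (nat_lit 0) (nat_lit 5874141007) (nat_lit 684) (nat_lit 2779690381) (nat_lit 76) (nat_lit 13484550787) (nat_lit 221) (nat_lit 5) (nat_lit 230) (nat_lit 5) (nat_lit 222) (nat_lit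 5) (nat_lit 490) (nat_lit 434) (nat_lit 216)) (XT.nd (nat_lit 78) (nat_lit 0) (nat_lit 0) (XT.lf (nat_lit 0) (nat_lit 9042638933) (nat_lit 608) (nat_lit 249336964) (nat_lit 684) (nat_lit 13112666646) (nat_lit 213) (nat_lit 5) (nat_lit 221) (nat_lit 5) (nat_lit 222) (nat_lit 5) (nat_lit 491) (nat_lit 434) (nat_lit 215)) (XT.lf (nat_lit 0) (nat_lit 12846321438) (nat_lit 684) (nat_lit 1596736828) (nat_lit 76) (nat_lit 8231808595) (nat_lit 213) (nat_lit 5) (nat_lit 222) (nat_lit 5) (nat_lit 214) (nat_lit 5) (nat_lit 492) (nat_lit 434) (nat_lit 214))))) (XT.nd (nat_lit 156) (nat_lit 1140) (nat_lit 0) (XT.nd (nat_lit 78) (nat_lit 0) (nat_lit 0) (XT.lf (nat_lit 0) (nat_lit 10534649375) (nat_lit 532) (nat_lit 6002582303) (nat_lit 608) (nat_lit 6411956216) (nat_lit 206) (nat_lit 5) (nat_lit 213) (nat_lit 5) (nat_lit 214) (nat_lit 5) (nat_lit 493) (nat_lit 434) (nat_lit 213)) (XT.lf (nat_lit 0) (nat_lit 20325144557) (nat_lit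 608) (nat_lit 321214673) (nat_lit 76) (nat_lit 2582174179) (nat_lit 206) (nat_lit 5) (nat_lit 214) (nat_lit 5) (nat_lit 207) (nat_lit 5) (nat_lit 494) (nat_lit 434) (nat_lit 212))) (XT.nd (nat_lit 78) (nat_lit 532) (nat_lit 0) (XT.lf (nat_lit 0) (nat_lit 781301918) (nat_lit 608) (nat_lit 11388679912) (nat_lit 76) (nat_lit 11341101802) (nat_lit 198) (nat_lit 5) (nat_lit 206) (nat_lit 5) (nat_lit 199) (nat_lit 5) (nat_lit 495) (nat_lit 434) (nat_lit 211)) (XT.nd (nat_lit 54600) (nat_lit 0) (nat_lit 16416) (XT.lf (nat_lit 0) (nat_lit 1008332995) (nat_lit 532) (nat_lit 3496812822) (nat_lit 608) (nat_lit 19293670150) (nat_lit 191) (nat_lit 5) (nat_lit 198) (nat_lit 5) (nat_lit 199) (nat_lit 5) (nat_lit 496) (nat_lit 434) (nat_lit 210)) (XT.lf (nat_lit 0) (nat_lit 503006639) (nat_lit 1748) (nat_lit 2853767942) (nat_lit 1748) (nat_lit 2853767942) (nat_lit 407) (nat_lit 3) (nat_lit 430) (nat_lit 3) (nat_lit 430) (nat_lit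 5) (nat_lit 435) (nat_lit 435) (nat_lit 270))))))) (XT.nd (nat_lit 780) (nat_lit 1140) (nat_lit 0) (XT.nd (nat_lit 390) (nat_lit 0) (nat_lit 228) (XT.nd (nat_lit 156) (nat_lit 0) (nat_lit 76) (XT.nd (nat_lit 78) (nat_lit 0) (nat_lit 76) (XT.lf (nat_lit 76) (nat_lit 128049585) (nat_lit 0) (nat_lit 1319057904) (nat_lit 1748) (nat_lit 11089344467) (nat_lit 408) (nat_lit 5) (nat_lit 407) (nat_lit 3) (nat_lit 430) (nat_lit 5) (nat_lit 436) (nat_lit 435) (nat_lit 269)) (XT.lf (nat_lit 0) (nat_lit 1951452087) (nat_lit 1672) (nat_lit 6529163239) (nat_lit 1748) (nat_lit 4172428162) (nat_lit 408) (nat_lit 5) (nat_lit 430) (nat_lit 5) (nat_lit 431) (nat_lit 5) (nat_lit 437) (nat_lit 435) (nat_lit 268))) (XT.nd (nat_lit 78) (nat_lit 0) (nat_lit 76) (XT.lf (nat_lit 0) (nat_lit 2463553744) (nat_lit 1672) (nat_lit 547057562) (nat_lit 1748) (nat_lit 9761407884) (nat_lit 408) (nat_lit 5) (nat_lit 430) (nat_lit 5) (nat_lit 431)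 (nat_lit 5) (nat_lit 438) (nat_lit 435) (nat_lit 267)) (XT.nd (nat_lit 78) (nat_lit 0) (nat_lit 0) (XT.lf (nat_lit 0) (nat_lit 3028506928) (nat_lit 1672) (nat_lit 7287253566) (nat_lit 1748) (nat_lit 2576767351) (nat_lit 409) (nat_lit 5) (nat_lit 431) (nat_lit 5) (nat_lit 432) (nat_lit 5) (nat_lit 439) (nat_lit 435) (nat_lit 266)) (XT.lf (nat_lit 0) (nat_lit 3617750353) (nat_lit 1672) (nat_lit 1153344432) (nat_lit 1748) (nat_lit 8244097582) (nat_lit 409) (nat_lit 5) (nat_lit 431) (nat_lit 5) (nat_lit 432) (nat_lit 5) (nat_lit 440) (nat_lit 435) (nat_lit 265))))) (XT.nd (nat_lit 156) (nat_lit 0) (nat_lit 0) (XT.nd (nat_lit 78) (nat_lit 0) (nat_lit 0) (XT.lf (nat_lit 0) (nat_lit 4247873750) (nat_lit 1672) (nat_lit 7980822264) (nat_lit 1748) (nat_lit 911037674) (nat_lit 410) (nat_lit 5) (nat_lit 432) (nat_lit 5) (nat_lit 433) (nat_lit 5) (nat_lit 441) (nat_lit 435) (nat_lit 264)) (XT.lf (nat_lit 0) (nat_lit 4919748115)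 (nat_lit 1672) (nat_lit 1691370499) (nat_lit 1748) (nat_lit 6655069555) (nat_lit 410) (nat_lit 5) (nat_lit 432) (nat_lit 5) (nat_lit 433) (nat_lit 5) (nat_lit 442) (nat_lit 435) (nat_lit 263))) (XT.nd (nat_lit 78) (nat_lit 0) (nat_lit 76) (XT.lf (nat_lit 76) (nat_lit 4780530732) (nat_lit 0) (nat_lit 845529418) (nat_lit 1748) (nat_lit 7768696787) (nat_lit 411) (nat_lit 5) (nat_lit 410) (nat_lit 5) (nat_lit 433) (nat_lit 5) (nat_lit 443) (nat_lit 435) (nat_lit 262)) (XT.nd (nat_lit 78) (nat_lit 0) (nat_lit 0) (XT.lf (nat_lit 0) (nat_lit 6380761456) (nat_lit 1672) (nat_lit 2159866542) (nat_lit 1748) (nat_lit 4984588919) (nat_lit 411) (nat_lit 5) (nat_lit 433) (nat_lit 5) (nat_lit 434) (nat_lit 5) (nat_lit 444) (nat_lit 435) (nat_lit 261)) (XT.lf (nat_lit 76) (nat_lit 4470509089) (nat_lit 0) (nat_lit 2705010884) (nat_lit 1748) (nat_lit 6482271859) (nat_lit 412) (nat_lit 5) (nat_lit 411) (nat_lit 5) (nat_lit 434)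 (nat_lit 5) (nat_lit 445) (nat_lit 435) (nat_lit 260)))))) (XT.nd (nat_lit 390) (nat_lit 1520) (nat_lit 0) (XT.nd (nat_lit 156) (nat_lit 0) (nat_lit 76) (XT.nd (nat_lit 78) (nat_lit 0) (nat_lit 0) (XT.lf (nat_lit 0) (nat_lit 8012357852) (nat_lit 1672) (nat_lit 2557418902) (nat_lit 1748) (nat_lit 3222722708) (nat_lit 412) (nat_lit 5) (nat_lit 434) (nat_lit 5) (nat_lit 435) (nat_lit 5) (nat_lit 446) (nat_lit 435) (nat_lit 259)) (XT.lf (nat_lit 76) (nat_lit 4236533691) (nat_lit 0) (nat_lit 4665515845) (nat_lit 1748) (nat_lit 5027134170) (nat_lit 413) (nat_lit 5) (nat_lit 412) (nat_lit 5) (nat_lit 435) (nat_lit 5) (nat_lit 447) (nat_lit 435) (nat_lit 258))) (XT.nd (nat_lit 78) (nat_lit 0) (nat_lit 0) (XT.lf (nat_lit 0) (nat_lit 9826478925) (nat_lit 1672) (nat_lit 2882474298) (nat_lit 1748) (nat_lit 1359314246) (nat_lit 413) (nat_lit 5) (nat_lit 435) (nat_lit 5) (nat_lit 436) (nat_lit 5) (nat_lit 448) (nat_lit 435)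 (nat_lit 257)) (XT.nd (nat_lit 78) (nat_lit 0) (nat_lit 0) (XT.lf (nat_lit 76) (nat_lit 4080321013) (nat_lit 0) (nat_lit 6737503874) (nat_lit 1748) (nat_lit 3391344077) (nat_lit 414) (nat_lit 5) (nat_lit 413) (nat_lit 5) (nat_lit 436) (nat_lit 5) (nat_lit 449) (nat_lit 435) (nat_lit 256)) (XT.lf (nat_lit 76) (nat_lit 11215285114) (nat_lit 0) (nat_lit 624229679) (nat_lit 1748) (nat_lit 2513167883) (nat_lit 414) (nat_lit 5) (nat_lit 413) (nat_lit 5) (nat_lit 436) (nat_lit 5) (nat_lit 450) (nat_lit 435) (nat_lit 255))))) (XT.nd (nat_lit 234) (nat_lit 0) (nat_lit 0) (XT.nd (nat_lit 78) (nat_lit 1672) (nat_lit 0) (XT.lf (nat_lit 76) (nat_lit 4003725567) (nat_lit 0) (nat_lit 8931704251) (nat_lit 1748) (nat_lit 1562565457) (nat_lit 415) (nat_lit 5) (nat_lit 414) (nat_lit 5) (nat_lit 437) (nat_lit 5) (nat_lit 451) (nat_lit 435) (nat_lit 254)) (XT.nd (nat_lit 78) (nat_lit 1672) (nat_lit 0) (XT.lf (nat_lit 76) (nat_lit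 11319818010) (nat_lit 0) (nat_lit 2750098752) (nat_lit 1748) (nat_lit 575968642) (nat_lit 415) (nat_lit 5) (nat_lit 414) (nat_lit 5) (nat_lit 437) (nat_lit 5) (nat_lit 452) (nat_lit 435) (nat_lit 253)) (XT.lf (nat_lit 0) (nat_lit 465766218) (nat_lit 1748) (nat_lit 10790251102) (nat_lit 1824) (nat_lit 3539843307) (nat_lit 392) (nat_lit 5) (nat_lit 415) (nat_lit 5) (nat_lit 416) (nat_lit 5) (nat_lit 453) (nat_lit 435) (nat_lit 252)))) (XT.nd (nat_lit 78) (nat_lit 0) (nat_lit 76) (XT.lf (nat_lit 0) (nat_lit 1553050037) (nat_lit 1748) (nat_lit 3447887589) (nat_lit 1824) (nat_lit 9947177156) (nat_lit 392) (nat_lit 5) (nat_lit 415) (nat_lit 5) (nat_lit 416) (nat_lit 5) (nat_lit 454) (nat_lit 435) (nat_lit 251)) (XT.nd (nat_lit 78) (nat_lit 0) (nat_lit 0) (XT.lf (nat_lit 0) (nat_lit 2689670621) (nat_lit 1748) (nat_lit 11023449834) (nat_lit 1824) (nat_lit 1389745762) (nat_lit 393) (nat_lit 5) (nat_lit 416) (nat_lit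 5) (nat_lit 417) (nat_lit 5) (nat_lit 455) (nat_lit 435) (nat_lit 250)) (XT.lf (nat_lit 0) (nat_lit 3897464536) (nat_lit 1748) (nat_lit 3495858473) (nat_lit 1824) (nat_lit 7866424796) (nat_lit 393) (nat_lit 5) (nat_lit 416) (nat_lit 5) (nat_lit 417) (nat_lit 5) (nat_lit 456) (nat_lit 435) (nat_lit 249))))))))
noncomputable def xc221 : XT := (XT.nd (nat_lit 1638) (nat_lit 6460) (nat_lit 0) (XT.nd (nat_lit 780) (nat_lit 4788) (nat_lit 0) (XT.nd (nat_lit 390) (nat_lit 1976) (nat_lit 0) (XT.nd (nat_lit 156) (nat_lit 1596) (nat_lit 0) (XT.nd (nat_lit 78) (nat_lit 0) (nat_lit 76) (XT.lf (nat_lit 76) (nat_lit 4231566812) (nat_lit 0) (nat_lit 917509656) (nat_lit 1824) (nat_lit 10270301178) (nat_lit 394) (nat_lit 5) (nat_lit 393) (nat_lit 5) (nat_lit 417) (nat_lit 5) (nat_lit 457) (nat_lit 435) (nat_lit 248)) (XT.lf (nat_lit 0) (nat_lit 6478575128) (nat_lit 1748) (nat_lit 3464229909) (nat_lit 1824) (nat_lit 5638341745)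 (nat_lit 394) (nat_lit 5) (nat_lit 417) (nat_lit 5) (nat_lit 418) (nat_lit 5) (nat_lit 458) (nat_lit 435) (nat_lit 247))) (XT.nd (nat_lit 78) (nat_lit 1672) (nat_lit 0) (XT.lf (nat_lit 76) (nat_lit 4460022336) (nat_lit 0) (nat_lit 3402136817) (nat_lit 1824) (nat_lit 7883445952) (nat_lit 395) (nat_lit 5) (nat_lit 394) (nat_lit 5) (nat_lit 418) (nat_lit 5) (nat_lit 459) (nat_lit 435) (nat_lit 246)) (XT.nd (nat_lit 78) (nat_lit 1748) (nat_lit 0) (XT.lf (nat_lit 0) (nat_lit 9310619960) (nat_lit 1748) (nat_lit 3350887745) (nat_lit 76) (nat_lit 3251104430) (nat_lit 395) (nat_lit 5) (nat_lit 418) (nat_lit 5) (nat_lit 396) (nat_lit 5) (nat_lit 460) (nat_lit 435) (nat_lit 245)) (XT.lf (nat_lit 0) (nat_lit 4776400538) (nat_lit 1748) (nat_lit 6057914837) (nat_lit 1824) (nat_lit 5247722192) (nat_lit 372) (nat_lit 5) (nat_lit 395) (nat_lit 5) (nat_lit 396) (nat_lit 5) (nat_lit 461) (nat_lit 435) (nat_lit 244))))) (XT.nd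 (nat_lit 156) (nat_lit 988) (nat_lit 0) (XT.nd (nat_lit 78) (nat_lit 988) (nat_lit 0) (XT.lf (nat_lit 0) (nat_lit 12408352474) (nat_lit 1824) (nat_lit 3153620247) (nat_lit 76) (nat_lit 692484930) (nat_lit 372) (nat_lit 5) (nat_lit 396) (nat_lit 5) (nat_lit 373) (nat_lit 5) (nat_lit 462) (nat_lit 435) (nat_lit 243)) (XT.lf (nat_lit 0) (nat_lit 5183093570) (nat_lit 988) (nat_lit 8897520248) (nat_lit 1064) (nat_lit 2348380880) (nat_lit 359) (nat_lit 5) (nat_lit 372) (nat_lit 5) (nat_lit 373) (nat_lit 5) (nat_lit 463) (nat_lit 435) (nat_lit 242))) (XT.nd (nat_lit 78) (nat_lit 988) (nat_lit 0) (XT.lf (nat_lit 0) (nat_lit 13723128757) (nat_lit 988) (nat_lit 2077424654) (nat_lit 1064) (nat_lit 806187778) (nat_lit 359) (nat_lit 5) (nat_lit 372) (nat_lit 5) (nat_lit 373) (nat_lit 5) (nat_lit 464) (nat_lit 435) (nat_lit 241)) (XT.nd (nat_lit 78) (nat_lit 0) (nat_lit 0) (XT.lf (nat_lit 0) (nat_lit 818982372) (nat_lit 988)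 (nat_lit 11109610554) (nat_lit 76) (nat_lit 4858109529) (nat_lit 346) (nat_lit 5) (nat_lit 359) (nat_lit 5) (nat_lit 347) (nat_lit 5) (nat_lit 465) (nat_lit 435) (nat_lit 240)) (XT.lf (nat_lit 0) (nat_lit 2492364670) (nat_lit 988) (nat_lit 2547238816) (nat_lit 76) (nat_lit 11930025978) (nat_lit 346) (nat_lit 5) (nat_lit 359) (nat_lit 5) (nat_lit 347) (nat_lit 5) (nat_lit 466) (nat_lit 435) (nat_lit 239)))))) (XT.nd (nat_lit 390) (nat_lit 2356) (nat_lit 0) (XT.nd (nat_lit 156) (nat_lit 1596) (nat_lit 0) (XT.nd (nat_lit 78) (nat_lit 0) (nat_lit 0) (XT.lf (nat_lit 0) (nat_lit 4246437990) (nat_lit 912) (nat_lit 10906312922) (nat_lit 76) (nat_lit 2002522743) (nat_lit 335) (nat_lit 5) (nat_lit 347) (nat_lit 5) (nat_lit 336) (nat_lit 5) (nat_lit 467) (nat_lit 435) (nat_lit 238)) (XT.lf (nat_lit 0) (nat_lit 6079656472) (nat_lit 912) (nat_lit 2128374415) (nat_lit 76) (nat_lit 9135721614) (nat_lit 335) (nat_lit 5) (nat_lit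 347) (nat_lit 5) (nat_lit 336) (nat_lit 5) (nat_lit 468) (nat_lit 435) (nat_lit 237))) (XT.nd (nat_lit 78) (nat_lit 760) (nat_lit 0) (XT.lf (nat_lit 0) (nat_lit 6909655748) (nat_lit 836) (nat_lit 1078355766) (nat_lit 912) (nat_lit 9547222954) (nat_lit 324) (nat_lit 5) (nat_lit 335) (nat_lit 5) (nat_lit 336) (nat_lit 5) (nat_lit 469) (nat_lit 435) (nat_lit 236)) (XT.nd (nat_lit 78) (nat_lit 760) (nat_lit 0) (XT.lf (nat_lit 0) (nat_lit 9982823549) (nat_lit 912) (nat_lit 1619451908) (nat_lit 76) (nat_lit 6127307747) (nat_lit 324) (nat_lit 5) (nat_lit 336) (nat_lit 5) (nat_lit 325) (nat_lit 5) (nat_lit 470) (nat_lit 435) (nat_lit 235)) (XT.lf (nat_lit 0) (nat_lit 7653981414) (nat_lit 760) (nat_lit 4414207937) (nat_lit 836) (nat_lit 5858619285) (nat_lit 314) (nat_lit 5) (nat_lit 324) (nat_lit 5) (nat_lit 325) (nat_lit 5) (nat_lit 471) (nat_lit 435) (nat_lit 234))))) (XT.nd (nat_lit 234) (nat_lit 1520) (nat_lit 0)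 (XT.nd (nat_lit 78) (nat_lit 836) (nat_lit 0) (XT.lf (nat_lit 0) (nat_lit 14219048905) (nat_lit 836) (nat_lit 1018084168) (nat_lit 76) (nat_lit 2890372589) (nat_lit 314) (nat_lit 5) (nat_lit 325) (nat_lit 5) (nat_lit 315) (nat_lit 5) (nat_lit 472) (nat_lit 435) (nat_lit 233)) (XT.nd (nat_lit 78) (nat_lit 76) (nat_lit 0) (XT.lf (nat_lit 0) (nat_lit 8497949839) (nat_lit 760) (nat_lit 7993406791) (nat_lit 836) (nat_lit 1839294137) (nat_lit 304) (nat_lit 5) (nat_lit 314) (nat_lit 5) (nat_lit 315) (nat_lit 5) (nat_lit 473) (nat_lit 435) (nat_lit 232)) (XT.lf (nat_lit 0) (nat_lit 268631443) (nat_lit 836) (nat_lit 327488451) (nat_lit 76) (nat_lit 17941687567) (nat_lit 303) (nat_lit 5) (nat_lit 314) (nat_lit 5) (nat_lit 304) (nat_lit 5) (nat_lit 474) (nat_lit 435) (nat_lit 231)))) (XT.nd (nat_lit 78) (nat_lit 760) (nat_lit 0) (XT.lf (nat_lit 0) (nat_lit 2495403651) (nat_lit 836) (nat_lit 9319403794) (nat_lit 76) (nat_lit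 6932032962) (nat_lit 293) (nat_lit 5) (nat_lit 304) (nat_lit 5) (nat_lit 294) (nat_lit 5) (nat_lit 475) (nat_lit 435) (nat_lit 230)) (XT.nd (nat_lit 78) (nat_lit 0) (nat_lit 0) (XT.lf (nat_lit 0) (nat_lit 417377647) (nat_lit 760) (nat_lit 4352454904) (nat_lit 836) (nat_lit 14190161587) (nat_lit 283) (nat_lit 5) (nat_lit 293) (nat_lit 5) (nat_lit 294) (nat_lit 5) (nat_lit 476) (nat_lit 435) (nat_lit 229)) (XT.lf (nat_lit 0) (nat_lit 7168186054) (nat_lit 836) (nat_lit 8728610823) (nat_lit 76) (nat_lit 3279047845) (nat_lit 283) (nat_lit 5) (nat_lit 294) (nat_lit 5) (nat_lit 284) (nat_lit 5) (nat_lit 477) (nat_lit 435) (nat_lit 228))))))) (XT.nd (nat_lit 780) (nat_lit 3040) (nat_lit 0) (XT.nd (nat_lit 390) (nat_lit 1292) (nat_lit 0) (XT.nd (nat_lit 156) (nat_lit 1444) (nat_lit 0) (XT.nd (nat_lit 78) (nat_lit 0) (nat_lit 0) (XT.lf (nat_lit 0) (nat_lit 1263442955) (nat_lit 684) (nat_lit 8382525525) (nat_lit 760) (nat_lit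 9749417051) (nat_lit 274) (nat_lit 5) (nat_lit 283) (nat_lit 5) (nat_lit 284) (nat_lit 5) (nat_lit 478) (nat_lit 435) (nat_lit 227)) (XT.lf (nat_lit 0) (nat_lit 11567717676) (nat_lit 684) (nat_lit 658667559) (nat_lit 760) (nat_lit 7391872749) (nat_lit 274) (nat_lit 5) (nat_lit 283) (nat_lit 5) (nat_lit 284) (nat_lit 5) (nat_lit 479) (nat_lit 435) (nat_lit 226))) (XT.nd (nat_lit 78) (nat_lit 760) (nat_lit 0) (XT.lf (nat_lit 0) (nat_lit 2208652431) (nat_lit 684) (nat_lit 12705582829) (nat_lit 760) (nat_lit 4930238483) (nat_lit 265) (nat_lit 5) (nat_lit 274) (nat_lit 5) (nat_lit 275) (nat_lit 5) (nat_lit 480) (nat_lit 435) (nat_lit 225)) (XT.nd (nat_lit 78) (nat_lit 760) (nat_lit 0) (XT.lf (nat_lit 0) (nat_lit 12771845645) (nat_lit 684) (nat_lit 4937030807) (nat_lit 760) (nat_lit 2365278990) (nat_lit 265) (nat_lit 5) (nat_lit 274) (nat_lit 5) (nat_lit 275) (nat_lit 5) (nat_lit 481) (nat_lit 435) (nat_lit 224))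 (XT.lf (nat_lit 0) (nat_lit 283226265) (nat_lit 760) (nat_lit 17054295478) (nat_lit 76) (nat_lit 2970167898) (nat_lit 255) (nat_lit 5) (nat_lit 265) (nat_lit 5) (nat_lit 256) (nat_lit 5) (nat_lit 482) (nat_lit 435) (nat_lit 223))))) (XT.nd (nat_lit 156) (nat_lit 608) (nat_lit 0) (XT.nd (nat_lit 78) (nat_lit 684) (nat_lit 0) (XT.lf (nat_lit 0) (nat_lit 3029888919) (nat_lit 760) (nat_lit 6480312329) (nat_lit 76) (nat_lit 11033845593) (nat_lit 255) (nat_lit 5) (nat_lit 265) (nat_lit 5) (nat_lit 256) (nat_lit 5) (nat_lit 483) (nat_lit 435) (nat_lit 222)) (XT.lf (nat_lit 0) (nat_lit 4356491950) (nat_lit 684) (nat_lit 1498186292) (nat_lit 760) (nat_lit 14929991208) (nat_lit 246) (nat_lit 5) (nat_lit 255) (nat_lit 5) (nat_lit 256) (nat_lit 5) (nat_lit 484) (nat_lit 435) (nat_lit 221))) (XT.nd (nat_lit 78) (nat_lit 608) (nat_lit 0) (XT.lf (nat_lit 0) (nat_lit 8818036052) (nat_lit 760) (nat_lit 5580835144) (nat_lit 76)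 (nat_lit 6629593952) (nat_lit 246) (nat_lit 5) (nat_lit 256) (nat_lit 5) (nat_lit 247) (nat_lit 5) (nat_lit 485) (nat_lit 435) (nat_lit 220)) (XT.nd (nat_lit 78) (nat_lit 0) (nat_lit 0) (XT.lf (nat_lit 0) (nat_lit 5540456635) (nat_lit 608) (nat_lit 6341163096) (nat_lit 684) (nat_lit 9394699905) (nat_lit 238) (nat_lit 5) (nat_lit 246) (nat_lit 5) (nat_lit 247) (nat_lit 5) (nat_lit 486) (nat_lit 435) (nat_lit 219)) (XT.lf (nat_lit 0) (nat_lit 15051483726) (nat_lit 684) (nat_lit 4586793695) (nat_lit 76) (nat_lit 1889955631) (nat_lit 238) (nat_lit 5) (nat_lit 247) (nat_lit 5) (nat_lit 239) (nat_lit 5) (nat_lit 487) (nat_lit 435) (nat_lit 218)))))) (XT.nd (nat_lit 390) (nat_lit 1140) (nat_lit 0) (XT.nd (nat_lit 156) (nat_lit 1292) (nat_lit 0) (XT.nd (nat_lit 78) (nat_lit 0) (nat_lit 0) (XT.lf (nat_lit 0) (nat_lit 6827118940) (nat_lit 608) (nat_lit 11539161423) (nat_lit 684) (nat_lit 3417275636) (nat_lit 230) (nat_lit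 5) (nat_lit 238) (nat_lit 5) (nat_lit 239) (nat_lit 5) (nat_lit 488) (nat_lit 435) (nat_lit 217)) (XT.lf (nat_lit 0) (nat_lit 18525839917) (nat_lit 608) (nat_lit 3247584714) (nat_lit 684) (nat_lit 270041672) (nat_lit 230) (nat_lit 5) (nat_lit 238) (nat_lit 5) (nat_lit 239) (nat_lit 5) (nat_lit 489) (nat_lit 435) (nat_lit 216))) (XT.nd (nat_lit 78) (nat_lit 608) (nat_lit 0) (XT.lf (nat_lit 0) (nat_lit 2984664348) (nat_lit 684) (nat_lit 14108265679) (nat_lit 76) (nat_lit 5213603101) (nat_lit 221) (nat_lit 5) (nat_lit 230) (nat_lit 5) (nat_lit 222) (nat_lit 5) (nat_lit 490) (nat_lit 435) (nat_lit 215)) (XT.nd (nat_lit 78) (nat_lit 608) (nat_lit 0) (XT.lf (nat_lit 0) (nat_lit 6341501942) (nat_lit 684) (nat_lit 2407328928) (nat_lit 76) (nat_lit 13825183473) (nat_lit 221) (nat_lit 5) (nat_lit 230) (nat_lit 5) (nat_lit 222) (nat_lit 5) (nat_lit 491) (nat_lit 435) (nat_lit 214)) (XT.lf (nat_lit 0) (nat_lit 9648631477)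 (nat_lit 608) (nat_lit 174961987) (nat_lit 684) (nat_lit 13022091161) (nat_lit 213) (nat_lit 5) (nat_lit 221) (nat_lit 5) (nat_lit 222) (nat_lit 5) (nat_lit 492) (nat_lit 435) (nat_lit 213))))) (XT.nd (nat_lit 234) (nat_lit 76) (nat_lit 0) (XT.nd (nat_lit 78) (nat_lit 1064) (nat_lit 0) (XT.lf (nat_lit 0) (nat_lit 13442751120) (nat_lit 684) (nat_lit 1205460520) (nat_lit 76) (nat_lit 8473229937) (nat_lit 213) (nat_lit 5) (nat_lit 222) (nat_lit 5) (nat_lit 214) (nat_lit 5) (nat_lit 493) (nat_lit 435) (nat_lit 212)) (XT.nd (nat_lit 78) (nat_lit 532) (nat_lit 0) (XT.lf (nat_lit 0) (nat_lit 11165769124) (nat_lit 532) (nat_lit 6037783204) (nat_lit 608) (nat_lit 6197777847) (nat_lit 206) (nat_lit 5) (nat_lit 213) (nat_lit 5) (nat_lit 214) (nat_lit 5) (nat_lit 494) (nat_lit 435) (nat_lit 211)) (XT.lf (nat_lit 0) (nat_lit 91916864) (nat_lit 532) (nat_lit 20969863568) (nat_lit 608) (nat_lit 2624593576) (nat_lit 199) (nat_lit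 5) (nat_lit 206) (nat_lit 5) (nat_lit 207) (nat_lit 5) (nat_lit 495) (nat_lit 435) (nat_lit 210)))) (XT.nd (nat_lit 54678) (nat_lit 0) (nat_lit 15884) (XT.lf (nat_lit 0) (nat_lit 1124981710) (nat_lit 608) (nat_lit 11196373366) (nat_lit 76) (nat_lit 11653266692) (nat_lit 198) (nat_lit 5) (nat_lit 206) (nat_lit 5) (nat_lit 199) (nat_lit 5) (nat_lit 496) (nat_lit 435) (nat_lit 209)) (XT.nd (nat_lit 78) (nat_lit 0) (nat_lit 0) (XT.lf (nat_lit 0) (nat_lit 940476306) (nat_lit 1748) (nat_lit 2692753533) (nat_lit 1748) (nat_lit 2692753533) (nat_lit 407) (nat_lit 3) (nat_lit 430) (nat_lit 3) (nat_lit 430) (nat_lit 5) (nat_lit 436) (nat_lit 436) (nat_lit 268)) (XT.lf (nat_lit 76) (nat_lit 563920511) (nat_lit 0) (nat_lit 1753000374) (nat_lit 1748) (nat_lit 10453007762) (nat_lit 408) (nat_lit 5) (nat_lit 407) (nat_lit 3) (nat_lit 430) (nat_lit 5) (nat_lit 437) (nat_lit 436) (nat_lit 267))))))))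
noncomputable def xc222 : XT := (XT.nd (nat_lit 1638) (nat_lit 8892) (nat_lit 0) (XT.nd (nat_lit 780) (nat_lit 1292) (nat_lit 0) (XT.nd (nat_lit 390) (nat_lit 0) (nat_lit 152) (XT.nd (nat_lit 156) (nat_lit 0) (nat_lit 76) (XT.nd (nat_lit 78) (nat_lit 0) (nat_lit 0) (XT.lf (nat_lit 0) (nat_lit 2812270431) (nat_lit 1672) (nat_lit 6215424503) (nat_lit 1748) (nat_lit 3861547242) (nat_lit 408) (nat_lit 5) (nat_lit 430) (nat_lit 5) (nat_lit 431) (nat_lit 5) (nat_lit 438) (nat_lit 436) (nat_lit 266)) (XT.lf (nat_lit 0) (nat_lit 3318500605) (nat_lit 1672) (nat_lit 122388908) (nat_lit 1748) (nat_lit 9570038510) (nat_lit 408) (nat_lit 5) (nat_lit 430) (nat_lit 5) (nat_lit 431) (nat_lit 5) (nat_lit 439) (nat_lit 436) (nat_lit 265))) (XT.nd (nat_lit 78) (nat_lit 0) (nat_lit 0) (XT.lf (nat_lit 0) (nat_lit 3879427954) (nat_lit 1672) (nat_lit 6981654096) (nat_lit 1748) (nat_lit 2273079495) (nat_lit 409) (nat_lit 5) (nat_lit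 431) (nat_lit 5) (nat_lit 432) (nat_lit 5) (nat_lit 440) (nat_lit 436) (nat_lit 264)) (XT.nd (nat_lit 78) (nat_lit 0) (nat_lit 76) (XT.lf (nat_lit 0) (nat_lit 4464959172) (nat_lit 1672) (nat_lit 733916672) (nat_lit 1748) (nat_lit 8060721492) (nat_lit 409) (nat_lit 5) (nat_lit 431) (nat_lit 5) (nat_lit 432) (nat_lit 5) (nat_lit 441) (nat_lit 436) (nat_lit 263)) (XT.lf (nat_lit 0) (nat_lit 5093249209) (nat_lit 1672) (nat_lit 7683114310) (nat_lit 1748) (nat_lit 610562560) (nat_lit 410) (nat_lit 5) (nat_lit 432) (nat_lit 5) (nat_lit 433) (nat_lit 5) (nat_lit 442) (nat_lit 436) (nat_lit 262))))) (XT.nd (nat_lit 156) (nat_lit 0) (nat_lit 76) (XT.nd (nat_lit 78) (nat_lit 0) (nat_lit 0) (XT.lf (nat_lit 0) (nat_lit 5763650904) (nat_lit 1672) (nat_lit 1276840654) (nat_lit 1748) (nat_lit 6475724017) (nat_lit 410) (nat_lit 5) (nat_lit 432) (nat_lit 5) (nat_lit 433) (nat_lit 5) (nat_lit 443) (nat_lit 436) (nat_lit 261))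 (XT.lf (nat_lit 76) (nat_lit 5321548883) (nat_lit 0) (nat_lit 1150814378) (nat_lit 1748) (nat_lit 7175234549) (nat_lit 411) (nat_lit 5) (nat_lit 410) (nat_lit 5) (nat_lit 433) (nat_lit 5) (nat_lit 444) (nat_lit 436) (nat_lit 260))) (XT.nd (nat_lit 78) (nat_lit 0) (nat_lit 0) (XT.lf (nat_lit 0) (nat_lit 7225935107) (nat_lit 1672) (nat_lit 1749795129) (nat_lit 1748) (nat_lit 4805268648) (nat_lit 411) (nat_lit 5) (nat_lit 433) (nat_lit 5) (nat_lit 434) (nat_lit 5) (nat_lit 445) (nat_lit 436) (nat_lit 259)) (XT.nd (nat_lit 78) (nat_lit 0) (nat_lit 76) (XT.lf (nat_lit 76) (nat_lit 5010205984) (nat_lit 0) (nat_lit 3015236598) (nat_lit 1748) (nat_lit 5891012918) (nat_lit 412) (nat_lit 5) (nat_lit 411) (nat_lit 5) (nat_lit 434) (nat_lit 5) (nat_lit 446) (nat_lit 436) (nat_lit 258)) (XT.lf (nat_lit 0) (nat_lit 8863535668) (nat_lit 1672) (nat_lit 2151271380) (nat_lit 1748) (nat_lit 3039367001) (nat_lit 412) (nat_lit 5)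 (nat_lit 434) (nat_lit 5) (nat_lit 435) (nat_lit 5) (nat_lit 447) (nat_lit 436) (nat_lit 257)))))) (XT.nd (nat_lit 390) (nat_lit 1596) (nat_lit 0) (XT.nd (nat_lit 156) (nat_lit 0) (nat_lit 76) (XT.nd (nat_lit 78) (nat_lit 0) (nat_lit 76) (XT.lf (nat_lit 76) (nat_lit 4775551739) (nat_lit 0) (nat_lit 4984871322) (nat_lit 1748) (nat_lit 4433387876) (nat_lit 413) (nat_lit 5) (nat_lit 412) (nat_lit 5) (nat_lit 435) (nat_lit 5) (nat_lit 448) (nat_lit 436) (nat_lit 256)) (XT.lf (nat_lit 0) (nat_lit 10688562326) (nat_lit 1672) (nat_lit 2479622359) (nat_lit 1748) (nat_lit 1167794122) (nat_lit 413) (nat_lit 5) (nat_lit 435) (nat_lit 5) (nat_lit 436) (nat_lit 5) (nat_lit 449) (nat_lit 436) (nat_lit 255))) (XT.nd (nat_lit 78) (nat_lit 0) (nat_lit 0) (XT.lf (nat_lit 76) (nat_lit 4619399244) (nat_lit 0) (nat_lit 7070256100) (nat_lit 1748) (nat_lit 2790251311) (nat_lit 414) (nat_lit 5) (nat_lit 413) (nat_lit 5) (nat_lit 436)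 (nat_lit 5) (nat_lit 450) (nat_lit 436) (nat_lit 254)) (XT.nd (nat_lit 78) (nat_lit 0) (nat_lit 76) (XT.lf (nat_lit 76) (nat_lit 11888092591) (nat_lit 0) (nat_lit 830834026) (nat_lit 1748) (nat_lit 1907627665) (nat_lit 414) (nat_lit 5) (nat_lit 413) (nat_lit 5) (nat_lit 436) (nat_lit 5) (nat_lit 451) (nat_lit 436) (nat_lit 253)) (XT.lf (nat_lit 76) (nat_lit 4543698570) (nat_lit 0) (nat_lit 9282211274) (nat_lit 1748) (nat_lit 949086753) (nat_lit 415) (nat_lit 5) (nat_lit 414) (nat_lit 5) (nat_lit 437) (nat_lit 5) (nat_lit 452) (nat_lit 436) (nat_lit 252))))) (XT.nd (nat_lit 234) (nat_lit 0) (nat_lit 152) (XT.nd (nat_lit 78) (nat_lit 0) (nat_lit 76) (XT.lf (nat_lit 0) (nat_lit 44015293) (nat_lit 1748) (nat_lit 2929292949) (nat_lit 1824) (nat_lit 11952784585) (nat_lit 391) (nat_lit 5) (nat_lit 414) (nat_lit 5) (nat_lit 415) (nat_lit 5) (nat_lit 453) (nat_lit 436) (nat_lit 251)) (XT.nd (nat_lit 78) (nat_lit 0) (nat_lit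 0) (XT.lf (nat_lit 0) (nat_lit 1088585823) (nat_lit 1748) (nat_lit 10535976160) (nat_lit 1824) (nat_lit 3454641254) (nat_lit 392) (nat_lit 5) (nat_lit 415) (nat_lit 5) (nat_lit 416) (nat_lit 5) (nat_lit 454) (nat_lit 436) (nat_lit 250)) (XT.lf (nat_lit 0) (nat_lit 2185585823) (nat_lit 1748) (nat_lit 3055982632) (nat_lit 1824) (nat_lit 9993180582) (nat_lit 392) (nat_lit 5) (nat_lit 415) (nat_lit 5) (nat_lit 416) (nat_lit 5) (nat_lit 455) (nat_lit 436) (nat_lit 249)))) (XT.nd (nat_lit 78) (nat_lit 0) (nat_lit 0) (XT.lf (nat_lit 0) (nat_lit 3335242376) (nat_lit 1748) (nat_lit 10773066988) (nat_lit 1824) (nat_lit 1284485920) (nat_lit 393) (nat_lit 5) (nat_lit 416) (nat_lit 5) (nat_lit 417) (nat_lit 5) (nat_lit 456) (nat_lit 436) (nat_lit 248)) (XT.nd (nat_lit 78) (nat_lit 0) (nat_lit 0) (XT.lf (nat_lit 0) (nat_lit 4555588673) (nat_lit 1748) (nat_lit 3104156188) (nat_lit 1824) (nat_lit 7893307452) (nat_lit 393) (nat_lit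 5) (nat_lit 416) (nat_lit 5) (nat_lit 417) (nat_lit 5) (nat_lit 457) (nat_lit 436) (nat_lit 247)) (XT.lf (nat_lit 76) (nat_lit 4774780632) (nat_lit 0) (nat_lit 1049053655) (nat_lit 1824) (nat_lit 9892214061) (nat_lit 394) (nat_lit 5) (nat_lit 393) (nat_lit 5) (nat_lit 417) (nat_lit 5) (nat_lit 458) (nat_lit 436) (nat_lit 246))))))) (XT.nd (nat_lit 780) (nat_lit 4636) (nat_lit 0) (XT.nd (nat_lit 390) (nat_lit 2812) (nat_lit 0) (XT.nd (nat_lit 156) (nat_lit 1672) (nat_lit 0) (XT.nd (nat_lit 78) (nat_lit 0) (nat_lit 0) (XT.lf (nat_lit 0) (nat_lit 7167991102) (nat_lit 1748) (nat_lit 3071716208) (nat_lit 1824) (nat_lit 5641589708) (nat_lit 394) (nat_lit 5) (nat_lit 417) (nat_lit 5) (nat_lit 418) (nat_lit 5) (nat_lit 459) (nat_lit 436) (nat_lit 245)) (XT.lf (nat_lit 76) (nat_lit 5007982935) (nat_lit 0) (nat_lit 3563265106) (nat_lit 1824) (nat_lit 7477961852) (nat_lit 395) (nat_lit 5) (nat_lit 394) (nat_lit 5) (nat_lit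 418) (nat_lit 5) (nat_lit 460) (nat_lit 436) (nat_lit 244))) (XT.nd (nat_lit 78) (nat_lit 1748) (nat_lit 0) (XT.lf (nat_lit 0) (nat_lit 10037265037) (nat_lit 1748) (nat_lit 2956462519) (nat_lit 76) (nat_lit 3226063069) (nat_lit 395) (nat_lit 5) (nat_lit 418) (nat_lit 5) (nat_lit 396) (nat_lit 5) (nat_lit 461) (nat_lit 436) (nat_lit 243)) (XT.nd (nat_lit 78) (nat_lit 0) (nat_lit 0) (XT.lf (nat_lit 0) (nat_lit 5330335720) (nat_lit 1748) (nat_lit 6253478203) (nat_lit 1824) (nat_lit 4808948248) (nat_lit 372) (nat_lit 5) (nat_lit 395) (nat_lit 5) (nat_lit 396) (nat_lit 5) (nat_lit 462) (nat_lit 436) (nat_lit 242)) (XT.lf (nat_lit 0) (nat_lit 13178410851) (nat_lit 1824) (nat_lit 2756098138) (nat_lit 76) (nat_lit 634345184) (nat_lit 372) (nat_lit 5) (nat_lit 396) (nat_lit 5) (nat_lit 373) (nat_lit 5) (nat_lit 463) (nat_lit 436) (nat_lit 241))))) (XT.nd (nat_lit 156) (nat_lit 1824) (nat_lit 0) (XT.nd (nat_lit 78) (nat_lit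 0) (nat_lit 0) (XT.lf (nat_lit 0) (nat_lit 5744319729) (nat_lit 988) (nat_lit 9132535341) (nat_lit 1064) (nat_lit 1870177133) (nat_lit 359) (nat_lit 5) (nat_lit 372) (nat_lit 5) (nat_lit 373) (nat_lit 5) (nat_lit 464) (nat_lit 436) (nat_lit 240)) (XT.lf (nat_lit 0) (nat_lit 14446183771) (nat_lit 988) (nat_lit 2174918919) (nat_lit 1064) (nat_lit 307437648) (nat_lit 359) (nat_lit 5) (nat_lit 372) (nat_lit 5) (nat_lit 373) (nat_lit 5) (nat_lit 465) (nat_lit 436) (nat_lit 239))) (XT.nd (nat_lit 78) (nat_lit 836) (nat_lit 0) (XT.lf (nat_lit 0) (nat_lit 1336143631) (nat_lit 988) (nat_lit 10868642543) (nat_lit 76) (nat_lit 4907399296) (nat_lit 346) (nat_lit 5) (nat_lit 359) (nat_lit 5) (nat_lit 347) (nat_lit 5) (nat_lit 466) (nat_lit 436) (nat_lit 238)) (XT.nd (nat_lit 78) (nat_lit 836) (nat_lit 0) (XT.lf (nat_lit 0) (nat_lit 3033174328) (nat_lit 988) (nat_lit 2144104944) (nat_lit 76) (nat_lit 12121692750) (nat_lit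 346) (nat_lit 5) (nat_lit 359) (nat_lit 5) (nat_lit 347) (nat_lit 5) (nat_lit 467) (nat_lit 436) (nat_lit 237)) (XT.lf (nat_lit 0) (nat_lit 4815415803) (nat_lit 912) (nat_lit 10663220961) (nat_lit 76) (nat_lit 2009835123) (nat_lit 335) (nat_lit 5) (nat_lit 347) (nat_lit 5) (nat_lit 336) (nat_lit 5) (nat_lit 468) (nat_lit 436) (nat_lit 236)))))) (XT.nd (nat_lit 390) (nat_lit 3040) (nat_lit 0) (XT.nd (nat_lit 156) (nat_lit 760) (nat_lit 0) (XT.nd (nat_lit 78) (nat_lit 836) (nat_lit 0) (XT.lf (nat_lit 0) (nat_lit 6675807497) (nat_lit 912) (nat_lit 1718767179) (nat_lit 76) (nat_lit 9286339894) (nat_lit 335) (nat_lit 5) (nat_lit 347) (nat_lit 5) (nat_lit 336) (nat_lit 5) (nat_lit 469) (nat_lit 436) (nat_lit 235)) (XT.lf (nat_lit 0) (nat_lit 7497048754) (nat_lit 836) (nat_lit 1118892332) (nat_lit 912) (nat_lit 9260417210) (nat_lit 324) (nat_lit 5) (nat_lit 335) (nat_lit 5) (nat_lit 336) (nat_lit 5) (nat_lit 470) (nat_lit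 436) (nat_lit 234))) (XT.nd (nat_lit 78) (nat_lit 760) (nat_lit 0) (XT.lf (nat_lit 0) (nat_lit 10641348824) (nat_lit 912) (nat_lit 1201935148) (nat_lit 76) (nat_lit 6231500311) (nat_lit 324) (nat_lit 5) (nat_lit 336) (nat_lit 5) (nat_lit 325) (nat_lit 5) (nat_lit 471) (nat_lit 436) (nat_lit 233)) (XT.nd (nat_lit 78) (nat_lit 0) (nat_lit 0) (XT.lf (nat_lit 0) (nat_lit 8254006934) (nat_lit 760) (nat_lit 4508319450) (nat_lit 836) (nat_lit 5513753930) (nat_lit 314) (nat_lit 5) (nat_lit 324) (nat_lit 5) (nat_lit 325) (nat_lit 5) (nat_lit 472) (nat_lit 436) (nat_lit 232)) (XT.lf (nat_lit 0) (nat_lit 14947288129) (nat_lit 836) (nat_lit 591143674) (nat_lit 76) (nat_lit 2942541876) (nat_lit 314) (nat_lit 5) (nat_lit 325) (nat_lit 5) (nat_lit 315) (nat_lit 5) (nat_lit 473) (nat_lit 436) (nat_lit 231))))) (XT.nd (nat_lit 234) (nat_lit 1444) (nat_lit 0) (XT.nd (nat_lit 78) (nat_lit 836) (nat_lit 0) (XT.lf (nat_lit 0) (nat_lit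 9112268236) (nat_lit 760) (nat_lit 8146955746) (nat_lit 836) (nat_lit 1429078084) (nat_lit 304) (nat_lit 5) (nat_lit 314) (nat_lit 5) (nat_lit 315) (nat_lit 5) (nat_lit 474) (nat_lit 436) (nat_lit 230)) (XT.nd (nat_lit 78) (nat_lit 0) (nat_lit 0) (XT.lf (nat_lit 0) (nat_lit 108978188) (nat_lit 760) (nat_lit 598223074) (nat_lit 836) (nat_lit 18192505293) (nat_lit 293) (nat_lit 5) (nat_lit 303) (nat_lit 5) (nat_lit 304) (nat_lit 5) (nat_lit 475) (nat_lit 436) (nat_lit 229)) (XT.lf (nat_lit 0) (nat_lit 2972246153) (nat_lit 836) (nat_lit 9058460202) (nat_lit 76) (nat_lit 7082342848) (nat_lit 293) (nat_lit 5) (nat_lit 304) (nat_lit 5) (nat_lit 294) (nat_lit 5) (nat_lit 476) (nat_lit 436) (nat_lit 228)))) (XT.nd (nat_lit 78) (nat_lit 684) (nat_lit 0) (XT.lf (nat_lit 0) (nat_lit 870113896) (nat_lit 760) (nat_lit 4416563738) (nat_lit 836) (nat_lit 14043901807) (nat_lit 283) (nat_lit 5) (nat_lit 293) (nat_lit 5) (nat_lit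 294) (nat_lit 5) (nat_lit 477) (nat_lit 436) (nat_lit 227)) (XT.nd (nat_lit 78) (nat_lit 684) (nat_lit 0) (XT.lf (nat_lit 0) (nat_lit 7724880535) (nat_lit 836) (nat_lit 8459208203) (nat_lit 76) (nat_lit 3366824291) (nat_lit 283) (nat_lit 5) (nat_lit 294) (nat_lit 5) (nat_lit 284) (nat_lit 5) (nat_lit 478) (nat_lit 436) (nat_lit 226)) (XT.lf (nat_lit 0) (nat_lit 1729765764) (nat_lit 684) (nat_lit 8517211935) (nat_lit 760) (nat_lit 9527975341) (nat_lit 274) (nat_lit 5) (nat_lit 283) (nat_lit 5) (nat_lit 284) (nat_lit 5) (nat_lit 479) (nat_lit 436) (nat_lit 225))))))))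
noncomputable def xc223 : XT := (XT.nd (nat_lit 56316) (nat_lit 0) (nat_lit 14592) (XT.nd (nat_lit 780) (nat_lit 2356) (nat_lit 0) (XT.nd (nat_lit 390) (nat_lit 1900) (nat_lit 0) (XT.nd (nat_lit 156) (nat_lit 760) (nat_lit 0) (XT.nd (nat_lit 78) (nat_lit 684) (nat_lit 0) (XT.lf (nat_lit 0) (nat_lit 12231477863) (nat_lit 684) (nat_lit 639523166) (nat_lit 760) (nat_lit 7131445448) (nat_lit 274) (nat_lit 5) (nat_lit 283) (nat_lit 5) (nat_lit 284) (nat_lit 5) (nat_lit 480) (nat_lit 436) (nat_lit 224)) (XT.lf (nat_lit 0) (nat_lit 2690300963) (nat_lit 684) (nat_lit 12917508320) (nat_lit 760) (nat_lit 4625476671) (nat_lit 265) (nat_lit 5) (nat_lit 274) (nat_lit 5) (nat_lit 275) (nat_lit 5) (nat_lit 481) (nat_lit 436) (nat_lit 223))) (XT.nd (nat_lit 78) (nat_lit 760) (nat_lit 0) (XT.lf (nat_lit 0) (nat_lit 13456180091) (nat_lit 684) (nat_lit 4994412438) (nat_lit 760) (nat_lit 2017127137) (nat_lit 265) (nat_lit 5) (nat_lit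 274) (nat_lit 5) (nat_lit 275) (nat_lit 5) (nat_lit 482) (nat_lit 436) (nat_lit 222)) (XT.nd (nat_lit 78) (nat_lit 0) (nat_lit 0) (XT.lf (nat_lit 0) (nat_lit 674608723) (nat_lit 760) (nat_lit 16956417950) (nat_lit 76) (nat_lit 3074940815) (nat_lit 255) (nat_lit 5) (nat_lit 265) (nat_lit 5) (nat_lit 256) (nat_lit 5) (nat_lit 483) (nat_lit 436) (nat_lit 221)) (XT.lf (nat_lit 0) (nat_lit 3468641534) (nat_lit 760) (nat_lit 6179562264) (nat_lit 76) (nat_lit 11299002465) (nat_lit 255) (nat_lit 5) (nat_lit 265) (nat_lit 5) (nat_lit 256) (nat_lit 5) (nat_lit 484) (nat_lit 436) (nat_lit 220))))) (XT.nd (nat_lit 156) (nat_lit 1216) (nat_lit 0) (XT.nd (nat_lit 78) (nat_lit 0) (nat_lit 0) (XT.lf (nat_lit 0) (nat_lit 4871146808) (nat_lit 684) (nat_lit 1474140809) (nat_lit 760) (nat_lit 14847449593) (nat_lit 246) (nat_lit 5) (nat_lit 255) (nat_lit 5) (nat_lit 256) (nat_lit 5) (nat_lit 485) (nat_lit 436) (nat_lit 219)) (XT.lf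 (nat_lit 0) (nat_lit 9360932533) (nat_lit 760) (nat_lit 5266177352) (nat_lit 76) (nat_lit 6814441584) (nat_lit 246) (nat_lit 5) (nat_lit 256) (nat_lit 5) (nat_lit 247) (nat_lit 5) (nat_lit 486) (nat_lit 436) (nat_lit 218))) (XT.nd (nat_lit 78) (nat_lit 608) (nat_lit 0) (XT.lf (nat_lit 0) (nat_lit 6074735824) (nat_lit 608) (nat_lit 6406614534) (nat_lit 684) (nat_lit 9213104425) (nat_lit 238) (nat_lit 5) (nat_lit 246) (nat_lit 5) (nat_lit 247) (nat_lit 5) (nat_lit 487) (nat_lit 436) (nat_lit 217)) (XT.nd (nat_lit 78) (nat_lit 608) (nat_lit 0) (XT.lf (nat_lit 0) (nat_lit 15707902321) (nat_lit 684) (nat_lit 4256507182) (nat_lit 76) (nat_lit 1987134078) (nat_lit 238) (nat_lit 5) (nat_lit 247) (nat_lit 5) (nat_lit 239) (nat_lit 5) (nat_lit 488) (nat_lit 436) (nat_lit 216)) (XT.lf (nat_lit 0) (nat_lit 7382907243) (nat_lit 608) (nat_lit 11701841260) (nat_lit 684) (nat_lit 3127312281) (nat_lit 230) (nat_lit 5) (nat_lit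 238) (nat_lit 5) (nat_lit 239) (nat_lit 5) (nat_lit 489) (nat_lit 436) (nat_lit 215)))))) (XT.nd (nat_lit 390) (nat_lit 1064) (nat_lit 0) (XT.nd (nat_lit 156) (nat_lit 608) (nat_lit 0) (XT.nd (nat_lit 78) (nat_lit 608) (nat_lit 0) (XT.lf (nat_lit 0) (nat_lit 74846033) (nat_lit 684) (nat_lit 3170420088) (nat_lit 76) (nat_lit 19232033842) (nat_lit 229) (nat_lit 5) (nat_lit 238) (nat_lit 5) (nat_lit 230) (nat_lit 5) (nat_lit 490) (nat_lit 436) (nat_lit 214)) (XT.lf (nat_lit 0) (nat_lit 3387375395) (nat_lit 684) (nat_lit 13970867012) (nat_lit 76) (nat_lit 5387425820) (nat_lit 221) (nat_lit 5) (nat_lit 230) (nat_lit 5) (nat_lit 222) (nat_lit 5) (nat_lit 491) (nat_lit 436) (nat_lit 213))) (XT.nd (nat_lit 78) (nat_lit 608) (nat_lit 0) (XT.lf (nat_lit 0) (nat_lit 6804623902) (nat_lit 684) (nat_lit 2044138271) (nat_lit 76) (nat_lit 14169874062) (nat_lit 221) (nat_lit 5) (nat_lit 230) (nat_lit 5) (nat_lit 222) (nat_lit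 5) (nat_lit 492) (nat_lit 436) (nat_lit 212)) (XT.nd (nat_lit 78) (nat_lit 0) (nat_lit 0) (XT.lf (nat_lit 0) (nat_lit 10250235177) (nat_lit 608) (nat_lit 102181223) (nat_lit 684) (nat_lit 12943404939) (nat_lit 213) (nat_lit 5) (nat_lit 221) (nat_lit 5) (nat_lit 222) (nat_lit 5) (nat_lit 493) (nat_lit 436) (nat_lit 211)) (XT.lf (nat_lit 0) (nat_lit 14037926070) (nat_lit 684) (nat_lit 822792487) (nat_lit 76) (nat_lit 8716498043) (nat_lit 213) (nat_lit 5) (nat_lit 222) (nat_lit 5) (nat_lit 214) (nat_lit 5) (nat_lit 494) (nat_lit 436) (nat_lit 210))))) (XT.nd (nat_lit 54912) (nat_lit 0) (nat_lit 15808) (XT.nd (nat_lit 78) (nat_lit 532) (nat_lit 0) (XT.lf (nat_lit 0) (nat_lit 11793185584) (nat_lit 532) (nat_lit 6076982980) (nat_lit 608) (nat_lit 5992612398) (nat_lit 206) (nat_lit 5) (nat_lit 213) (nat_lit 5) (nat_lit 214) (nat_lit 5) (nat_lit 495) (nat_lit 436) (nat_lit 209)) (XT.nd (nat_lit 54756) (nat_lit 0) (nat_lit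 15808) (XT.lf (nat_lit 0) (nat_lit 501204241) (nat_lit 532) (nat_lit 21301197136) (nat_lit 608) (nat_lit 2351189942) (nat_lit 199) (nat_lit 5) (nat_lit 206) (nat_lit 5) (nat_lit 207) (nat_lit 5) (nat_lit 496) (nat_lit 436) (nat_lit 208)) (XT.lf (nat_lit 0) (nat_lit 1370098534) (nat_lit 1748) (nat_lit 2536987527) (nat_lit 1748) (nat_lit 2536987527) (nat_lit 407) (nat_lit 3) (nat_lit 430) (nat_lit 3) (nat_lit 430) (nat_lit 5) (nat_lit 437) (nat_lit 437) (nat_lit 266)))) (XT.nd (nat_lit 78) (nat_lit 0) (nat_lit 76) (XT.lf (nat_lit 76) (nat_lit 991682902) (nat_lit 0) (nat_lit 2179795592) (nat_lit 1748) (nat_lit 9837266307) (nat_lit 408) (nat_lit 5) (nat_lit 407) (nat_lit 3) (nat_lit 430) (nat_lit 5) (nat_lit 438) (nat_lit 437) (nat_lit 265)) (XT.nd (nat_lit 78) (nat_lit 0) (nat_lit 0) (XT.lf (nat_lit 0) (nat_lit 3658394062) (nat_lit 1672) (nat_lit 5912664557) (nat_lit 1748) (nat_lit 3559760999) (nat_lit 408) (nat_lit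 5) (nat_lit 430) (nat_lit 5) (nat_lit 431) (nat_lit 5) (nat_lit 439) (nat_lit 437) (nat_lit 264)) (XT.lf (nat_lit 76) (nat_lit 297763074) (nat_lit 0) (nat_lit 3863431232) (nat_lit 1748) (nat_lit 9094024002) (nat_lit 409) (nat_lit 5) (nat_lit 408) (nat_lit 5) (nat_lit 431) (nat_lit 5) (nat_lit 440) (nat_lit 437) (nat_lit 263))))))) (XT.nd (nat_lit 780) (nat_lit 1368) (nat_lit 0) (XT.nd (nat_lit 390) (nat_lit 0) (nat_lit 152) (XT.nd (nat_lit 156) (nat_lit 0) (nat_lit 76) (XT.nd (nat_lit 78) (nat_lit 0) (nat_lit 0) (XT.lf (nat_lit 0) (nat_lit 4716677113) (nat_lit 1672) (nat_lit 6687468895) (nat_lit 1748) (nat_lit 1977111632) (nat_lit 409) (nat_lit 5) (nat_lit 431) (nat_lit 5) (nat_lit 432) (nat_lit 5) (nat_lit 441) (nat_lit 437) (nat_lit 262)) (XT.lf (nat_lit 0) (nat_lit 5299023649) (nat_lit 1672) (nat_lit 323282964) (nat_lit 1748) (nat_lit 7887201164) (nat_lit 409) (nat_lit 5) (nat_lit 431) (nat_lit 5) (nat_lit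 432) (nat_lit 5) (nat_lit 442) (nat_lit 437) (nat_lit 261))) (XT.nd (nat_lit 78) (nat_lit 0) (nat_lit 0) (XT.lf (nat_lit 0) (nat_lit 5926004220) (nat_lit 1672) (nat_lit 7397210660) (nat_lit 1748) (nat_lit 316453292) (nat_lit 410) (nat_lit 5) (nat_lit 432) (nat_lit 5) (nat_lit 433) (nat_lit 5) (nat_lit 443) (nat_lit 437) (nat_lit 260)) (XT.nd (nat_lit 78) (nat_lit 0) (nat_lit 0) (XT.lf (nat_lit 0) (nat_lit 6595482772) (nat_lit 1672) (nat_lit 871430472) (nat_lit 1748) (nat_lit 6304924264) (nat_lit 410) (nat_lit 5) (nat_lit 432) (nat_lit 5) (nat_lit 433) (nat_lit 5) (nat_lit 444) (nat_lit 437) (nat_lit 259)) (XT.lf (nat_lit 76) (nat_lit 5856091679) (nat_lit 0) (nat_lit 1451007110) (nat_lit 1748) (nat_lit 6598981288) (nat_lit 411) (nat_lit 5) (nat_lit 410) (nat_lit 5) (nat_lit 433) (nat_lit 5) (nat_lit 445) (nat_lit 437) (nat_lit 258))))) (XT.nd (nat_lit 156) (nat_lit 0) (nat_lit 76) (XT.nd (nat_lit 78) (nat_lit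 0) (nat_lit 0) (XT.lf (nat_lit 0) (nat_lit 8060148563) (nat_lit 1672) (nat_lit 1349123266) (nat_lit 1748) (nat_lit 4633196349) (nat_lit 411) (nat_lit 5) (nat_lit 433) (nat_lit 5) (nat_lit 434) (nat_lit 5) (nat_lit 446) (nat_lit 437) (nat_lit 257)) (XT.lf (nat_lit 76) (nat_lit 5543211634) (nat_lit 0) (nat_lit 3321721161) (nat_lit 1748) (nat_lit 5315922394) (nat_lit 412) (nat_lit 5) (nat_lit 411) (nat_lit 5) (nat_lit 434) (nat_lit 5) (nat_lit 447) (nat_lit 437) (nat_lit 256))) (XT.nd (nat_lit 78) (nat_lit 0) (nat_lit 0) (XT.lf (nat_lit 0) (nat_lit 9704907361) (nat_lit 1672) (nat_lit 1754758264) (nat_lit 1748) (nat_lit 2861966950) (nat_lit 412) (nat_lit 5) (nat_lit 434) (nat_lit 5) (nat_lit 435) (nat_lit 5) (nat_lit 448) (nat_lit 437) (nat_lit 255)) (XT.nd (nat_lit 78) (nat_lit 0) (nat_lit 76) (XT.lf (nat_lit 76) (nat_lit 5307709616) (nat_lit 0) (nat_lit 5301836299) (nat_lit 1748) (nat_lit 3854726742) (nat_lit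 413) (nat_lit 5) (nat_lit 412) (nat_lit 5) (nat_lit 435) (nat_lit 5) (nat_lit 449) (nat_lit 437) (nat_lit 254)) (XT.lf (nat_lit 0) (nat_lit 11542043129) (nat_lit 1672) (nat_lit 2086595213) (nat_lit 1748) (nat_lit 980936232) (nat_lit 413) (nat_lit 5) (nat_lit 435) (nat_lit 5) (nat_lit 436) (nat_lit 5) (nat_lit 450) (nat_lit 437) (nat_lit 253)))))) (XT.nd (nat_lit 390) (nat_lit 0) (nat_lit 76) (XT.nd (nat_lit 156) (nat_lit 1672) (nat_lit 0) (XT.nd (nat_lit 78) (nat_lit 0) (nat_lit 0) (XT.lf (nat_lit 76) (nat_lit 5151494850) (nat_lit 0) (nat_lit 7401974705) (nat_lit 1748) (nat_lit 2203111655) (nat_lit 414) (nat_lit 5) (nat_lit 413) (nat_lit 5) (nat_lit 436) (nat_lit 5) (nat_lit 451) (nat_lit 437) (nat_lit 252)) (XT.lf (nat_lit 76) (nat_lit 12556940346) (nat_lit 0) (nat_lit 1034032553) (nat_lit 1748) (nat_lit 1315442295) (nat_lit 414) (nat_lit 5) (nat_lit 413) (nat_lit 5) (nat_lit 436) (nat_lit 5) (nat_lit 452)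 (nat_lit 437) (nat_lit 251))) (XT.nd (nat_lit 78) (nat_lit 1748) (nat_lit 0) (XT.lf (nat_lit 76) (nat_lit 5076612614) (nat_lit 0) (nat_lit 9633054403) (nat_lit 1748) (nat_lit 348374127) (nat_lit 415) (nat_lit 5) (nat_lit 414) (nat_lit 5) (nat_lit 437) (nat_lit 5) (nat_lit 453) (nat_lit 437) (nat_lit 250)) (XT.nd (nat_lit 78) (nat_lit 0) (nat_lit 76) (XT.lf (nat_lit 0) (nat_lit 644471048) (nat_lit 1748) (nat_lit 2546239601) (nat_lit 1824) (nat_lit 12021613981) (nat_lit 391) (nat_lit 5) (nat_lit 414) (nat_lit 5) (nat_lit 415) (nat_lit 5) (nat_lit 454) (nat_lit 437) (nat_lit 249)) (XT.lf (nat_lit 0) (nat_lit 1700038702) (nat_lit 1748) (nat_lit 10294869498) (nat_lit 1824) (nat_lit 3373792788) (nat_lit 392) (nat_lit 5) (nat_lit 415) (nat_lit 5) (nat_lit 416) (nat_lit 5) (nat_lit 455) (nat_lit 437) (nat_lit 248))))) (XT.nd (nat_lit 234) (nat_lit 0) (nat_lit 76) (XT.nd (nat_lit 78) (nat_lit 0) (nat_lit 76) (XT.lf (nat_lit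 0) (nat_lit 2807416326) (nat_lit 1748) (nat_lit 2674135436) (nat_lit 1824) (nat_lit 10046042928) (nat_lit 392) (nat_lit 5) (nat_lit 415) (nat_lit 5) (nat_lit 416) (nat_lit 5) (nat_lit 456) (nat_lit 437) (nat_lit 247)) (XT.nd (nat_lit 78) (nat_lit 0) (nat_lit 0) (XT.lf (nat_lit 0) (nat_lit 3970746092) (nat_lit 1748) (nat_lit 10535960235) (nat_lit 1824) (nat_lit 1182287560) (nat_lit 393) (nat_lit 5) (nat_lit 416) (nat_lit 5) (nat_lit 417) (nat_lit 5) (nat_lit 457) (nat_lit 437) (nat_lit 246)) (XT.lf (nat_lit 0) (nat_lit 5204346395) (nat_lit 1748) (nat_lit 2722545104) (nat_lit 1824) (nat_lit 7925793131) (nat_lit 393) (nat_lit 5) (nat_lit 416) (nat_lit 5) (nat_lit 417) (nat_lit 5) (nat_lit 458) (nat_lit 437) (nat_lit 245)))) (XT.nd (nat_lit 78) (nat_lit 0) (nat_lit 76) (XT.lf (nat_lit 76) (nat_lit 5311051411) (nat_lit 0) (nat_lit 1178833081) (nat_lit 1824) (nat_lit 9529222951) (nat_lit 394) (nat_lit 5) (nat_lit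 393) (nat_lit 5) (nat_lit 417) (nat_lit 5) (nat_lit 459) (nat_lit 437) (nat_lit 244)) (XT.nd (nat_lit 78) (nat_lit 0) (nat_lit 0) (XT.lf (nat_lit 0) (nat_lit 7849455952) (nat_lit 1748) (nat_lit 2689284425) (nat_lit 1824) (nat_lit 5649155382) (nat_lit 394) (nat_lit 5) (nat_lit 417) (nat_lit 5) (nat_lit 418) (nat_lit 5) (nat_lit 460) (nat_lit 437) (nat_lit 243)) (XT.lf (nat_lit 76) (nat_lit 5549088529) (nat_lit 0) (nat_lit 3724001334) (nat_lit 1824) (nat_lit 7086235988) (nat_lit 395) (nat_lit 5) (nat_lit 394) (nat_lit 5) (nat_lit 418) (nat_lit 5) (nat_lit 461) (nat_lit 437) (nat_lit 242))))))))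
noncomputable def xc224 : XT := (XT.nd (nat_lit 1560) (nat_lit 5168) (nat_lit 0) (XT.nd (nat_lit 780) (nat_lit 3800) (nat_lit 0) (XT.nd (nat_lit 390) (nat_lit 2584) (nat_lit 0) (XT.nd (nat_lit 156) (nat_lit 1064) (nat_lit 0) (XT.nd (nat_lit 78) (nat_lit 1748) (nat_lit 0) (XT.lf (nat_lit 0) (nat_lit 10757457355) (nat_lit 1748) (nat_lit 2572067182) (nat_lit 76) (nat_lit 3204018155) (nat_lit 395) (nat_lit 5) (nat_lit 418) (nat_lit 5) (nat_lit 396) (nat_lit 5) (nat_lit 462) (nat_lit 437) (nat_lit 241)) (XT.lf (nat_lit 0) (nat_lit 5877549097) (nat_lit 1748) (nat_lit 6450063598) (nat_lit 1824) (nat_lit 4382512462) (nat_lit 372) (nat_lit 5) (nat_lit 395) (nat_lit 5) (nat_lit 396) (nat_lit 5) (nat_lit 463) (nat_lit 437) (nat_lit 240))) (XT.nd (nat_lit 78) (nat_lit 1064) (nat_lit 0) (XT.lf (nat_lit 0) (nat_lit 13943604719) (nat_lit 1824) (nat_lit 2368511032) (nat_lit 76) (nat_lit 577838080) (nat_lit 372) (nat_lit 5)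 (nat_lit 396) (nat_lit 5) (nat_lit 373) (nat_lit 5) (nat_lit 464) (nat_lit 437) (nat_lit 239)) (XT.nd (nat_lit 78) (nat_lit 76) (nat_lit 0) (XT.lf (nat_lit 0) (nat_lit 6299002632) (nat_lit 988) (nat_lit 9370034844) (nat_lit 1064) (nat_lit 1402802356) (nat_lit 359) (nat_lit 5) (nat_lit 372) (nat_lit 5) (nat_lit 373) (nat_lit 5) (nat_lit 465) (nat_lit 437) (nat_lit 238)) (XT.lf (nat_lit 0) (nat_lit 178916597) (nat_lit 1064) (nat_lit 2092073406) (nat_lit 76) (nat_lit 14986163272) (nat_lit 358) (nat_lit 5) (nat_lit 372) (nat_lit 5) (nat_lit 359) (nat_lit 5) (nat_lit 466) (nat_lit 437) (nat_lit 237))))) (XT.nd (nat_lit 156) (nat_lit 1672) (nat_lit 0) (XT.nd (nat_lit 78) (nat_lit 0) (nat_lit 0) (XT.lf (nat_lit 0) (nat_lit 1844202156) (nat_lit 988) (nat_lit 10640840248) (nat_lit 76) (nat_lit 4959533803) (nat_lit 346) (nat_lit 5) (nat_lit 359) (nat_lit 5) (nat_lit 347) (nat_lit 5) (nat_lit 467) (nat_lit 437) (nat_lit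 236)) (XT.lf (nat_lit 0) (nat_lit 3565735513) (nat_lit 988) (nat_lit 1750540821) (nat_lit 76) (nat_lit 12319015351) (nat_lit 346) (nat_lit 5) (nat_lit 359) (nat_lit 5) (nat_lit 347) (nat_lit 5) (nat_lit 468) (nat_lit 437) (nat_lit 235))) (XT.nd (nat_lit 78) (nat_lit 836) (nat_lit 0) (XT.lf (nat_lit 0) (nat_lit 5376976958) (nat_lit 912) (nat_lit 10433176826) (nat_lit 76) (nat_lit 2018565010) (nat_lit 335) (nat_lit 5) (nat_lit 347) (nat_lit 5) (nat_lit 336) (nat_lit 5) (nat_lit 469) (nat_lit 437) (nat_lit 234)) (XT.nd (nat_lit 78) (nat_lit 836) (nat_lit 0) (XT.lf (nat_lit 0) (nat_lit 7265453881) (nat_lit 912) (nat_lit 1318526293) (nat_lit 76) (nat_lit 9441216873) (nat_lit 335) (nat_lit 5) (nat_lit 347) (nat_lit 5) (nat_lit 336) (nat_lit 5) (nat_lit 470) (nat_lit 437) (nat_lit 233)) (XT.lf (nat_lit 0) (nat_lit 8078746642) (nat_lit 836) (nat_lit 1159503023) (nat_lit 912) (nat_lit 8986426973) (nat_lit 324) (nat_lit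 5) (nat_lit 335) (nat_lit 5) (nat_lit 336) (nat_lit 5) (nat_lit 471) (nat_lit 437) (nat_lit 232)))))) (XT.nd (nat_lit 390) (nat_lit 1444) (nat_lit 0) (XT.nd (nat_lit 156) (nat_lit 1596) (nat_lit 0) (XT.nd (nat_lit 78) (nat_lit 760) (nat_lit 0) (XT.lf (nat_lit 0) (nat_lit 11295226170) (nat_lit 912) (nat_lit 793538443) (nat_lit 76) (nat_lit 6338489418) (nat_lit 324) (nat_lit 5) (nat_lit 336) (nat_lit 5) (nat_lit 325) (nat_lit 5) (nat_lit 472) (nat_lit 437) (nat_lit 231)) (XT.lf (nat_lit 0) (nat_lit 8848677511) (nat_lit 760) (nat_lit 4604086910) (nat_lit 836) (nat_lit 5179932758) (nat_lit 314) (nat_lit 5) (nat_lit 324) (nat_lit 5) (nat_lit 325) (nat_lit 5) (nat_lit 473) (nat_lit 437) (nat_lit 230))) (XT.nd (nat_lit 78) (nat_lit 1596) (nat_lit 0) (XT.lf (nat_lit 0) (nat_lit 15672856581) (nat_lit 836) (nat_lit 173033659) (nat_lit 76) (nat_lit 2995973487) (nat_lit 314) (nat_lit 5) (nat_lit 325) (nat_lit 5) (nat_lit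 315) (nat_lit 5) (nat_lit 474) (nat_lit 437) (nat_lit 229)) (XT.nd (nat_lit 78) (nat_lit 836) (nat_lit 0) (XT.lf (nat_lit 0) (nat_lit 9721617983) (nat_lit 760) (nat_lit 8303821062) (nat_lit 836) (nat_lit 1028015340) (nat_lit 304) (nat_lit 5) (nat_lit 314) (nat_lit 5) (nat_lit 315) (nat_lit 5) (nat_lit 475) (nat_lit 437) (nat_lit 228)) (XT.lf (nat_lit 0) (nat_lit 541238107) (nat_lit 760) (nat_lit 598595080) (nat_lit 836) (nat_lit 18129312130) (nat_lit 293) (nat_lit 5) (nat_lit 303) (nat_lit 5) (nat_lit 304) (nat_lit 5) (nat_lit 476) (nat_lit 437) (nat_lit 227))))) (XT.nd (nat_lit 156) (nat_lit 684) (nat_lit 0) (XT.nd (nat_lit 78) (nat_lit 760) (nat_lit 0) (XT.lf (nat_lit 0) (nat_lit 3442047121) (nat_lit 836) (nat_lit 8809668172) (nat_lit 76) (nat_lit 7235205801) (nat_lit 293) (nat_lit 5) (nat_lit 304) (nat_lit 5) (nat_lit 294) (nat_lit 5) (nat_lit 477) (nat_lit 437) (nat_lit 226)) (XT.lf (nat_lit 0) (nat_lit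 1314648716) (nat_lit 760) (nat_lit 4482845546) (nat_lit 836) (nat_lit 13911416702) (nat_lit 283) (nat_lit 5) (nat_lit 293) (nat_lit 5) (nat_lit 294) (nat_lit 5) (nat_lit 478) (nat_lit 437) (nat_lit 225))) (XT.nd (nat_lit 78) (nat_lit 684) (nat_lit 0) (XT.lf (nat_lit 0) (nat_lit 8276658768) (nat_lit 836) (nat_lit 8201657615) (nat_lit 76) (nat_lit 3455494388) (nat_lit 283) (nat_lit 5) (nat_lit 294) (nat_lit 5) (nat_lit 284) (nat_lit 5) (nat_lit 479) (nat_lit 437) (nat_lit 224)) (XT.nd (nat_lit 78) (nat_lit 0) (nat_lit 0) (XT.lf (nat_lit 0) (nat_lit 2188288366) (nat_lit 684) (nat_lit 8655872111) (nat_lit 760) (nat_lit 9318275283) (nat_lit 274) (nat_lit 5) (nat_lit 283) (nat_lit 5) (nat_lit 284) (nat_lit 5) (nat_lit 480) (nat_lit 437) (nat_lit 223)) (XT.lf (nat_lit 0) (nat_lit 12891722407) (nat_lit 684) (nat_lit 621250822) (nat_lit 760) (nat_lit 6881663018) (nat_lit 274) (nat_lit 5) (nat_lit 283) (nat_lit 5) (nat_lit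 284) (nat_lit 5) (nat_lit 481) (nat_lit 437) (nat_lit 222))))))) (XT.nd (nat_lit 780) (nat_lit 1748) (nat_lit 0) (XT.nd (nat_lit 390) (nat_lit 1292) (nat_lit 0) (XT.nd (nat_lit 156) (nat_lit 1444) (nat_lit 0) (XT.nd (nat_lit 78) (nat_lit 0) (nat_lit 0) (XT.lf (nat_lit 0) (nat_lit 3164594760) (nat_lit 684) (nat_lit 13135310462) (nat_lit 760) (nat_lit 4330282839) (nat_lit 265) (nat_lit 5) (nat_lit 274) (nat_lit 5) (nat_lit 275) (nat_lit 5) (nat_lit 482) (nat_lit 437) (nat_lit 221)) (XT.lf (nat_lit 0) (nat_lit 14137546612) (nat_lit 684) (nat_lit 5054547721) (nat_lit 760) (nat_lit 1677368341) (nat_lit 265) (nat_lit 5) (nat_lit 274) (nat_lit 5) (nat_lit 275) (nat_lit 5) (nat_lit 483) (nat_lit 437) (nat_lit 220))) (XT.nd (nat_lit 78) (nat_lit 684) (nat_lit 0) (XT.lf (nat_lit 0) (nat_lit 1058840933) (nat_lit 760) (nat_lit 16873628357) (nat_lit 76) (nat_lit 3180047436) (nat_lit 255) (nat_lit 5) (nat_lit 265) (nat_lit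 5) (nat_lit 256) (nat_lit 5) (nat_lit 484) (nat_lit 437) (nat_lit 219)) (XT.nd (nat_lit 78) (nat_lit 684) (nat_lit 0) (XT.lf (nat_lit 0) (nat_lit 3901484987) (nat_lit 760) (nat_lit 5889508459) (nat_lit 76) (nat_lit 11567735264) (nat_lit 255) (nat_lit 5) (nat_lit 265) (nat_lit 5) (nat_lit 256) (nat_lit 5) (nat_lit 485) (nat_lit 437) (nat_lit 218)) (XT.lf (nat_lit 0) (nat_lit 5379493447) (nat_lit 684) (nat_lit 1451711661) (nat_lit 760) (nat_lit 14778057332) (nat_lit 246) (nat_lit 5) (nat_lit 255) (nat_lit 5) (nat_lit 256) (nat_lit 5) (nat_lit 486) (nat_lit 437) (nat_lit 217))))) (XT.nd (nat_lit 156) (nat_lit 684) (nat_lit 0) (XT.nd (nat_lit 78) (nat_lit 608) (nat_lit 0) (XT.lf (nat_lit 0) (nat_lit 9900453913) (nat_lit 760) (nat_lit 4961779164) (nat_lit 76) (nat_lit 7000957014) (nat_lit 246) (nat_lit 5) (nat_lit 256) (nat_lit 5) (nat_lit 247) (nat_lit 5) (nat_lit 487) (nat_lit 437) (nat_lit 216)) (XT.lf (nat_lit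 0) (nat_lit 6603256739) (nat_lit 608) (nat_lit 6475758144) (nat_lit 684) (nat_lit 9042224763) (nat_lit 238) (nat_lit 5) (nat_lit 246) (nat_lit 5) (nat_lit 247) (nat_lit 5) (nat_lit 488) (nat_lit 437) (nat_lit 215))) (XT.nd (nat_lit 78) (nat_lit 684) (nat_lit 0) (XT.lf (nat_lit 0) (nat_lit 16363649103) (nat_lit 684) (nat_lit 3936002581) (nat_lit 76) (nat_lit 2083950323) (nat_lit 238) (nat_lit 5) (nat_lit 247) (nat_lit 5) (nat_lit 239) (nat_lit 5) (nat_lit 489) (nat_lit 437) (nat_lit 214)) (XT.nd (nat_lit 78) (nat_lit 76) (nat_lit 0) (XT.lf (nat_lit 0) (nat_lit 7933531483) (nat_lit 608) (nat_lit 11870419231) (nat_lit 684) (nat_lit 2845463229) (nat_lit 230) (nat_lit 5) (nat_lit 238) (nat_lit 5) (nat_lit 239) (nat_lit 5) (nat_lit 490) (nat_lit 437) (nat_lit 213)) (XT.lf (nat_lit 0) (nat_lit 409557161) (nat_lit 684) (nat_lit 2834202893) (nat_lit 76) (nat_lit 19676289067) (nat_lit 229) (nat_lit 5) (nat_lit 238) (nat_lit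 5) (nat_lit 230) (nat_lit 5) (nat_lit 491) (nat_lit 437) (nat_lit 212)))))) (XT.nd (nat_lit 55146) (nat_lit 0) (nat_lit 15276) (XT.nd (nat_lit 156) (nat_lit 1140) (nat_lit 0) (XT.nd (nat_lit 78) (nat_lit 0) (nat_lit 0) (XT.lf (nat_lit 0) (nat_lit 3784820865) (nat_lit 684) (nat_lit 13847012553) (nat_lit 76) (nat_lit 5562024257) (nat_lit 221) (nat_lit 5) (nat_lit 230) (nat_lit 5) (nat_lit 222) (nat_lit 5) (nat_lit 492) (nat_lit 437) (nat_lit 211)) (XT.lf (nat_lit 0) (nat_lit 7263949677) (nat_lit 684) (nat_lit 1689656526) (nat_lit 76) (nat_lit 14518810681) (nat_lit 221) (nat_lit 5) (nat_lit 230) (nat_lit 5) (nat_lit 222) (nat_lit 5) (nat_lit 493) (nat_lit 437) (nat_lit 210))) (XT.nd (nat_lit 78) (nat_lit 532) (nat_lit 0) (XT.lf (nat_lit 0) (nat_lit 10848003307) (nat_lit 608) (nat_lit 30906889) (nat_lit 684) (nat_lit 12876313748) (nat_lit 213) (nat_lit 5) (nat_lit 221) (nat_lit 5) (nat_lit 222) (nat_lit 5) (nat_lit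 494) (nat_lit 437) (nat_lit 209)) (XT.nd (nat_lit 78) (nat_lit 532) (nat_lit 0) (XT.lf (nat_lit 0) (nat_lit 14632333119) (nat_lit 684) (nat_lit 448266749) (nat_lit 76) (nat_lit 8961765632) (nat_lit 213) (nat_lit 5) (nat_lit 222) (nat_lit 5) (nat_lit 214) (nat_lit 5) (nat_lit 495) (nat_lit 437) (nat_lit 208)) (XT.lf (nat_lit 0) (nat_lit 12417458636) (nat_lit 532) (nat_lit 6120133667) (nat_lit 608) (nat_lit 5796123811) (nat_lit 206) (nat_lit 5) (nat_lit 213) (nat_lit 5) (nat_lit 214) (nat_lit 5) (nat_lit 496) (nat_lit 437) (nat_lit 207))))) (XT.nd (nat_lit 234) (nat_lit 0) (nat_lit 76) (XT.nd (nat_lit 78) (nat_lit 0) (nat_lit 0) (XT.lf (nat_lit 0) (nat_lit 1792360848) (nat_lit 1748) (nat_lit 2386246043) (nat_lit 1748) (nat_lit 2386246043) (nat_lit 407) (nat_lit 3) (nat_lit 430) (nat_lit 3) (nat_lit 430) (nat_lit 5) (nat_lit 438) (nat_lit 438) (nat_lit 264)) (XT.nd (nat_lit 78) (nat_lit 0) (nat_lit 76) (XT.lf (nat_lit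 76) (nat_lit 1411827961) (nat_lit 0) (nat_lit 2599915158) (nat_lit 1748) (nat_lit 9241238075) (nat_lit 408) (nat_lit 5) (nat_lit 407) (nat_lit 3) (nat_lit 430) (nat_lit 5) (nat_lit 439) (nat_lit 438) (nat_lit 263)) (XT.lf (nat_lit 0) (nat_lit 4490768231) (nat_lit 1672) (nat_lit 5620433000) (nat_lit 1748) (nat_lit 3266656730) (nat_lit 408) (nat_lit 5) (nat_lit 430) (nat_lit 5) (nat_lit 431) (nat_lit 5) (nat_lit 440) (nat_lit 438) (nat_lit 262)))) (XT.nd (nat_lit 78) (nat_lit 0) (nat_lit 76) (XT.lf (nat_lit 76) (nat_lit 711502625) (nat_lit 0) (nat_lit 4279883063) (nat_lit 1748) (nat_lit 8513611436) (nat_lit 409) (nat_lit 5) (nat_lit 408) (nat_lit 5) (nat_lit 431) (nat_lit 5) (nat_lit 441) (nat_lit 438) (nat_lit 261)) (XT.nd (nat_lit 78) (nat_lit 0) (nat_lit 0) (XT.lf (nat_lit 0) (nat_lit 5541172708) (nat_lit 1672) (nat_lit 6404245683) (nat_lit 1748) (nat_lit 1688482534) (nat_lit 409) (nat_lit 5) (nat_lit 431)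 (nat_lit 5) (nat_lit 432) (nat_lit 5) (nat_lit 442) (nat_lit 438) (nat_lit 260)) (XT.lf (nat_lit 76) (nat_lit 80098540) (nat_lit 0) (nat_lit 6041270785) (nat_lit 1748) (nat_lit 7643630101) (nat_lit 410) (nat_lit 5) (nat_lit 409) (nat_lit 5) (nat_lit 432) (nat_lit 5) (nat_lit 443) (nat_lit 438) (nat_lit 259))))))))
noncomputable def xc225 : XT := (XT.nd (nat_lit 1638) (nat_lit 8892) (nat_lit 0) (XT.nd (nat_lit 780) (nat_lit 2888) (nat_lit 0) (XT.nd (nat_lit 390) (nat_lit 0) (nat_lit 152) (XT.nd (nat_lit 156) (nat_lit 0) (nat_lit 0) (XT.nd (nat_lit 78) (nat_lit 0) (nat_lit 0) (XT.lf (nat_lit 0) (nat_lit 6747032981) (nat_lit 1672) (nat_lit 7122657818) (nat_lit 1748) (nat_lit 28356638) (nat_lit 410) (nat_lit 5) (nat_lit 432) (nat_lit 5) (nat_lit 433) (nat_lit 5) (nat_lit 444) (nat_lit 438) (nat_lit 258)) (XT.lf (nat_lit 0) (nat_lit 7416126424) (nat_lit 1672) (nat_lit 474646282) (nat_lit 1748) (nat_lit 6142370083)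 (nat_lit 410) (nat_lit 5) (nat_lit 432) (nat_lit 5) (nat_lit 433) (nat_lit 5) (nat_lit 445) (nat_lit 438) (nat_lit 257))) (XT.nd (nat_lit 78) (nat_lit 0) (nat_lit 76) (XT.lf (nat_lit 76) (nat_lit 6384701227) (nat_lit 0) (nat_lit 1746440597) (nat_lit 1748) (nat_lit 6039152040) (nat_lit 411) (nat_lit 5) (nat_lit 410) (nat_lit 5) (nat_lit 433) (nat_lit 5) (nat_lit 446) (nat_lit 438) (nat_lit 256)) (XT.nd (nat_lit 78) (nat_lit 0) (nat_lit 0) (XT.lf (nat_lit 0) (nat_lit 8884264601) (nat_lit 1672) (nat_lit 957355475) (nat_lit 1748) (nat_lit 4468096270) (nat_lit 411) (nat_lit 5) (nat_lit 433) (nat_lit 5) (nat_lit 434) (nat_lit 5) (nat_lit 447) (nat_lit 438) (nat_lit 255)) (XT.lf (nat_lit 76) (nat_lit 6070071187) (nat_lit 0) (nat_lit 3624775952) (nat_lit 1748) (nat_lit 4756236630) (nat_lit 412) (nat_lit 5) (nat_lit 411) (nat_lit 5) (nat_lit 434) (nat_lit 5) (nat_lit 448) (nat_lit 438) (nat_lit 254))))) (XT.nd (nat_lit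 156) (nat_lit 0) (nat_lit 76) (XT.nd (nat_lit 78) (nat_lit 0) (nat_lit 0) (XT.lf (nat_lit 0) (nat_lit 10537318638) (nat_lit 1672) (nat_lit 1367382704) (nat_lit 1748) (nat_lit 2690268005) (nat_lit 412) (nat_lit 5) (nat_lit 434) (nat_lit 5) (nat_lit 435) (nat_lit 5) (nat_lit 449) (nat_lit 438) (nat_lit 253)) (XT.lf (nat_lit 76) (nat_lit 5833555121) (nat_lit 0) (nat_lit 5616703812) (nat_lit 1748) (nat_lit 3290405581) (nat_lit 413) (nat_lit 5) (nat_lit 412) (nat_lit 5) (nat_lit 435) (nat_lit 5) (nat_lit 450) (nat_lit 438) (nat_lit 252))) (XT.nd (nat_lit 78) (nat_lit 0) (nat_lit 0) (XT.lf (nat_lit 0) (nat_lit 12387752847) (nat_lit 1672) (nat_lit 1702894982) (nat_lit 1748) (nat_lit 798504042) (nat_lit 413) (nat_lit 5) (nat_lit 435) (nat_lit 5) (nat_lit 436) (nat_lit 5) (nat_lit 451) (nat_lit 438) (nat_lit 251)) (XT.nd (nat_lit 78) (nat_lit 0) (nat_lit 0) (XT.lf (nat_lit 76) (nat_lit 5677157987) (nat_lit 0) (nat_lit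 7732937578) (nat_lit 1748) (nat_lit 1629195532) (nat_lit 414) (nat_lit 5) (nat_lit 413) (nat_lit 5) (nat_lit 436) (nat_lit 5) (nat_lit 452) (nat_lit 438) (nat_lit 250)) (XT.lf (nat_lit 76) (nat_lit 13222425466) (nat_lit 0) (nat_lit 1234049850) (nat_lit 1748) (nat_lit 735890007) (nat_lit 414) (nat_lit 5) (nat_lit 413) (nat_lit 5) (nat_lit 436) (nat_lit 5) (nat_lit 453) (nat_lit 438) (nat_lit 249)))))) (XT.nd (nat_lit 390) (nat_lit 1444) (nat_lit 0) (XT.nd (nat_lit 156) (nat_lit 0) (nat_lit 76) (XT.nd (nat_lit 78) (nat_lit 0) (nat_lit 0) (XT.lf (nat_lit 0) (nat_lit 237137826) (nat_lit 1748) (nat_lit 9745770372) (nat_lit 1824) (nat_lit 5364290837) (nat_lit 391) (nat_lit 5) (nat_lit 414) (nat_lit 5) (nat_lit 415) (nat_lit 5) (nat_lit 454) (nat_lit 438) (nat_lit 248)) (XT.lf (nat_lit 0) (nat_lit 1233653672) (nat_lit 1748) (nat_lit 2172674574) (nat_lit 1824) (nat_lit 12098430059) (nat_lit 391) (nat_lit 5) (nat_lit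 414) (nat_lit 5) (nat_lit 415) (nat_lit 5) (nat_lit 455) (nat_lit 438) (nat_lit 247))) (XT.nd (nat_lit 78) (nat_lit 0) (nat_lit 0) (XT.lf (nat_lit 0) (nat_lit 2300822600) (nat_lit 1748) (nat_lit 10066485664) (nat_lit 1824) (nat_lit 3297149756) (nat_lit 392) (nat_lit 5) (nat_lit 415) (nat_lit 5) (nat_lit 416) (nat_lit 5) (nat_lit 456) (nat_lit 438) (nat_lit 246)) (XT.nd (nat_lit 78) (nat_lit 0) (nat_lit 76) (XT.lf (nat_lit 0) (nat_lit 3419234381) (nat_lit 1748) (nat_lit 2301852239) (nat_lit 1824) (nat_lit 10105670759) (nat_lit 392) (nat_lit 5) (nat_lit 415) (nat_lit 5) (nat_lit 416) (nat_lit 5) (nat_lit 457) (nat_lit 438) (nat_lit 245)) (XT.lf (nat_lit 0) (nat_lit 4596872729) (nat_lit 1748) (nat_lit 10311685119) (nat_lit 1824) (nat_lit 1083011282) (nat_lit 393) (nat_lit 5) (nat_lit 416) (nat_lit 5) (nat_lit 417) (nat_lit 5) (nat_lit 458) (nat_lit 438) (nat_lit 244))))) (XT.nd (nat_lit 234) (nat_lit 1596) (nat_lit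 0) (XT.nd (nat_lit 78) (nat_lit 0) (nat_lit 0) (XT.lf (nat_lit 0) (nat_lit 5844425201) (nat_lit 1748) (nat_lit 2350530985) (nat_lit 1824) (nat_lit 7963797201) (nat_lit 393) (nat_lit 5) (nat_lit 416) (nat_lit 5) (nat_lit 417) (nat_lit 5) (nat_lit 459) (nat_lit 438) (nat_lit 243)) (XT.nd (nat_lit 78) (nat_lit 0) (nat_lit 76) (XT.lf (nat_lit 76) (nat_lit 5840931770) (nat_lit 0) (nat_lit 1306983323) (nat_lit 1824) (nat_lit 9180749940) (nat_lit 394) (nat_lit 5) (nat_lit 393) (nat_lit 5) (nat_lit 417) (nat_lit 5) (nat_lit 460) (nat_lit 438) (nat_lit 242)) (XT.lf (nat_lit 0) (nat_lit 8523654825) (nat_lit 1748) (nat_lit 2316439868) (nat_lit 1824) (nat_lit 5660959981) (nat_lit 394) (nat_lit 5) (nat_lit 417) (nat_lit 5) (nat_lit 418) (nat_lit 5) (nat_lit 461) (nat_lit 438) (nat_lit 241)))) (XT.nd (nat_lit 78) (nat_lit 1672) (nat_lit 0) (XT.lf (nat_lit 76) (nat_lit 6083893768) (nat_lit 0) (nat_lit 3884478022) (nat_lit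 1824) (nat_lit 6707694367) (nat_lit 395) (nat_lit 5) (nat_lit 394) (nat_lit 5) (nat_lit 418) (nat_lit 5) (nat_lit 462) (nat_lit 438) (nat_lit 240)) (XT.nd (nat_lit 78) (nat_lit 1748) (nat_lit 0) (XT.lf (nat_lit 0) (nat_lit 11471882759) (nat_lit 1748) (nat_lit 2197206539) (nat_lit 76) (nat_lit 3184893812) (nat_lit 395) (nat_lit 5) (nat_lit 418) (nat_lit 5) (nat_lit 396) (nat_lit 5) (nat_lit 463) (nat_lit 438) (nat_lit 239)) (XT.lf (nat_lit 0) (nat_lit 6418597448) (nat_lit 1748) (nat_lit 6647803653) (nat_lit 1824) (nat_lit 3967841727) (nat_lit 372) (nat_lit 5) (nat_lit 395) (nat_lit 5) (nat_lit 396) (nat_lit 5) (nat_lit 464) (nat_lit 438) (nat_lit 238))))))) (XT.nd (nat_lit 780) (nat_lit 4484) (nat_lit 0) (XT.nd (nat_lit 390) (nat_lit 2432) (nat_lit 0) (XT.nd (nat_lit 156) (nat_lit 988) (nat_lit 0) (XT.nd (nat_lit 78) (nat_lit 988) (nat_lit 0) (XT.lf (nat_lit 0) (nat_lit 14704623730) (nat_lit 1824) (nat_lit 1990363118)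 (nat_lit 76) (nat_lit 522887722) (nat_lit 372) (nat_lit 5) (nat_lit 396) (nat_lit 5) (nat_lit 373) (nat_lit 5) (nat_lit 465) (nat_lit 438) (nat_lit 237)) (XT.lf (nat_lit 0) (nat_lit 6847701359) (nat_lit 988) (nat_lit 9610154492) (nat_lit 1064) (nat_lit 945681241) (nat_lit 359) (nat_lit 5) (nat_lit 372) (nat_lit 5) (nat_lit 373) (nat_lit 5) (nat_lit 466) (nat_lit 438) (nat_lit 236))) (XT.nd (nat_lit 78) (nat_lit 912) (nat_lit 0) (XT.lf (nat_lit 0) (nat_lit 651920396) (nat_lit 1064) (nat_lit 1713024561) (nat_lit 76) (nat_lit 15227741051) (nat_lit 358) (nat_lit 5) (nat_lit 372) (nat_lit 5) (nat_lit 359) (nat_lit 5) (nat_lit 467) (nat_lit 438) (nat_lit 235)) (XT.nd (nat_lit 78) (nat_lit 0) (nat_lit 0) (XT.lf (nat_lit 0) (nat_lit 2343731001) (nat_lit 988) (nat_lit 10425768601) (nat_lit 76) (nat_lit 5014497760) (nat_lit 346) (nat_lit 5) (nat_lit 359) (nat_lit 5) (nat_lit 347) (nat_lit 5) (nat_lit 468) (nat_lit 438)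 (nat_lit 234)) (XT.lf (nat_lit 0) (nat_lit 4090623558) (nat_lit 988) (nat_lit 1366053155) (nat_lit 76) (nat_lit 12522036129) (nat_lit 346) (nat_lit 5) (nat_lit 359) (nat_lit 5) (nat_lit 347) (nat_lit 5) (nat_lit 469) (nat_lit 438) (nat_lit 233))))) (XT.nd (nat_lit 156) (nat_lit 1596) (nat_lit 0) (XT.nd (nat_lit 78) (nat_lit 0) (nat_lit 0) (XT.lf (nat_lit 0) (nat_lit 5931703001) (nat_lit 912) (nat_lit 10215746020) (nat_lit 76) (nat_lit 2028691389) (nat_lit 335) (nat_lit 5) (nat_lit 347) (nat_lit 5) (nat_lit 336) (nat_lit 5) (nat_lit 470) (nat_lit 438) (nat_lit 232)) (XT.lf (nat_lit 0) (nat_lit 7849181100) (nat_lit 912) (nat_lit 927157267) (nat_lit 76) (nat_lit 9600389328) (nat_lit 335) (nat_lit 5) (nat_lit 347) (nat_lit 5) (nat_lit 336) (nat_lit 5) (nat_lit 471) (nat_lit 438) (nat_lit 231))) (XT.nd (nat_lit 78) (nat_lit 760) (nat_lit 0) (XT.lf (nat_lit 0) (nat_lit 8655312840) (nat_lit 836) (nat_lit 1200217924)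 (nat_lit 912) (nat_lit 8724788173) (nat_lit 324) (nat_lit 5) (nat_lit 335) (nat_lit 5) (nat_lit 336) (nat_lit 5) (nat_lit 472) (nat_lit 438) (nat_lit 230)) (XT.nd (nat_lit 78) (nat_lit 760) (nat_lit 0) (XT.lf (nat_lit 0) (nat_lit 11945054539) (nat_lit 912) (nat_lit 393765798) (nat_lit 76) (nat_lit 6448303324) (nat_lit 324) (nat_lit 5) (nat_lit 336) (nat_lit 5) (nat_lit 325) (nat_lit 5) (nat_lit 473) (nat_lit 438) (nat_lit 229)) (XT.lf (nat_lit 0) (nat_lit 9438559979) (nat_lit 760) (nat_lit 4701552223) (nat_lit 836) (nat_lit 4856679960) (nat_lit 314) (nat_lit 5) (nat_lit 324) (nat_lit 5) (nat_lit 325) (nat_lit 5) (nat_lit 474) (nat_lit 438) (nat_lit 228)))))) (XT.nd (nat_lit 390) (nat_lit 2128) (nat_lit 0) (XT.nd (nat_lit 156) (nat_lit 1596) (nat_lit 0) (XT.nd (nat_lit 78) (nat_lit 0) (nat_lit 0) (XT.lf (nat_lit 0) (nat_lit 239889937) (nat_lit 760) (nat_lit 16158037710) (nat_lit 836) (nat_lit 2812351752) (nat_lit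 304) (nat_lit 5) (nat_lit 314) (nat_lit 5) (nat_lit 315) (nat_lit 5) (nat_lit 475) (nat_lit 438) (nat_lit 227)) (XT.lf (nat_lit 0) (nat_lit 10326569742) (nat_lit 760) (nat_lit 8464059537) (nat_lit 836) (nat_lit 635614953) (nat_lit 304) (nat_lit 5) (nat_lit 314) (nat_lit 5) (nat_lit 315) (nat_lit 5) (nat_lit 476) (nat_lit 438) (nat_lit 226))) (XT.nd (nat_lit 78) (nat_lit 760) (nat_lit 0) (XT.lf (nat_lit 0) (nat_lit 965442680) (nat_lit 760) (nat_lit 599424676) (nat_lit 836) (nat_lit 18081437714) (nat_lit 293) (nat_lit 5) (nat_lit 303) (nat_lit 5) (nat_lit 304) (nat_lit 5) (nat_lit 477) (nat_lit 438) (nat_lit 225)) (XT.nd (nat_lit 78) (nat_lit 760) (nat_lit 0) (XT.lf (nat_lit 0) (nat_lit 3905309483) (nat_lit 836) (nat_lit 8572596220) (nat_lit 76) (nat_lit 7390690479) (nat_lit 293) (nat_lit 5) (nat_lit 304) (nat_lit 5) (nat_lit 294) (nat_lit 5) (nat_lit 478) (nat_lit 438) (nat_lit 224)) (XT.lf (nat_lit 0) (nat_lit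 1751488155) (nat_lit 760) (nat_lit 4551309199) (nat_lit 836) (nat_lit 13792333289) (nat_lit 283) (nat_lit 5) (nat_lit 293) (nat_lit 5) (nat_lit 294) (nat_lit 5) (nat_lit 479) (nat_lit 438) (nat_lit 223))))) (XT.nd (nat_lit 234) (nat_lit 1444) (nat_lit 0) (XT.nd (nat_lit 78) (nat_lit 684) (nat_lit 0) (XT.lf (nat_lit 0) (nat_lit 8824045675) (nat_lit 836) (nat_lit 7955526645) (nat_lit 76) (nat_lit 3545109477) (nat_lit 283) (nat_lit 5) (nat_lit 294) (nat_lit 5) (nat_lit 284) (nat_lit 5) (nat_lit 480) (nat_lit 438) (nat_lit 222)) (XT.nd (nat_lit 78) (nat_lit 0) (nat_lit 0) (XT.lf (nat_lit 0) (nat_lit 2639519807) (nat_lit 684) (nat_lit 8798535820) (nat_lit 760) (nat_lit 9119923791) (nat_lit 274) (nat_lit 5) (nat_lit 283) (nat_lit 5) (nat_lit 284) (nat_lit 5) (nat_lit 481) (nat_lit 438) (nat_lit 221)) (XT.lf (nat_lit 0) (nat_lit 13549033006) (nat_lit 684) (nat_lit 603819238) (nat_lit 760) (nat_lit 6642122751) (nat_lit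 274) (nat_lit 5) (nat_lit 283) (nat_lit 5) (nat_lit 284) (nat_lit 5) (nat_lit 482) (nat_lit 438) (nat_lit 220)))) (XT.nd (nat_lit 78) (nat_lit 760) (nat_lit 0) (XT.lf (nat_lit 0) (nat_lit 3632046380) (nat_lit 684) (nat_lit 13359043175) (nat_lit 760) (nat_lit 4044240125) (nat_lit 265) (nat_lit 5) (nat_lit 274) (nat_lit 5) (nat_lit 275) (nat_lit 5) (nat_lit 483) (nat_lit 438) (nat_lit 219)) (XT.nd (nat_lit 78) (nat_lit 760) (nat_lit 0) (XT.lf (nat_lit 0) (nat_lit 14816532569) (nat_lit 684) (nat_lit 5117429366) (nat_lit 760) (nat_lit 1345574167) (nat_lit 265) (nat_lit 5) (nat_lit 274) (nat_lit 5) (nat_lit 275) (nat_lit 5) (nat_lit 484) (nat_lit 438) (nat_lit 218)) (XT.lf (nat_lit 0) (nat_lit 1436361500) (nat_lit 760) (nat_lit 16805566560) (nat_lit 76) (nat_lit 3285562845) (nat_lit 255) (nat_lit 5) (nat_lit 265) (nat_lit 5) (nat_lit 256) (nat_lit 5) (nat_lit 485) (nat_lit 438) (nat_lit 217))))))))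
noncomputable def xc226 : XT := (XT.nd (nat_lit 56472) (nat_lit 0) (nat_lit 10108) (XT.nd (nat_lit 55692) (nat_lit 0) (nat_lit 14744) (XT.nd (nat_lit 390) (nat_lit 1900) (nat_lit 0) (XT.nd (nat_lit 156) (nat_lit 608) (nat_lit 0) (XT.nd (nat_lit 78) (nat_lit 684) (nat_lit 0) (XT.lf (nat_lit 0) (nat_lit 4328871303) (nat_lit 760) (nat_lit 5609715918) (nat_lit 76) (nat_lit 11840182577) (nat_lit 255) (nat_lit 5) (nat_lit 265) (nat_lit 5) (nat_lit 256) (nat_lit 5) (nat_lit 486) (nat_lit 438) (nat_lit 216)) (XT.lf (nat_lit 0) (nat_lit 5882050350) (nat_lit 684) (nat_lit 1430849734) (nat_lit 760) (nat_lit 14721502703) (nat_lit 246) (nat_lit 5) (nat_lit 255) (nat_lit 5) (nat_lit 256) (nat_lit 5) (nat_lit 487) (nat_lit 438) (nat_lit 215))) (XT.nd (nat_lit 78) (nat_lit 608) (nat_lit 0) (XT.lf (nat_lit 0) (nat_lit 10437085377) (nat_lit 760) (nat_lit 4667203005) (nat_lit 76) (nat_lit 7189252392) (nat_lit 246) (nat_lit 5)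 (nat_lit 256) (nat_lit 5) (nat_lit 247) (nat_lit 5) (nat_lit 488) (nat_lit 438) (nat_lit 214)) (XT.nd (nat_lit 78) (nat_lit 0) (nat_lit 0) (XT.lf (nat_lit 0) (nat_lit 7126542748) (nat_lit 608) (nat_lit 6548575228) (nat_lit 684) (nat_lit 8881718094) (nat_lit 238) (nat_lit 5) (nat_lit 246) (nat_lit 5) (nat_lit 247) (nat_lit 5) (nat_lit 489) (nat_lit 438) (nat_lit 213)) (XT.lf (nat_lit 0) (nat_lit 17019246515) (nat_lit 684) (nat_lit 3624839180) (nat_lit 76) (nat_lit 2180486656) (nat_lit 238) (nat_lit 5) (nat_lit 247) (nat_lit 5) (nat_lit 239) (nat_lit 5) (nat_lit 490) (nat_lit 438) (nat_lit 212))))) (XT.nd (nat_lit 156) (nat_lit 1216) (nat_lit 0) (XT.nd (nat_lit 78) (nat_lit 76) (nat_lit 0) (XT.lf (nat_lit 0) (nat_lit 8479520542) (nat_lit 608) (nat_lit 12044910610) (nat_lit 684) (nat_lit 2571350485) (nat_lit 230) (nat_lit 5) (nat_lit 238) (nat_lit 5) (nat_lit 239) (nat_lit 5) (nat_lit 491) (nat_lit 438) (nat_lit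 211)) (XT.lf (nat_lit 0) (nat_lit 738023398) (nat_lit 684) (nat_lit 2506779303) (nat_lit 76) (nat_lit 20127114491) (nat_lit 229) (nat_lit 5) (nat_lit 238) (nat_lit 5) (nat_lit 230) (nat_lit 5) (nat_lit 492) (nat_lit 438) (nat_lit 210))) (XT.nd (nat_lit 78) (nat_lit 608) (nat_lit 0) (XT.lf (nat_lit 0) (nat_lit 4177412670) (nat_lit 684) (nat_lit 13736340539) (nat_lit 76) (nat_lit 5737518799) (nat_lit 221) (nat_lit 5) (nat_lit 230) (nat_lit 5) (nat_lit 222) (nat_lit 5) (nat_lit 493) (nat_lit 438) (nat_lit 209)) (XT.nd (nat_lit 78) (nat_lit 608) (nat_lit 0) (XT.lf (nat_lit 0) (nat_lit 7719910424) (nat_lit 684) (nat_lit 1343437633) (nat_lit 76) (nat_lit 14872181068) (nat_lit 221) (nat_lit 5) (nat_lit 230) (nat_lit 5) (nat_lit 222) (nat_lit 5) (nat_lit 494) (nat_lit 438) (nat_lit 208)) (XT.lf (nat_lit 0) (nat_lit 11403782276) (nat_lit 684) (nat_lit 12781845087) (nat_lit 76) (nat_lit 38435122) (nat_lit 213) (nat_lit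 5) (nat_lit 222) (nat_lit 5) (nat_lit 214) (nat_lit 5) (nat_lit 495) (nat_lit 438) (nat_lit 207)))))) (XT.nd (nat_lit 390) (nat_lit 0) (nat_lit 152) (XT.nd (nat_lit 156) (nat_lit 0) (nat_lit 76) (XT.nd (nat_lit 78) (nat_lit 0) (nat_lit 0) (XT.lf (nat_lit 0) (nat_lit 2207735500) (nat_lit 1748) (nat_lit 2240313491) (nat_lit 1748) (nat_lit 2240313491) (nat_lit 407) (nat_lit 3) (nat_lit 430) (nat_lit 3) (nat_lit 430) (nat_lit 5) (nat_lit 439) (nat_lit 439) (nat_lit 262)) (XT.lf (nat_lit 76) (nat_lit 1824831341) (nat_lit 0) (nat_lit 3013816243) (nat_lit 1748) (nat_lit 8664073642) (nat_lit 408) (nat_lit 5) (nat_lit 407) (nat_lit 3) (nat_lit 430) (nat_lit 5) (nat_lit 440) (nat_lit 439) (nat_lit 261))) (XT.nd (nat_lit 78) (nat_lit 0) (nat_lit 0) (XT.lf (nat_lit 0) (nat_lit 5310308978) (nat_lit 1672) (nat_lit 5338296439) (nat_lit 1748) (nat_lit 2981836568) (nat_lit 408) (nat_lit 5) (nat_lit 430) (nat_lit 5) (nat_lit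 431) (nat_lit 5) (nat_lit 441) (nat_lit 439) (nat_lit 260)) (XT.nd (nat_lit 78) (nat_lit 0) (nat_lit 76) (XT.lf (nat_lit 76) (nat_lit 1117682207) (nat_lit 0) (nat_lit 4691493033) (nat_lit 1748) (nat_lit 7951191387) (nat_lit 409) (nat_lit 5) (nat_lit 408) (nat_lit 5) (nat_lit 431) (nat_lit 5) (nat_lit 442) (nat_lit 439) (nat_lit 259)) (XT.lf (nat_lit 0) (nat_lit 6353805133) (nat_lit 1672) (nat_lit 6131549561) (nat_lit 1748) (nat_lit 1406824147) (nat_lit 409) (nat_lit 5) (nat_lit 431) (nat_lit 5) (nat_lit 432) (nat_lit 5) (nat_lit 443) (nat_lit 439) (nat_lit 258))))) (XT.nd (nat_lit 156) (nat_lit 0) (nat_lit 76) (XT.nd (nat_lit 78) (nat_lit 0) (nat_lit 0) (XT.lf (nat_lit 76) (nat_lit 479844829) (nat_lit 0) (nat_lit 6454584908) (nat_lit 1748) (nat_lit 7091700227) (nat_lit 410) (nat_lit 5) (nat_lit 409) (nat_lit 5) (nat_lit 432) (nat_lit 5) (nat_lit 444) (nat_lit 439) (nat_lit 257)) (XT.lf (nat_lit 76) (nat_lit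 7301429073) (nat_lit 0) (nat_lit 257445482) (nat_lit 1748) (nat_lit 6603246020) (nat_lit 410) (nat_lit 5) (nat_lit 409) (nat_lit 5) (nat_lit 432) (nat_lit 5) (nat_lit 445) (nat_lit 439) (nat_lit 256))) (XT.nd (nat_lit 78) (nat_lit 0) (nat_lit 0) (XT.lf (nat_lit 0) (nat_lit 8226438569) (nat_lit 1672) (nat_lit 86010797) (nat_lit 1748) (nat_lit 5987773553) (nat_lit 410) (nat_lit 5) (nat_lit 432) (nat_lit 5) (nat_lit 433) (nat_lit 5) (nat_lit 446) (nat_lit 439) (nat_lit 255)) (XT.nd (nat_lit 78) (nat_lit 0) (nat_lit 76) (XT.lf (nat_lit 76) (nat_lit 6907904397) (nat_lit 0) (nat_lit 2037437599) (nat_lit 1748) (nat_lit 5494989989) (nat_lit 411) (nat_lit 5) (nat_lit 410) (nat_lit 5) (nat_lit 433) (nat_lit 5) (nat_lit 447) (nat_lit 439) (nat_lit 254)) (XT.lf (nat_lit 0) (nat_lit 9699121236) (nat_lit 1672) (nat_lit 574012912) (nat_lit 1748) (nat_lit 4309703480) (nat_lit 411) (nat_lit 5) (nat_lit 433) (nat_lit 5) (nat_lit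 434) (nat_lit 5) (nat_lit 448) (nat_lit 439) (nat_lit 253))))))) (XT.nd (nat_lit 780) (nat_lit 3420) (nat_lit 0) (XT.nd (nat_lit 390) (nat_lit 1520) (nat_lit 0) (XT.nd (nat_lit 156) (nat_lit 0) (nat_lit 76) (XT.nd (nat_lit 78) (nat_lit 0) (nat_lit 76) (XT.lf (nat_lit 76) (nat_lit 6591314326) (nat_lit 0) (nat_lit 3924703582) (nat_lit 1748) (nat_lit 4211218906) (nat_lit 412) (nat_lit 5) (nat_lit 411) (nat_lit 5) (nat_lit 434) (nat_lit 5) (nat_lit 449) (nat_lit 439) (nat_lit 252)) (XT.lf (nat_lit 0) (nat_lit 11361591663) (nat_lit 1672) (nat_lit 988664686) (nat_lit 1748) (nat_lit 2524025034) (nat_lit 412) (nat_lit 5) (nat_lit 434) (nat_lit 5) (nat_lit 435) (nat_lit 5) (nat_lit 450) (nat_lit 439) (nat_lit 251))) (XT.nd (nat_lit 78) (nat_lit 0) (nat_lit 76) (XT.lf (nat_lit 76) (nat_lit 6353620412) (nat_lit 0) (nat_lit 5929759521) (nat_lit 1748) (nat_lit 2739704949) (nat_lit 413) (nat_lit 5) (nat_lit 412) (nat_lit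 5) (nat_lit 435) (nat_lit 5) (nat_lit 451) (nat_lit 439) (nat_lit 250)) (XT.nd (nat_lit 78) (nat_lit 0) (nat_lit 0) (XT.lf (nat_lit 0) (nat_lit 13226500652) (nat_lit 1672) (nat_lit 1328040796) (nat_lit 1748) (nat_lit 620269090) (nat_lit 413) (nat_lit 5) (nat_lit 435) (nat_lit 5) (nat_lit 436) (nat_lit 5) (nat_lit 452) (nat_lit 439) (nat_lit 249)) (XT.lf (nat_lit 76) (nat_lit 6196923022) (nat_lit 0) (nat_lit 8063416571) (nat_lit 1748) (nat_lit 1067797939) (nat_lit 414) (nat_lit 5) (nat_lit 413) (nat_lit 5) (nat_lit 436) (nat_lit 5) (nat_lit 453) (nat_lit 439) (nat_lit 248))))) (XT.nd (nat_lit 156) (nat_lit 0) (nat_lit 0) (XT.nd (nat_lit 78) (nat_lit 1672) (nat_lit 0) (XT.lf (nat_lit 76) (nat_lit 13885130716) (nat_lit 0) (nat_lit 1431103632) (nat_lit 1748) (nat_lit 168272999) (nat_lit 414) (nat_lit 5) (nat_lit 413) (nat_lit 5) (nat_lit 436) (nat_lit 5) (nat_lit 454) (nat_lit 439) (nat_lit 247)) (XT.lf (nat_lit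 0) (nat_lit 806873920) (nat_lit 1748) (nat_lit 9524519291) (nat_lit 1824) (nat_lit 5311168613) (nat_lit 391) (nat_lit 5) (nat_lit 414) (nat_lit 5) (nat_lit 415) (nat_lit 5) (nat_lit 455) (nat_lit 439) (nat_lit 246))) (XT.nd (nat_lit 78) (nat_lit 0) (nat_lit 76) (XT.lf (nat_lit 0) (nat_lit 1812241782) (nat_lit 1748) (nat_lit 1808121704) (nat_lit 1824) (nat_lit 12183135876) (nat_lit 391) (nat_lit 5) (nat_lit 414) (nat_lit 5) (nat_lit 415) (nat_lit 5) (nat_lit 456) (nat_lit 439) (nat_lit 245)) (XT.nd (nat_lit 78) (nat_lit 0) (nat_lit 0) (XT.lf (nat_lit 0) (nat_lit 2891613296) (nat_lit 1748) (nat_lit 9850397823) (nat_lit 1824) (nat_lit 3224570176) (nat_lit 392) (nat_lit 5) (nat_lit 415) (nat_lit 5) (nat_lit 416) (nat_lit 5) (nat_lit 457) (nat_lit 439) (nat_lit 244)) (XT.lf (nat_lit 0) (nat_lit 4021711465) (nat_lit 1748) (nat_lit 1938656387) (nat_lit 1824) (nat_lit 10171977728) (nat_lit 392) (nat_lit 5) (nat_lit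 415) (nat_lit 5) (nat_lit 416) (nat_lit 5) (nat_lit 458) (nat_lit 439) (nat_lit 243)))))) (XT.nd (nat_lit 390) (nat_lit 3572) (nat_lit 0) (XT.nd (nat_lit 156) (nat_lit 0) (nat_lit 0) (XT.nd (nat_lit 78) (nat_lit 0) (nat_lit 0) (XT.lf (nat_lit 0) (nat_lit 5214292416) (nat_lit 1748) (nat_lit 10099815859) (nat_lit 1824) (nat_lit 986522691) (nat_lit 393) (nat_lit 5) (nat_lit 416) (nat_lit 5) (nat_lit 417) (nat_lit 5) (nat_lit 459) (nat_lit 439) (nat_lit 242)) (XT.lf (nat_lit 0) (nat_lit 6476492364) (nat_lit 1748) (nat_lit 1987636740) (nat_lit 1824) (nat_lit 8007240971) (nat_lit 393) (nat_lit 5) (nat_lit 416) (nat_lit 5) (nat_lit 417) (nat_lit 5) (nat_lit 460) (nat_lit 439) (nat_lit 241))) (XT.nd (nat_lit 78) (nat_lit 0) (nat_lit 76) (XT.lf (nat_lit 76) (nat_lit 6364958527) (nat_lit 0) (nat_lit 1433635849) (nat_lit 1824) (nat_lit 8846239728) (nat_lit 394) (nat_lit 5) (nat_lit 393) (nat_lit 5) (nat_lit 417) (nat_lit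 5) (nat_lit 461) (nat_lit 439) (nat_lit 240)) (XT.nd (nat_lit 78) (nat_lit 0) (nat_lit 0) (XT.lf (nat_lit 0) (nat_lit 9191253790) (nat_lit 1748) (nat_lit 1952704992) (nat_lit 1824) (nat_lit 5676929557) (nat_lit 394) (nat_lit 5) (nat_lit 417) (nat_lit 5) (nat_lit 418) (nat_lit 5) (nat_lit 462) (nat_lit 439) (nat_lit 239)) (XT.lf (nat_lit 76) (nat_lit 6612937529) (nat_lit 0) (nat_lit 4044824889) (nat_lit 1824) (nat_lit 6341784489) (nat_lit 395) (nat_lit 5) (nat_lit 394) (nat_lit 5) (nat_lit 418) (nat_lit 5) (nat_lit 463) (nat_lit 439) (nat_lit 238))))) (XT.nd (nat_lit 234) (nat_lit 1976) (nat_lit 0) (XT.nd (nat_lit 78) (nat_lit 1748) (nat_lit 0) (XT.lf (nat_lit 0) (nat_lit 12181209165) (nat_lit 1748) (nat_lit 1831402508) (nat_lit 76) (nat_lit 3168617923) (nat_lit 395) (nat_lit 5) (nat_lit 418) (nat_lit 5) (nat_lit 396) (nat_lit 5) (nat_lit 464) (nat_lit 439) (nat_lit 237)) (XT.nd (nat_lit 78) (nat_lit 0) (nat_lit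 0) (XT.lf (nat_lit 0) (nat_lit 6954021846) (nat_lit 1748) (nat_lit 6846829299) (nat_lit 1824) (nat_lit 3564383314) (nat_lit 372) (nat_lit 5) (nat_lit 395) (nat_lit 5) (nat_lit 396) (nat_lit 5) (nat_lit 465) (nat_lit 439) (nat_lit 236)) (XT.lf (nat_lit 0) (nat_lit 15462140768) (nat_lit 1824) (nat_lit 1621175632) (nat_lit 76) (nat_lit 469420910) (nat_lit 372) (nat_lit 5) (nat_lit 396) (nat_lit 5) (nat_lit 373) (nat_lit 5) (nat_lit 466) (nat_lit 439) (nat_lit 235)))) (XT.nd (nat_lit 78) (nat_lit 988) (nat_lit 0) (XT.lf (nat_lit 0) (nat_lit 7390959379) (nat_lit 988) (nat_lit 9853029392) (nat_lit 1064) (nat_lit 498257724) (nat_lit 359) (nat_lit 5) (nat_lit 372) (nat_lit 5) (nat_lit 373) (nat_lit 5) (nat_lit 467) (nat_lit 439) (nat_lit 234)) (XT.nd (nat_lit 78) (nat_lit 912) (nat_lit 0) (XT.lf (nat_lit 0) (nat_lit 1116155908) (nat_lit 1064) (nat_lit 1342738423) (nat_lit 76) (nat_lit 15476408246) (nat_lit 358) (nat_lit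 5) (nat_lit 372) (nat_lit 5) (nat_lit 359) (nat_lit 5) (nat_lit 468) (nat_lit 439) (nat_lit 233)) (XT.lf (nat_lit 0) (nat_lit 2835285361) (nat_lit 988) (nat_lit 10223010950) (nat_lit 76) (nat_lit 5072278373) (nat_lit 346) (nat_lit 5) (nat_lit 359) (nat_lit 5) (nat_lit 347) (nat_lit 5) (nat_lit 469) (nat_lit 439) (nat_lit 232))))))))
noncomputable def xc227 : XT := (XT.nd (nat_lit 1638) (nat_lit 1292) (nat_lit 0) (XT.nd (nat_lit 780) (nat_lit 4180) (nat_lit 0) (XT.nd (nat_lit 390) (nat_lit 2356) (nat_lit 0) (XT.nd (nat_lit 156) (nat_lit 836) (nat_lit 0) (XT.nd (nat_lit 78) (nat_lit 836) (nat_lit 0) (XT.lf (nat_lit 0) (nat_lit 4608396559) (nat_lit 988) (nat_lit 990165373) (nat_lit 76) (nat_lit 12730801026) (nat_lit 346) (nat_lit 5) (nat_lit 359) (nat_lit 5) (nat_lit 347) (nat_lit 5) (nat_lit 470) (nat_lit 439) (nat_lit 231)) (XT.lf (nat_lit 0) (nat_lit 6480158769) (nat_lit 912) (nat_lit 10010512360) (nat_lit 76)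 (nat_lit 2040194744) (nat_lit 335) (nat_lit 5) (nat_lit 347) (nat_lit 5) (nat_lit 336) (nat_lit 5) (nat_lit 471) (nat_lit 439) (nat_lit 230))) (XT.nd (nat_lit 78) (nat_lit 836) (nat_lit 0) (XT.lf (nat_lit 0) (nat_lit 8427558553) (nat_lit 912) (nat_lit 544182196) (nat_lit 76) (nat_lit 9763896650) (nat_lit 335) (nat_lit 5) (nat_lit 347) (nat_lit 5) (nat_lit 336) (nat_lit 5) (nat_lit 472) (nat_lit 439) (nat_lit 229)) (XT.nd (nat_lit 78) (nat_lit 0) (nat_lit 0) (XT.lf (nat_lit 0) (nat_lit 9227295745) (nat_lit 836) (nat_lit 1241066612) (nat_lit 912) (nat_lit 8475055428) (nat_lit 324) (nat_lit 5) (nat_lit 335) (nat_lit 5) (nat_lit 336) (nat_lit 5) (nat_lit 473) (nat_lit 439) (nat_lit 228)) (XT.lf (nat_lit 0) (nat_lit 12591417996) (nat_lit 912) (nat_lit 2137640) (nat_lit 76) (nat_lit 6560971927) (nat_lit 324) (nat_lit 5) (nat_lit 336) (nat_lit 5) (nat_lit 325) (nat_lit 5) (nat_lit 474) (nat_lit 439) (nat_lit 227)))))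 (XT.nd (nat_lit 156) (nat_lit 836) (nat_lit 0) (XT.nd (nat_lit 78) (nat_lit 760) (nat_lit 0) (XT.lf (nat_lit 0) (nat_lit 10024206340) (nat_lit 760) (nat_lit 4800757791) (nat_lit 836) (nat_lit 4543537269) (nat_lit 314) (nat_lit 5) (nat_lit 324) (nat_lit 5) (nat_lit 325) (nat_lit 5) (nat_lit 475) (nat_lit 439) (nat_lit 226)) (XT.lf (nat_lit 0) (nat_lit 647157734) (nat_lit 760) (nat_lit 16475474987) (nat_lit 836) (nat_lit 2463735362) (nat_lit 304) (nat_lit 5) (nat_lit 314) (nat_lit 5) (nat_lit 315) (nat_lit 5) (nat_lit 476) (nat_lit 439) (nat_lit 225))) (XT.nd (nat_lit 78) (nat_lit 836) (nat_lit 0) (XT.lf (nat_lit 0) (nat_lit 10927679567) (nat_lit 760) (nat_lit 8627729476) (nat_lit 836) (nat_lit 251402326) (nat_lit 304) (nat_lit 5) (nat_lit 314) (nat_lit 5) (nat_lit 315) (nat_lit 5) (nat_lit 477) (nat_lit 439) (nat_lit 224)) (XT.nd (nat_lit 78) (nat_lit 0) (nat_lit 0) (XT.lf (nat_lit 0) (nat_lit 1382079302) (nat_lit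 760) (nat_lit 600703533) (nat_lit 836) (nat_lit 18048544497) (nat_lit 293) (nat_lit 5) (nat_lit 303) (nat_lit 5) (nat_lit 304) (nat_lit 5) (nat_lit 478) (nat_lit 439) (nat_lit 223)) (XT.lf (nat_lit 0) (nat_lit 4362521227) (nat_lit 836) (nat_lit 8346830425) (nat_lit 76) (nat_lit 7548866228) (nat_lit 293) (nat_lit 5) (nat_lit 304) (nat_lit 5) (nat_lit 294) (nat_lit 5) (nat_lit 479) (nat_lit 439) (nat_lit 222)))))) (XT.nd (nat_lit 390) (nat_lit 2052) (nat_lit 0) (XT.nd (nat_lit 156) (nat_lit 1368) (nat_lit 0) (XT.nd (nat_lit 78) (nat_lit 0) (nat_lit 0) (XT.lf (nat_lit 0) (nat_lit 2181122363) (nat_lit 760) (nat_lit 4621965084) (nat_lit 836) (nat_lit 13686296308) (nat_lit 283) (nat_lit 5) (nat_lit 293) (nat_lit 5) (nat_lit 294) (nat_lit 5) (nat_lit 480) (nat_lit 439) (nat_lit 221)) (XT.lf (nat_lit 0) (nat_lit 9367552475) (nat_lit 836) (nat_lit 7720400228) (nat_lit 76) (nat_lit 3635720626) (nat_lit 283) (nat_lit 5)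 (nat_lit 294) (nat_lit 5) (nat_lit 284) (nat_lit 5) (nat_lit 481) (nat_lit 439) (nat_lit 220))) (XT.nd (nat_lit 78) (nat_lit 684) (nat_lit 0) (XT.lf (nat_lit 0) (nat_lit 3083953489) (nat_lit 684) (nat_lit 8945235360) (nat_lit 760) (nat_lit 8932544298) (nat_lit 274) (nat_lit 5) (nat_lit 283) (nat_lit 5) (nat_lit 284) (nat_lit 5) (nat_lit 482) (nat_lit 439) (nat_lit 219)) (XT.nd (nat_lit 78) (nat_lit 684) (nat_lit 0) (XT.lf (nat_lit 0) (nat_lit 14203977672) (nat_lit 684) (nat_lit 587198390) (nat_lit 760) (nat_lit 6412437787) (nat_lit 274) (nat_lit 5) (nat_lit 283) (nat_lit 5) (nat_lit 284) (nat_lit 5) (nat_lit 483) (nat_lit 439) (nat_lit 218)) (XT.lf (nat_lit 0) (nat_lit 4093153018) (nat_lit 684) (nat_lit 13588763931) (nat_lit 760) (nat_lit 3766946946) (nat_lit 265) (nat_lit 5) (nat_lit 274) (nat_lit 5) (nat_lit 275) (nat_lit 5) (nat_lit 484) (nat_lit 439) (nat_lit 217))))) (XT.nd (nat_lit 234) (nat_lit 1292)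 (nat_lit 0) (XT.nd (nat_lit 78) (nat_lit 760) (nat_lit 0) (XT.lf (nat_lit 0) (nat_lit 15493711956) (nat_lit 684) (nat_lit 5183052358) (nat_lit 760) (nat_lit 1021330767) (nat_lit 265) (nat_lit 5) (nat_lit 274) (nat_lit 5) (nat_lit 275) (nat_lit 5) (nat_lit 485) (nat_lit 439) (nat_lit 216)) (XT.nd (nat_lit 78) (nat_lit 0) (nat_lit 0) (XT.lf (nat_lit 0) (nat_lit 1807595216) (nat_lit 760) (nat_lit 16751890921) (nat_lit 76) (nat_lit 3391560972) (nat_lit 255) (nat_lit 5) (nat_lit 265) (nat_lit 5) (nat_lit 256) (nat_lit 5) (nat_lit 486) (nat_lit 439) (nat_lit 215)) (XT.lf (nat_lit 0) (nat_lit 4751239401) (nat_lit 760) (nat_lit 5339766148) (nat_lit 76) (nat_lit 12116483160) (nat_lit 255) (nat_lit 5) (nat_lit 265) (nat_lit 5) (nat_lit 256) (nat_lit 5) (nat_lit 487) (nat_lit 439) (nat_lit 214)))) (XT.nd (nat_lit 78) (nat_lit 608) (nat_lit 0) (XT.lf (nat_lit 0) (nat_lit 6379321339) (nat_lit 684) (nat_lit 1411508098) (nat_lit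 760) (nat_lit 14677490067) (nat_lit 246) (nat_lit 5) (nat_lit 255) (nat_lit 5) (nat_lit 256) (nat_lit 5) (nat_lit 488) (nat_lit 439) (nat_lit 213)) (XT.nd (nat_lit 78) (nat_lit 608) (nat_lit 0) (XT.lf (nat_lit 0) (nat_lit 10971300350) (nat_lit 760) (nat_lit 4382027514) (nat_lit 76) (nat_lit 7379439053) (nat_lit 246) (nat_lit 5) (nat_lit 256) (nat_lit 5) (nat_lit 247) (nat_lit 5) (nat_lit 489) (nat_lit 439) (nat_lit 212)) (XT.lf (nat_lit 0) (nat_lit 7645102895) (nat_lit 608) (nat_lit 6625050309) (nat_lit 684) (nat_lit 8731256373) (nat_lit 238) (nat_lit 5) (nat_lit 246) (nat_lit 5) (nat_lit 247) (nat_lit 5) (nat_lit 490) (nat_lit 439) (nat_lit 211))))))) (XT.nd (nat_lit 55770) (nat_lit 0) (nat_lit 12844) (XT.nd (nat_lit 55380) (nat_lit 0) (nat_lit 14136) (XT.nd (nat_lit 156) (nat_lit 684) (nat_lit 0) (XT.nd (nat_lit 78) (nat_lit 608) (nat_lit 0) (XT.lf (nat_lit 0) (nat_lit 17675206636) (nat_lit 684) (nat_lit 3322592161)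 (nat_lit 76) (nat_lit 2276823539) (nat_lit 238) (nat_lit 5) (nat_lit 247) (nat_lit 5) (nat_lit 239) (nat_lit 5) (nat_lit 491) (nat_lit 439) (nat_lit 210)) (XT.lf (nat_lit 0) (nat_lit 9021389336) (nat_lit 608) (nat_lit 12225334959) (nat_lit 684) (nat_lit 2304609474) (nat_lit 230) (nat_lit 5) (nat_lit 238) (nat_lit 5) (nat_lit 239) (nat_lit 5) (nat_lit 492) (nat_lit 439) (nat_lit 209))) (XT.nd (nat_lit 78) (nat_lit 608) (nat_lit 0) (XT.lf (nat_lit 0) (nat_lit 1060622287) (nat_lit 684) (nat_lit 2187722609) (nat_lit 76) (nat_lit 20584731409) (nat_lit 229) (nat_lit 5) (nat_lit 238) (nat_lit 5) (nat_lit 230) (nat_lit 5) (nat_lit 493) (nat_lit 439) (nat_lit 208)) (XT.nd (nat_lit 78) (nat_lit 0) (nat_lit 0) (XT.lf (nat_lit 0) (nat_lit 4565550878) (nat_lit 684) (nat_lit 13638506542) (nat_lit 76) (nat_lit 5914028169) (nat_lit 221) (nat_lit 5) (nat_lit 230) (nat_lit 5) (nat_lit 222) (nat_lit 5) (nat_lit 494) (nat_lit 439)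 (nat_lit 207)) (XT.lf (nat_lit 0) (nat_lit 8172926234) (nat_lit 684) (nat_lit 1005050692) (nat_lit 76) (nat_lit 15230172723) (nat_lit 221) (nat_lit 5) (nat_lit 230) (nat_lit 5) (nat_lit 222) (nat_lit 5) (nat_lit 495) (nat_lit 439) (nat_lit 206))))) (XT.nd (nat_lit 156) (nat_lit 0) (nat_lit 76) (XT.nd (nat_lit 78) (nat_lit 0) (nat_lit 0) (XT.lf (nat_lit 0) (nat_lit 2616680133) (nat_lit 1748) (nat_lit 2098982243) (nat_lit 1748) (nat_lit 2098982243) (nat_lit 407) (nat_lit 3) (nat_lit 430) (nat_lit 3) (nat_lit 430) (nat_lit 5) (nat_lit 440) (nat_lit 440) (nat_lit 260)) (XT.lf (nat_lit 76) (nat_lit 2231153825) (nat_lit 0) (nat_lit 3421942224) (nat_lit 1748) (nat_lit 8104954889) (nat_lit 408) (nat_lit 5) (nat_lit 407) (nat_lit 3) (nat_lit 430) (nat_lit 5) (nat_lit 441) (nat_lit 440) (nat_lit 259))) (XT.nd (nat_lit 78) (nat_lit 0) (nat_lit 0) (XT.lf (nat_lit 0) (nat_lit 6117904414) (nat_lit 1672) (nat_lit 5065837818)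 (nat_lit 1748) (nat_lit 2704916883) (nat_lit 408) (nat_lit 5) (nat_lit 430) (nat_lit 5) (nat_lit 431) (nat_lit 5) (nat_lit 442) (nat_lit 440) (nat_lit 258)) (XT.nd (nat_lit 78) (nat_lit 0) (nat_lit 76) (XT.lf (nat_lit 76) (nat_lit 1516765502) (nat_lit 0) (nat_lit 5098675747) (nat_lit 1748) (nat_lit 7405974271) (nat_lit 409) (nat_lit 5) (nat_lit 408) (nat_lit 5) (nat_lit 431) (nat_lit 5) (nat_lit 443) (nat_lit 440) (nat_lit 257)) (XT.lf (nat_lit 0) (nat_lit 7155438108) (nat_lit 1672) (nat_lit 5868962332) (nat_lit 1748) (nat_lit 1131781047) (nat_lit 409) (nat_lit 5) (nat_lit 431) (nat_lit 5) (nat_lit 432) (nat_lit 5) (nat_lit 444) (nat_lit 440) (nat_lit 256)))))) (XT.nd (nat_lit 390) (nat_lit 1444) (nat_lit 0) (XT.nd (nat_lit 156) (nat_lit 0) (nat_lit 76) (XT.nd (nat_lit 78) (nat_lit 0) (nat_lit 0) (XT.lf (nat_lit 76) (nat_lit 872125616) (nat_lit 0) (nat_lit 6864807622) (nat_lit 1748) (nat_lit 6556100094) (nat_lit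 410) (nat_lit 5) (nat_lit 409) (nat_lit 5) (nat_lit 432) (nat_lit 5) (nat_lit 445) (nat_lit 440) (nat_lit 255)) (XT.lf (nat_lit 76) (nat_lit 7822637939) (nat_lit 0) (nat_lit 538213034) (nat_lit 1748) (nat_lit 6071159826) (nat_lit 410) (nat_lit 5) (nat_lit 409) (nat_lit 5) (nat_lit 432) (nat_lit 5) (nat_lit 446) (nat_lit 440) (nat_lit 254))) (XT.nd (nat_lit 78) (nat_lit 0) (nat_lit 0) (XT.lf (nat_lit 76) (nat_lit 298857151) (nat_lit 0) (nat_lit 8730334320) (nat_lit 1748) (nat_lit 5543941806) (nat_lit 411) (nat_lit 5) (nat_lit 410) (nat_lit 5) (nat_lit 433) (nat_lit 5) (nat_lit 447) (nat_lit 440) (nat_lit 253)) (XT.nd (nat_lit 78) (nat_lit 0) (nat_lit 76) (XT.lf (nat_lit 76) (nat_lit 7426213528) (nat_lit 0) (nat_lit 2324311101) (nat_lit 1748) (nat_lit 4965765326) (nat_lit 411) (nat_lit 5) (nat_lit 410) (nat_lit 5) (nat_lit 433) (nat_lit 5) (nat_lit 448) (nat_lit 440) (nat_lit 252)) (XT.lf (nat_lit 0) (nat_lit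 10505532865) (nat_lit 1672) (nat_lit 198632661) (nat_lit 1748) (nat_lit 4157763452) (nat_lit 411) (nat_lit 5) (nat_lit 433) (nat_lit 5) (nat_lit 434) (nat_lit 5) (nat_lit 449) (nat_lit 440) (nat_lit 251))))) (XT.nd (nat_lit 234) (nat_lit 1596) (nat_lit 0) (XT.nd (nat_lit 78) (nat_lit 0) (nat_lit 76) (XT.lf (nat_lit 76) (nat_lit 7107455986) (nat_lit 0) (nat_lit 4221798299) (nat_lit 1748) (nat_lit 3680158339) (nat_lit 412) (nat_lit 5) (nat_lit 411) (nat_lit 5) (nat_lit 434) (nat_lit 5) (nat_lit 450) (nat_lit 440) (nat_lit 250)) (XT.nd (nat_lit 78) (nat_lit 0) (nat_lit 0) (XT.lf (nat_lit 0) (nat_lit 12178526161) (nat_lit 1672) (nat_lit 618140332) (nat_lit 1748) (nat_lit 2363001949) (nat_lit 412) (nat_lit 5) (nat_lit 434) (nat_lit 5) (nat_lit 435) (nat_lit 5) (nat_lit 451) (nat_lit 440) (nat_lit 249)) (XT.lf (nat_lit 76) (nat_lit 6868422720) (nat_lit 0) (nat_lit 6241282079) (nat_lit 1748) (nat_lit 2201930091) (nat_lit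 413) (nat_lit 5) (nat_lit 412) (nat_lit 5) (nat_lit 435) (nat_lit 5) (nat_lit 452) (nat_lit 440) (nat_lit 248)))) (XT.nd (nat_lit 78) (nat_lit 1748) (nat_lit 0) (XT.lf (nat_lit 0) (nat_lit 14059074444) (nat_lit 1672) (nat_lit 961568080) (nat_lit 1748) (nat_lit 446010658) (nat_lit 413) (nat_lit 5) (nat_lit 435) (nat_lit 5) (nat_lit 436) (nat_lit 5) (nat_lit 453) (nat_lit 440) (nat_lit 247)) (XT.nd (nat_lit 78) (nat_lit 1748) (nat_lit 0) (XT.lf (nat_lit 76) (nat_lit 6711309267) (nat_lit 0) (nat_lit 8393677829) (nat_lit 1748) (nat_lit 518237420) (nat_lit 414) (nat_lit 5) (nat_lit 413) (nat_lit 5) (nat_lit 436) (nat_lit 5) (nat_lit 454) (nat_lit 440) (nat_lit 246)) (XT.lf (nat_lit 0) (nat_lit 382993791) (nat_lit 1748) (nat_lit 1239841164) (nat_lit 1824) (nat_lit 14160061395) (nat_lit 390) (nat_lit 5) (nat_lit 413) (nat_lit 5) (nat_lit 414) (nat_lit 5) (nat_lit 455) (nat_lit 440) (nat_lit 245))))))))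
noncomputable def xc228 : XT := (XT.nd (nat_lit 1560) (nat_lit 7068) (nat_lit 0) (XT.nd (nat_lit 780) (nat_lit 5852) (nat_lit 0) (XT.nd (nat_lit 390) (nat_lit 0) (nat_lit 152) (XT.nd (nat_lit 156) (nat_lit 0) (nat_lit 76) (XT.nd (nat_lit 78) (nat_lit 0) (nat_lit 0) (XT.lf (nat_lit 0) (nat_lit 1366065355) (nat_lit 1748) (nat_lit 9315003440) (nat_lit 1824) (nat_lit 5263212785) (nat_lit 391) (nat_lit 5) (nat_lit 414) (nat_lit 5) (nat_lit 415) (nat_lit 5) (nat_lit 456) (nat_lit 440) (nat_lit 244)) (XT.lf (nat_lit 0) (nat_lit 2380892458) (nat_lit 1748) (nat_lit 1452121161) (nat_lit 1824) (nat_lit 12275642514) (nat_lit 391) (nat_lit 5) (nat_lit 414) (nat_lit 5) (nat_lit 415) (nat_lit 5) (nat_lit 457) (nat_lit 440) (nat_lit 243))) (XT.nd (nat_lit 78) (nat_lit 0) (nat_lit 0) (XT.lf (nat_lit 0) (nat_lit 3473065559) (nat_lit 1748) (nat_lit 9646197057) (nat_lit 1824) (nat_lit 3155918004) (nat_lit 392) (nat_lit 5) (nat_lit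 415) (nat_lit 5) (nat_lit 416) (nat_lit 5) (nat_lit 458) (nat_lit 440) (nat_lit 242)) (XT.nd (nat_lit 78) (nat_lit 0) (nat_lit 76) (XT.lf (nat_lit 0) (nat_lit 4615498632) (nat_lit 1748) (nat_lit 1584087630) (nat_lit 1824) (nat_lit 10244884365) (nat_lit 392) (nat_lit 5) (nat_lit 415) (nat_lit 5) (nat_lit 416) (nat_lit 5) (nat_lit 459) (nat_lit 440) (nat_lit 241)) (XT.lf (nat_lit 0) (nat_lit 5823655382) (nat_lit 1748) (nat_lit 9899944662) (nat_lit 1824) (nat_lit 892692190) (nat_lit 393) (nat_lit 5) (nat_lit 416) (nat_lit 5) (nat_lit 417) (nat_lit 5) (nat_lit 460) (nat_lit 440) (nat_lit 240))))) (XT.nd (nat_lit 156) (nat_lit 0) (nat_lit 76) (XT.nd (nat_lit 78) (nat_lit 0) (nat_lit 0) (XT.lf (nat_lit 0) (nat_lit 7101195856) (nat_lit 1748) (nat_lit 1633401716) (nat_lit 1824) (nat_lit 8056051522) (nat_lit 393) (nat_lit 5) (nat_lit 416) (nat_lit 5) (nat_lit 417) (nat_lit 5) (nat_lit 461) (nat_lit 440) (nat_lit 239))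 (XT.lf (nat_lit 76) (nat_lit 6883653432) (nat_lit 0) (nat_lit 1558918390) (nat_lit 1824) (nat_lit 8525158745) (nat_lit 394) (nat_lit 5) (nat_lit 393) (nat_lit 5) (nat_lit 417) (nat_lit 5) (nat_lit 462) (nat_lit 440) (nat_lit 238))) (XT.nd (nat_lit 78) (nat_lit 0) (nat_lit 0) (XT.lf (nat_lit 0) (nat_lit 9852900732) (nat_lit 1748) (nat_lit 1597618690) (nat_lit 1824) (nat_lit 5696994846) (nat_lit 394) (nat_lit 5) (nat_lit 417) (nat_lit 5) (nat_lit 418) (nat_lit 5) (nat_lit 463) (nat_lit 440) (nat_lit 237)) (XT.nd (nat_lit 78) (nat_lit 0) (nat_lit 76) (XT.lf (nat_lit 76) (nat_lit 7136743652) (nat_lit 0) (nat_lit 4205169009) (nat_lit 1824) (nat_lit 5987974500) (nat_lit 395) (nat_lit 5) (nat_lit 394) (nat_lit 5) (nat_lit 418) (nat_lit 5) (nat_lit 464) (nat_lit 440) (nat_lit 236)) (XT.lf (nat_lit 0) (nat_lit 12886087435) (nat_lit 1748) (nat_lit 1474193417) (nat_lit 76) (nat_lit 3155121995) (nat_lit 395) (nat_lit 5)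 (nat_lit 418) (nat_lit 5) (nat_lit 396) (nat_lit 5) (nat_lit 465) (nat_lit 440) (nat_lit 235)))))) (XT.nd (nat_lit 390) (nat_lit 2432) (nat_lit 0) (XT.nd (nat_lit 156) (nat_lit 1976) (nat_lit 0) (XT.nd (nat_lit 78) (nat_lit 0) (nat_lit 0) (XT.lf (nat_lit 0) (nat_lit 7484348390) (nat_lit 1748) (nat_lit 7047269895) (nat_lit 1824) (nat_lit 3171604037) (nat_lit 372) (nat_lit 5) (nat_lit 395) (nat_lit 5) (nat_lit 396) (nat_lit 5) (nat_lit 466) (nat_lit 440) (nat_lit 234)) (XT.lf (nat_lit 0) (nat_lit 16216812806) (nat_lit 1824) (nat_lit 1260486162) (nat_lit 76) (nat_lit 417367030) (nat_lit 372) (nat_lit 5) (nat_lit 396) (nat_lit 5) (nat_lit 373) (nat_lit 5) (nat_lit 467) (nat_lit 440) (nat_lit 233))) (XT.nd (nat_lit 78) (nat_lit 988) (nat_lit 0) (XT.lf (nat_lit 0) (nat_lit 7929305280) (nat_lit 988) (nat_lit 10098794141) (nat_lit 1064) (nat_lit 59994177) (nat_lit 359) (nat_lit 5) (nat_lit 372) (nat_lit 5) (nat_lit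 373) (nat_lit 5) (nat_lit 468) (nat_lit 440) (nat_lit 232)) (XT.nd (nat_lit 78) (nat_lit 912) (nat_lit 0) (XT.lf (nat_lit 0) (nat_lit 1572155597) (nat_lit 1064) (nat_lit 980755600) (nat_lit 76) (nat_lit 15732218969) (nat_lit 358) (nat_lit 5) (nat_lit 372) (nat_lit 5) (nat_lit 359) (nat_lit 5) (nat_lit 469) (nat_lit 440) (nat_lit 231)) (XT.lf (nat_lit 0) (nat_lit 3319403352) (nat_lit 988) (nat_lit 10032168380) (nat_lit 76) (nat_lit 5132865289) (nat_lit 346) (nat_lit 5) (nat_lit 359) (nat_lit 5) (nat_lit 347) (nat_lit 5) (nat_lit 470) (nat_lit 440) (nat_lit 230))))) (XT.nd (nat_lit 156) (nat_lit 1596) (nat_lit 0) (XT.nd (nat_lit 78) (nat_lit 836) (nat_lit 0) (XT.lf (nat_lit 0) (nat_lit 5119596141) (nat_lit 988) (nat_lit 622416926) (nat_lit 76) (nat_lit 12945359545) (nat_lit 346) (nat_lit 5) (nat_lit 359) (nat_lit 5) (nat_lit 347) (nat_lit 5) (nat_lit 471) (nat_lit 440) (nat_lit 229)) (XT.lf (nat_lit 0) (nat_lit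 7022893150) (nat_lit 912) (nat_lit 9817077298) (nat_lit 76) (nat_lit 2053057007) (nat_lit 335) (nat_lit 5) (nat_lit 347) (nat_lit 5) (nat_lit 336) (nat_lit 5) (nat_lit 472) (nat_lit 440) (nat_lit 228))) (XT.nd (nat_lit 78) (nat_lit 1596) (nat_lit 0) (XT.lf (nat_lit 0) (nat_lit 9001140318) (nat_lit 912) (nat_lit 169139066) (nat_lit 76) (nat_lit 9931780827) (nat_lit 335) (nat_lit 5) (nat_lit 347) (nat_lit 5) (nat_lit 336) (nat_lit 5) (nat_lit 473) (nat_lit 440) (nat_lit 227)) (XT.nd (nat_lit 78) (nat_lit 760) (nat_lit 0) (XT.lf (nat_lit 0) (nat_lit 9795229442) (nat_lit 836) (nat_lit 1282078189) (nat_lit 912) (nat_lit 8236801338) (nat_lit 324) (nat_lit 5) (nat_lit 335) (nat_lit 5) (nat_lit 336) (nat_lit 5) (nat_lit 474) (nat_lit 440) (nat_lit 226)) (XT.lf (nat_lit 0) (nat_lit 386883925) (nat_lit 760) (nat_lit 12850514444) (nat_lit 836) (nat_lit 6292154733) (nat_lit 314) (nat_lit 5) (nat_lit 324) (nat_lit 5) (nat_lit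 325) (nat_lit 5) (nat_lit 475) (nat_lit 440) (nat_lit 225))))))) (XT.nd (nat_lit 780) (nat_lit 3344) (nat_lit 0) (XT.nd (nat_lit 390) (nat_lit 2128) (nat_lit 0) (XT.nd (nat_lit 156) (nat_lit 836) (nat_lit 0) (XT.nd (nat_lit 78) (nat_lit 760) (nat_lit 0) (XT.lf (nat_lit 0) (nat_lit 10606154481) (nat_lit 760) (nat_lit 4901746537) (nat_lit 836) (nat_lit 4240063252) (nat_lit 314) (nat_lit 5) (nat_lit 324) (nat_lit 5) (nat_lit 325) (nat_lit 5) (nat_lit 476) (nat_lit 440) (nat_lit 224)) (XT.lf (nat_lit 0) (nat_lit 1046942488) (nat_lit 760) (nat_lit 16799483260) (nat_lit 836) (nat_lit 2123867984) (nat_lit 304) (nat_lit 5) (nat_lit 314) (nat_lit 5) (nat_lit 315) (nat_lit 5) (nat_lit 477) (nat_lit 440) (nat_lit 223))) (XT.nd (nat_lit 78) (nat_lit 760) (nat_lit 0) (XT.lf (nat_lit 0) (nat_lit 123441008) (nat_lit 836) (nat_lit 8670621343) (nat_lit 76) (nat_lit 11401220264) (nat_lit 303) (nat_lit 5) (nat_lit 314) (nat_lit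 5) (nat_lit 304) (nat_lit 5) (nat_lit 478) (nat_lit 440) (nat_lit 222)) (XT.nd (nat_lit 78) (nat_lit 0) (nat_lit 0) (XT.lf (nat_lit 0) (nat_lit 1791619935) (nat_lit 760) (nat_lit 602423835) (nat_lit 836) (nat_lit 18030313185) (nat_lit 293) (nat_lit 5) (nat_lit 303) (nat_lit 5) (nat_lit 304) (nat_lit 5) (nat_lit 479) (nat_lit 440) (nat_lit 221)) (XT.lf (nat_lit 0) (nat_lit 4814156076) (nat_lit 836) (nat_lit 8131973763) (nat_lit 76) (nat_lit 7709803125) (nat_lit 293) (nat_lit 5) (nat_lit 304) (nat_lit 5) (nat_lit 294) (nat_lit 5) (nat_lit 480) (nat_lit 440) (nat_lit 220))))) (XT.nd (nat_lit 156) (nat_lit 1368) (nat_lit 0) (XT.nd (nat_lit 78) (nat_lit 0) (nat_lit 0) (XT.lf (nat_lit 0) (nat_lit 2604026283) (nat_lit 760) (nat_lit 4694825091) (nat_lit 836) (nat_lit 13592967594) (nat_lit 283) (nat_lit 5) (nat_lit 293) (nat_lit 5) (nat_lit 294) (nat_lit 5) (nat_lit 481) (nat_lit 440) (nat_lit 219)) (XT.lf (nat_lit 0)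 (nat_lit 9907677348) (nat_lit 836) (nat_lit 7495879985) (nat_lit 76) (nat_lit 3727378675) (nat_lit 283) (nat_lit 5) (nat_lit 294) (nat_lit 5) (nat_lit 284) (nat_lit 5) (nat_lit 482) (nat_lit 440) (nat_lit 218))) (XT.nd (nat_lit 78) (nat_lit 684) (nat_lit 0) (XT.lf (nat_lit 0) (nat_lit 3522067857) (nat_lit 684) (nat_lit 9096005525) (nat_lit 760) (nat_lit 8755776145) (nat_lit 274) (nat_lit 5) (nat_lit 283) (nat_lit 5) (nat_lit 284) (nat_lit 5) (nat_lit 483) (nat_lit 440) (nat_lit 217)) (XT.nd (nat_lit 78) (nat_lit 684) (nat_lit 0) (XT.lf (nat_lit 0) (nat_lit 14857111440) (nat_lit 684) (nat_lit 571359474) (nat_lit 760) (nat_lit 6192236504) (nat_lit 274) (nat_lit 5) (nat_lit 283) (nat_lit 5) (nat_lit 284) (nat_lit 5) (nat_lit 484) (nat_lit 440) (nat_lit 216)) (XT.lf (nat_lit 0) (nat_lit 4548397191) (nat_lit 684) (nat_lit 13824533724) (nat_lit 760) (nat_lit 3498016391) (nat_lit 265) (nat_lit 5) (nat_lit 274) (nat_lit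 5) (nat_lit 275) (nat_lit 5) (nat_lit 485) (nat_lit 440) (nat_lit 215)))))) (XT.nd (nat_lit 390) (nat_lit 1900) (nat_lit 0) (XT.nd (nat_lit 156) (nat_lit 684) (nat_lit 0) (XT.nd (nat_lit 78) (nat_lit 760) (nat_lit 0) (XT.lf (nat_lit 0) (nat_lit 16169646109) (nat_lit 684) (nat_lit 5251413909) (nat_lit 760) (nat_lit 704238271) (nat_lit 265) (nat_lit 5) (nat_lit 274) (nat_lit 5) (nat_lit 275) (nat_lit 5) (nat_lit 486) (nat_lit 440) (nat_lit 214)) (XT.lf (nat_lit 0) (nat_lit 2172953662) (nat_lit 760) (nat_lit 16712277673) (nat_lit 76) (nat_lit 3498114674) (nat_lit 255) (nat_lit 5) (nat_lit 265) (nat_lit 5) (nat_lit 256) (nat_lit 5) (nat_lit 487) (nat_lit 440) (nat_lit 213))) (XT.nd (nat_lit 78) (nat_lit 684) (nat_lit 0) (XT.lf (nat_lit 0) (nat_lit 5169015701) (nat_lit 760) (nat_lit 5079256503) (nat_lit 76) (nat_lit 12396776042) (nat_lit 255) (nat_lit 5) (nat_lit 265) (nat_lit 5) (nat_lit 256) (nat_lit 5) (nat_lit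 488) (nat_lit 440) (nat_lit 212)) (XT.nd (nat_lit 78) (nat_lit 0) (nat_lit 0) (XT.lf (nat_lit 0) (nat_lit 6871796254) (nat_lit 684) (nat_lit 1393641920) (nat_lit 760) (nat_lit 14645739320) (nat_lit 246) (nat_lit 5) (nat_lit 255) (nat_lit 5) (nat_lit 256) (nat_lit 5) (nat_lit 489) (nat_lit 440) (nat_lit 211)) (XT.lf (nat_lit 0) (nat_lit 11503561099) (nat_lit 760) (nat_lit 4105846888) (nat_lit 76) (nat_lit 7571627616) (nat_lit 246) (nat_lit 5) (nat_lit 256) (nat_lit 5) (nat_lit 247) (nat_lit 5) (nat_lit 490) (nat_lit 440) (nat_lit 210))))) (XT.nd (nat_lit 234) (nat_lit 684) (nat_lit 0) (XT.nd (nat_lit 78) (nat_lit 608) (nat_lit 0) (XT.lf (nat_lit 0) (nat_lit 8159432569) (nat_lit 608) (nat_lit 6705171055) (nat_lit 684) (nat_lit 8590525789) (nat_lit 238) (nat_lit 5) (nat_lit 246) (nat_lit 5) (nat_lit 247) (nat_lit 5) (nat_lit 491) (nat_lit 440) (nat_lit 209)) (XT.nd (nat_lit 78) (nat_lit 608) (nat_lit 0) (XT.lf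 (nat_lit 0) (nat_lit 18332031791) (nat_lit 684) (nat_lit 3028851960) (nat_lit 76) (nat_lit 2373039700) (nat_lit 238) (nat_lit 5) (nat_lit 247) (nat_lit 5) (nat_lit 239) (nat_lit 5) (nat_lit 492) (nat_lit 440) (nat_lit 208)) (XT.lf (nat_lit 0) (nat_lit 9559639482) (nat_lit 608) (nat_lit 12411716070) (nat_lit 684) (nat_lit 2044888495) (nat_lit 230) (nat_lit 5) (nat_lit 238) (nat_lit 5) (nat_lit 239) (nat_lit 5) (nat_lit 493) (nat_lit 440) (nat_lit 207)))) (XT.nd (nat_lit 78) (nat_lit 608) (nat_lit 0) (XT.lf (nat_lit 0) (nat_lit 1377719413) (nat_lit 684) (nat_lit 1876620968) (nat_lit 76) (nat_lit 21049362050) (nat_lit 229) (nat_lit 5) (nat_lit 238) (nat_lit 5) (nat_lit 230) (nat_lit 5) (nat_lit 494) (nat_lit 440) (nat_lit 206)) (XT.nd (nat_lit 55146) (nat_lit 0) (nat_lit 14136) (XT.lf (nat_lit 0) (nat_lit 4949624251) (nat_lit 684) (nat_lit 13553182856) (nat_lit 76) (nat_lit 6091669549) (nat_lit 221) (nat_lit 5)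 (nat_lit 230) (nat_lit 5) (nat_lit 222) (nat_lit 5) (nat_lit 495) (nat_lit 440) (nat_lit 205)) (XT.lf (nat_lit 0) (nat_lit 3019638420) (nat_lit 1748) (nat_lit 1962052318) (nat_lit 1748) (nat_lit 1962052318) (nat_lit 407) (nat_lit 3) (nat_lit 430) (nat_lit 3) (nat_lit 430) (nat_lit 5) (nat_lit 441) (nat_lit 441) (nat_lit 258))))))))
noncomputable def xc229 : XT := (XT.nd (nat_lit 1638) (nat_lit 8132) (nat_lit 0) (XT.nd (nat_lit 780) (nat_lit 1292) (nat_lit 0) (XT.nd (nat_lit 390) (nat_lit 0) (nat_lit 152) (XT.nd (nat_lit 156) (nat_lit 0) (nat_lit 76) (XT.nd (nat_lit 78) (nat_lit 0) (nat_lit 76) (XT.lf (nat_lit 76) (nat_lit 2631241969) (nat_lit 0) (nat_lit 3824723298) (nat_lit 1748) (nat_lit 7563093754) (nat_lit 408) (nat_lit 5) (nat_lit 407) (nat_lit 3) (nat_lit 430) (nat_lit 5) (nat_lit 442) (nat_lit 441) (nat_lit 257)) (XT.lf (nat_lit 0) (nat_lit 6914415959) (nat_lit 1672) (nat_lit 4802655777) (nat_lit 1748)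 (nat_lit 2435527700) (nat_lit 408) (nat_lit 5) (nat_lit 430) (nat_lit 5) (nat_lit 431) (nat_lit 5) (nat_lit 443) (nat_lit 441) (nat_lit 256))) (XT.nd (nat_lit 78) (nat_lit 0) (nat_lit 76) (XT.lf (nat_lit 76) (nat_lit 1909201592) (nat_lit 0) (nat_lit 5501834243) (nat_lit 1748) (nat_lit 6877199347) (nat_lit 409) (nat_lit 5) (nat_lit 408) (nat_lit 5) (nat_lit 431) (nat_lit 5) (nat_lit 444) (nat_lit 441) (nat_lit 255)) (XT.nd (nat_lit 78) (nat_lit 0) (nat_lit 0) (XT.lf (nat_lit 0) (nat_lit 7946909877) (nat_lit 1672) (nat_lit 5616081851) (nat_lit 1748) (nat_lit 863009918) (nat_lit 409) (nat_lit 5) (nat_lit 431) (nat_lit 5) (nat_lit 432) (nat_lit 5) (nat_lit 445) (nat_lit 441) (nat_lit 254)) (XT.lf (nat_lit 76) (nat_lit 1257391936) (nat_lit 0) (nat_lit 7272318130) (nat_lit 1748) (nat_lit 6036093552) (nat_lit 410) (nat_lit 5) (nat_lit 409) (nat_lit 5) (nat_lit 432) (nat_lit 5) (nat_lit 446) (nat_lit 441) (nat_lit 253)))))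 (XT.nd (nat_lit 156) (nat_lit 0) (nat_lit 76) (XT.nd (nat_lit 78) (nat_lit 0) (nat_lit 76) (XT.lf (nat_lit 76) (nat_lit 8339702274) (nat_lit 0) (nat_lit 813893329) (nat_lit 1748) (nat_lit 5554221704) (nat_lit 410) (nat_lit 5) (nat_lit 409) (nat_lit 5) (nat_lit 432) (nat_lit 5) (nat_lit 447) (nat_lit 441) (nat_lit 252)) (XT.lf (nat_lit 76) (nat_lit 677531396) (nat_lit 0) (nat_lit 9146239781) (nat_lit 1748) (nat_lit 5028228030) (nat_lit 411) (nat_lit 5) (nat_lit 410) (nat_lit 5) (nat_lit 433) (nat_lit 5) (nat_lit 448) (nat_lit 441) (nat_lit 251))) (XT.nd (nat_lit 78) (nat_lit 0) (nat_lit 76) (XT.lf (nat_lit 76) (nat_lit 7940127113) (nat_lit 0) (nat_lit 2607364749) (nat_lit 1748) (nat_lit 4450774150) (nat_lit 411) (nat_lit 5) (nat_lit 410) (nat_lit 5) (nat_lit 433) (nat_lit 5) (nat_lit 449) (nat_lit 441) (nat_lit 250)) (XT.nd (nat_lit 78) (nat_lit 0) (nat_lit 0) (XT.lf (nat_lit 76) (nat_lit 171481944) (nat_lit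 0) (nat_lit 11133922783) (nat_lit 1748) (nat_lit 3841663091) (nat_lit 412) (nat_lit 5) (nat_lit 411) (nat_lit 5) (nat_lit 434) (nat_lit 5) (nat_lit 450) (nat_lit 441) (nat_lit 249)) (XT.lf (nat_lit 76) (nat_lit 7618997045) (nat_lit 0) (nat_lit 4516346380) (nat_lit 1748) (nat_lit 3162368825) (nat_lit 412) (nat_lit 5) (nat_lit 411) (nat_lit 5) (nat_lit 434) (nat_lit 5) (nat_lit 451) (nat_lit 441) (nat_lit 248)))))) (XT.nd (nat_lit 390) (nat_lit 0) (nat_lit 76) (XT.nd (nat_lit 156) (nat_lit 1672) (nat_lit 0) (XT.nd (nat_lit 78) (nat_lit 0) (nat_lit 0) (XT.lf (nat_lit 0) (nat_lit 12988900476) (nat_lit 1672) (nat_lit 255361224) (nat_lit 1748) (nat_lit 2206971343) (nat_lit 412) (nat_lit 5) (nat_lit 434) (nat_lit 5) (nat_lit 435) (nat_lit 5) (nat_lit 452) (nat_lit 441) (nat_lit 247)) (XT.lf (nat_lit 76) (nat_lit 7378465049) (nat_lit 0) (nat_lit 6551543483) (nat_lit 1748) (nat_lit 1676409910) (nat_lit 413) (nat_lit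 5) (nat_lit 412) (nat_lit 5) (nat_lit 435) (nat_lit 5) (nat_lit 453) (nat_lit 441) (nat_lit 246))) (XT.nd (nat_lit 78) (nat_lit 1748) (nat_lit 0) (XT.lf (nat_lit 0) (nat_lit 14886241880) (nat_lit 1672) (nat_lit 603027880) (nat_lit 1748) (nat_lit 275515441) (nat_lit 413) (nat_lit 5) (nat_lit 435) (nat_lit 5) (nat_lit 436) (nat_lit 5) (nat_lit 454) (nat_lit 441) (nat_lit 245)) (XT.nd (nat_lit 78) (nat_lit 0) (nat_lit 0) (XT.lf (nat_lit 0) (nat_lit 19880722) (nat_lit 1748) (nat_lit 8703967978) (nat_lit 1824) (nat_lit 7200807541) (nat_lit 390) (nat_lit 5) (nat_lit 413) (nat_lit 5) (nat_lit 414) (nat_lit 5) (nat_lit 455) (nat_lit 441) (nat_lit 244)) (XT.lf (nat_lit 0) (nat_lit 921585215) (nat_lit 1748) (nat_lit 889389419) (nat_lit 1824) (nat_lit 14276695913) (nat_lit 390) (nat_lit 5) (nat_lit 413) (nat_lit 5) (nat_lit 414) (nat_lit 5) (nat_lit 456) (nat_lit 441) (nat_lit 243))))) (XT.nd (nat_lit 234) (nat_lit 0)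 (nat_lit 76) (XT.nd (nat_lit 78) (nat_lit 0) (nat_lit 0) (XT.lf (nat_lit 0) (nat_lit 1915353173) (nat_lit 1748) (nat_lit 9116830002) (nat_lit 1824) (nat_lit 5220284806) (nat_lit 391) (nat_lit 5) (nat_lit 414) (nat_lit 5) (nat_lit 415) (nat_lit 5) (nat_lit 457) (nat_lit 441) (nat_lit 242)) (XT.nd (nat_lit 78) (nat_lit 0) (nat_lit 76) (XT.lf (nat_lit 0) (nat_lit 2940242180) (nat_lit 1748) (nat_lit 1104228773) (nat_lit 1824) (nat_lit 12375868860) (nat_lit 391) (nat_lit 5) (nat_lit 414) (nat_lit 5) (nat_lit 415) (nat_lit 5) (nat_lit 458) (nat_lit 441) (nat_lit 241)) (XT.lf (nat_lit 0) (nat_lit 4045814064) (nat_lit 1748) (nat_lit 9453491699) (nat_lit 1824) (nat_lit 3091062916) (nat_lit 392) (nat_lit 5) (nat_lit 415) (nat_lit 5) (nat_lit 416) (nat_lit 5) (nat_lit 459) (nat_lit 441) (nat_lit 240)))) (XT.nd (nat_lit 78) (nat_lit 0) (nat_lit 76) (XT.lf (nat_lit 0) (nat_lit 5201227423) (nat_lit 1748) (nat_lit 1237701443)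 (nat_lit 1824) (nat_lit 10324317888) (nat_lit 392) (nat_lit 5) (nat_lit 415) (nat_lit 5) (nat_lit 416) (nat_lit 5) (nat_lit 460) (nat_lit 441) (nat_lit 239)) (XT.nd (nat_lit 78) (nat_lit 0) (nat_lit 0) (XT.lf (nat_lit 0) (nat_lit 6425592846) (nat_lit 1748) (nat_lit 9711681046) (nat_lit 1824) (nat_lit 801394790) (nat_lit 393) (nat_lit 5) (nat_lit 416) (nat_lit 5) (nat_lit 417) (nat_lit 5) (nat_lit 461) (nat_lit 441) (nat_lit 238)) (XT.lf (nat_lit 0) (nat_lit 7719165221) (nat_lit 1748) (nat_lit 1287381016) (nat_lit 1824) (nat_lit 8110161529) (nat_lit 393) (nat_lit 5) (nat_lit 416) (nat_lit 5) (nat_lit 417) (nat_lit 5) (nat_lit 462) (nat_lit 441) (nat_lit 237))))))) (XT.nd (nat_lit 780) (nat_lit 4788) (nat_lit 0) (XT.nd (nat_lit 390) (nat_lit 1976) (nat_lit 0) (XT.nd (nat_lit 156) (nat_lit 1596) (nat_lit 0) (XT.nd (nat_lit 78) (nat_lit 0) (nat_lit 76) (XT.lf (nat_lit 76) (nat_lit 7397523862) (nat_lit 0) (nat_lit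 1682955104) (nat_lit 1824) (nat_lit 8216994313) (nat_lit 394) (nat_lit 5) (nat_lit 393) (nat_lit 5) (nat_lit 417) (nat_lit 5) (nat_lit 463) (nat_lit 441) (nat_lit 236)) (XT.lf (nat_lit 0) (nat_lit 10509226206) (nat_lit 1748) (nat_lit 1250735615) (nat_lit 1824) (nat_lit 5721091123) (nat_lit 394) (nat_lit 5) (nat_lit 417) (nat_lit 5) (nat_lit 418) (nat_lit 5) (nat_lit 464) (nat_lit 441) (nat_lit 235))) (XT.nd (nat_lit 78) (nat_lit 1672) (nat_lit 0) (XT.lf (nat_lit 76) (nat_lit 7655821636) (nat_lit 0) (nat_lit 4365634964) (nat_lit 1824) (nat_lit 5645752368) (nat_lit 395) (nat_lit 5) (nat_lit 394) (nat_lit 5) (nat_lit 418) (nat_lit 5) (nat_lit 465) (nat_lit 441) (nat_lit 234)) (XT.nd (nat_lit 78) (nat_lit 1748) (nat_lit 0) (XT.lf (nat_lit 0) (nat_lit 13587152211) (nat_lit 1748) (nat_lit 1125133321) (nat_lit 76) (nat_lit 3144341037) (nat_lit 395) (nat_lit 5) (nat_lit 418) (nat_lit 5) (nat_lit 396) (nat_lit 5) (nat_lit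 466) (nat_lit 441) (nat_lit 233)) (XT.lf (nat_lit 0) (nat_lit 8010088902) (nat_lit 1748) (nat_lit 7249253366) (nat_lit 1824) (nat_lit 2788989460) (nat_lit 372) (nat_lit 5) (nat_lit 395) (nat_lit 5) (nat_lit 396) (nat_lit 5) (nat_lit 467) (nat_lit 441) (nat_lit 232))))) (XT.nd (nat_lit 156) (nat_lit 912) (nat_lit 0) (XT.nd (nat_lit 78) (nat_lit 1064) (nat_lit 0) (XT.lf (nat_lit 0) (nat_lit 16969281726) (nat_lit 1824) (nat_lit 907847958) (nat_lit 76) (nat_lit 366657952) (nat_lit 372) (nat_lit 5) (nat_lit 396) (nat_lit 5) (nat_lit 373) (nat_lit 5) (nat_lit 468) (nat_lit 441) (nat_lit 231)) (XT.lf (nat_lit 0) (nat_lit 364781619) (nat_lit 1064) (nat_lit 9980353448) (nat_lit 76) (nat_lit 8096023975) (nat_lit 358) (nat_lit 5) (nat_lit 372) (nat_lit 5) (nat_lit 359) (nat_lit 5) (nat_lit 469) (nat_lit 441) (nat_lit 230))) (XT.nd (nat_lit 78) (nat_lit 912) (nat_lit 0) (XT.lf (nat_lit 0) (nat_lit 2020435090) (nat_lit 1064)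 (nat_lit 626632159) (nat_lit 76) (nat_lit 15995231820) (nat_lit 358) (nat_lit 5) (nat_lit 372) (nat_lit 5) (nat_lit 359) (nat_lit 5) (nat_lit 470) (nat_lit 441) (nat_lit 229)) (XT.nd (nat_lit 78) (nat_lit 0) (nat_lit 0) (XT.lf (nat_lit 0) (nat_lit 3796606764) (nat_lit 988) (nat_lit 9852859047) (nat_lit 76) (nat_lit 5196250533) (nat_lit 346) (nat_lit 5) (nat_lit 359) (nat_lit 5) (nat_lit 347) (nat_lit 5) (nat_lit 471) (nat_lit 441) (nat_lit 228)) (XT.lf (nat_lit 0) (nat_lit 5624748205) (nat_lit 988) (nat_lit 262362617) (nat_lit 76) (nat_lit 13165764715) (nat_lit 346) (nat_lit 5) (nat_lit 359) (nat_lit 5) (nat_lit 347) (nat_lit 5) (nat_lit 472) (nat_lit 441) (nat_lit 227)))))) (XT.nd (nat_lit 390) (nat_lit 2356) (nat_lit 0) (XT.nd (nat_lit 156) (nat_lit 760) (nat_lit 0) (XT.nd (nat_lit 78) (nat_lit 836) (nat_lit 0) (XT.lf (nat_lit 0) (nat_lit 7560439832) (nat_lit 912) (nat_lit 9635059262) (nat_lit 76) (nat_lit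 2067261523) (nat_lit 335) (nat_lit 5) (nat_lit 347) (nat_lit 5) (nat_lit 336) (nat_lit 5) (nat_lit 473) (nat_lit 441) (nat_lit 226)) (XT.lf (nat_lit 0) (nat_lit 201055801) (nat_lit 836) (nat_lit 9370715473) (nat_lit 912) (nat_lit 9904336006) (nat_lit 324) (nat_lit 5) (nat_lit 335) (nat_lit 5) (nat_lit 336) (nat_lit 5) (nat_lit 474) (nat_lit 441) (nat_lit 225))) (XT.nd (nat_lit 78) (nat_lit 760) (nat_lit 0) (XT.lf (nat_lit 0) (nat_lit 10359634398) (nat_lit 836) (nat_lit 1323281309) (nat_lit 912) (nat_lit 8009615798) (nat_lit 324) (nat_lit 5) (nat_lit 335) (nat_lit 5) (nat_lit 336) (nat_lit 5) (nat_lit 475) (nat_lit 441) (nat_lit 224)) (XT.nd (nat_lit 78) (nat_lit 0) (nat_lit 0) (XT.lf (nat_lit 0) (nat_lit 768605932) (nat_lit 760) (nat_lit 13112400802) (nat_lit 836) (nat_lit 6031385316) (nat_lit 314) (nat_lit 5) (nat_lit 324) (nat_lit 5) (nat_lit 325) (nat_lit 5) (nat_lit 476) (nat_lit 441) (nat_lit 223)) (XT.lf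 (nat_lit 0) (nat_lit 11184928874) (nat_lit 760) (nat_lit 5004561928) (nat_lit 836) (nat_lit 3945832643) (nat_lit 314) (nat_lit 5) (nat_lit 324) (nat_lit 5) (nat_lit 325) (nat_lit 5) (nat_lit 477) (nat_lit 441) (nat_lit 222))))) (XT.nd (nat_lit 234) (nat_lit 760) (nat_lit 0) (XT.nd (nat_lit 78) (nat_lit 836) (nat_lit 0) (XT.lf (nat_lit 0) (nat_lit 1439701405) (nat_lit 760) (nat_lit 17130185318) (nat_lit 836) (nat_lit 1792314120) (nat_lit 304) (nat_lit 5) (nat_lit 314) (nat_lit 5) (nat_lit 315) (nat_lit 5) (nat_lit 478) (nat_lit 441) (nat_lit 221)) (XT.nd (nat_lit 78) (nat_lit 760) (nat_lit 0) (XT.lf (nat_lit 0) (nat_lit 487797806) (nat_lit 836) (nat_lit 8474533405) (nat_lit 76) (nat_lit 11629457712) (nat_lit 303) (nat_lit 5) (nat_lit 314) (nat_lit 5) (nat_lit 304) (nat_lit 5) (nat_lit 479) (nat_lit 441) (nat_lit 220)) (XT.lf (nat_lit 0) (nat_lit 2194521775) (nat_lit 760) (nat_lit 604578263) (nat_lit 836) (nat_lit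 18026442130) (nat_lit 293) (nat_lit 5) (nat_lit 303) (nat_lit 5) (nat_lit 304) (nat_lit 5) (nat_lit 480) (nat_lit 441) (nat_lit 219)))) (XT.nd (nat_lit 78) (nat_lit 760) (nat_lit 0) (XT.lf (nat_lit 0) (nat_lit 5260674130) (nat_lit 836) (nat_lit 7927645465) (nat_lit 76) (nat_lit 7873572017) (nat_lit 293) (nat_lit 5) (nat_lit 304) (nat_lit 5) (nat_lit 294) (nat_lit 5) (nat_lit 481) (nat_lit 441) (nat_lit 218)) (XT.nd (nat_lit 78) (nat_lit 0) (nat_lit 0) (XT.lf (nat_lit 0) (nat_lit 3020660320) (nat_lit 760) (nat_lit 4769902585) (nat_lit 836) (nat_lit 13512025485) (nat_lit 283) (nat_lit 5) (nat_lit 293) (nat_lit 5) (nat_lit 294) (nat_lit 5) (nat_lit 482) (nat_lit 441) (nat_lit 217)) (XT.lf (nat_lit 0) (nat_lit 10444906081) (nat_lit 836) (nat_lit 7281583582) (nat_lit 76) (nat_lit 3820134280) (nat_lit 283) (nat_lit 5) (nat_lit 294) (nat_lit 5) (nat_lit 284) (nat_lit 5) (nat_lit 483) (nat_lit 441) (nat_lit 216))))))))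
noncomputable def xc230 : XT := (XT.nd (nat_lit 56784) (nat_lit 0) (nat_lit 9804) (XT.nd (nat_lit 780) (nat_lit 684) (nat_lit 0) (XT.nd (nat_lit 390) (nat_lit 1292) (nat_lit 0) (XT.nd (nat_lit 156) (nat_lit 1444) (nat_lit 0) (XT.nd (nat_lit 78) (nat_lit 0) (nat_lit 0) (XT.lf (nat_lit 0) (nat_lit 3954327072) (nat_lit 684) (nat_lit 9250883593) (nat_lit 760) (nat_lit 8589273984) (nat_lit 274) (nat_lit 5) (nat_lit 283) (nat_lit 5) (nat_lit 284) (nat_lit 5) (nat_lit 484) (nat_lit 441) (nat_lit 215)) (XT.lf (nat_lit 0) (nat_lit 15508977058) (nat_lit 684) (nat_lit 556274856) (nat_lit 760) (nat_lit 5981161936) (nat_lit 274) (nat_lit 5) (nat_lit 283) (nat_lit 5) (nat_lit 284) (nat_lit 5) (nat_lit 485) (nat_lit 441) (nat_lit 214))) (XT.nd (nat_lit 78) (nat_lit 760) (nat_lit 0) (XT.lf (nat_lit 0) (nat_lit 4998247404) (nat_lit 684) (nat_lit 14066417050) (nat_lit 760) (nat_lit 3237075630) (nat_lit 265) (nat_lit 5) (nat_lit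 274) (nat_lit 5) (nat_lit 275) (nat_lit 5) (nat_lit 486) (nat_lit 441) (nat_lit 213)) (XT.nd (nat_lit 78) (nat_lit 760) (nat_lit 0) (XT.lf (nat_lit 0) (nat_lit 16844884394) (nat_lit 684) (nat_lit 5322513414) (nat_lit 760) (nat_lit 393910204) (nat_lit 265) (nat_lit 5) (nat_lit 274) (nat_lit 5) (nat_lit 275) (nat_lit 5) (nat_lit 487) (nat_lit 441) (nat_lit 212)) (XT.lf (nat_lit 0) (nat_lit 2532835786) (nat_lit 760) (nat_lit 16686420317) (nat_lit 76) (nat_lit 3605295809) (nat_lit 255) (nat_lit 5) (nat_lit 265) (nat_lit 5) (nat_lit 256) (nat_lit 5) (nat_lit 488) (nat_lit 441) (nat_lit 211))))) (XT.nd (nat_lit 156) (nat_lit 608) (nat_lit 0) (XT.nd (nat_lit 78) (nat_lit 684) (nat_lit 0) (XT.lf (nat_lit 0) (nat_lit 5582614692) (nat_lit 760) (nat_lit 4827799565) (nat_lit 76) (nat_lit 12681200622) (nat_lit 255) (nat_lit 5) (nat_lit 265) (nat_lit 5) (nat_lit 256) (nat_lit 5) (nat_lit 489) (nat_lit 441) (nat_lit 210))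 (XT.lf (nat_lit 0) (nat_lit 7359951602) (nat_lit 684) (nat_lit 1377208397) (nat_lit 760) (nat_lit 14625985374) (nat_lit 246) (nat_lit 5) (nat_lit 255) (nat_lit 5) (nat_lit 256) (nat_lit 5) (nat_lit 490) (nat_lit 441) (nat_lit 209))) (XT.nd (nat_lit 78) (nat_lit 608) (nat_lit 0) (XT.lf (nat_lit 0) (nat_lit 12034319308) (nat_lit 760) (nat_lit 3838270269) (nat_lit 76) (nat_lit 7765928086) (nat_lit 246) (nat_lit 5) (nat_lit 256) (nat_lit 5) (nat_lit 247) (nat_lit 5) (nat_lit 491) (nat_lit 441) (nat_lit 208)) (XT.nd (nat_lit 78) (nat_lit 0) (nat_lit 0) (XT.lf (nat_lit 0) (nat_lit 8670014161) (nat_lit 608) (nat_lit 6788928204) (nat_lit 684) (nat_lit 8459226240) (nat_lit 238) (nat_lit 5) (nat_lit 246) (nat_lit 5) (nat_lit 247) (nat_lit 5) (nat_lit 492) (nat_lit 441) (nat_lit 207)) (XT.lf (nat_lit 0) (nat_lit 18990215124) (nat_lit 684) (nat_lit 2743223651) (nat_lit 76) (nat_lit 2469212230) (nat_lit 238) (nat_lit 5)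 (nat_lit 247) (nat_lit 5) (nat_lit 239) (nat_lit 5) (nat_lit 493) (nat_lit 441) (nat_lit 206)))))) (XT.nd (nat_lit 55536) (nat_lit 0) (nat_lit 13604) (XT.nd (nat_lit 55302) (nat_lit 0) (nat_lit 13528) (XT.nd (nat_lit 78) (nat_lit 76) (nat_lit 0) (XT.lf (nat_lit 0) (nat_lit 10094759953) (nat_lit 608) (nat_lit 12604081890) (nat_lit 684) (nat_lit 1791848194) (nat_lit 230) (nat_lit 5) (nat_lit 238) (nat_lit 5) (nat_lit 239) (nat_lit 5) (nat_lit 494) (nat_lit 441) (nat_lit 205)) (XT.lf (nat_lit 0) (nat_lit 1689668919) (nat_lit 684) (nat_lit 1573076788) (nat_lit 76) (nat_lit 21521229734) (nat_lit 229) (nat_lit 5) (nat_lit 238) (nat_lit 5) (nat_lit 230) (nat_lit 5) (nat_lit 495) (nat_lit 441) (nat_lit 204))) (XT.nd (nat_lit 78) (nat_lit 0) (nat_lit 0) (XT.lf (nat_lit 0) (nat_lit 3417040690) (nat_lit 1748) (nat_lit 1829331070) (nat_lit 1748) (nat_lit 1829331070) (nat_lit 407) (nat_lit 3) (nat_lit 430) (nat_lit 3) (nat_lit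 430) (nat_lit 5) (nat_lit 442) (nat_lit 442) (nat_lit 256)) (XT.nd (nat_lit 78) (nat_lit 0) (nat_lit 76) (XT.lf (nat_lit 76) (nat_lit 3025528734) (nat_lit 0) (nat_lit 4222577077) (nat_lit 1748) (nat_lit 7037731031) (nat_lit 408) (nat_lit 5) (nat_lit 407) (nat_lit 3) (nat_lit 430) (nat_lit 5) (nat_lit 443) (nat_lit 442) (nat_lit 255)) (XT.lf (nat_lit 0) (nat_lit 7700679535) (nat_lit 1672) (nat_lit 4548364027) (nat_lit 1748) (nat_lit 2173312148) (nat_lit 408) (nat_lit 5) (nat_lit 430) (nat_lit 5) (nat_lit 431) (nat_lit 5) (nat_lit 444) (nat_lit 442) (nat_lit 254))))) (XT.nd (nat_lit 234) (nat_lit 0) (nat_lit 76) (XT.nd (nat_lit 78) (nat_lit 0) (nat_lit 76) (XT.lf (nat_lit 76) (nat_lit 2295425589) (nat_lit 0) (nat_lit 5901360528) (nat_lit 1748) (nat_lit 6364133560) (nat_lit 409) (nat_lit 5) (nat_lit 408) (nat_lit 5) (nat_lit 431) (nat_lit 5) (nat_lit 445) (nat_lit 442) (nat_lit 253)) (XT.nd (nat_lit 78) (nat_lit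 0) (nat_lit 0) (XT.lf (nat_lit 0) (nat_lit 8729034356) (nat_lit 1672) (nat_lit 5372521397) (nat_lit 1748) (nat_lit 600179045) (nat_lit 409) (nat_lit 5) (nat_lit 431) (nat_lit 5) (nat_lit 432) (nat_lit 5) (nat_lit 446) (nat_lit 442) (nat_lit 252)) (XT.lf (nat_lit 76) (nat_lit 1636080536) (nat_lit 0) (nat_lit 7677486095) (nat_lit 1748) (nat_lit 5530970993) (nat_lit 410) (nat_lit 5) (nat_lit 409) (nat_lit 5) (nat_lit 432) (nat_lit 5) (nat_lit 447) (nat_lit 442) (nat_lit 251)))) (XT.nd (nat_lit 78) (nat_lit 0) (nat_lit 76) (XT.lf (nat_lit 76) (nat_lit 8853104909) (nat_lit 0) (nat_lit 1084800218) (nat_lit 1748) (nat_lit 5051733168) (nat_lit 410) (nat_lit 5) (nat_lit 409) (nat_lit 5) (nat_lit 432) (nat_lit 5) (nat_lit 448) (nat_lit 442) (nat_lit 250)) (XT.nd (nat_lit 78) (nat_lit 0) (nat_lit 0) (XT.lf (nat_lit 76) (nat_lit 1049306842) (nat_lit 0) (nat_lit 9561093425) (nat_lit 1748) (nat_lit 4526531334) (nat_lit 411)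 (nat_lit 5) (nat_lit 410) (nat_lit 5) (nat_lit 433) (nat_lit 5) (nat_lit 449) (nat_lit 442) (nat_lit 249)) (XT.lf (nat_lit 76) (nat_lit 8450130458) (nat_lit 0) (nat_lit 2886893268) (nat_lit 1748) (nat_lit 3949337421) (nat_lit 411) (nat_lit 5) (nat_lit 410) (nat_lit 5) (nat_lit 433) (nat_lit 5) (nat_lit 450) (nat_lit 442) (nat_lit 248))))))) (XT.nd (nat_lit 780) (nat_lit 2432) (nat_lit 0) (XT.nd (nat_lit 390) (nat_lit 1596) (nat_lit 0) (XT.nd (nat_lit 156) (nat_lit 0) (nat_lit 76) (XT.nd (nat_lit 78) (nat_lit 0) (nat_lit 0) (XT.lf (nat_lit 76) (nat_lit 537060543) (nat_lit 0) (nat_lit 11562593509) (nat_lit 1748) (nat_lit 3338699607) (nat_lit 412) (nat_lit 5) (nat_lit 411) (nat_lit 5) (nat_lit 434) (nat_lit 5) (nat_lit 451) (nat_lit 442) (nat_lit 247)) (XT.lf (nat_lit 76) (nat_lit 8126424986) (nat_lit 0) (nat_lit 4808626514) (nat_lit 1748) (nat_lit 2657188020) (nat_lit 412) (nat_lit 5) (nat_lit 411) (nat_lit 5)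 (nat_lit 434) (nat_lit 5) (nat_lit 452) (nat_lit 442) (nat_lit 246))) (XT.nd (nat_lit 78) (nat_lit 0) (nat_lit 0) (XT.lf (nat_lit 76) (nat_lit 101436606) (nat_lit 0) (nat_lit 13692694582) (nat_lit 1748) (nat_lit 1954936136) (nat_lit 413) (nat_lit 5) (nat_lit 412) (nat_lit 5) (nat_lit 435) (nat_lit 5) (nat_lit 453) (nat_lit 442) (nat_lit 245)) (XT.nd (nat_lit 78) (nat_lit 0) (nat_lit 76) (XT.lf (nat_lit 76) (nat_lit 7884236845) (nat_lit 0) (nat_lit 6860809419) (nat_lit 1748) (nat_lit 1162495987) (nat_lit 413) (nat_lit 5) (nat_lit 412) (nat_lit 5) (nat_lit 435) (nat_lit 5) (nat_lit 454) (nat_lit 442) (nat_lit 244)) (XT.lf (nat_lit 0) (nat_lit 15708751364) (nat_lit 1672) (nat_lit 251986207) (nat_lit 1748) (nat_lit 108577239) (nat_lit 413) (nat_lit 5) (nat_lit 435) (nat_lit 5) (nat_lit 436) (nat_lit 5) (nat_lit 455) (nat_lit 442) (nat_lit 243))))) (XT.nd (nat_lit 156) (nat_lit 0) (nat_lit 76) (XT.nd (nat_lit 78)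 (nat_lit 0) (nat_lit 0) (XT.lf (nat_lit 0) (nat_lit 540799462) (nat_lit 1748) (nat_lit 8510156585) (nat_lit 1824) (nat_lit 7181522997) (nat_lit 390) (nat_lit 5) (nat_lit 413) (nat_lit 5) (nat_lit 414) (nat_lit 5) (nat_lit 456) (nat_lit 442) (nat_lit 242)) (XT.lf (nat_lit 0) (nat_lit 1450331747) (nat_lit 1748) (nat_lit 546499998) (nat_lit 1824) (nat_lit 14402131111) (nat_lit 390) (nat_lit 5) (nat_lit 413) (nat_lit 5) (nat_lit 414) (nat_lit 5) (nat_lit 457) (nat_lit 442) (nat_lit 241))) (XT.nd (nat_lit 78) (nat_lit 0) (nat_lit 0) (XT.lf (nat_lit 0) (nat_lit 2455358150) (nat_lit 1748) (nat_lit 8929622669) (nat_lit 1824) (nat_lit 5182252753) (nat_lit 391) (nat_lit 5) (nat_lit 414) (nat_lit 5) (nat_lit 415) (nat_lit 5) (nat_lit 458) (nat_lit 442) (nat_lit 240)) (XT.nd (nat_lit 78) (nat_lit 0) (nat_lit 76) (XT.lf (nat_lit 0) (nat_lit 3490907724) (nat_lit 1748) (nat_lit 764015376) (nat_lit 1824) (nat_lit 12483741385)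 (nat_lit 391) (nat_lit 5) (nat_lit 414) (nat_lit 5) (nat_lit 415) (nat_lit 5) (nat_lit 459) (nat_lit 442) (nat_lit 239)) (XT.lf (nat_lit 0) (nat_lit 4610474284) (nat_lit 1748) (nat_lit 9271906690) (nat_lit 1824) (nat_lit 3029880091) (nat_lit 392) (nat_lit 5) (nat_lit 415) (nat_lit 5) (nat_lit 416) (nat_lit 5) (nat_lit 460) (nat_lit 442) (nat_lit 238)))))) (XT.nd (nat_lit 390) (nat_lit 2584) (nat_lit 0) (XT.nd (nat_lit 156) (nat_lit 0) (nat_lit 76) (XT.nd (nat_lit 78) (nat_lit 0) (nat_lit 76) (XT.lf (nat_lit 0) (nat_lit 5779510734) (nat_lit 1748) (nat_lit 899068370) (nat_lit 1824) (nat_lit 10410212007) (nat_lit 392) (nat_lit 5) (nat_lit 415) (nat_lit 5) (nat_lit 416) (nat_lit 5) (nat_lit 461) (nat_lit 442) (nat_lit 237)) (XT.lf (nat_lit 0) (nat_lit 7020717888) (nat_lit 1748) (nat_lit 9534651202) (nat_lit 1824) (nat_lit 712509918) (nat_lit 393) (nat_lit 5) (nat_lit 416) (nat_lit 5) (nat_lit 417) (nat_lit 5) (nat_lit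 462) (nat_lit 442) (nat_lit 236))) (XT.nd (nat_lit 78) (nat_lit 0) (nat_lit 0) (XT.lf (nat_lit 0) (nat_lit 8331012432) (nat_lit 1748) (nat_lit 949144847) (nat_lit 1824) (nat_lit 8169509104) (nat_lit 393) (nat_lit 5) (nat_lit 416) (nat_lit 5) (nat_lit 417) (nat_lit 5) (nat_lit 463) (nat_lit 442) (nat_lit 235)) (XT.nd (nat_lit 78) (nat_lit 0) (nat_lit 76) (XT.lf (nat_lit 76) (nat_lit 7907063498) (nat_lit 0) (nat_lit 1805866750) (nat_lit 1824) (nat_lit 7921253840) (nat_lit 394) (nat_lit 5) (nat_lit 393) (nat_lit 5) (nat_lit 417) (nat_lit 5) (nat_lit 464) (nat_lit 442) (nat_lit 234)) (XT.lf (nat_lit 0) (nat_lit 11160844275) (nat_lit 1748) (nat_lit 911625521) (nat_lit 1824) (nat_lit 5749158063) (nat_lit 394) (nat_lit 5) (nat_lit 417) (nat_lit 5) (nat_lit 418) (nat_lit 5) (nat_lit 465) (nat_lit 442) (nat_lit 233))))) (XT.nd (nat_lit 234) (nat_lit 1064) (nat_lit 0) (XT.nd (nat_lit 78) (nat_lit 1672) (nat_lit 0) (XT.lf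 (nat_lit 76) (nat_lit 8170667317) (nat_lit 0) (nat_lit 4526344986) (nat_lit 1824) (nat_lit 5314625103) (nat_lit 395) (nat_lit 5) (nat_lit 394) (nat_lit 5) (nat_lit 418) (nat_lit 5) (nat_lit 466) (nat_lit 442) (nat_lit 232)) (XT.nd (nat_lit 78) (nat_lit 1748) (nat_lit 0) (XT.lf (nat_lit 0) (nat_lit 14285022733) (nat_lit 1748) (nat_lit 783791346) (nat_lit 76) (nat_lit 3136213443) (nat_lit 395) (nat_lit 5) (nat_lit 418) (nat_lit 5) (nat_lit 396) (nat_lit 5) (nat_lit 467) (nat_lit 442) (nat_lit 231)) (XT.lf (nat_lit 0) (nat_lit 8531741607) (nat_lit 1748) (nat_lit 7452906323) (nat_lit 1824) (nat_lit 2416043126) (nat_lit 372) (nat_lit 5) (nat_lit 395) (nat_lit 5) (nat_lit 396) (nat_lit 5) (nat_lit 468) (nat_lit 442) (nat_lit 230)))) (XT.nd (nat_lit 78) (nat_lit 1064) (nat_lit 0) (XT.lf (nat_lit 0) (nat_lit 17720175111) (nat_lit 1824) (nat_lit 562829286) (nat_lit 76) (nat_lit 317227925) (nat_lit 372) (nat_lit 5) (nat_lit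 396) (nat_lit 5) (nat_lit 373) (nat_lit 5) (nat_lit 469) (nat_lit 442) (nat_lit 229)) (XT.nd (nat_lit 78) (nat_lit 0) (nat_lit 0) (XT.lf (nat_lit 0) (nat_lit 780740370) (nat_lit 1064) (nat_lit 9813550171) (nat_lit 76) (nat_lit 8207325309) (nat_lit 358) (nat_lit 5) (nat_lit 372) (nat_lit 5) (nat_lit 359) (nat_lit 5) (nat_lit 470) (nat_lit 442) (nat_lit 228)) (XT.lf (nat_lit 0) (nat_lit 2461493908) (nat_lit 1064) (nat_lit 279938973) (nat_lit 76) (nat_lit 16265509843) (nat_lit 358) (nat_lit 5) (nat_lit 372) (nat_lit 5) (nat_lit 359) (nat_lit 5) (nat_lit 471) (nat_lit 442) (nat_lit 227))))))))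
noncomputable def xc231 : XT := (XT.nd (nat_lit 1638) (nat_lit 608) (nat_lit 0) (XT.nd (nat_lit 780) (nat_lit 3572) (nat_lit 0) (XT.nd (nat_lit 390) (nat_lit 2356) (nat_lit 0) (XT.nd (nat_lit 156) (nat_lit 836) (nat_lit 0) (XT.nd (nat_lit 78) (nat_lit 836) (nat_lit 0) (XT.lf (nat_lit 0) (nat_lit 4267401783) (nat_lit 988) (nat_lit 9684717554) (nat_lit 76) (nat_lit 5262428465) (nat_lit 346) (nat_lit 5) (nat_lit 359) (nat_lit 5) (nat_lit 347) (nat_lit 5) (nat_lit 472) (nat_lit 442) (nat_lit 226)) (XT.lf (nat_lit 0) (nat_lit 91629787) (nat_lit 836) (nat_lit 6033328778) (nat_lit 912) (nat_lit 13301038203) (nat_lit 335) (nat_lit 5) (nat_lit 346) (nat_lit 5) (nat_lit 347) (nat_lit 5) (nat_lit 473) (nat_lit 442) (nat_lit 225))) (XT.nd (nat_lit 78) (nat_lit 836) (nat_lit 0) (XT.lf (nat_lit 0) (nat_lit 8093318004) (nat_lit 912) (nat_lit 9464093028) (nat_lit 76) (nat_lit 2082793005) (nat_lit 335) (nat_lit 5) (nat_lit 347)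 (nat_lit 5) (nat_lit 336) (nat_lit 5) (nat_lit 474) (nat_lit 442) (nat_lit 224)) (XT.nd (nat_lit 78) (nat_lit 0) (nat_lit 0) (XT.lf (nat_lit 0) (nat_lit 566351787) (nat_lit 836) (nat_lit 9573386211) (nat_lit 912) (nat_lit 9718185895) (nat_lit 324) (nat_lit 5) (nat_lit 335) (nat_lit 5) (nat_lit 336) (nat_lit 5) (nat_lit 475) (nat_lit 442) (nat_lit 223)) (XT.lf (nat_lit 0) (nat_lit 10921018135) (nat_lit 836) (nat_lit 1364704218) (nat_lit 912) (nat_lit 7793105339) (nat_lit 324) (nat_lit 5) (nat_lit 335) (nat_lit 5) (nat_lit 336) (nat_lit 5) (nat_lit 476) (nat_lit 442) (nat_lit 222))))) (XT.nd (nat_lit 156) (nat_lit 1596) (nat_lit 0) (XT.nd (nat_lit 78) (nat_lit 0) (nat_lit 0) (XT.lf (nat_lit 0) (nat_lit 1143440112) (nat_lit 760) (nat_lit 13379335543) (nat_lit 836) (nat_lit 5780413146) (nat_lit 314) (nat_lit 5) (nat_lit 324) (nat_lit 5) (nat_lit 325) (nat_lit 5) (nat_lit 477) (nat_lit 442) (nat_lit 221)) (XT.lf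 (nat_lit 0) (nat_lit 11761041237) (nat_lit 760) (nat_lit 5109247995) (nat_lit 836) (nat_lit 3660435691) (nat_lit 314) (nat_lit 5) (nat_lit 324) (nat_lit 5) (nat_lit 325) (nat_lit 5) (nat_lit 478) (nat_lit 442) (nat_lit 220))) (XT.nd (nat_lit 78) (nat_lit 836) (nat_lit 0) (XT.lf (nat_lit 0) (nat_lit 1825877274) (nat_lit 760) (nat_lit 17467706740) (nat_lit 836) (nat_lit 1468653268) (nat_lit 304) (nat_lit 5) (nat_lit 314) (nat_lit 5) (nat_lit 315) (nat_lit 5) (nat_lit 479) (nat_lit 442) (nat_lit 219)) (XT.nd (nat_lit 78) (nat_lit 760) (nat_lit 0) (XT.lf (nat_lit 0) (nat_lit 845389188) (nat_lit 836) (nat_lit 8288871857) (nat_lit 76) (nat_lit 11862251636) (nat_lit 303) (nat_lit 5) (nat_lit 314) (nat_lit 5) (nat_lit 304) (nat_lit 5) (nat_lit 480) (nat_lit 442) (nat_lit 218)) (XT.lf (nat_lit 0) (nat_lit 2591227899) (nat_lit 760) (nat_lit 607159977) (nat_lit 836) (nat_lit 18036646752) (nat_lit 293) (nat_lit 5) (nat_lit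 303) (nat_lit 5) (nat_lit 304) (nat_lit 5) (nat_lit 481) (nat_lit 442) (nat_lit 217)))))) (XT.nd (nat_lit 390) (nat_lit 2128) (nat_lit 0) (XT.nd (nat_lit 156) (nat_lit 684) (nat_lit 0) (XT.nd (nat_lit 78) (nat_lit 760) (nat_lit 0) (XT.lf (nat_lit 0) (nat_lit 5702522496) (nat_lit 836) (nat_lit 7733480407) (nat_lit 76) (nat_lit 8040244563) (nat_lit 293) (nat_lit 5) (nat_lit 304) (nat_lit 5) (nat_lit 294) (nat_lit 5) (nat_lit 482) (nat_lit 442) (nat_lit 216)) (XT.lf (nat_lit 0) (nat_lit 3431470981) (nat_lit 760) (nat_lit 4847212395) (nat_lit 836) (nat_lit 13443164245) (nat_lit 283) (nat_lit 5) (nat_lit 293) (nat_lit 5) (nat_lit 294) (nat_lit 5) (nat_lit 483) (nat_lit 442) (nat_lit 215))) (XT.nd (nat_lit 78) (nat_lit 684) (nat_lit 0) (XT.lf (nat_lit 0) (nat_lit 10979712686) (nat_lit 836) (nat_lit 7077144125) (nat_lit 76) (nat_lit 3914037958) (nat_lit 283) (nat_lit 5) (nat_lit 294) (nat_lit 5) (nat_lit 284) (nat_lit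 5) (nat_lit 484) (nat_lit 442) (nat_lit 214)) (XT.nd (nat_lit 78) (nat_lit 0) (nat_lit 0) (XT.lf (nat_lit 0) (nat_lit 4381181643) (nat_lit 684) (nat_lit 9409909297) (nat_lit 760) (nat_lit 8432707210) (nat_lit 274) (nat_lit 5) (nat_lit 283) (nat_lit 5) (nat_lit 284) (nat_lit 5) (nat_lit 485) (nat_lit 442) (nat_lit 213)) (XT.lf (nat_lit 0) (nat_lit 16160105648) (nat_lit 684) (nat_lit 541918032) (nat_lit 760) (nat_lit 5778871201) (nat_lit 274) (nat_lit 5) (nat_lit 283) (nat_lit 5) (nat_lit 284) (nat_lit 5) (nat_lit 486) (nat_lit 442) (nat_lit 212))))) (XT.nd (nat_lit 234) (nat_lit 684) (nat_lit 0) (XT.nd (nat_lit 78) (nat_lit 760) (nat_lit 0) (XT.lf (nat_lit 0) (nat_lit 5443158786) (nat_lit 684) (nat_lit 14314481888) (nat_lit 760) (nat_lit 2983765346) (nat_lit 265) (nat_lit 5) (nat_lit 274) (nat_lit 5) (nat_lit 275) (nat_lit 5) (nat_lit 487) (nat_lit 442) (nat_lit 211)) (XT.nd (nat_lit 78) (nat_lit 760) (nat_lit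 0) (XT.lf (nat_lit 0) (nat_lit 17519964860) (nat_lit 684) (nat_lit 5396352404) (nat_lit 760) (nat_lit 89972921) (nat_lit 265) (nat_lit 5) (nat_lit 274) (nat_lit 5) (nat_lit 275) (nat_lit 5) (nat_lit 488) (nat_lit 442) (nat_lit 210)) (XT.lf (nat_lit 0) (nat_lit 2887628459) (nat_lit 760) (nat_lit 16674029048) (nat_lit 76) (nat_lit 3713175313) (nat_lit 255) (nat_lit 5) (nat_lit 265) (nat_lit 5) (nat_lit 256) (nat_lit 5) (nat_lit 489) (nat_lit 442) (nat_lit 209)))) (XT.nd (nat_lit 78) (nat_lit 684) (nat_lit 0) (XT.lf (nat_lit 0) (nat_lit 5992439493) (nat_lit 760) (nat_lit 4585022542) (nat_lit 76) (nat_lit 12969896780) (nat_lit 255) (nat_lit 5) (nat_lit 265) (nat_lit 5) (nat_lit 256) (nat_lit 5) (nat_lit 490) (nat_lit 442) (nat_lit 208)) (XT.nd (nat_lit 78) (nat_lit 0) (nat_lit 0) (XT.lf (nat_lit 0) (nat_lit 7844251194) (nat_lit 684) (nat_lit 1362166672) (nat_lit 760) (nat_lit 14617977658) (nat_lit 246) (nat_lit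 5) (nat_lit 255) (nat_lit 5) (nat_lit 256) (nat_lit 5) (nat_lit 491) (nat_lit 442) (nat_lit 207)) (XT.lf (nat_lit 0) (nat_lit 12564016639) (nat_lit 760) (nat_lit 3578921145) (nat_lit 76) (nat_lit 7962449952) (nat_lit 246) (nat_lit 5) (nat_lit 256) (nat_lit 5) (nat_lit 247) (nat_lit 5) (nat_lit 492) (nat_lit 442) (nat_lit 206))))))) (XT.nd (nat_lit 56082) (nat_lit 0) (nat_lit 11476) (XT.nd (nat_lit 55692) (nat_lit 0) (nat_lit 12920) (XT.nd (nat_lit 55458) (nat_lit 0) (nat_lit 12844) (XT.nd (nat_lit 78) (nat_lit 0) (nat_lit 0) (XT.lf (nat_lit 0) (nat_lit 9177317694) (nat_lit 608) (nat_lit 6876315504) (nat_lit 684) (nat_lit 8337070832) (nat_lit 238) (nat_lit 5) (nat_lit 246) (nat_lit 5) (nat_lit 247) (nat_lit 5) (nat_lit 493) (nat_lit 442) (nat_lit 205)) (XT.lf (nat_lit 0) (nat_lit 19650241165) (nat_lit 684) (nat_lit 2465326352) (nat_lit 76) (nat_lit 2565416675) (nat_lit 238) (nat_lit 5) (nat_lit 247) (nat_lit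 5) (nat_lit 239) (nat_lit 5) (nat_lit 494) (nat_lit 442) (nat_lit 204))) (XT.nd (nat_lit 78) (nat_lit 0) (nat_lit 0) (XT.lf (nat_lit 0) (nat_lit 3809304515) (nat_lit 1748) (nat_lit 1700632903) (nat_lit 1748) (nat_lit 1700632903) (nat_lit 407) (nat_lit 3) (nat_lit 430) (nat_lit 3) (nat_lit 430) (nat_lit 5) (nat_lit 443) (nat_lit 443) (nat_lit 254)) (XT.nd (nat_lit 78) (nat_lit 0) (nat_lit 76) (XT.lf (nat_lit 76) (nat_lit 3414434086) (nat_lit 0) (nat_lit 4615909159) (nat_lit 1748) (nat_lit 6528135211) (nat_lit 408) (nat_lit 5) (nat_lit 407) (nat_lit 3) (nat_lit 430) (nat_lit 5) (nat_lit 444) (nat_lit 443) (nat_lit 253)) (XT.lf (nat_lit 0) (nat_lit 8477506713) (nat_lit 1672) (nat_lit 4302590760) (nat_lit 1748) (nat_lit 1917925924) (nat_lit 408) (nat_lit 5) (nat_lit 430) (nat_lit 5) (nat_lit 431) (nat_lit 5) (nat_lit 445) (nat_lit 443) (nat_lit 252))))) (XT.nd (nat_lit 156) (nat_lit 0) (nat_lit 76) (XT.nd (nat_lit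 78) (nat_lit 0) (nat_lit 76) (XT.lf (nat_lit 76) (nat_lit 2675859250) (nat_lit 0) (nat_lit 6297636105) (nat_lit 1748) (nat_lit 5866070427) (nat_lit 409) (nat_lit 5) (nat_lit 408) (nat_lit 5) (nat_lit 431) (nat_lit 5) (nat_lit 446) (nat_lit 443) (nat_lit 251)) (XT.lf (nat_lit 0) (nat_lit 9502602242) (nat_lit 1672) (nat_lit 5137909070) (nat_lit 1748) (nat_lit 342967833) (nat_lit 409) (nat_lit 5) (nat_lit 431) (nat_lit 5) (nat_lit 432) (nat_lit 5) (nat_lit 447) (nat_lit 443) (nat_lit 250))) (XT.nd (nat_lit 78) (nat_lit 0) (nat_lit 0) (XT.lf (nat_lit 76) (nat_lit 2008614489) (nat_lit 0) (nat_lit 8080672113) (nat_lit 1748) (nat_lit 5040048286) (nat_lit 410) (nat_lit 5) (nat_lit 409) (nat_lit 5) (nat_lit 432) (nat_lit 5) (nat_lit 448) (nat_lit 443) (nat_lit 249)) (XT.nd (nat_lit 78) (nat_lit 0) (nat_lit 76) (XT.lf (nat_lit 76) (nat_lit 9363316362) (nat_lit 0) (nat_lit 1351237689) (nat_lit 1748) (nat_lit 4563020648)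 (nat_lit 410) (nat_lit 5) (nat_lit 409) (nat_lit 5) (nat_lit 432) (nat_lit 5) (nat_lit 449) (nat_lit 443) (nat_lit 248)) (XT.lf (nat_lit 76) (nat_lit 1414607491) (nat_lit 0) (nat_lit 9975238063) (nat_lit 1748) (nat_lit 4038187243) (nat_lit 411) (nat_lit 5) (nat_lit 410) (nat_lit 5) (nat_lit 433) (nat_lit 5) (nat_lit 450) (nat_lit 443) (nat_lit 247)))))) (XT.nd (nat_lit 390) (nat_lit 1596) (nat_lit 0) (XT.nd (nat_lit 156) (nat_lit 0) (nat_lit 76) (XT.nd (nat_lit 78) (nat_lit 0) (nat_lit 76) (XT.lf (nat_lit 76) (nat_lit 8956696314) (nat_lit 0) (nat_lit 3163182868) (nat_lit 1748) (nat_lit 3460799936) (nat_lit 411) (nat_lit 5) (nat_lit 410) (nat_lit 5) (nat_lit 433) (nat_lit 5) (nat_lit 451) (nat_lit 443) (nat_lit 246)) (XT.lf (nat_lit 76) (nat_lit 895888029) (nat_lit 0) (nat_lit 11991838718) (nat_lit 1748) (nat_lit 2848191067) (nat_lit 412) (nat_lit 5) (nat_lit 411) (nat_lit 5) (nat_lit 434) (nat_lit 5) (nat_lit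 452) (nat_lit 443) (nat_lit 245))) (XT.nd (nat_lit 78) (nat_lit 0) (nat_lit 76) (XT.lf (nat_lit 76) (nat_lit 8630214539) (nat_lit 0) (nat_lit 5098910161) (nat_lit 1748) (nat_lit 2163976357) (nat_lit 412) (nat_lit 5) (nat_lit 411) (nat_lit 5) (nat_lit 434) (nat_lit 5) (nat_lit 453) (nat_lit 443) (nat_lit 244)) (XT.nd (nat_lit 78) (nat_lit 0) (nat_lit 0) (XT.lf (nat_lit 76) (nat_lit 454644254) (nat_lit 0) (nat_lit 14141288734) (nat_lit 1748) (nat_lit 1457326898) (nat_lit 413) (nat_lit 5) (nat_lit 412) (nat_lit 5) (nat_lit 435) (nat_lit 5) (nat_lit 454) (nat_lit 443) (nat_lit 243)) (XT.lf (nat_lit 76) (nat_lit 8386214637) (nat_lit 0) (nat_lit 7169339588) (nat_lit 1748) (nat_lit 659561631) (nat_lit 413) (nat_lit 5) (nat_lit 412) (nat_lit 5) (nat_lit 435) (nat_lit 5) (nat_lit 455) (nat_lit 443) (nat_lit 242))))) (XT.nd (nat_lit 234) (nat_lit 0) (nat_lit 152) (XT.nd (nat_lit 78) (nat_lit 0) (nat_lit 76) (XT.lf (nat_lit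 76) (nat_lit 91862842) (nat_lit 0) (nat_lit 54150121) (nat_lit 1824) (nat_lit 16234301811) (nat_lit 390) (nat_lit 5) (nat_lit 389) (nat_lit 5) (nat_lit 413) (nat_lit 5) (nat_lit 456) (nat_lit 443) (nat_lit 241)) (XT.nd (nat_lit 78) (nat_lit 0) (nat_lit 0) (XT.lf (nat_lit 0) (nat_lit 1051924106) (nat_lit 1748) (nat_lit 8326754609) (nat_lit 1824) (nat_lit 7168193926) (nat_lit 390) (nat_lit 5) (nat_lit 413) (nat_lit 5) (nat_lit 414) (nat_lit 5) (nat_lit 457) (nat_lit 443) (nat_lit 240)) (XT.lf (nat_lit 0) (nat_lit 1969837064) (nat_lit 1748) (nat_lit 210758324) (nat_lit 1824) (nat_lit 14536291840) (nat_lit 390) (nat_lit 5) (nat_lit 413) (nat_lit 5) (nat_lit 414) (nat_lit 5) (nat_lit 458) (nat_lit 443) (nat_lit 239)))) (XT.nd (nat_lit 78) (nat_lit 0) (nat_lit 0) (XT.lf (nat_lit 0) (nat_lit 2986681686) (nat_lit 1748) (nat_lit 8753021032) (nat_lit 1824) (nat_lit 5148991090) (nat_lit 391) (nat_lit 5) (nat_lit 414) (nat_lit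 5) (nat_lit 415) (nat_lit 5) (nat_lit 459) (nat_lit 443) (nat_lit 238)) (XT.nd (nat_lit 78) (nat_lit 0) (nat_lit 76) (XT.lf (nat_lit 0) (nat_lit 4033487028) (nat_lit 1748) (nat_lit 431066183) (nat_lit 1824) (nat_lit 12599193940) (nat_lit 391) (nat_lit 5) (nat_lit 414) (nat_lit 5) (nat_lit 415) (nat_lit 5) (nat_lit 460) (nat_lit 443) (nat_lit 237)) (XT.lf (nat_lit 0) (nat_lit 5167643341) (nat_lit 1748) (nat_lit 9101082960) (nat_lit 1824) (nat_lit 2972250008) (nat_lit 392) (nat_lit 5) (nat_lit 415) (nat_lit 5) (nat_lit 416) (nat_lit 5) (nat_lit 461) (nat_lit 443) (nat_lit 236))))))))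
noncomputable def xc232 : XT := (XT.nd (nat_lit 1560) (nat_lit 4940) (nat_lit 0) (XT.nd (nat_lit 780) (nat_lit 4180) (nat_lit 0) (XT.nd (nat_lit 390) (nat_lit 2584) (nat_lit 0) (XT.nd (nat_lit 156) (nat_lit 0) (nat_lit 76) (XT.nd (nat_lit 78) (nat_lit 0) (nat_lit 76) (XT.lf (nat_lit 0) (nat_lit 6350943667) (nat_lit 1748) (nat_lit 567773401) (nat_lit 1824) (nat_lit 10502506753) (nat_lit 392) (nat_lit 5) (nat_lit 415) (nat_lit 5) (nat_lit 416) (nat_lit 5) (nat_lit 462) (nat_lit 443) (nat_lit 235)) (XT.lf (nat_lit 0) (nat_lit 7609626271) (nat_lit 1748) (nat_lit 9368497374) (nat_lit 1824) (nat_lit 625921239) (nat_lit 393) (nat_lit 5) (nat_lit 416) (nat_lit 5) (nat_lit 417) (nat_lit 5) (nat_lit 463) (nat_lit 443) (nat_lit 234))) (XT.nd (nat_lit 78) (nat_lit 0) (nat_lit 0) (XT.lf (nat_lit 0) (nat_lit 8937332706) (nat_lit 1748) (nat_lit 618277889) (nat_lit 1824) (nat_lit 8234037642) (nat_lit 393) (nat_lit 5) (nat_lit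 416) (nat_lit 5) (nat_lit 417) (nat_lit 5) (nat_lit 464) (nat_lit 443) (nat_lit 233)) (XT.nd (nat_lit 78) (nat_lit 0) (nat_lit 76) (XT.lf (nat_lit 76) (nat_lit 8412752979) (nat_lit 0) (nat_lit 1927770843) (nat_lit 1824) (nat_lit 7637464038) (nat_lit 394) (nat_lit 5) (nat_lit 393) (nat_lit 5) (nat_lit 417) (nat_lit 5) (nat_lit 465) (nat_lit 443) (nat_lit 232)) (XT.lf (nat_lit 0) (nat_lit 11808353303) (nat_lit 1748) (nat_lit 579872634) (nat_lit 1824) (nat_lit 5781139606) (nat_lit 394) (nat_lit 5) (nat_lit 417) (nat_lit 5) (nat_lit 418) (nat_lit 5) (nat_lit 466) (nat_lit 443) (nat_lit 231))))) (XT.nd (nat_lit 156) (nat_lit 2736) (nat_lit 0) (XT.nd (nat_lit 78) (nat_lit 0) (nat_lit 76) (XT.lf (nat_lit 76) (nat_lit 8681763525) (nat_lit 0) (nat_lit 4687419101) (nat_lit 1824) (nat_lit 4994117997) (nat_lit 395) (nat_lit 5) (nat_lit 394) (nat_lit 5) (nat_lit 418) (nat_lit 5) (nat_lit 467) (nat_lit 443) (nat_lit 230))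 (XT.lf (nat_lit 0) (nat_lit 14980303616) (nat_lit 1748) (nat_lit 449751063) (nat_lit 76) (nat_lit 3130680873) (nat_lit 395) (nat_lit 5) (nat_lit 418) (nat_lit 5) (nat_lit 396) (nat_lit 5) (nat_lit 468) (nat_lit 443) (nat_lit 229))) (XT.nd (nat_lit 78) (nat_lit 1064) (nat_lit 0) (XT.lf (nat_lit 0) (nat_lit 9049791785) (nat_lit 1748) (nat_lit 7658354193) (nat_lit 1824) (nat_lit 2052285823) (nat_lit 372) (nat_lit 5) (nat_lit 395) (nat_lit 5) (nat_lit 396) (nat_lit 5) (nat_lit 469) (nat_lit 443) (nat_lit 228)) (XT.nd (nat_lit 78) (nat_lit 1064) (nat_lit 0) (XT.lf (nat_lit 0) (nat_lit 18470107016) (nat_lit 1824) (nat_lit 225012793) (nat_lit 76) (nat_lit 269013481) (nat_lit 372) (nat_lit 5) (nat_lit 396) (nat_lit 5) (nat_lit 373) (nat_lit 5) (nat_lit 470) (nat_lit 443) (nat_lit 227)) (XT.lf (nat_lit 0) (nat_lit 1189149409) (nat_lit 1064) (nat_lit 9657638988) (nat_lit 76) (nat_lit 8322818273) (nat_lit 358) (nat_lit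 5) (nat_lit 372) (nat_lit 5) (nat_lit 359) (nat_lit 5) (nat_lit 471) (nat_lit 443) (nat_lit 226)))))) (XT.nd (nat_lit 390) (nat_lit 1596) (nat_lit 0) (XT.nd (nat_lit 156) (nat_lit 1672) (nat_lit 0) (XT.nd (nat_lit 78) (nat_lit 0) (nat_lit 0) (XT.lf (nat_lit 0) (nat_lit 60532798) (nat_lit 912) (nat_lit 2835676391) (nat_lit 988) (nat_lit 16482980710) (nat_lit 346) (nat_lit 5) (nat_lit 358) (nat_lit 5) (nat_lit 359) (nat_lit 5) (nat_lit 472) (nat_lit 443) (nat_lit 225)) (XT.lf (nat_lit 0) (nat_lit 4732279695) (nat_lit 988) (nat_lit 9527394341) (nat_lit 76) (nat_lit 5331395720) (nat_lit 346) (nat_lit 5) (nat_lit 359) (nat_lit 5) (nat_lit 347) (nat_lit 5) (nat_lit 473) (nat_lit 443) (nat_lit 224))) (XT.nd (nat_lit 78) (nat_lit 836) (nat_lit 0) (XT.lf (nat_lit 0) (nat_lit 442170621) (nat_lit 836) (nat_lit 6179639274) (nat_lit 912) (nat_lit 13185044858) (nat_lit 335) (nat_lit 5) (nat_lit 346) (nat_lit 5) (nat_lit 347)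 (nat_lit 5) (nat_lit 474) (nat_lit 443) (nat_lit 223)) (XT.nd (nat_lit 78) (nat_lit 836) (nat_lit 0) (XT.lf (nat_lit 0) (nat_lit 8622033052) (nat_lit 912) (nat_lit 9303829119) (nat_lit 76) (nat_lit 2099637496) (nat_lit 335) (nat_lit 5) (nat_lit 347) (nat_lit 5) (nat_lit 336) (nat_lit 5) (nat_lit 475) (nat_lit 443) (nat_lit 222)) (XT.lf (nat_lit 0) (nat_lit 924924949) (nat_lit 836) (nat_lit 9779517938) (nat_lit 912) (nat_lit 9543233167) (nat_lit 324) (nat_lit 5) (nat_lit 335) (nat_lit 5) (nat_lit 336) (nat_lit 5) (nat_lit 476) (nat_lit 443) (nat_lit 221))))) (XT.nd (nat_lit 156) (nat_lit 836) (nat_lit 0) (XT.nd (nat_lit 78) (nat_lit 760) (nat_lit 0) (XT.lf (nat_lit 0) (nat_lit 11479875877) (nat_lit 836) (nat_lit 1406374776) (nat_lit 912) (nat_lit 7586892499) (nat_lit 324) (nat_lit 5) (nat_lit 335) (nat_lit 5) (nat_lit 336) (nat_lit 5) (nat_lit 477) (nat_lit 443) (nat_lit 220)) (XT.lf (nat_lit 0) (nat_lit 1511812626)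 (nat_lit 760) (nat_lit 13651426988) (nat_lit 836) (nat_lit 5538851208) (nat_lit 314) (nat_lit 5) (nat_lit 324) (nat_lit 5) (nat_lit 325) (nat_lit 5) (nat_lit 478) (nat_lit 443) (nat_lit 219))) (XT.nd (nat_lit 78) (nat_lit 836) (nat_lit 0) (XT.lf (nat_lit 0) (nat_lit 12334991190) (nat_lit 760) (nat_lit 5215849361) (nat_lit 836) (nat_lit 3383477542) (nat_lit 314) (nat_lit 5) (nat_lit 324) (nat_lit 5) (nat_lit 325) (nat_lit 5) (nat_lit 479) (nat_lit 443) (nat_lit 218)) (XT.nd (nat_lit 78) (nat_lit 76) (nat_lit 0) (XT.lf (nat_lit 0) (nat_lit 2205899089) (nat_lit 760) (nat_lit 17812175943) (nat_lit 836) (nat_lit 1152479298) (nat_lit 304) (nat_lit 5) (nat_lit 314) (nat_lit 5) (nat_lit 315) (nat_lit 5) (nat_lit 480) (nat_lit 443) (nat_lit 217)) (XT.lf (nat_lit 0) (nat_lit 1196625524) (nat_lit 836) (nat_lit 8113288072) (nat_lit 76) (nat_lit 12099693487) (nat_lit 303) (nat_lit 5) (nat_lit 314) (nat_lit 5) (nat_lit 304)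 (nat_lit 5) (nat_lit 481) (nat_lit 443) (nat_lit 216))))))) (XT.nd (nat_lit 780) (nat_lit 1292) (nat_lit 0) (XT.nd (nat_lit 390) (nat_lit 1444) (nat_lit 0) (XT.nd (nat_lit 156) (nat_lit 1444) (nat_lit 0) (XT.nd (nat_lit 78) (nat_lit 0) (nat_lit 0) (XT.lf (nat_lit 0) (nat_lit 2982167881) (nat_lit 760) (nat_lit 610162605) (nat_lit 836) (nat_lit 18060658984) (nat_lit 293) (nat_lit 5) (nat_lit 303) (nat_lit 5) (nat_lit 304) (nat_lit 5) (nat_lit 482) (nat_lit 443) (nat_lit 215)) (XT.lf (nat_lit 0) (nat_lit 6140135887) (nat_lit 836) (nat_lit 7549128516) (nat_lit 76) (nat_lit 8209893269) (nat_lit 293) (nat_lit 5) (nat_lit 304) (nat_lit 5) (nat_lit 294) (nat_lit 5) (nat_lit 483) (nat_lit 443) (nat_lit 214))) (XT.nd (nat_lit 78) (nat_lit 684) (nat_lit 0) (XT.lf (nat_lit 0) (nat_lit 3836891495) (nat_lit 760) (nat_lit 4926770789) (nat_lit 836) (nat_lit 13386093514) (nat_lit 283) (nat_lit 5) (nat_lit 293) (nat_lit 5) (nat_lit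 294) (nat_lit 5) (nat_lit 484) (nat_lit 443) (nat_lit 213)) (XT.nd (nat_lit 78) (nat_lit 684) (nat_lit 0) (XT.lf (nat_lit 0) (nat_lit 11512560000) (nat_lit 836) (nat_lit 6882209568) (nat_lit 76) (nat_lit 4009140124) (nat_lit 283) (nat_lit 5) (nat_lit 294) (nat_lit 5) (nat_lit 284) (nat_lit 5) (nat_lit 485) (nat_lit 443) (nat_lit 212)) (XT.lf (nat_lit 0) (nat_lit 4803069049) (nat_lit 684) (nat_lit 9573124816) (nat_lit 760) (nat_lit 8285759419) (nat_lit 274) (nat_lit 5) (nat_lit 283) (nat_lit 5) (nat_lit 284) (nat_lit 5) (nat_lit 486) (nat_lit 443) (nat_lit 211))))) (XT.nd (nat_lit 156) (nat_lit 760) (nat_lit 0) (XT.nd (nat_lit 78) (nat_lit 684) (nat_lit 0) (XT.lf (nat_lit 0) (nat_lit 16811017342) (nat_lit 684) (nat_lit 528263582) (nat_lit 760) (nat_lit 5585034962) (nat_lit 274) (nat_lit 5) (nat_lit 283) (nat_lit 5) (nat_lit 284) (nat_lit 5) (nat_lit 487) (nat_lit 443) (nat_lit 210)) (XT.lf (nat_lit 0) (nat_lit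 5883573705) (nat_lit 684) (nat_lit 14568799684) (nat_lit 760) (nat_lit 2737739195) (nat_lit 265) (nat_lit 5) (nat_lit 274) (nat_lit 5) (nat_lit 275) (nat_lit 5) (nat_lit 488) (nat_lit 443) (nat_lit 209))) (XT.nd (nat_lit 78) (nat_lit 684) (nat_lit 0) (XT.lf (nat_lit 0) (nat_lit 205207827) (nat_lit 760) (nat_lit 5266349630) (nat_lit 76) (nat_lit 17988830005) (nat_lit 264) (nat_lit 5) (nat_lit 274) (nat_lit 5) (nat_lit 265) (nat_lit 5) (nat_lit 489) (nat_lit 443) (nat_lit 208)) (XT.nd (nat_lit 78) (nat_lit 0) (nat_lit 0) (XT.lf (nat_lit 0) (nat_lit 3237707016) (nat_lit 760) (nat_lit 16674830203) (nat_lit 76) (nat_lit 3821823275) (nat_lit 255) (nat_lit 5) (nat_lit 265) (nat_lit 5) (nat_lit 256) (nat_lit 5) (nat_lit 490) (nat_lit 443) (nat_lit 207)) (XT.lf (nat_lit 0) (nat_lit 6398882389) (nat_lit 760) (nat_lit 4350566693) (nat_lit 76) (nat_lit 13263004967) (nat_lit 255) (nat_lit 5) (nat_lit 265) (nat_lit 5) (nat_lit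 256) (nat_lit 5) (nat_lit 491) (nat_lit 443) (nat_lit 206)))))) (XT.nd (nat_lit 55770) (nat_lit 0) (nat_lit 12920) (XT.nd (nat_lit 156) (nat_lit 608) (nat_lit 0) (XT.nd (nat_lit 78) (nat_lit 0) (nat_lit 0) (XT.lf (nat_lit 0) (nat_lit 8325146753) (nat_lit 684) (nat_lit 1348477776) (nat_lit 760) (nat_lit 14621479633) (nat_lit 246) (nat_lit 5) (nat_lit 255) (nat_lit 5) (nat_lit 256) (nat_lit 5) (nat_lit 492) (nat_lit 443) (nat_lit 205)) (XT.lf (nat_lit 0) (nat_lit 13093085270) (nat_lit 760) (nat_lit 3327436775) (nat_lit 76) (nat_lit 8161302281) (nat_lit 246) (nat_lit 5) (nat_lit 256) (nat_lit 5) (nat_lit 247) (nat_lit 5) (nat_lit 493) (nat_lit 443) (nat_lit 204))) (XT.nd (nat_lit 55458) (nat_lit 0) (nat_lit 12844) (XT.lf (nat_lit 0) (nat_lit 9681801427) (nat_lit 608) (nat_lit 6967329642) (nat_lit 684) (nat_lit 8223785402) (nat_lit 238) (nat_lit 5) (nat_lit 246) (nat_lit 5) (nat_lit 247) (nat_lit 5) (nat_lit 494)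 (nat_lit 443) (nat_lit 203)) (XT.nd (nat_lit 78) (nat_lit 0) (nat_lit 0) (XT.lf (nat_lit 0) (nat_lit 4196835292) (nat_lit 1748) (nat_lit 1575778983) (nat_lit 1748) (nat_lit 1575778983) (nat_lit 407) (nat_lit 3) (nat_lit 430) (nat_lit 3) (nat_lit 430) (nat_lit 5) (nat_lit 444) (nat_lit 444) (nat_lit 252)) (XT.lf (nat_lit 76) (nat_lit 3798365575) (nat_lit 0) (nat_lit 5005113674) (nat_lit 1748) (nat_lit 6033601375) (nat_lit 408) (nat_lit 5) (nat_lit 407) (nat_lit 3) (nat_lit 430) (nat_lit 5) (nat_lit 445) (nat_lit 444) (nat_lit 251))))) (XT.nd (nat_lit 234) (nat_lit 0) (nat_lit 76) (XT.nd (nat_lit 78) (nat_lit 0) (nat_lit 0) (XT.lf (nat_lit 0) (nat_lit 9245685824) (nat_lit 1672) (nat_lit 4064978074) (nat_lit 1748) (nat_lit 1669036781) (nat_lit 408) (nat_lit 5) (nat_lit 430) (nat_lit 5) (nat_lit 431) (nat_lit 5) (nat_lit 446) (nat_lit 444) (nat_lit 250)) (XT.nd (nat_lit 78) (nat_lit 0) (nat_lit 76) (XT.lf (nat_lit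 76) (nat_lit 3050911564) (nat_lit 0) (nat_lit 6691032471) (nat_lit 1748) (nat_lit 5382328971) (nat_lit 409) (nat_lit 5) (nat_lit 408) (nat_lit 5) (nat_lit 431) (nat_lit 5) (nat_lit 447) (nat_lit 444) (nat_lit 249)) (XT.lf (nat_lit 0) (nat_lit 10268382083) (nat_lit 1672) (nat_lit 4911887210) (nat_lit 1748) (nat_lit 91066334) (nat_lit 409) (nat_lit 5) (nat_lit 431) (nat_lit 5) (nat_lit 432) (nat_lit 5) (nat_lit 448) (nat_lit 444) (nat_lit 248)))) (XT.nd (nat_lit 78) (nat_lit 0) (nat_lit 0) (XT.lf (nat_lit 76) (nat_lit 2375403794) (nat_lit 0) (nat_lit 8482228170) (nat_lit 1748) (nat_lit 4562665738) (nat_lit 410) (nat_lit 5) (nat_lit 409) (nat_lit 5) (nat_lit 432) (nat_lit 5) (nat_lit 449) (nat_lit 444) (nat_lit 247)) (XT.nd (nat_lit 78) (nat_lit 0) (nat_lit 76) (XT.lf (nat_lit 76) (nat_lit 9870795450) (nat_lit 0) (nat_lit 1613500300) (nat_lit 1748) (nat_lit 4087434479) (nat_lit 410) (nat_lit 5) (nat_lit 409) (nat_lit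 5) (nat_lit 432) (nat_lit 5) (nat_lit 450) (nat_lit 444) (nat_lit 246)) (XT.lf (nat_lit 76) (nat_lit 1773844001) (nat_lit 0) (nat_lit 10389009230) (nat_lit 1748) (nat_lit 3562554681) (nat_lit 411) (nat_lit 5) (nat_lit 410) (nat_lit 5) (nat_lit 433) (nat_lit 5) (nat_lit 451) (nat_lit 444) (nat_lit 245))))))))
noncomputable def xc233 : XT := (XT.nd (nat_lit 1638) (nat_lit 8512) (nat_lit 0) (XT.nd (nat_lit 780) (nat_lit 2356) (nat_lit 0) (XT.nd (nat_lit 390) (nat_lit 1596) (nat_lit 0) (XT.nd (nat_lit 156) (nat_lit 0) (nat_lit 76) (XT.nd (nat_lit 78) (nat_lit 0) (nat_lit 76) (XT.lf (nat_lit 76) (nat_lit 9460285495) (nat_lit 0) (nat_lit 3436511629) (nat_lit 1748) (nat_lit 2984529359) (nat_lit 411) (nat_lit 5) (nat_lit 410) (nat_lit 5) (nat_lit 433) (nat_lit 5) (nat_lit 452) (nat_lit 444) (nat_lit 244)) (XT.lf (nat_lit 76) (nat_lit 1248375450) (nat_lit 0) (nat_lit 12421980509) (nat_lit 1748) (nat_lit 2369512317) (nat_lit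 412) (nat_lit 5) (nat_lit 411) (nat_lit 5) (nat_lit 434) (nat_lit 5) (nat_lit 453) (nat_lit 444) (nat_lit 243))) (XT.nd (nat_lit 78) (nat_lit 0) (nat_lit 76) (XT.lf (nat_lit 76) (nat_lit 9130828300) (nat_lit 0) (nat_lit 5387461910) (nat_lit 1748) (nat_lit 1682116108) (nat_lit 412) (nat_lit 5) (nat_lit 411) (nat_lit 5) (nat_lit 434) (nat_lit 5) (nat_lit 454) (nat_lit 444) (nat_lit 242)) (XT.nd (nat_lit 78) (nat_lit 0) (nat_lit 0) (XT.lf (nat_lit 76) (nat_lit 801279350) (nat_lit 0) (nat_lit 14592069392) (nat_lit 1748) (nat_lit 970606498) (nat_lit 413) (nat_lit 5) (nat_lit 412) (nat_lit 5) (nat_lit 435) (nat_lit 5) (nat_lit 455) (nat_lit 444) (nat_lit 241)) (XT.lf (nat_lit 76) (nat_lit 8884862666) (nat_lit 0) (nat_lit 7477388030) (nat_lit 1748) (nat_lit 167000964) (nat_lit 413) (nat_lit 5) (nat_lit 412) (nat_lit 5) (nat_lit 435) (nat_lit 5) (nat_lit 456) (nat_lit 444) (nat_lit 240))))) (XT.nd (nat_lit 156) (nat_lit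 0) (nat_lit 76) (XT.nd (nat_lit 78) (nat_lit 0) (nat_lit 76) (XT.lf (nat_lit 76) (nat_lit 429284259) (nat_lit 0) (nat_lit 211160025) (nat_lit 1824) (nat_lit 16057401653) (nat_lit 390) (nat_lit 5) (nat_lit 389) (nat_lit 5) (nat_lit 413) (nat_lit 5) (nat_lit 457) (nat_lit 444) (nat_lit 239)) (XT.lf (nat_lit 0) (nat_lit 1553843649) (nat_lit 1748) (nat_lit 8153415512) (nat_lit 1824) (nat_lit 7160693204) (nat_lit 390) (nat_lit 5) (nat_lit 413) (nat_lit 5) (nat_lit 414) (nat_lit 5) (nat_lit 458) (nat_lit 444) (nat_lit 238))) (XT.nd (nat_lit 78) (nat_lit 0) (nat_lit 76) (XT.lf (nat_lit 76) (nat_lit 119807799) (nat_lit 0) (nat_lit 2361655898) (nat_lit 1824) (nat_lit 14560081278) (nat_lit 391) (nat_lit 5) (nat_lit 390) (nat_lit 5) (nat_lit 414) (nat_lit 5) (nat_lit 459) (nat_lit 444) (nat_lit 237)) (XT.nd (nat_lit 78) (nat_lit 0) (nat_lit 0) (XT.lf (nat_lit 0) (nat_lit 3509906644) (nat_lit 1748) (nat_lit 8586679981)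 (nat_lit 1824) (nat_lit 5120380449) (nat_lit 391) (nat_lit 5) (nat_lit 414) (nat_lit 5) (nat_lit 415) (nat_lit 5) (nat_lit 460) (nat_lit 444) (nat_lit 236)) (XT.lf (nat_lit 0) (nat_lit 4568560027) (nat_lit 1748) (nat_lit 104980181) (nat_lit 1824) (nat_lit 12722167561) (nat_lit 391) (nat_lit 5) (nat_lit 414) (nat_lit 5) (nat_lit 415) (nat_lit 5) (nat_lit 461) (nat_lit 444) (nat_lit 235)))))) (XT.nd (nat_lit 390) (nat_lit 2584) (nat_lit 0) (XT.nd (nat_lit 156) (nat_lit 0) (nat_lit 76) (XT.nd (nat_lit 78) (nat_lit 0) (nat_lit 0) (XT.lf (nat_lit 0) (nat_lit 5717900833) (nat_lit 1748) (nat_lit 8940676838) (nat_lit 1824) (nat_lit 2918058249) (nat_lit 392) (nat_lit 5) (nat_lit 415) (nat_lit 5) (nat_lit 416) (nat_lit 5) (nat_lit 462) (nat_lit 444) (nat_lit 234)) (XT.lf (nat_lit 0) (nat_lit 6916104330) (nat_lit 1748) (nat_lit 243415358) (nat_lit 1824) (nat_lit 10601148300) (nat_lit 392) (nat_lit 5) (nat_lit 415) (nat_lit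 5) (nat_lit 416) (nat_lit 5) (nat_lit 463) (nat_lit 444) (nat_lit 233))) (XT.nd (nat_lit 78) (nat_lit 0) (nat_lit 0) (XT.lf (nat_lit 0) (nat_lit 8192897253) (nat_lit 1748) (nat_lit 9212877268) (nat_lit 1824) (nat_lit 541516482) (nat_lit 393) (nat_lit 5) (nat_lit 416) (nat_lit 5) (nat_lit 417) (nat_lit 5) (nat_lit 464) (nat_lit 444) (nat_lit 232)) (XT.nd (nat_lit 78) (nat_lit 0) (nat_lit 0) (XT.lf (nat_lit 0) (nat_lit 9538705298) (nat_lit 1748) (nat_lit 294378689) (nat_lit 1824) (nat_lit 8303695668) (nat_lit 393) (nat_lit 5) (nat_lit 416) (nat_lit 5) (nat_lit 417) (nat_lit 5) (nat_lit 465) (nat_lit 444) (nat_lit 231)) (XT.lf (nat_lit 76) (nat_lit 8915060529) (nat_lit 0) (nat_lit 2048781814) (nat_lit 1824) (nat_lit 7365170182) (nat_lit 394) (nat_lit 5) (nat_lit 393) (nat_lit 5) (nat_lit 417) (nat_lit 5) (nat_lit 466) (nat_lit 444) (nat_lit 230))))) (XT.nd (nat_lit 234) (nat_lit 2736) (nat_lit 0) (XT.nd (nat_lit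 78) (nat_lit 0) (nat_lit 0) (XT.lf (nat_lit 0) (nat_lit 12452336731) (nat_lit 1748) (nat_lit 255075050) (nat_lit 1824) (nat_lit 5816983835) (nat_lit 394) (nat_lit 5) (nat_lit 417) (nat_lit 5) (nat_lit 418) (nat_lit 5) (nat_lit 467) (nat_lit 444) (nat_lit 229)) (XT.nd (nat_lit 78) (nat_lit 0) (nat_lit 76) (XT.lf (nat_lit 76) (nat_lit 9189580707) (nat_lit 0) (nat_lit 4848975263) (nat_lit 1824) (nat_lit 4683773897) (nat_lit 395) (nat_lit 5) (nat_lit 394) (nat_lit 5) (nat_lit 418) (nat_lit 5) (nat_lit 468) (nat_lit 444) (nat_lit 228)) (XT.lf (nat_lit 0) (nat_lit 15673585610) (nat_lit 1748) (nat_lit 122609877) (nat_lit 76) (nat_lit 3127688147) (nat_lit 395) (nat_lit 5) (nat_lit 418) (nat_lit 5) (nat_lit 396) (nat_lit 5) (nat_lit 469) (nat_lit 444) (nat_lit 227)))) (XT.nd (nat_lit 78) (nat_lit 1064) (nat_lit 0) (XT.lf (nat_lit 0) (nat_lit 9564712406) (nat_lit 1748) (nat_lit 7865721339) (nat_lit 1824) (nat_lit 1697254872)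 (nat_lit 372) (nat_lit 5) (nat_lit 395) (nat_lit 5) (nat_lit 396) (nat_lit 5) (nat_lit 470) (nat_lit 444) (nat_lit 226)) (XT.nd (nat_lit 78) (nat_lit 76) (nat_lit 0) (XT.lf (nat_lit 0) (nat_lit 107413848) (nat_lit 988) (nat_lit 19112962262) (nat_lit 1064) (nat_lit 115236894) (nat_lit 359) (nat_lit 5) (nat_lit 372) (nat_lit 5) (nat_lit 373) (nat_lit 5) (nat_lit 471) (nat_lit 444) (nat_lit 225)) (XT.lf (nat_lit 0) (nat_lit 1590473950) (nat_lit 1064) (nat_lit 9512285245) (nat_lit 76) (nat_lit 8442510373) (nat_lit 358) (nat_lit 5) (nat_lit 372) (nat_lit 5) (nat_lit 359) (nat_lit 5) (nat_lit 472) (nat_lit 444) (nat_lit 224))))))) (XT.nd (nat_lit 780) (nat_lit 4332) (nat_lit 0) (XT.nd (nat_lit 390) (nat_lit 1596) (nat_lit 0) (XT.nd (nat_lit 156) (nat_lit 1672) (nat_lit 0) (XT.nd (nat_lit 78) (nat_lit 0) (nat_lit 0) (XT.lf (nat_lit 0) (nat_lit 398022960) (nat_lit 912) (nat_lit 2928432540) (nat_lit 988) (nat_lit 16432696848)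 (nat_lit 346) (nat_lit 5) (nat_lit 358) (nat_lit 5) (nat_lit 359) (nat_lit 5) (nat_lit 473) (nat_lit 444) (nat_lit 223)) (XT.lf (nat_lit 0) (nat_lit 5191717558) (nat_lit 988) (nat_lit 9380555103) (nat_lit 76) (nat_lit 5403151168) (nat_lit 346) (nat_lit 5) (nat_lit 359) (nat_lit 5) (nat_lit 347) (nat_lit 5) (nat_lit 474) (nat_lit 444) (nat_lit 222))) (XT.nd (nat_lit 78) (nat_lit 836) (nat_lit 0) (XT.lf (nat_lit 0) (nat_lit 786181506) (nat_lit 836) (nat_lit 6327880196) (nat_lit 912) (nat_lit 13081565720) (nat_lit 335) (nat_lit 5) (nat_lit 346) (nat_lit 5) (nat_lit 347) (nat_lit 5) (nat_lit 475) (nat_lit 444) (nat_lit 221)) (XT.nd (nat_lit 78) (nat_lit 836) (nat_lit 0) (XT.lf (nat_lit 0) (nat_lit 9147077220) (nat_lit 912) (nat_lit 9153933220) (nat_lit 76) (nat_lit 2117782333) (nat_lit 335) (nat_lit 5) (nat_lit 347) (nat_lit 5) (nat_lit 336) (nat_lit 5) (nat_lit 476) (nat_lit 444) (nat_lit 220)) (XT.lf (nat_lit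 0) (nat_lit 1277185585) (nat_lit 836) (nat_lit 9989202879) (nat_lit 912) (nat_lit 9379122393) (nat_lit 324) (nat_lit 5) (nat_lit 335) (nat_lit 5) (nat_lit 336) (nat_lit 5) (nat_lit 477) (nat_lit 444) (nat_lit 219))))) (XT.nd (nat_lit 156) (nat_lit 836) (nat_lit 0) (XT.nd (nat_lit 78) (nat_lit 760) (nat_lit 0) (XT.lf (nat_lit 0) (nat_lit 12036691175) (nat_lit 836) (nat_lit 1448320489) (nat_lit 912) (nat_lit 7390615214) (nat_lit 324) (nat_lit 5) (nat_lit 335) (nat_lit 5) (nat_lit 336) (nat_lit 5) (nat_lit 478) (nat_lit 444) (nat_lit 218)) (XT.lf (nat_lit 0) (nat_lit 1874136259) (nat_lit 760) (nat_lit 13928785338) (nat_lit 836) (nat_lit 5306327385) (nat_lit 314) (nat_lit 5) (nat_lit 324) (nat_lit 5) (nat_lit 325) (nat_lit 5) (nat_lit 479) (nat_lit 444) (nat_lit 217))) (XT.nd (nat_lit 78) (nat_lit 836) (nat_lit 0) (XT.lf (nat_lit 0) (nat_lit 12907266878) (nat_lit 760) (nat_lit 5324411260) (nat_lit 836) (nat_lit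 3114577635) (nat_lit 314) (nat_lit 5) (nat_lit 324) (nat_lit 5) (nat_lit 325) (nat_lit 5) (nat_lit 480) (nat_lit 444) (nat_lit 216)) (XT.nd (nat_lit 78) (nat_lit 76) (nat_lit 0) (XT.lf (nat_lit 0) (nat_lit 2580182650) (nat_lit 760) (nat_lit 18163724217) (nat_lit 836) (nat_lit 843399862) (nat_lit 304) (nat_lit 5) (nat_lit 314) (nat_lit 5) (nat_lit 315) (nat_lit 5) (nat_lit 481) (nat_lit 444) (nat_lit 215)) (XT.lf (nat_lit 0) (nat_lit 1541904202) (nat_lit 836) (nat_lit 7947448084) (nat_lit 76) (nat_lit 12341876532) (nat_lit 303) (nat_lit 5) (nat_lit 314) (nat_lit 5) (nat_lit 304) (nat_lit 5) (nat_lit 482) (nat_lit 444) (nat_lit 214)))))) (XT.nd (nat_lit 390) (nat_lit 2128) (nat_lit 0) (XT.nd (nat_lit 156) (nat_lit 1444) (nat_lit 0) (XT.nd (nat_lit 78) (nat_lit 0) (nat_lit 0) (XT.lf (nat_lit 0) (nat_lit 3367758398) (nat_lit 760) (nat_lit 613580225) (nat_lit 836) (nat_lit 18098226735) (nat_lit 293) (nat_lit 5) (nat_lit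 303) (nat_lit 5) (nat_lit 304) (nat_lit 5) (nat_lit 483) (nat_lit 444) (nat_lit 213)) (XT.lf (nat_lit 0) (nat_lit 6573937202) (nat_lit 836) (nat_lit 7374254206) (nat_lit 76) (nat_lit 8382591534) (nat_lit 293) (nat_lit 5) (nat_lit 304) (nat_lit 5) (nat_lit 294) (nat_lit 5) (nat_lit 484) (nat_lit 444) (nat_lit 212))) (XT.nd (nat_lit 78) (nat_lit 684) (nat_lit 0) (XT.lf (nat_lit 0) (nat_lit 4237342410) (nat_lit 760) (nat_lit 5008595465) (nat_lit 836) (nat_lit 13340537784) (nat_lit 283) (nat_lit 5) (nat_lit 293) (nat_lit 5) (nat_lit 294) (nat_lit 5) (nat_lit 485) (nat_lit 444) (nat_lit 211)) (XT.nd (nat_lit 78) (nat_lit 684) (nat_lit 0) (XT.lf (nat_lit 0) (nat_lit 12043900262) (nat_lit 836) (nat_lit 6696442148) (nat_lit 76) (nat_lit 4105491137) (nat_lit 283) (nat_lit 5) (nat_lit 294) (nat_lit 5) (nat_lit 284) (nat_lit 5) (nat_lit 486) (nat_lit 444) (nat_lit 210)) (XT.lf (nat_lit 0) (nat_lit 5220414333) (nat_lit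 684) (nat_lit 9740574752) (nat_lit 760) (nat_lit 8148127880) (nat_lit 274) (nat_lit 5) (nat_lit 283) (nat_lit 5) (nat_lit 284) (nat_lit 5) (nat_lit 487) (nat_lit 444) (nat_lit 209))))) (XT.nd (nat_lit 234) (nat_lit 1368) (nat_lit 0) (XT.nd (nat_lit 78) (nat_lit 760) (nat_lit 0) (XT.lf (nat_lit 0) (nat_lit 17462221908) (nat_lit 684) (nat_lit 515287127) (nat_lit 760) (nat_lit 5399336909) (nat_lit 274) (nat_lit 5) (nat_lit 283) (nat_lit 5) (nat_lit 284) (nat_lit 5) (nat_lit 488) (nat_lit 444) (nat_lit 208)) (XT.nd (nat_lit 78) (nat_lit 76) (nat_lit 0) (XT.lf (nat_lit 0) (nat_lit 6319922364) (nat_lit 684) (nat_lit 14829445343) (nat_lit 760) (nat_lit 2498663281) (nat_lit 265) (nat_lit 5) (nat_lit 274) (nat_lit 5) (nat_lit 275) (nat_lit 5) (nat_lit 489) (nat_lit 444) (nat_lit 207)) (XT.lf (nat_lit 0) (nat_lit 493603215) (nat_lit 760) (nat_lit 5055349868) (nat_lit 76) (nat_lit 18374836243) (nat_lit 264) (nat_lit 5)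 (nat_lit 274) (nat_lit 5) (nat_lit 265) (nat_lit 5) (nat_lit 490) (nat_lit 444) (nat_lit 206)))) (XT.nd (nat_lit 78) (nat_lit 684) (nat_lit 0) (XT.lf (nat_lit 0) (nat_lit 3583435770) (nat_lit 760) (nat_lit 16688565729) (nat_lit 76) (nat_lit 3931309007) (nat_lit 255) (nat_lit 5) (nat_lit 265) (nat_lit 5) (nat_lit 256) (nat_lit 5) (nat_lit 491) (nat_lit 444) (nat_lit 205)) (XT.nd (nat_lit 78) (nat_lit 684) (nat_lit 0) (XT.lf (nat_lit 0) (nat_lit 6802325344) (nat_lit 760) (nat_lit 4124086774) (nat_lit 76) (nat_lit 13560666307) (nat_lit 255) (nat_lit 5) (nat_lit 265) (nat_lit 5) (nat_lit 256) (nat_lit 5) (nat_lit 492) (nat_lit 444) (nat_lit 204)) (XT.lf (nat_lit 0) (nat_lit 8803078499) (nat_lit 684) (nat_lit 1336104550) (nat_lit 760) (nat_lit 14636268340) (nat_lit 246) (nat_lit 5) (nat_lit 255) (nat_lit 5) (nat_lit 256) (nat_lit 5) (nat_lit 493) (nat_lit 444) (nat_lit 203))))))))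
noncomputable def xc234 : XT := (XT.nd (nat_lit 57096) (nat_lit 0) (nat_lit 3572) (XT.nd (nat_lit 56238) (nat_lit 0) (nat_lit 10868) (XT.nd (nat_lit 55848) (nat_lit 0) (nat_lit 12312) (XT.nd (nat_lit 55614) (nat_lit 0) (nat_lit 12236) (XT.nd (nat_lit 55536) (nat_lit 0) (nat_lit 12236) (XT.lf (nat_lit 0) (nat_lit 13621948416) (nat_lit 760) (nat_lit 3083467640) (nat_lit 76) (nat_lit 8362593811) (nat_lit 246) (nat_lit 5) (nat_lit 256) (nat_lit 5) (nat_lit 247) (nat_lit 5) (nat_lit 494) (nat_lit 444) (nat_lit 202)) (XT.lf (nat_lit 0) (nat_lit 4580026790) (nat_lit 1748) (nat_lit 1454596967) (nat_lit 1748) (nat_lit 1454596967) (nat_lit 407) (nat_lit 3) (nat_lit 430) (nat_lit 3) (nat_lit 430) (nat_lit 5) (nat_lit 445) (nat_lit 445) (nat_lit 250))) (XT.nd (nat_lit 78) (nat_lit 0) (nat_lit 76) (XT.lf (nat_lit 76) (nat_lit 4177718900) (nat_lit 0) (nat_lit 5390573821) (nat_lit 1748) (nat_lit 5553450122) (nat_lit 408) (nat_lit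 5) (nat_lit 407) (nat_lit 3) (nat_lit 430) (nat_lit 5) (nat_lit 446) (nat_lit 445) (nat_lit 249)) (XT.nd (nat_lit 78) (nat_lit 0) (nat_lit 0) (XT.lf (nat_lit 0) (nat_lit 10005983025) (nat_lit 1672) (nat_lit 3835181421) (nat_lit 1748) (nat_lit 1426324033) (nat_lit 408) (nat_lit 5) (nat_lit 430) (nat_lit 5) (nat_lit 431) (nat_lit 5) (nat_lit 447) (nat_lit 445) (nat_lit 248)) (XT.lf (nat_lit 76) (nat_lit 3420979325) (nat_lit 0) (nat_lit 7081911601) (nat_lit 1748) (nat_lit 4912252689) (nat_lit 409) (nat_lit 5) (nat_lit 408) (nat_lit 5) (nat_lit 431) (nat_lit 5) (nat_lit 448) (nat_lit 445) (nat_lit 247))))) (XT.nd (nat_lit 156) (nat_lit 0) (nat_lit 76) (XT.nd (nat_lit 78) (nat_lit 0) (nat_lit 76) (XT.lf (nat_lit 76) (nat_lit 10870250445) (nat_lit 0) (nat_lit 157896028) (nat_lit 1748) (nat_lit 4537240979) (nat_lit 409) (nat_lit 5) (nat_lit 408) (nat_lit 5) (nat_lit 431) (nat_lit 5) (nat_lit 449) (nat_lit 445) (nat_lit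 246)) (XT.lf (nat_lit 76) (nat_lit 2736845948) (nat_lit 0) (nat_lit 8882498084) (nat_lit 1748) (nat_lit 4098187110) (nat_lit 410) (nat_lit 5) (nat_lit 409) (nat_lit 5) (nat_lit 432) (nat_lit 5) (nat_lit 450) (nat_lit 445) (nat_lit 245))) (XT.nd (nat_lit 78) (nat_lit 0) (nat_lit 76) (XT.lf (nat_lit 76) (nat_lit 10375989867) (nat_lit 0) (nat_lit 1871873591) (nat_lit 1748) (nat_lit 3624347931) (nat_lit 410) (nat_lit 5) (nat_lit 409) (nat_lit 5) (nat_lit 432) (nat_lit 5) (nat_lit 451) (nat_lit 445) (nat_lit 244)) (XT.nd (nat_lit 78) (nat_lit 0) (nat_lit 0) (XT.lf (nat_lit 76) (nat_lit 2127414268) (nat_lit 0) (nat_lit 10802735596) (nat_lit 1748) (nat_lit 3099015014) (nat_lit 411) (nat_lit 5) (nat_lit 410) (nat_lit 5) (nat_lit 433) (nat_lit 5) (nat_lit 452) (nat_lit 445) (nat_lit 243)) (XT.lf (nat_lit 76) (nat_lit 9961347467) (nat_lit 0) (nat_lit 3707149882) (nat_lit 1748) (nat_lit 2519915279) (nat_lit 411) (nat_lit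 5) (nat_lit 410) (nat_lit 5) (nat_lit 433) (nat_lit 5) (nat_lit 453) (nat_lit 445) (nat_lit 242)))))) (XT.nd (nat_lit 390) (nat_lit 0) (nat_lit 76) (XT.nd (nat_lit 156) (nat_lit 1672) (nat_lit 0) (XT.nd (nat_lit 78) (nat_lit 0) (nat_lit 0) (XT.lf (nat_lit 76) (nat_lit 1594920871) (nat_lit 0) (nat_lit 12853335360) (nat_lit 1748) (nat_lit 1902059646) (nat_lit 412) (nat_lit 5) (nat_lit 411) (nat_lit 5) (nat_lit 434) (nat_lit 5) (nat_lit 454) (nat_lit 445) (nat_lit 241)) (XT.lf (nat_lit 76) (nat_lit 9628717330) (nat_lit 0) (nat_lit 5674539815) (nat_lit 1748) (nat_lit 1211010472) (nat_lit 412) (nat_lit 5) (nat_lit 411) (nat_lit 5) (nat_lit 434) (nat_lit 5) (nat_lit 455) (nat_lit 445) (nat_lit 240))) (XT.nd (nat_lit 78) (nat_lit 1748) (nat_lit 0) (XT.lf (nat_lit 76) (nat_lit 1141739973) (nat_lit 0) (nat_lit 15045343771) (nat_lit 1748) (nat_lit 494183433) (nat_lit 413) (nat_lit 5) (nat_lit 412) (nat_lit 5) (nat_lit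 435) (nat_lit 5) (nat_lit 456) (nat_lit 445) (nat_lit 239)) (XT.nd (nat_lit 78) (nat_lit 0) (nat_lit 0) (XT.lf (nat_lit 0) (nat_lit 311630546) (nat_lit 1748) (nat_lit 7471481677) (nat_lit 1824) (nat_lit 9066911731) (nat_lit 389) (nat_lit 5) (nat_lit 412) (nat_lit 5) (nat_lit 413) (nat_lit 5) (nat_lit 457) (nat_lit 445) (nat_lit 238)) (XT.lf (nat_lit 76) (nat_lit 760422963) (nat_lit 0) (nat_lit 365255296) (nat_lit 1824) (nat_lit 15896440694) (nat_lit 390) (nat_lit 5) (nat_lit 389) (nat_lit 5) (nat_lit 413) (nat_lit 5) (nat_lit 458) (nat_lit 445) (nat_lit 237))))) (XT.nd (nat_lit 234) (nat_lit 0) (nat_lit 76) (XT.nd (nat_lit 78) (nat_lit 0) (nat_lit 0) (XT.lf (nat_lit 0) (nat_lit 2047128385) (nat_lit 1748) (nat_lit 7989807361) (nat_lit 1824) (nat_lit 7158900724) (nat_lit 390) (nat_lit 5) (nat_lit 413) (nat_lit 5) (nat_lit 414) (nat_lit 5) (nat_lit 459) (nat_lit 445) (nat_lit 236)) (XT.nd (nat_lit 78) (nat_lit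 0) (nat_lit 76) (XT.lf (nat_lit 76) (nat_lit 446731228) (nat_lit 0) (nat_lit 2539613752) (nat_lit 1824) (nat_lit 14386699594) (nat_lit 391) (nat_lit 5) (nat_lit 390) (nat_lit 5) (nat_lit 414) (nat_lit 5) (nat_lit 460) (nat_lit 445) (nat_lit 235)) (XT.lf (nat_lit 0) (nat_lit 4025598167) (nat_lit 1748) (nat_lit 8430269144) (nat_lit 1824) (nat_lit 5096307413) (nat_lit 391) (nat_lit 5) (nat_lit 414) (nat_lit 5) (nat_lit 415) (nat_lit 5) (nat_lit 461) (nat_lit 445) (nat_lit 234)))) (XT.nd (nat_lit 78) (nat_lit 0) (nat_lit 76) (XT.lf (nat_lit 76) (nat_lit 217482771) (nat_lit 0) (nat_lit 4880618724) (nat_lit 1824) (nat_lit 12636539550) (nat_lit 392) (nat_lit 5) (nat_lit 391) (nat_lit 5) (nat_lit 415) (nat_lit 5) (nat_lit 462) (nat_lit 445) (nat_lit 233)) (XT.nd (nat_lit 78) (nat_lit 0) (nat_lit 0) (XT.lf (nat_lit 0) (nat_lit 6261809624) (nat_lit 1748) (nat_lit 8790359481) (nat_lit 1824) (nat_lit 2867195308) (nat_lit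 392) (nat_lit 5) (nat_lit 415) (nat_lit 5) (nat_lit 416) (nat_lit 5) (nat_lit 463) (nat_lit 445) (nat_lit 232)) (XT.lf (nat_lit 76) (nat_lit 75382333) (nat_lit 0) (nat_lit 7400661724) (nat_lit 1824) (nat_lit 10631195908) (nat_lit 393) (nat_lit 5) (nat_lit 392) (nat_lit 5) (nat_lit 416) (nat_lit 5) (nat_lit 464) (nat_lit 445) (nat_lit 231))))))) (XT.nd (nat_lit 780) (nat_lit 4028) (nat_lit 0) (XT.nd (nat_lit 390) (nat_lit 3572) (nat_lit 0) (XT.nd (nat_lit 156) (nat_lit 0) (nat_lit 0) (XT.nd (nat_lit 78) (nat_lit 0) (nat_lit 0) (XT.lf (nat_lit 0) (nat_lit 8771094353) (nat_lit 1748) (nat_lit 9067463481) (nat_lit 1824) (nat_lit 459187276) (nat_lit 393) (nat_lit 5) (nat_lit 416) (nat_lit 5) (nat_lit 417) (nat_lit 5) (nat_lit 465) (nat_lit 445) (nat_lit 230)) (XT.lf (nat_lit 76) (nat_lit 23245798) (nat_lit 0) (nat_lit 10112599389) (nat_lit 1824) (nat_lit 8355341832) (nat_lit 394) (nat_lit 5) (nat_lit 393) (nat_lit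 5) (nat_lit 417) (nat_lit 5) (nat_lit 466) (nat_lit 445) (nat_lit 229))) (XT.nd (nat_lit 78) (nat_lit 0) (nat_lit 76) (XT.lf (nat_lit 76) (nat_lit 9414442565) (nat_lit 0) (nat_lit 2169011155) (nat_lit 1824) (nat_lit 7103935393) (nat_lit 394) (nat_lit 5) (nat_lit 393) (nat_lit 5) (nat_lit 417) (nat_lit 5) (nat_lit 467) (nat_lit 445) (nat_lit 228)) (XT.nd (nat_lit 78) (nat_lit 0) (nat_lit 0) (XT.lf (nat_lit 76) (nat_lit 63995164) (nat_lit 0) (nat_lit 13029784155) (nat_lit 1824) (nat_lit 5793063181) (nat_lit 395) (nat_lit 5) (nat_lit 394) (nat_lit 5) (nat_lit 418) (nat_lit 5) (nat_lit 468) (nat_lit 445) (nat_lit 227)) (XT.lf (nat_lit 76) (nat_lit 9694577543) (nat_lit 0) (nat_lit 5011129491) (nat_lit 1824) (nat_lit 4383152509) (nat_lit 395) (nat_lit 5) (nat_lit 394) (nat_lit 5) (nat_lit 418) (nat_lit 5) (nat_lit 469) (nat_lit 445) (nat_lit 226))))) (XT.nd (nat_lit 156) (nat_lit 1976) (nat_lit 0) (XT.nd (nat_lit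 78) (nat_lit 0) (nat_lit 0) (XT.lf (nat_lit 0) (nat_lit 200653156) (nat_lit 1748) (nat_lit 16166095945) (nat_lit 1824) (nat_lit 2927832759) (nat_lit 372) (nat_lit 5) (nat_lit 395) (nat_lit 5) (nat_lit 396) (nat_lit 5) (nat_lit 470) (nat_lit 445) (nat_lit 225)) (XT.lf (nat_lit 0) (nat_lit 10076964733) (nat_lit 1748) (nat_lit 8075131173) (nat_lit 1824) (nat_lit 1350503442) (nat_lit 372) (nat_lit 5) (nat_lit 395) (nat_lit 5) (nat_lit 396) (nat_lit 5) (nat_lit 471) (nat_lit 445) (nat_lit 224))) (XT.nd (nat_lit 78) (nat_lit 912) (nat_lit 0) (XT.lf (nat_lit 0) (nat_lit 254138724) (nat_lit 1064) (nat_lit 19280130842) (nat_lit 76) (nat_lit 180493280) (nat_lit 358) (nat_lit 5) (nat_lit 372) (nat_lit 5) (nat_lit 359) (nat_lit 5) (nat_lit 472) (nat_lit 445) (nat_lit 223)) (XT.nd (nat_lit 78) (nat_lit 912) (nat_lit 0) (XT.lf (nat_lit 0) (nat_lit 1985164583) (nat_lit 1064) (nat_lit 9377169049) (nat_lit 76) (nat_lit 8566412228)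 (nat_lit 358) (nat_lit 5) (nat_lit 372) (nat_lit 5) (nat_lit 359) (nat_lit 5) (nat_lit 473) (nat_lit 445) (nat_lit 222)) (XT.lf (nat_lit 0) (nat_lit 729204782) (nat_lit 912) (nat_lit 3021644233) (nat_lit 988) (nat_lit 16396160978) (nat_lit 346) (nat_lit 5) (nat_lit 358) (nat_lit 5) (nat_lit 359) (nat_lit 5) (nat_lit 474) (nat_lit 445) (nat_lit 221)))))) (XT.nd (nat_lit 390) (nat_lit 2356) (nat_lit 0) (XT.nd (nat_lit 156) (nat_lit 836) (nat_lit 0) (XT.nd (nat_lit 78) (nat_lit 836) (nat_lit 0) (XT.lf (nat_lit 0) (nat_lit 5646178850) (nat_lit 988) (nat_lit 9243880234) (nat_lit 76) (nat_lit 5477695866) (nat_lit 346) (nat_lit 5) (nat_lit 359) (nat_lit 5) (nat_lit 347) (nat_lit 5) (nat_lit 475) (nat_lit 445) (nat_lit 220)) (XT.lf (nat_lit 0) (nat_lit 1124057647) (nat_lit 836) (nat_lit 6478128820) (nat_lit 912) (nat_lit 12990275047) (nat_lit 335) (nat_lit 5) (nat_lit 346) (nat_lit 5) (nat_lit 347) (nat_lit 5) (nat_lit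 476) (nat_lit 445) (nat_lit 219))) (XT.nd (nat_lit 78) (nat_lit 836) (nat_lit 0) (XT.lf (nat_lit 0) (nat_lit 9668930247) (nat_lit 912) (nat_lit 9014085624) (nat_lit 76) (nat_lit 2137216109) (nat_lit 335) (nat_lit 5) (nat_lit 347) (nat_lit 5) (nat_lit 336) (nat_lit 5) (nat_lit 477) (nat_lit 445) (nat_lit 218)) (XT.nd (nat_lit 78) (nat_lit 0) (nat_lit 0) (XT.lf (nat_lit 0) (nat_lit 1623531042) (nat_lit 836) (nat_lit 10202534208) (nat_lit 912) (nat_lit 9225513531) (nat_lit 324) (nat_lit 5) (nat_lit 335) (nat_lit 5) (nat_lit 336) (nat_lit 5) (nat_lit 478) (nat_lit 445) (nat_lit 217)) (XT.lf (nat_lit 0) (nat_lit 12591936513) (nat_lit 836) (nat_lit 1490568537) (nat_lit 912) (nat_lit 7203926234) (nat_lit 324) (nat_lit 5) (nat_lit 335) (nat_lit 5) (nat_lit 336) (nat_lit 5) (nat_lit 479) (nat_lit 445) (nat_lit 216))))) (XT.nd (nat_lit 234) (nat_lit 836) (nat_lit 0) (XT.nd (nat_lit 78) (nat_lit 760) (nat_lit 0) (XT.lf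 (nat_lit 0) (nat_lit 2230811008) (nat_lit 760) (nat_lit 14211522723) (nat_lit 836) (nat_lit 5082483877) (nat_lit 314) (nat_lit 5) (nat_lit 324) (nat_lit 5) (nat_lit 325) (nat_lit 5) (nat_lit 480) (nat_lit 445) (nat_lit 215)) (XT.nd (nat_lit 78) (nat_lit 760) (nat_lit 0) (XT.lf (nat_lit 0) (nat_lit 13478345572) (nat_lit 760) (nat_lit 5434979562) (nat_lit 836) (nat_lit 2853369133) (nat_lit 314) (nat_lit 5) (nat_lit 324) (nat_lit 5) (nat_lit 325) (nat_lit 5) (nat_lit 481) (nat_lit 445) (nat_lit 214)) (XT.lf (nat_lit 0) (nat_lit 2949131151) (nat_lit 760) (nat_lit 18522485780) (nat_lit 836) (nat_lit 541035811) (nat_lit 304) (nat_lit 5) (nat_lit 314) (nat_lit 5) (nat_lit 315) (nat_lit 5) (nat_lit 482) (nat_lit 445) (nat_lit 213)))) (XT.nd (nat_lit 78) (nat_lit 760) (nat_lit 0) (XT.lf (nat_lit 0) (nat_lit 1881610190) (nat_lit 836) (nat_lit 7791032042) (nat_lit 76) (nat_lit 12588895892) (nat_lit 303) (nat_lit 5) (nat_lit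 314) (nat_lit 5) (nat_lit 304) (nat_lit 5) (nat_lit 483) (nat_lit 445) (nat_lit 212)) (XT.nd (nat_lit 78) (nat_lit 0) (nat_lit 0) (XT.lf (nat_lit 0) (nat_lit 3748403800) (nat_lit 760) (nat_lit 617407354) (nat_lit 836) (nat_lit 18149113388) (nat_lit 293) (nat_lit 5) (nat_lit 303) (nat_lit 5) (nat_lit 304) (nat_lit 5) (nat_lit 484) (nat_lit 445) (nat_lit 211)) (XT.lf (nat_lit 0) (nat_lit 7004338089) (nat_lit 836) (nat_lit 7208535829) (nat_lit 76) (nat_lit 8558413683) (nat_lit 293) (nat_lit 5) (nat_lit 304) (nat_lit 5) (nat_lit 294) (nat_lit 5) (nat_lit 485) (nat_lit 445) (nat_lit 210))))))))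
noncomputable def xc235 : XT := (XT.nd (nat_lit 57174) (nat_lit 0) (nat_lit 6764) (XT.nd (nat_lit 56316) (nat_lit 0) (nat_lit 12236) (XT.nd (nat_lit 390) (nat_lit 1444) (nat_lit 0) (XT.nd (nat_lit 156) (nat_lit 1368) (nat_lit 0) (XT.nd (nat_lit 78) (nat_lit 0) (nat_lit 0) (XT.lf (nat_lit 0) (nat_lit 4633232170) (nat_lit 760) (nat_lit 5092705533) (nat_lit 836) (nat_lit 13306235890) (nat_lit 283) (nat_lit 5) (nat_lit 293) (nat_lit 5) (nat_lit 294) (nat_lit 5) (nat_lit 486) (nat_lit 445) (nat_lit 209)) (XT.lf (nat_lit 0) (nat_lit 12574175673) (nat_lit 836) (nat_lit 6519517847) (nat_lit 76) (nat_lit 4203141340) (nat_lit 283) (nat_lit 5) (nat_lit 294) (nat_lit 5) (nat_lit 284) (nat_lit 5) (nat_lit 487) (nat_lit 445) (nat_lit 208))) (XT.nd (nat_lit 78) (nat_lit 684) (nat_lit 0) (XT.lf (nat_lit 0) (nat_lit 5633630677) (nat_lit 684) (nat_lit 9912306123) (nat_lit 760) (nat_lit 8019523033) (nat_lit 274) (nat_lit 5) (nat_lit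 283) (nat_lit 5) (nat_lit 284) (nat_lit 5) (nat_lit 488) (nat_lit 445) (nat_lit 207)) (XT.nd (nat_lit 78) (nat_lit 684) (nat_lit 0) (XT.lf (nat_lit 0) (nat_lit 18114219343) (nat_lit 684) (nat_lit 502965298) (nat_lit 760) (nat_lit 5221473251) (nat_lit 274) (nat_lit 5) (nat_lit 283) (nat_lit 5) (nat_lit 284) (nat_lit 5) (nat_lit 489) (nat_lit 445) (nat_lit 206)) (XT.lf (nat_lit 0) (nat_lit 6752623372) (nat_lit 684) (nat_lit 15096497211) (nat_lit 760) (nat_lit 2266215653) (nat_lit 265) (nat_lit 5) (nat_lit 274) (nat_lit 5) (nat_lit 275) (nat_lit 5) (nat_lit 490) (nat_lit 445) (nat_lit 205))))) (XT.nd (nat_lit 156) (nat_lit 684) (nat_lit 0) (XT.nd (nat_lit 78) (nat_lit 684) (nat_lit 0) (XT.lf (nat_lit 0) (nat_lit 776727135) (nat_lit 760) (nat_lit 4852413465) (nat_lit 76) (nat_lit 18767544077) (nat_lit 264) (nat_lit 5) (nat_lit 274) (nat_lit 5) (nat_lit 265) (nat_lit 5) (nat_lit 491) (nat_lit 445) (nat_lit 204))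 (XT.lf (nat_lit 0) (nat_lit 3925168512) (nat_lit 760) (nat_lit 16714992678) (nat_lit 76) (nat_lit 4041701109) (nat_lit 255) (nat_lit 5) (nat_lit 265) (nat_lit 5) (nat_lit 256) (nat_lit 5) (nat_lit 492) (nat_lit 445) (nat_lit 203))) (XT.nd (nat_lit 78) (nat_lit 684) (nat_lit 0) (XT.lf (nat_lit 0) (nat_lit 7203140505) (nat_lit 760) (nat_lit 3905250503) (nat_lit 76) (nat_lit 13863022694) (nat_lit 255) (nat_lit 5) (nat_lit 265) (nat_lit 5) (nat_lit 256) (nat_lit 5) (nat_lit 493) (nat_lit 445) (nat_lit 202)) (XT.nd (nat_lit 55614) (nat_lit 0) (nat_lit 12236) (XT.lf (nat_lit 0) (nat_lit 9278475719) (nat_lit 684) (nat_lit 1325011587) (nat_lit 760) (nat_lit 14662133955) (nat_lit 246) (nat_lit 5) (nat_lit 255) (nat_lit 5) (nat_lit 256) (nat_lit 5) (nat_lit 494) (nat_lit 445) (nat_lit 201)) (XT.lf (nat_lit 0) (nat_lit 4959261690) (nat_lit 1748) (nat_lit 1336920744) (nat_lit 1748) (nat_lit 1336920744) (nat_lit 407) (nat_lit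 3) (nat_lit 430) (nat_lit 3) (nat_lit 430) (nat_lit 5) (nat_lit 446) (nat_lit 446) (nat_lit 248)))))) (XT.nd (nat_lit 390) (nat_lit 0) (nat_lit 152) (XT.nd (nat_lit 156) (nat_lit 0) (nat_lit 76) (XT.nd (nat_lit 78) (nat_lit 0) (nat_lit 76) (XT.lf (nat_lit 76) (nat_lit 4552878442) (nat_lit 0) (nat_lit 5772662377) (nat_lit 1748) (nat_lit 5087026545) (nat_lit 408) (nat_lit 5) (nat_lit 407) (nat_lit 3) (nat_lit 430) (nat_lit 5) (nat_lit 447) (nat_lit 446) (nat_lit 247)) (XT.lf (nat_lit 0) (nat_lit 10759143328) (nat_lit 1672) (nat_lit 3612869080) (nat_lit 1748) (nat_lit 1189478076) (nat_lit 408) (nat_lit 5) (nat_lit 430) (nat_lit 5) (nat_lit 431) (nat_lit 5) (nat_lit 448) (nat_lit 446) (nat_lit 246))) (XT.nd (nat_lit 78) (nat_lit 0) (nat_lit 0) (XT.lf (nat_lit 76) (nat_lit 3786447670) (nat_lit 0) (nat_lit 7470626420) (nat_lit 1748) (nat_lit 4455208565) (nat_lit 409) (nat_lit 5) (nat_lit 408) (nat_lit 5) (nat_lit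 431) (nat_lit 5) (nat_lit 449) (nat_lit 446) (nat_lit 245)) (XT.nd (nat_lit 78) (nat_lit 0) (nat_lit 76) (XT.lf (nat_lit 76) (nat_lit 11378879728) (nat_lit 0) (nat_lit 403285896) (nat_lit 1748) (nat_lit 4083584644) (nat_lit 409) (nat_lit 5) (nat_lit 408) (nat_lit 5) (nat_lit 431) (nat_lit 5) (nat_lit 450) (nat_lit 446) (nat_lit 244)) (XT.lf (nat_lit 76) (nat_lit 3093326503) (nat_lit 0) (nat_lit 9281817932) (nat_lit 1748) (nat_lit 3645998658) (nat_lit 410) (nat_lit 5) (nat_lit 409) (nat_lit 5) (nat_lit 432) (nat_lit 5) (nat_lit 451) (nat_lit 446) (nat_lit 243))))) (XT.nd (nat_lit 234) (nat_lit 0) (nat_lit 152) (XT.nd (nat_lit 78) (nat_lit 0) (nat_lit 76) (XT.lf (nat_lit 76) (nat_lit 10879336758) (nat_lit 0) (nat_lit 2126634481) (nat_lit 1748) (nat_lit 3173156268) (nat_lit 410) (nat_lit 5) (nat_lit 409) (nat_lit 5) (nat_lit 432) (nat_lit 5) (nat_lit 452) (nat_lit 446) (nat_lit 242)) (XT.nd (nat_lit 78) (nat_lit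 0) (nat_lit 0) (XT.lf (nat_lit 76) (nat_lit 2475703987) (nat_lit 0) (nat_lit 11216739347) (nat_lit 1748) (nat_lit 2646971131) (nat_lit 411) (nat_lit 5) (nat_lit 410) (nat_lit 5) (nat_lit 433) (nat_lit 5) (nat_lit 453) (nat_lit 446) (nat_lit 241)) (XT.lf (nat_lit 76) (nat_lit 10460320920) (nat_lit 0) (nat_lit 3975360566) (nat_lit 1748) (nat_lit 2066368307) (nat_lit 411) (nat_lit 5) (nat_lit 410) (nat_lit 5) (nat_lit 433) (nat_lit 5) (nat_lit 454) (nat_lit 446) (nat_lit 240)))) (XT.nd (nat_lit 78) (nat_lit 0) (nat_lit 0) (XT.lf (nat_lit 76) (nat_lit 1935909939) (nat_lit 0) (nat_lit 13286214486) (nat_lit 1748) (nat_lit 1445249899) (nat_lit 412) (nat_lit 5) (nat_lit 411) (nat_lit 5) (nat_lit 434) (nat_lit 5) (nat_lit 455) (nat_lit 446) (nat_lit 239)) (XT.nd (nat_lit 78) (nat_lit 0) (nat_lit 76) (XT.lf (nat_lit 76) (nat_lit 10124321726) (nat_lit 0) (nat_lit 5960395728) (nat_lit 1748) (nat_lit 750082701) (nat_lit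 412) (nat_lit 5) (nat_lit 411) (nat_lit 5) (nat_lit 434) (nat_lit 5) (nat_lit 456) (nat_lit 446) (nat_lit 238)) (XT.lf (nat_lit 76) (nat_lit 1476411600) (nat_lit 0) (nat_lit 15501414997) (nat_lit 1748) (nat_lit 27485791) (nat_lit 413) (nat_lit 5) (nat_lit 412) (nat_lit 5) (nat_lit 435) (nat_lit 5) (nat_lit 457) (nat_lit 446) (nat_lit 237))))))) (XT.nd (nat_lit 780) (nat_lit 4104) (nat_lit 0) (XT.nd (nat_lit 390) (nat_lit 0) (nat_lit 152) (XT.nd (nat_lit 156) (nat_lit 0) (nat_lit 76) (XT.nd (nat_lit 78) (nat_lit 0) (nat_lit 0) (XT.lf (nat_lit 0) (nat_lit 778971844) (nat_lit 1748) (nat_lit 7308830254) (nat_lit 1824) (nat_lit 9089769377) (nat_lit 389) (nat_lit 5) (nat_lit 412) (nat_lit 5) (nat_lit 413) (nat_lit 5) (nat_lit 458) (nat_lit 446) (nat_lit 236)) (XT.lf (nat_lit 76) (nat_lit 1085659314) (nat_lit 0) (nat_lit 516612757) (nat_lit 1824) (nat_lit 15750981396) (nat_lit 390) (nat_lit 5) (nat_lit 389) (nat_lit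 5) (nat_lit 413) (nat_lit 5) (nat_lit 459) (nat_lit 446) (nat_lit 235))) (XT.nd (nat_lit 78) (nat_lit 0) (nat_lit 0) (XT.lf (nat_lit 0) (nat_lit 2532330721) (nat_lit 1748) (nat_lit 7835612293) (nat_lit 1824) (nat_lit 7162703167) (nat_lit 390) (nat_lit 5) (nat_lit 413) (nat_lit 5) (nat_lit 414) (nat_lit 5) (nat_lit 460) (nat_lit 446) (nat_lit 234)) (XT.nd (nat_lit 78) (nat_lit 0) (nat_lit 76) (XT.lf (nat_lit 76) (nat_lit 767591337) (nat_lit 0) (nat_lit 2716054563) (nat_lit 1824) (nat_lit 14227890612) (nat_lit 391) (nat_lit 5) (nat_lit 390) (nat_lit 5) (nat_lit 414) (nat_lit 5) (nat_lit 461) (nat_lit 446) (nat_lit 233)) (XT.lf (nat_lit 0) (nat_lit 4534304469) (nat_lit 1748) (nat_lit 8283472339) (nat_lit 1824) (nat_lit 5076664313) (nat_lit 391) (nat_lit 5) (nat_lit 414) (nat_lit 5) (nat_lit 415) (nat_lit 5) (nat_lit 462) (nat_lit 446) (nat_lit 232))))) (XT.nd (nat_lit 156) (nat_lit 0) (nat_lit 76) (XT.nd (nat_lit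 78) (nat_lit 0) (nat_lit 76) (XT.lf (nat_lit 76) (nat_lit 535159600) (nat_lit 0) (nat_lit 5086736625) (nat_lit 1824) (nat_lit 12458791958) (nat_lit 392) (nat_lit 5) (nat_lit 391) (nat_lit 5) (nat_lit 415) (nat_lit 5) (nat_lit 463) (nat_lit 446) (nat_lit 231)) (XT.lf (nat_lit 0) (nat_lit 6799916610) (nat_lit 1748) (nat_lit 8649816331) (nat_lit 1824) (nat_lit 2819556414) (nat_lit 392) (nat_lit 5) (nat_lit 415) (nat_lit 5) (nat_lit 416) (nat_lit 5) (nat_lit 464) (nat_lit 446) (nat_lit 230))) (XT.nd (nat_lit 78) (nat_lit 0) (nat_lit 76) (XT.lf (nat_lit 76) (nat_lit 391159067) (nat_lit 0) (nat_lit 7641221603) (nat_lit 1824) (nat_lit 10428666868) (nat_lit 393) (nat_lit 5) (nat_lit 392) (nat_lit 5) (nat_lit 416) (nat_lit 5) (nat_lit 465) (nat_lit 446) (nat_lit 229)) (XT.nd (nat_lit 78) (nat_lit 0) (nat_lit 0) (XT.lf (nat_lit 0) (nat_lit 9344766100) (nat_lit 1748) (nat_lit 8931942958) (nat_lit 1824) (nat_lit 378828984)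 (nat_lit 393) (nat_lit 5) (nat_lit 416) (nat_lit 5) (nat_lit 417) (nat_lit 5) (nat_lit 466) (nat_lit 446) (nat_lit 228)) (XT.lf (nat_lit 76) (nat_lit 338495837) (nat_lit 0) (nat_lit 10392551088) (nat_lit 1824) (nat_lit 8121921028) (nat_lit 394) (nat_lit 5) (nat_lit 393) (nat_lit 5) (nat_lit 417) (nat_lit 5) (nat_lit 467) (nat_lit 446) (nat_lit 227)))))) (XT.nd (nat_lit 390) (nat_lit 2812) (nat_lit 0) (XT.nd (nat_lit 156) (nat_lit 1596) (nat_lit 0) (XT.nd (nat_lit 78) (nat_lit 0) (nat_lit 76) (XT.lf (nat_lit 76) (nat_lit 9911344282) (nat_lit 0) (nat_lit 2288567565) (nat_lit 1824) (nat_lit 6853339944) (nat_lit 394) (nat_lit 5) (nat_lit 393) (nat_lit 5) (nat_lit 417) (nat_lit 5) (nat_lit 468) (nat_lit 446) (nat_lit 226)) (XT.lf (nat_lit 76) (nat_lit 380182147) (nat_lit 0) (nat_lit 13354276624) (nat_lit 1824) (nat_lit 5522358890) (nat_lit 395) (nat_lit 5) (nat_lit 394) (nat_lit 5) (nat_lit 418) (nat_lit 5) (nat_lit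 469) (nat_lit 446) (nat_lit 225))) (XT.nd (nat_lit 78) (nat_lit 1672) (nat_lit 0) (XT.lf (nat_lit 76) (nat_lit 10197201524) (nat_lit 0) (nat_lit 5173995988) (nat_lit 1824) (nat_lit 4091829721) (nat_lit 395) (nat_lit 5) (nat_lit 394) (nat_lit 5) (nat_lit 418) (nat_lit 5) (nat_lit 470) (nat_lit 446) (nat_lit 224)) (XT.nd (nat_lit 78) (nat_lit 0) (nat_lit 0) (XT.lf (nat_lit 0) (nat_lit 519331002) (nat_lit 1748) (nat_lit 16540491792) (nat_lit 1824) (nat_lit 2613157524) (nat_lit 372) (nat_lit 5) (nat_lit 395) (nat_lit 5) (nat_lit 396) (nat_lit 5) (nat_lit 471) (nat_lit 446) (nat_lit 223)) (XT.lf (nat_lit 0) (nat_lit 10586998913) (nat_lit 1748) (nat_lit 8286706275) (nat_lit 1824) (nat_lit 1011599893) (nat_lit 372) (nat_lit 5) (nat_lit 395) (nat_lit 5) (nat_lit 396) (nat_lit 5) (nat_lit 472) (nat_lit 446) (nat_lit 222))))) (XT.nd (nat_lit 234) (nat_lit 836) (nat_lit 0) (XT.nd (nat_lit 78) (nat_lit 912) (nat_lit 0)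 (XT.lf (nat_lit 0) (nat_lit 614987336) (nat_lit 1064) (nat_lit 19346751202) (nat_lit 76) (nat_lit 140036133) (nat_lit 358) (nat_lit 5) (nat_lit 372) (nat_lit 5) (nat_lit 359) (nat_lit 5) (nat_lit 473) (nat_lit 446) (nat_lit 221)) (XT.nd (nat_lit 78) (nat_lit 912) (nat_lit 0) (XT.lf (nat_lit 0) (nat_lit 2373657912) (nat_lit 1064) (nat_lit 9251984727) (nat_lit 76) (nat_lit 8694537520) (nat_lit 358) (nat_lit 5) (nat_lit 372) (nat_lit 5) (nat_lit 359) (nat_lit 5) (nat_lit 474) (nat_lit 446) (nat_lit 220)) (XT.lf (nat_lit 0) (nat_lit 1054459161) (nat_lit 912) (nat_lit 3115374928) (nat_lit 988) (nat_lit 16373075155) (nat_lit 346) (nat_lit 5) (nat_lit 358) (nat_lit 5) (nat_lit 359) (nat_lit 5) (nat_lit 475) (nat_lit 446) (nat_lit 219)))) (XT.nd (nat_lit 78) (nat_lit 836) (nat_lit 0) (XT.lf (nat_lit 0) (nat_lit 6096114096) (nat_lit 988) (nat_lit 9117064286) (nat_lit 76) (nat_lit 5555033014) (nat_lit 346) (nat_lit 5)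 (nat_lit 359) (nat_lit 5) (nat_lit 347) (nat_lit 5) (nat_lit 476) (nat_lit 446) (nat_lit 218)) (XT.nd (nat_lit 78) (nat_lit 0) (nat_lit 0) (XT.lf (nat_lit 0) (nat_lit 1456181736) (nat_lit 836) (nat_lit 6630462464) (nat_lit 912) (nat_lit 12910862952) (nat_lit 335) (nat_lit 5) (nat_lit 346) (nat_lit 5) (nat_lit 347) (nat_lit 5) (nat_lit 477) (nat_lit 446) (nat_lit 217)) (XT.lf (nat_lit 0) (nat_lit 10188059989) (nat_lit 912) (nat_lit 8883980696) (nat_lit 76) (nat_lit 2157928646) (nat_lit 335) (nat_lit 5) (nat_lit 347) (nat_lit 5) (nat_lit 336) (nat_lit 5) (nat_lit 478) (nat_lit 446) (nat_lit 216))))))))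
noncomputable def xc236 : XT := (XT.nd (nat_lit 57252) (nat_lit 0) (nat_lit 8892) (XT.nd (nat_lit 780) (nat_lit 2128) (nat_lit 0) (XT.nd (nat_lit 390) (nat_lit 1596) (nat_lit 0) (XT.nd (nat_lit 156) (nat_lit 1520) (nat_lit 0) (XT.nd (nat_lit 78) (nat_lit 0) (nat_lit 0) (XT.lf (nat_lit 0) (nat_lit 1964346285) (nat_lit 836) (nat_lit 10419606107) (nat_lit 912) (nat_lit 9082081367) (nat_lit 324) (nat_lit 5) (nat_lit 335) (nat_lit 5) (nat_lit 336) (nat_lit 5) (nat_lit 479) (nat_lit 446) (nat_lit 215)) (XT.lf (nat_lit 0) (nat_lit 13146073893) (nat_lit 836) (nat_lit 1533145805) (nat_lit 912) (nat_lit 7026492568) (nat_lit 324) (nat_lit 5) (nat_lit 335) (nat_lit 5) (nat_lit 336) (nat_lit 5) (nat_lit 480) (nat_lit 446) (nat_lit 214))) (XT.nd (nat_lit 78) (nat_lit 760) (nat_lit 0) (XT.lf (nat_lit 0) (nat_lit 2582224636) (nat_lit 760) (nat_lit 14499753253) (nat_lit 836) (nat_lit 4866976638) (nat_lit 314) (nat_lit 5) (nat_lit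 324) (nat_lit 5) (nat_lit 325) (nat_lit 5) (nat_lit 481) (nat_lit 446) (nat_lit 213)) (XT.nd (nat_lit 78) (nat_lit 760) (nat_lit 0) (XT.lf (nat_lit 0) (nat_lit 14048694256) (nat_lit 760) (nat_lit 5547600796) (nat_lit 836) (nat_lit 2599498362) (nat_lit 314) (nat_lit 5) (nat_lit 324) (nat_lit 5) (nat_lit 325) (nat_lit 5) (nat_lit 482) (nat_lit 446) (nat_lit 212)) (XT.lf (nat_lit 0) (nat_lit 3313135734) (nat_lit 760) (nat_lit 18888597815) (nat_lit 836) (nat_lit 245020649) (nat_lit 304) (nat_lit 5) (nat_lit 314) (nat_lit 5) (nat_lit 315) (nat_lit 5) (nat_lit 483) (nat_lit 446) (nat_lit 211))))) (XT.nd (nat_lit 156) (nat_lit 760) (nat_lit 0) (XT.nd (nat_lit 78) (nat_lit 760) (nat_lit 0) (XT.lf (nat_lit 0) (nat_lit 2216116580) (nat_lit 836) (nat_lit 7643733686) (nat_lit 76) (nat_lit 12840848578) (nat_lit 303) (nat_lit 5) (nat_lit 314) (nat_lit 5) (nat_lit 304) (nat_lit 5) (nat_lit 484) (nat_lit 446) (nat_lit 210))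 (XT.lf (nat_lit 0) (nat_lit 4124496669) (nat_lit 760) (nat_lit 621638934) (nat_lit 836) (nat_lit 18213097308) (nat_lit 293) (nat_lit 5) (nat_lit 303) (nat_lit 5) (nat_lit 304) (nat_lit 5) (nat_lit 485) (nat_lit 446) (nat_lit 209))) (XT.nd (nat_lit 78) (nat_lit 760) (nat_lit 0) (XT.lf (nat_lit 0) (nat_lit 7431739482) (nat_lit 836) (nat_lit 7051665157) (nat_lit 76) (nat_lit 8737435012) (nat_lit 293) (nat_lit 5) (nat_lit 304) (nat_lit 5) (nat_lit 294) (nat_lit 5) (nat_lit 486) (nat_lit 446) (nat_lit 208)) (XT.nd (nat_lit 78) (nat_lit 0) (nat_lit 0) (XT.lf (nat_lit 0) (nat_lit 5024957667) (nat_lit 760) (nat_lit 5179121503) (nat_lit 836) (nat_lit 13282940529) (nat_lit 283) (nat_lit 5) (nat_lit 293) (nat_lit 5) (nat_lit 294) (nat_lit 5) (nat_lit 487) (nat_lit 446) (nat_lit 207)) (XT.lf (nat_lit 0) (nat_lit 13103818939) (nat_lit 836) (nat_lit 6351125866) (nat_lit 76) (nat_lit 4302141095) (nat_lit 283) (nat_lit 5) (nat_lit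 294) (nat_lit 5) (nat_lit 284) (nat_lit 5) (nat_lit 488) (nat_lit 446) (nat_lit 206)))))) (XT.nd (nat_lit 56082) (nat_lit 0) (nat_lit 11552) (XT.nd (nat_lit 156) (nat_lit 1444) (nat_lit 0) (XT.nd (nat_lit 78) (nat_lit 0) (nat_lit 0) (XT.lf (nat_lit 0) (nat_lit 6043119955) (nat_lit 684) (nat_lit 10088368352) (nat_lit 760) (nat_lit 7899668007) (nat_lit 274) (nat_lit 5) (nat_lit 283) (nat_lit 5) (nat_lit 284) (nat_lit 5) (nat_lit 489) (nat_lit 446) (nat_lit 205)) (XT.lf (nat_lit 0) (nat_lit 18767500460) (nat_lit 684) (nat_lit 491275688) (nat_lit 760) (nat_lit 5051152239) (nat_lit 274) (nat_lit 5) (nat_lit 283) (nat_lit 5) (nat_lit 284) (nat_lit 5) (nat_lit 490) (nat_lit 446) (nat_lit 204))) (XT.nd (nat_lit 78) (nat_lit 760) (nat_lit 0) (XT.lf (nat_lit 0) (nat_lit 7182084299) (nat_lit 684) (nat_lit 15370037075) (nat_lit 760) (nat_lit 2040085819) (nat_lit 265) (nat_lit 5) (nat_lit 274) (nat_lit 5) (nat_lit 275) (nat_lit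 5) (nat_lit 491) (nat_lit 446) (nat_lit 203)) (XT.nd (nat_lit 78) (nat_lit 684) (nat_lit 0) (XT.lf (nat_lit 0) (nat_lit 1054902831) (nat_lit 760) (nat_lit 4657224709) (nat_lit 76) (nat_lit 19167127090) (nat_lit 264) (nat_lit 5) (nat_lit 274) (nat_lit 5) (nat_lit 265) (nat_lit 5) (nat_lit 492) (nat_lit 446) (nat_lit 202)) (XT.lf (nat_lit 0) (nat_lit 4263248994) (nat_lit 760) (nat_lit 16753882721) (nat_lit 76) (nat_lit 4153067544) (nat_lit 255) (nat_lit 5) (nat_lit 265) (nat_lit 5) (nat_lit 256) (nat_lit 5) (nat_lit 493) (nat_lit 446) (nat_lit 201))))) (XT.nd (nat_lit 156) (nat_lit 0) (nat_lit 76) (XT.nd (nat_lit 78) (nat_lit 0) (nat_lit 0) (XT.lf (nat_lit 0) (nat_lit 5334912096) (nat_lit 1748) (nat_lit 1222590183) (nat_lit 1748) (nat_lit 1222590183) (nat_lit 407) (nat_lit 3) (nat_lit 430) (nat_lit 3) (nat_lit 430) (nat_lit 5) (nat_lit 447) (nat_lit 447) (nat_lit 246)) (XT.lf (nat_lit 76) (nat_lit 4924217790)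 (nat_lit 0) (nat_lit 6151742191) (nat_lit 1748) (nat_lit 4633699237) (nat_lit 408) (nat_lit 5) (nat_lit 407) (nat_lit 3) (nat_lit 430) (nat_lit 5) (nat_lit 448) (nat_lit 447) (nat_lit 245))) (XT.nd (nat_lit 78) (nat_lit 0) (nat_lit 0) (XT.lf (nat_lit 0) (nat_lit 11505891594) (nat_lit 1672) (nat_lit 3397721647) (nat_lit 1748) (nat_lit 958199935) (nat_lit 408) (nat_lit 5) (nat_lit 430) (nat_lit 5) (nat_lit 431) (nat_lit 5) (nat_lit 449) (nat_lit 447) (nat_lit 244)) (XT.nd (nat_lit 78) (nat_lit 0) (nat_lit 0) (XT.lf (nat_lit 76) (nat_lit 4147690617) (nat_lit 0) (nat_lit 7857521250) (nat_lit 1748) (nat_lit 4010586114) (nat_lit 409) (nat_lit 5) (nat_lit 408) (nat_lit 5) (nat_lit 431) (nat_lit 5) (nat_lit 450) (nat_lit 447) (nat_lit 243)) (XT.lf (nat_lit 76) (nat_lit 11886373002) (nat_lit 0) (nat_lit 644177400) (nat_lit 1748) (nat_lit 3641994942) (nat_lit 409) (nat_lit 5) (nat_lit 408) (nat_lit 5) (nat_lit 431) (nat_lit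 5) (nat_lit 451) (nat_lit 447) (nat_lit 242))))))) (XT.nd (nat_lit 780) (nat_lit 1292) (nat_lit 0) (XT.nd (nat_lit 390) (nat_lit 1520) (nat_lit 0) (XT.nd (nat_lit 156) (nat_lit 0) (nat_lit 76) (XT.nd (nat_lit 78) (nat_lit 0) (nat_lit 0) (XT.lf (nat_lit 76) (nat_lit 3445219595) (nat_lit 0) (nat_lit 9680516466) (nat_lit 1748) (nat_lit 3205508218) (nat_lit 410) (nat_lit 5) (nat_lit 409) (nat_lit 5) (nat_lit 432) (nat_lit 5) (nat_lit 452) (nat_lit 447) (nat_lit 241)) (XT.lf (nat_lit 76) (nat_lit 11381263260) (nat_lit 0) (nat_lit 2378051656) (nat_lit 1748) (nat_lit 2733275851) (nat_lit 410) (nat_lit 5) (nat_lit 409) (nat_lit 5) (nat_lit 432) (nat_lit 5) (nat_lit 453) (nat_lit 447) (nat_lit 240))) (XT.nd (nat_lit 78) (nat_lit 0) (nat_lit 0) (XT.lf (nat_lit 76) (nat_lit 2819087187) (nat_lit 0) (nat_lit 11631336571) (nat_lit 1748) (nat_lit 2205846556) (nat_lit 411) (nat_lit 5) (nat_lit 410) (nat_lit 5) (nat_lit 433)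 (nat_lit 5) (nat_lit 454) (nat_lit 447) (nat_lit 239)) (XT.nd (nat_lit 78) (nat_lit 0) (nat_lit 76) (XT.lf (nat_lit 76) (nat_lit 10957634319) (nat_lit 0) (nat_lit 4241399578) (nat_lit 1748) (nat_lit 1623319205) (nat_lit 411) (nat_lit 5) (nat_lit 410) (nat_lit 5) (nat_lit 433) (nat_lit 5) (nat_lit 455) (nat_lit 447) (nat_lit 238)) (XT.lf (nat_lit 76) (nat_lit 2271716422) (nat_lit 0) (nat_lit 13720924185) (nat_lit 1748) (nat_lit 998519622) (nat_lit 412) (nat_lit 5) (nat_lit 411) (nat_lit 5) (nat_lit 434) (nat_lit 5) (nat_lit 456) (nat_lit 447) (nat_lit 237))))) (XT.nd (nat_lit 156) (nat_lit 0) (nat_lit 0) (XT.nd (nat_lit 78) (nat_lit 1672) (nat_lit 0) (XT.lf (nat_lit 76) (nat_lit 10618071184) (nat_lit 0) (nat_lit 6245275612) (nat_lit 1748) (nat_lit 298775263) (nat_lit 412) (nat_lit 5) (nat_lit 411) (nat_lit 5) (nat_lit 434) (nat_lit 5) (nat_lit 457) (nat_lit 447) (nat_lit 236)) (XT.lf (nat_lit 0) (nat_lit 424399523)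 (nat_lit 1748) (nat_lit 15533334959) (nat_lit 1824) (nat_lit 1378420187) (nat_lit 389) (nat_lit 5) (nat_lit 412) (nat_lit 5) (nat_lit 413) (nat_lit 5) (nat_lit 458) (nat_lit 447) (nat_lit 235))) (XT.nd (nat_lit 78) (nat_lit 0) (nat_lit 0) (XT.lf (nat_lit 0) (nat_lit 1237754556) (nat_lit 1748) (nat_lit 7155044290) (nat_lit 1824) (nat_lit 9119238170) (nat_lit 389) (nat_lit 5) (nat_lit 412) (nat_lit 5) (nat_lit 413) (nat_lit 5) (nat_lit 459) (nat_lit 447) (nat_lit 234)) (XT.nd (nat_lit 78) (nat_lit 0) (nat_lit 76) (XT.lf (nat_lit 76) (nat_lit 1405361631) (nat_lit 0) (nat_lit 665403639) (nat_lit 1824) (nat_lit 15620606838) (nat_lit 390) (nat_lit 5) (nat_lit 389) (nat_lit 5) (nat_lit 413) (nat_lit 5) (nat_lit 460) (nat_lit 447) (nat_lit 233)) (XT.lf (nat_lit 0) (nat_lit 3009985955) (nat_lit 1748) (nat_lit 7690525985) (nat_lit 1824) (nat_lit 7171993782) (nat_lit 390) (nat_lit 5) (nat_lit 413) (nat_lit 5) (nat_lit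 414) (nat_lit 5) (nat_lit 461) (nat_lit 447) (nat_lit 232)))))) (XT.nd (nat_lit 390) (nat_lit 1368) (nat_lit 0) (XT.nd (nat_lit 156) (nat_lit 0) (nat_lit 76) (XT.nd (nat_lit 78) (nat_lit 0) (nat_lit 76) (XT.lf (nat_lit 76) (nat_lit 1082756201) (nat_lit 0) (nat_lit 2891145104) (nat_lit 1824) (nat_lit 14083245258) (nat_lit 391) (nat_lit 5) (nat_lit 390) (nat_lit 5) (nat_lit 414) (nat_lit 5) (nat_lit 462) (nat_lit 447) (nat_lit 231)) (XT.lf (nat_lit 0) (nat_lit 5036557590) (nat_lit 1748) (nat_lit 8145987049) (nat_lit 1824) (nat_lit 5061349034) (nat_lit 391) (nat_lit 5) (nat_lit 414) (nat_lit 5) (nat_lit 415) (nat_lit 5) (nat_lit 463) (nat_lit 447) (nat_lit 230))) (XT.nd (nat_lit 78) (nat_lit 0) (nat_lit 76) (XT.lf (nat_lit 76) (nat_lit 847023090) (nat_lit 0) (nat_lit 5292763481) (nat_lit 1824) (nat_lit 12294205415) (nat_lit 392) (nat_lit 5) (nat_lit 391) (nat_lit 5) (nat_lit 415) (nat_lit 5) (nat_lit 464) (nat_lit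 447) (nat_lit 229)) (XT.nd (nat_lit 78) (nat_lit 0) (nat_lit 0) (XT.lf (nat_lit 0) (nat_lit 7332753460) (nat_lit 1748) (nat_lit 8518746588) (nat_lit 1824) (nat_lit 2775041352) (nat_lit 392) (nat_lit 5) (nat_lit 415) (nat_lit 5) (nat_lit 416) (nat_lit 5) (nat_lit 465) (nat_lit 447) (nat_lit 228)) (XT.lf (nat_lit 76) (nat_lit 701047884) (nat_lit 0) (nat_lit 7882998980) (nat_lit 1824) (nat_lit 10238208142) (nat_lit 393) (nat_lit 5) (nat_lit 392) (nat_lit 5) (nat_lit 416) (nat_lit 5) (nat_lit 466) (nat_lit 447) (nat_lit 227))))) (XT.nd (nat_lit 234) (nat_lit 1596) (nat_lit 0) (XT.nd (nat_lit 78) (nat_lit 0) (nat_lit 0) (XT.lf (nat_lit 0) (nat_lit 9914446754) (nat_lit 1748) (nat_lit 8806016465) (nat_lit 1824) (nat_lit 300340553) (nat_lit 393) (nat_lit 5) (nat_lit 416) (nat_lit 5) (nat_lit 417) (nat_lit 5) (nat_lit 467) (nat_lit 447) (nat_lit 226)) (XT.nd (nat_lit 78) (nat_lit 0) (nat_lit 0) (XT.lf (nat_lit 76) (nat_lit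 647827386) (nat_lit 0) (nat_lit 10675084645) (nat_lit 1824) (nat_lit 7899384785) (nat_lit 394) (nat_lit 5) (nat_lit 393) (nat_lit 5) (nat_lit 417) (nat_lit 5) (nat_lit 468) (nat_lit 447) (nat_lit 225)) (XT.lf (nat_lit 76) (nat_lit 10406200219) (nat_lit 0) (nat_lit 2407557088) (nat_lit 1824) (nat_lit 6612980602) (nat_lit 394) (nat_lit 5) (nat_lit 393) (nat_lit 5) (nat_lit 417) (nat_lit 5) (nat_lit 469) (nat_lit 447) (nat_lit 224)))) (XT.nd (nat_lit 78) (nat_lit 1672) (nat_lit 0) (XT.lf (nat_lit 76) (nat_lit 690464644) (nat_lit 0) (nat_lit 13682777752) (nat_lit 1824) (nat_lit 5261251325) (nat_lit 395) (nat_lit 5) (nat_lit 394) (nat_lit 5) (nat_lit 418) (nat_lit 5) (nat_lit 470) (nat_lit 447) (nat_lit 223)) (XT.nd (nat_lit 78) (nat_lit 1672) (nat_lit 0) (XT.lf (nat_lit 76) (nat_lit 10697889529) (nat_lit 0) (nat_lit 5337687277) (nat_lit 1824) (nat_lit 3809396960) (nat_lit 395) (nat_lit 5) (nat_lit 394) (nat_lit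 5) (nat_lit 418) (nat_lit 5) (nat_lit 471) (nat_lit 447) (nat_lit 222)) (XT.lf (nat_lit 0) (nat_lit 832163588) (nat_lit 1748) (nat_lit 16920392294) (nat_lit 1824) (nat_lit 2306681834) (nat_lit 372) (nat_lit 5) (nat_lit 395) (nat_lit 5) (nat_lit 396) (nat_lit 5) (nat_lit 472) (nat_lit 447) (nat_lit 221))))))))
noncomputable def xc237 : XT := (XT.nd (nat_lit 57408) (nat_lit 0) (nat_lit 9424) (XT.nd (nat_lit 780) (nat_lit 3800) (nat_lit 0) (XT.nd (nat_lit 390) (nat_lit 2432) (nat_lit 0) (XT.nd (nat_lit 156) (nat_lit 912) (nat_lit 0) (XT.nd (nat_lit 78) (nat_lit 1064) (nat_lit 0) (XT.lf (nat_lit 0) (nat_lit 11095254544) (nat_lit 1748) (nat_lit 8500568504) (nat_lit 1824) (nat_lit 680127145) (nat_lit 372) (nat_lit 5) (nat_lit 395) (nat_lit 5) (nat_lit 396) (nat_lit 5) (nat_lit 473) (nat_lit 447) (nat_lit 220)) (XT.lf (nat_lit 0) (nat_lit 969238100) (nat_lit 1064) (nat_lit 19427090440) (nat_lit 76) (nat_lit 100481020)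 (nat_lit 358) (nat_lit 5) (nat_lit 372) (nat_lit 5) (nat_lit 359) (nat_lit 5) (nat_lit 474) (nat_lit 447) (nat_lit 219))) (XT.nd (nat_lit 78) (nat_lit 912) (nat_lit 0) (XT.lf (nat_lit 0) (nat_lit 2756377164) (nat_lit 1064) (nat_lit 9136440317) (nat_lit 76) (nat_lit 8826902940) (nat_lit 358) (nat_lit 5) (nat_lit 372) (nat_lit 5) (nat_lit 359) (nat_lit 5) (nat_lit 475) (nat_lit 447) (nat_lit 218)) (XT.nd (nat_lit 78) (nat_lit 0) (nat_lit 0) (XT.lf (nat_lit 0) (nat_lit 1374154922) (nat_lit 912) (nat_lit 3209687243) (nat_lit 988) (nat_lit 16363157725) (nat_lit 346) (nat_lit 5) (nat_lit 358) (nat_lit 5) (nat_lit 359) (nat_lit 5) (nat_lit 476) (nat_lit 447) (nat_lit 217)) (XT.lf (nat_lit 0) (nat_lit 6541961473) (nat_lit 988) (nat_lit 8999815461) (nat_lit 76) (nat_lit 5635167922) (nat_lit 346) (nat_lit 5) (nat_lit 359) (nat_lit 5) (nat_lit 347) (nat_lit 5) (nat_lit 477) (nat_lit 447) (nat_lit 216))))) (XT.nd (nat_lit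 156) (nat_lit 1596) (nat_lit 0) (XT.nd (nat_lit 78) (nat_lit 0) (nat_lit 0) (XT.lf (nat_lit 0) (nat_lit 1782924495) (nat_lit 836) (nat_lit 6784958553) (nat_lit 912) (nat_lit 12843034847) (nat_lit 335) (nat_lit 5) (nat_lit 346) (nat_lit 5) (nat_lit 347) (nat_lit 5) (nat_lit 478) (nat_lit 447) (nat_lit 215)) (XT.lf (nat_lit 0) (nat_lit 10704923012) (nat_lit 912) (nat_lit 8763326362) (nat_lit 76) (nat_lit 2179910954) (nat_lit 335) (nat_lit 5) (nat_lit 347) (nat_lit 5) (nat_lit 336) (nat_lit 5) (nat_lit 479) (nat_lit 447) (nat_lit 214))) (XT.nd (nat_lit 78) (nat_lit 760) (nat_lit 0) (XT.lf (nat_lit 0) (nat_lit 2300004436) (nat_lit 836) (nat_lit 10640513814) (nat_lit 912) (nat_lit 8948514963) (nat_lit 324) (nat_lit 5) (nat_lit 335) (nat_lit 5) (nat_lit 336) (nat_lit 5) (nat_lit 480) (nat_lit 447) (nat_lit 213)) (XT.nd (nat_lit 78) (nat_lit 760) (nat_lit 0) (XT.lf (nat_lit 0) (nat_lit 13699555396) (nat_lit 836) (nat_lit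 1576078903) (nat_lit 912) (nat_lit 6857994938) (nat_lit 324) (nat_lit 5) (nat_lit 335) (nat_lit 5) (nat_lit 336) (nat_lit 5) (nat_lit 481) (nat_lit 447) (nat_lit 212)) (XT.lf (nat_lit 0) (nat_lit 2928753220) (nat_lit 760) (nat_lit 14793593065) (nat_lit 836) (nat_lit 4659474843) (nat_lit 314) (nat_lit 5) (nat_lit 324) (nat_lit 5) (nat_lit 325) (nat_lit 5) (nat_lit 482) (nat_lit 447) (nat_lit 211)))))) (XT.nd (nat_lit 390) (nat_lit 2204) (nat_lit 0) (XT.nd (nat_lit 156) (nat_lit 760) (nat_lit 0) (XT.nd (nat_lit 78) (nat_lit 836) (nat_lit 0) (XT.lf (nat_lit 0) (nat_lit 14618770191) (nat_lit 760) (nat_lit 5662322172) (nat_lit 836) (nat_lit 2352624283) (nat_lit 314) (nat_lit 5) (nat_lit 324) (nat_lit 5) (nat_lit 325) (nat_lit 5) (nat_lit 483) (nat_lit 447) (nat_lit 210)) (XT.lf (nat_lit 0) (nat_lit 44409821) (nat_lit 836) (nat_lit 19217492694) (nat_lit 76) (nat_lit 3627868200) (nat_lit 303) (nat_lit 5) (nat_lit 314)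 (nat_lit 5) (nat_lit 304) (nat_lit 5) (nat_lit 484) (nat_lit 447) (nat_lit 209))) (XT.nd (nat_lit 78) (nat_lit 760) (nat_lit 0) (XT.lf (nat_lit 0) (nat_lit 2545785112) (nat_lit 836) (nat_lit 7505259844) (nat_lit 76) (nat_lit 13097833532) (nat_lit 303) (nat_lit 5) (nat_lit 314) (nat_lit 5) (nat_lit 304) (nat_lit 5) (nat_lit 485) (nat_lit 447) (nat_lit 208)) (XT.nd (nat_lit 78) (nat_lit 0) (nat_lit 0) (XT.lf (nat_lit 0) (nat_lit 4496418352) (nat_lit 760) (nat_lit 626270323) (nat_lit 836) (nat_lit 18289971376) (nat_lit 293) (nat_lit 5) (nat_lit 303) (nat_lit 5) (nat_lit 304) (nat_lit 5) (nat_lit 486) (nat_lit 447) (nat_lit 207)) (XT.lf (nat_lit 0) (nat_lit 7856532126) (nat_lit 836) (nat_lit 6903346875) (nat_lit 76) (nat_lit 8919731823) (nat_lit 293) (nat_lit 5) (nat_lit 304) (nat_lit 5) (nat_lit 294) (nat_lit 5) (nat_lit 487) (nat_lit 447) (nat_lit 206))))) (XT.nd (nat_lit 234) (nat_lit 760) (nat_lit 0) (XT.nd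 (nat_lit 78) (nat_lit 684) (nat_lit 0) (XT.lf (nat_lit 0) (nat_lit 5412904776) (nat_lit 760) (nat_lit 5267865275) (nat_lit 836) (nat_lit 13270417795) (nat_lit 283) (nat_lit 5) (nat_lit 293) (nat_lit 5) (nat_lit 294) (nat_lit 5) (nat_lit 488) (nat_lit 447) (nat_lit 205)) (XT.nd (nat_lit 78) (nat_lit 684) (nat_lit 0) (XT.lf (nat_lit 0) (nat_lit 13633253788) (nat_lit 836) (nat_lit 6190968128) (nat_lit 76) (nat_lit 4402540825) (nat_lit 283) (nat_lit 5) (nat_lit 294) (nat_lit 5) (nat_lit 284) (nat_lit 5) (nat_lit 489) (nat_lit 447) (nat_lit 204)) (XT.lf (nat_lit 0) (nat_lit 6449273265) (nat_lit 684) (nat_lit 10268813252) (nat_lit 760) (nat_lit 7788298154) (nat_lit 274) (nat_lit 5) (nat_lit 283) (nat_lit 5) (nat_lit 284) (nat_lit 5) (nat_lit 490) (nat_lit 447) (nat_lit 203)))) (XT.nd (nat_lit 78) (nat_lit 760) (nat_lit 0) (XT.lf (nat_lit 0) (nat_lit 19422547441) (nat_lit 684) (nat_lit 480196823) (nat_lit 760) (nat_lit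 4888093702) (nat_lit 274) (nat_lit 5) (nat_lit 283) (nat_lit 5) (nat_lit 284) (nat_lit 5) (nat_lit 491) (nat_lit 447) (nat_lit 202)) (XT.nd (nat_lit 78) (nat_lit 76) (nat_lit 0) (XT.lf (nat_lit 0) (nat_lit 7608702205) (nat_lit 684) (nat_lit 15650150158) (nat_lit 760) (nat_lit 1819974285) (nat_lit 265) (nat_lit 5) (nat_lit 274) (nat_lit 5) (nat_lit 275) (nat_lit 5) (nat_lit 492) (nat_lit 447) (nat_lit 201)) (XT.lf (nat_lit 0) (nat_lit 1328443364) (nat_lit 760) (nat_lit 4469480098) (nat_lit 76) (nat_lit 19573760800) (nat_lit 264) (nat_lit 5) (nat_lit 274) (nat_lit 5) (nat_lit 265) (nat_lit 5) (nat_lit 493) (nat_lit 447) (nat_lit 200))))))) (XT.nd (nat_lit 780) (nat_lit 1444) (nat_lit 0) (XT.nd (nat_lit 390) (nat_lit 0) (nat_lit 152) (XT.nd (nat_lit 156) (nat_lit 0) (nat_lit 76) (XT.nd (nat_lit 78) (nat_lit 0) (nat_lit 0) (XT.lf (nat_lit 0) (nat_lit 5707340029) (nat_lit 1748) (nat_lit 1111450892) (nat_lit 1748)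 (nat_lit 1111450892) (nat_lit 407) (nat_lit 3) (nat_lit 430) (nat_lit 3) (nat_lit 430) (nat_lit 5) (nat_lit 448) (nat_lit 448) (nat_lit 244)) (XT.lf (nat_lit 76) (nat_lit 5292100243) (nat_lit 0) (nat_lit 6528166660) (nat_lit 1748) (nat_lit 4192859343) (nat_lit 408) (nat_lit 5) (nat_lit 407) (nat_lit 3) (nat_lit 430) (nat_lit 5) (nat_lit 449) (nat_lit 448) (nat_lit 243))) (XT.nd (nat_lit 78) (nat_lit 0) (nat_lit 0) (XT.lf (nat_lit 0) (nat_lit 12246933494) (nat_lit 1672) (nat_lit 3189431544) (nat_lit 1748) (nat_lit 732200821) (nat_lit 408) (nat_lit 5) (nat_lit 430) (nat_lit 5) (nat_lit 431) (nat_lit 5) (nat_lit 450) (nat_lit 448) (nat_lit 242)) (XT.nd (nat_lit 78) (nat_lit 0) (nat_lit 0) (XT.lf (nat_lit 76) (nat_lit 4505071567) (nat_lit 0) (nat_lit 8242932249) (nat_lit 1748) (nat_lit 3577796469) (nat_lit 409) (nat_lit 5) (nat_lit 408) (nat_lit 5) (nat_lit 431) (nat_lit 5) (nat_lit 451) (nat_lit 448) (nat_lit 241))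 (XT.lf (nat_lit 76) (nat_lit 12393146675) (nat_lit 0) (nat_lit 880845825) (nat_lit 1748) (nat_lit 3211892324) (nat_lit 409) (nat_lit 5) (nat_lit 408) (nat_lit 5) (nat_lit 431) (nat_lit 5) (nat_lit 452) (nat_lit 448) (nat_lit 240))))) (XT.nd (nat_lit 156) (nat_lit 0) (nat_lit 76) (XT.nd (nat_lit 78) (nat_lit 0) (nat_lit 0) (XT.lf (nat_lit 76) (nat_lit 3792888465) (nat_lit 0) (nat_lit 10078915507) (nat_lit 1748) (nat_lit 2776144321) (nat_lit 410) (nat_lit 5) (nat_lit 409) (nat_lit 5) (nat_lit 432) (nat_lit 5) (nat_lit 453) (nat_lit 448) (nat_lit 239)) (XT.lf (nat_lit 76) (nat_lit 11882187033) (nat_lit 0) (nat_lit 2626385936) (nat_lit 1748) (nat_lit 2304143268) (nat_lit 410) (nat_lit 5) (nat_lit 409) (nat_lit 5) (nat_lit 432) (nat_lit 5) (nat_lit 454) (nat_lit 448) (nat_lit 238))) (XT.nd (nat_lit 78) (nat_lit 0) (nat_lit 0) (XT.lf (nat_lit 76) (nat_lit 3157926755) (nat_lit 0) (nat_lit 12046837617) (nat_lit 1748)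 (nat_lit 1775084596) (nat_lit 411) (nat_lit 5) (nat_lit 410) (nat_lit 5) (nat_lit 433) (nat_lit 5) (nat_lit 455) (nat_lit 448) (nat_lit 237)) (XT.nd (nat_lit 78) (nat_lit 0) (nat_lit 76) (XT.lf (nat_lit 76) (nat_lit 11453706442) (nat_lit 0) (nat_lit 4505516113) (nat_lit 1748) (nat_lit 1190218049) (nat_lit 411) (nat_lit 5) (nat_lit 410) (nat_lit 5) (nat_lit 433) (nat_lit 5) (nat_lit 456) (nat_lit 448) (nat_lit 236)) (XT.lf (nat_lit 76) (nat_lit 2602702734) (nat_lit 0) (nat_lit 14157766167) (nat_lit 1748) (nat_lit 561324237) (nat_lit 412) (nat_lit 5) (nat_lit 411) (nat_lit 5) (nat_lit 434) (nat_lit 5) (nat_lit 457) (nat_lit 448) (nat_lit 235)))))) (XT.nd (nat_lit 390) (nat_lit 0) (nat_lit 152) (XT.nd (nat_lit 156) (nat_lit 0) (nat_lit 76) (XT.nd (nat_lit 78) (nat_lit 0) (nat_lit 76) (XT.lf (nat_lit 0) (nat_lit 141569588) (nat_lit 1748) (nat_lit 6386900254) (nat_lit 1824) (nat_lit 10967865937) (nat_lit 388) (nat_lit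 5) (nat_lit 411) (nat_lit 5) (nat_lit 412) (nat_lit 5) (nat_lit 458) (nat_lit 448) (nat_lit 234)) (XT.lf (nat_lit 0) (nat_lit 867400529) (nat_lit 1748) (nat_lit 15549920708) (nat_lit 1824) (nat_lit 1256648792) (nat_lit 389) (nat_lit 5) (nat_lit 412) (nat_lit 5) (nat_lit 413) (nat_lit 5) (nat_lit 459) (nat_lit 448) (nat_lit 233))) (XT.nd (nat_lit 78) (nat_lit 0) (nat_lit 0) (XT.lf (nat_lit 0) (nat_lit 1688502799) (nat_lit 1748) (nat_lit 7009830519) (nat_lit 1824) (nat_lit 9155211366) (nat_lit 389) (nat_lit 5) (nat_lit 412) (nat_lit 5) (nat_lit 413) (nat_lit 5) (nat_lit 460) (nat_lit 448) (nat_lit 232)) (XT.nd (nat_lit 78) (nat_lit 0) (nat_lit 76) (XT.lf (nat_lit 76) (nat_lit 1719886714) (nat_lit 0) (nat_lit 811793822) (nat_lit 1824) (nat_lit 15504919987) (nat_lit 390) (nat_lit 5) (nat_lit 389) (nat_lit 5) (nat_lit 413) (nat_lit 5) (nat_lit 461) (nat_lit 448) (nat_lit 231)) (XT.lf (nat_lit 0) (nat_lit 3480613029)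 (nat_lit 1748) (nat_lit 7554257156) (nat_lit 1824) (nat_lit 7186672174) (nat_lit 390) (nat_lit 5) (nat_lit 413) (nat_lit 5) (nat_lit 414) (nat_lit 5) (nat_lit 462) (nat_lit 448) (nat_lit 230))))) (XT.nd (nat_lit 234) (nat_lit 0) (nat_lit 152) (XT.nd (nat_lit 78) (nat_lit 0) (nat_lit 76) (XT.lf (nat_lit 76) (nat_lit 1392582256) (nat_lit 0) (nat_lit 3065047831) (nat_lit 1824) (nat_lit 13952373479) (nat_lit 391) (nat_lit 5) (nat_lit 390) (nat_lit 5) (nat_lit 414) (nat_lit 5) (nat_lit 463) (nat_lit 448) (nat_lit 229)) (XT.nd (nat_lit 78) (nat_lit 0) (nat_lit 0) (XT.lf (nat_lit 0) (nat_lit 5532874123) (nat_lit 1748) (nat_lit 8017523922) (nat_lit 1824) (nat_lit 5050264821) (nat_lit 391) (nat_lit 5) (nat_lit 414) (nat_lit 5) (nat_lit 415) (nat_lit 5) (nat_lit 464) (nat_lit 448) (nat_lit 228)) (XT.lf (nat_lit 76) (nat_lit 1153429428) (nat_lit 0) (nat_lit 5498861085) (nat_lit 1824) (nat_lit 12142394039) (nat_lit 392)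 (nat_lit 5) (nat_lit 391) (nat_lit 5) (nat_lit 415) (nat_lit 5) (nat_lit 465) (nat_lit 448) (nat_lit 227)))) (XT.nd (nat_lit 78) (nat_lit 0) (nat_lit 0) (XT.lf (nat_lit 0) (nat_lit 7860837324) (nat_lit 1748) (nat_lit 8396862705) (nat_lit 1824) (nat_lit 2733554299) (nat_lit 392) (nat_lit 5) (nat_lit 415) (nat_lit 5) (nat_lit 416) (nat_lit 5) (nat_lit 466) (nat_lit 448) (nat_lit 226)) (XT.nd (nat_lit 78) (nat_lit 0) (nat_lit 76) (XT.lf (nat_lit 76) (nat_lit 1005404901) (nat_lit 0) (nat_lit 8126157753) (nat_lit 1824) (nat_lit 10059435144) (nat_lit 393) (nat_lit 5) (nat_lit 392) (nat_lit 5) (nat_lit 416) (nat_lit 5) (nat_lit 467) (nat_lit 448) (nat_lit 225)) (XT.lf (nat_lit 0) (nat_lit 10480657001) (nat_lit 1748) (nat_lit 8689398086) (nat_lit 1824) (nat_lit 223624362) (nat_lit 393) (nat_lit 5) (nat_lit 416) (nat_lit 5) (nat_lit 417) (nat_lit 5) (nat_lit 468) (nat_lit 448) (nat_lit 224))))))))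
noncomputable def xc238 : XT := (XT.nd (nat_lit 1638) (nat_lit 1368) (nat_lit 0) (XT.nd (nat_lit 780) (nat_lit 4788) (nat_lit 0) (XT.nd (nat_lit 390) (nat_lit 1976) (nat_lit 0) (XT.nd (nat_lit 156) (nat_lit 1596) (nat_lit 0) (XT.nd (nat_lit 78) (nat_lit 0) (nat_lit 0) (XT.lf (nat_lit 76) (nat_lit 951596730) (nat_lit 0) (nat_lit 10960368860) (nat_lit 1824) (nat_lit 7687346852) (nat_lit 394) (nat_lit 5) (nat_lit 393) (nat_lit 5) (nat_lit 417) (nat_lit 5) (nat_lit 469) (nat_lit 448) (nat_lit 223)) (XT.lf (nat_lit 76) (nat_lit 10899434808) (nat_lit 0) (nat_lit 2526083252) (nat_lit 1824) (nat_lit 6382469990) (nat_lit 394) (nat_lit 5) (nat_lit 393) (nat_lit 5) (nat_lit 417) (nat_lit 5) (nat_lit 470) (nat_lit 448) (nat_lit 222))) (XT.nd (nat_lit 78) (nat_lit 1672) (nat_lit 0) (XT.lf (nat_lit 76) (nat_lit 995199402) (nat_lit 0) (nat_lit 14015464061) (nat_lit 1824) (nat_lit 5009349532) (nat_lit 395) (nat_lit 5) (nat_lit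 394) (nat_lit 5) (nat_lit 418) (nat_lit 5) (nat_lit 471) (nat_lit 448) (nat_lit 221)) (XT.nd (nat_lit 78) (nat_lit 1672) (nat_lit 0) (XT.lf (nat_lit 76) (nat_lit 11197068364) (nat_lit 0) (nat_lit 5502314310) (nat_lit 1824) (nat_lit 3535460566) (nat_lit 395) (nat_lit 5) (nat_lit 394) (nat_lit 5) (nat_lit 418) (nat_lit 5) (nat_lit 472) (nat_lit 448) (nat_lit 220)) (XT.lf (nat_lit 0) (nat_lit 1139508480) (nat_lit 1748) (nat_lit 17305984555) (nat_lit 1824) (nat_lit 2008006896) (nat_lit 372) (nat_lit 5) (nat_lit 395) (nat_lit 5) (nat_lit 396) (nat_lit 5) (nat_lit 473) (nat_lit 448) (nat_lit 219))))) (XT.nd (nat_lit 156) (nat_lit 912) (nat_lit 0) (XT.nd (nat_lit 78) (nat_lit 1064) (nat_lit 0) (XT.lf (nat_lit 0) (nat_lit 11602161224) (nat_lit 1748) (nat_lit 8716839105) (nat_lit 1824) (nat_lit 355682065) (nat_lit 372) (nat_lit 5) (nat_lit 395) (nat_lit 5) (nat_lit 396) (nat_lit 5) (nat_lit 474) (nat_lit 448) (nat_lit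 218)) (XT.lf (nat_lit 0) (nat_lit 1317295503) (nat_lit 1064) (nat_lit 19520941950) (nat_lit 76) (nat_lit 61779532) (nat_lit 358) (nat_lit 5) (nat_lit 372) (nat_lit 5) (nat_lit 359) (nat_lit 5) (nat_lit 475) (nat_lit 448) (nat_lit 217))) (XT.nd (nat_lit 78) (nat_lit 912) (nat_lit 0) (XT.lf (nat_lit 0) (nat_lit 3133732788) (nat_lit 1064) (nat_lit 9030257066) (nat_lit 76) (nat_lit 8963528148) (nat_lit 358) (nat_lit 5) (nat_lit 372) (nat_lit 5) (nat_lit 359) (nat_lit 5) (nat_lit 476) (nat_lit 448) (nat_lit 216)) (XT.nd (nat_lit 78) (nat_lit 0) (nat_lit 0) (XT.lf (nat_lit 0) (nat_lit 1688649340) (nat_lit 912) (nat_lit 3304643018) (nat_lit 988) (nat_lit 16366142782) (nat_lit 346) (nat_lit 5) (nat_lit 358) (nat_lit 5) (nat_lit 359) (nat_lit 5) (nat_lit 477) (nat_lit 448) (nat_lit 215)) (XT.lf (nat_lit 0) (nat_lit 6984147391) (nat_lit 988) (nat_lit 8891855108) (nat_lit 76) (nat_lit 5718107967) (nat_lit 346) (nat_lit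 5) (nat_lit 359) (nat_lit 5) (nat_lit 347) (nat_lit 5) (nat_lit 478) (nat_lit 448) (nat_lit 214)))))) (XT.nd (nat_lit 390) (nat_lit 2356) (nat_lit 0) (XT.nd (nat_lit 156) (nat_lit 1596) (nat_lit 0) (XT.nd (nat_lit 78) (nat_lit 0) (nat_lit 0) (XT.lf (nat_lit 0) (nat_lit 2104645195) (nat_lit 836) (nat_lit 6941694671) (nat_lit 912) (nat_lit 12786510919) (nat_lit 335) (nat_lit 5) (nat_lit 346) (nat_lit 5) (nat_lit 347) (nat_lit 5) (nat_lit 479) (nat_lit 448) (nat_lit 213)) (XT.lf (nat_lit 0) (nat_lit 11219965170) (nat_lit 912) (nat_lit 8651843611) (nat_lit 76) (nat_lit 2203155209) (nat_lit 335) (nat_lit 5) (nat_lit 347) (nat_lit 5) (nat_lit 336) (nat_lit 5) (nat_lit 480) (nat_lit 448) (nat_lit 212))) (XT.nd (nat_lit 78) (nat_lit 760) (nat_lit 0) (XT.lf (nat_lit 0) (nat_lit 2630867295) (nat_lit 836) (nat_lit 10865353680) (nat_lit 912) (nat_lit 8824517144) (nat_lit 324) (nat_lit 5) (nat_lit 335) (nat_lit 5) (nat_lit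 336) (nat_lit 5) (nat_lit 481) (nat_lit 448) (nat_lit 211)) (XT.nd (nat_lit 78) (nat_lit 760) (nat_lit 0) (XT.lf (nat_lit 0) (nat_lit 14252823729) (nat_lit 836) (nat_lit 1619394196) (nat_lit 912) (nat_lit 6698127270) (nat_lit 324) (nat_lit 5) (nat_lit 335) (nat_lit 5) (nat_lit 336) (nat_lit 5) (nat_lit 482) (nat_lit 448) (nat_lit 210)) (XT.lf (nat_lit 0) (nat_lit 3270761667) (nat_lit 760) (nat_lit 15093160377) (nat_lit 836) (nat_lit 4459660373) (nat_lit 314) (nat_lit 5) (nat_lit 324) (nat_lit 5) (nat_lit 325) (nat_lit 5) (nat_lit 483) (nat_lit 448) (nat_lit 209))))) (XT.nd (nat_lit 234) (nat_lit 1520) (nat_lit 0) (XT.nd (nat_lit 78) (nat_lit 836) (nat_lit 0) (XT.lf (nat_lit 0) (nat_lit 15189021459) (nat_lit 760) (nat_lit 5779191606) (nat_lit 836) (nat_lit 2112417977) (nat_lit 314) (nat_lit 5) (nat_lit 324) (nat_lit 5) (nat_lit 325) (nat_lit 5) (nat_lit 484) (nat_lit 448) (nat_lit 208)) (XT.nd (nat_lit 78) (nat_lit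 0) (nat_lit 0) (XT.lf (nat_lit 0) (nat_lit 325049194) (nat_lit 836) (nat_lit 19316206748) (nat_lit 76) (nat_lit 3700590252) (nat_lit 303) (nat_lit 5) (nat_lit 314) (nat_lit 5) (nat_lit 304) (nat_lit 5) (nat_lit 485) (nat_lit 448) (nat_lit 207)) (XT.lf (nat_lit 0) (nat_lit 2870966674) (nat_lit 836) (nat_lit 7375329942) (nat_lit 76) (nat_lit 13359951662) (nat_lit 303) (nat_lit 5) (nat_lit 314) (nat_lit 5) (nat_lit 304) (nat_lit 5) (nat_lit 486) (nat_lit 448) (nat_lit 206)))) (XT.nd (nat_lit 78) (nat_lit 760) (nat_lit 0) (XT.lf (nat_lit 0) (nat_lit 4864539481) (nat_lit 760) (nat_lit 631297277) (nat_lit 836) (nat_lit 18379542546) (nat_lit 293) (nat_lit 5) (nat_lit 303) (nat_lit 5) (nat_lit 304) (nat_lit 5) (nat_lit 487) (nat_lit 448) (nat_lit 205)) (XT.nd (nat_lit 78) (nat_lit 760) (nat_lit 0) (XT.lf (nat_lit 0) (nat_lit 8279097077) (nat_lit 836) (nat_lit 6763298102) (nat_lit 76) (nat_lit 9105381468) (nat_lit 293)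 (nat_lit 5) (nat_lit 304) (nat_lit 5) (nat_lit 294) (nat_lit 5) (nat_lit 488) (nat_lit 448) (nat_lit 204)) (XT.lf (nat_lit 0) (nat_lit 5797448873) (nat_lit 760) (nat_lit 5358960125) (nat_lit 836) (nat_lit 13268446735) (nat_lit 283) (nat_lit 5) (nat_lit 293) (nat_lit 5) (nat_lit 294) (nat_lit 5) (nat_lit 489) (nat_lit 448) (nat_lit 203))))))) (XT.nd (nat_lit 56628) (nat_lit 0) (nat_lit 9348) (XT.nd (nat_lit 56238) (nat_lit 0) (nat_lit 10792) (XT.nd (nat_lit 156) (nat_lit 684) (nat_lit 0) (XT.nd (nat_lit 78) (nat_lit 684) (nat_lit 0) (XT.lf (nat_lit 0) (nat_lit 14162895479) (nat_lit 836) (nat_lit 6038758795) (nat_lit 76) (nat_lit 4504391055) (nat_lit 283) (nat_lit 5) (nat_lit 294) (nat_lit 5) (nat_lit 284) (nat_lit 5) (nat_lit 490) (nat_lit 448) (nat_lit 202)) (XT.lf (nat_lit 0) (nat_lit 6852471448) (nat_lit 684) (nat_lit 10453695028) (nat_lit 760) (nat_lit 7685160606) (nat_lit 274) (nat_lit 5) (nat_lit 283) (nat_lit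 5) (nat_lit 284) (nat_lit 5) (nat_lit 491) (nat_lit 448) (nat_lit 201))) (XT.nd (nat_lit 78) (nat_lit 684) (nat_lit 0) (XT.lf (nat_lit 0) (nat_lit 20079834388) (nat_lit 684) (nat_lit 469708124) (nat_lit 760) (nat_lit 4732028605) (nat_lit 274) (nat_lit 5) (nat_lit 283) (nat_lit 5) (nat_lit 284) (nat_lit 5) (nat_lit 492) (nat_lit 448) (nat_lit 200)) (XT.nd (nat_lit 55926) (nat_lit 0) (nat_lit 10792) (XT.lf (nat_lit 0) (nat_lit 8032864158) (nat_lit 684) (nat_lit 15936925116) (nat_lit 760) (nat_lit 1605592099) (nat_lit 265) (nat_lit 5) (nat_lit 274) (nat_lit 5) (nat_lit 275) (nat_lit 5) (nat_lit 493) (nat_lit 448) (nat_lit 199)) (XT.lf (nat_lit 0) (nat_lit 6076897914) (nat_lit 1748) (nat_lit 1003353982) (nat_lit 1748) (nat_lit 1003353982) (nat_lit 407) (nat_lit 3) (nat_lit 430) (nat_lit 3) (nat_lit 430) (nat_lit 5) (nat_lit 449) (nat_lit 449) (nat_lit 242))))) (XT.nd (nat_lit 156) (nat_lit 0) (nat_lit 76) (XT.nd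 (nat_lit 78) (nat_lit 0) (nat_lit 76) (XT.lf (nat_lit 76) (nat_lit 5656879289) (nat_lit 0) (nat_lit 6902280191) (nat_lit 1748) (nat_lit 3763919646) (nat_lit 408) (nat_lit 5) (nat_lit 407) (nat_lit 3) (nat_lit 430) (nat_lit 5) (nat_lit 450) (nat_lit 449) (nat_lit 241)) (XT.lf (nat_lit 0) (nat_lit 12982956427) (nat_lit 1672) (nat_lit 2987702551) (nat_lit 1748) (nat_lit 511201707) (nat_lit 408) (nat_lit 5) (nat_lit 430) (nat_lit 5) (nat_lit 431) (nat_lit 5) (nat_lit 451) (nat_lit 449) (nat_lit 240))) (XT.nd (nat_lit 78) (nat_lit 0) (nat_lit 0) (XT.lf (nat_lit 76) (nat_lit 4858943795) (nat_lit 0) (nat_lit 8627187832) (nat_lit 1748) (nat_lit 3156271500) (nat_lit 409) (nat_lit 5) (nat_lit 408) (nat_lit 5) (nat_lit 431) (nat_lit 5) (nat_lit 452) (nat_lit 449) (nat_lit 239)) (XT.nd (nat_lit 78) (nat_lit 0) (nat_lit 76) (XT.lf (nat_lit 76) (nat_lit 12899608430) (nat_lit 0) (nat_lit 1113557779) (nat_lit 1748) (nat_lit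 2792717524) (nat_lit 409) (nat_lit 5) (nat_lit 408) (nat_lit 5) (nat_lit 431) (nat_lit 5) (nat_lit 453) (nat_lit 449) (nat_lit 238)) (XT.lf (nat_lit 76) (nat_lit 4136685947) (nat_lit 0) (nat_lit 10477330333) (nat_lit 1748) (nat_lit 2357355345) (nat_lit 410) (nat_lit 5) (nat_lit 409) (nat_lit 5) (nat_lit 432) (nat_lit 5) (nat_lit 454) (nat_lit 449) (nat_lit 237)))))) (XT.nd (nat_lit 390) (nat_lit 0) (nat_lit 76) (XT.nd (nat_lit 156) (nat_lit 1596) (nat_lit 0) (XT.nd (nat_lit 78) (nat_lit 0) (nat_lit 76) (XT.lf (nat_lit 76) (nat_lit 12382516766) (nat_lit 0) (nat_lit 2871890631) (nat_lit 1748) (nat_lit 1885214504) (nat_lit 410) (nat_lit 5) (nat_lit 409) (nat_lit 5) (nat_lit 432) (nat_lit 5) (nat_lit 455) (nat_lit 449) (nat_lit 236)) (XT.lf (nat_lit 76) (nat_lit 3492574934) (nat_lit 0) (nat_lit 12463547452) (nat_lit 1748) (nat_lit 1354147523) (nat_lit 411) (nat_lit 5) (nat_lit 410) (nat_lit 5) (nat_lit 433) (nat_lit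 5) (nat_lit 456) (nat_lit 449) (nat_lit 235))) (XT.nd (nat_lit 78) (nat_lit 1672) (nat_lit 0) (XT.lf (nat_lit 76) (nat_lit 11948946887) (nat_lit 0) (nat_lit 4767952987) (nat_lit 1748) (nat_lit 766533425) (nat_lit 411) (nat_lit 5) (nat_lit 410) (nat_lit 5) (nat_lit 433) (nat_lit 5) (nat_lit 457) (nat_lit 449) (nat_lit 234)) (XT.nd (nat_lit 78) (nat_lit 1748) (nat_lit 0) (XT.lf (nat_lit 76) (nat_lit 2929220440) (nat_lit 0) (nat_lit 14597037888) (nat_lit 1748) (nat_lit 133137249) (nat_lit 412) (nat_lit 5) (nat_lit 411) (nat_lit 5) (nat_lit 434) (nat_lit 5) (nat_lit 458) (nat_lit 449) (nat_lit 233)) (XT.lf (nat_lit 0) (nat_lit 569548516) (nat_lit 1748) (nat_lit 6239693050) (nat_lit 1824) (nat_lit 11028304768) (nat_lit 388) (nat_lit 5) (nat_lit 411) (nat_lit 5) (nat_lit 412) (nat_lit 5) (nat_lit 459) (nat_lit 449) (nat_lit 232))))) (XT.nd (nat_lit 234) (nat_lit 0) (nat_lit 76) (XT.nd (nat_lit 78) (nat_lit 0) (nat_lit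 0) (XT.lf (nat_lit 0) (nat_lit 1302388884) (nat_lit 1748) (nat_lit 15578257694) (nat_lit 1824) (nat_lit 1138241016) (nat_lit 389) (nat_lit 5) (nat_lit 412) (nat_lit 5) (nat_lit 413) (nat_lit 5) (nat_lit 460) (nat_lit 449) (nat_lit 231)) (XT.nd (nat_lit 78) (nat_lit 0) (nat_lit 0) (XT.lf (nat_lit 0) (nat_lit 2131724173) (nat_lit 1748) (nat_lit 6872908082) (nat_lit 1824) (nat_lit 9197589365) (nat_lit 389) (nat_lit 5) (nat_lit 412) (nat_lit 5) (nat_lit 413) (nat_lit 5) (nat_lit 461) (nat_lit 449) (nat_lit 230)) (XT.lf (nat_lit 76) (nat_lit 2029580344) (nat_lit 0) (nat_lit 955944067) (nat_lit 1824) (nat_lit 15403543005) (nat_lit 390) (nat_lit 5) (nat_lit 389) (nat_lit 5) (nat_lit 413) (nat_lit 5) (nat_lit 462) (nat_lit 449) (nat_lit 229)))) (XT.nd (nat_lit 78) (nat_lit 0) (nat_lit 0) (XT.lf (nat_lit 0) (nat_lit 3944715251) (nat_lit 1748) (nat_lit 7426527086) (nat_lit 1824) (nat_lit 7206644098) (nat_lit 390) (nat_lit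 5) (nat_lit 413) (nat_lit 5) (nat_lit 414) (nat_lit 5) (nat_lit 463) (nat_lit 449) (nat_lit 228)) (XT.nd (nat_lit 78) (nat_lit 0) (nat_lit 76) (XT.lf (nat_lit 76) (nat_lit 1697414805) (nat_lit 0) (nat_lit 3237921092) (nat_lit 1824) (nat_lit 13834903567) (nat_lit 391) (nat_lit 5) (nat_lit 390) (nat_lit 5) (nat_lit 414) (nat_lit 5) (nat_lit 464) (nat_lit 449) (nat_lit 227)) (XT.lf (nat_lit 0) (nat_lit 6023755925) (nat_lit 1748) (nat_lit 7897806283) (nat_lit 1824) (nat_lit 5043320105) (nat_lit 391) (nat_lit 5) (nat_lit 414) (nat_lit 5) (nat_lit 415) (nat_lit 5) (nat_lit 465) (nat_lit 449) (nat_lit 226))))))))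
noncomputable def xc239 : XT := (XT.nd (nat_lit 1638) (nat_lit 2204) (nat_lit 0) (XT.nd (nat_lit 780) (nat_lit 5244) (nat_lit 0) (XT.nd (nat_lit 390) (nat_lit 1444) (nat_lit 0) (XT.nd (nat_lit 156) (nat_lit 0) (nat_lit 76) (XT.nd (nat_lit 78) (nat_lit 0) (nat_lit 76) (XT.lf (nat_lit 76) (nat_lit 1454723580) (nat_lit 0) (nat_lit 5705188108) (nat_lit 1824) (nat_lit 12002989435) (nat_lit 392) (nat_lit 5) (nat_lit 391) (nat_lit 5) (nat_lit 415) (nat_lit 5) (nat_lit 466) (nat_lit 449) (nat_lit 225)) (XT.lf (nat_lit 0) (nat_lit 8384671520) (nat_lit 1748) (nat_lit 8283889911) (nat_lit 1824) (nat_lit 2695003662) (nat_lit 392) (nat_lit 5) (nat_lit 415) (nat_lit 5) (nat_lit 416) (nat_lit 5) (nat_lit 467) (nat_lit 449) (nat_lit 224))) (XT.nd (nat_lit 78) (nat_lit 0) (nat_lit 76) (XT.lf (nat_lit 76) (nat_lit 1304574955) (nat_lit 0) (nat_lit 8370859680) (nat_lit 1824) (nat_lit 9891979900) (nat_lit 393) (nat_lit 5) (nat_lit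 392) (nat_lit 5) (nat_lit 416) (nat_lit 5) (nat_lit 468) (nat_lit 449) (nat_lit 223)) (XT.nd (nat_lit 78) (nat_lit 0) (nat_lit 0) (XT.lf (nat_lit 0) (nat_lit 11043904620) (nat_lit 1748) (nat_lit 8581814740) (nat_lit 1824) (nat_lit 148586083) (nat_lit 393) (nat_lit 5) (nat_lit 416) (nat_lit 5) (nat_lit 417) (nat_lit 5) (nat_lit 469) (nat_lit 449) (nat_lit 222)) (XT.lf (nat_lit 76) (nat_lit 1250148845) (nat_lit 0) (nat_lit 11248571356) (nat_lit 1824) (nat_lit 7485436707) (nat_lit 394) (nat_lit 5) (nat_lit 393) (nat_lit 5) (nat_lit 417) (nat_lit 5) (nat_lit 470) (nat_lit 449) (nat_lit 221))))) (XT.nd (nat_lit 156) (nat_lit 1596) (nat_lit 0) (XT.nd (nat_lit 78) (nat_lit 0) (nat_lit 76) (XT.lf (nat_lit 76) (nat_lit 11391462897) (nat_lit 0) (nat_lit 2644247190) (nat_lit 1824) (nat_lit 6161435976) (nat_lit 394) (nat_lit 5) (nat_lit 393) (nat_lit 5) (nat_lit 417) (nat_lit 5) (nat_lit 471) (nat_lit 449) (nat_lit 220))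 (XT.lf (nat_lit 76) (nat_lit 1294731864) (nat_lit 0) (nat_lit 14352511860) (nat_lit 1824) (nat_lit 4766277372) (nat_lit 395) (nat_lit 5) (nat_lit 394) (nat_lit 5) (nat_lit 418) (nat_lit 5) (nat_lit 472) (nat_lit 449) (nat_lit 219))) (XT.nd (nat_lit 78) (nat_lit 1672) (nat_lit 0) (XT.lf (nat_lit 76) (nat_lit 11695155294) (nat_lit 0) (nat_lit 5667986594) (nat_lit 1824) (nat_lit 3269641199) (nat_lit 395) (nat_lit 5) (nat_lit 394) (nat_lit 5) (nat_lit 418) (nat_lit 5) (nat_lit 473) (nat_lit 449) (nat_lit 218)) (XT.nd (nat_lit 78) (nat_lit 0) (nat_lit 0) (XT.lf (nat_lit 0) (nat_lit 1441711972) (nat_lit 1748) (nat_lit 17697456433) (nat_lit 1824) (nat_lit 1716747796) (nat_lit 372) (nat_lit 5) (nat_lit 395) (nat_lit 5) (nat_lit 396) (nat_lit 5) (nat_lit 474) (nat_lit 449) (nat_lit 217)) (XT.lf (nat_lit 0) (nat_lit 12108139078) (nat_lit 1748) (nat_lit 8935638816) (nat_lit 1824) (nat_lit 37874886) (nat_lit 372) (nat_lit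 5) (nat_lit 395) (nat_lit 5) (nat_lit 396) (nat_lit 5) (nat_lit 475) (nat_lit 449) (nat_lit 216)))))) (XT.nd (nat_lit 390) (nat_lit 2432) (nat_lit 0) (XT.nd (nat_lit 156) (nat_lit 1748) (nat_lit 0) (XT.nd (nat_lit 78) (nat_lit 0) (nat_lit 0) (XT.lf (nat_lit 0) (nat_lit 1659551296) (nat_lit 1064) (nat_lit 19628113674) (nat_lit 76) (nat_lit 23884877) (nat_lit 358) (nat_lit 5) (nat_lit 372) (nat_lit 5) (nat_lit 359) (nat_lit 5) (nat_lit 476) (nat_lit 449) (nat_lit 215)) (XT.lf (nat_lit 0) (nat_lit 3506123015) (nat_lit 1064) (nat_lit 8933168957) (nat_lit 76) (nat_lit 9104435726) (nat_lit 358) (nat_lit 5) (nat_lit 372) (nat_lit 5) (nat_lit 359) (nat_lit 5) (nat_lit 477) (nat_lit 449) (nat_lit 214))) (XT.nd (nat_lit 78) (nat_lit 836) (nat_lit 0) (XT.lf (nat_lit 0) (nat_lit 1998288648) (nat_lit 912) (nat_lit 3400303381) (nat_lit 988) (nat_lit 16381779653) (nat_lit 346) (nat_lit 5) (nat_lit 358) (nat_lit 5) (nat_lit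 359) (nat_lit 5) (nat_lit 478) (nat_lit 449) (nat_lit 213)) (XT.nd (nat_lit 78) (nat_lit 836) (nat_lit 0) (XT.lf (nat_lit 0) (nat_lit 7423087057) (nat_lit 988) (nat_lit 8792917256) (nat_lit 76) (nat_lit 5803862558) (nat_lit 346) (nat_lit 5) (nat_lit 359) (nat_lit 5) (nat_lit 347) (nat_lit 5) (nat_lit 479) (nat_lit 449) (nat_lit 212)) (XT.lf (nat_lit 0) (nat_lit 2421692165) (nat_lit 836) (nat_lit 7100748622) (nat_lit 912) (nat_lit 12741025620) (nat_lit 335) (nat_lit 5) (nat_lit 346) (nat_lit 5) (nat_lit 347) (nat_lit 5) (nat_lit 480) (nat_lit 449) (nat_lit 211))))) (XT.nd (nat_lit 234) (nat_lit 1596) (nat_lit 0) (XT.nd (nat_lit 78) (nat_lit 836) (nat_lit 0) (XT.lf (nat_lit 0) (nat_lit 11733622161) (nat_lit 912) (nat_lit 8549266030) (nat_lit 76) (nat_lit 2227654718) (nat_lit 335) (nat_lit 5) (nat_lit 347) (nat_lit 5) (nat_lit 336) (nat_lit 5) (nat_lit 481) (nat_lit 449) (nat_lit 210)) (XT.nd (nat_lit 78) (nat_lit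 0) (nat_lit 0) (XT.lf (nat_lit 0) (nat_lit 2957285841) (nat_lit 836) (nat_lit 11094223220) (nat_lit 912) (nat_lit 8709803990) (nat_lit 324) (nat_lit 5) (nat_lit 335) (nat_lit 5) (nat_lit 336) (nat_lit 5) (nat_lit 482) (nat_lit 449) (nat_lit 209)) (XT.lf (nat_lit 0) (nat_lit 14806312753) (nat_lit 836) (nat_lit 1663117831) (nat_lit 912) (nat_lit 6546596190) (nat_lit 324) (nat_lit 5) (nat_lit 335) (nat_lit 5) (nat_lit 336) (nat_lit 5) (nat_lit 483) (nat_lit 449) (nat_lit 208)))) (XT.nd (nat_lit 78) (nat_lit 836) (nat_lit 0) (XT.lf (nat_lit 0) (nat_lit 3608604218) (nat_lit 760) (nat_lit 15398575537) (nat_lit 836) (nat_lit 4267227315) (nat_lit 314) (nat_lit 5) (nat_lit 324) (nat_lit 5) (nat_lit 325) (nat_lit 5) (nat_lit 484) (nat_lit 449) (nat_lit 207)) (XT.nd (nat_lit 78) (nat_lit 836) (nat_lit 0) (XT.lf (nat_lit 0) (nat_lit 15759887495) (nat_lit 760) (nat_lit 5898257745) (nat_lit 836) (nat_lit 1878562155) (nat_lit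 314) (nat_lit 5) (nat_lit 324) (nat_lit 5) (nat_lit 325) (nat_lit 5) (nat_lit 485) (nat_lit 449) (nat_lit 206)) (XT.lf (nat_lit 0) (nat_lit 600438276) (nat_lit 836) (nat_lit 19427986669) (nat_lit 76) (nat_lit 3774760351) (nat_lit 303) (nat_lit 5) (nat_lit 314) (nat_lit 5) (nat_lit 304) (nat_lit 5) (nat_lit 486) (nat_lit 449) (nat_lit 205))))))) (XT.nd (nat_lit 56784) (nat_lit 0) (nat_lit 8664) (XT.nd (nat_lit 390) (nat_lit 684) (nat_lit 0) (XT.nd (nat_lit 156) (nat_lit 760) (nat_lit 0) (XT.nd (nat_lit 78) (nat_lit 760) (nat_lit 0) (XT.lf (nat_lit 0) (nat_lit 3192001790) (nat_lit 836) (nat_lit 7253675547) (nat_lit 76) (nat_lit 13627305885) (nat_lit 303) (nat_lit 5) (nat_lit 314) (nat_lit 5) (nat_lit 304) (nat_lit 5) (nat_lit 487) (nat_lit 449) (nat_lit 204)) (XT.lf (nat_lit 0) (nat_lit 5229220469) (nat_lit 760) (nat_lit 636715944) (nat_lit 836) (nat_lit 18481631420) (nat_lit 293) (nat_lit 5) (nat_lit 303) (nat_lit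 5) (nat_lit 304) (nat_lit 5) (nat_lit 488) (nat_lit 449) (nat_lit 203))) (XT.nd (nat_lit 78) (nat_lit 760) (nat_lit 0) (XT.lf (nat_lit 0) (nat_lit 8699806189) (nat_lit 836) (nat_lit 6631247926) (nat_lit 76) (nat_lit 9294462386) (nat_lit 293) (nat_lit 5) (nat_lit 304) (nat_lit 5) (nat_lit 294) (nat_lit 5) (nat_lit 489) (nat_lit 449) (nat_lit 202)) (XT.nd (nat_lit 78) (nat_lit 0) (nat_lit 0) (XT.lf (nat_lit 0) (nat_lit 6178955330) (nat_lit 760) (nat_lit 5452430700) (nat_lit 836) (nat_lit 13276818923) (nat_lit 283) (nat_lit 5) (nat_lit 293) (nat_lit 5) (nat_lit 294) (nat_lit 5) (nat_lit 490) (nat_lit 449) (nat_lit 201)) (XT.lf (nat_lit 0) (nat_lit 14693151289) (nat_lit 836) (nat_lit 5894223805) (nat_lit 76) (nat_lit 4607742440) (nat_lit 283) (nat_lit 5) (nat_lit 294) (nat_lit 5) (nat_lit 284) (nat_lit 5) (nat_lit 491) (nat_lit 449) (nat_lit 200))))) (XT.nd (nat_lit 56160) (nat_lit 0) (nat_lit 10108) (XT.nd (nat_lit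 56082) (nat_lit 0) (nat_lit 10108) (XT.lf (nat_lit 0) (nat_lit 7253085581) (nat_lit 684) (nat_lit 10643070266) (nat_lit 760) (nat_lit 7590013846) (nat_lit 274) (nat_lit 5) (nat_lit 283) (nat_lit 5) (nat_lit 284) (nat_lit 5) (nat_lit 492) (nat_lit 449) (nat_lit 199)) (XT.lf (nat_lit 0) (nat_lit 6443929033) (nat_lit 1748) (nat_lit 898155849) (nat_lit 1748) (nat_lit 898155849) (nat_lit 407) (nat_lit 3) (nat_lit 430) (nat_lit 3) (nat_lit 430) (nat_lit 5) (nat_lit 450) (nat_lit 450) (nat_lit 240))) (XT.nd (nat_lit 78) (nat_lit 0) (nat_lit 76) (XT.lf (nat_lit 76) (nat_lit 6018899074) (nat_lit 0) (nat_lit 7274418642) (nat_lit 1748) (nat_lit 3346313683) (nat_lit 408) (nat_lit 5) (nat_lit 407) (nat_lit 3) (nat_lit 430) (nat_lit 5) (nat_lit 451) (nat_lit 450) (nat_lit 239)) (XT.nd (nat_lit 78) (nat_lit 0) (nat_lit 0) (XT.lf (nat_lit 0) (nat_lit 13714630419) (nat_lit 1672) (nat_lit 2792249352) (nat_lit 1748) (nat_lit 294932920)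 (nat_lit 408) (nat_lit 5) (nat_lit 430) (nat_lit 5) (nat_lit 431) (nat_lit 5) (nat_lit 452) (nat_lit 450) (nat_lit 238)) (XT.lf (nat_lit 76) (nat_lit 5209650927) (nat_lit 0) (nat_lit 9010609077) (nat_lit 1748) (nat_lit 2745462963) (nat_lit 409) (nat_lit 5) (nat_lit 408) (nat_lit 5) (nat_lit 431) (nat_lit 5) (nat_lit 453) (nat_lit 450) (nat_lit 237)))))) (XT.nd (nat_lit 390) (nat_lit 1520) (nat_lit 0) (XT.nd (nat_lit 156) (nat_lit 0) (nat_lit 76) (XT.nd (nat_lit 78) (nat_lit 0) (nat_lit 76) (XT.lf (nat_lit 76) (nat_lit 13406157711) (nat_lit 0) (nat_lit 1342571570) (nat_lit 1748) (nat_lit 2383930731) (nat_lit 409) (nat_lit 5) (nat_lit 408) (nat_lit 5) (nat_lit 431) (nat_lit 5) (nat_lit 454) (nat_lit 450) (nat_lit 236)) (XT.lf (nat_lit 76) (nat_lit 4476954953) (nat_lit 0) (nat_lit 10876070053) (nat_lit 1748) (nat_lit 1948608698) (nat_lit 410) (nat_lit 5) (nat_lit 409) (nat_lit 5) (nat_lit 432) (nat_lit 5) (nat_lit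 455) (nat_lit 450) (nat_lit 235))) (XT.nd (nat_lit 78) (nat_lit 0) (nat_lit 76) (XT.lf (nat_lit 76) (nat_lit 12882652678) (nat_lit 0) (nat_lit 3114811889) (nat_lit 1748) (nat_lit 1475964133) (nat_lit 410) (nat_lit 5) (nat_lit 409) (nat_lit 5) (nat_lit 432) (nat_lit 5) (nat_lit 456) (nat_lit 450) (nat_lit 234)) (XT.nd (nat_lit 78) (nat_lit 0) (nat_lit 0) (XT.lf (nat_lit 76) (nat_lit 3823373802) (nat_lit 0) (nat_lit 12881766000) (nat_lit 1748) (nat_lit 942515783) (nat_lit 411) (nat_lit 5) (nat_lit 410) (nat_lit 5) (nat_lit 433) (nat_lit 5) (nat_lit 457) (nat_lit 450) (nat_lit 233)) (XT.lf (nat_lit 76) (nat_lit 12443756579) (nat_lit 0) (nat_lit 5028946948) (nat_lit 1748) (nat_lit 351751651) (nat_lit 411) (nat_lit 5) (nat_lit 410) (nat_lit 5) (nat_lit 433) (nat_lit 5) (nat_lit 458) (nat_lit 450) (nat_lit 232))))) (XT.nd (nat_lit 234) (nat_lit 0) (nat_lit 76) (XT.nd (nat_lit 78) (nat_lit 0) (nat_lit 0) (XT.lf (nat_lit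 0) (nat_lit 282792355) (nat_lit 1748) (nat_lit 14754342811) (nat_lit 1824) (nat_lit 2966920702) (nat_lit 388) (nat_lit 5) (nat_lit 411) (nat_lit 5) (nat_lit 412) (nat_lit 5) (nat_lit 459) (nat_lit 450) (nat_lit 231)) (XT.nd (nat_lit 78) (nat_lit 0) (nat_lit 76) (XT.lf (nat_lit 0) (nat_lit 989578024) (nat_lit 1748) (nat_lit 6100218161) (nat_lit 1824) (nat_lit 11096123375) (nat_lit 388) (nat_lit 5) (nat_lit 411) (nat_lit 5) (nat_lit 412) (nat_lit 5) (nat_lit 460) (nat_lit 450) (nat_lit 230)) (XT.lf (nat_lit 0) (nat_lit 1729859523) (nat_lit 1748) (nat_lit 15618137507) (nat_lit 1824) (nat_lit 1023038946) (nat_lit 389) (nat_lit 5) (nat_lit 412) (nat_lit 5) (nat_lit 413) (nat_lit 5) (nat_lit 461) (nat_lit 450) (nat_lit 229)))) (XT.nd (nat_lit 78) (nat_lit 0) (nat_lit 0) (XT.lf (nat_lit 0) (nat_lit 2567910481) (nat_lit 1748) (nat_lit 6744008067) (nat_lit 1824) (nat_lit 9246279495) (nat_lit 389) (nat_lit 5) (nat_lit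 412) (nat_lit 5) (nat_lit 413) (nat_lit 5) (nat_lit 462) (nat_lit 450) (nat_lit 228)) (XT.nd (nat_lit 78) (nat_lit 0) (nat_lit 76) (XT.lf (nat_lit 76) (nat_lit 2334777771) (nat_lit 0) (nat_lit 1098010247) (nat_lit 1824) (nat_lit 15316116573) (nat_lit 390) (nat_lit 5) (nat_lit 389) (nat_lit 5) (nat_lit 413) (nat_lit 5) (nat_lit 463) (nat_lit 450) (nat_lit 227)) (XT.lf (nat_lit 0) (nat_lit 4402780990) (nat_lit 1748) (nat_lit 7307069148) (nat_lit 1824) (nat_lit 7231821272) (nat_lit 390) (nat_lit 5) (nat_lit 413) (nat_lit 5) (nat_lit 414) (nat_lit 5) (nat_lit 464) (nat_lit 450) (nat_lit 226))))))))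
noncomputable def xc240 : XT := (XT.nd (nat_lit 1560) (nat_lit 3116) (nat_lit 0) (XT.nd (nat_lit 780) (nat_lit 5016) (nat_lit 0) (XT.nd (nat_lit 390) (nat_lit 0) (nat_lit 228) (XT.nd (nat_lit 156) (nat_lit 0) (nat_lit 76) (XT.nd (nat_lit 78) (nat_lit 0) (nat_lit 76) (XT.lf (nat_lit 76) (nat_lit 1997588498) (nat_lit 0) (nat_lit 3409919329) (nat_lit 1824) (nat_lit 13730481510) (nat_lit 391) (nat_lit 5) (nat_lit 390) (nat_lit 5) (nat_lit 414) (nat_lit 5) (nat_lit 465) (nat_lit 450) (nat_lit 225)) (XT.lf (nat_lit 0) (nat_lit 6509690789) (nat_lit 1748) (nat_lit 7786569679) (nat_lit 1824) (nat_lit 5040428325) (nat_lit 391) (nat_lit 5) (nat_lit 414) (nat_lit 5) (nat_lit 415) (nat_lit 5) (nat_lit 466) (nat_lit 450) (nat_lit 224))) (XT.nd (nat_lit 78) (nat_lit 0) (nat_lit 76) (XT.lf (nat_lit 76) (nat_lit 1751239777) (nat_lit 0) (nat_lit 5911900292) (nat_lit 1824) (nat_lit 11875640069) (nat_lit 392) (nat_lit 5) (nat_lit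 391) (nat_lit 5) (nat_lit 415) (nat_lit 5) (nat_lit 467) (nat_lit 450) (nat_lit 223)) (XT.nd (nat_lit 78) (nat_lit 0) (nat_lit 0) (XT.lf (nat_lit 0) (nat_lit 8904746197) (nat_lit 1748) (nat_lit 8179565740) (nat_lit 1824) (nat_lit 2659301926) (nat_lit 392) (nat_lit 5) (nat_lit 415) (nat_lit 5) (nat_lit 416) (nat_lit 5) (nat_lit 468) (nat_lit 450) (nat_lit 222)) (XT.lf (nat_lit 76) (nat_lit 1598892094) (nat_lit 0) (nat_lit 8617264543) (nat_lit 1824) (nat_lit 9735490446) (nat_lit 393) (nat_lit 5) (nat_lit 392) (nat_lit 5) (nat_lit 416) (nat_lit 5) (nat_lit 469) (nat_lit 450) (nat_lit 221))))) (XT.nd (nat_lit 156) (nat_lit 0) (nat_lit 0) (XT.nd (nat_lit 78) (nat_lit 0) (nat_lit 0) (XT.lf (nat_lit 0) (nat_lit 11604685133) (nat_lit 1748) (nat_lit 8483005718) (nat_lit 1824) (nat_lit 75134538) (nat_lit 393) (nat_lit 5) (nat_lit 416) (nat_lit 5) (nat_lit 417) (nat_lit 5) (nat_lit 470) (nat_lit 450) (nat_lit 220)) (XT.lf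 (nat_lit 76) (nat_lit 1543817893) (nat_lit 0) (nat_lit 11539858738) (nat_lit 1824) (nat_lit 7293298957) (nat_lit 394) (nat_lit 5) (nat_lit 393) (nat_lit 5) (nat_lit 417) (nat_lit 5) (nat_lit 471) (nat_lit 450) (nat_lit 219))) (XT.nd (nat_lit 78) (nat_lit 0) (nat_lit 76) (XT.lf (nat_lit 76) (nat_lit 11882690264) (nat_lit 0) (nat_lit 2762147776) (nat_lit 1824) (nat_lit 5949521083) (nat_lit 394) (nat_lit 5) (nat_lit 393) (nat_lit 5) (nat_lit 417) (nat_lit 5) (nat_lit 472) (nat_lit 450) (nat_lit 218)) (XT.nd (nat_lit 78) (nat_lit 0) (nat_lit 0) (XT.lf (nat_lit 76) (nat_lit 1589396662) (nat_lit 0) (nat_lit 14694097389) (nat_lit 1824) (nat_lit 4531672941) (nat_lit 395) (nat_lit 5) (nat_lit 394) (nat_lit 5) (nat_lit 418) (nat_lit 5) (nat_lit 473) (nat_lit 450) (nat_lit 217)) (XT.lf (nat_lit 76) (nat_lit 12192558557) (nat_lit 0) (nat_lit 5834812299) (nat_lit 1824) (nat_lit 3011573259) (nat_lit 395) (nat_lit 5) (nat_lit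 394) (nat_lit 5) (nat_lit 418) (nat_lit 5) (nat_lit 474) (nat_lit 450) (nat_lit 216)))))) (XT.nd (nat_lit 390) (nat_lit 1672) (nat_lit 0) (XT.nd (nat_lit 156) (nat_lit 1900) (nat_lit 0) (XT.nd (nat_lit 78) (nat_lit 76) (nat_lit 0) (XT.lf (nat_lit 0) (nat_lit 1739109574) (nat_lit 1748) (nat_lit 18094996668) (nat_lit 1824) (nat_lit 1432532928) (nat_lit 372) (nat_lit 5) (nat_lit 395) (nat_lit 5) (nat_lit 396) (nat_lit 5) (nat_lit 475) (nat_lit 450) (nat_lit 215)) (XT.lf (nat_lit 0) (nat_lit 270082116) (nat_lit 1824) (nat_lit 8885193461) (nat_lit 76) (nat_lit 12341704764) (nat_lit 371) (nat_lit 5) (nat_lit 395) (nat_lit 5) (nat_lit 372) (nat_lit 5) (nat_lit 476) (nat_lit 450) (nat_lit 214))) (XT.nd (nat_lit 78) (nat_lit 912) (nat_lit 0) (XT.lf (nat_lit 0) (nat_lit 1983047941) (nat_lit 988) (nat_lit 13424256) (nat_lit 1064) (nat_lit 19735090565) (nat_lit 358) (nat_lit 5) (nat_lit 371) (nat_lit 5) (nat_lit 372) (nat_lit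 5) (nat_lit 477) (nat_lit 450) (nat_lit 213)) (XT.nd (nat_lit 78) (nat_lit 912) (nat_lit 0) (XT.lf (nat_lit 0) (nat_lit 3873934413) (nat_lit 1064) (nat_lit 8844922254) (nat_lit 76) (nat_lit 9249651136) (nat_lit 358) (nat_lit 5) (nat_lit 372) (nat_lit 5) (nat_lit 359) (nat_lit 5) (nat_lit 478) (nat_lit 450) (nat_lit 212)) (XT.lf (nat_lit 0) (nat_lit 2303408516) (nat_lit 912) (nat_lit 3496728809) (nat_lit 988) (nat_lit 16409832409) (nat_lit 346) (nat_lit 5) (nat_lit 358) (nat_lit 5) (nat_lit 359) (nat_lit 5) (nat_lit 479) (nat_lit 450) (nat_lit 211))))) (XT.nd (nat_lit 156) (nat_lit 836) (nat_lit 0) (XT.nd (nat_lit 78) (nat_lit 836) (nat_lit 0) (XT.lf (nat_lit 0) (nat_lit 7859185013) (nat_lit 988) (nat_lit 8702748156) (nat_lit 76) (nat_lit 5892443107) (nat_lit 346) (nat_lit 5) (nat_lit 359) (nat_lit 5) (nat_lit 347) (nat_lit 5) (nat_lit 480) (nat_lit 450) (nat_lit 210)) (XT.lf (nat_lit 0) (nat_lit 2734403273)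 (nat_lit 836) (nat_lit 7262198482) (nat_lit 912) (nat_lit 12706327180) (nat_lit 335) (nat_lit 5) (nat_lit 346) (nat_lit 5) (nat_lit 347) (nat_lit 5) (nat_lit 481) (nat_lit 450) (nat_lit 209))) (XT.nd (nat_lit 78) (nat_lit 836) (nat_lit 0) (XT.lf (nat_lit 0) (nat_lit 12246320063) (nat_lit 912) (nat_lit 8455339341) (nat_lit 76) (nat_lit 2253403895) (nat_lit 335) (nat_lit 5) (nat_lit 347) (nat_lit 5) (nat_lit 336) (nat_lit 5) (nat_lit 482) (nat_lit 450) (nat_lit 208)) (XT.nd (nat_lit 78) (nat_lit 0) (nat_lit 0) (XT.lf (nat_lit 0) (nat_lit 3279600725) (nat_lit 836) (nat_lit 11327221166) (nat_lit 912) (nat_lit 8604104359) (nat_lit 324) (nat_lit 5) (nat_lit 335) (nat_lit 5) (nat_lit 336) (nat_lit 5) (nat_lit 483) (nat_lit 450) (nat_lit 207)) (XT.lf (nat_lit 0) (nat_lit 15360447995) (nat_lit 836) (nat_lit 1707275758) (nat_lit 912) (nat_lit 6403120555) (nat_lit 324) (nat_lit 5) (nat_lit 335) (nat_lit 5) (nat_lit 336)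 (nat_lit 5) (nat_lit 484) (nat_lit 450) (nat_lit 206))))))) (XT.nd (nat_lit 56862) (nat_lit 0) (nat_lit 7904) (XT.nd (nat_lit 390) (nat_lit 760) (nat_lit 0) (XT.nd (nat_lit 156) (nat_lit 1596) (nat_lit 0) (XT.nd (nat_lit 78) (nat_lit 0) (nat_lit 0) (XT.lf (nat_lit 0) (nat_lit 3942624937) (nat_lit 760) (nat_lit 15709961073) (nat_lit 836) (nat_lit 4081881487) (nat_lit 314) (nat_lit 5) (nat_lit 324) (nat_lit 5) (nat_lit 325) (nat_lit 5) (nat_lit 485) (nat_lit 450) (nat_lit 205)) (XT.lf (nat_lit 0) (nat_lit 16331799592) (nat_lit 760) (nat_lit 6019569983) (nat_lit 836) (nat_lit 1650750678) (nat_lit 314) (nat_lit 5) (nat_lit 324) (nat_lit 5) (nat_lit 325) (nat_lit 5) (nat_lit 486) (nat_lit 450) (nat_lit 204))) (XT.nd (nat_lit 78) (nat_lit 760) (nat_lit 0) (XT.lf (nat_lit 0) (nat_lit 870893886) (nat_lit 836) (nat_lit 19552663074) (nat_lit 76) (nat_lit 3850407705) (nat_lit 303) (nat_lit 5) (nat_lit 314) (nat_lit 5)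 (nat_lit 304) (nat_lit 5) (nat_lit 487) (nat_lit 450) (nat_lit 203)) (XT.nd (nat_lit 78) (nat_lit 760) (nat_lit 0) (XT.lf (nat_lit 0) (nat_lit 3509221085) (nat_lit 836) (nat_lit 7140039913) (nat_lit 76) (nat_lit 13900001167) (nat_lit 303) (nat_lit 5) (nat_lit 314) (nat_lit 5) (nat_lit 304) (nat_lit 5) (nat_lit 488) (nat_lit 450) (nat_lit 202)) (XT.lf (nat_lit 0) (nat_lit 5590811989) (nat_lit 760) (nat_lit 642522852) (nat_lit 836) (nat_lit 18596071837) (nat_lit 293) (nat_lit 5) (nat_lit 303) (nat_lit 5) (nat_lit 304) (nat_lit 5) (nat_lit 489) (nat_lit 450) (nat_lit 201))))) (XT.nd (nat_lit 156) (nat_lit 0) (nat_lit 0) (XT.nd (nat_lit 78) (nat_lit 760) (nat_lit 0) (XT.lf (nat_lit 0) (nat_lit 9119022585) (nat_lit 836) (nat_lit 6506936958) (nat_lit 76) (nat_lit 9487054140) (nat_lit 293) (nat_lit 5) (nat_lit 304) (nat_lit 5) (nat_lit 294) (nat_lit 5) (nat_lit 490) (nat_lit 450) (nat_lit 200)) (XT.lf (nat_lit 0) (nat_lit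 6557779996) (nat_lit 760) (nat_lit 5548303010) (nat_lit 836) (nat_lit 13295338051) (nat_lit 283) (nat_lit 5) (nat_lit 293) (nat_lit 5) (nat_lit 294) (nat_lit 5) (nat_lit 491) (nat_lit 450) (nat_lit 199))) (XT.nd (nat_lit 56160) (nat_lit 0) (nat_lit 9424) (XT.lf (nat_lit 0) (nat_lit 15224420985) (nat_lit 836) (nat_lit 5757100433) (nat_lit 76) (nat_lit 4712645813) (nat_lit 283) (nat_lit 5) (nat_lit 294) (nat_lit 5) (nat_lit 284) (nat_lit 5) (nat_lit 492) (nat_lit 450) (nat_lit 198)) (XT.nd (nat_lit 78) (nat_lit 0) (nat_lit 0) (XT.lf (nat_lit 0) (nat_lit 6808767975) (nat_lit 1748) (nat_lit 795717953) (nat_lit 1748) (nat_lit 795717953) (nat_lit 407) (nat_lit 3) (nat_lit 430) (nat_lit 3) (nat_lit 430) (nat_lit 5) (nat_lit 451) (nat_lit 451) (nat_lit 238)) (XT.lf (nat_lit 76) (nat_lit 6378494856) (nat_lit 0) (nat_lit 7644909751) (nat_lit 1748) (nat_lit 2939494901) (nat_lit 408) (nat_lit 5) (nat_lit 407) (nat_lit 3)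 (nat_lit 430) (nat_lit 5) (nat_lit 452) (nat_lit 451) (nat_lit 237)))))) (XT.nd (nat_lit 390) (nat_lit 1596) (nat_lit 0) (XT.nd (nat_lit 156) (nat_lit 0) (nat_lit 0) (XT.nd (nat_lit 78) (nat_lit 0) (nat_lit 0) (XT.lf (nat_lit 0) (nat_lit 14442608978) (nat_lit 1672) (nat_lit 2602797097) (nat_lit 1748) (nat_lit 83133751) (nat_lit 408) (nat_lit 5) (nat_lit 430) (nat_lit 5) (nat_lit 431) (nat_lit 5) (nat_lit 453) (nat_lit 451) (nat_lit 236)) (XT.lf (nat_lit 76) (nat_lit 5557527389) (nat_lit 0) (nat_lit 9393510116) (nat_lit 1748) (nat_lit 2344841689) (nat_lit 409) (nat_lit 5) (nat_lit 408) (nat_lit 5) (nat_lit 431) (nat_lit 5) (nat_lit 454) (nat_lit 451) (nat_lit 235))) (XT.nd (nat_lit 78) (nat_lit 0) (nat_lit 76) (XT.lf (nat_lit 76) (nat_lit 13913186203) (nat_lit 0) (nat_lit 1568137567) (nat_lit 1748) (nat_lit 1985010784) (nat_lit 409) (nat_lit 5) (nat_lit 408) (nat_lit 5) (nat_lit 431) (nat_lit 5) (nat_lit 455)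 (nat_lit 451) (nat_lit 234)) (XT.nd (nat_lit 78) (nat_lit 0) (nat_lit 0) (XT.lf (nat_lit 76) (nat_lit 4814028931) (nat_lit 0) (nat_lit 11275437969) (nat_lit 1748) (nat_lit 1549390027) (nat_lit 410) (nat_lit 5) (nat_lit 409) (nat_lit 5) (nat_lit 432) (nat_lit 5) (nat_lit 456) (nat_lit 451) (nat_lit 233)) (XT.lf (nat_lit 76) (nat_lit 13382986985) (nat_lit 0) (nat_lit 3355389023) (nat_lit 1748) (nat_lit 1075884548) (nat_lit 410) (nat_lit 5) (nat_lit 409) (nat_lit 5) (nat_lit 432) (nat_lit 5) (nat_lit 457) (nat_lit 451) (nat_lit 232))))) (XT.nd (nat_lit 234) (nat_lit 0) (nat_lit 76) (XT.nd (nat_lit 78) (nat_lit 1748) (nat_lit 0) (XT.lf (nat_lit 76) (nat_lit 4150655743) (nat_lit 0) (nat_lit 13301788478) (nat_lit 1748) (nat_lit 539687233) (nat_lit 411) (nat_lit 5) (nat_lit 410) (nat_lit 5) (nat_lit 433) (nat_lit 5) (nat_lit 458) (nat_lit 451) (nat_lit 231)) (XT.nd (nat_lit 78) (nat_lit 0) (nat_lit 76) (XT.lf (nat_lit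 0) (nat_lit 53907564) (nat_lit 1748) (nat_lit 5234459670) (nat_lit 1824) (nat_lit 12884258933) (nat_lit 387) (nat_lit 5) (nat_lit 410) (nat_lit 5) (nat_lit 411) (nat_lit 5) (nat_lit 459) (nat_lit 451) (nat_lit 230)) (XT.lf (nat_lit 0) (nat_lit 689074221) (nat_lit 1748) (nat_lit 14790342656) (nat_lit 1824) (nat_lit 2876506675) (nat_lit 388) (nat_lit 5) (nat_lit 411) (nat_lit 5) (nat_lit 412) (nat_lit 5) (nat_lit 460) (nat_lit 451) (nat_lit 229)))) (XT.nd (nat_lit 78) (nat_lit 0) (nat_lit 76) (XT.lf (nat_lit 0) (nat_lit 1402140191) (nat_lit 1748) (nat_lit 5968215651) (nat_lit 1824) (nat_lit 11171229725) (nat_lit 388) (nat_lit 5) (nat_lit 411) (nat_lit 5) (nat_lit 412) (nat_lit 5) (nat_lit 461) (nat_lit 451) (nat_lit 228)) (XT.nd (nat_lit 78) (nat_lit 0) (nat_lit 0) (XT.lf (nat_lit 0) (nat_lit 2150291835) (nat_lit 1748) (nat_lit 15669364790) (nat_lit 1824) (nat_lit 910890257) (nat_lit 389) (nat_lit 5) (nat_lit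 412) (nat_lit 5) (nat_lit 413) (nat_lit 5) (nat_lit 462) (nat_lit 451) (nat_lit 227)) (XT.lf (nat_lit 0) (nat_lit 2997538418) (nat_lit 1748) (nat_lit 6622873064) (nat_lit 1824) (nat_lit 9301195803) (nat_lit 389) (nat_lit 5) (nat_lit 412) (nat_lit 5) (nat_lit 413) (nat_lit 5) (nat_lit 463) (nat_lit 451) (nat_lit 226))))))))
noncomputable def xc241 : XT := (XT.nd (nat_lit 1638) (nat_lit 3800) (nat_lit 0) (XT.nd (nat_lit 780) (nat_lit 4940) (nat_lit 0) (XT.nd (nat_lit 390) (nat_lit 0) (nat_lit 228) (XT.nd (nat_lit 156) (nat_lit 0) (nat_lit 76) (XT.nd (nat_lit 78) (nat_lit 0) (nat_lit 76) (XT.lf (nat_lit 76) (nat_lit 2635804180) (nat_lit 0) (nat_lit 1238143556) (nat_lit 1824) (nat_lit 15242299255) (nat_lit 390) (nat_lit 5) (nat_lit 389) (nat_lit 5) (nat_lit 413) (nat_lit 5) (nat_lit 464) (nat_lit 451) (nat_lit 225)) (XT.lf (nat_lit 0) (nat_lit 4855284356) (nat_lit 1748) (nat_lit 7195628372) (nat_lit 1824) (nat_lit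 7262121185) (nat_lit 390) (nat_lit 5) (nat_lit 413) (nat_lit 5) (nat_lit 414) (nat_lit 5) (nat_lit 465) (nat_lit 451) (nat_lit 224))) (XT.nd (nat_lit 78) (nat_lit 0) (nat_lit 76) (XT.lf (nat_lit 76) (nat_lit 2293427808) (nat_lit 0) (nat_lit 3581193278) (nat_lit 1824) (nat_lit 13638770371) (nat_lit 391) (nat_lit 5) (nat_lit 390) (nat_lit 5) (nat_lit 414) (nat_lit 5) (nat_lit 466) (nat_lit 451) (nat_lit 223)) (XT.nd (nat_lit 78) (nat_lit 0) (nat_lit 0) (XT.lf (nat_lit 0) (nat_lit 6991153103) (nat_lit 1748) (nat_lit 7683561424) (nat_lit 1824) (nat_lit 5041507766) (nat_lit 391) (nat_lit 5) (nat_lit 414) (nat_lit 5) (nat_lit 415) (nat_lit 5) (nat_lit 467) (nat_lit 451) (nat_lit 222)) (XT.lf (nat_lit 76) (nat_lit 2043301987) (nat_lit 0) (nat_lit 6119150622) (nat_lit 1824) (nat_lit 11760010662) (nat_lit 392) (nat_lit 5) (nat_lit 391) (nat_lit 5) (nat_lit 415) (nat_lit 5) (nat_lit 468) (nat_lit 451) (nat_lit 221)))))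 (XT.nd (nat_lit 156) (nat_lit 0) (nat_lit 76) (XT.nd (nat_lit 78) (nat_lit 0) (nat_lit 0) (XT.lf (nat_lit 0) (nat_lit 9421538975) (nat_lit 1748) (nat_lit 8083639592) (nat_lit 1824) (nat_lit 2626365503) (nat_lit 392) (nat_lit 5) (nat_lit 415) (nat_lit 5) (nat_lit 416) (nat_lit 5) (nat_lit 469) (nat_lit 451) (nat_lit 220)) (XT.lf (nat_lit 76) (nat_lit 1888680048) (nat_lit 0) (nat_lit 8865530316) (nat_lit 1824) (nat_lit 9589630231) (nat_lit 393) (nat_lit 5) (nat_lit 392) (nat_lit 5) (nat_lit 416) (nat_lit 5) (nat_lit 470) (nat_lit 451) (nat_lit 219))) (XT.nd (nat_lit 78) (nat_lit 0) (nat_lit 0) (XT.lf (nat_lit 0) (nat_lit 12163482431) (nat_lit 1748) (nat_lit 8392722237) (nat_lit 1824) (nat_lit 3181570) (nat_lit 393) (nat_lit 5) (nat_lit 416) (nat_lit 5) (nat_lit 417) (nat_lit 5) (nat_lit 471) (nat_lit 451) (nat_lit 218)) (XT.nd (nat_lit 78) (nat_lit 0) (nat_lit 0) (XT.lf (nat_lit 76) (nat_lit 1832927691) (nat_lit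 0) (nat_lit 11834396738) (nat_lit 1824) (nat_lit 7110592767) (nat_lit 394) (nat_lit 5) (nat_lit 393) (nat_lit 5) (nat_lit 417) (nat_lit 5) (nat_lit 472) (nat_lit 451) (nat_lit 217)) (XT.lf (nat_lit 76) (nat_lit 12373514108) (nat_lit 0) (nat_lit 2879881737) (nat_lit 1824) (nat_lit 5746381928) (nat_lit 394) (nat_lit 5) (nat_lit 393) (nat_lit 5) (nat_lit 417) (nat_lit 5) (nat_lit 473) (nat_lit 451) (nat_lit 216)))))) (XT.nd (nat_lit 390) (nat_lit 2584) (nat_lit 0) (XT.nd (nat_lit 156) (nat_lit 2736) (nat_lit 0) (XT.nd (nat_lit 78) (nat_lit 0) (nat_lit 0) (XT.lf (nat_lit 76) (nat_lit 1879518083) (nat_lit 0) (nat_lit 15040396957) (nat_lit 1824) (nat_lit 4305188004) (nat_lit 395) (nat_lit 5) (nat_lit 394) (nat_lit 5) (nat_lit 418) (nat_lit 5) (nat_lit 474) (nat_lit 451) (nat_lit 215)) (XT.lf (nat_lit 76) (nat_lit 12689677853) (nat_lit 0) (nat_lit 6002898368) (nat_lit 1824) (nat_lit 2760904337) (nat_lit 395) (nat_lit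 5) (nat_lit 394) (nat_lit 5) (nat_lit 418) (nat_lit 5) (nat_lit 475) (nat_lit 451) (nat_lit 214))) (XT.nd (nat_lit 78) (nat_lit 1064) (nat_lit 0) (XT.lf (nat_lit 0) (nat_lit 2032026486) (nat_lit 1748) (nat_lit 18498795012) (nat_lit 1824) (nat_lit 1155003440) (nat_lit 372) (nat_lit 5) (nat_lit 395) (nat_lit 5) (nat_lit 396) (nat_lit 5) (nat_lit 476) (nat_lit 451) (nat_lit 213)) (XT.nd (nat_lit 78) (nat_lit 988) (nat_lit 0) (XT.lf (nat_lit 0) (nat_lit 571723502) (nat_lit 1824) (nat_lit 8805746535) (nat_lit 76) (nat_lit 12543384446) (nat_lit 371) (nat_lit 5) (nat_lit 395) (nat_lit 5) (nat_lit 372) (nat_lit 5) (nat_lit 477) (nat_lit 451) (nat_lit 212)) (XT.lf (nat_lit 0) (nat_lit 2278167914) (nat_lit 988) (nat_lit 50323458) (nat_lit 1064) (nat_lit 19831722939) (nat_lit 358) (nat_lit 5) (nat_lit 371) (nat_lit 5) (nat_lit 372) (nat_lit 5) (nat_lit 478) (nat_lit 451) (nat_lit 211))))) (XT.nd (nat_lit 234) (nat_lit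 1672) (nat_lit 0) (XT.nd (nat_lit 78) (nat_lit 912) (nat_lit 0) (XT.lf (nat_lit 0) (nat_lit 4237542415) (nat_lit 1064) (nat_lit 8765275060) (nat_lit 76) (nat_lit 9399202689) (nat_lit 358) (nat_lit 5) (nat_lit 372) (nat_lit 5) (nat_lit 359) (nat_lit 5) (nat_lit 479) (nat_lit 451) (nat_lit 210)) (XT.nd (nat_lit 78) (nat_lit 0) (nat_lit 0) (XT.lf (nat_lit 0) (nat_lit 2604334525) (nat_lit 912) (nat_lit 3593979188) (nat_lit 988) (nat_lit 16450079386) (nat_lit 346) (nat_lit 5) (nat_lit 358) (nat_lit 5) (nat_lit 359) (nat_lit 5) (nat_lit 480) (nat_lit 451) (nat_lit 209)) (XT.lf (nat_lit 0) (nat_lit 8292835663) (nat_lit 988) (nat_lit 8621105844) (nat_lit 76) (nat_lit 5983862998) (nat_lit 346) (nat_lit 5) (nat_lit 359) (nat_lit 5) (nat_lit 347) (nat_lit 5) (nat_lit 481) (nat_lit 451) (nat_lit 208)))) (XT.nd (nat_lit 78) (nat_lit 836) (nat_lit 0) (XT.lf (nat_lit 0) (nat_lit 3043106395) (nat_lit 836) (nat_lit 7426122658)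 (nat_lit 912) (nat_lit 12682177146) (nat_lit 335) (nat_lit 5) (nat_lit 346) (nat_lit 5) (nat_lit 347) (nat_lit 5) (nat_lit 482) (nat_lit 451) (nat_lit 207)) (XT.nd (nat_lit 78) (nat_lit 836) (nat_lit 0) (XT.lf (nat_lit 0) (nat_lit 12758475856) (nat_lit 912) (nat_lit 8369820976) (nat_lit 76) (nat_lit 2280398235) (nat_lit 335) (nat_lit 5) (nat_lit 347) (nat_lit 5) (nat_lit 336) (nat_lit 5) (nat_lit 483) (nat_lit 451) (nat_lit 206)) (XT.lf (nat_lit 0) (nat_lit 3598142726) (nat_lit 836) (nat_lit 11564447520) (nat_lit 912) (nat_lit 8507159427) (nat_lit 324) (nat_lit 5) (nat_lit 335) (nat_lit 5) (nat_lit 336) (nat_lit 5) (nat_lit 484) (nat_lit 451) (nat_lit 205))))))) (XT.nd (nat_lit 56862) (nat_lit 0) (nat_lit 8588) (XT.nd (nat_lit 390) (nat_lit 2204) (nat_lit 0) (XT.nd (nat_lit 156) (nat_lit 836) (nat_lit 0) (XT.nd (nat_lit 78) (nat_lit 760) (nat_lit 0) (XT.lf (nat_lit 0) (nat_lit 15915647139) (nat_lit 836) (nat_lit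 1751893754) (nat_lit 912) (nat_lit 6267430986) (nat_lit 324) (nat_lit 5) (nat_lit 335) (nat_lit 5) (nat_lit 336) (nat_lit 5) (nat_lit 485) (nat_lit 451) (nat_lit 204)) (XT.lf (nat_lit 0) (nat_lit 4273158167) (nat_lit 760) (nat_lit 16027441750) (nat_lit 836) (nat_lit 3903339979) (nat_lit 314) (nat_lit 5) (nat_lit 324) (nat_lit 5) (nat_lit 325) (nat_lit 5) (nat_lit 486) (nat_lit 451) (nat_lit 203))) (XT.nd (nat_lit 78) (nat_lit 836) (nat_lit 0) (XT.lf (nat_lit 0) (nat_lit 16905181399) (nat_lit 760) (nat_lit 6143178496) (nat_lit 836) (nat_lit 1428688105) (nat_lit 314) (nat_lit 5) (nat_lit 324) (nat_lit 5) (nat_lit 325) (nat_lit 5) (nat_lit 487) (nat_lit 451) (nat_lit 202)) (XT.nd (nat_lit 78) (nat_lit 0) (nat_lit 0) (XT.lf (nat_lit 0) (nat_lit 1136722803) (nat_lit 836) (nat_lit 19690079920) (nat_lit 76) (nat_lit 3927562098) (nat_lit 303) (nat_lit 5) (nat_lit 314) (nat_lit 5) (nat_lit 304) (nat_lit 5) (nat_lit 488)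 (nat_lit 451) (nat_lit 201)) (XT.lf (nat_lit 0) (nat_lit 3822945741) (nat_lit 836) (nat_lit 7034177558) (nat_lit 76) (nat_lit 14178144561) (nat_lit 303) (nat_lit 5) (nat_lit 314) (nat_lit 5) (nat_lit 304) (nat_lit 5) (nat_lit 489) (nat_lit 451) (nat_lit 200))))) (XT.nd (nat_lit 156) (nat_lit 1444) (nat_lit 0) (XT.nd (nat_lit 78) (nat_lit 0) (nat_lit 0) (XT.lf (nat_lit 0) (nat_lit 5949655440) (nat_lit 760) (nat_lit 648714898) (nat_lit 836) (nat_lit 18722710487) (nat_lit 293) (nat_lit 5) (nat_lit 303) (nat_lit 5) (nat_lit 304) (nat_lit 5) (nat_lit 490) (nat_lit 451) (nat_lit 199)) (XT.lf (nat_lit 0) (nat_lit 9537101106) (nat_lit 836) (nat_lit 6390116906) (nat_lit 76) (nat_lit 9683237463) (nat_lit 293) (nat_lit 5) (nat_lit 304) (nat_lit 5) (nat_lit 294) (nat_lit 5) (nat_lit 491) (nat_lit 451) (nat_lit 198))) (XT.nd (nat_lit 156) (nat_lit 684) (nat_lit 0) (XT.lf (nat_lit 0) (nat_lit 6934269658) (nat_lit 760) (nat_lit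 5646604418) (nat_lit 836) (nat_lit 13323819543) (nat_lit 283) (nat_lit 5) (nat_lit 293) (nat_lit 5) (nat_lit 294) (nat_lit 5) (nat_lit 492) (nat_lit 451) (nat_lit 197)) (XT.nd (nat_lit 56082) (nat_lit 0) (nat_lit 10108) (XT.lf (nat_lit 0) (nat_lit 8048000053) (nat_lit 684) (nat_lit 11035539370) (nat_lit 760) (nat_lit 7422780936) (nat_lit 274) (nat_lit 5) (nat_lit 283) (nat_lit 5) (nat_lit 284) (nat_lit 5) (nat_lit 494) (nat_lit 451) (nat_lit 195)) (XT.lf (nat_lit 0) (nat_lit 7171741068) (nat_lit 1748) (nat_lit 695906618) (nat_lit 1748) (nat_lit 695906618) (nat_lit 407) (nat_lit 3) (nat_lit 430) (nat_lit 3) (nat_lit 430) (nat_lit 5) (nat_lit 452) (nat_lit 452) (nat_lit 236)))))) (XT.nd (nat_lit 390) (nat_lit 1520) (nat_lit 0) (XT.nd (nat_lit 156) (nat_lit 0) (nat_lit 76) (XT.nd (nat_lit 78) (nat_lit 0) (nat_lit 0) (XT.lf (nat_lit 76) (nat_lit 6735993435) (nat_lit 0) (nat_lit 8014073551) (nat_lit 1748) (nat_lit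 2542935841) (nat_lit 408) (nat_lit 5) (nat_lit 407) (nat_lit 3) (nat_lit 430) (nat_lit 5) (nat_lit 453) (nat_lit 452) (nat_lit 235)) (XT.lf (nat_lit 76) (nat_lit 15042246888) (nat_lit 0) (nat_lit 126101777) (nat_lit 1748) (nat_lit 2293797946) (nat_lit 408) (nat_lit 5) (nat_lit 407) (nat_lit 3) (nat_lit 430) (nat_lit 5) (nat_lit 454) (nat_lit 452) (nat_lit 234))) (XT.nd (nat_lit 78) (nat_lit 0) (nat_lit 0) (XT.lf (nat_lit 76) (nat_lit 5902898857) (nat_lit 0) (nat_lit 9776198521) (nat_lit 1748) (nat_lit 1953896796) (nat_lit 409) (nat_lit 5) (nat_lit 408) (nat_lit 5) (nat_lit 431) (nat_lit 5) (nat_lit 455) (nat_lit 452) (nat_lit 233)) (XT.nd (nat_lit 78) (nat_lit 0) (nat_lit 76) (XT.lf (nat_lit 76) (nat_lit 14421078280) (nat_lit 0) (nat_lit 1790498556) (nat_lit 1748) (nat_lit 1595454404) (nat_lit 409) (nat_lit 5) (nat_lit 408) (nat_lit 5) (nat_lit 431) (nat_lit 5) (nat_lit 456) (nat_lit 452) (nat_lit 232)) (XT.lf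 (nat_lit 76) (nat_lit 5148232307) (nat_lit 0) (nat_lit 11675731922) (nat_lit 1748) (nat_lit 1159202468) (nat_lit 410) (nat_lit 5) (nat_lit 409) (nat_lit 5) (nat_lit 432) (nat_lit 5) (nat_lit 457) (nat_lit 452) (nat_lit 231))))) (XT.nd (nat_lit 234) (nat_lit 0) (nat_lit 76) (XT.nd (nat_lit 78) (nat_lit 1672) (nat_lit 0) (XT.lf (nat_lit 76) (nat_lit 13883904369) (nat_lit 0) (nat_lit 3593854836) (nat_lit 1748) (nat_lit 684485220) (nat_lit 410) (nat_lit 5) (nat_lit 409) (nat_lit 5) (nat_lit 432) (nat_lit 5) (nat_lit 458) (nat_lit 452) (nat_lit 230)) (XT.nd (nat_lit 78) (nat_lit 1748) (nat_lit 0) (XT.lf (nat_lit 76) (nat_lit 4474743891) (nat_lit 0) (nat_lit 13723905714) (nat_lit 1748) (nat_lit 145176417) (nat_lit 411) (nat_lit 5) (nat_lit 410) (nat_lit 5) (nat_lit 433) (nat_lit 5) (nat_lit 459) (nat_lit 452) (nat_lit 229)) (XT.lf (nat_lit 0) (nat_lit 447131714) (nat_lit 1748) (nat_lit 5097392405) (nat_lit 1824) (nat_lit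 12983514679) (nat_lit 387) (nat_lit 5) (nat_lit 410) (nat_lit 5) (nat_lit 411) (nat_lit 5) (nat_lit 460) (nat_lit 452) (nat_lit 228)))) (XT.nd (nat_lit 78) (nat_lit 0) (nat_lit 0) (XT.lf (nat_lit 0) (nat_lit 1087924927) (nat_lit 1748) (nat_lit 14837123163) (nat_lit 1824) (nat_lit 2790099439) (nat_lit 388) (nat_lit 5) (nat_lit 411) (nat_lit 5) (nat_lit 412) (nat_lit 5) (nat_lit 461) (nat_lit 452) (nat_lit 227)) (XT.nd (nat_lit 78) (nat_lit 0) (nat_lit 76) (XT.lf (nat_lit 0) (nat_lit 1807701839) (nat_lit 1748) (nat_lit 5843436487) (nat_lit 1824) (nat_lit 11253539250) (nat_lit 388) (nat_lit 5) (nat_lit 411) (nat_lit 5) (nat_lit 412) (nat_lit 5) (nat_lit 462) (nat_lit 452) (nat_lit 226)) (XT.lf (nat_lit 0) (nat_lit 2564150346) (nat_lit 1748) (nat_lit 15731756827) (nat_lit 1824) (nat_lit 801647982) (nat_lit 389) (nat_lit 5) (nat_lit 412) (nat_lit 5) (nat_lit 413) (nat_lit 5) (nat_lit 463) (nat_lit 452) (nat_lit 225))))))))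
noncomputable def xc242 : XT := (XT.nd (nat_lit 1560) (nat_lit 3192) (nat_lit 0) (XT.nd (nat_lit 780) (nat_lit 4104) (nat_lit 0) (XT.nd (nat_lit 390) (nat_lit 0) (nat_lit 152) (XT.nd (nat_lit 156) (nat_lit 0) (nat_lit 76) (XT.nd (nat_lit 78) (nat_lit 0) (nat_lit 0) (XT.lf (nat_lit 0) (nat_lit 3421070240) (nat_lit 1748) (nat_lit 6509256742) (nat_lit 1824) (nat_lit 9362258857) (nat_lit 389) (nat_lit 5) (nat_lit 412) (nat_lit 5) (nat_lit 413) (nat_lit 5) (nat_lit 464) (nat_lit 452) (nat_lit 224)) (XT.lf (nat_lit 76) (nat_lit 2932975141) (nat_lit 0) (nat_lit 1376490727) (nat_lit 1824) (nat_lit 15181766877) (nat_lit 390) (nat_lit 5) (nat_lit 389) (nat_lit 5) (nat_lit 413) (nat_lit 5) (nat_lit 465) (nat_lit 452) (nat_lit 223))) (XT.nd (nat_lit 78) (nat_lit 0) (nat_lit 0) (XT.lf (nat_lit 0) (nat_lit 5302685838) (nat_lit 1748) (nat_lit 7091961008) (nat_lit 1824) (nat_lit 7297466922) (nat_lit 390) (nat_lit 5) (nat_lit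 413) (nat_lit 5) (nat_lit 414) (nat_lit 5) (nat_lit 466) (nat_lit 452) (nat_lit 222)) (XT.nd (nat_lit 78) (nat_lit 0) (nat_lit 76) (XT.lf (nat_lit 76) (nat_lit 2585247480) (nat_lit 0) (nat_lit 3751890157) (nat_lit 1824) (nat_lit 13559449691) (nat_lit 391) (nat_lit 5) (nat_lit 390) (nat_lit 5) (nat_lit 414) (nat_lit 5) (nat_lit 467) (nat_lit 452) (nat_lit 221)) (XT.lf (nat_lit 0) (nat_lit 7468604479) (nat_lit 1748) (nat_lit 7588540179) (nat_lit 1824) (nat_lit 5046481399) (nat_lit 391) (nat_lit 5) (nat_lit 414) (nat_lit 5) (nat_lit 415) (nat_lit 5) (nat_lit 468) (nat_lit 452) (nat_lit 220))))) (XT.nd (nat_lit 156) (nat_lit 0) (nat_lit 76) (XT.nd (nat_lit 78) (nat_lit 0) (nat_lit 76) (XT.lf (nat_lit 76) (nat_lit 2331224365) (nat_lit 0) (nat_lit 6327089501) (nat_lit 1824) (nat_lit 11655781608) (nat_lit 392) (nat_lit 5) (nat_lit 391) (nat_lit 5) (nat_lit 415) (nat_lit 5) (nat_lit 469) (nat_lit 452) (nat_lit 219))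 (XT.lf (nat_lit 0) (nat_lit 9935515558) (nat_lit 1748) (nat_lit 7995872300) (nat_lit 1824) (nat_lit 2596114591) (nat_lit 392) (nat_lit 5) (nat_lit 415) (nat_lit 5) (nat_lit 416) (nat_lit 5) (nat_lit 470) (nat_lit 452) (nat_lit 218))) (XT.nd (nat_lit 78) (nat_lit 0) (nat_lit 0) (XT.lf (nat_lit 76) (nat_lit 2174252679) (nat_lit 0) (nat_lit 9115813320) (nat_lit 1824) (nat_lit 9454077562) (nat_lit 393) (nat_lit 5) (nat_lit 392) (nat_lit 5) (nat_lit 416) (nat_lit 5) (nat_lit 471) (nat_lit 452) (nat_lit 217)) (XT.nd (nat_lit 78) (nat_lit 0) (nat_lit 76) (XT.lf (nat_lit 76) (nat_lit 12652959285) (nat_lit 0) (nat_lit 68253236) (nat_lit 1824) (nat_lit 8242916922) (nat_lit 393) (nat_lit 5) (nat_lit 392) (nat_lit 5) (nat_lit 416) (nat_lit 5) (nat_lit 472) (nat_lit 452) (nat_lit 216)) (XT.lf (nat_lit 76) (nat_lit 2117792166) (nat_lit 0) (nat_lit 12132350364) (nat_lit 1824) (nat_lit 6936991312) (nat_lit 394) (nat_lit 5)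 (nat_lit 393) (nat_lit 5) (nat_lit 417) (nat_lit 5) (nat_lit 473) (nat_lit 452) (nat_lit 215)))))) (XT.nd (nat_lit 390) (nat_lit 2736) (nat_lit 0) (XT.nd (nat_lit 156) (nat_lit 1672) (nat_lit 0) (XT.nd (nat_lit 78) (nat_lit 0) (nat_lit 76) (XT.lf (nat_lit 76) (nat_lit 12864323529) (nat_lit 0) (nat_lit 2997543775) (nat_lit 1824) (nat_lit 5551688673) (nat_lit 394) (nat_lit 5) (nat_lit 393) (nat_lit 5) (nat_lit 417) (nat_lit 5) (nat_lit 474) (nat_lit 452) (nat_lit 214)) (XT.lf (nat_lit 76) (nat_lit 2165410527) (nat_lit 0) (nat_lit 15391587076) (nat_lit 1824) (nat_lit 4086487462) (nat_lit 395) (nat_lit 5) (nat_lit 394) (nat_lit 5) (nat_lit 418) (nat_lit 5) (nat_lit 475) (nat_lit 452) (nat_lit 213))) (XT.nd (nat_lit 78) (nat_lit 1748) (nat_lit 0) (XT.lf (nat_lit 76) (nat_lit 13186904825) (nat_lit 0) (nat_lit 6172350629) (nat_lit 1824) (nat_lit 2517294676) (nat_lit 395) (nat_lit 5) (nat_lit 394) (nat_lit 5) (nat_lit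 418) (nat_lit 5) (nat_lit 476) (nat_lit 452) (nat_lit 212)) (XT.nd (nat_lit 78) (nat_lit 76) (nat_lit 0) (XT.lf (nat_lit 0) (nat_lit 2320778049) (nat_lit 1748) (nat_lit 18909042356) (nat_lit 1824) (nat_lit 883812710) (nat_lit 372) (nat_lit 5) (nat_lit 395) (nat_lit 5) (nat_lit 396) (nat_lit 5) (nat_lit 477) (nat_lit 452) (nat_lit 211)) (XT.lf (nat_lit 0) (nat_lit 867894366) (nat_lit 1824) (nat_lit 8734696149) (nat_lit 76) (nat_lit 12750851122) (nat_lit 371) (nat_lit 5) (nat_lit 395) (nat_lit 5) (nat_lit 372) (nat_lit 5) (nat_lit 478) (nat_lit 452) (nat_lit 210))))) (XT.nd (nat_lit 156) (nat_lit 1748) (nat_lit 0) (XT.nd (nat_lit 78) (nat_lit 0) (nat_lit 0) (XT.lf (nat_lit 0) (nat_lit 2569270501) (nat_lit 988) (nat_lit 86538229) (nat_lit 1064) (nat_lit 19941862359) (nat_lit 358) (nat_lit 5) (nat_lit 371) (nat_lit 5) (nat_lit 372) (nat_lit 5) (nat_lit 479) (nat_lit 452) (nat_lit 209)) (XT.lf (nat_lit 0) (nat_lit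 4597311827) (nat_lit 1064) (nat_lit 8693996902) (nat_lit 76) (nat_lit 9553121509) (nat_lit 358) (nat_lit 5) (nat_lit 372) (nat_lit 5) (nat_lit 359) (nat_lit 5) (nat_lit 480) (nat_lit 452) (nat_lit 208))) (XT.nd (nat_lit 78) (nat_lit 836) (nat_lit 0) (XT.lf (nat_lit 0) (nat_lit 2901382614) (nat_lit 912) (nat_lit 3692113868) (nat_lit 988) (nat_lit 16502312739) (nat_lit 346) (nat_lit 5) (nat_lit 358) (nat_lit 5) (nat_lit 359) (nat_lit 5) (nat_lit 481) (nat_lit 452) (nat_lit 207)) (XT.nd (nat_lit 78) (nat_lit 836) (nat_lit 0) (XT.lf (nat_lit 0) (nat_lit 8724423777) (nat_lit 988) (nat_lit 8547759722) (nat_lit 76) (nat_lit 6078137556) (nat_lit 346) (nat_lit 5) (nat_lit 359) (nat_lit 5) (nat_lit 347) (nat_lit 5) (nat_lit 482) (nat_lit 452) (nat_lit 206)) (XT.lf (nat_lit 0) (nat_lit 3348119865) (nat_lit 836) (nat_lit 7592599943) (nat_lit 912) (nat_lit 12668349929) (nat_lit 335) (nat_lit 5) (nat_lit 346) (nat_lit 5)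 (nat_lit 347) (nat_lit 5) (nat_lit 483) (nat_lit 452) (nat_lit 205))))))) (XT.nd (nat_lit 57096) (nat_lit 0) (nat_lit 7144) (XT.nd (nat_lit 390) (nat_lit 1596) (nat_lit 0) (XT.nd (nat_lit 156) (nat_lit 760) (nat_lit 0) (XT.nd (nat_lit 78) (nat_lit 836) (nat_lit 0) (XT.lf (nat_lit 0) (nat_lit 13270497921) (nat_lit 912) (nat_lit 8292479648) (nat_lit 76) (nat_lit 2308634287) (nat_lit 335) (nat_lit 5) (nat_lit 347) (nat_lit 5) (nat_lit 336) (nat_lit 5) (nat_lit 484) (nat_lit 452) (nat_lit 204)) (XT.lf (nat_lit 0) (nat_lit 3913233212) (nat_lit 836) (nat_lit 11806003610) (nat_lit 912) (nat_lit 8418722244) (nat_lit 324) (nat_lit 5) (nat_lit 335) (nat_lit 5) (nat_lit 336) (nat_lit 5) (nat_lit 485) (nat_lit 452) (nat_lit 203))) (XT.nd (nat_lit 78) (nat_lit 760) (nat_lit 0) (XT.lf (nat_lit 0) (nat_lit 16472320504) (nat_lit 836) (nat_lit 1796997452) (nat_lit 912) (nat_lit 6139269438) (nat_lit 324) (nat_lit 5) (nat_lit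 335) (nat_lit 5) (nat_lit 336) (nat_lit 5) (nat_lit 486) (nat_lit 452) (nat_lit 202)) (XT.nd (nat_lit 78) (nat_lit 0) (nat_lit 0) (XT.lf (nat_lit 0) (nat_lit 4600528993) (nat_lit 760) (nat_lit 16351144616) (nat_lit 836) (nat_lit 3731330714) (nat_lit 314) (nat_lit 5) (nat_lit 324) (nat_lit 5) (nat_lit 325) (nat_lit 5) (nat_lit 487) (nat_lit 452) (nat_lit 201)) (XT.lf (nat_lit 0) (nat_lit 17480449403) (nat_lit 760) (nat_lit 6269134254) (nat_lit 836) (nat_lit 1212089255) (nat_lit 314) (nat_lit 5) (nat_lit 324) (nat_lit 5) (nat_lit 325) (nat_lit 5) (nat_lit 488) (nat_lit 452) (nat_lit 200))))) (XT.nd (nat_lit 156) (nat_lit 760) (nat_lit 0) (XT.nd (nat_lit 78) (nat_lit 0) (nat_lit 0) (XT.lf (nat_lit 0) (nat_lit 1398222195) (nat_lit 836) (nat_lit 19840094113) (nat_lit 76) (nat_lit 4006253900) (nat_lit 303) (nat_lit 5) (nat_lit 314) (nat_lit 5) (nat_lit 304) (nat_lit 5) (nat_lit 489) (nat_lit 452) (nat_lit 199)) (XT.lf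 (nat_lit 0) (nat_lit 4133487926) (nat_lit 836) (nat_lit 6935853849) (nat_lit 76) (nat_lit 14461845256) (nat_lit 303) (nat_lit 5) (nat_lit 314) (nat_lit 5) (nat_lit 304) (nat_lit 5) (nat_lit 490) (nat_lit 452) (nat_lit 198))) (XT.nd (nat_lit 56394) (nat_lit 0) (nat_lit 8664) (XT.lf (nat_lit 0) (nat_lit 6306083393) (nat_lit 760) (nat_lit 655289339) (nat_lit 836) (nat_lit 18861406540) (nat_lit 293) (nat_lit 5) (nat_lit 303) (nat_lit 5) (nat_lit 304) (nat_lit 5) (nat_lit 491) (nat_lit 452) (nat_lit 197)) (XT.nd (nat_lit 78) (nat_lit 0) (nat_lit 0) (XT.lf (nat_lit 0) (nat_lit 7533166790) (nat_lit 1748) (nat_lit 598592826) (nat_lit 1748) (nat_lit 598592826) (nat_lit 407) (nat_lit 3) (nat_lit 430) (nat_lit 3) (nat_lit 430) (nat_lit 5) (nat_lit 453) (nat_lit 453) (nat_lit 234)) (XT.lf (nat_lit 76) (nat_lit 7091713575) (nat_lit 0) (nat_lit 8382222771) (nat_lit 1748) (nat_lit 2156127354) (nat_lit 408) (nat_lit 5) (nat_lit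 407) (nat_lit 3) (nat_lit 430) (nat_lit 5) (nat_lit 454) (nat_lit 453) (nat_lit 233)))))) (XT.nd (nat_lit 390) (nat_lit 1520) (nat_lit 0) (XT.nd (nat_lit 156) (nat_lit 0) (nat_lit 76) (XT.nd (nat_lit 78) (nat_lit 0) (nat_lit 76) (XT.lf (nat_lit 76) (nat_lit 15559758758) (nat_lit 0) (nat_lit 332415723) (nat_lit 1748) (nat_lit 1910588412) (nat_lit 408) (nat_lit 5) (nat_lit 407) (nat_lit 3) (nat_lit 430) (nat_lit 5) (nat_lit 455) (nat_lit 453) (nat_lit 232)) (XT.lf (nat_lit 76) (nat_lit 6246082669) (nat_lit 0) (nat_lit 10158975665) (nat_lit 1748) (nat_lit 1572134932) (nat_lit 409) (nat_lit 5) (nat_lit 408) (nat_lit 5) (nat_lit 431) (nat_lit 5) (nat_lit 456) (nat_lit 453) (nat_lit 231))) (XT.nd (nat_lit 78) (nat_lit 0) (nat_lit 76) (XT.lf (nat_lit 76) (nat_lit 14930211449) (nat_lit 0) (nat_lit 2009890071) (nat_lit 1748) (nat_lit 1214775454) (nat_lit 409) (nat_lit 5) (nat_lit 408) (nat_lit 5) (nat_lit 431) (nat_lit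 5) (nat_lit 457) (nat_lit 453) (nat_lit 230)) (XT.nd (nat_lit 78) (nat_lit 0) (nat_lit 0) (XT.lf (nat_lit 76) (nat_lit 5479880918) (nat_lit 0) (nat_lit 12077244631) (nat_lit 1748) (nat_lit 777565910) (nat_lit 410) (nat_lit 5) (nat_lit 409) (nat_lit 5) (nat_lit 432) (nat_lit 5) (nat_lit 458) (nat_lit 453) (nat_lit 229)) (XT.lf (nat_lit 76) (nat_lit 14385782422) (nat_lit 0) (nat_lit 3830435924) (nat_lit 1748) (nat_lit 301291976) (nat_lit 410) (nat_lit 5) (nat_lit 409) (nat_lit 5) (nat_lit 432) (nat_lit 5) (nat_lit 459) (nat_lit 453) (nat_lit 228))))) (XT.nd (nat_lit 234) (nat_lit 0) (nat_lit 76) (XT.nd (nat_lit 78) (nat_lit 0) (nat_lit 0) (XT.lf (nat_lit 0) (nat_lit 238319010) (nat_lit 1748) (nat_lit 13908486205) (nat_lit 1824) (nat_lit 4556034309) (nat_lit 387) (nat_lit 5) (nat_lit 410) (nat_lit 5) (nat_lit 411) (nat_lit 5) (nat_lit 460) (nat_lit 453) (nat_lit 227)) (XT.nd (nat_lit 78) (nat_lit 0) (nat_lit 76)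 (XT.lf (nat_lit 0) (nat_lit 832992839) (nat_lit 1748) (nat_lit 4966971492) (nat_lit 1824) (nat_lit 13090907548) (nat_lit 387) (nat_lit 5) (nat_lit 410) (nat_lit 5) (nat_lit 411) (nat_lit 5) (nat_lit 461) (nat_lit 453) (nat_lit 226)) (XT.lf (nat_lit 0) (nat_lit 1479799940) (nat_lit 1748) (nat_lit 14894509277) (nat_lit 1824) (nat_lit 2707553321) (nat_lit 388) (nat_lit 5) (nat_lit 411) (nat_lit 5) (nat_lit 412) (nat_lit 5) (nat_lit 462) (nat_lit 453) (nat_lit 225)))) (XT.nd (nat_lit 78) (nat_lit 0) (nat_lit 76) (XT.lf (nat_lit 0) (nat_lit 2206715204) (nat_lit 1748) (nat_lit 5725642129) (nat_lit 1824) (nat_lit 11342974636) (nat_lit 388) (nat_lit 5) (nat_lit 411) (nat_lit 5) (nat_lit 412) (nat_lit 5) (nat_lit 463) (nat_lit 453) (nat_lit 224)) (XT.nd (nat_lit 78) (nat_lit 0) (nat_lit 0) (XT.lf (nat_lit 0) (nat_lit 2971885366) (nat_lit 1748) (nat_lit 15805143156) (nat_lit 1824) (nat_lit 695170292) (nat_lit 389) (nat_lit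 5) (nat_lit 412) (nat_lit 5) (nat_lit 413) (nat_lit 5) (nat_lit 464) (nat_lit 453) (nat_lit 223)) (XT.lf (nat_lit 0) (nat_lit 3838954402) (nat_lit 1748) (nat_lit 6402923439) (nat_lit 1824) (nat_lit 9429395553) (nat_lit 389) (nat_lit 5) (nat_lit 412) (nat_lit 5) (nat_lit 413) (nat_lit 5) (nat_lit 465) (nat_lit 453) (nat_lit 222))))))))
noncomputable def xc243 : XT := (XT.nd (nat_lit 1638) (nat_lit 2356) (nat_lit 0) (XT.nd (nat_lit 780) (nat_lit 4940) (nat_lit 0) (XT.nd (nat_lit 390) (nat_lit 0) (nat_lit 228) (XT.nd (nat_lit 156) (nat_lit 0) (nat_lit 76) (XT.nd (nat_lit 78) (nat_lit 0) (nat_lit 76) (XT.lf (nat_lit 76) (nat_lit 3226597040) (nat_lit 0) (nat_lit 1513194223) (nat_lit 1824) (nat_lit 15134211938) (nat_lit 390) (nat_lit 5) (nat_lit 389) (nat_lit 5) (nat_lit 413) (nat_lit 5) (nat_lit 466) (nat_lit 453) (nat_lit 221)) (XT.lf (nat_lit 0) (nat_lit 5745432938) (nat_lit 1748) (nat_lit 6995834128) (nat_lit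 1824) (nat_lit 7337786996) (nat_lit 390) (nat_lit 5) (nat_lit 413) (nat_lit 5) (nat_lit 414) (nat_lit 5) (nat_lit 467) (nat_lit 453) (nat_lit 220))) (XT.nd (nat_lit 78) (nat_lit 0) (nat_lit 76) (XT.lf (nat_lit 76) (nat_lit 2873352963) (nat_lit 0) (nat_lit 3922153847) (nat_lit 1824) (nat_lit 13492214918) (nat_lit 391) (nat_lit 5) (nat_lit 390) (nat_lit 5) (nat_lit 414) (nat_lit 5) (nat_lit 468) (nat_lit 453) (nat_lit 219)) (XT.nd (nat_lit 78) (nat_lit 0) (nat_lit 0) (XT.lf (nat_lit 0) (nat_lit 7942494364) (nat_lit 1748) (nat_lit 7501275542) (nat_lit 1824) (nat_lit 5055276731) (nat_lit 391) (nat_lit 5) (nat_lit 414) (nat_lit 5) (nat_lit 415) (nat_lit 5) (nat_lit 469) (nat_lit 453) (nat_lit 218)) (XT.lf (nat_lit 76) (nat_lit 2615311691) (nat_lit 0) (nat_lit 6535864919) (nat_lit 1824) (nat_lit 11562648425) (nat_lit 392) (nat_lit 5) (nat_lit 391) (nat_lit 5) (nat_lit 415) (nat_lit 5) (nat_lit 470) (nat_lit 453) (nat_lit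 217))))) (XT.nd (nat_lit 156) (nat_lit 0) (nat_lit 0) (XT.nd (nat_lit 78) (nat_lit 0) (nat_lit 0) (XT.lf (nat_lit 0) (nat_lit 10447130332) (nat_lit 1748) (nat_lit 7916035725) (nat_lit 1824) (nat_lit 2568473040) (nat_lit 392) (nat_lit 5) (nat_lit 415) (nat_lit 5) (nat_lit 416) (nat_lit 5) (nat_lit 471) (nat_lit 453) (nat_lit 216)) (XT.lf (nat_lit 76) (nat_lit 2455914425) (nat_lit 0) (nat_lit 9368268376) (nat_lit 1824) (nat_lit 9328525054) (nat_lit 393) (nat_lit 5) (nat_lit 392) (nat_lit 5) (nat_lit 416) (nat_lit 5) (nat_lit 472) (nat_lit 453) (nat_lit 215))) (XT.nd (nat_lit 78) (nat_lit 0) (nat_lit 76) (XT.lf (nat_lit 76) (nat_lit 13139525032) (nat_lit 0) (nat_lit 138381821) (nat_lit 1824) (nat_lit 8099310497) (nat_lit 393) (nat_lit 5) (nat_lit 392) (nat_lit 5) (nat_lit 416) (nat_lit 5) (nat_lit 473) (nat_lit 453) (nat_lit 214)) (XT.nd (nat_lit 78) (nat_lit 0) (nat_lit 0) (XT.lf (nat_lit 76) (nat_lit 2398715792)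 (nat_lit 0) (nat_lit 12433884041) (nat_lit 1824) (nat_lit 6772181243) (nat_lit 394) (nat_lit 5) (nat_lit 393) (nat_lit 5) (nat_lit 417) (nat_lit 5) (nat_lit 474) (nat_lit 453) (nat_lit 213)) (XT.lf (nat_lit 76) (nat_lit 13355499983) (nat_lit 0) (nat_lit 3115226679) (nat_lit 1824) (nat_lit 5365124510) (nat_lit 394) (nat_lit 5) (nat_lit 393) (nat_lit 5) (nat_lit 417) (nat_lit 5) (nat_lit 475) (nat_lit 453) (nat_lit 212)))))) (XT.nd (nat_lit 390) (nat_lit 2584) (nat_lit 0) (XT.nd (nat_lit 156) (nat_lit 2736) (nat_lit 0) (XT.nd (nat_lit 78) (nat_lit 0) (nat_lit 0) (XT.lf (nat_lit 76) (nat_lit 2447378948) (nat_lit 0) (nat_lit 15747844596) (nat_lit 1824) (nat_lit 3875248832) (nat_lit 395) (nat_lit 5) (nat_lit 394) (nat_lit 5) (nat_lit 418) (nat_lit 5) (nat_lit 476) (nat_lit 453) (nat_lit 211)) (XT.lf (nat_lit 76) (nat_lit 13684623520) (nat_lit 0) (nat_lit 6343273895) (nat_lit 1824) (nat_lit 2280416669) (nat_lit 395)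 (nat_lit 5) (nat_lit 394) (nat_lit 5) (nat_lit 418) (nat_lit 5) (nat_lit 477) (nat_lit 453) (nat_lit 210))) (XT.nd (nat_lit 78) (nat_lit 1064) (nat_lit 0) (XT.lf (nat_lit 0) (nat_lit 2605670191) (nat_lit 1748) (nat_lit 19325930858) (nat_lit 1824) (nat_lit 618625837) (nat_lit 372) (nat_lit 5) (nat_lit 395) (nat_lit 5) (nat_lit 396) (nat_lit 5) (nat_lit 478) (nat_lit 453) (nat_lit 209)) (XT.nd (nat_lit 78) (nat_lit 988) (nat_lit 0) (XT.lf (nat_lit 0) (nat_lit 1158931985) (nat_lit 1824) (nat_lit 8671822486) (nat_lit 76) (nat_lit 12964152446) (nat_lit 371) (nat_lit 5) (nat_lit 395) (nat_lit 5) (nat_lit 372) (nat_lit 5) (nat_lit 479) (nat_lit 453) (nat_lit 208)) (XT.lf (nat_lit 0) (nat_lit 2856660553) (nat_lit 988) (nat_lit 122110114) (nat_lit 1064) (nat_lit 20065329520) (nat_lit 358) (nat_lit 5) (nat_lit 371) (nat_lit 5) (nat_lit 372) (nat_lit 5) (nat_lit 480) (nat_lit 453) (nat_lit 207))))) (XT.nd (nat_lit 234)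 (nat_lit 1672) (nat_lit 0) (XT.nd (nat_lit 78) (nat_lit 912) (nat_lit 0) (XT.lf (nat_lit 0) (nat_lit 4953597321) (nat_lit 1064) (nat_lit 8630868325) (nat_lit 76) (nat_lit 9711441500) (nat_lit 358) (nat_lit 5) (nat_lit 372) (nat_lit 5) (nat_lit 359) (nat_lit 5) (nat_lit 481) (nat_lit 453) (nat_lit 206)) (XT.nd (nat_lit 78) (nat_lit 0) (nat_lit 0) (XT.lf (nat_lit 0) (nat_lit 3194859515) (nat_lit 912) (nat_lit 3791191725) (nat_lit 988) (nat_lit 16566338008) (nat_lit 346) (nat_lit 5) (nat_lit 358) (nat_lit 5) (nat_lit 359) (nat_lit 5) (nat_lit 482) (nat_lit 453) (nat_lit 205)) (XT.lf (nat_lit 0) (nat_lit 9154324980) (nat_lit 988) (nat_lit 8482490158) (nat_lit 76) (nat_lit 6175284023) (nat_lit 346) (nat_lit 5) (nat_lit 359) (nat_lit 5) (nat_lit 347) (nat_lit 5) (nat_lit 483) (nat_lit 453) (nat_lit 204)))) (XT.nd (nat_lit 78) (nat_lit 836) (nat_lit 0) (XT.lf (nat_lit 0) (nat_lit 3649752911) (nat_lit 836) (nat_lit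 7761709566) (nat_lit 912) (nat_lit 12664632383) (nat_lit 335) (nat_lit 5) (nat_lit 346) (nat_lit 5) (nat_lit 347) (nat_lit 5) (nat_lit 484) (nat_lit 453) (nat_lit 203)) (XT.nd (nat_lit 78) (nat_lit 836) (nat_lit 0) (XT.lf (nat_lit 0) (nat_lit 13782786531) (nat_lit 912) (nat_lit 8223094958) (nat_lit 76) (nat_lit 2338109632) (nat_lit 335) (nat_lit 5) (nat_lit 347) (nat_lit 5) (nat_lit 336) (nat_lit 5) (nat_lit 485) (nat_lit 453) (nat_lit 202)) (XT.lf (nat_lit 0) (nat_lit 4225184565) (nat_lit 836) (nat_lit 12051992135) (nat_lit 912) (nat_lit 8338557308) (nat_lit 324) (nat_lit 5) (nat_lit 335) (nat_lit 5) (nat_lit 336) (nat_lit 5) (nat_lit 486) (nat_lit 453) (nat_lit 201))))))) (XT.nd (nat_lit 57096) (nat_lit 0) (nat_lit 7068) (XT.nd (nat_lit 468) (nat_lit 760) (nat_lit 0) (XT.nd (nat_lit 156) (nat_lit 836) (nat_lit 0) (XT.nd (nat_lit 78) (nat_lit 760) (nat_lit 0) (XT.lf (nat_lit 0) (nat_lit 17030871511) (nat_lit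 836) (nat_lit 1842612355) (nat_lit 912) (nat_lit 6018388767) (nat_lit 324) (nat_lit 5) (nat_lit 335) (nat_lit 5) (nat_lit 336) (nat_lit 5) (nat_lit 487) (nat_lit 453) (nat_lit 200)) (XT.lf (nat_lit 0) (nat_lit 4925053666) (nat_lit 760) (nat_lit 16681199066) (nat_lit 836) (nat_lit 3565592022) (nat_lit 314) (nat_lit 5) (nat_lit 324) (nat_lit 5) (nat_lit 325) (nat_lit 5) (nat_lit 488) (nat_lit 453) (nat_lit 199))) (XT.nd (nat_lit 78) (nat_lit 836) (nat_lit 0) (XT.lf (nat_lit 0) (nat_lit 18058013384) (nat_lit 760) (nat_lit 6397489053) (nat_lit 836) (nat_lit 1000678780) (nat_lit 314) (nat_lit 5) (nat_lit 324) (nat_lit 5) (nat_lit 325) (nat_lit 5) (nat_lit 489) (nat_lit 453) (nat_lit 198)) (XT.nd (nat_lit 78) (nat_lit 0) (nat_lit 0) (XT.lf (nat_lit 0) (nat_lit 1655680041) (nat_lit 836) (nat_lit 20002575152) (nat_lit 76) (nat_lit 4086514080) (nat_lit 303) (nat_lit 5) (nat_lit 314) (nat_lit 5) (nat_lit 304) (nat_lit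 5) (nat_lit 490) (nat_lit 453) (nat_lit 197)) (XT.lf (nat_lit 0) (nat_lit 4441151217) (nat_lit 836) (nat_lit 6844844610) (nat_lit 76) (nat_lit 14751214615) (nat_lit 303) (nat_lit 5) (nat_lit 314) (nat_lit 5) (nat_lit 304) (nat_lit 5) (nat_lit 491) (nat_lit 453) (nat_lit 196))))) (XT.nd (nat_lit 56394) (nat_lit 0) (nat_lit 8664) (XT.nd (nat_lit 56316) (nat_lit 0) (nat_lit 8664) (XT.lf (nat_lit 0) (nat_lit 10371225113) (nat_lit 836) (nat_lit 6178009417) (nat_lit 76) (nat_lit 10086707813) (nat_lit 293) (nat_lit 5) (nat_lit 304) (nat_lit 5) (nat_lit 294) (nat_lit 5) (nat_lit 493) (nat_lit 453) (nat_lit 194)) (XT.lf (nat_lit 0) (nat_lit 7893356175) (nat_lit 1748) (nat_lit 503652030) (nat_lit 1748) (nat_lit 503652030) (nat_lit 407) (nat_lit 3) (nat_lit 430) (nat_lit 3) (nat_lit 430) (nat_lit 5) (nat_lit 454) (nat_lit 454) (nat_lit 232))) (XT.nd (nat_lit 78) (nat_lit 0) (nat_lit 0) (XT.lf (nat_lit 76) (nat_lit 7445966407)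 (nat_lit 0) (nat_lit 8749663217) (nat_lit 1748) (nat_lit 1778577849) (nat_lit 408) (nat_lit 5) (nat_lit 407) (nat_lit 3) (nat_lit 430) (nat_lit 5) (nat_lit 455) (nat_lit 454) (nat_lit 231)) (XT.nd (nat_lit 78) (nat_lit 0) (nat_lit 76) (XT.lf (nat_lit 76) (nat_lit 16079207425) (nat_lit 0) (nat_lit 534942460) (nat_lit 1748) (nat_lit 1536376600) (nat_lit 408) (nat_lit 5) (nat_lit 407) (nat_lit 3) (nat_lit 430) (nat_lit 5) (nat_lit 456) (nat_lit 454) (nat_lit 230)) (XT.lf (nat_lit 76) (nat_lit 6587388247) (nat_lit 0) (nat_lit 10542137084) (nat_lit 1748) (nat_lit 1199079554) (nat_lit 409) (nat_lit 5) (nat_lit 408) (nat_lit 5) (nat_lit 431) (nat_lit 5) (nat_lit 457) (nat_lit 454) (nat_lit 229)))))) (XT.nd (nat_lit 390) (nat_lit 0) (nat_lit 152) (XT.nd (nat_lit 156) (nat_lit 1672) (nat_lit 0) (XT.nd (nat_lit 78) (nat_lit 0) (nat_lit 76) (XT.lf (nat_lit 76) (nat_lit 15440956780) (nat_lit 0) (nat_lit 2226540721) (nat_lit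 1748) (nat_lit 842504220) (nat_lit 409) (nat_lit 5) (nat_lit 408) (nat_lit 5) (nat_lit 431) (nat_lit 5) (nat_lit 458) (nat_lit 454) (nat_lit 228)) (XT.lf (nat_lit 76) (nat_lit 5809282425) (nat_lit 0) (nat_lit 12480264025) (nat_lit 1748) (nat_lit 404016298) (nat_lit 410) (nat_lit 5) (nat_lit 409) (nat_lit 5) (nat_lit 432) (nat_lit 5) (nat_lit 459) (nat_lit 454) (nat_lit 227))) (XT.nd (nat_lit 78) (nat_lit 0) (nat_lit 76) (XT.lf (nat_lit 0) (nat_lit 73181145) (nat_lit 1748) (nat_lit 3991680748) (nat_lit 1824) (nat_lit 14815319849) (nat_lit 386) (nat_lit 5) (nat_lit 409) (nat_lit 5) (nat_lit 410) (nat_lit 5) (nat_lit 460) (nat_lit 454) (nat_lit 226)) (XT.nd (nat_lit 78) (nat_lit 0) (nat_lit 0) (XT.lf (nat_lit 0) (nat_lit 612613323) (nat_lit 1748) (nat_lit 13958843419) (nat_lit 1824) (nat_lit 4497863402) (nat_lit 387) (nat_lit 5) (nat_lit 410) (nat_lit 5) (nat_lit 411) (nat_lit 5) (nat_lit 461) (nat_lit 454) (nat_lit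 225)) (XT.lf (nat_lit 0) (nat_lit 1211934983) (nat_lit 1748) (nat_lit 4842965323) (nat_lit 1824) (nat_lit 13206361393) (nat_lit 387) (nat_lit 5) (nat_lit 410) (nat_lit 5) (nat_lit 411) (nat_lit 5) (nat_lit 462) (nat_lit 454) (nat_lit 224))))) (XT.nd (nat_lit 234) (nat_lit 0) (nat_lit 76) (XT.nd (nat_lit 78) (nat_lit 0) (nat_lit 0) (XT.lf (nat_lit 0) (nat_lit 1865140378) (nat_lit 1748) (nat_lit 14962337611) (nat_lit 1824) (nat_lit 2628728506) (nat_lit 388) (nat_lit 5) (nat_lit 411) (nat_lit 5) (nat_lit 412) (nat_lit 5) (nat_lit 463) (nat_lit 454) (nat_lit 223)) (XT.nd (nat_lit 78) (nat_lit 0) (nat_lit 76) (XT.lf (nat_lit 0) (nat_lit 2599618566) (nat_lit 1748) (nat_lit 5614604137) (nat_lit 1824) (nat_lit 11439465618) (nat_lit 388) (nat_lit 5) (nat_lit 411) (nat_lit 5) (nat_lit 412) (nat_lit 5) (nat_lit 464) (nat_lit 454) (nat_lit 222)) (XT.lf (nat_lit 0) (nat_lit 3373933620) (nat_lit 1748) (nat_lit 15889365197)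 (nat_lit 1824) (nat_lit 591320285) (nat_lit 389) (nat_lit 5) (nat_lit 412) (nat_lit 5) (nat_lit 413) (nat_lit 5) (nat_lit 465) (nat_lit 454) (nat_lit 221)))) (XT.nd (nat_lit 78) (nat_lit 0) (nat_lit 0) (XT.lf (nat_lit 0) (nat_lit 4251626183) (nat_lit 1748) (nat_lit 6303647768) (nat_lit 1824) (nat_lit 9502538943) (nat_lit 389) (nat_lit 5) (nat_lit 412) (nat_lit 5) (nat_lit 413) (nat_lit 5) (nat_lit 466) (nat_lit 454) (nat_lit 220)) (XT.nd (nat_lit 78) (nat_lit 0) (nat_lit 76) (XT.lf (nat_lit 76) (nat_lit 3516967501) (nat_lit 0) (nat_lit 1648392443) (nat_lit 1824) (nat_lit 15099343046) (nat_lit 390) (nat_lit 5) (nat_lit 389) (nat_lit 5) (nat_lit 413) (nat_lit 5) (nat_lit 467) (nat_lit 454) (nat_lit 219)) (XT.lf (nat_lit 0) (nat_lit 6183960765) (nat_lit 1748) (nat_lit 6907025224) (nat_lit 1824) (nat_lit 7383015184) (nat_lit 390) (nat_lit 5) (nat_lit 413) (nat_lit 5) (nat_lit 414) (nat_lit 5) (nat_lit 468) (nat_lit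 454) (nat_lit 218))))))))
noncomputable def xc244 : XT := (XT.nd (nat_lit 1560) (nat_lit 760) (nat_lit 0) (XT.nd (nat_lit 780) (nat_lit 5016) (nat_lit 0) (XT.nd (nat_lit 390) (nat_lit 0) (nat_lit 152) (XT.nd (nat_lit 156) (nat_lit 0) (nat_lit 76) (XT.nd (nat_lit 78) (nat_lit 0) (nat_lit 76) (XT.lf (nat_lit 76) (nat_lit 3158040835) (nat_lit 0) (nat_lit 4092125074) (nat_lit 1824) (nat_lit 13436776857) (nat_lit 391) (nat_lit 5) (nat_lit 390) (nat_lit 5) (nat_lit 414) (nat_lit 5) (nat_lit 469) (nat_lit 454) (nat_lit 217)) (XT.lf (nat_lit 0) (nat_lit 8413260625) (nat_lit 1748) (nat_lit 7421547649) (nat_lit 1824) (nat_lit 5067825656) (nat_lit 391) (nat_lit 5) (nat_lit 414) (nat_lit 5) (nat_lit 415) (nat_lit 5) (nat_lit 470) (nat_lit 454) (nat_lit 216))) (XT.nd (nat_lit 78) (nat_lit 0) (nat_lit 76) (XT.lf (nat_lit 76) (nat_lit 2895859793) (nat_lit 0) (nat_lit 6745622614) (nat_lit 1824) (nat_lit 11480321218) (nat_lit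 392) (nat_lit 5) (nat_lit 391) (nat_lit 5) (nat_lit 415) (nat_lit 5) (nat_lit 471) (nat_lit 454) (nat_lit 215)) (XT.nd (nat_lit 78) (nat_lit 0) (nat_lit 0) (XT.lf (nat_lit 0) (nat_lit 10956826940) (nat_lit 1748) (nat_lit 7843912359) (nat_lit 1824) (nat_lit 2543368220) (nat_lit 392) (nat_lit 5) (nat_lit 415) (nat_lit 5) (nat_lit 416) (nat_lit 5) (nat_lit 472) (nat_lit 454) (nat_lit 214)) (XT.lf (nat_lit 76) (nat_lit 2733960715) (nat_lit 0) (nat_lit 9623048959) (nat_lit 1824) (nat_lit 9212679121) (nat_lit 393) (nat_lit 5) (nat_lit 392) (nat_lit 5) (nat_lit 416) (nat_lit 5) (nat_lit 473) (nat_lit 454) (nat_lit 213))))) (XT.nd (nat_lit 156) (nat_lit 0) (nat_lit 76) (XT.nd (nat_lit 78) (nat_lit 0) (nat_lit 76) (XT.lf (nat_lit 76) (nat_lit 13626754749) (nat_lit 0) (nat_lit 207242806) (nat_lit 1824) (nat_lit 7964810006) (nat_lit 393) (nat_lit 5) (nat_lit 392) (nat_lit 5) (nat_lit 416) (nat_lit 5) (nat_lit 474) (nat_lit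 454) (nat_lit 212)) (XT.lf (nat_lit 76) (nat_lit 2675994013) (nat_lit 0) (nat_lit 12739161751) (nat_lit 1824) (nat_lit 6615862185) (nat_lit 394) (nat_lit 5) (nat_lit 393) (nat_lit 5) (nat_lit 417) (nat_lit 5) (nat_lit 475) (nat_lit 454) (nat_lit 211))) (XT.nd (nat_lit 78) (nat_lit 0) (nat_lit 76) (XT.lf (nat_lit 76) (nat_lit 13847417732) (nat_lit 0) (nat_lit 3233021437) (nat_lit 1824) (nat_lit 5186385155) (nat_lit 394) (nat_lit 5) (nat_lit 393) (nat_lit 5) (nat_lit 417) (nat_lit 5) (nat_lit 476) (nat_lit 454) (nat_lit 210)) (XT.nd (nat_lit 78) (nat_lit 0) (nat_lit 0) (XT.lf (nat_lit 76) (nat_lit 2725719271) (nat_lit 0) (nat_lit 16109346834) (nat_lit 1824) (nat_lit 3671161749) (nat_lit 395) (nat_lit 5) (nat_lit 394) (nat_lit 5) (nat_lit 418) (nat_lit 5) (nat_lit 477) (nat_lit 454) (nat_lit 209)) (XT.lf (nat_lit 76) (nat_lit 14183210838) (nat_lit 0) (nat_lit 6515772066) (nat_lit 1824) (nat_lit 2049954355) (nat_lit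 395) (nat_lit 5) (nat_lit 394) (nat_lit 5) (nat_lit 418) (nat_lit 5) (nat_lit 478) (nat_lit 454) (nat_lit 208)))))) (XT.nd (nat_lit 390) (nat_lit 1672) (nat_lit 0) (XT.nd (nat_lit 156) (nat_lit 1900) (nat_lit 0) (XT.nd (nat_lit 78) (nat_lit 76) (nat_lit 0) (XT.lf (nat_lit 0) (nat_lit 2886999838) (nat_lit 1748) (nat_lit 19749654065) (nat_lit 1824) (nat_lit 359119146) (nat_lit 372) (nat_lit 5) (nat_lit 395) (nat_lit 5) (nat_lit 396) (nat_lit 5) (nat_lit 479) (nat_lit 454) (nat_lit 207)) (XT.lf (nat_lit 0) (nat_lit 1445163040) (nat_lit 1824) (nat_lit 8616916388) (nat_lit 76) (nat_lit 13183339667) (nat_lit 371) (nat_lit 5) (nat_lit 395) (nat_lit 5) (nat_lit 372) (nat_lit 5) (nat_lit 480) (nat_lit 454) (nat_lit 206))) (XT.nd (nat_lit 78) (nat_lit 912) (nat_lit 0) (XT.lf (nat_lit 0) (nat_lit 3140634058) (nat_lit 988) (nat_lit 157079344) (nat_lit 1064) (nat_lit 20201958980) (nat_lit 358) (nat_lit 5) (nat_lit 371) (nat_lit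 5) (nat_lit 372) (nat_lit 5) (nat_lit 481) (nat_lit 454) (nat_lit 205)) (XT.nd (nat_lit 78) (nat_lit 912) (nat_lit 0) (XT.lf (nat_lit 0) (nat_lit 5306743910) (nat_lit 1064) (nat_lit 8575680506) (nat_lit 76) (nat_lit 9874199320) (nat_lit 358) (nat_lit 5) (nat_lit 372) (nat_lit 5) (nat_lit 359) (nat_lit 5) (nat_lit 482) (nat_lit 454) (nat_lit 204)) (XT.lf (nat_lit 0) (nat_lit 3485063173) (nat_lit 912) (nat_lit 3891271210) (nat_lit 988) (nat_lit 16641973700) (nat_lit 346) (nat_lit 5) (nat_lit 358) (nat_lit 5) (nat_lit 359) (nat_lit 5) (nat_lit 483) (nat_lit 454) (nat_lit 203))))) (XT.nd (nat_lit 156) (nat_lit 836) (nat_lit 0) (XT.nd (nat_lit 78) (nat_lit 836) (nat_lit 0) (XT.lf (nat_lit 0) (nat_lit 9582906219) (nat_lit 988) (nat_lit 8425088098) (nat_lit 76) (nat_lit 6275321533) (nat_lit 346) (nat_lit 5) (nat_lit 359) (nat_lit 5) (nat_lit 347) (nat_lit 5) (nat_lit 484) (nat_lit 454) (nat_lit 202)) (XT.lf (nat_lit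 0) (nat_lit 3948306070) (nat_lit 836) (nat_lit 7933531247) (nat_lit 912) (nat_lit 12670823393) (nat_lit 335) (nat_lit 5) (nat_lit 346) (nat_lit 5) (nat_lit 347) (nat_lit 5) (nat_lit 485) (nat_lit 454) (nat_lit 201))) (XT.nd (nat_lit 78) (nat_lit 836) (nat_lit 0) (XT.lf (nat_lit 0) (nat_lit 14295734313) (nat_lit 912) (nat_lit 8161457009) (nat_lit 76) (nat_lit 2368822863) (nat_lit 335) (nat_lit 5) (nat_lit 347) (nat_lit 5) (nat_lit 336) (nat_lit 5) (nat_lit 486) (nat_lit 454) (nat_lit 200)) (XT.nd (nat_lit 78) (nat_lit 0) (nat_lit 0) (XT.lf (nat_lit 0) (nat_lit 4534300606) (nat_lit 836) (nat_lit 12302517227) (nat_lit 912) (nat_lit 8266440160) (nat_lit 324) (nat_lit 5) (nat_lit 335) (nat_lit 5) (nat_lit 336) (nat_lit 5) (nat_lit 487) (nat_lit 454) (nat_lit 199)) (XT.lf (nat_lit 0) (nat_lit 17591697127) (nat_lit 836) (nat_lit 1888763867) (nat_lit 912) (nat_lit 5904552332) (nat_lit 324) (nat_lit 5) (nat_lit 335)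 (nat_lit 5) (nat_lit 336) (nat_lit 5) (nat_lit 488) (nat_lit 454) (nat_lit 198))))))) (XT.nd (nat_lit 57330) (nat_lit 0) (nat_lit 5548) (XT.nd (nat_lit 56940) (nat_lit 0) (nat_lit 5472) (XT.nd (nat_lit 56706) (nat_lit 0) (nat_lit 7068) (XT.nd (nat_lit 78) (nat_lit 0) (nat_lit 0) (XT.lf (nat_lit 0) (nat_lit 5247040027) (nat_lit 760) (nat_lit 17017736885) (nat_lit 836) (nat_lit 3405872234) (nat_lit 314) (nat_lit 5) (nat_lit 324) (nat_lit 5) (nat_lit 325) (nat_lit 5) (nat_lit 489) (nat_lit 454) (nat_lit 197)) (XT.lf (nat_lit 0) (nat_lit 18638276875) (nat_lit 760) (nat_lit 6528295538) (nat_lit 836) (nat_lit 794190759) (nat_lit 314) (nat_lit 5) (nat_lit 324) (nat_lit 5) (nat_lit 325) (nat_lit 5) (nat_lit 490) (nat_lit 454) (nat_lit 196))) (XT.nd (nat_lit 78) (nat_lit 0) (nat_lit 0) (XT.lf (nat_lit 0) (nat_lit 8252613195) (nat_lit 1748) (nat_lit 410963966) (nat_lit 1748) (nat_lit 410963966) (nat_lit 407) (nat_lit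 3) (nat_lit 430) (nat_lit 3) (nat_lit 430) (nat_lit 5) (nat_lit 455) (nat_lit 455) (nat_lit 230)) (XT.nd (nat_lit 78) (nat_lit 0) (nat_lit 0) (XT.lf (nat_lit 76) (nat_lit 7799055825) (nat_lit 0) (nat_lit 9116694150) (nat_lit 1748) (nat_lit 1409812563) (nat_lit 408) (nat_lit 5) (nat_lit 407) (nat_lit 3) (nat_lit 430) (nat_lit 5) (nat_lit 456) (nat_lit 455) (nat_lit 229)) (XT.lf (nat_lit 76) (nat_lit 16600958327) (nat_lit 0) (nat_lit 733913533) (nat_lit 1748) (nat_lit 1170695462) (nat_lit 408) (nat_lit 5) (nat_lit 407) (nat_lit 3) (nat_lit 430) (nat_lit 5) (nat_lit 457) (nat_lit 455) (nat_lit 228))))) (XT.nd (nat_lit 156) (nat_lit 1672) (nat_lit 0) (XT.nd (nat_lit 78) (nat_lit 0) (nat_lit 0) (XT.lf (nat_lit 76) (nat_lit 6927117486) (nat_lit 0) (nat_lit 10925972814) (nat_lit 1748) (nat_lit 834270221) (nat_lit 409) (nat_lit 5) (nat_lit 408) (nat_lit 5) (nat_lit 431) (nat_lit 5) (nat_lit 458) (nat_lit 455) (nat_lit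 227)) (XT.lf (nat_lit 76) (nat_lit 15953679321) (nat_lit 0) (nat_lit 2440672504) (nat_lit 1748) (nat_lit 478186732) (nat_lit 409) (nat_lit 5) (nat_lit 408) (nat_lit 5) (nat_lit 431) (nat_lit 5) (nat_lit 459) (nat_lit 455) (nat_lit 226))) (XT.nd (nat_lit 78) (nat_lit 1748) (nat_lit 0) (XT.lf (nat_lit 76) (nat_lit 6136736708) (nat_lit 0) (nat_lit 12885073555) (nat_lit 1748) (nat_lit 38104958) (nat_lit 410) (nat_lit 5) (nat_lit 409) (nat_lit 5) (nat_lit 432) (nat_lit 5) (nat_lit 460) (nat_lit 455) (nat_lit 225)) (XT.nd (nat_lit 78) (nat_lit 0) (nat_lit 76) (XT.lf (nat_lit 0) (nat_lit 436494472) (nat_lit 1748) (nat_lit 3859397486) (nat_lit 1824) (nat_lit 14954474453) (nat_lit 386) (nat_lit 5) (nat_lit 409) (nat_lit 5) (nat_lit 410) (nat_lit 5) (nat_lit 461) (nat_lit 455) (nat_lit 224)) (XT.lf (nat_lit 0) (nat_lit 980044302) (nat_lit 1748) (nat_lit 14019054014) (nat_lit 1824) (nat_lit 4444326252) (nat_lit 387) (nat_lit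 5) (nat_lit 410) (nat_lit 5) (nat_lit 411) (nat_lit 5) (nat_lit 462) (nat_lit 455) (nat_lit 223)))))) (XT.nd (nat_lit 390) (nat_lit 0) (nat_lit 152) (XT.nd (nat_lit 156) (nat_lit 0) (nat_lit 76) (XT.nd (nat_lit 78) (nat_lit 0) (nat_lit 76) (XT.lf (nat_lit 0) (nat_lit 1584388107) (nat_lit 1748) (nat_lit 4725151813) (nat_lit 1824) (nat_lit 13329807819) (nat_lit 387) (nat_lit 5) (nat_lit 410) (nat_lit 5) (nat_lit 411) (nat_lit 5) (nat_lit 463) (nat_lit 455) (nat_lit 222)) (XT.lf (nat_lit 0) (nat_lit 2244373634) (nat_lit 1748) (nat_lit 15040456095) (nat_lit 1824) (nat_lit 2553490810) (nat_lit 388) (nat_lit 5) (nat_lit 411) (nat_lit 5) (nat_lit 412) (nat_lit 5) (nat_lit 464) (nat_lit 455) (nat_lit 221))) (XT.nd (nat_lit 78) (nat_lit 0) (nat_lit 76) (XT.lf (nat_lit 0) (nat_lit 2986836868) (nat_lit 1748) (nat_lit 5510103800) (nat_lit 1824) (nat_lit 11542948788) (nat_lit 388) (nat_lit 5) (nat_lit 411) (nat_lit 5) (nat_lit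 412) (nat_lit 5) (nat_lit 465) (nat_lit 455) (nat_lit 220)) (XT.nd (nat_lit 78) (nat_lit 0) (nat_lit 0) (XT.lf (nat_lit 0) (nat_lit 3770718854) (nat_lit 1748) (nat_lit 15984275894) (nat_lit 1824) (nat_lit 489965787) (nat_lit 389) (nat_lit 5) (nat_lit 412) (nat_lit 5) (nat_lit 413) (nat_lit 5) (nat_lit 466) (nat_lit 455) (nat_lit 219)) (XT.lf (nat_lit 0) (nat_lit 4659508277) (nat_lit 1748) (nat_lit 6211214246) (nat_lit 1824) (nat_lit 9581628051) (nat_lit 389) (nat_lit 5) (nat_lit 412) (nat_lit 5) (nat_lit 413) (nat_lit 5) (nat_lit 467) (nat_lit 455) (nat_lit 218))))) (XT.nd (nat_lit 234) (nat_lit 0) (nat_lit 152) (XT.nd (nat_lit 78) (nat_lit 0) (nat_lit 76) (XT.lf (nat_lit 76) (nat_lit 3804375786) (nat_lit 0) (nat_lit 1782219899) (nat_lit 1824) (nat_lit 15076884376) (nat_lit 390) (nat_lit 5) (nat_lit 389) (nat_lit 5) (nat_lit 413) (nat_lit 5) (nat_lit 468) (nat_lit 455) (nat_lit 217)) (XT.nd (nat_lit 78) (nat_lit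 0) (nat_lit 0) (XT.lf (nat_lit 0) (nat_lit 6618692622) (nat_lit 1748) (nat_lit 6825321836) (nat_lit 1824) (nat_lit 7433090375) (nat_lit 390) (nat_lit 5) (nat_lit 413) (nat_lit 5) (nat_lit 414) (nat_lit 5) (nat_lit 469) (nat_lit 455) (nat_lit 216)) (XT.lf (nat_lit 76) (nat_lit 3439599204) (nat_lit 0) (nat_lit 4261941575) (nat_lit 1824) (nat_lit 13392861144) (nat_lit 391) (nat_lit 5) (nat_lit 390) (nat_lit 5) (nat_lit 414) (nat_lit 5) (nat_lit 470) (nat_lit 455) (nat_lit 215)))) (XT.nd (nat_lit 78) (nat_lit 0) (nat_lit 0) (XT.lf (nat_lit 0) (nat_lit 8881330119) (nat_lit 1748) (nat_lit 7349146804) (nat_lit 1824) (nat_lit 5084064320) (nat_lit 391) (nat_lit 5) (nat_lit 414) (nat_lit 5) (nat_lit 415) (nat_lit 5) (nat_lit 471) (nat_lit 455) (nat_lit 214)) (XT.nd (nat_lit 78) (nat_lit 0) (nat_lit 76) (XT.lf (nat_lit 76) (nat_lit 3173155947) (nat_lit 0) (nat_lit 6956506228) (nat_lit 1824) (nat_lit 11408524167) (nat_lit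 392) (nat_lit 5) (nat_lit 391) (nat_lit 5) (nat_lit 415) (nat_lit 5) (nat_lit 472) (nat_lit 455) (nat_lit 213)) (XT.lf (nat_lit 0) (nat_lit 11465038836) (nat_lit 1748) (nat_lit 7779294950) (nat_lit 1824) (nat_lit 2520730892) (nat_lit 392) (nat_lit 5) (nat_lit 415) (nat_lit 5) (nat_lit 416) (nat_lit 5) (nat_lit 473) (nat_lit 455) (nat_lit 212))))))))
noncomputable def xc245 : XT := (XT.nd (nat_lit 58110) (nat_lit 0) (nat_lit 6308) (XT.nd (nat_lit 780) (nat_lit 4180) (nat_lit 0) (XT.nd (nat_lit 390) (nat_lit 2584) (nat_lit 0) (XT.nd (nat_lit 156) (nat_lit 0) (nat_lit 76) (XT.nd (nat_lit 78) (nat_lit 0) (nat_lit 0) (XT.lf (nat_lit 76) (nat_lit 3008678377) (nat_lit 0) (nat_lit 9880307339) (nat_lit 1824) (nat_lit 9106259468) (nat_lit 393) (nat_lit 5) (nat_lit 392) (nat_lit 5) (nat_lit 416) (nat_lit 5) (nat_lit 474) (nat_lit 455) (nat_lit 211)) (XT.lf (nat_lit 76) (nat_lit 14115013813) (nat_lit 0) (nat_lit 274914525)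 (nat_lit 1824) (nat_lit 7839132446) (nat_lit 393) (nat_lit 5) (nat_lit 392) (nat_lit 5) (nat_lit 416) (nat_lit 5) (nat_lit 475) (nat_lit 455) (nat_lit 210))) (XT.nd (nat_lit 78) (nat_lit 0) (nat_lit 0) (XT.lf (nat_lit 76) (nat_lit 2949913648) (nat_lit 0) (nat_lit 13048347166) (nat_lit 1824) (nat_lit 6467746247) (nat_lit 394) (nat_lit 5) (nat_lit 393) (nat_lit 5) (nat_lit 417) (nat_lit 5) (nat_lit 476) (nat_lit 455) (nat_lit 209)) (XT.nd (nat_lit 78) (nat_lit 0) (nat_lit 76) (XT.lf (nat_lit 76) (nat_lit 14340444278) (nat_lit 0) (nat_lit 3351017337) (nat_lit 1824) (nat_lit 5015178365) (nat_lit 394) (nat_lit 5) (nat_lit 393) (nat_lit 5) (nat_lit 417) (nat_lit 5) (nat_lit 477) (nat_lit 455) (nat_lit 208)) (XT.lf (nat_lit 76) (nat_lit 3000718801) (nat_lit 0) (nat_lit 16476271705) (nat_lit 1824) (nat_lit 3473927487) (nat_lit 395) (nat_lit 5) (nat_lit 394) (nat_lit 5) (nat_lit 418) (nat_lit 5) (nat_lit 478) (nat_lit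 455) (nat_lit 207))))) (XT.nd (nat_lit 156) (nat_lit 1064) (nat_lit 0) (XT.nd (nat_lit 78) (nat_lit 1672) (nat_lit 0) (XT.lf (nat_lit 76) (nat_lit 14683036960) (nat_lit 0) (nat_lit 6689948227) (nat_lit 1824) (nat_lit 1825602954) (nat_lit 395) (nat_lit 5) (nat_lit 394) (nat_lit 5) (nat_lit 418) (nat_lit 5) (nat_lit 479) (nat_lit 455) (nat_lit 206)) (XT.lf (nat_lit 0) (nat_lit 3165055333) (nat_lit 1748) (nat_lit 20180407036) (nat_lit 1824) (nat_lit 104979722) (nat_lit 372) (nat_lit 5) (nat_lit 395) (nat_lit 5) (nat_lit 396) (nat_lit 5) (nat_lit 480) (nat_lit 455) (nat_lit 205))) (XT.nd (nat_lit 78) (nat_lit 988) (nat_lit 0) (XT.lf (nat_lit 0) (nat_lit 1726904070) (nat_lit 1824) (nat_lit 8569778988) (nat_lit 76) (nat_lit 13408467603) (nat_lit 371) (nat_lit 5) (nat_lit 395) (nat_lit 5) (nat_lit 372) (nat_lit 5) (nat_lit 481) (nat_lit 455) (nat_lit 204)) (XT.nd (nat_lit 78) (nat_lit 0) (nat_lit 0) (XT.lf (nat_lit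 0) (nat_lit 3421478547) (nat_lit 988) (nat_lit 191484895) (nat_lit 1064) (nat_lit 20351598764) (nat_lit 358) (nat_lit 5) (nat_lit 371) (nat_lit 5) (nat_lit 372) (nat_lit 5) (nat_lit 482) (nat_lit 455) (nat_lit 203)) (XT.lf (nat_lit 0) (nat_lit 5657087402) (nat_lit 1064) (nat_lit 8528234883) (nat_lit 76) (nat_lit 10041434354) (nat_lit 358) (nat_lit 5) (nat_lit 372) (nat_lit 5) (nat_lit 359) (nat_lit 5) (nat_lit 483) (nat_lit 455) (nat_lit 202)))))) (XT.nd (nat_lit 390) (nat_lit 1596) (nat_lit 0) (XT.nd (nat_lit 156) (nat_lit 1672) (nat_lit 0) (XT.nd (nat_lit 78) (nat_lit 0) (nat_lit 0) (XT.lf (nat_lit 0) (nat_lit 3772283148) (nat_lit 912) (nat_lit 3992410408) (nat_lit 988) (nat_lit 16729050903) (nat_lit 346) (nat_lit 5) (nat_lit 358) (nat_lit 5) (nat_lit 359) (nat_lit 5) (nat_lit 484) (nat_lit 455) (nat_lit 201)) (XT.lf (nat_lit 0) (nat_lit 10010526223) (nat_lit 988) (nat_lit 8375354698) (nat_lit 76) (nat_lit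 6378271091) (nat_lit 346) (nat_lit 5) (nat_lit 359) (nat_lit 5) (nat_lit 347) (nat_lit 5) (nat_lit 485) (nat_lit 455) (nat_lit 200))) (XT.nd (nat_lit 78) (nat_lit 836) (nat_lit 0) (XT.lf (nat_lit 0) (nat_lit 4244071596) (nat_lit 836) (nat_lit 8108145248) (nat_lit 912) (nat_lit 12686733481) (nat_lit 335) (nat_lit 5) (nat_lit 346) (nat_lit 5) (nat_lit 347) (nat_lit 5) (nat_lit 486) (nat_lit 455) (nat_lit 199)) (XT.nd (nat_lit 78) (nat_lit 836) (nat_lit 0) (XT.lf (nat_lit 0) (nat_lit 14809726712) (nat_lit 912) (nat_lit 8107366033) (nat_lit 76) (nat_lit 2400773559) (nat_lit 335) (nat_lit 5) (nat_lit 347) (nat_lit 5) (nat_lit 336) (nat_lit 5) (nat_lit 487) (nat_lit 455) (nat_lit 198)) (XT.lf (nat_lit 0) (nat_lit 4840876996) (nat_lit 836) (nat_lit 12557684498) (nat_lit 912) (nat_lit 8202156993) (nat_lit 324) (nat_lit 5) (nat_lit 335) (nat_lit 5) (nat_lit 336) (nat_lit 5) (nat_lit 488) (nat_lit 455) (nat_lit 197)))))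 (XT.nd (nat_lit 234) (nat_lit 836) (nat_lit 0) (XT.nd (nat_lit 78) (nat_lit 760) (nat_lit 0) (XT.lf (nat_lit 0) (nat_lit 18155188303) (nat_lit 836) (nat_lit 1935477306) (nat_lit 912) (nat_lit 5797533604) (nat_lit 324) (nat_lit 5) (nat_lit 335) (nat_lit 5) (nat_lit 336) (nat_lit 5) (nat_lit 489) (nat_lit 455) (nat_lit 196)) (XT.nd (nat_lit 78) (nat_lit 0) (nat_lit 0) (XT.lf (nat_lit 0) (nat_lit 5566787909) (nat_lit 760) (nat_lit 17360892313) (nat_lit 836) (nat_lit 3251929290) (nat_lit 314) (nat_lit 5) (nat_lit 324) (nat_lit 5) (nat_lit 325) (nat_lit 5) (nat_lit 490) (nat_lit 455) (nat_lit 195)) (XT.lf (nat_lit 0) (nat_lit 19221637590) (nat_lit 760) (nat_lit 6661607224) (nat_lit 836) (nat_lit 592368311) (nat_lit 314) (nat_lit 5) (nat_lit 324) (nat_lit 5) (nat_lit 325) (nat_lit 5) (nat_lit 491) (nat_lit 455) (nat_lit 194)))) (XT.nd (nat_lit 56550) (nat_lit 0) (nat_lit 7904) (XT.lf (nat_lit 0) (nat_lit 2159579476)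 (nat_lit 836) (nat_lit 20364476632) (nat_lit 76) (nat_lit 4251866515) (nat_lit 303) (nat_lit 5) (nat_lit 314) (nat_lit 5) (nat_lit 304) (nat_lit 5) (nat_lit 492) (nat_lit 455) (nat_lit 193)) (XT.nd (nat_lit 78) (nat_lit 0) (nat_lit 0) (XT.lf (nat_lit 0) (nat_lit 8611235140) (nat_lit 1748) (nat_lit 320412479) (nat_lit 1748) (nat_lit 320412479) (nat_lit 407) (nat_lit 3) (nat_lit 430) (nat_lit 3) (nat_lit 430) (nat_lit 5) (nat_lit 456) (nat_lit 456) (nat_lit 228)) (XT.lf (nat_lit 76) (nat_lit 8151278857) (nat_lit 0) (nat_lit 9483608645) (nat_lit 1748) (nat_lit 1049372863) (nat_lit 408) (nat_lit 5) (nat_lit 407) (nat_lit 3) (nat_lit 430) (nat_lit 5) (nat_lit 457) (nat_lit 456) (nat_lit 227))))))) (XT.nd (nat_lit 780) (nat_lit 0) (nat_lit 228) (XT.nd (nat_lit 390) (nat_lit 0) (nat_lit 76) (XT.nd (nat_lit 156) (nat_lit 1596) (nat_lit 0) (XT.nd (nat_lit 78) (nat_lit 0) (nat_lit 76) (XT.lf (nat_lit 76) (nat_lit 17125371529)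 (nat_lit 0) (nat_lit 929553188) (nat_lit 1748) (nat_lit 813093732) (nat_lit 408) (nat_lit 5) (nat_lit 407) (nat_lit 3) (nat_lit 430) (nat_lit 5) (nat_lit 458) (nat_lit 456) (nat_lit 226)) (XT.lf (nat_lit 76) (nat_lit 7265565135) (nat_lit 0) (nat_lit 11310767730) (nat_lit 1748) (nat_lit 477261927) (nat_lit 409) (nat_lit 5) (nat_lit 408) (nat_lit 5) (nat_lit 431) (nat_lit 5) (nat_lit 459) (nat_lit 456) (nat_lit 225))) (XT.nd (nat_lit 78) (nat_lit 1672) (nat_lit 0) (XT.lf (nat_lit 76) (nat_lit 16468738495) (nat_lit 0) (nat_lit 2652501111) (nat_lit 1748) (nat_lit 121384096) (nat_lit 409) (nat_lit 5) (nat_lit 408) (nat_lit 5) (nat_lit 431) (nat_lit 5) (nat_lit 460) (nat_lit 456) (nat_lit 224)) (XT.nd (nat_lit 78) (nat_lit 0) (nat_lit 0) (XT.lf (nat_lit 0) (nat_lit 316397303) (nat_lit 1748) (nat_lit 12973432010) (nat_lit 1824) (nat_lit 6144015764) (nat_lit 386) (nat_lit 5) (nat_lit 409) (nat_lit 5) (nat_lit 410) (nat_lit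 5) (nat_lit 461) (nat_lit 456) (nat_lit 223)) (XT.lf (nat_lit 0) (nat_lit 793023001) (nat_lit 1748) (nat_lit 3732705315) (nat_lit 1824) (nat_lit 15102514544) (nat_lit 386) (nat_lit 5) (nat_lit 409) (nat_lit 5) (nat_lit 410) (nat_lit 5) (nat_lit 462) (nat_lit 456) (nat_lit 222))))) (XT.nd (nat_lit 156) (nat_lit 0) (nat_lit 76) (XT.nd (nat_lit 78) (nat_lit 0) (nat_lit 0) (XT.lf (nat_lit 0) (nat_lit 1341031879) (nat_lit 1748) (nat_lit 14088971548) (nat_lit 1824) (nat_lit 4395290423) (nat_lit 387) (nat_lit 5) (nat_lit 410) (nat_lit 5) (nat_lit 411) (nat_lit 5) (nat_lit 463) (nat_lit 456) (nat_lit 221)) (XT.lf (nat_lit 0) (nat_lit 1950768703) (nat_lit 1748) (nat_lit 4613318040) (nat_lit 1824) (nat_lit 13461185980) (nat_lit 387) (nat_lit 5) (nat_lit 410) (nat_lit 5) (nat_lit 411) (nat_lit 5) (nat_lit 464) (nat_lit 456) (nat_lit 220))) (XT.nd (nat_lit 78) (nat_lit 0) (nat_lit 0) (XT.lf (nat_lit 0) (nat_lit 2617913980)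 (nat_lit 1748) (nat_lit 15128723628) (nat_lit 1824) (nat_lit 2481711467) (nat_lit 388) (nat_lit 5) (nat_lit 411) (nat_lit 5) (nat_lit 412) (nat_lit 5) (nat_lit 465) (nat_lit 456) (nat_lit 219)) (XT.nd (nat_lit 78) (nat_lit 0) (nat_lit 76) (XT.lf (nat_lit 0) (nat_lit 3368782304) (nat_lit 1748) (nat_lit 5411931769) (nat_lit 1824) (nat_lit 11653367411) (nat_lit 388) (nat_lit 5) (nat_lit 411) (nat_lit 5) (nat_lit 412) (nat_lit 5) (nat_lit 466) (nat_lit 456) (nat_lit 218)) (XT.lf (nat_lit 0) (nat_lit 4162652417) (nat_lit 1748) (nat_lit 16089739375) (nat_lit 1824) (nat_lit 390979152) (nat_lit 389) (nat_lit 5) (nat_lit 412) (nat_lit 5) (nat_lit 413) (nat_lit 5) (nat_lit 467) (nat_lit 456) (nat_lit 217)))))) (XT.nd (nat_lit 390) (nat_lit 0) (nat_lit 152) (XT.nd (nat_lit 156) (nat_lit 0) (nat_lit 76) (XT.nd (nat_lit 78) (nat_lit 0) (nat_lit 0) (XT.lf (nat_lit 0) (nat_lit 5063011370) (nat_lit 1748) (nat_lit 6125416926)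 (nat_lit 1824) (nat_lit 9666607719) (nat_lit 389) (nat_lit 5) (nat_lit 412) (nat_lit 5) (nat_lit 413) (nat_lit 5) (nat_lit 468) (nat_lit 456) (nat_lit 216)) (XT.lf (nat_lit 76) (nat_lit 4089103185) (nat_lit 0) (nat_lit 1914807403) (nat_lit 1824) (nat_lit 15066575149) (nat_lit 390) (nat_lit 5) (nat_lit 389) (nat_lit 5) (nat_lit 413) (nat_lit 5) (nat_lit 469) (nat_lit 456) (nat_lit 215))) (XT.nd (nat_lit 78) (nat_lit 0) (nat_lit 0) (XT.lf (nat_lit 0) (nat_lit 7050040563) (nat_lit 1748) (nat_lit 6750521185) (nat_lit 1824) (nat_lit 7487956418) (nat_lit 390) (nat_lit 5) (nat_lit 413) (nat_lit 5) (nat_lit 414) (nat_lit 5) (nat_lit 470) (nat_lit 456) (nat_lit 214)) (XT.nd (nat_lit 78) (nat_lit 0) (nat_lit 76) (XT.lf (nat_lit 76) (nat_lit 3718308097) (nat_lit 0) (nat_lit 4431738269) (nat_lit 1824) (nat_lit 13360207747) (nat_lit 391) (nat_lit 5) (nat_lit 390) (nat_lit 5) (nat_lit 414) (nat_lit 5) (nat_lit 471) (nat_lit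 456) (nat_lit 213)) (XT.lf (nat_lit 0) (nat_lit 9347119236) (nat_lit 1748) (nat_lit 7283873109) (nat_lit 1824) (nat_lit 5103932988) (nat_lit 391) (nat_lit 5) (nat_lit 414) (nat_lit 5) (nat_lit 415) (nat_lit 5) (nat_lit 472) (nat_lit 456) (nat_lit 212))))) (XT.nd (nat_lit 234) (nat_lit 0) (nat_lit 76) (XT.nd (nat_lit 78) (nat_lit 0) (nat_lit 76) (XT.lf (nat_lit 76) (nat_lit 3447479271) (nat_lit 0) (nat_lit 7168657461) (nat_lit 1824) (nat_lit 11346995040) (nat_lit 392) (nat_lit 5) (nat_lit 391) (nat_lit 5) (nat_lit 415) (nat_lit 5) (nat_lit 473) (nat_lit 456) (nat_lit 211)) (XT.nd (nat_lit 78) (nat_lit 0) (nat_lit 0) (XT.lf (nat_lit 0) (nat_lit 11972189821) (nat_lit 1748) (nat_lit 7721986139) (nat_lit 1824) (nat_lit 2500495095) (nat_lit 392) (nat_lit 5) (nat_lit 415) (nat_lit 5) (nat_lit 416) (nat_lit 5) (nat_lit 474) (nat_lit 456) (nat_lit 210)) (XT.lf (nat_lit 76) (nat_lit 3280346031) (nat_lit 0) (nat_lit 10140194724)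 (nat_lit 1824) (nat_lit 9008998617) (nat_lit 393) (nat_lit 5) (nat_lit 392) (nat_lit 5) (nat_lit 416) (nat_lit 5) (nat_lit 475) (nat_lit 456) (nat_lit 209)))) (XT.nd (nat_lit 78) (nat_lit 0) (nat_lit 76) (XT.lf (nat_lit 76) (nat_lit 14604661233) (nat_lit 0) (nat_lit 341472853) (nat_lit 1824) (nat_lit 7722007213) (nat_lit 393) (nat_lit 5) (nat_lit 392) (nat_lit 5) (nat_lit 416) (nat_lit 5) (nat_lit 476) (nat_lit 456) (nat_lit 208)) (XT.nd (nat_lit 78) (nat_lit 0) (nat_lit 0) (XT.lf (nat_lit 76) (nat_lit 3220753285) (nat_lit 0) (nat_lit 13361603787) (nat_lit 1824) (nat_lit 6327557551) (nat_lit 394) (nat_lit 5) (nat_lit 393) (nat_lit 5) (nat_lit 417) (nat_lit 5) (nat_lit 477) (nat_lit 456) (nat_lit 207)) (XT.lf (nat_lit 76) (nat_lit 14834940775) (nat_lit 0) (nat_lit 3469302074) (nat_lit 1824) (nat_lit 4851223482) (nat_lit 394) (nat_lit 5) (nat_lit 393) (nat_lit 5) (nat_lit 417) (nat_lit 5) (nat_lit 478) (nat_lit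 456) (nat_lit 206))))))))
noncomputable def xc246 : XT := (XT.nd (nat_lit 58266) (nat_lit 0) (nat_lit 3344) (XT.nd (nat_lit 780) (nat_lit 1596) (nat_lit 0) (XT.nd (nat_lit 390) (nat_lit 1748) (nat_lit 0) (XT.nd (nat_lit 156) (nat_lit 2736) (nat_lit 0) (XT.nd (nat_lit 78) (nat_lit 0) (nat_lit 0) (XT.lf (nat_lit 76) (nat_lit 3272656614) (nat_lit 0) (nat_lit 16848797844) (nat_lit 1824) (nat_lit 3283258500) (nat_lit 395) (nat_lit 5) (nat_lit 394) (nat_lit 5) (nat_lit 418) (nat_lit 5) (nat_lit 479) (nat_lit 456) (nat_lit 205)) (XT.lf (nat_lit 76) (nat_lit 15184465775) (nat_lit 0) (nat_lit 6865904746) (nat_lit 1824) (nat_lit 1607068409) (nat_lit 395) (nat_lit 5) (nat_lit 394) (nat_lit 5) (nat_lit 418) (nat_lit 5) (nat_lit 480) (nat_lit 456) (nat_lit 204))) (XT.nd (nat_lit 78) (nat_lit 988) (nat_lit 0) (XT.lf (nat_lit 0) (nat_lit 142205213) (nat_lit 1824) (nat_lit 20475226981) (nat_lit 76) (nat_lit 3296957333) (nat_lit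 371) (nat_lit 5) (nat_lit 395) (nat_lit 5) (nat_lit 372) (nat_lit 5) (nat_lit 481) (nat_lit 456) (nat_lit 203)) (XT.nd (nat_lit 78) (nat_lit 988) (nat_lit 0) (XT.lf (nat_lit 0) (nat_lit 2004461922) (nat_lit 1824) (nat_lit 8530221350) (nat_lit 76) (nat_lit 13639594609) (nat_lit 371) (nat_lit 5) (nat_lit 395) (nat_lit 5) (nat_lit 372) (nat_lit 5) (nat_lit 482) (nat_lit 456) (nat_lit 202)) (XT.lf (nat_lit 0) (nat_lit 3699473486) (nat_lit 988) (nat_lit 225364540) (nat_lit 1064) (nat_lit 20514109983) (nat_lit 358) (nat_lit 5) (nat_lit 371) (nat_lit 5) (nat_lit 372) (nat_lit 5) (nat_lit 483) (nat_lit 456) (nat_lit 201))))) (XT.nd (nat_lit 156) (nat_lit 836) (nat_lit 0) (XT.nd (nat_lit 78) (nat_lit 912) (nat_lit 0) (XT.lf (nat_lit 0) (nat_lit 6004954846) (nat_lit 1064) (nat_lit 8488342802) (nat_lit 76) (nat_lit 10213188692) (nat_lit 358) (nat_lit 5) (nat_lit 372) (nat_lit 5) (nat_lit 359) (nat_lit 5) (nat_lit 484)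 (nat_lit 456) (nat_lit 200)) (XT.lf (nat_lit 0) (nat_lit 4056801005) (nat_lit 912) (nat_lit 4094667089) (nat_lit 988) (nat_lit 16827412898) (nat_lit 346) (nat_lit 5) (nat_lit 358) (nat_lit 5) (nat_lit 359) (nat_lit 5) (nat_lit 485) (nat_lit 456) (nat_lit 199))) (XT.nd (nat_lit 78) (nat_lit 836) (nat_lit 0) (XT.lf (nat_lit 0) (nat_lit 10437535940) (nat_lit 988) (nat_lit 8333100967) (nat_lit 76) (nat_lit 6484155551) (nat_lit 346) (nat_lit 5) (nat_lit 359) (nat_lit 5) (nat_lit 347) (nat_lit 5) (nat_lit 486) (nat_lit 456) (nat_lit 198)) (XT.nd (nat_lit 78) (nat_lit 0) (nat_lit 0) (XT.lf (nat_lit 0) (nat_lit 4537333848) (nat_lit 836) (nat_lit 8285632430) (nat_lit 912) (nat_lit 12712184432) (nat_lit 335) (nat_lit 5) (nat_lit 346) (nat_lit 5) (nat_lit 347) (nat_lit 5) (nat_lit 487) (nat_lit 456) (nat_lit 197)) (XT.lf (nat_lit 0) (nat_lit 15325142423) (nat_lit 912) (nat_lit 8060632042) (nat_lit 76) (nat_lit 2433962270)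 (nat_lit 335) (nat_lit 5) (nat_lit 347) (nat_lit 5) (nat_lit 336) (nat_lit 5) (nat_lit 488) (nat_lit 456) (nat_lit 196)))))) (XT.nd (nat_lit 57018) (nat_lit 0) (nat_lit 5396) (XT.nd (nat_lit 234) (nat_lit 760) (nat_lit 0) (XT.nd (nat_lit 78) (nat_lit 0) (nat_lit 0) (XT.lf (nat_lit 0) (nat_lit 5145201628) (nat_lit 836) (nat_lit 12817601092) (nat_lit 912) (nat_lit 8145504275) (nat_lit 324) (nat_lit 5) (nat_lit 335) (nat_lit 5) (nat_lit 336) (nat_lit 5) (nat_lit 489) (nat_lit 456) (nat_lit 195)) (XT.lf (nat_lit 0) (nat_lit 18721730394) (nat_lit 836) (nat_lit 1982777935) (nat_lit 912) (nat_lit 5697115788) (nat_lit 324) (nat_lit 5) (nat_lit 335) (nat_lit 5) (nat_lit 336) (nat_lit 5) (nat_lit 490) (nat_lit 456) (nat_lit 194))) (XT.nd (nat_lit 56628) (nat_lit 0) (nat_lit 7068) (XT.lf (nat_lit 0) (nat_lit 19808487853) (nat_lit 760) (nat_lit 6797478521) (nat_lit 836) (nat_lit 394963213) (nat_lit 314) (nat_lit 5) (nat_lit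 324) (nat_lit 5) (nat_lit 325) (nat_lit 5) (nat_lit 492) (nat_lit 456) (nat_lit 192)) (XT.nd (nat_lit 78) (nat_lit 0) (nat_lit 0) (XT.lf (nat_lit 0) (nat_lit 8969512978) (nat_lit 1748) (nat_lit 231885352) (nat_lit 1748) (nat_lit 231885352) (nat_lit 407) (nat_lit 3) (nat_lit 430) (nat_lit 3) (nat_lit 430) (nat_lit 5) (nat_lit 457) (nat_lit 457) (nat_lit 226)) (XT.lf (nat_lit 76) (nat_lit 8502926037) (nat_lit 0) (nat_lit 9850693940) (nat_lit 1748) (nat_lit 696815576) (nat_lit 408) (nat_lit 5) (nat_lit 407) (nat_lit 3) (nat_lit 430) (nat_lit 5) (nat_lit 458) (nat_lit 457) (nat_lit 225))))) (XT.nd (nat_lit 234) (nat_lit 0) (nat_lit 76) (XT.nd (nat_lit 78) (nat_lit 1672) (nat_lit 0) (XT.lf (nat_lit 76) (nat_lit 17652802100) (nat_lit 0) (nat_lit 1122078685) (nat_lit 1748) (nat_lit 463135270) (nat_lit 408) (nat_lit 5) (nat_lit 407) (nat_lit 3) (nat_lit 430) (nat_lit 5) (nat_lit 459) (nat_lit 457) (nat_lit 224)) (XT.nd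 (nat_lit 78) (nat_lit 1748) (nat_lit 0) (XT.lf (nat_lit 76) (nat_lit 7603019171) (nat_lit 0) (nat_lit 11696801866) (nat_lit 1748) (nat_lit 127624449) (nat_lit 409) (nat_lit 5) (nat_lit 408) (nat_lit 5) (nat_lit 431) (nat_lit 5) (nat_lit 460) (nat_lit 457) (nat_lit 223)) (XT.lf (nat_lit 0) (nat_lit 225333575) (nat_lit 1748) (nat_lit 2635390531) (nat_lit 1824) (nat_lit 16759642812) (nat_lit 385) (nat_lit 5) (nat_lit 408) (nat_lit 5) (nat_lit 409) (nat_lit 5) (nat_lit 461) (nat_lit 457) (nat_lit 222)))) (XT.nd (nat_lit 78) (nat_lit 0) (nat_lit 0) (XT.lf (nat_lit 0) (nat_lit 663704307) (nat_lit 1748) (nat_lit 13033018179) (nat_lit 1824) (nat_lit 6118808434) (nat_lit 386) (nat_lit 5) (nat_lit 409) (nat_lit 5) (nat_lit 410) (nat_lit 5) (nat_lit 462) (nat_lit 457) (nat_lit 221)) (XT.nd (nat_lit 78) (nat_lit 0) (nat_lit 76) (XT.lf (nat_lit 0) (nat_lit 1143176655) (nat_lit 1748) (nat_lit 3611396214) (nat_lit 1824) (nat_lit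 15259380870) (nat_lit 386) (nat_lit 5) (nat_lit 409) (nat_lit 5) (nat_lit 410) (nat_lit 5) (nat_lit 463) (nat_lit 457) (nat_lit 220)) (XT.lf (nat_lit 0) (nat_lit 1695982746) (nat_lit 1748) (nat_lit 14168459989) (nat_lit 1824) (nat_lit 4350629569) (nat_lit 387) (nat_lit 5) (nat_lit 410) (nat_lit 5) (nat_lit 411) (nat_lit 5) (nat_lit 464) (nat_lit 457) (nat_lit 219))))))) (XT.nd (nat_lit 780) (nat_lit 2204) (nat_lit 0) (XT.nd (nat_lit 390) (nat_lit 0) (nat_lit 152) (XT.nd (nat_lit 156) (nat_lit 0) (nat_lit 76) (XT.nd (nat_lit 78) (nat_lit 0) (nat_lit 76) (XT.lf (nat_lit 0) (nat_lit 2311480380) (nat_lit 1748) (nat_lit 4507259900) (nat_lit 1824) (nat_lit 13600442384) (nat_lit 387) (nat_lit 5) (nat_lit 410) (nat_lit 5) (nat_lit 411) (nat_lit 5) (nat_lit 465) (nat_lit 457) (nat_lit 218)) (XT.lf (nat_lit 0) (nat_lit 2986163141) (nat_lit 1748) (nat_lit 15227009761) (nat_lit 1824) (nat_lit 2413266919) (nat_lit 388) (nat_lit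 5) (nat_lit 411) (nat_lit 5) (nat_lit 412) (nat_lit 5) (nat_lit 466) (nat_lit 457) (nat_lit 217))) (XT.nd (nat_lit 78) (nat_lit 0) (nat_lit 76) (XT.lf (nat_lit 0) (nat_lit 3745854893) (nat_lit 1748) (nat_lit 5319887718) (nat_lit 1824) (nat_lit 11770671252) (nat_lit 388) (nat_lit 5) (nat_lit 411) (nat_lit 5) (nat_lit 412) (nat_lit 5) (nat_lit 467) (nat_lit 457) (nat_lit 216)) (XT.nd (nat_lit 78) (nat_lit 0) (nat_lit 0) (XT.lf (nat_lit 0) (nat_lit 4550133826) (nat_lit 1748) (nat_lit 16205630629) (nat_lit 1824) (nat_lit 294237075) (nat_lit 389) (nat_lit 5) (nat_lit 412) (nat_lit 5) (nat_lit 413) (nat_lit 5) (nat_lit 468) (nat_lit 457) (nat_lit 215)) (XT.lf (nat_lit 0) (nat_lit 5462534696) (nat_lit 1748) (nat_lit 6046059055) (nat_lit 1824) (nat_lit 9757428442) (nat_lit 389) (nat_lit 5) (nat_lit 412) (nat_lit 5) (nat_lit 413) (nat_lit 5) (nat_lit 469) (nat_lit 457) (nat_lit 214))))) (XT.nd (nat_lit 156) (nat_lit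 0) (nat_lit 76) (XT.nd (nat_lit 78) (nat_lit 0) (nat_lit 76) (XT.lf (nat_lit 76) (nat_lit 4371423391) (nat_lit 0) (nat_lit 2046282237) (nat_lit 1824) (nat_lit 15068169132) (nat_lit 390) (nat_lit 5) (nat_lit 389) (nat_lit 5) (nat_lit 413) (nat_lit 5) (nat_lit 470) (nat_lit 457) (nat_lit 213)) (XT.lf (nat_lit 0) (nat_lit 7478405934) (nat_lit 1748) (nat_lit 6682429834) (nat_lit 1824) (nat_lit 7547561986) (nat_lit 390) (nat_lit 5) (nat_lit 413) (nat_lit 5) (nat_lit 414) (nat_lit 5) (nat_lit 471) (nat_lit 457) (nat_lit 212))) (XT.nd (nat_lit 78) (nat_lit 0) (nat_lit 76) (XT.lf (nat_lit 76) (nat_lit 3994439838) (nat_lit 0) (nat_lit 4601647413) (nat_lit 1824) (nat_lit 13338570475) (nat_lit 391) (nat_lit 5) (nat_lit 390) (nat_lit 5) (nat_lit 414) (nat_lit 5) (nat_lit 472) (nat_lit 457) (nat_lit 211)) (XT.nd (nat_lit 78) (nat_lit 0) (nat_lit 0) (XT.lf (nat_lit 0) (nat_lit 9811034435) (nat_lit 1748) (nat_lit 7225536124)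 (nat_lit 1824) (nat_lit 5127375913) (nat_lit 391) (nat_lit 5) (nat_lit 414) (nat_lit 5) (nat_lit 415) (nat_lit 5) (nat_lit 473) (nat_lit 457) (nat_lit 210)) (XT.lf (nat_lit 76) (nat_lit 3719101104) (nat_lit 0) (nat_lit 7382216220) (nat_lit 1824) (nat_lit 11295484719) (nat_lit 392) (nat_lit 5) (nat_lit 391) (nat_lit 5) (nat_lit 415) (nat_lit 5) (nat_lit 474) (nat_lit 457) (nat_lit 209)))))) (XT.nd (nat_lit 390) (nat_lit 2584) (nat_lit 0) (XT.nd (nat_lit 156) (nat_lit 0) (nat_lit 0) (XT.nd (nat_lit 78) (nat_lit 0) (nat_lit 0) (XT.lf (nat_lit 0) (nat_lit 12478694564) (nat_lit 1748) (nat_lit 7671798113) (nat_lit 1824) (nat_lit 2482598023) (nat_lit 392) (nat_lit 5) (nat_lit 415) (nat_lit 5) (nat_lit 416) (nat_lit 5) (nat_lit 475) (nat_lit 457) (nat_lit 208)) (XT.lf (nat_lit 76) (nat_lit 3549234465) (nat_lit 0) (nat_lit 10402861401) (nat_lit 1824) (nat_lit 8920641450) (nat_lit 393) (nat_lit 5) (nat_lit 392) (nat_lit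 5) (nat_lit 416) (nat_lit 5) (nat_lit 476) (nat_lit 457) (nat_lit 207))) (XT.nd (nat_lit 78) (nat_lit 0) (nat_lit 76) (XT.lf (nat_lit 76) (nat_lit 15096050059) (nat_lit 0) (nat_lit 406991312) (nat_lit 1824) (nat_lit 7613175652) (nat_lit 393) (nat_lit 5) (nat_lit 392) (nat_lit 5) (nat_lit 416) (nat_lit 5) (nat_lit 477) (nat_lit 457) (nat_lit 206)) (XT.nd (nat_lit 78) (nat_lit 0) (nat_lit 0) (XT.lf (nat_lit 76) (nat_lit 3488783656) (nat_lit 0) (nat_lit 13679095069) (nat_lit 1824) (nat_lit 6195031790) (nat_lit 394) (nat_lit 5) (nat_lit 393) (nat_lit 5) (nat_lit 417) (nat_lit 5) (nat_lit 478) (nat_lit 457) (nat_lit 205)) (XT.lf (nat_lit 76) (nat_lit 15331262439) (nat_lit 0) (nat_lit 3587961846) (nat_lit 1824) (nat_lit 4694250978) (nat_lit 394) (nat_lit 5) (nat_lit 393) (nat_lit 5) (nat_lit 417) (nat_lit 5) (nat_lit 479) (nat_lit 457) (nat_lit 204))))) (XT.nd (nat_lit 234) (nat_lit 988) (nat_lit 0) (XT.nd (nat_lit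 78) (nat_lit 1748) (nat_lit 0) (XT.lf (nat_lit 76) (nat_lit 3541803938) (nat_lit 0) (nat_lit 17227104737) (nat_lit 1824) (nat_lit 3098877979) (nat_lit 395) (nat_lit 5) (nat_lit 394) (nat_lit 5) (nat_lit 418) (nat_lit 5) (nat_lit 480) (nat_lit 457) (nat_lit 203)) (XT.nd (nat_lit 78) (nat_lit 1748) (nat_lit 0) (XT.lf (nat_lit 76) (nat_lit 15687855279) (nat_lit 0) (nat_lit 7043743366) (nat_lit 1824) (nat_lit 1394066943) (nat_lit 395) (nat_lit 5) (nat_lit 394) (nat_lit 5) (nat_lit 418) (nat_lit 5) (nat_lit 481) (nat_lit 457) (nat_lit 202)) (XT.lf (nat_lit 0) (nat_lit 383303994) (nat_lit 1824) (nat_lit 20677914640) (nat_lit 76) (nat_lit 3326580453) (nat_lit 371) (nat_lit 5) (nat_lit 395) (nat_lit 5) (nat_lit 372) (nat_lit 5) (nat_lit 482) (nat_lit 457) (nat_lit 201)))) (XT.nd (nat_lit 78) (nat_lit 988) (nat_lit 0) (XT.lf (nat_lit 0) (nat_lit 2278134176) (nat_lit 1824) (nat_lit 8498064130) (nat_lit 76) (nat_lit 13876782554)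 (nat_lit 371) (nat_lit 5) (nat_lit 395) (nat_lit 5) (nat_lit 372) (nat_lit 5) (nat_lit 483) (nat_lit 457) (nat_lit 200)) (XT.nd (nat_lit 78) (nat_lit 0) (nat_lit 0) (XT.lf (nat_lit 0) (nat_lit 3974890645) (nat_lit 988) (nat_lit 258754901) (nat_lit 1064) (nat_lit 20689366465) (nat_lit 358) (nat_lit 5) (nat_lit 371) (nat_lit 5) (nat_lit 372) (nat_lit 5) (nat_lit 484) (nat_lit 457) (nat_lit 199)) (XT.lf (nat_lit 0) (nat_lit 6350664954) (nat_lit 1064) (nat_lit 8455825172) (nat_lit 76) (nat_lit 10389507110) (nat_lit 358) (nat_lit 5) (nat_lit 372) (nat_lit 5) (nat_lit 359) (nat_lit 5) (nat_lit 485) (nat_lit 457) (nat_lit 198))))))))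
noncomputable def xc247 : XT := (XT.nd (nat_lit 58344) (nat_lit 0) (nat_lit 0) (XT.nd (nat_lit 57486) (nat_lit 0) (nat_lit 4636) (XT.nd (nat_lit 390) (nat_lit 0) (nat_lit 0) (XT.nd (nat_lit 156) (nat_lit 1672) (nat_lit 0) (XT.nd (nat_lit 78) (nat_lit 0) (nat_lit 0) (XT.lf (nat_lit 0) (nat_lit 4338890692) (nat_lit 912) (nat_lit 4198098754) (nat_lit 988) (nat_lit 16936914806) (nat_lit 346) (nat_lit 5) (nat_lit 358) (nat_lit 5) (nat_lit 359) (nat_lit 5) (nat_lit 486) (nat_lit 457) (nat_lit 197)) (XT.lf (nat_lit 0) (nat_lit 10864278962) (nat_lit 988) (nat_lit 8298147429) (nat_lit 76) (nat_lit 6592999599) (nat_lit 346) (nat_lit 5) (nat_lit 359) (nat_lit 5) (nat_lit 347) (nat_lit 5) (nat_lit 487) (nat_lit 457) (nat_lit 196))) (XT.nd (nat_lit 78) (nat_lit 836) (nat_lit 0) (XT.lf (nat_lit 0) (nat_lit 4828369663) (nat_lit 836) (nat_lit 8466074294) (nat_lit 912) (nat_lit 12747008938) (nat_lit 335) (nat_lit 5) (nat_lit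 346) (nat_lit 5) (nat_lit 347) (nat_lit 5) (nat_lit 488) (nat_lit 457) (nat_lit 195)) (XT.nd (nat_lit 78) (nat_lit 836) (nat_lit 0) (XT.lf (nat_lit 0) (nat_lit 15842353823) (nat_lit 912) (nat_lit 8021074488) (nat_lit 76) (nat_lit 2468390496) (nat_lit 335) (nat_lit 5) (nat_lit 347) (nat_lit 5) (nat_lit 336) (nat_lit 5) (nat_lit 489) (nat_lit 457) (nat_lit 194)) (XT.lf (nat_lit 0) (nat_lit 5447554999) (nat_lit 836) (nat_lit 13082375744) (nat_lit 912) (nat_lit 8096288392) (nat_lit 324) (nat_lit 5) (nat_lit 335) (nat_lit 5) (nat_lit 336) (nat_lit 5) (nat_lit 490) (nat_lit 457) (nat_lit 193))))) (XT.nd (nat_lit 56862) (nat_lit 0) (nat_lit 4636) (XT.nd (nat_lit 56784) (nat_lit 0) (nat_lit 6308) (XT.lf (nat_lit 0) (nat_lit 19291703570) (nat_lit 836) (nat_lit 2030690974) (nat_lit 912) (nat_lit 5603091468) (nat_lit 324) (nat_lit 5) (nat_lit 335) (nat_lit 5) (nat_lit 336) (nat_lit 5) (nat_lit 491) (nat_lit 457) (nat_lit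 192)) (XT.lf (nat_lit 0) (nat_lit 9327731703) (nat_lit 1748) (nat_lit 145274139) (nat_lit 1748) (nat_lit 145274139) (nat_lit 407) (nat_lit 3) (nat_lit 430) (nat_lit 3) (nat_lit 430) (nat_lit 5) (nat_lit 458) (nat_lit 458) (nat_lit 224))) (XT.nd (nat_lit 78) (nat_lit 1672) (nat_lit 0) (XT.lf (nat_lit 76) (nat_lit 8854281755) (nat_lit 0) (nat_lit 10218231773) (nat_lit 1748) (nat_lit 351712342) (nat_lit 408) (nat_lit 5) (nat_lit 407) (nat_lit 3) (nat_lit 430) (nat_lit 5) (nat_lit 459) (nat_lit 458) (nat_lit 223)) (XT.nd (nat_lit 78) (nat_lit 1672) (nat_lit 0) (XT.lf (nat_lit 76) (nat_lit 18183600492) (nat_lit 0) (nat_lit 1311700606) (nat_lit 1748) (nat_lit 120398421) (nat_lit 408) (nat_lit 5) (nat_lit 407) (nat_lit 3) (nat_lit 430) (nat_lit 5) (nat_lit 460) (nat_lit 458) (nat_lit 222)) (XT.lf (nat_lit 0) (nat_lit 212237747) (nat_lit 1748) (nat_lit 11870688751) (nat_lit 1824) (nat_lit 7726099176) (nat_lit 385) (nat_lit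 5) (nat_lit 408) (nat_lit 5) (nat_lit 409) (nat_lit 5) (nat_lit 461) (nat_lit 458) (nat_lit 221)))))) (XT.nd (nat_lit 390) (nat_lit 0) (nat_lit 228) (XT.nd (nat_lit 156) (nat_lit 0) (nat_lit 76) (XT.nd (nat_lit 78) (nat_lit 0) (nat_lit 76) (XT.lf (nat_lit 0) (nat_lit 563867101) (nat_lit 1748) (nat_lit 2502430797) (nat_lit 1824) (nat_lit 16939627705) (nat_lit 385) (nat_lit 5) (nat_lit 408) (nat_lit 5) (nat_lit 409) (nat_lit 5) (nat_lit 462) (nat_lit 458) (nat_lit 220)) (XT.lf (nat_lit 0) (nat_lit 1004716819) (nat_lit 1748) (nat_lit 13101557752) (nat_lit 1824) (nat_lit 6098847382) (nat_lit 386) (nat_lit 5) (nat_lit 409) (nat_lit 5) (nat_lit 410) (nat_lit 5) (nat_lit 463) (nat_lit 458) (nat_lit 219))) (XT.nd (nat_lit 78) (nat_lit 0) (nat_lit 76) (XT.lf (nat_lit 0) (nat_lit 1487352370) (nat_lit 1748) (nat_lit 3495270422) (nat_lit 1824) (nat_lit 15425022192) (nat_lit 386) (nat_lit 5) (nat_lit 409) (nat_lit 5) (nat_lit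 410) (nat_lit 5) (nat_lit 464) (nat_lit 458) (nat_lit 218)) (XT.nd (nat_lit 78) (nat_lit 0) (nat_lit 0) (XT.lf (nat_lit 0) (nat_lit 2045290933) (nat_lit 1748) (nat_lit 14257393405) (nat_lit 1824) (nat_lit 4310223224) (nat_lit 387) (nat_lit 5) (nat_lit 410) (nat_lit 5) (nat_lit 411) (nat_lit 5) (nat_lit 465) (nat_lit 458) (nat_lit 217)) (XT.lf (nat_lit 0) (nat_lit 2666914432) (nat_lit 1748) (nat_lit 4406781780) (nat_lit 1824) (nat_lit 13747530705) (nat_lit 387) (nat_lit 5) (nat_lit 410) (nat_lit 5) (nat_lit 411) (nat_lit 5) (nat_lit 466) (nat_lit 458) (nat_lit 216))))) (XT.nd (nat_lit 234) (nat_lit 0) (nat_lit 76) (XT.nd (nat_lit 78) (nat_lit 0) (nat_lit 0) (XT.lf (nat_lit 0) (nat_lit 3349510857) (nat_lit 1748) (nat_lit 15335194382) (nat_lit 1824) (nat_lit 2348038623) (nat_lit 388) (nat_lit 5) (nat_lit 411) (nat_lit 5) (nat_lit 412) (nat_lit 5) (nat_lit 467) (nat_lit 458) (nat_lit 215)) (XT.nd (nat_lit 78) (nat_lit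 0) (nat_lit 76) (XT.lf (nat_lit 0) (nat_lit 4118443023) (nat_lit 1748) (nat_lit 5233780008) (nat_lit 1824) (nat_lit 11894816408) (nat_lit 388) (nat_lit 5) (nat_lit 411) (nat_lit 5) (nat_lit 412) (nat_lit 5) (nat_lit 468) (nat_lit 458) (nat_lit 214)) (XT.lf (nat_lit 0) (nat_lit 4933551306) (nat_lit 1748) (nat_lit 16331835192) (nat_lit 1824) (nat_lit 199620413) (nat_lit 389) (nat_lit 5) (nat_lit 412) (nat_lit 5) (nat_lit 413) (nat_lit 5) (nat_lit 469) (nat_lit 458) (nat_lit 213)))) (XT.nd (nat_lit 78) (nat_lit 0) (nat_lit 0) (XT.lf (nat_lit 0) (nat_lit 5858466570) (nat_lit 1748) (nat_lit 5972952737) (nat_lit 1824) (nat_lit 9854046223) (nat_lit 389) (nat_lit 5) (nat_lit 412) (nat_lit 5) (nat_lit 413) (nat_lit 5) (nat_lit 470) (nat_lit 458) (nat_lit 212)) (XT.nd (nat_lit 78) (nat_lit 0) (nat_lit 76) (XT.lf (nat_lit 76) (nat_lit 4651602861) (nat_lit 0) (nat_lit 2176768327) (nat_lit 1824) (nat_lit 15081434168) (nat_lit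 390) (nat_lit 5) (nat_lit 389) (nat_lit 5) (nat_lit 413) (nat_lit 5) (nat_lit 471) (nat_lit 458) (nat_lit 211)) (XT.lf (nat_lit 0) (nat_lit 7904179897) (nat_lit 1748) (nat_lit 6620863345) (nat_lit 1824) (nat_lit 7611860439) (nat_lit 390) (nat_lit 5) (nat_lit 413) (nat_lit 5) (nat_lit 414) (nat_lit 5) (nat_lit 472) (nat_lit 458) (nat_lit 210))))))) (XT.nd (nat_lit 780) (nat_lit 5016) (nat_lit 0) (XT.nd (nat_lit 390) (nat_lit 0) (nat_lit 152) (XT.nd (nat_lit 156) (nat_lit 0) (nat_lit 76) (XT.nd (nat_lit 78) (nat_lit 0) (nat_lit 76) (XT.lf (nat_lit 76) (nat_lit 4268259411) (nat_lit 0) (nat_lit 4771798755) (nat_lit 1824) (nat_lit 13327716523) (nat_lit 391) (nat_lit 5) (nat_lit 390) (nat_lit 5) (nat_lit 414) (nat_lit 5) (nat_lit 473) (nat_lit 458) (nat_lit 209)) (XT.lf (nat_lit 0) (nat_lit 10273472745) (nat_lit 1748) (nat_lit 7173954529) (nat_lit 1824) (nat_lit 5154341218) (nat_lit 391) (nat_lit 5) (nat_lit 414)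 (nat_lit 5) (nat_lit 415) (nat_lit 5) (nat_lit 474) (nat_lit 458) (nat_lit 208))) (XT.nd (nat_lit 78) (nat_lit 0) (nat_lit 76) (XT.lf (nat_lit 76) (nat_lit 3988285362) (nat_lit 0) (nat_lit 7597320761) (nat_lit 1824) (nat_lit 11253756752) (nat_lit 392) (nat_lit 5) (nat_lit 391) (nat_lit 5) (nat_lit 415) (nat_lit 5) (nat_lit 475) (nat_lit 458) (nat_lit 207)) (XT.nd (nat_lit 78) (nat_lit 0) (nat_lit 0) (XT.lf (nat_lit 0) (nat_lit 12984959099) (nat_lit 1748) (nat_lit 7628552272) (nat_lit 1824) (nat_lit 2466979921) (nat_lit 392) (nat_lit 5) (nat_lit 415) (nat_lit 5) (nat_lit 416) (nat_lit 5) (nat_lit 476) (nat_lit 458) (nat_lit 206)) (XT.lf (nat_lit 76) (nat_lit 3815606999) (nat_lit 0) (nat_lit 10668456866) (nat_lit 1824) (nat_lit 8840944765) (nat_lit 393) (nat_lit 5) (nat_lit 392) (nat_lit 5) (nat_lit 416) (nat_lit 5) (nat_lit 477) (nat_lit 458) (nat_lit 205))))) (XT.nd (nat_lit 156) (nat_lit 0) (nat_lit 76) (XT.nd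 (nat_lit 78) (nat_lit 0) (nat_lit 76) (XT.lf (nat_lit 76) (nat_lit 15589527771) (nat_lit 0) (nat_lit 471541175) (nat_lit 1824) (nat_lit 7512390621) (nat_lit 393) (nat_lit 5) (nat_lit 392) (nat_lit 5) (nat_lit 416) (nat_lit 5) (nat_lit 478) (nat_lit 458) (nat_lit 204)) (XT.lf (nat_lit 76) (nat_lit 3754268004) (nat_lit 0) (nat_lit 14000984550) (nat_lit 1824) (nat_lit 6069915785) (nat_lit 394) (nat_lit 5) (nat_lit 393) (nat_lit 5) (nat_lit 417) (nat_lit 5) (nat_lit 479) (nat_lit 458) (nat_lit 203))) (XT.nd (nat_lit 78) (nat_lit 0) (nat_lit 76) (XT.lf (nat_lit 76) (nat_lit 15829758938) (nat_lit 0) (nat_lit 3707081455) (nat_lit 1824) (nat_lit 4544002036) (nat_lit 394) (nat_lit 5) (nat_lit 393) (nat_lit 5) (nat_lit 417) (nat_lit 5) (nat_lit 480) (nat_lit 458) (nat_lit 202)) (XT.nd (nat_lit 78) (nat_lit 0) (nat_lit 0) (XT.lf (nat_lit 76) (nat_lit 3808424515) (nat_lit 0) (nat_lit 17611372836) (nat_lit 1824) (nat_lit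 2920519426) (nat_lit 395) (nat_lit 5) (nat_lit 394) (nat_lit 5) (nat_lit 418) (nat_lit 5) (nat_lit 481) (nat_lit 458) (nat_lit 201)) (XT.lf (nat_lit 76) (nat_lit 16193557971) (nat_lit 0) (nat_lit 7223565297) (nat_lit 1824) (nat_lit 1186324643) (nat_lit 395) (nat_lit 5) (nat_lit 394) (nat_lit 5) (nat_lit 418) (nat_lit 5) (nat_lit 482) (nat_lit 458) (nat_lit 200)))))) (XT.nd (nat_lit 390) (nat_lit 1672) (nat_lit 0) (XT.nd (nat_lit 156) (nat_lit 1900) (nat_lit 0) (XT.nd (nat_lit 78) (nat_lit 0) (nat_lit 0) (XT.lf (nat_lit 0) (nat_lit 619973031) (nat_lit 1824) (nat_lit 20892687004) (nat_lit 76) (nat_lit 3358206232) (nat_lit 371) (nat_lit 5) (nat_lit 395) (nat_lit 5) (nat_lit 372) (nat_lit 5) (nat_lit 483) (nat_lit 458) (nat_lit 199)) (XT.lf (nat_lit 0) (nat_lit 2548209563) (nat_lit 1824) (nat_lit 8473137247) (nat_lit 76) (nat_lit 14120096802) (nat_lit 371) (nat_lit 5) (nat_lit 395) (nat_lit 5) (nat_lit 372) (nat_lit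 5) (nat_lit 484) (nat_lit 458) (nat_lit 198))) (XT.nd (nat_lit 78) (nat_lit 912) (nat_lit 0) (XT.lf (nat_lit 0) (nat_lit 4247994465) (nat_lit 988) (nat_lit 291691504) (nat_lit 1064) (nat_lit 20877254412) (nat_lit 358) (nat_lit 5) (nat_lit 371) (nat_lit 5) (nat_lit 372) (nat_lit 5) (nat_lit 485) (nat_lit 458) (nat_lit 197)) (XT.nd (nat_lit 78) (nat_lit 912) (nat_lit 0) (XT.lf (nat_lit 0) (nat_lit 6694528514) (nat_lit 1064) (nat_lit 8430512143) (nat_lit 76) (nat_lit 10570437047) (nat_lit 358) (nat_lit 5) (nat_lit 372) (nat_lit 5) (nat_lit 359) (nat_lit 5) (nat_lit 486) (nat_lit 458) (nat_lit 196)) (XT.lf (nat_lit 0) (nat_lit 4618818897) (nat_lit 912) (nat_lit 4302762694) (nat_lit 988) (nat_lit 17057423238) (nat_lit 346) (nat_lit 5) (nat_lit 358) (nat_lit 5) (nat_lit 359) (nat_lit 5) (nat_lit 487) (nat_lit 458) (nat_lit 195))))) (XT.nd (nat_lit 57096) (nat_lit 0) (nat_lit 4560) (XT.nd (nat_lit 78) (nat_lit 1672)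 (nat_lit 0) (XT.lf (nat_lit 0) (nat_lit 11291091938) (nat_lit 988) (nat_lit 8270323799) (nat_lit 76) (nat_lit 6704829733) (nat_lit 346) (nat_lit 5) (nat_lit 359) (nat_lit 5) (nat_lit 347) (nat_lit 5) (nat_lit 488) (nat_lit 458) (nat_lit 194)) (XT.nd (nat_lit 156) (nat_lit 836) (nat_lit 0) (XT.lf (nat_lit 0) (nat_lit 5117448723) (nat_lit 836) (nat_lit 8649553042) (nat_lit 912) (nat_lit 12791050248) (nat_lit 335) (nat_lit 5) (nat_lit 346) (nat_lit 5) (nat_lit 347) (nat_lit 5) (nat_lit 489) (nat_lit 458) (nat_lit 193)) (XT.lf (nat_lit 0) (nat_lit 5748210577) (nat_lit 836) (nat_lit 13352118828) (nat_lit 912) (nat_lit 8054325301) (nat_lit 324) (nat_lit 5) (nat_lit 335) (nat_lit 5) (nat_lit 336) (nat_lit 5) (nat_lit 491) (nat_lit 458) (nat_lit 191)))) (XT.nd (nat_lit 78) (nat_lit 1748) (nat_lit 0) (XT.lf (nat_lit 0) (nat_lit 9686170674) (nat_lit 1748) (nat_lit 60474009) (nat_lit 1748) (nat_lit 60474009) (nat_lit 407)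 (nat_lit 3) (nat_lit 430) (nat_lit 3) (nat_lit 430) (nat_lit 5) (nat_lit 459) (nat_lit 459) (nat_lit 222)) (XT.nd (nat_lit 78) (nat_lit 1748) (nat_lit 0) (XT.lf (nat_lit 76) (nat_lit 9205624595) (nat_lit 0) (nat_lit 10586498709) (nat_lit 1748) (nat_lit 13648986) (nat_lit 408) (nat_lit 5) (nat_lit 407) (nat_lit 3) (nat_lit 430) (nat_lit 5) (nat_lit 460) (nat_lit 459) (nat_lit 221)) (XT.lf (nat_lit 0) (nat_lit 212697949) (nat_lit 1748) (nat_lit 1284497884) (nat_lit 1824) (nat_lit 18503987634) (nat_lit 384) (nat_lit 5) (nat_lit 407) (nat_lit 3) (nat_lit 408) (nat_lit 5) (nat_lit 461) (nat_lit 459) (nat_lit 220))))))))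
noncomputable def xc248 : XT := (XT.nd (nat_lit 1560) (nat_lit 3800) (nat_lit 0) (XT.nd (nat_lit 780) (nat_lit 0) (nat_lit 304) (XT.nd (nat_lit 390) (nat_lit 0) (nat_lit 152) (XT.nd (nat_lit 156) (nat_lit 0) (nat_lit 76) (XT.nd (nat_lit 78) (nat_lit 0) (nat_lit 0) (XT.lf (nat_lit 0) (nat_lit 543959811) (nat_lit 1748) (nat_lit 11926075523) (nat_lit 1824) (nat_lit 7728456490) (nat_lit 385) (nat_lit 5) (nat_lit 408) (nat_lit 5) (nat_lit 409) (nat_lit 5) (nat_lit 462) (nat_lit 459) (nat_lit 219)) (XT.lf (nat_lit 0) (nat_lit 896200628) (nat_lit 1748) (nat_lit 2374021566) (nat_lit 1824) (nat_lit 17129239212) (nat_lit 385) (nat_lit 5) (nat_lit 408) (nat_lit 5) (nat_lit 409) (nat_lit 5) (nat_lit 463) (nat_lit 459) (nat_lit 218))) (XT.nd (nat_lit 78) (nat_lit 0) (nat_lit 0) (XT.lf (nat_lit 0) (nat_lit 1339823098) (nat_lit 1748) (nat_lit 13178928400) (nat_lit 1824) (nat_lit 6084014236) (nat_lit 386) (nat_lit 5) (nat_lit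 409) (nat_lit 5) (nat_lit 410) (nat_lit 5) (nat_lit 464) (nat_lit 459) (nat_lit 217)) (XT.nd (nat_lit 78) (nat_lit 0) (nat_lit 76) (XT.lf (nat_lit 0) (nat_lit 1825934656) (nat_lit 1748) (nat_lit 3384136118) (nat_lit 1824) (nat_lit 15599395093) (nat_lit 386) (nat_lit 5) (nat_lit 409) (nat_lit 5) (nat_lit 410) (nat_lit 5) (nat_lit 465) (nat_lit 459) (nat_lit 216)) (XT.lf (nat_lit 0) (nat_lit 2389338363) (nat_lit 1748) (nat_lit 14355655667) (nat_lit 1824) (nat_lit 4273956584) (nat_lit 387) (nat_lit 5) (nat_lit 410) (nat_lit 5) (nat_lit 411) (nat_lit 5) (nat_lit 466) (nat_lit 459) (nat_lit 215))))) (XT.nd (nat_lit 156) (nat_lit 0) (nat_lit 76) (XT.nd (nat_lit 78) (nat_lit 0) (nat_lit 76) (XT.lf (nat_lit 0) (nat_lit 3017450379) (nat_lit 1748) (nat_lit 4311696234) (nat_lit 1824) (nat_lit 13902411609) (nat_lit 387) (nat_lit 5) (nat_lit 410) (nat_lit 5) (nat_lit 411) (nat_lit 5) (nat_lit 467) (nat_lit 459) (nat_lit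 214)) (XT.lf (nat_lit 0) (nat_lit 3708335420) (nat_lit 1748) (nat_lit 15453167421) (nat_lit 1824) (nat_lit 2285912858) (nat_lit 388) (nat_lit 5) (nat_lit 411) (nat_lit 5) (nat_lit 412) (nat_lit 5) (nat_lit 468) (nat_lit 459) (nat_lit 213))) (XT.nd (nat_lit 78) (nat_lit 0) (nat_lit 76) (XT.lf (nat_lit 0) (nat_lit 4486923987) (nat_lit 1748) (nat_lit 5153425364) (nat_lit 1824) (nat_lit 12025765150) (nat_lit 388) (nat_lit 5) (nat_lit 411) (nat_lit 5) (nat_lit 412) (nat_lit 5) (nat_lit 469) (nat_lit 459) (nat_lit 212)) (XT.nd (nat_lit 78) (nat_lit 0) (nat_lit 0) (XT.lf (nat_lit 0) (nat_lit 5313282311) (nat_lit 1748) (nat_lit 16468248858) (nat_lit 1824) (nat_lit 107014010) (nat_lit 389) (nat_lit 5) (nat_lit 412) (nat_lit 5) (nat_lit 413) (nat_lit 5) (nat_lit 470) (nat_lit 459) (nat_lit 211)) (XT.lf (nat_lit 0) (nat_lit 6251184900) (nat_lit 1748) (nat_lit 5905918617) (nat_lit 1824) (nat_lit 9956422430) (nat_lit 389)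 (nat_lit 5) (nat_lit 412) (nat_lit 5) (nat_lit 413) (nat_lit 5) (nat_lit 471) (nat_lit 459) (nat_lit 210)))))) (XT.nd (nat_lit 390) (nat_lit 0) (nat_lit 228) (XT.nd (nat_lit 156) (nat_lit 0) (nat_lit 76) (XT.nd (nat_lit 78) (nat_lit 0) (nat_lit 76) (XT.lf (nat_lit 76) (nat_lit 4929901164) (nat_lit 0) (nat_lit 2306386397) (nat_lit 1824) (nat_lit 15106151715) (nat_lit 390) (nat_lit 5) (nat_lit 389) (nat_lit 5) (nat_lit 413) (nat_lit 5) (nat_lit 472) (nat_lit 459) (nat_lit 209)) (XT.lf (nat_lit 0) (nat_lit 8327743930) (nat_lit 1748) (nat_lit 6565645966) (nat_lit 1824) (nat_lit 7680809693) (nat_lit 390) (nat_lit 5) (nat_lit 413) (nat_lit 5) (nat_lit 414) (nat_lit 5) (nat_lit 473) (nat_lit 459) (nat_lit 208))) (XT.nd (nat_lit 78) (nat_lit 0) (nat_lit 76) (XT.lf (nat_lit 76) (nat_lit 4540024806) (nat_lit 0) (nat_lit 4942319693) (nat_lit 1824) (nat_lit 13327426022) (nat_lit 391) (nat_lit 5) (nat_lit 390) (nat_lit 5)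 (nat_lit 414) (nat_lit 5) (nat_lit 474) (nat_lit 459) (nat_lit 207)) (XT.nd (nat_lit 78) (nat_lit 0) (nat_lit 0) (XT.lf (nat_lit 0) (nat_lit 10734822267) (nat_lit 1748) (nat_lit 7128955805) (nat_lit 1824) (nat_lit 5184780778) (nat_lit 391) (nat_lit 5) (nat_lit 414) (nat_lit 5) (nat_lit 415) (nat_lit 5) (nat_lit 475) (nat_lit 459) (nat_lit 206)) (XT.lf (nat_lit 76) (nat_lit 4255288898) (nat_lit 0) (nat_lit 7814107831) (nat_lit 1824) (nat_lit 11221586923) (nat_lit 392) (nat_lit 5) (nat_lit 391) (nat_lit 5) (nat_lit 415) (nat_lit 5) (nat_lit 476) (nat_lit 459) (nat_lit 205))))) (XT.nd (nat_lit 156) (nat_lit 0) (nat_lit 0) (XT.nd (nat_lit 78) (nat_lit 0) (nat_lit 0) (XT.lf (nat_lit 0) (nat_lit 13491381315) (nat_lit 1748) (nat_lit 7592078907) (nat_lit 1824) (nat_lit 2453583972) (nat_lit 392) (nat_lit 5) (nat_lit 415) (nat_lit 5) (nat_lit 416) (nat_lit 5) (nat_lit 477) (nat_lit 459) (nat_lit 204)) (XT.lf (nat_lit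 76) (nat_lit 4079719835) (nat_lit 0) (nat_lit 10937129961) (nat_lit 1824) (nat_lit 8769676852) (nat_lit 393) (nat_lit 5) (nat_lit 392) (nat_lit 5) (nat_lit 416) (nat_lit 5) (nat_lit 478) (nat_lit 459) (nat_lit 203))) (XT.nd (nat_lit 78) (nat_lit 0) (nat_lit 76) (XT.lf (nat_lit 76) (nat_lit 16085436656) (nat_lit 0) (nat_lit 535191565) (nat_lit 1824) (nat_lit 7419416073) (nat_lit 393) (nat_lit 5) (nat_lit 392) (nat_lit 5) (nat_lit 416) (nat_lit 5) (nat_lit 479) (nat_lit 459) (nat_lit 202)) (XT.nd (nat_lit 78) (nat_lit 0) (nat_lit 0) (XT.lf (nat_lit 76) (nat_lit 4017462433) (nat_lit 0) (nat_lit 14327435978) (nat_lit 1824) (nat_lit 5951967080) (nat_lit 394) (nat_lit 5) (nat_lit 393) (nat_lit 5) (nat_lit 417) (nat_lit 5) (nat_lit 480) (nat_lit 459) (nat_lit 201)) (XT.lf (nat_lit 76) (nat_lit 16330774772) (nat_lit 0) (nat_lit 3826744395) (nat_lit 1824) (nat_lit 4400228135) (nat_lit 394) (nat_lit 5) (nat_lit 393) (nat_lit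 5) (nat_lit 417) (nat_lit 5) (nat_lit 481) (nat_lit 459) (nat_lit 200))))))) (XT.nd (nat_lit 57720) (nat_lit 0) (nat_lit 3724) (XT.nd (nat_lit 390) (nat_lit 1748) (nat_lit 0) (XT.nd (nat_lit 156) (nat_lit 2736) (nat_lit 0) (XT.nd (nat_lit 78) (nat_lit 0) (nat_lit 0) (XT.lf (nat_lit 76) (nat_lit 4072774952) (nat_lit 0) (nat_lit 18001783689) (nat_lit 1824) (nat_lit 2747926247) (nat_lit 395) (nat_lit 5) (nat_lit 394) (nat_lit 5) (nat_lit 418) (nat_lit 5) (nat_lit 482) (nat_lit 459) (nat_lit 199)) (XT.lf (nat_lit 76) (nat_lit 16701921235) (nat_lit 0) (nat_lit 7405471304) (nat_lit 1824) (nat_lit 983577049) (nat_lit 395) (nat_lit 5) (nat_lit 394) (nat_lit 5) (nat_lit 418) (nat_lit 5) (nat_lit 483) (nat_lit 459) (nat_lit 198))) (XT.nd (nat_lit 78) (nat_lit 988) (nat_lit 0) (XT.lf (nat_lit 0) (nat_lit 852482985) (nat_lit 1824) (nat_lit 21119473916) (nat_lit 76) (nat_lit 3391819962) (nat_lit 371) (nat_lit 5) (nat_lit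 395) (nat_lit 5) (nat_lit 372) (nat_lit 5) (nat_lit 484) (nat_lit 459) (nat_lit 197)) (XT.nd (nat_lit 78) (nat_lit 988) (nat_lit 0) (XT.lf (nat_lit 0) (nat_lit 2814968356) (nat_lit 1824) (nat_lit 8455279571) (nat_lit 76) (nat_lit 14369606195) (nat_lit 371) (nat_lit 5) (nat_lit 395) (nat_lit 5) (nat_lit 372) (nat_lit 5) (nat_lit 485) (nat_lit 459) (nat_lit 196)) (XT.lf (nat_lit 0) (nat_lit 4519042403) (nat_lit 988) (nat_lit 324208827) (nat_lit 1064) (nat_lit 21077672066) (nat_lit 358) (nat_lit 5) (nat_lit 371) (nat_lit 5) (nat_lit 372) (nat_lit 5) (nat_lit 486) (nat_lit 459) (nat_lit 195))))) (XT.nd (nat_lit 156) (nat_lit 836) (nat_lit 0) (XT.nd (nat_lit 78) (nat_lit 912) (nat_lit 0) (XT.lf (nat_lit 0) (nat_lit 7036848785) (nat_lit 1064) (nat_lit 8412242790) (nat_lit 76) (nat_lit 10756028599) (nat_lit 358) (nat_lit 5) (nat_lit 372) (nat_lit 5) (nat_lit 359) (nat_lit 5) (nat_lit 487) (nat_lit 459) (nat_lit 194))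 (XT.lf (nat_lit 0) (nat_lit 4896845400) (nat_lit 912) (nat_lit 4408716030) (nat_lit 988) (nat_lit 17188815970) (nat_lit 346) (nat_lit 5) (nat_lit 358) (nat_lit 5) (nat_lit 359) (nat_lit 5) (nat_lit 488) (nat_lit 459) (nat_lit 193))) (XT.nd (nat_lit 78) (nat_lit 836) (nat_lit 0) (XT.lf (nat_lit 0) (nat_lit 11718304969) (nat_lit 988) (nat_lit 8249468665) (nat_lit 76) (nat_lit 6819674255) (nat_lit 346) (nat_lit 5) (nat_lit 359) (nat_lit 5) (nat_lit 347) (nat_lit 5) (nat_lit 489) (nat_lit 459) (nat_lit 192)) (XT.nd (nat_lit 57018) (nat_lit 0) (nat_lit 3724) (XT.lf (nat_lit 0) (nat_lit 5404833902) (nat_lit 836) (nat_lit 8836151622) (nat_lit 912) (nat_lit 12844161845) (nat_lit 335) (nat_lit 5) (nat_lit 346) (nat_lit 5) (nat_lit 347) (nat_lit 5) (nat_lit 490) (nat_lit 459) (nat_lit 191)) (XT.lf (nat_lit 0) (nat_lit 22467615) (nat_lit 0) (nat_lit 22467615) (nat_lit 1748) (nat_lit 9954924114) (nat_lit 384) (nat_lit 5)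 (nat_lit 384) (nat_lit 3) (nat_lit 407) (nat_lit 3) (nat_lit 460) (nat_lit 460) (nat_lit 220)))))) (XT.nd (nat_lit 390) (nat_lit 0) (nat_lit 152) (XT.nd (nat_lit 156) (nat_lit 0) (nat_lit 76) (XT.nd (nat_lit 78) (nat_lit 0) (nat_lit 0) (XT.lf (nat_lit 0) (nat_lit 313607398) (nat_lit 1748) (nat_lit 10640054589) (nat_lit 1824) (nat_lit 9241515803) (nat_lit 384) (nat_lit 5) (nat_lit 407) (nat_lit 3) (nat_lit 408) (nat_lit 5) (nat_lit 461) (nat_lit 460) (nat_lit 219)) (XT.lf (nat_lit 0) (nat_lit 537880120) (nat_lit 1748) (nat_lit 1141554832) (nat_lit 1824) (nat_lit 18715192035) (nat_lit 384) (nat_lit 5) (nat_lit 407) (nat_lit 3) (nat_lit 408) (nat_lit 5) (nat_lit 462) (nat_lit 460) (nat_lit 218))) (XT.nd (nat_lit 78) (nat_lit 0) (nat_lit 0) (XT.lf (nat_lit 0) (nat_lit 869599973) (nat_lit 1748) (nat_lit 11989638359) (nat_lit 1824) (nat_lit 7736769690) (nat_lit 385) (nat_lit 5) (nat_lit 408) (nat_lit 5) (nat_lit 409)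 (nat_lit 5) (nat_lit 463) (nat_lit 460) (nat_lit 217)) (XT.nd (nat_lit 78) (nat_lit 0) (nat_lit 76) (XT.lf (nat_lit 0) (nat_lit 1222713823) (nat_lit 1748) (nat_lit 2249973886) (nat_lit 1824) (nat_lit 17328435830) (nat_lit 385) (nat_lit 5) (nat_lit 408) (nat_lit 5) (nat_lit 409) (nat_lit 5) (nat_lit 464) (nat_lit 460) (nat_lit 216)) (XT.lf (nat_lit 0) (nat_lit 1669399206) (nat_lit 1748) (nat_lit 13265017054) (nat_lit 1824) (nat_lit 6074196930) (nat_lit 386) (nat_lit 5) (nat_lit 409) (nat_lit 5) (nat_lit 410) (nat_lit 5) (nat_lit 465) (nat_lit 460) (nat_lit 215))))) (XT.nd (nat_lit 234) (nat_lit 0) (nat_lit 152) (XT.nd (nat_lit 78) (nat_lit 0) (nat_lit 76) (XT.lf (nat_lit 0) (nat_lit 2159296139) (nat_lit 1748) (nat_lit 3277809120) (nat_lit 1824) (nat_lit 15782463789) (nat_lit 386) (nat_lit 5) (nat_lit 409) (nat_lit 5) (nat_lit 410) (nat_lit 5) (nat_lit 466) (nat_lit 460) (nat_lit 214)) (XT.nd (nat_lit 78) (nat_lit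 0) (nat_lit 0) (XT.lf (nat_lit 0) (nat_lit 2728495384) (nat_lit 1748) (nat_lit 14463140170) (nat_lit 1824) (nat_lit 4241720314) (nat_lit 387) (nat_lit 5) (nat_lit 410) (nat_lit 5) (nat_lit 411) (nat_lit 5) (nat_lit 467) (nat_lit 460) (nat_lit 213)) (XT.lf (nat_lit 0) (nat_lit 3363456497) (nat_lit 1748) (nat_lit 4221823678) (nat_lit 1824) (nat_lit 14065052585) (nat_lit 387) (nat_lit 5) (nat_lit 410) (nat_lit 5) (nat_lit 411) (nat_lit 5) (nat_lit 468) (nat_lit 460) (nat_lit 212)))) (XT.nd (nat_lit 78) (nat_lit 0) (nat_lit 0) (XT.lf (nat_lit 0) (nat_lit 4063004191) (nat_lit 1748) (nat_lit 15580828570) (nat_lit 1824) (nat_lit 2226780540) (nat_lit 388) (nat_lit 5) (nat_lit 411) (nat_lit 5) (nat_lit 412) (nat_lit 5) (nat_lit 469) (nat_lit 460) (nat_lit 211)) (XT.nd (nat_lit 78) (nat_lit 0) (nat_lit 76) (XT.lf (nat_lit 0) (nat_lit 4851664489) (nat_lit 1748) (nat_lit 5078648578) (nat_lit 1824) (nat_lit 12163485772)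 (nat_lit 388) (nat_lit 5) (nat_lit 411) (nat_lit 5) (nat_lit 412) (nat_lit 5) (nat_lit 470) (nat_lit 460) (nat_lit 210)) (XT.lf (nat_lit 0) (nat_lit 5689694035) (nat_lit 1748) (nat_lit 16614777389) (nat_lit 1824) (nat_lit 16306528) (nat_lit 389) (nat_lit 5) (nat_lit 412) (nat_lit 5) (nat_lit 413) (nat_lit 5) (nat_lit 471) (nat_lit 460) (nat_lit 209))))))))
noncomputable def xc249 : XT := (XT.nd (nat_lit 58734) (nat_lit 0) (nat_lit 2964) (XT.nd (nat_lit 780) (nat_lit 3268) (nat_lit 0) (XT.nd (nat_lit 390) (nat_lit 0) (nat_lit 152) (XT.nd (nat_lit 156) (nat_lit 0) (nat_lit 76) (XT.nd (nat_lit 78) (nat_lit 0) (nat_lit 0) (XT.lf (nat_lit 0) (nat_lit 6641057695) (nat_lit 1748) (nat_lit 5844785572) (nat_lit 1824) (nat_lit 10064523661) (nat_lit 389) (nat_lit 5) (nat_lit 412) (nat_lit 5) (nat_lit 413) (nat_lit 5) (nat_lit 472) (nat_lit 460) (nat_lit 208)) (XT.lf (nat_lit 76) (nat_lit 5206571319) (nat_lit 0) (nat_lit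 2435254132) (nat_lit 1824) (nat_lit 15142116410) (nat_lit 390) (nat_lit 5) (nat_lit 389) (nat_lit 5) (nat_lit 413) (nat_lit 5) (nat_lit 473) (nat_lit 460) (nat_lit 207))) (XT.nd (nat_lit 78) (nat_lit 0) (nat_lit 0) (XT.lf (nat_lit 0) (nat_lit 8749470314) (nat_lit 1748) (nat_lit 6516610321) (nat_lit 1824) (nat_lit 7754372106) (nat_lit 390) (nat_lit 5) (nat_lit 413) (nat_lit 5) (nat_lit 414) (nat_lit 5) (nat_lit 474) (nat_lit 460) (nat_lit 206)) (XT.nd (nat_lit 78) (nat_lit 0) (nat_lit 76) (XT.lf (nat_lit 76) (nat_lit 4809987363) (nat_lit 0) (nat_lit 5113335408) (nat_lit 1824) (nat_lit 13337491622) (nat_lit 391) (nat_lit 5) (nat_lit 390) (nat_lit 5) (nat_lit 414) (nat_lit 5) (nat_lit 475) (nat_lit 460) (nat_lit 205)) (XT.lf (nat_lit 0) (nat_lit 11195462644) (nat_lit 1748) (nat_lit 7090375931) (nat_lit 1824) (nat_lit 5218650112) (nat_lit 391) (nat_lit 5) (nat_lit 414) (nat_lit 5) (nat_lit 415) (nat_lit 5) (nat_lit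 476) (nat_lit 460) (nat_lit 204))))) (XT.nd (nat_lit 156) (nat_lit 0) (nat_lit 76) (XT.nd (nat_lit 78) (nat_lit 0) (nat_lit 76) (XT.lf (nat_lit 76) (nat_lit 4520361831) (nat_lit 0) (nat_lit 8032712801) (nat_lit 1824) (nat_lit 11198762833) (nat_lit 392) (nat_lit 5) (nat_lit 391) (nat_lit 5) (nat_lit 415) (nat_lit 5) (nat_lit 477) (nat_lit 460) (nat_lit 203)) (XT.lf (nat_lit 0) (nat_lit 13998351419) (nat_lit 1748) (nat_lit 7562216901) (nat_lit 1824) (nat_lit 2442356203) (nat_lit 392) (nat_lit 5) (nat_lit 415) (nat_lit 5) (nat_lit 416) (nat_lit 5) (nat_lit 478) (nat_lit 460) (nat_lit 202))) (XT.nd (nat_lit 78) (nat_lit 0) (nat_lit 0) (XT.lf (nat_lit 76) (nat_lit 4341822399) (nat_lit 0) (nat_lit 11209028997) (nat_lit 1824) (nat_lit 8706617094) (nat_lit 393) (nat_lit 5) (nat_lit 392) (nat_lit 5) (nat_lit 416) (nat_lit 5) (nat_lit 479) (nat_lit 460) (nat_lit 201)) (XT.nd (nat_lit 78) (nat_lit 0) (nat_lit 76) (XT.lf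 (nat_lit 76) (nat_lit 16584114180) (nat_lit 0) (nat_lit 598009550) (nat_lit 1824) (nat_lit 7334026654) (nat_lit 393) (nat_lit 5) (nat_lit 392) (nat_lit 5) (nat_lit 416) (nat_lit 5) (nat_lit 480) (nat_lit 460) (nat_lit 200)) (XT.lf (nat_lit 76) (nat_lit 4278616245) (nat_lit 0) (nat_lit 14658613434) (nat_lit 1824) (nat_lit 5840953537) (nat_lit 394) (nat_lit 5) (nat_lit 393) (nat_lit 5) (nat_lit 417) (nat_lit 5) (nat_lit 481) (nat_lit 460) (nat_lit 199)))))) (XT.nd (nat_lit 390) (nat_lit 1900) (nat_lit 0) (XT.nd (nat_lit 156) (nat_lit 1672) (nat_lit 0) (XT.nd (nat_lit 78) (nat_lit 0) (nat_lit 76) (XT.lf (nat_lit 76) (nat_lit 16834649644) (nat_lit 0) (nat_lit 3947032946) (nat_lit 1824) (nat_lit 4262690655) (nat_lit 394) (nat_lit 5) (nat_lit 393) (nat_lit 5) (nat_lit 417) (nat_lit 5) (nat_lit 482) (nat_lit 460) (nat_lit 198)) (XT.lf (nat_lit 76) (nat_lit 4335105064) (nat_lit 0) (nat_lit 18398520051) (nat_lit 1824)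 (nat_lit 2580851354) (nat_lit 395) (nat_lit 5) (nat_lit 394) (nat_lit 5) (nat_lit 418) (nat_lit 5) (nat_lit 483) (nat_lit 460) (nat_lit 197))) (XT.nd (nat_lit 78) (nat_lit 1748) (nat_lit 0) (XT.lf (nat_lit 76) (nat_lit 17213287712) (nat_lit 0) (nat_lit 7589561797) (nat_lit 1824) (nat_lit 785568769) (nat_lit 395) (nat_lit 5) (nat_lit 394) (nat_lit 5) (nat_lit 418) (nat_lit 5) (nat_lit 484) (nat_lit 460) (nat_lit 196)) (XT.nd (nat_lit 78) (nat_lit 0) (nat_lit 0) (XT.lf (nat_lit 0) (nat_lit 1081095980) (nat_lit 1824) (nat_lit 21358215923) (nat_lit 76) (nat_lit 3427408769) (nat_lit 371) (nat_lit 5) (nat_lit 395) (nat_lit 5) (nat_lit 372) (nat_lit 5) (nat_lit 485) (nat_lit 460) (nat_lit 195)) (XT.lf (nat_lit 0) (nat_lit 3078682757) (nat_lit 1824) (nat_lit 8444338622) (nat_lit 76) (nat_lit 14625383032) (nat_lit 371) (nat_lit 5) (nat_lit 395) (nat_lit 5) (nat_lit 372) (nat_lit 5) (nat_lit 486) (nat_lit 460) (nat_lit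 194))))) (XT.nd (nat_lit 57330) (nat_lit 0) (nat_lit 2888) (XT.nd (nat_lit 78) (nat_lit 912) (nat_lit 0) (XT.lf (nat_lit 0) (nat_lit 4788285275) (nat_lit 988) (nat_lit 356340343) (nat_lit 1064) (nat_lit 21290529396) (nat_lit 358) (nat_lit 5) (nat_lit 371) (nat_lit 5) (nat_lit 372) (nat_lit 5) (nat_lit 487) (nat_lit 460) (nat_lit 193)) (XT.nd (nat_lit 156) (nat_lit 912) (nat_lit 0) (XT.lf (nat_lit 0) (nat_lit 7377921882) (nat_lit 1064) (nat_lit 8400864811) (nat_lit 76) (nat_lit 10946334494) (nat_lit 358) (nat_lit 5) (nat_lit 372) (nat_lit 5) (nat_lit 359) (nat_lit 5) (nat_lit 488) (nat_lit 460) (nat_lit 192)) (XT.lf (nat_lit 0) (nat_lit 12146241995) (nat_lit 988) (nat_lit 8235429194) (nat_lit 76) (nat_lit 6937563248) (nat_lit 346) (nat_lit 5) (nat_lit 359) (nat_lit 5) (nat_lit 347) (nat_lit 5) (nat_lit 490) (nat_lit 460) (nat_lit 190)))) (XT.nd (nat_lit 78) (nat_lit 0) (nat_lit 0) (XT.lf (nat_lit 0) (nat_lit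 103410329) (nat_lit 0) (nat_lit 103410329) (nat_lit 1748) (nat_lit 9989735346) (nat_lit 384) (nat_lit 5) (nat_lit 384) (nat_lit 3) (nat_lit 407) (nat_lit 3) (nat_lit 461) (nat_lit 461) (nat_lit 218)) (XT.nd (nat_lit 78) (nat_lit 0) (nat_lit 0) (XT.lf (nat_lit 0) (nat_lit 634515048) (nat_lit 1748) (nat_lit 10687529201) (nat_lit 1824) (nat_lit 9270585970) (nat_lit 384) (nat_lit 5) (nat_lit 407) (nat_lit 3) (nat_lit 408) (nat_lit 5) (nat_lit 462) (nat_lit 461) (nat_lit 217)) (XT.lf (nat_lit 0) (nat_lit 857103900) (nat_lit 1748) (nat_lit 1002301144) (nat_lit 1824) (nat_lit 18936789847) (nat_lit 384) (nat_lit 5) (nat_lit 407) (nat_lit 3) (nat_lit 408) (nat_lit 5) (nat_lit 463) (nat_lit 461) (nat_lit 216))))))) (XT.nd (nat_lit 780) (nat_lit 0) (nat_lit 304) (XT.nd (nat_lit 390) (nat_lit 0) (nat_lit 152) (XT.nd (nat_lit 156) (nat_lit 0) (nat_lit 76) (XT.nd (nat_lit 78) (nat_lit 0) (nat_lit 0) (XT.lf (nat_lit 0) (nat_lit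 1189530386) (nat_lit 1748) (nat_lit 12061266312) (nat_lit 1824) (nat_lit 7750928451) (nat_lit 385) (nat_lit 5) (nat_lit 408) (nat_lit 5) (nat_lit 409) (nat_lit 5) (nat_lit 464) (nat_lit 461) (nat_lit 215)) (XT.lf (nat_lit 0) (nat_lit 1543774388) (nat_lit 1748) (nat_lit 2130105898) (nat_lit 1824) (nat_lit 17537184318) (nat_lit 385) (nat_lit 5) (nat_lit 408) (nat_lit 5) (nat_lit 409) (nat_lit 5) (nat_lit 465) (nat_lit 461) (nat_lit 214))) (XT.nd (nat_lit 78) (nat_lit 0) (nat_lit 0) (XT.lf (nat_lit 0) (nat_lit 1993809533) (nat_lit 1748) (nat_lit 13359719631) (nat_lit 1824) (nat_lit 6069289490) (nat_lit 386) (nat_lit 5) (nat_lit 409) (nat_lit 5) (nat_lit 410) (nat_lit 5) (nat_lit 466) (nat_lit 461) (nat_lit 213)) (XT.nd (nat_lit 78) (nat_lit 0) (nat_lit 76) (XT.lf (nat_lit 0) (nat_lit 2487798084) (nat_lit 1748) (nat_lit 3176112593) (nat_lit 1824) (nat_lit 15974199948) (nat_lit 386) (nat_lit 5) (nat_lit 409) (nat_lit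 5) (nat_lit 410) (nat_lit 5) (nat_lit 467) (nat_lit 461) (nat_lit 212)) (XT.lf (nat_lit 0) (nat_lit 3063121283) (nat_lit 1748) (nat_lit 14579749562) (nat_lit 1824) (nat_lit 4213410351) (nat_lit 387) (nat_lit 5) (nat_lit 410) (nat_lit 5) (nat_lit 411) (nat_lit 5) (nat_lit 468) (nat_lit 461) (nat_lit 211))))) (XT.nd (nat_lit 156) (nat_lit 0) (nat_lit 76) (XT.nd (nat_lit 78) (nat_lit 0) (nat_lit 76) (XT.lf (nat_lit 0) (nat_lit 3705290325) (nat_lit 1748) (nat_lit 4136992101) (nat_lit 1824) (nat_lit 14235427784) (nat_lit 387) (nat_lit 5) (nat_lit 410) (nat_lit 5) (nat_lit 411) (nat_lit 5) (nat_lit 469) (nat_lit 461) (nat_lit 210)) (XT.lf (nat_lit 0) (nat_lit 4413874100) (nat_lit 1748) (nat_lit 15718087011) (nat_lit 1824) (nat_lit 2170537052) (nat_lit 388) (nat_lit 5) (nat_lit 411) (nat_lit 5) (nat_lit 412) (nat_lit 5) (nat_lit 470) (nat_lit 461) (nat_lit 209))) (XT.nd (nat_lit 78) (nat_lit 0) (nat_lit 0) (XT.lf (nat_lit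 0) (nat_lit 5213021137) (nat_lit 1748) (nat_lit 5009282206) (nat_lit 1824) (nat_lit 12307952449) (nat_lit 388) (nat_lit 5) (nat_lit 411) (nat_lit 5) (nat_lit 412) (nat_lit 5) (nat_lit 471) (nat_lit 461) (nat_lit 208)) (XT.nd (nat_lit 78) (nat_lit 0) (nat_lit 76) (XT.lf (nat_lit 76) (nat_lit 5990046932) (nat_lit 0) (nat_lit 73574656) (nat_lit 1824) (nat_lit 16698239293) (nat_lit 389) (nat_lit 5) (nat_lit 388) (nat_lit 5) (nat_lit 412) (nat_lit 5) (nat_lit 472) (nat_lit 461) (nat_lit 207)) (XT.lf (nat_lit 0) (nat_lit 7028443531) (nat_lit 1748) (nat_lit 5789390417) (nat_lit 1824) (nat_lit 10178321615) (nat_lit 389) (nat_lit 5) (nat_lit 412) (nat_lit 5) (nat_lit 413) (nat_lit 5) (nat_lit 473) (nat_lit 461) (nat_lit 206)))))) (XT.nd (nat_lit 390) (nat_lit 0) (nat_lit 228) (XT.nd (nat_lit 156) (nat_lit 0) (nat_lit 76) (XT.nd (nat_lit 78) (nat_lit 0) (nat_lit 76) (XT.lf (nat_lit 76) (nat_lit 5481860120) (nat_lit 0)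 (nat_lit 2563486326) (nat_lit 1824) (nat_lit 15189135652) (nat_lit 390) (nat_lit 5) (nat_lit 389) (nat_lit 5) (nat_lit 413) (nat_lit 5) (nat_lit 474) (nat_lit 461) (nat_lit 205)) (XT.lf (nat_lit 0) (nat_lit 9169722606) (nat_lit 1748) (nat_lit 6473597118) (nat_lit 1824) (nat_lit 7832514352) (nat_lit 390) (nat_lit 5) (nat_lit 413) (nat_lit 5) (nat_lit 414) (nat_lit 5) (nat_lit 475) (nat_lit 461) (nat_lit 204))) (XT.nd (nat_lit 78) (nat_lit 0) (nat_lit 76) (XT.lf (nat_lit 76) (nat_lit 5078392089) (nat_lit 0) (nat_lit 5284969015) (nat_lit 1824) (nat_lit 13357718078) (nat_lit 391) (nat_lit 5) (nat_lit 390) (nat_lit 5) (nat_lit 414) (nat_lit 5) (nat_lit 476) (nat_lit 461) (nat_lit 203)) (XT.nd (nat_lit 78) (nat_lit 0) (nat_lit 0) (XT.lf (nat_lit 0) (nat_lit 11655765527) (nat_lit 1748) (nat_lit 7058059083) (nat_lit 1824) (nat_lit 5255908271) (nat_lit 391) (nat_lit 5) (nat_lit 414) (nat_lit 5) (nat_lit 415) (nat_lit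 5) (nat_lit 477) (nat_lit 461) (nat_lit 202)) (XT.lf (nat_lit 76) (nat_lit 4783747879) (nat_lit 0) (nat_lit 8253269799) (nat_lit 1824) (nat_lit 11185083507) (nat_lit 392) (nat_lit 5) (nat_lit 391) (nat_lit 5) (nat_lit 415) (nat_lit 5) (nat_lit 478) (nat_lit 461) (nat_lit 201))))) (XT.nd (nat_lit 234) (nat_lit 0) (nat_lit 76) (XT.nd (nat_lit 78) (nat_lit 0) (nat_lit 0) (XT.lf (nat_lit 0) (nat_lit 14506252393) (nat_lit 1748) (nat_lit 7538813425) (nat_lit 1824) (nat_lit 2433245379) (nat_lit 392) (nat_lit 5) (nat_lit 415) (nat_lit 5) (nat_lit 416) (nat_lit 5) (nat_lit 479) (nat_lit 461) (nat_lit 200)) (XT.nd (nat_lit 78) (nat_lit 0) (nat_lit 0) (XT.lf (nat_lit 76) (nat_lit 4602157661) (nat_lit 0) (nat_lit 11484301885) (nat_lit 1824) (nat_lit 8651555574) (nat_lit 393) (nat_lit 5) (nat_lit 392) (nat_lit 5) (nat_lit 416) (nat_lit 5) (nat_lit 480) (nat_lit 461) (nat_lit 199)) (XT.lf (nat_lit 76) (nat_lit 17085893340)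 (nat_lit 0) (nat_lit 660060239) (nat_lit 1824) (nat_lit 7256007322) (nat_lit 393) (nat_lit 5) (nat_lit 392) (nat_lit 5) (nat_lit 416) (nat_lit 5) (nat_lit 481) (nat_lit 461) (nat_lit 198)))) (XT.nd (nat_lit 78) (nat_lit 0) (nat_lit 0) (XT.lf (nat_lit 76) (nat_lit 4537972273) (nat_lit 0) (nat_lit 14994681451) (nat_lit 1824) (nat_lit 5736652958) (nat_lit 394) (nat_lit 5) (nat_lit 393) (nat_lit 5) (nat_lit 417) (nat_lit 5) (nat_lit 482) (nat_lit 461) (nat_lit 197)) (XT.nd (nat_lit 78) (nat_lit 0) (nat_lit 76) (XT.lf (nat_lit 76) (nat_lit 17341718816) (nat_lit 0) (nat_lit 4068028260) (nat_lit 1824) (nat_lit 4131160497) (nat_lit 394) (nat_lit 5) (nat_lit 393) (nat_lit 5) (nat_lit 417) (nat_lit 5) (nat_lit 483) (nat_lit 461) (nat_lit 196)) (XT.lf (nat_lit 76) (nat_lit 4595658197) (nat_lit 0) (nat_lit 18801766007) (nat_lit 1824) (nat_lit 2419056792) (nat_lit 395) (nat_lit 5) (nat_lit 394) (nat_lit 5) (nat_lit 418)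 (nat_lit 5) (nat_lit 484) (nat_lit 461) (nat_lit 195))))))))
noncomputable def xc250 : XT := (XT.nd (nat_lit 58812) (nat_lit 0) (nat_lit 0) (XT.nd (nat_lit 57954) (nat_lit 0) (nat_lit 2128) (XT.nd (nat_lit 57564) (nat_lit 0) (nat_lit 1976) (XT.nd (nat_lit 156) (nat_lit 988) (nat_lit 0) (XT.nd (nat_lit 78) (nat_lit 1748) (nat_lit 0) (XT.lf (nat_lit 76) (nat_lit 17727995654) (nat_lit 0) (nat_lit 7775936911) (nat_lit 1824) (nat_lit 592053096) (nat_lit 395) (nat_lit 5) (nat_lit 394) (nat_lit 5) (nat_lit 418) (nat_lit 5) (nat_lit 485) (nat_lit 461) (nat_lit 194)) (XT.lf (nat_lit 0) (nat_lit 1306065972) (nat_lit 1824) (nat_lit 21608864025) (nat_lit 76) (nat_lit 3464961566) (nat_lit 371) (nat_lit 5) (nat_lit 395) (nat_lit 5) (nat_lit 372) (nat_lit 5) (nat_lit 486) (nat_lit 461) (nat_lit 193))) (XT.nd (nat_lit 78) (nat_lit 988) (nat_lit 0) (XT.lf (nat_lit 0) (nat_lit 3339617268) (nat_lit 1824) (nat_lit 8440170281) (nat_lit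 76) (nat_lit 14887503067) (nat_lit 371) (nat_lit 5) (nat_lit 395) (nat_lit 5) (nat_lit 372) (nat_lit 5) (nat_lit 487) (nat_lit 461) (nat_lit 192)) (XT.nd (nat_lit 78) (nat_lit 0) (nat_lit 0) (XT.lf (nat_lit 0) (nat_lit 5055967573) (nat_lit 988) (nat_lit 388118572) (nat_lit 1064) (nat_lit 21515747797) (nat_lit 358) (nat_lit 5) (nat_lit 371) (nat_lit 5) (nat_lit 372) (nat_lit 5) (nat_lit 488) (nat_lit 461) (nat_lit 191)) (XT.lf (nat_lit 0) (nat_lit 7718037146) (nat_lit 1064) (nat_lit 8396234247) (nat_lit 76) (nat_lit 11141410091) (nat_lit 358) (nat_lit 5) (nat_lit 372) (nat_lit 5) (nat_lit 359) (nat_lit 5) (nat_lit 489) (nat_lit 461) (nat_lit 190))))) (XT.nd (nat_lit 156) (nat_lit 0) (nat_lit 0) (XT.nd (nat_lit 78) (nat_lit 0) (nat_lit 0) (XT.lf (nat_lit 0) (nat_lit 182846241) (nat_lit 0) (nat_lit 182846241) (nat_lit 1748) (nat_lit 10031622278) (nat_lit 384) (nat_lit 5) (nat_lit 384) (nat_lit 3) (nat_lit 407)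 (nat_lit 3) (nat_lit 462) (nat_lit 462) (nat_lit 216)) (XT.lf (nat_lit 0) (nat_lit 949623170) (nat_lit 1748) (nat_lit 10742373133) (nat_lit 1824) (nat_lit 9306285897) (nat_lit 384) (nat_lit 5) (nat_lit 407) (nat_lit 3) (nat_lit 408) (nat_lit 5) (nat_lit 463) (nat_lit 462) (nat_lit 215))) (XT.nd (nat_lit 78) (nat_lit 0) (nat_lit 76) (XT.lf (nat_lit 0) (nat_lit 1170734039) (nat_lit 1748) (nat_lit 866556332) (nat_lit 1824) (nat_lit 19168749376) (nat_lit 384) (nat_lit 5) (nat_lit 407) (nat_lit 3) (nat_lit 408) (nat_lit 5) (nat_lit 464) (nat_lit 462) (nat_lit 214)) (XT.nd (nat_lit 78) (nat_lit 0) (nat_lit 0) (XT.lf (nat_lit 0) (nat_lit 1504111473) (nat_lit 1748) (nat_lit 12140856868) (nat_lit 1824) (nat_lit 7770829149) (nat_lit 385) (nat_lit 5) (nat_lit 408) (nat_lit 5) (nat_lit 409) (nat_lit 5) (nat_lit 465) (nat_lit 462) (nat_lit 213)) (XT.lf (nat_lit 0) (nat_lit 1859738580) (nat_lit 1748) (nat_lit 2014242555)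 (nat_lit 1824) (nat_lit 17755459502) (nat_lit 385) (nat_lit 5) (nat_lit 408) (nat_lit 5) (nat_lit 409) (nat_lit 5) (nat_lit 466) (nat_lit 462) (nat_lit 212)))))) (XT.nd (nat_lit 390) (nat_lit 0) (nat_lit 152) (XT.nd (nat_lit 156) (nat_lit 0) (nat_lit 76) (XT.nd (nat_lit 78) (nat_lit 0) (nat_lit 0) (XT.lf (nat_lit 0) (nat_lit 2313407314) (nat_lit 1748) (nat_lit 13462940778) (nat_lit 1824) (nat_lit 6069191832) (nat_lit 386) (nat_lit 5) (nat_lit 409) (nat_lit 5) (nat_lit 410) (nat_lit 5) (nat_lit 467) (nat_lit 462) (nat_lit 211)) (XT.lf (nat_lit 0) (nat_lit 2811790900) (nat_lit 1748) (nat_lit 3078876761) (nat_lit 1824) (nat_lit 16174582528) (nat_lit 386) (nat_lit 5) (nat_lit 409) (nat_lit 5) (nat_lit 410) (nat_lit 5) (nat_lit 468) (nat_lit 462) (nat_lit 210))) (XT.nd (nat_lit 78) (nat_lit 0) (nat_lit 0) (XT.lf (nat_lit 0) (nat_lit 3393564784) (nat_lit 1748) (nat_lit 14705395483) (nat_lit 1824) (nat_lit 4188927722)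 (nat_lit 387) (nat_lit 5) (nat_lit 410) (nat_lit 5) (nat_lit 411) (nat_lit 5) (nat_lit 469) (nat_lit 462) (nat_lit 209)) (XT.nd (nat_lit 78) (nat_lit 0) (nat_lit 76) (XT.lf (nat_lit 0) (nat_lit 4043299146) (nat_lit 1748) (nat_lit 4057036776) (nat_lit 1824) (nat_lit 14413517874) (nat_lit 387) (nat_lit 5) (nat_lit 410) (nat_lit 5) (nat_lit 411) (nat_lit 5) (nat_lit 470) (nat_lit 462) (nat_lit 208)) (XT.lf (nat_lit 0) (nat_lit 4761292129) (nat_lit 1748) (nat_lit 15864861159) (nat_lit 1824) (nat_lit 2117082069) (nat_lit 388) (nat_lit 5) (nat_lit 411) (nat_lit 5) (nat_lit 412) (nat_lit 5) (nat_lit 471) (nat_lit 462) (nat_lit 207))))) (XT.nd (nat_lit 234) (nat_lit 0) (nat_lit 76) (XT.nd (nat_lit 78) (nat_lit 0) (nat_lit 0) (XT.lf (nat_lit 0) (nat_lit 5571340920) (nat_lit 1748) (nat_lit 4945166289) (nat_lit 1824) (nat_lit 12459145102) (nat_lit 388) (nat_lit 5) (nat_lit 411) (nat_lit 5) (nat_lit 412) (nat_lit 5) (nat_lit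 472) (nat_lit 462) (nat_lit 206)) (XT.nd (nat_lit 78) (nat_lit 0) (nat_lit 76) (XT.lf (nat_lit 76) (nat_lit 6273068500) (nat_lit 0) (nat_lit 161963060) (nat_lit 1824) (nat_lit 16776938876) (nat_lit 389) (nat_lit 5) (nat_lit 388) (nat_lit 5) (nat_lit 412) (nat_lit 5) (nat_lit 473) (nat_lit 462) (nat_lit 205)) (XT.lf (nat_lit 0) (nat_lit 7413692028) (nat_lit 1748) (nat_lit 5739577623) (nat_lit 1824) (nat_lit 10297792968) (nat_lit 389) (nat_lit 5) (nat_lit 412) (nat_lit 5) (nat_lit 413) (nat_lit 5) (nat_lit 474) (nat_lit 462) (nat_lit 204)))) (XT.nd (nat_lit 78) (nat_lit 0) (nat_lit 76) (XT.lf (nat_lit 76) (nat_lit 5756008446) (nat_lit 0) (nat_lit 2691195030) (nat_lit 1824) (nat_lit 15247029200) (nat_lit 390) (nat_lit 5) (nat_lit 389) (nat_lit 5) (nat_lit 413) (nat_lit 5) (nat_lit 475) (nat_lit 462) (nat_lit 203)) (XT.nd (nat_lit 78) (nat_lit 0) (nat_lit 0) (XT.lf (nat_lit 0) (nat_lit 9588856086) (nat_lit 1748)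 (nat_lit 6436454864) (nat_lit 1824) (nat_lit 7915207319) (nat_lit 390) (nat_lit 5) (nat_lit 413) (nat_lit 5) (nat_lit 414) (nat_lit 5) (nat_lit 476) (nat_lit 462) (nat_lit 202)) (XT.lf (nat_lit 76) (nat_lit 5345477981) (nat_lit 0) (nat_lit 5457341693) (nat_lit 1824) (nat_lit 13387921866) (nat_lit 391) (nat_lit 5) (nat_lit 390) (nat_lit 5) (nat_lit 414) (nat_lit 5) (nat_lit 477) (nat_lit 462) (nat_lit 201))))))) (XT.nd (nat_lit 780) (nat_lit 988) (nat_lit 0) (XT.nd (nat_lit 390) (nat_lit 1520) (nat_lit 0) (XT.nd (nat_lit 156) (nat_lit 0) (nat_lit 76) (XT.nd (nat_lit 78) (nat_lit 0) (nat_lit 0) (XT.lf (nat_lit 0) (nat_lit 12116095014) (nat_lit 1748) (nat_lit 7031857360) (nat_lit 1824) (nat_lit 5296517745) (nat_lit 391) (nat_lit 5) (nat_lit 414) (nat_lit 5) (nat_lit 415) (nat_lit 5) (nat_lit 478) (nat_lit 462) (nat_lit 200)) (XT.lf (nat_lit 76) (nat_lit 5045684670) (nat_lit 0) (nat_lit 8475911841) (nat_lit 1824)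 (nat_lit 11180359011) (nat_lit 392) (nat_lit 5) (nat_lit 391) (nat_lit 5) (nat_lit 415) (nat_lit 5) (nat_lit 479) (nat_lit 462) (nat_lit 199))) (XT.nd (nat_lit 78) (nat_lit 0) (nat_lit 0) (XT.lf (nat_lit 0) (nat_lit 15015460435) (nat_lit 1748) (nat_lit 7521723668) (nat_lit 1824) (nat_lit 2426202916) (nat_lit 392) (nat_lit 5) (nat_lit 415) (nat_lit 5) (nat_lit 416) (nat_lit 5) (nat_lit 480) (nat_lit 462) (nat_lit 198)) (XT.nd (nat_lit 78) (nat_lit 0) (nat_lit 0) (XT.lf (nat_lit 76) (nat_lit 4860962458) (nat_lit 0) (nat_lit 11763096254) (nat_lit 1824) (nat_lit 8604292699) (nat_lit 393) (nat_lit 5) (nat_lit 392) (nat_lit 5) (nat_lit 416) (nat_lit 5) (nat_lit 481) (nat_lit 462) (nat_lit 197)) (XT.lf (nat_lit 76) (nat_lit 17591103015) (nat_lit 0) (nat_lit 721406867) (nat_lit 1824) (nat_lit 7185152973) (nat_lit 393) (nat_lit 5) (nat_lit 392) (nat_lit 5) (nat_lit 416) (nat_lit 5) (nat_lit 482) (nat_lit 462) (nat_lit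 196))))) (XT.nd (nat_lit 156) (nat_lit 1672) (nat_lit 0) (XT.nd (nat_lit 78) (nat_lit 0) (nat_lit 0) (XT.lf (nat_lit 76) (nat_lit 4795767188) (nat_lit 0) (nat_lit 15335805134) (nat_lit 1824) (nat_lit 5638852712) (nat_lit 394) (nat_lit 5) (nat_lit 393) (nat_lit 5) (nat_lit 417) (nat_lit 5) (nat_lit 483) (nat_lit 462) (nat_lit 195)) (XT.lf (nat_lit 76) (nat_lit 17852313456) (nat_lit 0) (nat_lit 4189810447) (nat_lit 1824) (nat_lit 4005417721) (nat_lit 394) (nat_lit 5) (nat_lit 393) (nat_lit 5) (nat_lit 417) (nat_lit 5) (nat_lit 484) (nat_lit 462) (nat_lit 194))) (XT.nd (nat_lit 78) (nat_lit 1748) (nat_lit 0) (XT.lf (nat_lit 76) (nat_lit 4854671545) (nat_lit 0) (nat_lit 19211707090) (nat_lit 1824) (nat_lit 2262313370) (nat_lit 395) (nat_lit 5) (nat_lit 394) (nat_lit 5) (nat_lit 418) (nat_lit 5) (nat_lit 485) (nat_lit 462) (nat_lit 193)) (XT.nd (nat_lit 78) (nat_lit 1748) (nat_lit 0) (XT.lf (nat_lit 76) (nat_lit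 18246379277) (nat_lit 0) (nat_lit 7964696593) (nat_lit 1824) (nat_lit 402791651) (nat_lit 395) (nat_lit 5) (nat_lit 394) (nat_lit 5) (nat_lit 418) (nat_lit 5) (nat_lit 486) (nat_lit 462) (nat_lit 192)) (XT.lf (nat_lit 0) (nat_lit 1527639110) (nat_lit 1824) (nat_lit 21871379430) (nat_lit 76) (nat_lit 3504469007) (nat_lit 371) (nat_lit 5) (nat_lit 395) (nat_lit 5) (nat_lit 372) (nat_lit 5) (nat_lit 487) (nat_lit 462) (nat_lit 191)))))) (XT.nd (nat_lit 57642) (nat_lit 0) (nat_lit 2052) (XT.nd (nat_lit 57408) (nat_lit 0) (nat_lit 1976) (XT.nd (nat_lit 78) (nat_lit 988) (nat_lit 0) (XT.lf (nat_lit 0) (nat_lit 3598029043) (nat_lit 1824) (nat_lit 8442638514) (nat_lit 76) (nat_lit 15156045491) (nat_lit 371) (nat_lit 5) (nat_lit 395) (nat_lit 5) (nat_lit 372) (nat_lit 5) (nat_lit 488) (nat_lit 462) (nat_lit 190)) (XT.lf (nat_lit 0) (nat_lit 5322327787) (nat_lit 988) (nat_lit 419575122) (nat_lit 1064) (nat_lit 21753259805)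 (nat_lit 358) (nat_lit 5) (nat_lit 371) (nat_lit 5) (nat_lit 372) (nat_lit 5) (nat_lit 489) (nat_lit 462) (nat_lit 189))) (XT.nd (nat_lit 78) (nat_lit 0) (nat_lit 0) (XT.lf (nat_lit 0) (nat_lit 260866589) (nat_lit 0) (nat_lit 260866589) (nat_lit 1748) (nat_lit 10080478699) (nat_lit 384) (nat_lit 5) (nat_lit 384) (nat_lit 3) (nat_lit 407) (nat_lit 3) (nat_lit 463) (nat_lit 463) (nat_lit 214)) (XT.nd (nat_lit 78) (nat_lit 0) (nat_lit 0) (XT.lf (nat_lit 0) (nat_lit 1259290203) (nat_lit 1748) (nat_lit 10804484483) (nat_lit 1824) (nat_lit 9348513313) (nat_lit 384) (nat_lit 5) (nat_lit 407) (nat_lit 3) (nat_lit 408) (nat_lit 5) (nat_lit 464) (nat_lit 463) (nat_lit 213)) (XT.lf (nat_lit 0) (nat_lit 1479123787) (nat_lit 1748) (nat_lit 734146172) (nat_lit 1824) (nat_lit 19411047597) (nat_lit 384) (nat_lit 5) (nat_lit 407) (nat_lit 3) (nat_lit 408) (nat_lit 5) (nat_lit 465) (nat_lit 463) (nat_lit 212))))) (XT.nd (nat_lit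 234) (nat_lit 0) (nat_lit 76) (XT.nd (nat_lit 78) (nat_lit 0) (nat_lit 0) (XT.lf (nat_lit 0) (nat_lit 1813692432) (nat_lit 1748) (nat_lit 12228315710) (nat_lit 1824) (nat_lit 7796374652) (nat_lit 385) (nat_lit 5) (nat_lit 408) (nat_lit 5) (nat_lit 409) (nat_lit 5) (nat_lit 466) (nat_lit 463) (nat_lit 211)) (XT.nd (nat_lit 78) (nat_lit 0) (nat_lit 76) (XT.lf (nat_lit 0) (nat_lit 2170951714) (nat_lit 1748) (nat_lit 1902215352) (nat_lit 1824) (nat_lit 17983244105) (nat_lit 385) (nat_lit 5) (nat_lit 408) (nat_lit 5) (nat_lit 409) (nat_lit 5) (nat_lit 467) (nat_lit 463) (nat_lit 210)) (XT.lf (nat_lit 0) (nat_lit 2628535121) (nat_lit 1748) (nat_lit 13574593629) (nat_lit 1824) (nat_lit 6073809571) (nat_lit 386) (nat_lit 5) (nat_lit 409) (nat_lit 5) (nat_lit 410) (nat_lit 5) (nat_lit 468) (nat_lit 463) (nat_lit 209)))) (XT.nd (nat_lit 78) (nat_lit 0) (nat_lit 76) (XT.lf (nat_lit 0) (nat_lit 3131614620) (nat_lit 1748)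 (nat_lit 2985938645) (nat_lit 1824) (nat_lit 16383597612) (nat_lit 386) (nat_lit 5) (nat_lit 409) (nat_lit 5) (nat_lit 410) (nat_lit 5) (nat_lit 469) (nat_lit 463) (nat_lit 208)) (XT.nd (nat_lit 78) (nat_lit 0) (nat_lit 0) (XT.lf (nat_lit 0) (nat_lit 3720164526) (nat_lit 1748) (nat_lit 14839998328) (nat_lit 1824) (nat_lit 4168178368) (nat_lit 387) (nat_lit 5) (nat_lit 410) (nat_lit 5) (nat_lit 411) (nat_lit 5) (nat_lit 470) (nat_lit 463) (nat_lit 207)) (XT.lf (nat_lit 0) (nat_lit 4377820469) (nat_lit 1748) (nat_lit 3981799997) (nat_lit 1824) (nat_lit 14599309890) (nat_lit 387) (nat_lit 5) (nat_lit 410) (nat_lit 5) (nat_lit 411) (nat_lit 5) (nat_lit 471) (nat_lit 463) (nat_lit 206))))))))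
noncomputable def xc251 : XT := (XT.nd (nat_lit 59046) (nat_lit 0) (nat_lit 1064) (XT.nd (nat_lit 780) (nat_lit 1292) (nat_lit 0) (XT.nd (nat_lit 390) (nat_lit 0) (nat_lit 152) (XT.nd (nat_lit 156) (nat_lit 0) (nat_lit 0) (XT.nd (nat_lit 78) (nat_lit 0) (nat_lit 0) (XT.lf (nat_lit 0) (nat_lit 5105595776) (nat_lit 1748) (nat_lit 16021078420) (nat_lit 1824) (nat_lit 2066319400) (nat_lit 388) (nat_lit 5) (nat_lit 411) (nat_lit 5) (nat_lit 412) (nat_lit 5) (nat_lit 472) (nat_lit 463) (nat_lit 205)) (XT.lf (nat_lit 0) (nat_lit 5926961664) (nat_lit 1748) (nat_lit 4886148084) (nat_lit 1824) (nat_lit 12617049269) (nat_lit 388) (nat_lit 5) (nat_lit 411) (nat_lit 5) (nat_lit 412) (nat_lit 5) (nat_lit 473) (nat_lit 463) (nat_lit 204))) (XT.nd (nat_lit 78) (nat_lit 0) (nat_lit 76) (XT.lf (nat_lit 76) (nat_lit 6555412444) (nat_lit 0) (nat_lit 248744142) (nat_lit 1824) (nat_lit 16867124710) (nat_lit 389) (nat_lit 5) (nat_lit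 388) (nat_lit 5) (nat_lit 412) (nat_lit 5) (nat_lit 474) (nat_lit 463) (nat_lit 203)) (XT.nd (nat_lit 78) (nat_lit 0) (nat_lit 0) (XT.lf (nat_lit 0) (nat_lit 7797144286) (nat_lit 1748) (nat_lit 5695199047) (nat_lit 1824) (nat_lit 10422919264) (nat_lit 389) (nat_lit 5) (nat_lit 412) (nat_lit 5) (nat_lit 413) (nat_lit 5) (nat_lit 475) (nat_lit 463) (nat_lit 202)) (XT.lf (nat_lit 76) (nat_lit 6029251572) (nat_lit 0) (nat_lit 2818489689) (nat_lit 1824) (nat_lit 15315628796) (nat_lit 390) (nat_lit 5) (nat_lit 389) (nat_lit 5) (nat_lit 413) (nat_lit 5) (nat_lit 476) (nat_lit 463) (nat_lit 201))))) (XT.nd (nat_lit 156) (nat_lit 0) (nat_lit 76) (XT.nd (nat_lit 78) (nat_lit 0) (nat_lit 0) (XT.lf (nat_lit 0) (nat_lit 10007218203) (nat_lit 1748) (nat_lit 6405039598) (nat_lit 1824) (nat_lit 8002425999) (nat_lit 390) (nat_lit 5) (nat_lit 413) (nat_lit 5) (nat_lit 414) (nat_lit 5) (nat_lit 477) (nat_lit 463) (nat_lit 200))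 (XT.lf (nat_lit 76) (nat_lit 5611478323) (nat_lit 0) (nat_lit 5630572819) (nat_lit 1824) (nat_lit 13427930809) (nat_lit 391) (nat_lit 5) (nat_lit 390) (nat_lit 5) (nat_lit 414) (nat_lit 5) (nat_lit 478) (nat_lit 463) (nat_lit 199))) (XT.nd (nat_lit 78) (nat_lit 0) (nat_lit 0) (XT.lf (nat_lit 0) (nat_lit 12576808088) (nat_lit 1748) (nat_lit 7011630508) (nat_lit 1824) (nat_lit 5340444360) (nat_lit 391) (nat_lit 5) (nat_lit 414) (nat_lit 5) (nat_lit 415) (nat_lit 5) (nat_lit 479) (nat_lit 463) (nat_lit 198)) (XT.nd (nat_lit 78) (nat_lit 0) (nat_lit 76) (XT.lf (nat_lit 76) (nat_lit 5306404047) (nat_lit 0) (nat_lit 8700770952) (nat_lit 1824) (nat_lit 11184410091) (nat_lit 392) (nat_lit 5) (nat_lit 391) (nat_lit 5) (nat_lit 415) (nat_lit 5) (nat_lit 480) (nat_lit 463) (nat_lit 197)) (XT.lf (nat_lit 0) (nat_lit 15526345377) (nat_lit 1748) (nat_lit 7510810558) (nat_lit 1824) (nat_lit 2421182789) (nat_lit 392) (nat_lit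 5) (nat_lit 415) (nat_lit 5) (nat_lit 416) (nat_lit 5) (nat_lit 481) (nat_lit 463) (nat_lit 196)))))) (XT.nd (nat_lit 390) (nat_lit 1596) (nat_lit 0) (XT.nd (nat_lit 156) (nat_lit 0) (nat_lit 76) (XT.nd (nat_lit 78) (nat_lit 0) (nat_lit 0) (XT.lf (nat_lit 76) (nat_lit 5118467794) (nat_lit 0) (nat_lit 12045559575) (nat_lit 1824) (nat_lit 8564638852) (nat_lit 393) (nat_lit 5) (nat_lit 392) (nat_lit 5) (nat_lit 416) (nat_lit 5) (nat_lit 482) (nat_lit 463) (nat_lit 195)) (XT.lf (nat_lit 76) (nat_lit 18100068297) (nat_lit 0) (nat_lit 782110882) (nat_lit 1824) (nat_lit 7121268089) (nat_lit 393) (nat_lit 5) (nat_lit 392) (nat_lit 5) (nat_lit 416) (nat_lit 5) (nat_lit 483) (nat_lit 463) (nat_lit 194))) (XT.nd (nat_lit 78) (nat_lit 0) (nat_lit 0) (XT.lf (nat_lit 76) (nat_lit 5052231811) (nat_lit 0) (nat_lit 15682150277) (nat_lit 1824) (nat_lit 5547349389) (nat_lit 394) (nat_lit 5) (nat_lit 393) (nat_lit 5) (nat_lit 417)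 (nat_lit 5) (nat_lit 484) (nat_lit 463) (nat_lit 193)) (XT.nd (nat_lit 78) (nat_lit 0) (nat_lit 76) (XT.lf (nat_lit 76) (nat_lit 18366760979) (nat_lit 0) (nat_lit 4312458657) (nat_lit 1824) (nat_lit 3885251196) (nat_lit 394) (nat_lit 5) (nat_lit 393) (nat_lit 5) (nat_lit 417) (nat_lit 5) (nat_lit 485) (nat_lit 463) (nat_lit 192)) (XT.lf (nat_lit 76) (nat_lit 5112376456) (nat_lit 0) (nat_lit 19628530393) (nat_lit 1824) (nat_lit 2110400317) (nat_lit 395) (nat_lit 5) (nat_lit 394) (nat_lit 5) (nat_lit 418) (nat_lit 5) (nat_lit 486) (nat_lit 463) (nat_lit 191))))) (XT.nd (nat_lit 57642) (nat_lit 0) (nat_lit 988) (XT.nd (nat_lit 78) (nat_lit 1748) (nat_lit 0) (XT.lf (nat_lit 76) (nat_lit 18768769097) (nat_lit 0) (nat_lit 8155940683) (nat_lit 1824) (nat_lit 217554032) (nat_lit 395) (nat_lit 5) (nat_lit 394) (nat_lit 5) (nat_lit 418) (nat_lit 5) (nat_lit 487) (nat_lit 463) (nat_lit 190)) (XT.nd (nat_lit 57486) (nat_lit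 0) (nat_lit 988) (XT.lf (nat_lit 0) (nat_lit 1746054079) (nat_lit 1824) (nat_lit 22145733320) (nat_lit 76) (nat_lit 3545923449) (nat_lit 371) (nat_lit 5) (nat_lit 395) (nat_lit 5) (nat_lit 372) (nat_lit 5) (nat_lit 488) (nat_lit 463) (nat_lit 189)) (XT.lf (nat_lit 0) (nat_lit 337559722) (nat_lit 0) (nat_lit 337559722) (nat_lit 1748) (nat_lit 10136205897) (nat_lit 384) (nat_lit 5) (nat_lit 384) (nat_lit 3) (nat_lit 407) (nat_lit 3) (nat_lit 464) (nat_lit 464) (nat_lit 212)))) (XT.nd (nat_lit 78) (nat_lit 0) (nat_lit 0) (XT.lf (nat_lit 0) (nat_lit 1563863328) (nat_lit 1748) (nat_lit 10873768990) (nat_lit 1824) (nat_lit 9397173024) (nat_lit 384) (nat_lit 5) (nat_lit 407) (nat_lit 3) (nat_lit 408) (nat_lit 5) (nat_lit 465) (nat_lit 464) (nat_lit 211)) (XT.nd (nat_lit 78) (nat_lit 0) (nat_lit 76) (XT.lf (nat_lit 0) (nat_lit 1782615401) (nat_lit 1748) (nat_lit 604902445) (nat_lit 1824) (nat_lit 19663669966) (nat_lit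 384) (nat_lit 5) (nat_lit 407) (nat_lit 3) (nat_lit 408) (nat_lit 5) (nat_lit 466) (nat_lit 464) (nat_lit 210)) (XT.lf (nat_lit 0) (nat_lit 2118611734) (nat_lit 1748) (nat_lit 12323556481) (nat_lit 1824) (nat_lit 7827474117) (nat_lit 385) (nat_lit 5) (nat_lit 408) (nat_lit 5) (nat_lit 409) (nat_lit 5) (nat_lit 467) (nat_lit 464) (nat_lit 209))))))) (XT.nd (nat_lit 780) (nat_lit 0) (nat_lit 380) (XT.nd (nat_lit 390) (nat_lit 0) (nat_lit 228) (XT.nd (nat_lit 156) (nat_lit 0) (nat_lit 76) (XT.nd (nat_lit 78) (nat_lit 0) (nat_lit 76) (XT.lf (nat_lit 0) (nat_lit 2477748644) (nat_lit 1748) (nat_lit 1793862068) (nat_lit 1824) (nat_lit 18220528568) (nat_lit 385) (nat_lit 5) (nat_lit 408) (nat_lit 5) (nat_lit 409) (nat_lit 5) (nat_lit 468) (nat_lit 464) (nat_lit 208)) (XT.lf (nat_lit 0) (nat_lit 2939525336) (nat_lit 1748) (nat_lit 13694599569) (nat_lit 1824) (nat_lit 6083053835) (nat_lit 386) (nat_lit 5) (nat_lit 409)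 (nat_lit 5) (nat_lit 410) (nat_lit 5) (nat_lit 469) (nat_lit 464) (nat_lit 207))) (XT.nd (nat_lit 78) (nat_lit 0) (nat_lit 76) (XT.lf (nat_lit 0) (nat_lit 3447599375) (nat_lit 1748) (nat_lit 2897141797) (nat_lit 1824) (nat_lit 16601238263) (nat_lit 386) (nat_lit 5) (nat_lit 409) (nat_lit 5) (nat_lit 410) (nat_lit 5) (nat_lit 470) (nat_lit 464) (nat_lit 206)) (XT.nd (nat_lit 78) (nat_lit 0) (nat_lit 0) (XT.lf (nat_lit 0) (nat_lit 4043249522) (nat_lit 1748) (nat_lit 14983487005) (nat_lit 1824) (nat_lit 4151072974) (nat_lit 387) (nat_lit 5) (nat_lit 410) (nat_lit 5) (nat_lit 411) (nat_lit 5) (nat_lit 471) (nat_lit 464) (nat_lit 205)) (XT.lf (nat_lit 0) (nat_lit 4709182472) (nat_lit 1748) (nat_lit 3911130812) (nat_lit 1824) (nat_lit 14792797105) (nat_lit 387) (nat_lit 5) (nat_lit 410) (nat_lit 5) (nat_lit 411) (nat_lit 5) (nat_lit 472) (nat_lit 464) (nat_lit 204))))) (XT.nd (nat_lit 156) (nat_lit 0) (nat_lit 0)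 (XT.nd (nat_lit 78) (nat_lit 0) (nat_lit 0) (XT.lf (nat_lit 0) (nat_lit 5447113501) (nat_lit 1748) (nat_lit 16186674958) (nat_lit 1824) (nat_lit 2018156832) (nat_lit 388) (nat_lit 5) (nat_lit 411) (nat_lit 5) (nat_lit 412) (nat_lit 5) (nat_lit 473) (nat_lit 464) (nat_lit 203)) (XT.lf (nat_lit 0) (nat_lit 6280212476) (nat_lit 1748) (nat_lit 4832081800) (nat_lit 1824) (nat_lit 12781655983) (nat_lit 388) (nat_lit 5) (nat_lit 411) (nat_lit 5) (nat_lit 412) (nat_lit 5) (nat_lit 474) (nat_lit 464) (nat_lit 202))) (XT.nd (nat_lit 78) (nat_lit 0) (nat_lit 76) (XT.lf (nat_lit 76) (nat_lit 6837311325) (nat_lit 0) (nat_lit 334016816) (nat_lit 1824) (nat_lit 16968641614) (nat_lit 389) (nat_lit 5) (nat_lit 388) (nat_lit 5) (nat_lit 412) (nat_lit 5) (nat_lit 475) (nat_lit 464) (nat_lit 201)) (XT.nd (nat_lit 78) (nat_lit 0) (nat_lit 0) (XT.lf (nat_lit 0) (nat_lit 8179133325) (nat_lit 1748) (nat_lit 5656113669) (nat_lit 1824)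 (nat_lit 10553686795) (nat_lit 389) (nat_lit 5) (nat_lit 412) (nat_lit 5) (nat_lit 413) (nat_lit 5) (nat_lit 476) (nat_lit 464) (nat_lit 200)) (XT.lf (nat_lit 76) (nat_lit 6301819454) (nat_lit 0) (nat_lit 2945477282) (nat_lit 1824) (nat_lit 15394777792) (nat_lit 390) (nat_lit 5) (nat_lit 389) (nat_lit 5) (nat_lit 413) (nat_lit 5) (nat_lit 477) (nat_lit 464) (nat_lit 199)))))) (XT.nd (nat_lit 390) (nat_lit 0) (nat_lit 152) (XT.nd (nat_lit 156) (nat_lit 0) (nat_lit 76) (XT.nd (nat_lit 78) (nat_lit 0) (nat_lit 0) (XT.lf (nat_lit 0) (nat_lit 10425148990) (nat_lit 1748) (nat_lit 6379214627) (nat_lit 1824) (nat_lit 8094149387) (nat_lit 390) (nat_lit 5) (nat_lit 413) (nat_lit 5) (nat_lit 414) (nat_lit 5) (nat_lit 478) (nat_lit 464) (nat_lit 198)) (XT.lf (nat_lit 76) (nat_lit 5876620983) (nat_lit 0) (nat_lit 5804780096) (nat_lit 1824) (nat_lit 13477583722) (nat_lit 391) (nat_lit 5) (nat_lit 390) (nat_lit 5) (nat_lit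 414) (nat_lit 5) (nat_lit 479) (nat_lit 464) (nat_lit 197))) (XT.nd (nat_lit 78) (nat_lit 0) (nat_lit 0) (XT.lf (nat_lit 0) (nat_lit 13038255027) (nat_lit 1748) (nat_lit 6997245664) (nat_lit 1824) (nat_lit 5387657187) (nat_lit 391) (nat_lit 5) (nat_lit 414) (nat_lit 5) (nat_lit 415) (nat_lit 5) (nat_lit 480) (nat_lit 464) (nat_lit 196)) (XT.nd (nat_lit 78) (nat_lit 0) (nat_lit 76) (XT.lf (nat_lit 76) (nat_lit 5566132362) (nat_lit 0) (nat_lit 8927978292) (nat_lit 1824) (nat_lit 11197067824) (nat_lit 392) (nat_lit 5) (nat_lit 391) (nat_lit 5) (nat_lit 415) (nat_lit 5) (nat_lit 481) (nat_lit 464) (nat_lit 195)) (XT.lf (nat_lit 0) (nat_lit 16039271106) (nat_lit 1748) (nat_lit 7505944509) (nat_lit 1824) (nat_lit 2418141446) (nat_lit 392) (nat_lit 5) (nat_lit 415) (nat_lit 5) (nat_lit 416) (nat_lit 5) (nat_lit 482) (nat_lit 464) (nat_lit 194))))) (XT.nd (nat_lit 234) (nat_lit 0) (nat_lit 76) (XT.nd (nat_lit 78) (nat_lit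 0) (nat_lit 0) (XT.lf (nat_lit 76) (nat_lit 5374899132) (nat_lit 0) (nat_lit 12331839274) (nat_lit 1824) (nat_lit 8532414038) (nat_lit 393) (nat_lit 5) (nat_lit 392) (nat_lit 5) (nat_lit 416) (nat_lit 5) (nat_lit 483) (nat_lit 464) (nat_lit 193)) (XT.nd (nat_lit 78) (nat_lit 0) (nat_lit 76) (XT.lf (nat_lit 76) (nat_lit 18613110822) (nat_lit 0) (nat_lit 842232029) (nat_lit 1824) (nat_lit 7064166401) (nat_lit 393) (nat_lit 5) (nat_lit 392) (nat_lit 5) (nat_lit 416) (nat_lit 5) (nat_lit 484) (nat_lit 464) (nat_lit 192)) (XT.lf (nat_lit 76) (nat_lit 5307591401) (nat_lit 0) (nat_lit 16033883479) (nat_lit 1824) (nat_lit 5461948455) (nat_lit 394) (nat_lit 5) (nat_lit 393) (nat_lit 5) (nat_lit 417) (nat_lit 5) (nat_lit 485) (nat_lit 464) (nat_lit 191)))) (XT.nd (nat_lit 78) (nat_lit 0) (nat_lit 76) (XT.lf (nat_lit 76) (nat_lit 18885385370) (nat_lit 0) (nat_lit 4436051160) (nat_lit 1824) (nat_lit 3770458257) (nat_lit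 394) (nat_lit 5) (nat_lit 393) (nat_lit 5) (nat_lit 417) (nat_lit 5) (nat_lit 486) (nat_lit 464) (nat_lit 190)) (XT.nd (nat_lit 78) (nat_lit 0) (nat_lit 0) (XT.lf (nat_lit 76) (nat_lit 5368998726) (nat_lit 0) (nat_lit 20052424685) (nat_lit 1824) (nat_lit 1963104939) (nat_lit 395) (nat_lit 5) (nat_lit 394) (nat_lit 5) (nat_lit 418) (nat_lit 5) (nat_lit 487) (nat_lit 464) (nat_lit 189)) (XT.lf (nat_lit 76) (nat_lit 19295492264) (nat_lit 0) (nat_lit 8349768990) (nat_lit 1824) (nat_lit 36117481) (nat_lit 395) (nat_lit 5) (nat_lit 394) (nat_lit 5) (nat_lit 418) (nat_lit 5) (nat_lit 488) (nat_lit 464) (nat_lit 188))))))))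
noncomputable def xc252 : XT := (XT.nd (nat_lit 1560) (nat_lit 0) (nat_lit 0) (XT.nd (nat_lit 780) (nat_lit 0) (nat_lit 304) (XT.nd (nat_lit 390) (nat_lit 0) (nat_lit 152) (XT.nd (nat_lit 156) (nat_lit 0) (nat_lit 0) (XT.nd (nat_lit 78) (nat_lit 0) (nat_lit 0) (XT.lf (nat_lit 0) (nat_lit 413011225) (nat_lit 0) (nat_lit 413011225) (nat_lit 1748) (nat_lit 10198712429) (nat_lit 384) (nat_lit 5) (nat_lit 384) (nat_lit 3) (nat_lit 407) (nat_lit 3) (nat_lit 465) (nat_lit 465) (nat_lit 210)) (XT.lf (nat_lit 0) (nat_lit 1863678966) (nat_lit 1748) (nat_lit 10950139811) (nat_lit 1824) (nat_lit 9452176697) (nat_lit 384) (nat_lit 5) (nat_lit 407) (nat_lit 3) (nat_lit 408) (nat_lit 5) (nat_lit 466) (nat_lit 465) (nat_lit 209))) (XT.nd (nat_lit 78) (nat_lit 0) (nat_lit 76) (XT.lf (nat_lit 0) (nat_lit 2081540622) (nat_lit 1748) (nat_lit 478662691) (nat_lit 1824) (nat_lit 19926610240) (nat_lit 384) (nat_lit 5) (nat_lit 407)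 (nat_lit 3) (nat_lit 408) (nat_lit 5) (nat_lit 467) (nat_lit 465) (nat_lit 208)) (XT.nd (nat_lit 78) (nat_lit 0) (nat_lit 0) (XT.lf (nat_lit 0) (nat_lit 2419197592) (nat_lit 1748) (nat_lit 12426500560) (nat_lit 1824) (nat_lit 7864042797) (nat_lit 385) (nat_lit 5) (nat_lit 408) (nat_lit 5) (nat_lit 409) (nat_lit 5) (nat_lit 468) (nat_lit 465) (nat_lit 207)) (XT.lf (nat_lit 0) (nat_lit 2780454228) (nat_lit 1748) (nat_lit 1689026515) (nat_lit 1824) (nat_lit 18467310901) (nat_lit 385) (nat_lit 5) (nat_lit 408) (nat_lit 5) (nat_lit 409) (nat_lit 5) (nat_lit 469) (nat_lit 465) (nat_lit 206))))) (XT.nd (nat_lit 156) (nat_lit 0) (nat_lit 76) (XT.nd (nat_lit 78) (nat_lit 0) (nat_lit 0) (XT.lf (nat_lit 0) (nat_lit 3246700610) (nat_lit 1748) (nat_lit 13822888011) (nat_lit 1824) (nat_lit 6096841087) (nat_lit 386) (nat_lit 5) (nat_lit 409) (nat_lit 5) (nat_lit 410) (nat_lit 5) (nat_lit 470) (nat_lit 465) (nat_lit 205)) (XT.lf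 (nat_lit 0) (nat_lit 3760065841) (nat_lit 1748) (nat_lit 2812336055) (nat_lit 1824) (nat_lit 16827504376) (nat_lit 386) (nat_lit 5) (nat_lit 409) (nat_lit 5) (nat_lit 410) (nat_lit 5) (nat_lit 471) (nat_lit 465) (nat_lit 204))) (XT.nd (nat_lit 78) (nat_lit 0) (nat_lit 0) (XT.lf (nat_lit 0) (nat_lit 4363139605) (nat_lit 1748) (nat_lit 15135798721) (nat_lit 1824) (nat_lit 4137526803) (nat_lit 387) (nat_lit 5) (nat_lit 410) (nat_lit 5) (nat_lit 411) (nat_lit 5) (nat_lit 472) (nat_lit 465) (nat_lit 203)) (XT.nd (nat_lit 78) (nat_lit 0) (nat_lit 76) (XT.lf (nat_lit 0) (nat_lit 5037704447) (nat_lit 1748) (nat_lit 3844884776) (nat_lit 1824) (nat_lit 14993978900) (nat_lit 387) (nat_lit 5) (nat_lit 410) (nat_lit 5) (nat_lit 411) (nat_lit 5) (nat_lit 473) (nat_lit 465) (nat_lit 202)) (XT.lf (nat_lit 0) (nat_lit 5786165161) (nat_lit 1748) (nat_lit 16361595471) (nat_lit 1824) (nat_lit 1972505978) (nat_lit 388) (nat_lit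 5) (nat_lit 411) (nat_lit 5) (nat_lit 412) (nat_lit 5) (nat_lit 474) (nat_lit 465) (nat_lit 201)))))) (XT.nd (nat_lit 390) (nat_lit 0) (nat_lit 152) (XT.nd (nat_lit 156) (nat_lit 0) (nat_lit 76) (XT.nd (nat_lit 78) (nat_lit 0) (nat_lit 0) (XT.lf (nat_lit 0) (nat_lit 6631414166) (nat_lit 1748) (nat_lit 4782828351) (nat_lit 1824) (nat_lit 12952961661) (nat_lit 388) (nat_lit 5) (nat_lit 411) (nat_lit 5) (nat_lit 412) (nat_lit 5) (nat_lit 475) (nat_lit 465) (nat_lit 200)) (XT.lf (nat_lit 76) (nat_lit 7118992800) (nat_lit 0) (nat_lit 417876882) (nat_lit 1824) (nat_lit 17081346251) (nat_lit 389) (nat_lit 5) (nat_lit 388) (nat_lit 5) (nat_lit 412) (nat_lit 5) (nat_lit 476) (nat_lit 465) (nat_lit 199))) (XT.nd (nat_lit 78) (nat_lit 0) (nat_lit 0) (XT.lf (nat_lit 0) (nat_lit 8559984497) (nat_lit 1748) (nat_lit 5622187347) (nat_lit 1824) (nat_lit 10690086508) (nat_lit 389) (nat_lit 5) (nat_lit 412) (nat_lit 5) (nat_lit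 413) (nat_lit 5) (nat_lit 477) (nat_lit 465) (nat_lit 198)) (XT.nd (nat_lit 78) (nat_lit 0) (nat_lit 76) (XT.lf (nat_lit 76) (nat_lit 6573937013) (nat_lit 0) (nat_lit 3072262452) (nat_lit 1824) (nat_lit 15484330806) (nat_lit 390) (nat_lit 5) (nat_lit 389) (nat_lit 5) (nat_lit 413) (nat_lit 5) (nat_lit 478) (nat_lit 465) (nat_lit 197)) (XT.lf (nat_lit 0) (nat_lit 10842981481) (nat_lit 1748) (nat_lit 6358850282) (nat_lit 1824) (nat_lit 8190360391) (nat_lit 390) (nat_lit 5) (nat_lit 413) (nat_lit 5) (nat_lit 414) (nat_lit 5) (nat_lit 479) (nat_lit 465) (nat_lit 196))))) (XT.nd (nat_lit 156) (nat_lit 0) (nat_lit 76) (XT.nd (nat_lit 78) (nat_lit 0) (nat_lit 76) (XT.lf (nat_lit 76) (nat_lit 6141128694) (nat_lit 0) (nat_lit 5980079678) (nat_lit 1824) (nat_lit 13536730069) (nat_lit 391) (nat_lit 5) (nat_lit 390) (nat_lit 5) (nat_lit 414) (nat_lit 5) (nat_lit 480) (nat_lit 465) (nat_lit 195)) (XT.lf (nat_lit 0) (nat_lit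 13500779814) (nat_lit 1748) (nat_lit 6988577107) (nat_lit 1824) (nat_lit 5438128459) (nat_lit 391) (nat_lit 5) (nat_lit 414) (nat_lit 5) (nat_lit 415) (nat_lit 5) (nat_lit 481) (nat_lit 465) (nat_lit 194))) (XT.nd (nat_lit 78) (nat_lit 0) (nat_lit 76) (XT.lf (nat_lit 76) (nat_lit 5825090759) (nat_lit 0) (nat_lit 9157664271) (nat_lit 1824) (nat_lit 11218173282) (nat_lit 392) (nat_lit 5) (nat_lit 391) (nat_lit 5) (nat_lit 415) (nat_lit 5) (nat_lit 482) (nat_lit 465) (nat_lit 193)) (XT.nd (nat_lit 78) (nat_lit 0) (nat_lit 0) (XT.lf (nat_lit 0) (nat_lit 16554595956) (nat_lit 1748) (nat_lit 7507003172) (nat_lit 1824) (nat_lit 2417037724) (nat_lit 392) (nat_lit 5) (nat_lit 415) (nat_lit 5) (nat_lit 416) (nat_lit 5) (nat_lit 483) (nat_lit 465) (nat_lit 192)) (XT.lf (nat_lit 76) (nat_lit 5630476682) (nat_lit 0) (nat_lit 12622082852) (nat_lit 1824) (nat_lit 8507447563) (nat_lit 393) (nat_lit 5) (nat_lit 392) (nat_lit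 5) (nat_lit 416) (nat_lit 5) (nat_lit 484) (nat_lit 465) (nat_lit 191))))))) (XT.nd (nat_lit 58422) (nat_lit 0) (nat_lit 228) (XT.nd (nat_lit 58032) (nat_lit 0) (nat_lit 0) (XT.nd (nat_lit 156) (nat_lit 608) (nat_lit 0) (XT.nd (nat_lit 78) (nat_lit 0) (nat_lit 76) (XT.lf (nat_lit 76) (nat_lit 19130549085) (nat_lit 0) (nat_lit 901828427) (nat_lit 1824) (nat_lit 7013670557) (nat_lit 393) (nat_lit 5) (nat_lit 392) (nat_lit 5) (nat_lit 416) (nat_lit 5) (nat_lit 485) (nat_lit 465) (nat_lit 190)) (XT.lf (nat_lit 76) (nat_lit 5562065946) (nat_lit 0) (nat_lit 16391172257) (nat_lit 1824) (nat_lit 5382463932) (nat_lit 394) (nat_lit 5) (nat_lit 393) (nat_lit 5) (nat_lit 417) (nat_lit 5) (nat_lit 486) (nat_lit 465) (nat_lit 189))) (XT.nd (nat_lit 57720) (nat_lit 684) (nat_lit 0) (XT.lf (nat_lit 76) (nat_lit 19408507506) (nat_lit 0) (nat_lit 4560665426) (nat_lit 1824) (nat_lit 3660844391) (nat_lit 394) (nat_lit 5) (nat_lit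 393) (nat_lit 5) (nat_lit 417) (nat_lit 5) (nat_lit 487) (nat_lit 465) (nat_lit 188)) (XT.nd (nat_lit 78) (nat_lit 0) (nat_lit 0) (XT.lf (nat_lit 0) (nat_lit 487304041) (nat_lit 0) (nat_lit 487304041) (nat_lit 1748) (nat_lit 10267913912) (nat_lit 384) (nat_lit 5) (nat_lit 384) (nat_lit 3) (nat_lit 407) (nat_lit 3) (nat_lit 466) (nat_lit 466) (nat_lit 208)) (XT.lf (nat_lit 0) (nat_lit 2159063244) (nat_lit 1748) (nat_lit 11033517310) (nat_lit 1824) (nat_lit 9513442657) (nat_lit 384) (nat_lit 5) (nat_lit 407) (nat_lit 3) (nat_lit 408) (nat_lit 5) (nat_lit 467) (nat_lit 466) (nat_lit 207))))) (XT.nd (nat_lit 156) (nat_lit 0) (nat_lit 76) (XT.nd (nat_lit 78) (nat_lit 0) (nat_lit 76) (XT.lf (nat_lit 0) (nat_lit 2376221139) (nat_lit 1748) (nat_lit 355269968) (nat_lit 1824) (nat_lit 20199870314) (nat_lit 384) (nat_lit 5) (nat_lit 407) (nat_lit 3) (nat_lit 408) (nat_lit 5) (nat_lit 468) (nat_lit 466) (nat_lit 206)) (XT.lf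 (nat_lit 0) (nat_lit 2715768417) (nat_lit 1748) (nat_lit 12537076851) (nat_lit 1824) (nat_lit 7906001850) (nat_lit 385) (nat_lit 5) (nat_lit 408) (nat_lit 5) (nat_lit 409) (nat_lit 5) (nat_lit 469) (nat_lit 466) (nat_lit 205))) (XT.nd (nat_lit 78) (nat_lit 0) (nat_lit 76) (XT.lf (nat_lit 0) (nat_lit 3079383776) (nat_lit 1748) (nat_lit 1587558300) (nat_lit 1824) (nat_lit 18723596528) (nat_lit 385) (nat_lit 5) (nat_lit 408) (nat_lit 5) (nat_lit 409) (nat_lit 5) (nat_lit 470) (nat_lit 466) (nat_lit 204)) (XT.nd (nat_lit 78) (nat_lit 0) (nat_lit 0) (XT.lf (nat_lit 0) (nat_lit 3550374306) (nat_lit 1748) (nat_lit 13959396185) (nat_lit 1824) (nat_lit 6115092956) (nat_lit 386) (nat_lit 5) (nat_lit 409) (nat_lit 5) (nat_lit 410) (nat_lit 5) (nat_lit 471) (nat_lit 466) (nat_lit 203)) (XT.lf (nat_lit 0) (nat_lit 4069325672) (nat_lit 1748) (nat_lit 2731377300) (nat_lit 1824) (nat_lit 17062402549) (nat_lit 386) (nat_lit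 5) (nat_lit 409) (nat_lit 5) (nat_lit 410) (nat_lit 5) (nat_lit 472) (nat_lit 466) (nat_lit 202)))))) (XT.nd (nat_lit 390) (nat_lit 0) (nat_lit 152) (XT.nd (nat_lit 156) (nat_lit 0) (nat_lit 76) (XT.nd (nat_lit 78) (nat_lit 0) (nat_lit 0) (XT.lf (nat_lit 0) (nat_lit 4680145853) (nat_lit 1748) (nat_lit 15296878762) (nat_lit 1824) (nat_lit 4127459548) (nat_lit 387) (nat_lit 5) (nat_lit 410) (nat_lit 5) (nat_lit 411) (nat_lit 5) (nat_lit 473) (nat_lit 466) (nat_lit 201)) (XT.lf (nat_lit 0) (nat_lit 5363697219) (nat_lit 1748) (nat_lit 3782923714) (nat_lit 1824) (nat_lit 15202860644) (nat_lit 387) (nat_lit 5) (nat_lit 410) (nat_lit 5) (nat_lit 411) (nat_lit 5) (nat_lit 474) (nat_lit 466) (nat_lit 200))) (XT.nd (nat_lit 78) (nat_lit 0) (nat_lit 0) (XT.lf (nat_lit 0) (nat_lit 6123062426) (nat_lit 1748) (nat_lit 16545792985) (nat_lit 1824) (nat_lit 1929282135) (nat_lit 388) (nat_lit 5) (nat_lit 411) (nat_lit 5) (nat_lit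 412) (nat_lit 5) (nat_lit 475) (nat_lit 466) (nat_lit 199)) (XT.nd (nat_lit 78) (nat_lit 0) (nat_lit 0) (XT.lf (nat_lit 0) (nat_lit 6980879667) (nat_lit 1748) (nat_lit 4738255118) (nat_lit 1824) (nat_lit 13130967990) (nat_lit 388) (nat_lit 5) (nat_lit 411) (nat_lit 5) (nat_lit 412) (nat_lit 5) (nat_lit 476) (nat_lit 466) (nat_lit 198)) (XT.lf (nat_lit 76) (nat_lit 7400679891) (nat_lit 0) (nat_lit 500417166) (nat_lit 1824) (nat_lit 17205106783) (nat_lit 389) (nat_lit 5) (nat_lit 388) (nat_lit 5) (nat_lit 412) (nat_lit 5) (nat_lit 477) (nat_lit 466) (nat_lit 197))))) (XT.nd (nat_lit 234) (nat_lit 0) (nat_lit 76) (XT.nd (nat_lit 78) (nat_lit 0) (nat_lit 0) (XT.lf (nat_lit 0) (nat_lit 8940015892) (nat_lit 1748) (nat_lit 5593292575) (nat_lit 1824) (nat_lit 10832113898) (nat_lit 389) (nat_lit 5) (nat_lit 412) (nat_lit 5) (nat_lit 413) (nat_lit 5) (nat_lit 478) (nat_lit 466) (nat_lit 196)) (XT.nd (nat_lit 78) (nat_lit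 0) (nat_lit 76) (XT.lf (nat_lit 76) (nat_lit 6845824414) (nat_lit 0) (nat_lit 3198947632) (nat_lit 1824) (nat_lit 15584153388) (nat_lit 390) (nat_lit 5) (nat_lit 389) (nat_lit 5) (nat_lit 413) (nat_lit 5) (nat_lit 479) (nat_lit 466) (nat_lit 195)) (XT.lf (nat_lit 0) (nat_lit 11261042101) (nat_lit 1748) (nat_lit 6343823675) (nat_lit 1824) (nat_lit 8291045739) (nat_lit 390) (nat_lit 5) (nat_lit 413) (nat_lit 5) (nat_lit 414) (nat_lit 5) (nat_lit 480) (nat_lit 466) (nat_lit 194)))) (XT.nd (nat_lit 78) (nat_lit 0) (nat_lit 76) (XT.lf (nat_lit 76) (nat_lit 6405219330) (nat_lit 0) (nat_lit 6156586289) (nat_lit 1824) (nat_lit 13605229637) (nat_lit 391) (nat_lit 5) (nat_lit 390) (nat_lit 5) (nat_lit 414) (nat_lit 5) (nat_lit 481) (nat_lit 466) (nat_lit 193)) (XT.nd (nat_lit 78) (nat_lit 0) (nat_lit 0) (XT.lf (nat_lit 0) (nat_lit 13964720523) (nat_lit 1748) (nat_lit 6985506021) (nat_lit 1824) (nat_lit 5491833481) (nat_lit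 391) (nat_lit 5) (nat_lit 414) (nat_lit 5) (nat_lit 415) (nat_lit 5) (nat_lit 482) (nat_lit 466) (nat_lit 192)) (XT.lf (nat_lit 76) (nat_lit 6083495448) (nat_lit 0) (nat_lit 9389958669) (nat_lit 1824) (nat_lit 11247577214) (nat_lit 392) (nat_lit 5) (nat_lit 391) (nat_lit 5) (nat_lit 415) (nat_lit 5) (nat_lit 483) (nat_lit 466) (nat_lit 191))))))))
noncomputable def xc253 : XT := (XT.nd (nat_lit 59358) (nat_lit 0) (nat_lit 0) (XT.nd (nat_lit 58500) (nat_lit 0) (nat_lit 152) (XT.nd (nat_lit 58110) (nat_lit 0) (nat_lit 0) (XT.nd (nat_lit 156) (nat_lit 608) (nat_lit 0) (XT.nd (nat_lit 78) (nat_lit 0) (nat_lit 0) (XT.lf (nat_lit 0) (nat_lit 17072673101) (nat_lit 1748) (nat_lit 7513871199) (nat_lit 1824) (nat_lit 2417832774) (nat_lit 392) (nat_lit 5) (nat_lit 415) (nat_lit 5) (nat_lit 416) (nat_lit 5) (nat_lit 484) (nat_lit 466) (nat_lit 190)) (XT.lf (nat_lit 76) (nat_lit 5885415673) (nat_lit 0) (nat_lit 12916437997)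 (nat_lit 1824) (nat_lit 8489577719) (nat_lit 393) (nat_lit 5) (nat_lit 392) (nat_lit 5) (nat_lit 416) (nat_lit 5) (nat_lit 485) (nat_lit 466) (nat_lit 189))) (XT.nd (nat_lit 78) (nat_lit 608) (nat_lit 0) (XT.lf (nat_lit 76) (nat_lit 19652698750) (nat_lit 0) (nat_lit 960956650) (nat_lit 1824) (nat_lit 6969611816) (nat_lit 393) (nat_lit 5) (nat_lit 392) (nat_lit 5) (nat_lit 416) (nat_lit 5) (nat_lit 486) (nat_lit 466) (nat_lit 188)) (XT.nd (nat_lit 57798) (nat_lit 684) (nat_lit 0) (XT.lf (nat_lit 76) (nat_lit 5815870430) (nat_lit 0) (nat_lit 16754185156) (nat_lit 1824) (nat_lit 5308718081) (nat_lit 394) (nat_lit 5) (nat_lit 393) (nat_lit 5) (nat_lit 417) (nat_lit 5) (nat_lit 487) (nat_lit 466) (nat_lit 187)) (XT.lf (nat_lit 0) (nat_lit 560518588) (nat_lit 0) (nat_lit 560518588) (nat_lit 1748) (nat_lit 10343732815) (nat_lit 384) (nat_lit 5) (nat_lit 384) (nat_lit 3) (nat_lit 407) (nat_lit 3) (nat_lit 467) (nat_lit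 467) (nat_lit 206))))) (XT.nd (nat_lit 156) (nat_lit 0) (nat_lit 76) (XT.nd (nat_lit 78) (nat_lit 0) (nat_lit 0) (XT.lf (nat_lit 0) (nat_lit 2450332455) (nat_lit 1748) (nat_lit 11123828855) (nat_lit 1824) (nat_lit 9580895696) (nat_lit 384) (nat_lit 5) (nat_lit 407) (nat_lit 3) (nat_lit 408) (nat_lit 5) (nat_lit 468) (nat_lit 467) (nat_lit 205)) (XT.lf (nat_lit 0) (nat_lit 2666969038) (nat_lit 1748) (nat_lit 234572620) (nat_lit 1824) (nat_lit 20483460059) (nat_lit 384) (nat_lit 5) (nat_lit 407) (nat_lit 3) (nat_lit 408) (nat_lit 5) (nat_lit 469) (nat_lit 467) (nat_lit 204))) (XT.nd (nat_lit 78) (nat_lit 0) (nat_lit 0) (XT.lf (nat_lit 0) (nat_lit 3008633260) (nat_lit 1748) (nat_lit 12655221579) (nat_lit 1824) (nat_lit 7953278171) (nat_lit 385) (nat_lit 5) (nat_lit 408) (nat_lit 5) (nat_lit 409) (nat_lit 5) (nat_lit 470) (nat_lit 467) (nat_lit 203)) (XT.nd (nat_lit 78) (nat_lit 0) (nat_lit 76) (XT.lf (nat_lit 0)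 (nat_lit 3374843486) (nat_lit 1748) (nat_lit 1489312594) (nat_lit 1824) (nat_lit 18989398149) (nat_lit 385) (nat_lit 5) (nat_lit 408) (nat_lit 5) (nat_lit 409) (nat_lit 5) (nat_lit 471) (nat_lit 467) (nat_lit 202)) (XT.lf (nat_lit 0) (nat_lit 3850850924) (nat_lit 1748) (nat_lit 14104068936) (nat_lit 1824) (nat_lit 6137736075) (nat_lit 386) (nat_lit 5) (nat_lit 409) (nat_lit 5) (nat_lit 410) (nat_lit 5) (nat_lit 472) (nat_lit 467) (nat_lit 201)))))) (XT.nd (nat_lit 390) (nat_lit 0) (nat_lit 152) (XT.nd (nat_lit 156) (nat_lit 0) (nat_lit 76) (XT.nd (nat_lit 78) (nat_lit 0) (nat_lit 76) (XT.lf (nat_lit 0) (nat_lit 4375681922) (nat_lit 1748) (nat_lit 2654127225) (nat_lit 1824) (nat_lit 17305945953) (nat_lit 386) (nat_lit 5) (nat_lit 409) (nat_lit 5) (nat_lit 410) (nat_lit 5) (nat_lit 473) (nat_lit 467) (nat_lit 200)) (XT.lf (nat_lit 0) (nat_lit 4994571008) (nat_lit 1748) (nat_lit 15466680300) (nat_lit 1824) (nat_lit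 4120795176) (nat_lit 387) (nat_lit 5) (nat_lit 410) (nat_lit 5) (nat_lit 411) (nat_lit 5) (nat_lit 474) (nat_lit 467) (nat_lit 199))) (XT.nd (nat_lit 78) (nat_lit 0) (nat_lit 76) (XT.lf (nat_lit 0) (nat_lit 5687463553) (nat_lit 1748) (nat_lit 3725115485) (nat_lit 1824) (nat_lit 15419453579) (nat_lit 387) (nat_lit 5) (nat_lit 410) (nat_lit 5) (nat_lit 411) (nat_lit 5) (nat_lit 475) (nat_lit 467) (nat_lit 198)) (XT.nd (nat_lit 78) (nat_lit 0) (nat_lit 0) (XT.lf (nat_lit 0) (nat_lit 6458109182) (nat_lit 1748) (nat_lit 16739228648) (nat_lit 1824) (nat_lit 1888404145) (nat_lit 388) (nat_lit 5) (nat_lit 411) (nat_lit 5) (nat_lit 412) (nat_lit 5) (nat_lit 476) (nat_lit 467) (nat_lit 197)) (XT.lf (nat_lit 0) (nat_lit 7328914425) (nat_lit 1748) (nat_lit 4698235714) (nat_lit 1824) (nat_lit 13315681828) (nat_lit 388) (nat_lit 5) (nat_lit 411) (nat_lit 5) (nat_lit 412) (nat_lit 5) (nat_lit 477) (nat_lit 467) (nat_lit 196)))))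 (XT.nd (nat_lit 234) (nat_lit 0) (nat_lit 152) (XT.nd (nat_lit 78) (nat_lit 0) (nat_lit 76) (XT.lf (nat_lit 76) (nat_lit 7682591255) (nat_lit 0) (nat_lit 581727650) (nat_lit 1824) (nat_lit 17339802543) (nat_lit 389) (nat_lit 5) (nat_lit 388) (nat_lit 5) (nat_lit 412) (nat_lit 5) (nat_lit 478) (nat_lit 467) (nat_lit 195)) (XT.nd (nat_lit 78) (nat_lit 0) (nat_lit 0) (XT.lf (nat_lit 0) (nat_lit 9319538725) (nat_lit 1748) (nat_lit 5569308254) (nat_lit 1824) (nat_lit 10979768921) (nat_lit 389) (nat_lit 5) (nat_lit 412) (nat_lit 5) (nat_lit 413) (nat_lit 5) (nat_lit 479) (nat_lit 467) (nat_lit 194)) (XT.lf (nat_lit 76) (nat_lit 7117697324) (nat_lit 0) (nat_lit 3325633170) (nat_lit 1824) (nat_lit 15694121698) (nat_lit 390) (nat_lit 5) (nat_lit 389) (nat_lit 5) (nat_lit 413) (nat_lit 5) (nat_lit 480) (nat_lit 467) (nat_lit 193)))) (XT.nd (nat_lit 78) (nat_lit 0) (nat_lit 0) (XT.lf (nat_lit 0) (nat_lit 11679651054) (nat_lit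 1748) (nat_lit 6334018476) (nat_lit 1824) (nat_lit 8396195892) (nat_lit 390) (nat_lit 5) (nat_lit 413) (nat_lit 5) (nat_lit 414) (nat_lit 5) (nat_lit 481) (nat_lit 467) (nat_lit 192)) (XT.nd (nat_lit 78) (nat_lit 0) (nat_lit 76) (XT.lf (nat_lit 76) (nat_lit 6669106168) (nat_lit 0) (nat_lit 6334413341) (nat_lit 1824) (nat_lit 13682952230) (nat_lit 391) (nat_lit 5) (nat_lit 390) (nat_lit 5) (nat_lit 414) (nat_lit 5) (nat_lit 482) (nat_lit 467) (nat_lit 191)) (XT.lf (nat_lit 0) (nat_lit 14430409697) (nat_lit 1748) (nat_lit 6987920267) (nat_lit 1824) (nat_lit 5548750556) (nat_lit 391) (nat_lit 5) (nat_lit 414) (nat_lit 5) (nat_lit 415) (nat_lit 5) (nat_lit 483) (nat_lit 467) (nat_lit 190))))))) (XT.nd (nat_lit 58656) (nat_lit 0) (nat_lit 228) (XT.nd (nat_lit 58266) (nat_lit 0) (nat_lit 0) (XT.nd (nat_lit 156) (nat_lit 532) (nat_lit 0) (XT.nd (nat_lit 78) (nat_lit 0) (nat_lit 76) (XT.lf (nat_lit 76) (nat_lit 6341557969)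 (nat_lit 0) (nat_lit 9624990746) (nat_lit 1824) (nat_lit 11285139741) (nat_lit 392) (nat_lit 5) (nat_lit 391) (nat_lit 5) (nat_lit 415) (nat_lit 5) (nat_lit 484) (nat_lit 467) (nat_lit 189)) (XT.lf (nat_lit 0) (nat_lit 17593850924) (nat_lit 1748) (nat_lit 7526440014) (nat_lit 1824) (nat_lit 2420489983) (nat_lit 392) (nat_lit 5) (nat_lit 415) (nat_lit 5) (nat_lit 416) (nat_lit 5) (nat_lit 485) (nat_lit 467) (nat_lit 188))) (XT.nd (nat_lit 57954) (nat_lit 608) (nat_lit 0) (XT.lf (nat_lit 76) (nat_lit 6139926617) (nat_lit 0) (nat_lit 13215052693) (nat_lit 1824) (nat_lit 8478651477) (nat_lit 393) (nat_lit 5) (nat_lit 392) (nat_lit 5) (nat_lit 416) (nat_lit 5) (nat_lit 486) (nat_lit 467) (nat_lit 187)) (XT.nd (nat_lit 78) (nat_lit 0) (nat_lit 0) (XT.lf (nat_lit 0) (nat_lit 632732868) (nat_lit 0) (nat_lit 632732868) (nat_lit 1748) (nat_lit 10426098268) (nat_lit 384) (nat_lit 5) (nat_lit 384) (nat_lit 3) (nat_lit 407)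 (nat_lit 3) (nat_lit 468) (nat_lit 468) (nat_lit 204)) (XT.lf (nat_lit 0) (nat_lit 2737793492) (nat_lit 1748) (nat_lit 11221008622) (nat_lit 1824) (nat_lit 9654466883) (nat_lit 384) (nat_lit 5) (nat_lit 407) (nat_lit 3) (nat_lit 408) (nat_lit 5) (nat_lit 469) (nat_lit 468) (nat_lit 203))))) (XT.nd (nat_lit 156) (nat_lit 0) (nat_lit 76) (XT.nd (nat_lit 78) (nat_lit 0) (nat_lit 76) (XT.lf (nat_lit 0) (nat_lit 2954087232) (nat_lit 1748) (nat_lit 116424063) (nat_lit 1824) (nat_lit 20777397174) (nat_lit 384) (nat_lit 5) (nat_lit 407) (nat_lit 3) (nat_lit 408) (nat_lit 5) (nat_lit 470) (nat_lit 468) (nat_lit 202)) (XT.lf (nat_lit 0) (nat_lit 3298092233) (nat_lit 1748) (nat_lit 12780878097) (nat_lit 1824) (nat_lit 8005804215) (nat_lit 385) (nat_lit 5) (nat_lit 408) (nat_lit 5) (nat_lit 409) (nat_lit 5) (nat_lit 471) (nat_lit 468) (nat_lit 201))) (XT.nd (nat_lit 78) (nat_lit 0) (nat_lit 76) (XT.lf (nat_lit 0) (nat_lit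 3667130854) (nat_lit 1748) (nat_lit 1394149912) (nat_lit 1824) (nat_lit 19264735603) (nat_lit 385) (nat_lit 5) (nat_lit 408) (nat_lit 5) (nat_lit 409) (nat_lit 5) (nat_lit 472) (nat_lit 468) (nat_lit 200)) (XT.nd (nat_lit 78) (nat_lit 0) (nat_lit 0) (XT.lf (nat_lit 0) (nat_lit 4148426508) (nat_lit 1748) (nat_lit 14256858530) (nat_lit 1824) (nat_lit 6164701927) (nat_lit 386) (nat_lit 5) (nat_lit 409) (nat_lit 5) (nat_lit 410) (nat_lit 5) (nat_lit 473) (nat_lit 468) (nat_lit 199)) (XT.lf (nat_lit 0) (nat_lit 4679429448) (nat_lit 1748) (nat_lit 2580453118) (nat_lit 1824) (nat_lit 17558154216) (nat_lit 386) (nat_lit 5) (nat_lit 409) (nat_lit 5) (nat_lit 410) (nat_lit 5) (nat_lit 474) (nat_lit 468) (nat_lit 198)))))) (XT.nd (nat_lit 390) (nat_lit 0) (nat_lit 152) (XT.nd (nat_lit 156) (nat_lit 0) (nat_lit 76) (XT.nd (nat_lit 78) (nat_lit 0) (nat_lit 0) (XT.lf (nat_lit 0) (nat_lit 5306709869) (nat_lit 1748) (nat_lit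 15645164197) (nat_lit 1824) (nat_lit 4117461788) (nat_lit 387) (nat_lit 5) (nat_lit 410) (nat_lit 5) (nat_lit 411) (nat_lit 5) (nat_lit 475) (nat_lit 468) (nat_lit 197)) (XT.lf (nat_lit 0) (nat_lit 6009298551) (nat_lit 1748) (nat_lit 3671333767) (nat_lit 1824) (nat_lit 15643774718) (nat_lit 387) (nat_lit 5) (nat_lit 410) (nat_lit 5) (nat_lit 411) (nat_lit 5) (nat_lit 476) (nat_lit 468) (nat_lit 196))) (XT.nd (nat_lit 78) (nat_lit 0) (nat_lit 0) (XT.lf (nat_lit 0) (nat_lit 6791601919) (nat_lit 1748) (nat_lit 16941871548) (nat_lit 1824) (nat_lit 1849794266) (nat_lit 388) (nat_lit 5) (nat_lit 411) (nat_lit 5) (nat_lit 412) (nat_lit 5) (nat_lit 477) (nat_lit 468) (nat_lit 195)) (XT.nd (nat_lit 78) (nat_lit 0) (nat_lit 0) (XT.lf (nat_lit 0) (nat_lit 7675816785) (nat_lit 1748) (nat_lit 4662649769) (nat_lit 1824) (nat_lit 13507115109) (nat_lit 388) (nat_lit 5) (nat_lit 411) (nat_lit 5) (nat_lit 412) (nat_lit 5) (nat_lit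 478) (nat_lit 468) (nat_lit 194)) (XT.lf (nat_lit 76) (nat_lit 7964941433) (nat_lit 0) (nat_lit 661895594) (nat_lit 1824) (nat_lit 17485323724) (nat_lit 389) (nat_lit 5) (nat_lit 388) (nat_lit 5) (nat_lit 412) (nat_lit 5) (nat_lit 479) (nat_lit 468) (nat_lit 193))))) (XT.nd (nat_lit 234) (nat_lit 0) (nat_lit 76) (XT.nd (nat_lit 78) (nat_lit 0) (nat_lit 0) (XT.lf (nat_lit 0) (nat_lit 9698857715) (nat_lit 1748) (nat_lit 5550119475) (nat_lit 1824) (nat_lit 11133055904) (nat_lit 389) (nat_lit 5) (nat_lit 412) (nat_lit 5) (nat_lit 413) (nat_lit 5) (nat_lit 480) (nat_lit 468) (nat_lit 192)) (XT.nd (nat_lit 78) (nat_lit 0) (nat_lit 76) (XT.lf (nat_lit 76) (nat_lit 7389767169) (nat_lit 0) (nat_lit 3452417445) (nat_lit 1824) (nat_lit 15814122203) (nat_lit 390) (nat_lit 5) (nat_lit 389) (nat_lit 5) (nat_lit 413) (nat_lit 5) (nat_lit 481) (nat_lit 468) (nat_lit 191)) (XT.lf (nat_lit 0) (nat_lit 12099122691) (nat_lit 1748)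 (nat_lit 6329324689) (nat_lit 1824) (nat_lit 8505804968) (nat_lit 390) (nat_lit 5) (nat_lit 413) (nat_lit 5) (nat_lit 414) (nat_lit 5) (nat_lit 482) (nat_lit 468) (nat_lit 190)))) (XT.nd (nat_lit 78) (nat_lit 0) (nat_lit 76) (XT.lf (nat_lit 76) (nat_lit 6932998144) (nat_lit 0) (nat_lit 6513673048) (nat_lit 1824) (nat_lit 13769777365) (nat_lit 391) (nat_lit 5) (nat_lit 390) (nat_lit 5) (nat_lit 414) (nat_lit 5) (nat_lit 483) (nat_lit 468) (nat_lit 189)) (XT.nd (nat_lit 78) (nat_lit 0) (nat_lit 0) (XT.lf (nat_lit 0) (nat_lit 14898174718) (nat_lit 1748) (nat_lit 6995714164) (nat_lit 1824) (nat_lit 5608860904) (nat_lit 391) (nat_lit 5) (nat_lit 414) (nat_lit 5) (nat_lit 415) (nat_lit 5) (nat_lit 484) (nat_lit 468) (nat_lit 188)) (XT.lf (nat_lit 76) (nat_lit 6599485449) (nat_lit 0) (nat_lit 9862889353) (nat_lit 1824) (nat_lit 11330730063) (nat_lit 392) (nat_lit 5) (nat_lit 391) (nat_lit 5) (nat_lit 415) (nat_lit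 5) (nat_lit 485) (nat_lit 468) (nat_lit 187))))))))
noncomputable def xc254 : XT := (XT.nd (nat_lit 59748) (nat_lit 0) (nat_lit 0) (XT.nd (nat_lit 780) (nat_lit 0) (nat_lit 0) (XT.nd (nat_lit 390) (nat_lit 0) (nat_lit 152) (XT.nd (nat_lit 156) (nat_lit 0) (nat_lit 0) (XT.nd (nat_lit 78) (nat_lit 0) (nat_lit 0) (XT.lf (nat_lit 0) (nat_lit 704022577) (nat_lit 0) (nat_lit 704022577) (nat_lit 1748) (nat_lit 10514945874) (nat_lit 384) (nat_lit 5) (nat_lit 384) (nat_lit 3) (nat_lit 407) (nat_lit 3) (nat_lit 469) (nat_lit 469) (nat_lit 202)) (XT.lf (nat_lit 0) (nat_lit 3021744276) (nat_lit 1748) (nat_lit 11324997412) (nat_lit 1824) (nat_lit 9734093392) (nat_lit 384) (nat_lit 5) (nat_lit 407) (nat_lit 3) (nat_lit 408) (nat_lit 5) (nat_lit 470) (nat_lit 469) (nat_lit 201))) (XT.nd (nat_lit 78) (nat_lit 0) (nat_lit 76) (XT.lf (nat_lit 0) (nat_lit 3237869872) (nat_lit 1748) (nat_lit 682561) (nat_lit 1824) (nat_lit 21081707051)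 (nat_lit 384) (nat_lit 5) (nat_lit 407) (nat_lit 3) (nat_lit 408) (nat_lit 5) (nat_lit 471) (nat_lit 469) (nat_lit 200)) (XT.nd (nat_lit 78) (nat_lit 0) (nat_lit 0) (XT.lf (nat_lit 0) (nat_lit 3584436919) (nat_lit 1748) (nat_lit 12913996704) (nat_lit 1824) (nat_lit 8063517839) (nat_lit 385) (nat_lit 5) (nat_lit 408) (nat_lit 5) (nat_lit 409) (nat_lit 5) (nat_lit 472) (nat_lit 469) (nat_lit 199)) (XT.lf (nat_lit 0) (nat_lit 3956535080) (nat_lit 1748) (nat_lit 1301935895) (nat_lit 1824) (nat_lit 19549635746) (nat_lit 385) (nat_lit 5) (nat_lit 408) (nat_lit 5) (nat_lit 409) (nat_lit 5) (nat_lit 473) (nat_lit 469) (nat_lit 198))))) (XT.nd (nat_lit 156) (nat_lit 0) (nat_lit 76) (XT.nd (nat_lit 78) (nat_lit 0) (nat_lit 0) (XT.lf (nat_lit 0) (nat_lit 4443389045) (nat_lit 1748) (nat_lit 14417724473) (nat_lit 1824) (nat_lit 6195926695) (nat_lit 386) (nat_lit 5) (nat_lit 409) (nat_lit 5) (nat_lit 410) (nat_lit 5) (nat_lit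 474) (nat_lit 469) (nat_lit 197)) (XT.lf (nat_lit 0) (nat_lit 4980855299) (nat_lit 1748) (nat_lit 2510227644) (nat_lit 1824) (nat_lit 17819053309) (nat_lit 386) (nat_lit 5) (nat_lit 409) (nat_lit 5) (nat_lit 410) (nat_lit 5) (nat_lit 475) (nat_lit 469) (nat_lit 196))) (XT.nd (nat_lit 78) (nat_lit 0) (nat_lit 0) (XT.lf (nat_lit 0) (nat_lit 5616849681) (nat_lit 1748) (nat_lit 15832298826) (nat_lit 1824) (nat_lit 4117391481) (nat_lit 387) (nat_lit 5) (nat_lit 410) (nat_lit 5) (nat_lit 411) (nat_lit 5) (nat_lit 476) (nat_lit 469) (nat_lit 195)) (XT.nd (nat_lit 78) (nat_lit 0) (nat_lit 76) (XT.lf (nat_lit 0) (nat_lit 6329490026) (nat_lit 1748) (nat_lit 3621457839) (nat_lit 1824) (nat_lit 15875846739) (nat_lit 387) (nat_lit 5) (nat_lit 410) (nat_lit 5) (nat_lit 411) (nat_lit 5) (nat_lit 477) (nat_lit 469) (nat_lit 194)) (XT.lf (nat_lit 0) (nat_lit 7123830106) (nat_lit 1748) (nat_lit 17153698529) (nat_lit 1824) (nat_lit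 1813378038) (nat_lit 388) (nat_lit 5) (nat_lit 411) (nat_lit 5) (nat_lit 412) (nat_lit 5) (nat_lit 478) (nat_lit 469) (nat_lit 193)))))) (XT.nd (nat_lit 390) (nat_lit 304) (nat_lit 0) (XT.nd (nat_lit 156) (nat_lit 0) (nat_lit 76) (XT.nd (nat_lit 78) (nat_lit 0) (nat_lit 0) (XT.lf (nat_lit 0) (nat_lit 8021878365) (nat_lit 1748) (nat_lit 4631382715) (nat_lit 1824) (nat_lit 13705284752) (nat_lit 388) (nat_lit 5) (nat_lit 411) (nat_lit 5) (nat_lit 412) (nat_lit 5) (nat_lit 479) (nat_lit 469) (nat_lit 192)) (XT.lf (nat_lit 76) (nat_lit 8247941100) (nat_lit 0) (nat_lit 741005662) (nat_lit 1824) (nat_lit 17641571076) (nat_lit 389) (nat_lit 5) (nat_lit 388) (nat_lit 5) (nat_lit 412) (nat_lit 5) (nat_lit 480) (nat_lit 469) (nat_lit 191))) (XT.nd (nat_lit 78) (nat_lit 0) (nat_lit 0) (XT.lf (nat_lit 0) (nat_lit 10078271447) (nat_lit 1748) (nat_lit 5535617304) (nat_lit 1824) (nat_lit 11291983463) (nat_lit 389) (nat_lit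 5) (nat_lit 412) (nat_lit 5) (nat_lit 413) (nat_lit 5) (nat_lit 481) (nat_lit 469) (nat_lit 190)) (XT.nd (nat_lit 78) (nat_lit 0) (nat_lit 76) (XT.lf (nat_lit 76) (nat_lit 7662241385) (nat_lit 0) (nat_lit 3579396986) (nat_lit 1824) (nat_lit 15944051391) (nat_lit 390) (nat_lit 5) (nat_lit 389) (nat_lit 5) (nat_lit 413) (nat_lit 5) (nat_lit 482) (nat_lit 469) (nat_lit 189)) (XT.lf (nat_lit 0) (nat_lit 12519765867) (nat_lit 1748) (nat_lit 6329638445) (nat_lit 1824) (nat_lit 8619870662) (nat_lit 390) (nat_lit 5) (nat_lit 413) (nat_lit 5) (nat_lit 414) (nat_lit 5) (nat_lit 483) (nat_lit 469) (nat_lit 188))))) (XT.nd (nat_lit 58344) (nat_lit 0) (nat_lit 0) (XT.nd (nat_lit 78) (nat_lit 456) (nat_lit 0) (XT.lf (nat_lit 76) (nat_lit 7197100103) (nat_lit 0) (nat_lit 6694476536) (nat_lit 1824) (nat_lit 13865593990) (nat_lit 391) (nat_lit 5) (nat_lit 390) (nat_lit 5) (nat_lit 414) (nat_lit 5) (nat_lit 484) (nat_lit 469)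 (nat_lit 187)) (XT.nd (nat_lit 58188) (nat_lit 532) (nat_lit 0) (XT.lf (nat_lit 0) (nat_lit 15368338163) (nat_lit 1748) (nat_lit 7008788282) (nat_lit 1824) (nat_lit 5672148596) (nat_lit 391) (nat_lit 5) (nat_lit 414) (nat_lit 5) (nat_lit 415) (nat_lit 5) (nat_lit 485) (nat_lit 469) (nat_lit 186)) (XT.lf (nat_lit 0) (nat_lit 774461210) (nat_lit 0) (nat_lit 774461210) (nat_lit 1748) (nat_lit 10610217533) (nat_lit 384) (nat_lit 5) (nat_lit 384) (nat_lit 3) (nat_lit 407) (nat_lit 3) (nat_lit 470) (nat_lit 470) (nat_lit 200)))) (XT.nd (nat_lit 78) (nat_lit 0) (nat_lit 0) (XT.lf (nat_lit 0) (nat_lit 3302474158) (nat_lit 1748) (nat_lit 11435742475) (nat_lit 1824) (nat_lit 9819718331) (nat_lit 384) (nat_lit 5) (nat_lit 407) (nat_lit 3) (nat_lit 408) (nat_lit 5) (nat_lit 471) (nat_lit 470) (nat_lit 199)) (XT.nd (nat_lit 78) (nat_lit 0) (nat_lit 76) (XT.lf (nat_lit 76) (nat_lit 114287874) (nat_lit 0) (nat_lit 3405056914)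 (nat_lit 1824) (nat_lit 21282876792) (nat_lit 385) (nat_lit 5) (nat_lit 384) (nat_lit 5) (nat_lit 408) (nat_lit 5) (nat_lit 472) (nat_lit 470) (nat_lit 198)) (XT.lf (nat_lit 0) (nat_lit 3867950764) (nat_lit 1748) (nat_lit 13054534466) (nat_lit 1824) (nat_lit 8126362148) (nat_lit 385) (nat_lit 5) (nat_lit 408) (nat_lit 5) (nat_lit 409) (nat_lit 5) (nat_lit 473) (nat_lit 470) (nat_lit 197))))))) (XT.nd (nat_lit 780) (nat_lit 76) (nat_lit 0) (XT.nd (nat_lit 390) (nat_lit 0) (nat_lit 228) (XT.nd (nat_lit 156) (nat_lit 0) (nat_lit 76) (XT.nd (nat_lit 78) (nat_lit 0) (nat_lit 76) (XT.lf (nat_lit 0) (nat_lit 4243337454) (nat_lit 1748) (nat_lit 1212541111) (nat_lit 1824) (nat_lit 19844132336) (nat_lit 385) (nat_lit 5) (nat_lit 408) (nat_lit 5) (nat_lit 409) (nat_lit 5) (nat_lit 474) (nat_lit 470) (nat_lit 196)) (XT.lf (nat_lit 0) (nat_lit 4736018848) (nat_lit 1748) (nat_lit 14586633338) (nat_lit 1824) (nat_lit 6231351120)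 (nat_lit 386) (nat_lit 5) (nat_lit 409) (nat_lit 5) (nat_lit 410) (nat_lit 5) (nat_lit 475) (nat_lit 470) (nat_lit 195))) (XT.nd (nat_lit 78) (nat_lit 0) (nat_lit 76) (XT.lf (nat_lit 0) (nat_lit 5280239093) (nat_lit 1748) (nat_lit 2443328644) (nat_lit 1824) (nat_lit 18088675445) (nat_lit 386) (nat_lit 5) (nat_lit 409) (nat_lit 5) (nat_lit 410) (nat_lit 5) (nat_lit 476) (nat_lit 470) (nat_lit 194)) (XT.nd (nat_lit 78) (nat_lit 0) (nat_lit 0) (XT.lf (nat_lit 0) (nat_lit 5925270502) (nat_lit 1748) (nat_lit 16028059897) (nat_lit 1824) (nat_lit 4120520220) (nat_lit 387) (nat_lit 5) (nat_lit 410) (nat_lit 5) (nat_lit 411) (nat_lit 5) (nat_lit 477) (nat_lit 470) (nat_lit 193)) (XT.lf (nat_lit 0) (nat_lit 6648318873) (nat_lit 1748) (nat_lit 3575372383) (nat_lit 1824) (nat_lit 16115697899) (nat_lit 387) (nat_lit 5) (nat_lit 410) (nat_lit 5) (nat_lit 411) (nat_lit 5) (nat_lit 478) (nat_lit 470) (nat_lit 192))))) (XT.nd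 (nat_lit 156) (nat_lit 0) (nat_lit 0) (XT.nd (nat_lit 78) (nat_lit 0) (nat_lit 0) (XT.lf (nat_lit 0) (nat_lit 7455076555) (nat_lit 1748) (nat_lit 17374694019) (nat_lit 1824) (nat_lit 1779084168) (nat_lit 388) (nat_lit 5) (nat_lit 411) (nat_lit 5) (nat_lit 412) (nat_lit 5) (nat_lit 479) (nat_lit 470) (nat_lit 191)) (XT.lf (nat_lit 0) (nat_lit 8367384409) (nat_lit 1748) (nat_lit 4604325585) (nat_lit 1824) (nat_lit 13910212573) (nat_lit 388) (nat_lit 5) (nat_lit 411) (nat_lit 5) (nat_lit 412) (nat_lit 5) (nat_lit 480) (nat_lit 470) (nat_lit 190))) (XT.nd (nat_lit 78) (nat_lit 0) (nat_lit 76) (XT.lf (nat_lit 76) (nat_lit 8531797307) (nat_lit 0) (nat_lit 819140035) (nat_lit 1824) (nat_lit 17808455629) (nat_lit 389) (nat_lit 5) (nat_lit 388) (nat_lit 5) (nat_lit 412) (nat_lit 5) (nat_lit 481) (nat_lit 470) (nat_lit 189)) (XT.nd (nat_lit 78) (nat_lit 0) (nat_lit 0) (XT.lf (nat_lit 0) (nat_lit 10458072725) (nat_lit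 1748) (nat_lit 5525698584) (nat_lit 1824) (nat_lit 11456564424) (nat_lit 389) (nat_lit 5) (nat_lit 412) (nat_lit 5) (nat_lit 413) (nat_lit 5) (nat_lit 482) (nat_lit 470) (nat_lit 188)) (XT.lf (nat_lit 76) (nat_lit 7935323653) (nat_lit 0) (nat_lit 3706666578) (nat_lit 1824) (nat_lit 16083815486) (nat_lit 390) (nat_lit 5) (nat_lit 389) (nat_lit 5) (nat_lit 413) (nat_lit 5) (nat_lit 483) (nat_lit 470) (nat_lit 187)))))) (XT.nd (nat_lit 58656) (nat_lit 0) (nat_lit 76) (XT.nd (nat_lit 58422) (nat_lit 0) (nat_lit 0) (XT.nd (nat_lit 58344) (nat_lit 456) (nat_lit 0) (XT.lf (nat_lit 0) (nat_lit 12941884292) (nat_lit 1748) (nat_lit 6334861801) (nat_lit 1824) (nat_lit 8738394175) (nat_lit 390) (nat_lit 5) (nat_lit 413) (nat_lit 5) (nat_lit 414) (nat_lit 5) (nat_lit 484) (nat_lit 470) (nat_lit 186)) (XT.lf (nat_lit 0) (nat_lit 844120159) (nat_lit 0) (nat_lit 844120159) (nat_lit 1748) (nat_lit 10711861275) (nat_lit 384)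 (nat_lit 5) (nat_lit 384) (nat_lit 3) (nat_lit 407) (nat_lit 3) (nat_lit 471) (nat_lit 471) (nat_lit 198))) (XT.nd (nat_lit 78) (nat_lit 0) (nat_lit 0) (XT.lf (nat_lit 0) (nat_lit 3580264314) (nat_lit 1748) (nat_lit 11553197343) (nat_lit 1824) (nat_lit 9911290582) (nat_lit 384) (nat_lit 5) (nat_lit 407) (nat_lit 3) (nat_lit 408) (nat_lit 5) (nat_lit 472) (nat_lit 471) (nat_lit 197)) (XT.nd (nat_lit 78) (nat_lit 0) (nat_lit 76) (XT.lf (nat_lit 76) (nat_lit 227101640) (nat_lit 0) (nat_lit 3570936561) (nat_lit 1824) (nat_lit 21495957161) (nat_lit 385) (nat_lit 5) (nat_lit 384) (nat_lit 5) (nat_lit 408) (nat_lit 5) (nat_lit 473) (nat_lit 471) (nat_lit 196)) (XT.lf (nat_lit 0) (nat_lit 4148909459) (nat_lit 1748) (nat_lit 13202455056) (nat_lit 1824) (nat_lit 8194285347) (nat_lit 385) (nat_lit 5) (nat_lit 408) (nat_lit 5) (nat_lit 409) (nat_lit 5) (nat_lit 474) (nat_lit 471) (nat_lit 195))))) (XT.nd (nat_lit 234) (nat_lit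 0) (nat_lit 152) (XT.nd (nat_lit 78) (nat_lit 0) (nat_lit 76) (XT.lf (nat_lit 0) (nat_lit 4527811733) (nat_lit 1748) (nat_lit 1125840855) (nat_lit 1824) (nat_lit 20148265919) (nat_lit 385) (nat_lit 5) (nat_lit 408) (nat_lit 5) (nat_lit 409) (nat_lit 5) (nat_lit 475) (nat_lit 471) (nat_lit 194)) (XT.nd (nat_lit 78) (nat_lit 0) (nat_lit 0) (XT.lf (nat_lit 0) (nat_lit 5026588919) (nat_lit 1748) (nat_lit 14763558600) (nat_lit 1824) (nat_lit 6270920368) (nat_lit 386) (nat_lit 5) (nat_lit 409) (nat_lit 5) (nat_lit 410) (nat_lit 5) (nat_lit 476) (nat_lit 471) (nat_lit 193)) (XT.lf (nat_lit 0) (nat_lit 5577853379) (nat_lit 1748) (nat_lit 2379638937) (nat_lit 1824) (nat_lit 18367058979) (nat_lit 386) (nat_lit 5) (nat_lit 409) (nat_lit 5) (nat_lit 410) (nat_lit 5) (nat_lit 477) (nat_lit 471) (nat_lit 192)))) (XT.nd (nat_lit 78) (nat_lit 0) (nat_lit 0) (XT.lf (nat_lit 0) (nat_lit 6232245566) (nat_lit 1748) (nat_lit 16232430298)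 (nat_lit 1824) (nat_lit 4126787707) (nat_lit 387) (nat_lit 5) (nat_lit 410) (nat_lit 5) (nat_lit 411) (nat_lit 5) (nat_lit 478) (nat_lit 471) (nat_lit 191)) (XT.nd (nat_lit 78) (nat_lit 0) (nat_lit 76) (XT.lf (nat_lit 0) (nat_lit 6966059421) (nat_lit 1748) (nat_lit 3532967284) (nat_lit 1824) (nat_lit 16363361938) (nat_lit 387) (nat_lit 5) (nat_lit 410) (nat_lit 5) (nat_lit 411) (nat_lit 5) (nat_lit 479) (nat_lit 471) (nat_lit 190)) (XT.lf (nat_lit 0) (nat_lit 7785617770) (nat_lit 1748) (nat_lit 17604849876) (nat_lit 1824) (nat_lit 1746844407) (nat_lit 388) (nat_lit 5) (nat_lit 411) (nat_lit 5) (nat_lit 412) (nat_lit 5) (nat_lit 480) (nat_lit 471) (nat_lit 189))))))))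
noncomputable def xc255 : XT := (XT.nd (nat_lit 118560) (nat_lit 0) (nat_lit 0) (XT.nd (nat_lit 59202) (nat_lit 0) (nat_lit 0) (XT.nd (nat_lit 58812) (nat_lit 0) (nat_lit 0) (XT.nd (nat_lit 156) (nat_lit 304) (nat_lit 0) (XT.nd (nat_lit 78) (nat_lit 0) (nat_lit 0) (XT.lf (nat_lit 0) (nat_lit 8712614140) (nat_lit 1748) (nat_lit 4581374818) (nat_lit 1824) (nat_lit 14121925212) (nat_lit 388) (nat_lit 5) (nat_lit 411) (nat_lit 5) (nat_lit 412) (nat_lit 5) (nat_lit 481) (nat_lit 471) (nat_lit 188)) (XT.lf (nat_lit 76) (nat_lit 8816713707) (nat_lit 0) (nat_lit 896378526) (nat_lit 1824) (nat_lit 17985898417) (nat_lit 389) (nat_lit 5) (nat_lit 388) (nat_lit 5) (nat_lit 412) (nat_lit 5) (nat_lit 482) (nat_lit 471) (nat_lit 187))) (XT.nd (nat_lit 58500) (nat_lit 380) (nat_lit 0) (XT.lf (nat_lit 0) (nat_lit 10838548914) (nat_lit 1748) (nat_lit 5520265742) (nat_lit 1824) (nat_lit 11626815755) (nat_lit 389) (nat_lit 5) (nat_lit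 412) (nat_lit 5) (nat_lit 413) (nat_lit 5) (nat_lit 483) (nat_lit 471) (nat_lit 186)) (XT.nd (nat_lit 78) (nat_lit 0) (nat_lit 0) (XT.lf (nat_lit 0) (nat_lit 913068810) (nat_lit 0) (nat_lit 913068810) (nat_lit 1748) (nat_lit 10819831094) (nat_lit 384) (nat_lit 5) (nat_lit 384) (nat_lit 3) (nat_lit 407) (nat_lit 3) (nat_lit 472) (nat_lit 472) (nat_lit 196)) (XT.lf (nat_lit 0) (nat_lit 3855388125) (nat_lit 1748) (nat_lit 11677321669) (nat_lit 1824) (nat_lit 10008764649) (nat_lit 384) (nat_lit 5) (nat_lit 407) (nat_lit 3) (nat_lit 408) (nat_lit 5) (nat_lit 473) (nat_lit 472) (nat_lit 195))))) (XT.nd (nat_lit 156) (nat_lit 0) (nat_lit 76) (XT.nd (nat_lit 78) (nat_lit 0) (nat_lit 76) (XT.lf (nat_lit 76) (nat_lit 337879743) (nat_lit 0) (nat_lit 3736336941) (nat_lit 1824) (nat_lit 21721553768) (nat_lit 385) (nat_lit 5) (nat_lit 384) (nat_lit 5) (nat_lit 408) (nat_lit 5) (nat_lit 474) (nat_lit 472) (nat_lit 194)) (XT.lf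 (nat_lit 0) (nat_lit 4427581304) (nat_lit 1748) (nat_lit 13357728590) (nat_lit 1824) (nat_lit 8267240600) (nat_lit 385) (nat_lit 5) (nat_lit 408) (nat_lit 5) (nat_lit 409) (nat_lit 5) (nat_lit 475) (nat_lit 472) (nat_lit 193))) (XT.nd (nat_lit 78) (nat_lit 0) (nat_lit 76) (XT.lf (nat_lit 0) (nat_lit 4810224493) (nat_lit 1748) (nat_lit 1041714959) (nat_lit 1824) (nat_lit 20462083734) (nat_lit 385) (nat_lit 5) (nat_lit 408) (nat_lit 5) (nat_lit 409) (nat_lit 5) (nat_lit 476) (nat_lit 472) (nat_lit 192)) (XT.nd (nat_lit 78) (nat_lit 0) (nat_lit 0) (XT.lf (nat_lit 0) (nat_lit 5315365309) (nat_lit 1748) (nat_lit 14948480478) (nat_lit 1824) (nat_lit 6314583897) (nat_lit 386) (nat_lit 5) (nat_lit 409) (nat_lit 5) (nat_lit 410) (nat_lit 5) (nat_lit 477) (nat_lit 472) (nat_lit 191)) (XT.lf (nat_lit 0) (nat_lit 5873963987) (nat_lit 1748) (nat_lit 2319046134) (nat_lit 1824) (nat_lit 18654248318) (nat_lit 386) (nat_lit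 5) (nat_lit 409) (nat_lit 5) (nat_lit 410) (nat_lit 5) (nat_lit 478) (nat_lit 472) (nat_lit 190)))))) (XT.nd (nat_lit 58890) (nat_lit 228) (nat_lit 0) (XT.nd (nat_lit 156) (nat_lit 0) (nat_lit 76) (XT.nd (nat_lit 78) (nat_lit 0) (nat_lit 0) (XT.lf (nat_lit 0) (nat_lit 6538041625) (nat_lit 1748) (nat_lit 16445399938) (nat_lit 1824) (nat_lit 4136137266) (nat_lit 387) (nat_lit 5) (nat_lit 410) (nat_lit 5) (nat_lit 411) (nat_lit 5) (nat_lit 479) (nat_lit 472) (nat_lit 189)) (XT.lf (nat_lit 0) (nat_lit 7282979774) (nat_lit 1748) (nat_lit 3494137447) (nat_lit 1824) (nat_lit 16618878005) (nat_lit 387) (nat_lit 5) (nat_lit 410) (nat_lit 5) (nat_lit 411) (nat_lit 5) (nat_lit 480) (nat_lit 472) (nat_lit 188))) (XT.nd (nat_lit 78) (nat_lit 0) (nat_lit 0) (XT.lf (nat_lit 0) (nat_lit 8115724285) (nat_lit 1748) (nat_lit 17844165228) (nat_lit 1824) (nat_lit 1716593439) (nat_lit 388) (nat_lit 5) (nat_lit 411) (nat_lit 5) (nat_lit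 412) (nat_lit 5) (nat_lit 481) (nat_lit 472) (nat_lit 187)) (XT.nd (nat_lit 78) (nat_lit 0) (nat_lit 0) (XT.lf (nat_lit 0) (nat_lit 9057841090) (nat_lit 1748) (nat_lit 4562432074) (nat_lit 1824) (nat_lit 14340454054) (nat_lit 388) (nat_lit 5) (nat_lit 411) (nat_lit 5) (nat_lit 412) (nat_lit 5) (nat_lit 482) (nat_lit 472) (nat_lit 186)) (XT.lf (nat_lit 76) (nat_lit 9102890786) (nat_lit 0) (nat_lit 972798686) (nat_lit 1824) (nat_lit 18173830222) (nat_lit 389) (nat_lit 5) (nat_lit 388) (nat_lit 5) (nat_lit 412) (nat_lit 5) (nat_lit 483) (nat_lit 472) (nat_lit 185))))) (XT.nd (nat_lit 234) (nat_lit 0) (nat_lit 76) (XT.nd (nat_lit 78) (nat_lit 0) (nat_lit 0) (XT.lf (nat_lit 0) (nat_lit 981374639) (nat_lit 0) (nat_lit 981374639) (nat_lit 1748) (nat_lit 10934086802) (nat_lit 384) (nat_lit 5) (nat_lit 384) (nat_lit 3) (nat_lit 407) (nat_lit 3) (nat_lit 473) (nat_lit 473) (nat_lit 194)) (XT.nd (nat_lit 78) (nat_lit 0)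 (nat_lit 0) (XT.lf (nat_lit 0) (nat_lit 4128111540) (nat_lit 1748) (nat_lit 11808081077) (nat_lit 1824) (nat_lit 10112100510) (nat_lit 384) (nat_lit 5) (nat_lit 407) (nat_lit 3) (nat_lit 408) (nat_lit 5) (nat_lit 474) (nat_lit 473) (nat_lit 193)) (XT.lf (nat_lit 76) (nat_lit 446748133) (nat_lit 0) (nat_lit 3901395908) (nat_lit 1824) (nat_lit 21959596400) (nat_lit 385) (nat_lit 5) (nat_lit 384) (nat_lit 5) (nat_lit 408) (nat_lit 5) (nat_lit 475) (nat_lit 473) (nat_lit 192)))) (XT.nd (nat_lit 78) (nat_lit 0) (nat_lit 0) (XT.lf (nat_lit 0) (nat_lit 4704227563) (nat_lit 1748) (nat_lit 13520331483) (nat_lit 1824) (nat_lit 8345185898) (nat_lit 385) (nat_lit 5) (nat_lit 408) (nat_lit 5) (nat_lit 409) (nat_lit 5) (nat_lit 476) (nat_lit 473) (nat_lit 191)) (XT.nd (nat_lit 78) (nat_lit 0) (nat_lit 76) (XT.lf (nat_lit 0) (nat_lit 5090835485) (nat_lit 1748) (nat_lit 960047612) (nat_lit 1824) (nat_lit 20785639610) (nat_lit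 385) (nat_lit 5) (nat_lit 408) (nat_lit 5) (nat_lit 409) (nat_lit 5) (nat_lit 477) (nat_lit 473) (nat_lit 190)) (XT.lf (nat_lit 0) (nat_lit 5602607459) (nat_lit 1748) (nat_lit 15141385792) (nat_lit 1824) (nat_lit 6362295339) (nat_lit 386) (nat_lit 5) (nat_lit 409) (nat_lit 5) (nat_lit 410) (nat_lit 5) (nat_lit 478) (nat_lit 473) (nat_lit 189))))))) (XT.nd (nat_lit 59436) (nat_lit 0) (nat_lit 0) (XT.nd (nat_lit 59046) (nat_lit 0) (nat_lit 0) (XT.nd (nat_lit 156) (nat_lit 152) (nat_lit 0) (XT.nd (nat_lit 78) (nat_lit 0) (nat_lit 76) (XT.lf (nat_lit 0) (nat_lit 6168830369) (nat_lit 1748) (nat_lit 2261442453) (nat_lit 1824) (nat_lit 18950293837) (nat_lit 386) (nat_lit 5) (nat_lit 409) (nat_lit 5) (nat_lit 410) (nat_lit 5) (nat_lit 479) (nat_lit 473) (nat_lit 188)) (XT.lf (nat_lit 0) (nat_lit 6842919285) (nat_lit 1748) (nat_lit 16666965600) (nat_lit 1824) (nat_lit 4148515726) (nat_lit 387) (nat_lit 5) (nat_lit 410)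 (nat_lit 5) (nat_lit 411) (nat_lit 5) (nat_lit 480) (nat_lit 473) (nat_lit 187))) (XT.nd (nat_lit 78) (nat_lit 228) (nat_lit 0) (XT.lf (nat_lit 0) (nat_lit 7599342141) (nat_lit 1748) (nat_lit 3458782611) (nat_lit 1824) (nat_lit 16882290579) (nat_lit 387) (nat_lit 5) (nat_lit 410) (nat_lit 5) (nat_lit 411) (nat_lit 5) (nat_lit 481) (nat_lit 473) (nat_lit 186)) (XT.nd (nat_lit 58734) (nat_lit 304) (nat_lit 0) (XT.lf (nat_lit 0) (nat_lit 8445660993) (nat_lit 1748) (nat_lit 18092646336) (nat_lit 1824) (nat_lit 1688268777) (nat_lit 388) (nat_lit 5) (nat_lit 411) (nat_lit 5) (nat_lit 412) (nat_lit 5) (nat_lit 482) (nat_lit 473) (nat_lit 185)) (XT.lf (nat_lit 0) (nat_lit 1049103296) (nat_lit 0) (nat_lit 1049103296) (nat_lit 1748) (nat_lit 11054593881) (nat_lit 384) (nat_lit 5) (nat_lit 384) (nat_lit 3) (nat_lit 407) (nat_lit 3) (nat_lit 474) (nat_lit 474) (nat_lit 192))))) (XT.nd (nat_lit 156) (nat_lit 0) (nat_lit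 76) (XT.nd (nat_lit 78) (nat_lit 0) (nat_lit 0) (XT.lf (nat_lit 0) (nat_lit 4398693428) (nat_lit 1748) (nat_lit 11945447018) (nat_lit 1824) (nat_lit 10221263481) (nat_lit 384) (nat_lit 5) (nat_lit 407) (nat_lit 3) (nat_lit 408) (nat_lit 5) (nat_lit 475) (nat_lit 474) (nat_lit 191)) (XT.lf (nat_lit 76) (nat_lit 553828804) (nat_lit 0) (nat_lit 4066248343) (nat_lit 1824) (nat_lit 22210025888) (nat_lit 385) (nat_lit 5) (nat_lit 384) (nat_lit 5) (nat_lit 408) (nat_lit 5) (nat_lit 476) (nat_lit 474) (nat_lit 190))) (XT.nd (nat_lit 78) (nat_lit 0) (nat_lit 0) (XT.lf (nat_lit 0) (nat_lit 4979102804) (nat_lit 1748) (nat_lit 13690246303) (nat_lit 1824) (nat_lit 8428083932) (nat_lit 385) (nat_lit 5) (nat_lit 408) (nat_lit 5) (nat_lit 409) (nat_lit 5) (nat_lit 477) (nat_lit 474) (nat_lit 189)) (XT.nd (nat_lit 78) (nat_lit 0) (nat_lit 76) (XT.lf (nat_lit 0) (nat_lit 5369897969) (nat_lit 1748) (nat_lit 880727182) (nat_lit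 1824) (nat_lit 21118993889) (nat_lit 385) (nat_lit 5) (nat_lit 408) (nat_lit 5) (nat_lit 409) (nat_lit 5) (nat_lit 478) (nat_lit 474) (nat_lit 188)) (XT.lf (nat_lit 0) (nat_lit 5888568532) (nat_lit 1748) (nat_lit 15342267818) (nat_lit 1824) (nat_lit 6414012376) (nat_lit 386) (nat_lit 5) (nat_lit 409) (nat_lit 5) (nat_lit 410) (nat_lit 5) (nat_lit 479) (nat_lit 474) (nat_lit 187)))))) (XT.nd (nat_lit 59280) (nat_lit 0) (nat_lit 0) (XT.nd (nat_lit 59046) (nat_lit 152) (nat_lit 0) (XT.nd (nat_lit 78) (nat_lit 0) (nat_lit 76) (XT.lf (nat_lit 0) (nat_lit 6462705921) (nat_lit 1748) (nat_lit 2206724547) (nat_lit 1824) (nat_lit 19255251802) (nat_lit 386) (nat_lit 5) (nat_lit 409) (nat_lit 5) (nat_lit 410) (nat_lit 5) (nat_lit 480) (nat_lit 474) (nat_lit 186)) (XT.lf (nat_lit 0) (nat_lit 7147133330) (nat_lit 1748) (nat_lit 16897130810) (nat_lit 1824) (nat_lit 4163873309) (nat_lit 387) (nat_lit 5) (nat_lit 410) (nat_lit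 5) (nat_lit 411) (nat_lit 5) (nat_lit 481) (nat_lit 474) (nat_lit 185))) (XT.nd (nat_lit 78) (nat_lit 0) (nat_lit 0) (XT.lf (nat_lit 0) (nat_lit 4667385923) (nat_lit 1748) (nat_lit 12089396636) (nat_lit 1824) (nat_lit 10336224085) (nat_lit 384) (nat_lit 5) (nat_lit 407) (nat_lit 3) (nat_lit 408) (nat_lit 5) (nat_lit 476) (nat_lit 475) (nat_lit 189)) (XT.nd (nat_lit 78) (nat_lit 0) (nat_lit 76) (XT.lf (nat_lit 76) (nat_lit 659239971) (nat_lit 0) (nat_lit 4231026325) (nat_lit 1824) (nat_lit 22472793841) (nat_lit 385) (nat_lit 5) (nat_lit 384) (nat_lit 5) (nat_lit 408) (nat_lit 5) (nat_lit 477) (nat_lit 475) (nat_lit 188)) (XT.lf (nat_lit 0) (nat_lit 5252455226) (nat_lit 1748) (nat_lit 13867461638) (nat_lit 1824) (nat_lit 8515901970) (nat_lit 385) (nat_lit 5) (nat_lit 408) (nat_lit 5) (nat_lit 409) (nat_lit 5) (nat_lit 478) (nat_lit 475) (nat_lit 187))))) (XT.nd (nat_lit 59280) (nat_lit 0) (nat_lit 0) (XT.nd (nat_lit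 78) (nat_lit 76) (nat_lit 0) (XT.lf (nat_lit 0) (nat_lit 5647659032) (nat_lit 1748) (nat_lit 803646049) (nat_lit 1824) (nat_lit 21462213334) (nat_lit 385) (nat_lit 5) (nat_lit 408) (nat_lit 5) (nat_lit 409) (nat_lit 5) (nat_lit 479) (nat_lit 475) (nat_lit 186)) (XT.nd (nat_lit 59124) (nat_lit 152) (nat_lit 0) (XT.lf (nat_lit 0) (nat_lit 6173495731) (nat_lit 1748) (nat_lit 15551126160) (nat_lit 1824) (nat_lit 6469696632) (nat_lit 386) (nat_lit 5) (nat_lit 409) (nat_lit 5) (nat_lit 410) (nat_lit 5) (nat_lit 480) (nat_lit 475) (nat_lit 185)) (XT.lf (nat_lit 0) (nat_lit 4934434742) (nat_lit 1748) (nat_lit 12239912632) (nat_lit 1824) (nat_lit 10456957923) (nat_lit 384) (nat_lit 5) (nat_lit 407) (nat_lit 3) (nat_lit 408) (nat_lit 5) (nat_lit 477) (nat_lit 476) (nat_lit 187)))) (XT.nd (nat_lit 78) (nat_lit 0) (nat_lit 0) (XT.lf (nat_lit 76) (nat_lit 763096234) (nat_lit 0) (nat_lit 4395859284) (nat_lit 1824) (nat_lit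 22747862400) (nat_lit 385) (nat_lit 5) (nat_lit 384) (nat_lit 5) (nat_lit 408) (nat_lit 5) (nat_lit 478) (nat_lit 476) (nat_lit 186)) (XT.nd (nat_lit 59280) (nat_lit 76) (nat_lit 0) (XT.lf (nat_lit 0) (nat_lit 5524526982) (nat_lit 1748) (nat_lit 14051971972) (nat_lit 1824) (nat_lit 8608611742) (nat_lit 385) (nat_lit 5) (nat_lit 408) (nat_lit 5) (nat_lit 409) (nat_lit 5) (nat_lit 479) (nat_lit 476) (nat_lit 185)) (XT.lf (nat_lit 0) (nat_lit 5200079513) (nat_lit 1748) (nat_lit 12396983148) (nat_lit 1824) (nat_lit 10583445558) (nat_lit 384) (nat_lit 5) (nat_lit 407) (nat_lit 3) (nat_lit 408) (nat_lit 5) (nat_lit 478) (nat_lit 477) (nat_lit 185))))))))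

set_option maxRecDepth 10000000 in
noncomputable def Tp : PT := (PT.nd (nat_lit 11706240) (PT.nd (nat_lit 10403328) (PT.nd (nat_lit 9275448) (PT.nd (nat_lit 8267454) (PT.nd (nat_lit 7437300) (PT.nd (nat_lit 6844032) pc0 pc1) (PT.nd (nat_lit 474162) pc2 pc3)) (PT.nd (nat_lit 534378) (PT.nd (nat_lit 296634) pc4 pc5) (PT.nd (nat_lit 237120) pc6 pc7))) (PT.nd (nat_lit 652470) (PT.nd (nat_lit 355836) (PT.nd (nat_lit 178074) pc8 pc9) (PT.nd (nat_lit 119730) pc10 pc11)) (PT.nd (nat_lit 238290) (PT.nd (nat_lit 119262) pc12 pc13) (PT.nd (nat_lit 118716) pc14 pc15)))) (PT.nd (nat_lit 712842) (PT.nd (nat_lit 414102) (PT.nd (nat_lit 235794) (PT.nd (nat_lit 118014) pc16 pc17) (PT.nd (nat_lit 60996) pc18 pc19)) (PT.nd (nat_lit 177606) (PT.nd (nat_lit 60762) pc20 pc21) (PT.nd (nat_lit 60606) pc22 pc23))) (PT.nd (nat_lit 296400) (PT.nd (nat_lit 176358) (PT.nd (nat_lit 116142) pc24 pc25) (PT.nd (nat_lit 60060) pc26 pc27)) (PT.nd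 (nat_lit 174720) (PT.nd (nat_lit 59826) pc28 pc29) (PT.nd (nat_lit 59514) pc30 pc31))))) (PT.nd (nat_lit 773682) (PT.nd (nat_lit 416598) (PT.nd (nat_lit 181896) (PT.nd (nat_lit 118326) (PT.nd (nat_lit 59202) pc32 pc33) (PT.nd (nat_lit 4524) pc34 pc35)) (PT.nd (nat_lit 117546) (PT.nd (nat_lit 58812) pc36 pc37) (PT.nd (nat_lit 58656) pc38 pc39))) (PT.nd (nat_lit 179166) (PT.nd (nat_lit 116532) (PT.nd (nat_lit 58266) pc40 pc41) (PT.nd (nat_lit 4524) pc42 pc43)) (PT.nd (nat_lit 115674) (PT.nd (nat_lit 57876) pc44 pc45) (PT.nd (nat_lit 4602) pc46 pc47)))) (PT.nd (nat_lit 410982) (PT.nd (nat_lit 176436) (PT.nd (nat_lit 114738) (PT.nd (nat_lit 57408) pc48 pc49) (PT.nd (nat_lit 4524) pc50 pc51)) (PT.nd (nat_lit 63336) (PT.nd (nat_lit 56940) pc52 pc53) (PT.nd (nat_lit 59514) pc54 pc55))) (PT.nd (nat_lit 355758) (PT.nd (nat_lit 125268) (PT.nd (nat_lit 59982) pc56 pc57) (PT.nd (nat_lit 112398) pc58 pc59)) (PT.nd (nat_lit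 295542) (PT.nd (nat_lit 118638) pc60 pc61) (PT.nd (nat_lit 178074) pc62 pc63))))))

set_option maxRecDepth 10000000 in
noncomputable def Tx : XT := (XT.nd (nat_lit 18856032) (nat_lit 0) (nat_lit 836) XT.nil (XT.nd (nat_lit 9495096) (nat_lit 0) (nat_lit 0) (XT.nd (nat_lit 4385862) (nat_lit 0) (nat_lit 4408) (XT.nd (nat_lit 3021096) (nat_lit 0) (nat_lit 1824) (XT.nd (nat_lit 2076672) (nat_lit 0) (nat_lit 912) (XT.nd (nat_lit 1424748) (nat_lit 0) (nat_lit 228) (XT.nd (nat_lit 1007760) (nat_lit 0) (nat_lit 152) (XT.nd (nat_lit 710658) (nat_lit 0) (nat_lit 152) (XT.nd (nat_lit 473928) (nat_lit 0) (nat_lit 152) (XT.nd (nat_lit 296478) (nat_lit 0) (nat_lit 0) xc0 xc1) (XT.nd (nat_lit 118638) (nat_lit 0) (nat_lit 0) xc2 xc3)) (XT.nd (nat_lit 177450) (nat_lit 0) (nat_lit 0) (XT.nd (nat_lit 60372) (nat_lit 0) (nat_lit 0) xc4 xc5) (XT.nd (nat_lit 59904) (nat_lit 0) (nat_lit 0) xc6 xc7))) (XT.nd (nat_lit 237276) (nat_lit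 0) (nat_lit 0) (XT.nd (nat_lit 118950) (nat_lit 0) (nat_lit 0) (XT.nd (nat_lit 59514) (nat_lit 0) (nat_lit 0) xc8 xc9) (XT.nd (nat_lit 59202) (nat_lit 0) (nat_lit 0) xc10 xc11)) (XT.nd (nat_lit 117702) (nat_lit 0) (nat_lit 76) (XT.nd (nat_lit 58890) (nat_lit 0) (nat_lit 76) xc12 xc13) (XT.nd (nat_lit 58656) (nat_lit 0) (nat_lit 228) xc14 xc15)))) (XT.nd (nat_lit 355290) (nat_lit 0) (nat_lit 304) (XT.nd (nat_lit 233064) (nat_lit 0) (nat_lit 304) (XT.nd (nat_lit 116766) (nat_lit 0) (nat_lit 228) (XT.nd (nat_lit 58344) (nat_lit 0) (nat_lit 228) xc16 xc17) (XT.nd (nat_lit 58188) (nat_lit 0) (nat_lit 76) xc18 xc19)) (XT.nd (nat_lit 61152) (nat_lit 0) (nat_lit 0) (XT.nd (nat_lit 3198) (nat_lit 1368) (nat_lit 0) xc20 xc21) (XT.nd (nat_lit 57798) (nat_lit 0) (nat_lit 988) xc22 xc23))) (XT.nd (nat_lit 175812) (nat_lit 0) (nat_lit 228) (XT.nd (nat_lit 115128) (nat_lit 0) (nat_lit 228) (XT.nd (nat_lit 57564) (nat_lit 0)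 (nat_lit 152) xc24 xc25) (XT.nd (nat_lit 3276) (nat_lit 1292) (nat_lit 0) xc26 xc27)) (XT.nd (nat_lit 60450) (nat_lit 0) (nat_lit 152) (XT.nd (nat_lit 57174) (nat_lit 0) (nat_lit 2964) xc28 xc29) (XT.nd (nat_lit 57096) (nat_lit 0) (nat_lit 1140) xc30 xc31))))) (XT.nd (nat_lit 529386) (nat_lit 0) (nat_lit 380) (XT.nd (nat_lit 292734) (nat_lit 0) (nat_lit 152) (XT.nd (nat_lit 173472) (nat_lit 0) (nat_lit 152) (XT.nd (nat_lit 60138) (nat_lit 0) (nat_lit 0) (XT.nd (nat_lit 56862) (nat_lit 0) (nat_lit 152) xc32 xc33) (XT.nd (nat_lit 56706) (nat_lit 0) (nat_lit 0) xc34 xc35)) (XT.nd (nat_lit 59670) (nat_lit 0) (nat_lit 0) (XT.nd (nat_lit 3198) (nat_lit 3800) (nat_lit 0) xc36 xc37) (XT.nd (nat_lit 3276) (nat_lit 2964) (nat_lit 0) xc38 xc39))) (XT.nd (nat_lit 118638) (nat_lit 0) (nat_lit 228) (XT.nd (nat_lit 59358) (nat_lit 0) (nat_lit 0) (XT.nd (nat_lit 3198) (nat_lit 2660) (nat_lit 0) xc40 xc41) (XT.nd (nat_lit 3276)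 (nat_lit 2660) (nat_lit 0) xc42 xc43)) (XT.nd (nat_lit 59046) (nat_lit 0) (nat_lit 0) (XT.nd (nat_lit 3198) (nat_lit 2660) (nat_lit 0) xc44 xc45) (XT.nd (nat_lit 3276) (nat_lit 3192) (nat_lit 0) xc46 xc47)))) (XT.nd (nat_lit 182442) (nat_lit 0) (nat_lit 304) (XT.nd (nat_lit 117390) (nat_lit 0) (nat_lit 152) (XT.nd (nat_lit 58734) (nat_lit 0) (nat_lit 152) (XT.nd (nat_lit 3198) (nat_lit 4408) (nat_lit 0) xc48 xc49) (XT.nd (nat_lit 3198) (nat_lit 6384) (nat_lit 0) xc50 xc51)) (XT.nd (nat_lit 6474) (nat_lit 608) (nat_lit 0) (XT.nd (nat_lit 3198) (nat_lit 8360) (nat_lit 0) xc52 xc53) (XT.nd (nat_lit 55302) (nat_lit 0) (nat_lit 1976) xc54 xc55))) (XT.nd (nat_lit 116610) (nat_lit 0) (nat_lit 76) (XT.nd (nat_lit 58344) (nat_lit 0) (nat_lit 76) (XT.nd (nat_lit 55068) (nat_lit 0) (nat_lit 4104) xc56 xc57) (XT.nd (nat_lit 54990) (nat_lit 0) (nat_lit 7372) xc58 xc59)) (XT.nd (nat_lit 58032) (nat_lit 0) (nat_lit 152) (XT.nd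 (nat_lit 3198) (nat_lit 152) (nat_lit 0) xc60 xc61) (XT.nd (nat_lit 3276) (nat_lit 2128) (nat_lit 0) xc62 xc63)))))) (XT.nd (nat_lit 709176) (nat_lit 0) (nat_lit 1064) (XT.nd (nat_lit 357162) (nat_lit 0) (nat_lit 608) (XT.nd (nat_lit 179244) (nat_lit 0) (nat_lit 152) (XT.nd (nat_lit 64194) (nat_lit 0) (nat_lit 0) (XT.nd (nat_lit 57720) (nat_lit 0) (nat_lit 2128) (XT.nd (nat_lit 3198) (nat_lit 5928) (nat_lit 0) xc64 xc65) (XT.nd (nat_lit 3198) (nat_lit 10564) (nat_lit 0) xc66 xc67)) (XT.nd (nat_lit 57564) (nat_lit 0) (nat_lit 152) (XT.nd (nat_lit 54288) (nat_lit 0) (nat_lit 6764) xc68 xc69) (XT.nd (nat_lit 54210) (nat_lit 0) (nat_lit 14288) xc70 xc71))) (XT.nd (nat_lit 63726) (nat_lit 0) (nat_lit 0) (XT.nd (nat_lit 57252) (nat_lit 0) (nat_lit 912) (XT.nd (nat_lit 3198) (nat_lit 3116) (nat_lit 0) xc72 xc73) (XT.nd (nat_lit 3198) (nat_lit 8892) (nat_lit 0) xc74 xc75)) (XT.nd (nat_lit 57096) (nat_lit 0) (nat_lit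 304) (XT.nd (nat_lit 53820) (nat_lit 0) (nat_lit 6232) xc76 xc77) (XT.nd (nat_lit 53820) (nat_lit 0) (nat_lit 15276) xc78 xc79)))) (XT.nd (nat_lit 176670) (nat_lit 0) (nat_lit 228) (XT.nd (nat_lit 63336) (nat_lit 0) (nat_lit 0) (XT.nd (nat_lit 56862) (nat_lit 0) (nat_lit 1748) (XT.nd (nat_lit 3198) (nat_lit 3192) (nat_lit 0) xc80 xc81) (XT.nd (nat_lit 3198) (nat_lit 10260) (nat_lit 0) xc82 xc83)) (XT.nd (nat_lit 56706) (nat_lit 0) (nat_lit 0) (XT.nd (nat_lit 53430) (nat_lit 0) (nat_lit 9348) xc84 xc85) (XT.nd (nat_lit 3276) (nat_lit 684) (nat_lit 0) xc86 xc87))) (XT.nd (nat_lit 62946) (nat_lit 0) (nat_lit 76) (XT.nd (nat_lit 56394) (nat_lit 0) (nat_lit 6308) (XT.nd (nat_lit 3198) (nat_lit 7600) (nat_lit 0) xc88 xc89) (XT.nd (nat_lit 3276) (nat_lit 16112) (nat_lit 0) xc90 xc91)) (XT.nd (nat_lit 56238) (nat_lit 0) (nat_lit 152) (XT.nd (nat_lit 52962) (nat_lit 0) (nat_lit 21432) xc92 xc93) (XT.nd (nat_lit 3276)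 (nat_lit 5700) (nat_lit 0) xc94 xc95))))) (XT.nd (nat_lit 301470) (nat_lit 0) (nat_lit 532) (XT.nd (nat_lit 125424) (nat_lit 0) (nat_lit 228) (XT.nd (nat_lit 62634) (nat_lit 0) (nat_lit 0) (XT.nd (nat_lit 6474) (nat_lit 6080) (nat_lit 0) (XT.nd (nat_lit 3198) (nat_lit 15200) (nat_lit 0) xc96 xc97) (XT.nd (nat_lit 52884) (nat_lit 0) (nat_lit 21280) xc98 xc99)) (XT.nd (nat_lit 56238) (nat_lit 0) (nat_lit 5624) (XT.nd (nat_lit 3198) (nat_lit 6080) (nat_lit 0) xc100 xc101) (XT.nd (nat_lit 3276) (nat_lit 14820) (nat_lit 0) xc102 xc103))) (XT.nd (nat_lit 112944) (nat_lit 0) (nat_lit 304) (XT.nd (nat_lit 56394) (nat_lit 0) (nat_lit 304) (XT.nd (nat_lit 53118) (nat_lit 0) (nat_lit 18620) xc104 xc105) (XT.nd (nat_lit 3276) (nat_lit 4332) (nat_lit 0) xc106 xc107)) (XT.nd (nat_lit 6474) (nat_lit 3268) (nat_lit 0) (XT.nd (nat_lit 3198) (nat_lit 12844) (nat_lit 0) xc108 xc109) (XT.nd (nat_lit 53352) (nat_lit 0) (nat_lit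 13376) xc110 xc111)))) (XT.nd (nat_lit 176670) (nat_lit 0) (nat_lit 456) (XT.nd (nat_lit 63102) (nat_lit 0) (nat_lit 228) (XT.nd (nat_lit 56628) (nat_lit 0) (nat_lit 1368) (XT.nd (nat_lit 3198) (nat_lit 2204) (nat_lit 0) xc112 xc113) (XT.nd (nat_lit 3198) (nat_lit 10184) (nat_lit 0) xc114 xc115)) (XT.nd (nat_lit 56706) (nat_lit 0) (nat_lit 0) (XT.nd (nat_lit 53430) (nat_lit 0) (nat_lit 9120) xc116 xc117) (XT.nd (nat_lit 53586) (nat_lit 0) (nat_lit 22192) xc118 xc119))) (XT.nd (nat_lit 63414) (nat_lit 0) (nat_lit 76) (XT.nd (nat_lit 56862) (nat_lit 0) (nat_lit 3800) (XT.nd (nat_lit 3198) (nat_lit 6384) (nat_lit 0) xc120 xc121) (XT.nd (nat_lit 3276) (nat_lit 13224) (nat_lit 0) xc122 xc123)) (XT.nd (nat_lit 56940) (nat_lit 0) (nat_lit 228) (XT.nd (nat_lit 53664) (nat_lit 0) (nat_lit 12844) xc124 xc125) (XT.nd (nat_lit 3276) (nat_lit 1444) (nat_lit 0) xc126 xc127))))))) (XT.nd (nat_lit 1606566) (nat_lit 0) (nat_lit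 4864) (XT.nd (nat_lit 717834) (nat_lit 0) (nat_lit 1520) (XT.nd (nat_lit 357318) (nat_lit 0) (nat_lit 608) (XT.nd (nat_lit 178308) (nat_lit 0) (nat_lit 380) (XT.nd (nat_lit 63648) (nat_lit 0) (nat_lit 0) (XT.nd (nat_lit 57174) (nat_lit 0) (nat_lit 4940) (XT.nd (nat_lit 3198) (nat_lit 8816) (nat_lit 0) xc128 xc129) (XT.nd (nat_lit 3198) (nat_lit 14668) (nat_lit 0) xc130 xc131)) (XT.nd (nat_lit 57252) (nat_lit 0) (nat_lit 0) (XT.nd (nat_lit 53976) (nat_lit 0) (nat_lit 13604) xc132 xc133) (XT.nd (nat_lit 3276) (nat_lit 1900) (nat_lit 0) xc134 xc135))) (XT.nd (nat_lit 63882) (nat_lit 0) (nat_lit 0) (XT.nd (nat_lit 57408) (nat_lit 0) (nat_lit 3724) (XT.nd (nat_lit 3198) (nat_lit 7980) (nat_lit 0) xc136 xc137) (XT.nd (nat_lit 3198) (nat_lit 13908) (nat_lit 0) xc138 xc139)) (XT.nd (nat_lit 57486) (nat_lit 0) (nat_lit 228) (XT.nd (nat_lit 54210) (nat_lit 0) (nat_lit 10640) xc140 xc141) (XT.nd (nat_lit 3276) (nat_lit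 304) (nat_lit 0) xc142 xc143)))) (XT.nd (nat_lit 179790) (nat_lit 0) (nat_lit 608) (XT.nd (nat_lit 64116) (nat_lit 0) (nat_lit 304) (XT.nd (nat_lit 57642) (nat_lit 0) (nat_lit 912) (XT.nd (nat_lit 3198) (nat_lit 5168) (nat_lit 0) xc144 xc145) (XT.nd (nat_lit 3198) (nat_lit 10792) (nat_lit 0) xc146 xc147)) (XT.nd (nat_lit 57720) (nat_lit 0) (nat_lit 304) (XT.nd (nat_lit 54444) (nat_lit 0) (nat_lit 5396) xc148 xc149) (XT.nd (nat_lit 54678) (nat_lit 0) (nat_lit 11096) xc150 xc151))) (XT.nd (nat_lit 116064) (nat_lit 0) (nat_lit 304) (XT.nd (nat_lit 57954) (nat_lit 0) (nat_lit 304) (XT.nd (nat_lit 3198) (nat_lit 304) (nat_lit 0) xc152 xc153) (XT.nd (nat_lit 3276) (nat_lit 3876) (nat_lit 0) xc154 xc155)) (XT.nd (nat_lit 58110) (nat_lit 0) (nat_lit 1748) (XT.nd (nat_lit 3198) (nat_lit 8892) (nat_lit 0) xc156 xc157) (XT.nd (nat_lit 3276) (nat_lit 12388) (nat_lit 0) xc158 xc159))))) (XT.nd (nat_lit 415740) (nat_lit 0)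 (nat_lit 1444) (XT.nd (nat_lit 233298) (nat_lit 0) (nat_lit 684) (XT.nd (nat_lit 116454) (nat_lit 0) (nat_lit 380) (XT.nd (nat_lit 58188) (nat_lit 0) (nat_lit 380) (XT.nd (nat_lit 54912) (nat_lit 0) (nat_lit 5700) xc160 xc161) (XT.nd (nat_lit 54990) (nat_lit 0) (nat_lit 9728) xc162 xc163)) (XT.nd (nat_lit 58344) (nat_lit 0) (nat_lit 304) (XT.nd (nat_lit 55068) (nat_lit 0) (nat_lit 15200) xc164 xc165) (XT.nd (nat_lit 3276) (nat_lit 1900) (nat_lit 0) xc166 xc167))) (XT.nd (nat_lit 117156) (nat_lit 0) (nat_lit 760) (XT.nd (nat_lit 58500) (nat_lit 0) (nat_lit 304) (XT.nd (nat_lit 3198) (nat_lit 5016) (nat_lit 0) xc168 xc169) (XT.nd (nat_lit 3276) (nat_lit 7904) (nat_lit 0) xc170 xc171)) (XT.nd (nat_lit 58734) (nat_lit 0) (nat_lit 1140) (XT.nd (nat_lit 3198) (nat_lit 10564) (nat_lit 0) xc172 xc173) (XT.nd (nat_lit 3276) (nat_lit 12996) (nat_lit 0) xc174 xc175)))) (XT.nd (nat_lit 235794) (nat_lit 0) (nat_lit 684)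 (XT.nd (nat_lit 117702) (nat_lit 0) (nat_lit 304) (XT.nd (nat_lit 58812) (nat_lit 0) (nat_lit 304) (XT.nd (nat_lit 55536) (nat_lit 0) (nat_lit 2812) xc176 xc177) (XT.nd (nat_lit 55614) (nat_lit 0) (nat_lit 4408) xc178 xc179)) (XT.nd (nat_lit 58968) (nat_lit 0) (nat_lit 380) (XT.nd (nat_lit 55692) (nat_lit 0) (nat_lit 6080) xc180 xc181) (XT.nd (nat_lit 55848) (nat_lit 0) (nat_lit 6764) xc182 xc183))) (XT.nd (nat_lit 118404) (nat_lit 0) (nat_lit 456) (XT.nd (nat_lit 59124) (nat_lit 0) (nat_lit 456) (XT.nd (nat_lit 55848) (nat_lit 0) (nat_lit 7980) xc184 xc185) (XT.nd (nat_lit 56004) (nat_lit 0) (nat_lit 8132) xc186 xc187)) (XT.nd (nat_lit 59280) (nat_lit 0) (nat_lit 380) (XT.nd (nat_lit 56004) (nat_lit 0) (nat_lit 8740) xc188 xc189) (XT.nd (nat_lit 56238) (nat_lit 0) (nat_lit 8360) xc190 xc191)))))) (XT.nd (nat_lit 1127022) (nat_lit 0) (nat_lit 5548) (XT.nd (nat_lit 532428) (nat_lit 0) (nat_lit 2356) (XT.nd (nat_lit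 238602) (nat_lit 0) (nat_lit 912) (XT.nd (nat_lit 119106) (nat_lit 0) (nat_lit 532) (XT.nd (nat_lit 59514) (nat_lit 0) (nat_lit 0) (XT.nd (nat_lit 56238) (nat_lit 0) (nat_lit 7372) xc192 xc193) (XT.nd (nat_lit 56316) (nat_lit 0) (nat_lit 6764) xc194 xc195)) (XT.nd (nat_lit 59670) (nat_lit 0) (nat_lit 0) (XT.nd (nat_lit 56394) (nat_lit 0) (nat_lit 5016) xc196 xc197) (XT.nd (nat_lit 56550) (nat_lit 0) (nat_lit 3876) xc198 xc199))) (XT.nd (nat_lit 173394) (nat_lit 0) (nat_lit 988) (XT.nd (nat_lit 59826) (nat_lit 0) (nat_lit 0) (XT.nd (nat_lit 56550) (nat_lit 0) (nat_lit 1900) xc200 xc201) (XT.nd (nat_lit 56706) (nat_lit 0) (nat_lit 456) xc202 xc203)) (XT.nd (nat_lit 60138) (nat_lit 0) (nat_lit 0) (XT.nd (nat_lit 3198) (nat_lit 9500) (nat_lit 0) xc204 xc205) (XT.nd (nat_lit 3276) (nat_lit 6080) (nat_lit 0) xc206 xc207)))) (XT.nd (nat_lit 296088) (nat_lit 0) (nat_lit 1520) (XT.nd (nat_lit 120666) (nat_lit 0) (nat_lit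 456) (XT.nd (nat_lit 60294) (nat_lit 0) (nat_lit 0) (XT.nd (nat_lit 3198) (nat_lit 2584) (nat_lit 0) xc208 xc209) (XT.nd (nat_lit 57096) (nat_lit 0) (nat_lit 8360) xc210 xc211)) (XT.nd (nat_lit 60528) (nat_lit 0) (nat_lit 608) (XT.nd (nat_lit 57252) (nat_lit 0) (nat_lit 3268) xc212 xc213) (XT.nd (nat_lit 57408) (nat_lit 0) (nat_lit 0) xc214 xc215))) (XT.nd (nat_lit 121680) (nat_lit 0) (nat_lit 532) (XT.nd (nat_lit 60762) (nat_lit 0) (nat_lit 0) (XT.nd (nat_lit 3198) (nat_lit 5396) (nat_lit 0) xc216 xc217) (XT.nd (nat_lit 57642) (nat_lit 0) (nat_lit 6840) xc218 xc219)) (XT.nd (nat_lit 115596) (nat_lit 0) (nat_lit 608) (XT.nd (nat_lit 57720) (nat_lit 0) (nat_lit 532) xc220 xc221) (XT.nd (nat_lit 3276) (nat_lit 5700) (nat_lit 0) xc222 xc223))))) (XT.nd (nat_lit 771888) (nat_lit 0) (nat_lit 5168) (XT.nd (nat_lit 356148) (nat_lit 0) (nat_lit 2432) (XT.nd (nat_lit 177606) (nat_lit 0) (nat_lit 1140) (XT.nd (nat_lit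 61230) (nat_lit 0) (nat_lit 532) (XT.nd (nat_lit 57954) (nat_lit 0) (nat_lit 3724) xc224 xc225) (XT.nd (nat_lit 58110) (nat_lit 0) (nat_lit 608) xc226 xc227)) (XT.nd (nat_lit 61542) (nat_lit 0) (nat_lit 608) (XT.nd (nat_lit 58266) (nat_lit 0) (nat_lit 4712) xc228 xc229) (XT.nd (nat_lit 58422) (nat_lit 0) (nat_lit 684) xc230 xc231))) (XT.nd (nat_lit 179400) (nat_lit 0) (nat_lit 1292) (XT.nd (nat_lit 61854) (nat_lit 0) (nat_lit 608) (XT.nd (nat_lit 58578) (nat_lit 0) (nat_lit 608) xc232 xc233) (XT.nd (nat_lit 58734) (nat_lit 0) (nat_lit 0) xc234 xc235)) (XT.nd (nat_lit 117936) (nat_lit 0) (nat_lit 760) (XT.nd (nat_lit 58890) (nat_lit 0) (nat_lit 684) xc236 xc237) (XT.nd (nat_lit 59124) (nat_lit 0) (nat_lit 684) xc238 xc239)))) (XT.nd (nat_lit 533988) (nat_lit 0) (nat_lit 4636) (XT.nd (nat_lit 237744) (nat_lit 0) (nat_lit 2204) (XT.nd (nat_lit 118638) (nat_lit 0) (nat_lit 1444) (XT.nd (nat_lit 59280) (nat_lit 684)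 (nat_lit 0) xc240 xc241) (XT.nd (nat_lit 59514) (nat_lit 0) (nat_lit 0) xc242 xc243)) (XT.nd (nat_lit 119496) (nat_lit 0) (nat_lit 836) (XT.nd (nat_lit 59748) (nat_lit 836) (nat_lit 0) xc244 xc245) (XT.nd (nat_lit 59904) (nat_lit 0) (nat_lit 760) xc246 xc247))) (XT.nd (nat_lit 356382) (nat_lit 0) (nat_lit 3724) (XT.nd (nat_lit 120510) (nat_lit 0) (nat_lit 1748) (XT.nd (nat_lit 60138) (nat_lit 0) (nat_lit 836) xc248 xc249) (XT.nd (nat_lit 117702) (nat_lit 0) (nat_lit 988) xc250 xc251)) (XT.nd (nat_lit 237744) (nat_lit 0) (nat_lit 0) (XT.nd (nat_lit 60840) (nat_lit 0) (nat_lit 0) xc252 xc253) (XT.nd (nat_lit 119652) (nat_lit 0) (nat_lit 0) xc254 xc255)))))))) XT.nil))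

set_option maxRecDepth 10000000 in
noncomputable def Te : XT := XT.nil

set_option maxRecDepth 10000000 in
noncomputable def Tz : ZL := (ZL.cons (nat_lit 76) (nat_lit 6) (nat_lit 238660255702123497698) (ZL.cons (nat_lit 152) (nat_lit 3) (nat_lit 118203014674560618577) (ZL.cons (nat_lit 608) (nat_lit 3) (nat_lit 93044820521414253527) (ZL.cons (nat_lit 684) (nat_lit 6) (nat_lit 184450248108892926704) (ZL.cons (nat_lit 760) (nat_lit 6) (nat_lit 182847917646675178504) (ZL.cons (nat_lit 836) (nat_lit 3) (nat_lit 91406669137595870500) (ZL.cons (nat_lit 988) (nat_lit 6) (nat_lit 181213540575213075340) (ZL.cons (nat_lit 1064) (nat_lit 6) (nat_lit 179650227637309879264) (ZL.cons (nat_lit 1140) (nat_lit 3) (nat_lit 89808163146359136934) (ZL.cons (nat_lit 1216) (nat_lit 6) (nat_lit 178122786397584935832) (ZL.cons (nat_lit 1292) (nat_lit 6) (nat_lit 178055648440648619266) (ZL.cons (nat_lit 1368) (nat_lit 6) (nat_lit 176530894988473888138)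 (ZL.cons (nat_lit 1444) (nat_lit 3) (nat_lit 88248829188064588484) (ZL.cons (nat_lit 1520) (nat_lit 6) (nat_lit 175041467993663815886) (ZL.cons (nat_lit 1596) (nat_lit 6) (nat_lit 174975646467255662390) (ZL.cons (nat_lit 1748) (nat_lit 6) (nat_lit 173489015846612831018) (ZL.cons (nat_lit 1824) (nat_lit 3) (nat_lit 86728215466274694346) (ZL.cons (nat_lit 1900) (nat_lit 6) (nat_lit 172037183521800430762) (ZL.cons (nat_lit 1976) (nat_lit 6) (nat_lit 171972652613557143018) (ZL.cons (nat_lit 2052) (nat_lit 6) (nat_lit 170619580146808731264) (ZL.cons (nat_lit 2128) (nat_lit 6) (nat_lit 170523729636428340172) (ZL.cons (nat_lit 2204) (nat_lit 3) (nat_lit 85245891821124247377) (ZL.cons (nat_lit 2280) (nat_lit 6) (nat_lit 169109093796073910036) (ZL.cons (nat_lit 2356) (nat_lit 6) (nat_lit 169045828199756961270) (ZL.cons (nat_lit 2432) (nat_lit 6) (nat_lit 167728190333340772442) (ZL.cons (nat_lit 2508) (nat_lit 6) (nat_lit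 167634219244732545880) (ZL.cons (nat_lit 2584) (nat_lit 3) (nat_lit 83801449821297721266) (ZL.cons (nat_lit 2660) (nat_lit 6) (nat_lit 166256403205036023330) (ZL.cons (nat_lit 2736) (nat_lit 6) (nat_lit 166194378110607642186) (ZL.cons (nat_lit 2812) (nat_lit 6) (nat_lit 164911839760651826350) (ZL.cons (nat_lit 2888) (nat_lit 6) (nat_lit 164819711242408466978) (ZL.cons (nat_lit 2964) (nat_lit 3) (nat_lit 82394502875058594591) (ZL.cons (nat_lit 3116) (nat_lit 6) (nat_lit 163478359952951564286) (ZL.cons (nat_lit 3192) (nat_lit 6) (nat_lit 163417551036845308262) (ZL.cons (nat_lit 3268) (nat_lit 6) (nat_lit 162169798222123421606) (ZL.cons (nat_lit 3344) (nat_lit 6) (nat_lit 162079476145414245748) (ZL.cons (nat_lit 3420) (nat_lit 3) (nat_lit 81024686360799633760) (ZL.cons (nat_lit 3496) (nat_lit 6) (nat_lit 160893512888460969072) (ZL.cons (nat_lit 3572) (nat_lit 6) (nat_lit 160774256340572460046) (ZL.cons (nat_lit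 3648) (nat_lit 6) (nat_lit 160714639756154561984) (ZL.cons (nat_lit 3724) (nat_lit 6) (nat_lit 159501379771416091632) (ZL.cons (nat_lit 3800) (nat_lit 6) (nat_lit 159412828715818860402) (ZL.cons (nat_lit 3876) (nat_lit 3) (nat_lit 79691657777607970284) (ZL.cons (nat_lit 3952) (nat_lit 6) (nat_lit 158260347270663118404) (ZL.cons (nat_lit 4028) (nat_lit 6) (nat_lit 158143429086458697790) (ZL.cons (nat_lit 4104) (nat_lit 6) (nat_lit 158084981454676444788) (ZL.cons (nat_lit 4256) (nat_lit 6) (nat_lit 156905943064297854478) (ZL.cons (nat_lit 4332) (nat_lit 6) (nat_lit 156819128303908412092) (ZL.cons (nat_lit 4408) (nat_lit 3) (nat_lit 78395096916364539462) (ZL.cons (nat_lit 4484) (nat_lit 6) (nat_lit 155699885360700188954) (ZL.cons (nat_lit 4560) (nat_lit 6) (nat_lit 155585259689911541294) (ZL.cons (nat_lit 4636) (nat_lit 6) (nat_lit 155527958090125018742) (ZL.cons (nat_lit 4712) (nat_lit 6) (nat_lit 154524783011860368808)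 (ZL.cons (nat_lit 4788) (nat_lit 6) (nat_lit 154382891742641127738) (ZL.cons (nat_lit 4864) (nat_lit 6) (nat_lit 154297779232455399912) (ZL.cons (nat_lit 4940) (nat_lit 3) (nat_lit 77134706051924105264) (ZL.cons (nat_lit 5016) (nat_lit 6) (nat_lit 153211552945255104596) (ZL.cons (nat_lit 5092) (nat_lit 6) (nat_lit 153099174836638783360) (ZL.cons (nat_lit 5168) (nat_lit 6) (nat_lit 153042996797632388702) (ZL.cons (nat_lit 5244) (nat_lit 6) (nat_lit 152070783949205477348) (ZL.cons (nat_lit 5320) (nat_lit 6) (nat_lit 151931674861735633164) (ZL.cons (nat_lit 5396) (nat_lit 6) (nat_lit 151848231224298645096) (ZL.cons (nat_lit 5472) (nat_lit 3) (nat_lit 75910210156949719911) (ZL.cons (nat_lit 5624) (nat_lit 6) (nat_lit 150794821464618536320) (ZL.cons (nat_lit 5700) (nat_lit 6) (nat_lit 150684646848328025304) (ZL.cons (nat_lit 5776) (nat_lit 6) (nat_lit 150629570339498226620) (ZL.cons (nat_lit 5852) (nat_lit 6) (nat_lit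 149688168820425878282) (ZL.cons (nat_lit 5928) (nat_lit 6) (nat_lit 149551787362122109472) (ZL.cons (nat_lit 6004) (nat_lit 6) (nat_lit 149469979874438787840) (ZL.cons (nat_lit 6080) (nat_lit 3) (nat_lit 74721357138004097215) (ZL.cons (nat_lit 6156) (nat_lit 6) (nat_lit 148611282947728563890) (ZL.cons (nat_lit 6232) (nat_lit 6) (nat_lit 148449208507058856068) (ZL.cons (nat_lit 6308) (nat_lit 6) (nat_lit 148341194177362276642) (ZL.cons (nat_lit 6384) (nat_lit 6) (nat_lit 148287197600078160284) (ZL.cons (nat_lit 6460) (nat_lit 6) (nat_lit 147376477899273534400) (ZL.cons (nat_lit 6536) (nat_lit 6) (nat_lit 147242770587211015962) (ZL.cons (nat_lit 6612) (nat_lit 6) (nat_lit 147162567167913641810) (ZL.cons (nat_lit 6688) (nat_lit 3) (nat_lit 73567918094530059431) (ZL.cons (nat_lit 6764) (nat_lit 6) (nat_lit 146333174860096424738) (ZL.cons (nat_lit 6840) (nat_lit 6) (nat_lit 146174278349635926874) (ZL.cons (nat_lit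 6916) (nat_lit 6) (nat_lit 146068381947972613710) (ZL.cons (nat_lit 6992) (nat_lit 6) (nat_lit 146015444127105832968) (ZL.cons (nat_lit 7068) (nat_lit 6) (nat_lit 145318890251080790956) (ZL.cons (nat_lit 7144) (nat_lit 6) (nat_lit 145135298448073254442) (ZL.cons (nat_lit 7220) (nat_lit 6) (nat_lit 145004212848011961852) (ZL.cons (nat_lit 7296) (nat_lit 6) (nat_lit 144925582044779242098) (ZL.cons (nat_lit 7372) (nat_lit 3) (nat_lit 72449687601382992152) (ZL.cons (nat_lit 7448) (nat_lit 6) (nat_lit 144125423439424346636) (ZL.cons (nat_lit 7524) (nat_lit 6) (nat_lit 143969642546816015396) (ZL.cons (nat_lit 7600) (nat_lit 6) (nat_lit 143865822545185316216) (ZL.cons (nat_lit 7676) (nat_lit 6) (nat_lit 143813922720806119410) (ZL.cons (nat_lit 7752) (nat_lit 6) (nat_lit 143144257294274047028) (ZL.cons (nat_lit 7828) (nat_lit 6) (nat_lit 142964265330541168088) (ZL.cons (nat_lit 7904) (nat_lit 6) (nat_lit 142835750036363430258)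 (ZL.cons (nat_lit 7980) (nat_lit 6) (nat_lit 142758661013586254026) (ZL.cons (nat_lit 8056) (nat_lit 3) (nat_lit 71366484015610157507) (ZL.cons (nat_lit 8208) (nat_lit 6) (nat_lit 141987686933612410182) (ZL.cons (nat_lit 8284) (nat_lit 6) (nat_lit 141834960568310124652) (ZL.cons (nat_lit 8360) (nat_lit 6) (nat_lit 141733176252985909770) (ZL.cons (nat_lit 8436) (nat_lit 6) (nat_lit 141682294072221991332) (ZL.cons (nat_lit 8512) (nat_lit 6) (nat_lit 141039524384109377460) (ZL.cons (nat_lit 8588) (nat_lit 6) (nat_lit 140863061674567339288) (ZL.cons (nat_lit 8664) (nat_lit 6) (nat_lit 140737066288118576706) (ZL.cons (nat_lit 8740) (nat_lit 6) (nat_lit 140661488814807619618) (ZL.cons (nat_lit 8816) (nat_lit 3) (nat_lit 70318149808204820096) (ZL.cons (nat_lit 8892) (nat_lit 6) (nat_lit 140119405853581284420) (ZL.cons (nat_lit 8968) (nat_lit 6) (nat_lit 139919672218313998556) (ZL.cons (nat_lit 9044) (nat_lit 6) (nat_lit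 139769940487625483332) (ZL.cons (nat_lit 9120) (nat_lit 6) (nat_lit 139670151943189978544) (ZL.cons (nat_lit 9196) (nat_lit 6) (nat_lit 139620267452244960468) (ZL.cons (nat_lit 9348) (nat_lit 6) (nat_lit 139004422242900591344) (ZL.cons (nat_lit 9424) (nat_lit 6) (nat_lit 138831419586486828428) (ZL.cons (nat_lit 9500) (nat_lit 6) (nat_lit 138707894697811570998) (ZL.cons (nat_lit 9576) (nat_lit 6) (nat_lit 138633799135742005222) (ZL.cons (nat_lit 9652) (nat_lit 3) (nat_lit 69304551921597483286) (ZL.cons (nat_lit 9728) (nat_lit 6) (nat_lit 138116952826768132004) (ZL.cons (nat_lit 9804) (nat_lit 6) (nat_lit 137921135537290400764) (ZL.cons (nat_lit 9880) (nat_lit 6) (nat_lit 137774339722889895642) (ZL.cons (nat_lit 9956) (nat_lit 6) (nat_lit 137676507816580577224) (ZL.cons (nat_lit 10032) (nat_lit 6) (nat_lit 137627601452908990874) (ZL.cons (nat_lit 10108) (nat_lit 6) (nat_lit 137256915942694607806) (ZL.cons (nat_lit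 10184) (nat_lit 6) (nat_lit 137038731365899260562) (ZL.cons (nat_lit 10260) (nat_lit 6) (nat_lit 136869120918434787116) (ZL.cons (nat_lit 10336) (nat_lit 6) (nat_lit 136748018086400221006) (ZL.cons (nat_lit 10412) (nat_lit 6) (nat_lit 136675375378488882014) (ZL.cons (nat_lit 10488) (nat_lit 3) (nat_lit 68325582153682167157) (ZL.cons (nat_lit 10640) (nat_lit 6) (nat_lit 136183861031461881884) (ZL.cons (nat_lit 10716) (nat_lit 6) (nat_lit 135991883296679792434) (ZL.cons (nat_lit 10792) (nat_lit 6) (nat_lit 135847965831581258000) (ZL.cons (nat_lit 10868) (nat_lit 6) (nat_lit 135752052197944671316) (ZL.cons (nat_lit 10944) (nat_lit 6) (nat_lit 135704104782580370974) (ZL.cons (nat_lit 11020) (nat_lit 6) (nat_lit 135356189290709857916) (ZL.cons (nat_lit 11096) (nat_lit 6) (nat_lit 135142282842871282186) (ZL.cons (nat_lit 11172) (nat_lit 6) (nat_lit 134975998090455131748) (ZL.cons (nat_lit 11248) (nat_lit 6) (nat_lit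 134857269823754576740) (ZL.cons (nat_lit 11324) (nat_lit 6) (nat_lit 134786051482665028706) (ZL.cons (nat_lit 11400) (nat_lit 3) (nat_lit 67381157569212638032) (ZL.cons (nat_lit 11476) (nat_lit 6) (nat_lit 134555391566489952570) (ZL.cons (nat_lit 11552) (nat_lit 6) (nat_lit 134319986380360704018) (ZL.cons (nat_lit 11628) (nat_lit 6) (nat_lit 134131772914888067300) (ZL.cons (nat_lit 11704) (nat_lit 6) (nat_lit 133990677360869896288) (ZL.cons (nat_lit 11780) (nat_lit 6) (nat_lit 133896644386716379930) (ZL.cons (nat_lit 11856) (nat_lit 6) (nat_lit 133849637116751379596) (ZL.cons (nat_lit 12008) (nat_lit 6) (nat_lit 133524671439947073388) (ZL.cons (nat_lit 12084) (nat_lit 6) (nat_lit 133314959236183763848) (ZL.cons (nat_lit 12160) (nat_lit 6) (nat_lit 133151934969109106556) (ZL.cons (nat_lit 12236) (nat_lit 6) (nat_lit 133035534707637974194) (ZL.cons (nat_lit 12312) (nat_lit 6) (nat_lit 132965712804609005536) (ZL.cons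 (nat_lit 12388) (nat_lit 3) (nat_lit 66471220939441878922) (ZL.cons (nat_lit 12464) (nat_lit 6) (nat_lit 132756026133418463378) (ZL.cons (nat_lit 12540) (nat_lit 6) (nat_lit 132525236735252533426) (ZL.cons (nat_lit 12616) (nat_lit 6) (nat_lit 132340713729887203312) (ZL.cons (nat_lit 12692) (nat_lit 6) (nat_lit 132202384755359584670) (ZL.cons (nat_lit 12768) (nat_lit 6) (nat_lit 132110195565013000008) (ZL.cons (nat_lit 12844) (nat_lit 6) (nat_lit 132064110006223783992) (ZL.cons (nat_lit 12920) (nat_lit 6) (nat_lit 132013749031242901990) (ZL.cons (nat_lit 12996) (nat_lit 6) (nat_lit 131762295716995971630) (ZL.cons (nat_lit 13072) (nat_lit 6) (nat_lit 131556695517228021104) (ZL.cons (nat_lit 13148) (nat_lit 6) (nat_lit 131396867804409729640) (ZL.cons (nat_lit 13224) (nat_lit 6) (nat_lit 131282749901006658698) (ZL.cons (nat_lit 13300) (nat_lit 6) (nat_lit 131214297054899826678) (ZL.cons (nat_lit 13376) (nat_lit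 3) (nat_lit 65595741210917929177) (ZL.cons (nat_lit 13528) (nat_lit 6) (nat_lit 131025836988857899422) (ZL.cons (nat_lit 13604) (nat_lit 6) (nat_lit 130799572873008948488) (ZL.cons (nat_lit 13680) (nat_lit 6) (nat_lit 130618667965788036612) (ZL.cons (nat_lit 13756) (nat_lit 6) (nat_lit 130483051324094292848) (ZL.cons (nat_lit 13832) (nat_lit 6) (nat_lit 130392669764930974548) (ZL.cons (nat_lit 13908) (nat_lit 6) (nat_lit 130347487844549390220) (ZL.cons (nat_lit 13984) (nat_lit 6) (nat_lit 130315571743493948924) (ZL.cons (nat_lit 14060) (nat_lit 6) (nat_lit 130069048886389115240) (ZL.cons (nat_lit 14136) (nat_lit 6) (nat_lit 129867480063087202956) (ZL.cons (nat_lit 14212) (nat_lit 6) (nat_lit 129710786226990838780) (ZL.cons (nat_lit 14288) (nat_lit 6) (nat_lit 129598905929536847658) (ZL.cons (nat_lit 14364) (nat_lit 6) (nat_lit 129531795296098777050) (ZL.cons (nat_lit 14440) (nat_lit 3) (nat_lit 64754714004390580523)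 (ZL.cons (nat_lit 14516) (nat_lit 6) (nat_lit 129631221445513781334) (ZL.cons (nat_lit 14592) (nat_lit 6) (nat_lit 129364837077373768482) (ZL.cons (nat_lit 14668) (nat_lit 6) (nat_lit 129143009512815973448) (ZL.cons (nat_lit 14744) (nat_lit 6) (nat_lit 128965651760638608864) (ZL.cons (nat_lit 14820) (nat_lit 6) (nat_lit 128832694268781997330) (ZL.cons (nat_lit 14896) (nat_lit 6) (nat_lit 128744084897053253900) (ZL.cons (nat_lit 14972) (nat_lit 6) (nat_lit 128699788896679151616) (ZL.cons (nat_lit 15048) (nat_lit 6) (nat_lit 128972517722251522078) (ZL.cons (nat_lit 15124) (nat_lit 6) (nat_lit 128686661284469176710) (ZL.cons (nat_lit 15200) (nat_lit 6) (nat_lit 128444972208876202508) (ZL.cons (nat_lit 15276) (nat_lit 6) (nat_lit 128247355715442955174) (ZL.cons (nat_lit 15352) (nat_lit 6) (nat_lit 128093734307505343232) (ZL.cons (nat_lit 15428) (nat_lit 6) (nat_lit 127984047741373979390) (ZL.cons (nat_lit 15504)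 (nat_lit 6) (nat_lit 127918253002709204284) (ZL.cons (nat_lit 15580) (nat_lit 3) (nat_lit 63948162144826359002) (ZL.cons (nat_lit 15656) (nat_lit 6) (nat_lit 128034255556384004784) (ZL.cons (nat_lit 15732) (nat_lit 6) (nat_lit 127773094411148698066) (ZL.cons (nat_lit 15808) (nat_lit 6) (nat_lit 127555616406680271564) (ZL.cons (nat_lit 15884) (nat_lit 6) (nat_lit 127381736257486776872) (ZL.cons (nat_lit 15960) (nat_lit 6) (nat_lit 127251385775274412622) (ZL.cons (nat_lit 16036) (nat_lit 6) (nat_lit 127164513842207017104) (ZL.cons (nat_lit 16112) (nat_lit 6) (nat_lit 127121086390859858002) (ZL.cons (nat_lit 16188) (nat_lit 6) (nat_lit 127407364047734689896) (ZL.cons (nat_lit 16264) (nat_lit 6) (nat_lit 127127112638144155220) (ZL.cons (nat_lit 16340) (nat_lit 6) (nat_lit 126890162564033396202) (ZL.cons (nat_lit 16416) (nat_lit 6) (nat_lit 126696420903804722342) (ZL.cons (nat_lit 16492) (nat_lit 6) (nat_lit 126545811680336475342)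 (ZL.cons (nat_lit 16568) (nat_lit 6) (nat_lit 126438275831188079416) (ZL.cons (nat_lit 16644) (nat_lit 6) (nat_lit 126373771185438299902) (ZL.cons (nat_lit 16720) (nat_lit 3) (nat_lit 63176136223573813540) (ZL.cons (nat_lit 16796) (nat_lit 6) (nat_lit 126805740918713918588) (ZL.cons (nat_lit 16872) (nat_lit 6) (nat_lit 126506773563677081992) (ZL.cons (nat_lit 16948) (nat_lit 6) (nat_lit 126250733225211095016) (ZL.cons (nat_lit 17024) (nat_lit 6) (nat_lit 126037519495340088640) (ZL.cons (nat_lit 17100) (nat_lit 6) (nat_lit 125867048760836662472) (ZL.cons (nat_lit 17176) (nat_lit 6) (nat_lit 125739254170432383796) (ZL.cons (nat_lit 17252) (nat_lit 6) (nat_lit 125654085608601603874) (ZL.cons (nat_lit 17328) (nat_lit 6) (nat_lit 125611509675908310640) (ZL.cons (nat_lit 17404) (nat_lit 6) (nat_lit 126229150238682859186) (ZL.cons (nat_lit 17480) (nat_lit 6) (nat_lit 125911833917522197178) (ZL.cons (nat_lit 17556)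 (nat_lit 6) (nat_lit 125637077633609908282) (ZL.cons (nat_lit 17632) (nat_lit 6) (nat_lit 125404773639383673948) (ZL.cons (nat_lit 17708) (nat_lit 6) (nat_lit 125214830835237915264) (ZL.cons (nat_lit 17784) (nat_lit 6) (nat_lit 125067174733798457420) (ZL.cons (nat_lit 17860) (nat_lit 6) (nat_lit 124961747430711794748) (ZL.cons (nat_lit 17936) (nat_lit 6) (nat_lit 124898507581937501106) (ZL.cons (nat_lit 18012) (nat_lit 3) (nat_lit 62438715193767440347) (ZL.cons (nat_lit 18088) (nat_lit 6) (nat_lit 125342060390014341998) (ZL.cons (nat_lit 18164) (nat_lit 6) (nat_lit 125048955139978227690) (ZL.cons (nat_lit 18240) (nat_lit 6) (nat_lit 124797935200305691436) (ZL.cons (nat_lit 18316) (nat_lit 6) (nat_lit 124588902131804704794) (ZL.cons (nat_lit 18392) (nat_lit 6) (nat_lit 124421773960722914434) (ZL.cons (nat_lit 18468) (nat_lit 6) (nat_lit 124296485146601072594) (ZL.cons (nat_lit 18544) (nat_lit 6) (nat_lit 124212986556570896202)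 (ZL.cons (nat_lit 18620) (nat_lit 6) (nat_lit 124171245446087275382) (ZL.cons (nat_lit 18696) (nat_lit 6) (nat_lit 124797229540554493764) (ZL.cons (nat_lit 18772) (nat_lit 6) (nat_lit 124486135108044040818) (ZL.cons (nat_lit 18848) (nat_lit 6) (nat_lit 124216766202247679152) (ZL.cons (nat_lit 18924) (nat_lit 6) (nat_lit 123989017188300390590) (ZL.cons (nat_lit 19000) (nat_lit 6) (nat_lit 123802798752863372272) (ZL.cons (nat_lit 19076) (nat_lit 6) (nat_lit 123658037869099197916) (ZL.cons (nat_lit 19152) (nat_lit 6) (nat_lit 123554677768033842356) (ZL.cons (nat_lit 19228) (nat_lit 6) (nat_lit 123492677916294338786) (ZL.cons (nat_lit 19304) (nat_lit 3) (nat_lit 61736007000106669189) (ZL.cons (nat_lit 19380) (nat_lit 6) (nat_lit 124277127709986001556) (ZL.cons (nat_lit 19456) (nat_lit 6) (nat_lit 123948396824069334258) (ZL.cons (nat_lit 19532) (nat_lit 6) (nat_lit 123661038735798633954) (ZL.cons (nat_lit 19608)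 (nat_lit 6) (nat_lit 123414940755727519980) (ZL.cons (nat_lit 19684) (nat_lit 6) (nat_lit 123210006374844199742) (ZL.cons (nat_lit 19760) (nat_lit 6) (nat_lit 123046155226724797428) (ZL.cons (nat_lit 19836) (nat_lit 6) (nat_lit 122923323056017109352) (ZL.cons (nat_lit 19912) (nat_lit 6) (nat_lit 122841461693242426614) (ZL.cons (nat_lit 19988) (nat_lit 6) (nat_lit 122800539035905543456) (ZL.cons (nat_lit 20064) (nat_lit 6) (nat_lit 123781550936806681652) (ZL.cons (nat_lit 20140) (nat_lit 6) (nat_lit 123435529410295686558) (ZL.cons (nat_lit 20216) (nat_lit 6) (nat_lit 123130534868618771902) (ZL.cons (nat_lit 20292) (nat_lit 6) (nat_lit 122866447706073319290) (ZL.cons (nat_lit 20368) (nat_lit 6) (nat_lit 122643164359066173640) (ZL.cons (nat_lit 20444) (nat_lit 6) (nat_lit 122460597265500469406) (ZL.cons (nat_lit 20520) (nat_lit 6) (nat_lit 122318674830437553372) (ZL.cons (nat_lit 20596) (nat_lit 6) (nat_lit 122217341398020538118)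 (ZL.cons (nat_lit 20672) (nat_lit 6) (nat_lit 122156557229648475792) (ZL.cons (nat_lit 20748) (nat_lit 3) (nat_lit 61068149244196296521) (ZL.cons (nat_lit 20824) (nat_lit 6) (nat_lit 122947331742247108052) (ZL.cons (nat_lit 20900) (nat_lit 6) (nat_lit 122625046559975865600) (ZL.cons (nat_lit 20976) (nat_lit 6) (nat_lit 122343322944024198636) (ZL.cons (nat_lit 21052) (nat_lit 6) (nat_lit 122102050414542714348) (ZL.cons (nat_lit 21128) (nat_lit 6) (nat_lit 121901134354853184702) (ZL.cons (nat_lit 21204) (nat_lit 6) (nat_lit 121740495974343966748) (ZL.cons (nat_lit 21280) (nat_lit 6) (nat_lit 121620072277571723536) (ZL.cons (nat_lit 21356) (nat_lit 6) (nat_lit 121539816039557328694) (ZL.cons (nat_lit 21432) (nat_lit 6) (nat_lit 121499695787266266776) (ZL.cons (nat_lit 21508) (nat_lit 6) (nat_lit 122483612369857697334) (ZL.cons (nat_lit 21584) (nat_lit 6) (nat_lit 122144375579160643318) (ZL.cons (nat_lit 21660)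 (nat_lit 6) (nat_lit 121845361322614648558) (ZL.cons (nat_lit 21736) (nat_lit 6) (nat_lit 121586452339726949918) (ZL.cons (nat_lit 21812) (nat_lit 6) (nat_lit 121367547097563081634) (ZL.cons (nat_lit 21888) (nat_lit 6) (nat_lit 121188559750930038268) (ZL.cons (nat_lit 21964) (nat_lit 6) (nat_lit 121049420108711493136) (ZL.cons (nat_lit 22040) (nat_lit 6) (nat_lit 120950073606341870336) (ZL.cons (nat_lit 22116) (nat_lit 6) (nat_lit 120890481284408475902) (ZL.cons (nat_lit 22192) (nat_lit 3) (nat_lit 60435309886686648367) (ZL.cons (nat_lit 22268) (nat_lit 6) (nat_lit 122044189442393184048) (ZL.cons (nat_lit 22344) (nat_lit 6) (nat_lit 121688333427749255950) (ZL.cons (nat_lit 22420) (nat_lit 6) (nat_lit 121372367562777449626) (ZL.cons (nat_lit 22496) (nat_lit 6) (nat_lit 121096167939295423190) (ZL.cons (nat_lit 22572) (nat_lit 6) (nat_lit 120859626243725340554) (ZL.cons (nat_lit 22648) (nat_lit 6) (nat_lit 120662649714617958550)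 (ZL.cons (nat_lit 22724) (nat_lit 6) (nat_lit 120505161106275588006) (ZL.cons (nat_lit 22800) (nat_lit 6) (nat_lit 120387098658459663286) (ZL.cons (nat_lit 22876) (nat_lit 6) (nat_lit 120308416072171040894) (ZL.cons (nat_lit 22952) (nat_lit 6) (nat_lit 120269082491493529210) (ZL.cons (nat_lit 23028) (nat_lit 6) (nat_lit 121628890637136915446) (ZL.cons (nat_lit 23104) (nat_lit 6) (nat_lit 121256741265682326482) (ZL.cons (nat_lit 23180) (nat_lit 6) (nat_lit 120924156176763646076) (ZL.cons (nat_lit 23256) (nat_lit 6) (nat_lit 120631004944855808076) (ZL.cons (nat_lit 23332) (nat_lit 6) (nat_lit 120377172608691397644) (ZL.cons (nat_lit 23408) (nat_lit 6) (nat_lit 120162559626177801288) (ZL.cons (nat_lit 23484) (nat_lit 6) (nat_lit 119987081835361092106) (ZL.cons (nat_lit 23560) (nat_lit 6) (nat_lit 119850670421421341974) (ZL.cons (nat_lit 23636) (nat_lit 6) (nat_lit 119753271889686417662) (ZL.cons (nat_lit 23712)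 (nat_lit 6) (nat_lit 119694848044653678020) (ZL.cons (nat_lit 23788) (nat_lit 3) (nat_lit 59837687987505672752) (ZL.cons (nat_lit 23864) (nat_lit 6) (nat_lit 120849429841131593374) (ZL.cons (nat_lit 23940) (nat_lit 6) (nat_lit 120500551395402252102) (ZL.cons (nat_lit 24016) (nat_lit 6) (nat_lit 120190780939547540020) (ZL.cons (nat_lit 24092) (nat_lit 6) (nat_lit 119919996994957318024) (ZL.cons (nat_lit 24168) (nat_lit 6) (nat_lit 119688093371849393872) (ZL.cons (nat_lit 24244) (nat_lit 6) (nat_lit 119494979127626470338) (ZL.cons (nat_lit 24320) (nat_lit 6) (nat_lit 119340578531212381568) (ZL.cons (nat_lit 24396) (nat_lit 6) (nat_lit 119224831033353631844) (ZL.cons (nat_lit 24472) (nat_lit 6) (nat_lit 119147691242874590282) (ZL.cons (nat_lit 24548) (nat_lit 6) (nat_lit 119109128908877029808) (ZL.cons (nat_lit 24624) (nat_lit 6) (nat_lit 120466239424126644572) (ZL.cons (nat_lit 24700) (nat_lit 6) (nat_lit 120101387099171165196)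 (ZL.cons (nat_lit 24776) (nat_lit 6) (nat_lit 119775323286505792248) (ZL.cons (nat_lit 24852) (nat_lit 6) (nat_lit 119487920117968696170) (ZL.cons (nat_lit 24928) (nat_lit 6) (nat_lit 119239064886434960454) (ZL.cons (nat_lit 25004) (nat_lit 6) (nat_lit 119028660001617709124) (ZL.cons (nat_lit 25080) (nat_lit 6) (nat_lit 118856622951797406002) (ZL.cons (nat_lit 25156) (nat_lit 6) (nat_lit 118722886271464317640) (ZL.cons (nat_lit 25232) (nat_lit 6) (nat_lit 118627397514861450666) (ZL.cons (nat_lit 25308) (nat_lit 6) (nat_lit 118570119235417588272) (ZL.cons (nat_lit 25384) (nat_lit 3) (nat_lit 59275514485531180157) (ZL.cons (nat_lit 25460) (nat_lit 6) (nat_lit 120107019743915713430) (ZL.cons (nat_lit 25536) (nat_lit 6) (nat_lit 119726506753052255522) (ZL.cons (nat_lit 25612) (nat_lit 6) (nat_lit 119384469061160744470) (ZL.cons (nat_lit 25688) (nat_lit 6) (nat_lit 119080772535812987526) (ZL.cons (nat_lit 25764)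 (nat_lit 6) (nat_lit 118815298080332377728) (ZL.cons (nat_lit 25840) (nat_lit 6) (nat_lit 118587941587089314834) (ZL.cons (nat_lit 25916) (nat_lit 6) (nat_lit 118398613896674683916) (ZL.cons (nat_lit 25992) (nat_lit 6) (nat_lit 118247240762935381202) (ZL.cons (nat_lit 26068) (nat_lit 6) (nat_lit 118133762823858175590) (ZL.cons (nat_lit 26144) (nat_lit 6) (nat_lit 118058135578290487784) (ZL.cons (nat_lit 26220) (nat_lit 6) (nat_lit 118020329368488957906) (ZL.cons (nat_lit 26296) (nat_lit 6) (nat_lit 119771629930035972130) (ZL.cons (nat_lit 26372) (nat_lit 6) (nat_lit 119375763345145084288) (ZL.cons (nat_lit 26448) (nat_lit 6) (nat_lit 119018064987345594704) (ZL.cons (nat_lit 26524) (nat_lit 6) (nat_lit 118698394582771699656) (ZL.cons (nat_lit 26600) (nat_lit 6) (nat_lit 118416626770480428992) (ZL.cons (nat_lit 26676) (nat_lit 6) (nat_lit 118172651053290492016) (ZL.cons (nat_lit 26752) (nat_lit 6) (nat_lit 117966371754450049534)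 (ZL.cons (nat_lit 26828) (nat_lit 6) (nat_lit 117797707980116419024) (ZL.cons (nat_lit 26904) (nat_lit 6) (nat_lit 117666593587632999060) (ZL.cons (nat_lit 26980) (nat_lit 6) (nat_lit 117572977159590972616) (ZL.cons (nat_lit 27056) (nat_lit 6) (nat_lit 117516821983665617326) (ZL.cons (nat_lit 27132) (nat_lit 3) (nat_lit 58749053019109657703) (ZL.cons (nat_lit 27208) (nat_lit 6) (nat_lit 119459938457070212934) (ZL.cons (nat_lit 27284) (nat_lit 6) (nat_lit 119049019329015178098) (ZL.cons (nat_lit 27360) (nat_lit 6) (nat_lit 118675967377188258580) (ZL.cons (nat_lit 27436) (nat_lit 6) (nat_lit 118340636306706385000) (ZL.cons (nat_lit 27512) (nat_lit 6) (nat_lit 118042894615188976232) (ZL.cons (nat_lit 27588) (nat_lit 6) (nat_lit 117782625541188378390) (ZL.cons (nat_lit 27664) (nat_lit 6) (nat_lit 117559727018401061826) (ZL.cons (nat_lit 27740) (nat_lit 6) (nat_lit 117374111635641619752) (ZL.cons (nat_lit 27816)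 (nat_lit 6) (nat_lit 117225706602563871992) (ZL.cons (nat_lit 27892) (nat_lit 6) (nat_lit 117114453721115631196) (ZL.cons (nat_lit 27968) (nat_lit 6) (nat_lit 117040309362715937268) (ZL.cons (nat_lit 28044) (nat_lit 6) (nat_lit 117003244451145809936) (ZL.cons (nat_lit 28196) (nat_lit 6) (nat_lit 119171823093068253190) (ZL.cons (nat_lit 28272) (nat_lit 6) (nat_lit 118746146569754250712) (ZL.cons (nat_lit 28348) (nat_lit 6) (nat_lit 118358042074763184200) (ZL.cons (nat_lit 28424) (nat_lit 6) (nat_lit 118007357410253880686) (ZL.cons (nat_lit 28500) (nat_lit 6) (nat_lit 117693955052828493386) (ZL.cons (nat_lit 28576) (nat_lit 6) (nat_lit 117417712099601757440) (ZL.cons (nat_lit 28652) (nat_lit 6) (nat_lit 117178520220003780010) (ZL.cons (nat_lit 28728) (nat_lit 6) (nat_lit 116976285613297463854) (ZL.cons (nat_lit 28804) (nat_lit 6) (nat_lit 116810928971793904530) (ZL.cons (nat_lit 28880) (nat_lit 6) (nat_lit 116682385449751335938)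 (ZL.cons (nat_lit 28956) (nat_lit 6) (nat_lit 116590604637945427658) (ZL.cons (nat_lit 29032) (nat_lit 6) (nat_lit 116535550543900961688) (ZL.cons (nat_lit 29108) (nat_lit 3) (nat_lit 58258600788888568138) (ZL.cons (nat_lit 29184) (nat_lit 6) (nat_lit 116939646840957458466) (ZL.cons (nat_lit 29260) (nat_lit 6) (nat_lit 116962690892929159732) (ZL.cons (nat_lit 29336) (nat_lit 6) (nat_lit 117008788033755688422) (ZL.cons (nat_lit 29412) (nat_lit 6) (nat_lit 117077956340747172590) (ZL.cons (nat_lit 29488) (nat_lit 6) (nat_lit 117170222938729883404) (ZL.cons (nat_lit 29564) (nat_lit 6) (nat_lit 117285624010683421922) (ZL.cons (nat_lit 29640) (nat_lit 6) (nat_lit 117424204811930122872) (ZL.cons (nat_lit 29716) (nat_lit 6) (nat_lit 117586019687882239860) (ZL.cons (nat_lit 29792) (nat_lit 6) (nat_lit 117771132095353871754) (ZL.cons (nat_lit 29868) (nat_lit 6) (nat_lit 117979614627445987822) (ZL.cons (nat_lit 29944)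 (nat_lit 6) (nat_lit 118211549042014310464) (ZL.cons (nat_lit 30020) (nat_lit 6) (nat_lit 118467026293731219414) (ZL.cons (nat_lit 30096) (nat_lit 6) (nat_lit 118064164403481185260) (ZL.cons (nat_lit 30172) (nat_lit 6) (nat_lit 117698427195807734752) (ZL.cons (nat_lit 30248) (nat_lit 6) (nat_lit 117369671244354917518) (ZL.cons (nat_lit 30324) (nat_lit 6) (nat_lit 117077767625220203040) (ZL.cons (nat_lit 30400) (nat_lit 6) (nat_lit 116822601866396087506) (ZL.cons (nat_lit 30476) (nat_lit 6) (nat_lit 116604073902879110484) (ZL.cons (nat_lit 30552) (nat_lit 6) (nat_lit 116422098037428677078) (ZL.cons (nat_lit 30628) (nat_lit 6) (nat_lit 116276602906960296922) (ZL.cons (nat_lit 30704) (nat_lit 6) (nat_lit 116167531454560060846) (ZL.cons (nat_lit 30780) (nat_lit 6) (nat_lit 116094840907109380524) (ZL.cons (nat_lit 30856) (nat_lit 6) (nat_lit 116058502758511216474) (ZL.cons (nat_lit 30932) (nat_lit 3) (nat_lit 58190360230155948012)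 (ZL.cons (nat_lit 31008) (nat_lit 6) (nat_lit 116392356565762953098) (ZL.cons (nat_lit 31084) (nat_lit 6) (nat_lit 116427269445294732582) (ZL.cons (nat_lit 31160) (nat_lit 6) (nat_lit 116485472790232541054) (ZL.cons (nat_lit 31236) (nat_lit 6) (nat_lit 116566989425417530600) (ZL.cons (nat_lit 31312) (nat_lit 6) (nat_lit 116671851318157616896) (ZL.cons (nat_lit 31388) (nat_lit 6) (nat_lit 116800099590763678410) (ZL.cons (nat_lit 31464) (nat_lit 6) (nat_lit 116951784536675952814) (ZL.cons (nat_lit 31540) (nat_lit 6) (nat_lit 117126965640186954724) (ZL.cons (nat_lit 31616) (nat_lit 6) (nat_lit 117325711599768649240) (ZL.cons (nat_lit 31692) (nat_lit 6) (nat_lit 117548100355013029182) (ZL.cons (nat_lit 31768) (nat_lit 6) (nat_lit 117794219117196660978) (ZL.cons (nat_lit 31844) (nat_lit 6) (nat_lit 117413724514264242828) (ZL.cons (nat_lit 31920) (nat_lit 6) (nat_lit 117069916019647278600) (ZL.cons (nat_lit 31996)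 (nat_lit 6) (nat_lit 116762658806485134188) (ZL.cons (nat_lit 32072) (nat_lit 6) (nat_lit 116491832381753040122) (ZL.cons (nat_lit 32148) (nat_lit 6) (nat_lit 116257330539009924996) (ZL.cons (nat_lit 32224) (nat_lit 6) (nat_lit 116059061316748830724) (ZL.cons (nat_lit 32300) (nat_lit 6) (nat_lit 115896946962333576486) (ZL.cons (nat_lit 32376) (nat_lit 6) (nat_lit 115770923901507528846) (ZL.cons (nat_lit 32452) (nat_lit 6) (nat_lit 115680942713462520728) (ZL.cons (nat_lit 32528) (nat_lit 6) (nat_lit 115626968111458142326) (ZL.cons (nat_lit 32604) (nat_lit 3) (nat_lit 57804489464491901844) (ZL.cons (nat_lit 32680) (nat_lit 6) (nat_lit 115855797472435006660) (ZL.cons (nat_lit 32756) (nat_lit 6) (nat_lit 115879302405446141952) (ZL.cons (nat_lit 32832) (nat_lit 6) (nat_lit 115926321489089201218) (ZL.cons (nat_lit 32908) (nat_lit 6) (nat_lit 115996873162220515068) (ZL.cons (nat_lit 32984) (nat_lit 6) (nat_lit 116090985092162880096)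 (ZL.cons (nat_lit 33060) (nat_lit 6) (nat_lit 116208694185555489388) (ZL.cons (nat_lit 33136) (nat_lit 6) (nat_lit 116350046602827124356) (ZL.cons (nat_lit 33212) (nat_lit 6) (nat_lit 116515097776298283682) (ZL.cons (nat_lit 33288) (nat_lit 6) (nat_lit 116703912431919348214) (ZL.cons (nat_lit 33364) (nat_lit 6) (nat_lit 116916564614653306604) (ZL.cons (nat_lit 33440) (nat_lit 6) (nat_lit 117153137717512995700) (ZL.cons (nat_lit 33516) (nat_lit 6) (nat_lit 116794571827637063830) (ZL.cons (nat_lit 33592) (nat_lit 6) (nat_lit 116472262071310772424) (ZL.cons (nat_lit 33668) (nat_lit 6) (nat_lit 116186082052551248424) (ZL.cons (nat_lit 33744) (nat_lit 6) (nat_lit 115935919543900154766) (ZL.cons (nat_lit 33820) (nat_lit 6) (nat_lit 115721676442412922390) (ZL.cons (nat_lit 33896) (nat_lit 6) (nat_lit 115543268731187007286) (ZL.cons (nat_lit 33972) (nat_lit 6) (nat_lit 115400626446414085564) (ZL.cons (nat_lit 34048)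 (nat_lit 6) (nat_lit 115293693649943265882) (ZL.cons (nat_lit 34124) (nat_lit 6) (nat_lit 115222428407344559684) (ZL.cons (nat_lit 34200) (nat_lit 6) (nat_lit 115186802771464006694) (ZL.cons (nat_lit 34276) (nat_lit 3) (nat_lit 57676401598807301788) (ZL.cons (nat_lit 34352) (nat_lit 6) (nat_lit 115364672025174681794) (ZL.cons (nat_lit 34428) (nat_lit 6) (nat_lit 115400283162297096868) (ZL.cons (nat_lit 34504) (nat_lit 6) (nat_lit 115459650574133661512) (ZL.cons (nat_lit 34580) (nat_lit 6) (nat_lit 115542797542022350844) (ZL.cons (nat_lit 34656) (nat_lit 6) (nat_lit 115649756672617238868) (ZL.cons (nat_lit 34732) (nat_lit 6) (nat_lit 115780569910675421614) (ZL.cons (nat_lit 34808) (nat_lit 6) (nat_lit 115935288555505941504) (ZL.cons (nat_lit 34884) (nat_lit 6) (nat_lit 116113973281087163452) (ZL.cons (nat_lit 34960) (nat_lit 6) (nat_lit 116316694159860491858) (ZL.cons (nat_lit 35036) (nat_lit 6) (nat_lit 116543530690209759402)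 (ZL.cons (nat_lit 35112) (nat_lit 6) (nat_lit 116206463538624500354) (ZL.cons (nat_lit 35188) (nat_lit 6) (nat_lit 115905230976700829360) (ZL.cons (nat_lit 35264) (nat_lit 6) (nat_lit 115639714874022305768) (ZL.cons (nat_lit 35340) (nat_lit 6) (nat_lit 115409811106627094860) (ZL.cons (nat_lit 35416) (nat_lit 6) (nat_lit 115215429516175041652) (ZL.cons (nat_lit 35492) (nat_lit 6) (nat_lit 115056493874591459064) (ZL.cons (nat_lit 35568) (nat_lit 6) (nat_lit 114932941854173765300) (ZL.cons (nat_lit 35644) (nat_lit 6) (nat_lit 114844725003149247538) (ZL.cons (nat_lit 35720) (nat_lit 6) (nat_lit 114791808726674366752) (ZL.cons (nat_lit 35796) (nat_lit 3) (nat_lit 57387086136634076200) (ZL.cons (nat_lit 35872) (nat_lit 6) (nat_lit 114883176488644951532) (ZL.cons (nat_lit 35948) (nat_lit 6) (nat_lit 114907151520316309532) (ZL.cons (nat_lit 36024) (nat_lit 6) (nat_lit 114955110985632229984) (ZL.cons (nat_lit 36100)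 (nat_lit 6) (nat_lit 115027073692226170110) (ZL.cons (nat_lit 36176) (nat_lit 6) (nat_lit 115123067860767382438) (ZL.cons (nat_lit 36252) (nat_lit 6) (nat_lit 115243131136027843916) (ZL.cons (nat_lit 36328) (nat_lit 6) (nat_lit 115387310601644911584) (ZL.cons (nat_lit 36404) (nat_lit 6) (nat_lit 115555662798585494096) (ZL.cons (nat_lit 36480) (nat_lit 6) (nat_lit 115748253747318979918) (ZL.cons (nat_lit 36556) (nat_lit 6) (nat_lit 115965158973707617478) (ZL.cons (nat_lit 36632) (nat_lit 6) (nat_lit 115649169016524978842) (ZL.cons (nat_lit 36708) (nat_lit 6) (nat_lit 115368600370682308256) (ZL.cons (nat_lit 36784) (nat_lit 6) (nat_lit 115123343009259667414) (ZL.cons (nat_lit 36860) (nat_lit 6) (nat_lit 114913300752899635674) (ZL.cons (nat_lit 36936) (nat_lit 6) (nat_lit 114738391232089914982) (ZL.cons (nat_lit 37012) (nat_lit 6) (nat_lit 114598545854861560352) (ZL.cons (nat_lit 37088) (nat_lit 6) (nat_lit 114493709779890168508)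 (ZL.cons (nat_lit 37164) (nat_lit 6) (nat_lit 114423841894989476158) (ZL.cons (nat_lit 37240) (nat_lit 6) (nat_lit 114388914800988934010) (ZL.cons (nat_lit 37316) (nat_lit 3) (nat_lit 57217313487038959950) (ZL.cons (nat_lit 37392) (nat_lit 6) (nat_lit 114446733178189199682) (ZL.cons (nat_lit 37468) (nat_lit 6) (nat_lit 114483056538054063060) (ZL.cons (nat_lit 37544) (nat_lit 6) (nat_lit 114543611298127358994) (ZL.cons (nat_lit 37620) (nat_lit 6) (nat_lit 114628421205373822116) (ZL.cons (nat_lit 37696) (nat_lit 6) (nat_lit 114737519518580607898) (ZL.cons (nat_lit 37772) (nat_lit 6) (nat_lit 114870949021399954298) (ZL.cons (nat_lit 37848) (nat_lit 6) (nat_lit 115028762039127084588) (ZL.cons (nat_lit 37924) (nat_lit 6) (nat_lit 115211020459219930974) (ZL.cons (nat_lit 38000) (nat_lit 6) (nat_lit 115417795755568725950) (ZL.cons (nat_lit 38076) (nat_lit 6) (nat_lit 115122469714467087722) (ZL.cons (nat_lit 38152)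 (nat_lit 6) (nat_lit 114862159809880299886) (ZL.cons (nat_lit 38228) (nat_lit 6) (nat_lit 114636763959492838212) (ZL.cons (nat_lit 38304) (nat_lit 6) (nat_lit 114446193772775138988) (ZL.cons (nat_lit 38380) (nat_lit 6) (nat_lit 114290374516320646254) (ZL.cons (nat_lit 38456) (nat_lit 6) (nat_lit 114169245084538593544) (ZL.cons (nat_lit 38532) (nat_lit 6) (nat_lit 114082757975691027112) (ZL.cons (nat_lit 38608) (nat_lit 6) (nat_lit 114030879273264673400) (ZL.cons (nat_lit 38684) (nat_lit 3) (nat_lit 57006794316335172802) (ZL.cons (nat_lit 38760) (nat_lit 6) (nat_lit 114018847579703168458) (ZL.cons (nat_lit 38836) (nat_lit 6) (nat_lit 114043302112007953618) (ZL.cons (nat_lit 38912) (nat_lit 6) (nat_lit 114092220766630192478) (ZL.cons (nat_lit 38988) (nat_lit 6) (nat_lit 114165622727356011408) (ZL.cons (nat_lit 39064) (nat_lit 6) (nat_lit 114263536779268047984) (ZL.cons (nat_lit 39140) (nat_lit 6) (nat_lit 114386001320033718688)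 (ZL.cons (nat_lit 39216) (nat_lit 6) (nat_lit 114533064374963127710) (ZL.cons (nat_lit 39292) (nat_lit 6) (nat_lit 114704783615842521874) (ZL.cons (nat_lit 39368) (nat_lit 6) (nat_lit 114901226383550677414) (ZL.cons (nat_lit 39444) (nat_lit 6) (nat_lit 114626159083704921936) (ZL.cons (nat_lit 39520) (nat_lit 6) (nat_lit 114385710690153313268) (ZL.cons (nat_lit 39596) (nat_lit 6) (nat_lit 114179786909408184110) (ZL.cons (nat_lit 39672) (nat_lit 6) (nat_lit 114008306987045712844) (ZL.cons (nat_lit 39748) (nat_lit 6) (nat_lit 113871203676037522030) (ZL.cons (nat_lit 39824) (nat_lit 6) (nat_lit 113768423210379294732) (ZL.cons (nat_lit 39900) (nat_lit 6) (nat_lit 113699925284006066938) (ZL.cons (nat_lit 39976) (nat_lit 6) (nat_lit 113665683034985927578) (ZL.cons (nat_lit 40052) (nat_lit 3) (nat_lit 56811663463292149883) (ZL.cons (nat_lit 40128) (nat_lit 6) (nat_lit 113635675254777805144) (ZL.cons (nat_lit 40204)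 (nat_lit 6) (nat_lit 113672725081839965786) (ZL.cons (nat_lit 40280) (nat_lit 6) (nat_lit 113734490937114727642) (ZL.cons (nat_lit 40356) (nat_lit 6) (nat_lit 113820997042506120026) (ZL.cons (nat_lit 40432) (nat_lit 6) (nat_lit 113932277321977041524) (ZL.cons (nat_lit 40508) (nat_lit 6) (nat_lit 114068375414852774850) (ZL.cons (nat_lit 40584) (nat_lit 6) (nat_lit 114229344692934447746) (ZL.cons (nat_lit 40660) (nat_lit 6) (nat_lit 114415248281429151064) (ZL.cons (nat_lit 40736) (nat_lit 6) (nat_lit 114160042492618574754) (ZL.cons (nat_lit 40812) (nat_lit 6) (nat_lit 113939066168709298602) (ZL.cons (nat_lit 40888) (nat_lit 6) (nat_lit 113752232652319397402) (ZL.cons (nat_lit 40964) (nat_lit 6) (nat_lit 113599468675403228056) (ZL.cons (nat_lit 41040) (nat_lit 6) (nat_lit 113480714330518862654) (ZL.cons (nat_lit 41116) (nat_lit 6) (nat_lit 113395923047334973994) (ZL.cons (nat_lit 41192) (nat_lit 6) (nat_lit 113345061574367960552)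 (ZL.cons (nat_lit 41268) (nat_lit 3) (nat_lit 56664054982971074494) (ZL.cons (nat_lit 41344) (nat_lit 6) (nat_lit 113260016112694115620) (ZL.cons (nat_lit 41420) (nat_lit 6) (nat_lit 113284959735644996480) (ZL.cons (nat_lit 41496) (nat_lit 6) (nat_lit 113334856763359680118) (ZL.cons (nat_lit 41572) (nat_lit 6) (nat_lit 113409726763300015428) (ZL.cons (nat_lit 41648) (nat_lit 6) (nat_lit 113509599096250292734) (ZL.cons (nat_lit 41724) (nat_lit 6) (nat_lit 113634512927831276854) (ZL.cons (nat_lit 41800) (nat_lit 6) (nat_lit 113784517243859274054) (ZL.cons (nat_lit 41876) (nat_lit 6) (nat_lit 113959670869556256104) (ZL.cons (nat_lit 41952) (nat_lit 6) (nat_lit 113723937150388012310) (ZL.cons (nat_lit 42028) (nat_lit 6) (nat_lit 113522051090833964116) (ZL.cons (nat_lit 42104) (nat_lit 6) (nat_lit 113353933519890364836) (ZL.cons (nat_lit 42180) (nat_lit 6) (nat_lit 113219518509098020902) (ZL.cons (nat_lit 42256)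 (nat_lit 6) (nat_lit 113118753346687994138) (ZL.cons (nat_lit 42332) (nat_lit 6) (nat_lit 113051598516910319830) (ZL.cons (nat_lit 42408) (nat_lit 6) (nat_lit 113018027684537634184) (ZL.cons (nat_lit 42484) (nat_lit 3) (nat_lit 56458088684223131995) (ZL.cons (nat_lit 42560) (nat_lit 6) (nat_lit 112928772663203639472) (ZL.cons (nat_lit 42636) (nat_lit 6) (nat_lit 112966563486807043328) (ZL.cons (nat_lit 42712) (nat_lit 6) (nat_lit 113029564659187300420) (ZL.cons (nat_lit 42788) (nat_lit 6) (nat_lit 113117800886686520652) (ZL.cons (nat_lit 42864) (nat_lit 6) (nat_lit 113231306771746860580) (ZL.cons (nat_lit 42940) (nat_lit 6) (nat_lit 113370126826480108574) (ZL.cons (nat_lit 43016) (nat_lit 6) (nat_lit 113534315490123414928) (ZL.cons (nat_lit 43092) (nat_lit 6) (nat_lit 113317672035310399092) (ZL.cons (nat_lit 43168) (nat_lit 6) (nat_lit 113134501921202652818) (ZL.cons (nat_lit 43244) (nat_lit 6) (nat_lit 112984733316382878950)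 (ZL.cons (nat_lit 43320) (nat_lit 6) (nat_lit 112868307488064873654) (ZL.cons (nat_lit 43396) (nat_lit 6) (nat_lit 112785178779061061242) (ZL.cons (nat_lit 43472) (nat_lit 6) (nat_lit 112735314589877714730) (ZL.cons (nat_lit 43548) (nat_lit 3) (nat_lit 56359347682965420324) (ZL.cons (nat_lit 43624) (nat_lit 6) (nat_lit 112604024183311015800) (ZL.cons (nat_lit 43700) (nat_lit 6) (nat_lit 112629466678720914278) (ZL.cons (nat_lit 43776) (nat_lit 6) (nat_lit 112680361646989891588) (ZL.cons (nat_lit 43852) (nat_lit 6) (nat_lit 112756729046929033602) (ZL.cons (nat_lit 43928) (nat_lit 6) (nat_lit 112858598826538316456) (ZL.cons (nat_lit 44004) (nat_lit 6) (nat_lit 112986010934750920258) (ZL.cons (nat_lit 44080) (nat_lit 6) (nat_lit 113139015337099477406) (ZL.cons (nat_lit 44156) (nat_lit 6) (nat_lit 112941087827732763490) (ZL.cons (nat_lit 44232) (nat_lit 6) (nat_lit 112776266679748842628) (ZL.cons (nat_lit 44308)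 (nat_lit 6) (nat_lit 112644487257403407398) (ZL.cons (nat_lit 44384) (nat_lit 6) (nat_lit 112545697882491616454) (ZL.cons (nat_lit 44460) (nat_lit 6) (nat_lit 112479859814082131838) (ZL.cons (nat_lit 44536) (nat_lit 6) (nat_lit 112446947233324596890) (ZL.cons (nat_lit 44612) (nat_lit 3) (nat_lit 56155293471811034765) (ZL.cons (nat_lit 44688) (nat_lit 6) (nat_lit 112323434144274592526) (ZL.cons (nat_lit 44764) (nat_lit 6) (nat_lit 112361980784350064458) (ZL.cons (nat_lit 44840) (nat_lit 6) (nat_lit 112426241980177926690) (ZL.cons (nat_lit 44916) (nat_lit 6) (nat_lit 112516242932227131326) (ZL.cons (nat_lit 44992) (nat_lit 6) (nat_lit 112632018934988678054) (ZL.cons (nat_lit 45068) (nat_lit 6) (nat_lit 112773615390816591010) (ZL.cons (nat_lit 45144) (nat_lit 6) (nat_lit 112594036847573702506) (ZL.cons (nat_lit 45220) (nat_lit 6) (nat_lit 112447204882064120282) (ZL.cons (nat_lit 45296) (nat_lit 6) (nat_lit 112333061913124899404)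 (ZL.cons (nat_lit 45372) (nat_lit 6) (nat_lit 112251563178807436256) (ZL.cons (nat_lit 45448) (nat_lit 6) (nat_lit 112202676718823763204) (ZL.cons (nat_lit 45524) (nat_lit 3) (nat_lit 56093191681006551169) (ZL.cons (nat_lit 45600) (nat_lit 6) (nat_lit 112048345870709471668) (ZL.cons (nat_lit 45676) (nat_lit 6) (nat_lit 112074297216027568118) (ZL.cons (nat_lit 45752) (nat_lit 6) (nat_lit 112126210083661924972) (ZL.cons (nat_lit 45828) (nat_lit 6) (nat_lit 112204104831599849826) (ZL.cons (nat_lit 45904) (nat_lit 6) (nat_lit 112308012006801318336) (ZL.cons (nat_lit 45980) (nat_lit 6) (nat_lit 112437972357178174218) (ZL.cons (nat_lit 46056) (nat_lit 6) (nat_lit 112276382996409624352) (ZL.cons (nat_lit 46132) (nat_lit 6) (nat_lit 112147187484306256480) (ZL.cons (nat_lit 46208) (nat_lit 6) (nat_lit 112050335155961363398) (ZL.cons (nat_lit 46284) (nat_lit 6) (nat_lit 111985788030069711814) (ZL.cons (nat_lit 46360)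 (nat_lit 6) (nat_lit 111953520794032912844) (ZL.cons (nat_lit 46436) (nat_lit 3) (nat_lit 55902046990135606222) (ZL.cons (nat_lit 46512) (nat_lit 6) (nat_lit 111817198124936785898) (ZL.cons (nat_lit 46588) (nat_lit 6) (nat_lit 111856515697813767270) (ZL.cons (nat_lit 46664) (nat_lit 6) (nat_lit 111922062117558186746) (ZL.cons (nat_lit 46740) (nat_lit 6) (nat_lit 112013863088648375474) (ZL.cons (nat_lit 46816) (nat_lit 6) (nat_lit 112131954611465153138) (ZL.cons (nat_lit 46892) (nat_lit 6) (nat_lit 111988001704102817624) (ZL.cons (nat_lit 46968) (nat_lit 6) (nat_lit 111876096832593777548) (ZL.cons (nat_lit 47044) (nat_lit 6) (nat_lit 111796196112674696030) (ZL.cons (nat_lit 47120) (nat_lit 6) (nat_lit 111748268210729918528) (ZL.cons (nat_lit 47196) (nat_lit 3) (nat_lit 55866147165751890212) (ZL.cons (nat_lit 47272) (nat_lit 6) (nat_lit 111590582687904741026) (ZL.cons (nat_lit 47348) (nat_lit 6) (nat_lit 111617053060129199402)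 (ZL.cons (nat_lit 47424) (nat_lit 6) (nat_lit 111670004185116243396) (ZL.cons (nat_lit 47500) (nat_lit 6) (nat_lit 111749456828012926746) (ZL.cons (nat_lit 47576) (nat_lit 6) (nat_lit 111855442146718424628) (ZL.cons (nat_lit 47652) (nat_lit 6) (nat_lit 111728779879950416910) (ZL.cons (nat_lit 47728) (nat_lit 6) (nat_lit 111633826616867188398) (ZL.cons (nat_lit 47804) (nat_lit 6) (nat_lit 111570545120894980962) (ZL.cons (nat_lit 47880) (nat_lit 6) (nat_lit 111538910575760864326) (ZL.cons (nat_lit 47956) (nat_lit 3) (nat_lit 55697181018066298702) (ZL.cons (nat_lit 48032) (nat_lit 6) (nat_lit 111407728263691482326) (ZL.cons (nat_lit 48108) (nat_lit 6) (nat_lit 111447832188026003324) (ZL.cons (nat_lit 48184) (nat_lit 6) (nat_lit 111514689536165311192) (ZL.cons (nat_lit 48260) (nat_lit 6) (nat_lit 111608326526677303696) (ZL.cons (nat_lit 48336) (nat_lit 6) (nat_lit 111498615868335107542) (ZL.cons (nat_lit 48412)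 (nat_lit 6) (nat_lit 111420281829198753112) (ZL.cons (nat_lit 48488) (nat_lit 6) (nat_lit 111373293690037206542) (ZL.cons (nat_lit 48564) (nat_lit 3) (nat_lit 55678816512064614005) (ZL.cons (nat_lit 48640) (nat_lit 6) (nat_lit 111228459220345150268) (ZL.cons (nat_lit 48716) (nat_lit 6) (nat_lit 111255459000014097812) (ZL.cons (nat_lit 48792) (nat_lit 6) (nat_lit 111309469147500882684) (ZL.cons (nat_lit 48868) (nat_lit 6) (nat_lit 111390510843255499706) (ZL.cons (nat_lit 48944) (nat_lit 6) (nat_lit 111297419408860177634) (ZL.cons (nat_lit 49020) (nat_lit 6) (nat_lit 111235378726534484070) (ZL.cons (nat_lit 49096) (nat_lit 6) (nat_lit 111204364466599075604) (ZL.cons (nat_lit 49172) (nat_lit 3) (nat_lit 55539587814252288607) (ZL.cons (nat_lit 49248) (nat_lit 6) (nat_lit 111092809180614639836) (ZL.cons (nat_lit 49324) (nat_lit 6) (nat_lit 111133715183435851254) (ZL.cons (nat_lit 49400) (nat_lit 6) (nat_lit 111201909678537945280)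 (ZL.cons (nat_lit 49476) (nat_lit 6) (nat_lit 111125111600953284074) (ZL.cons (nat_lit 49552) (nat_lit 6) (nat_lit 111079044797853728614) (ZL.cons (nat_lit 49628) (nat_lit 3) (nat_lit 55531845601913149340) (ZL.cons (nat_lit 49704) (nat_lit 6) (nat_lit 110959818945584727648) (ZL.cons (nat_lit 49780) (nat_lit 6) (nat_lit 110987358720847054144) (ZL.cons (nat_lit 49856) (nat_lit 6) (nat_lit 111042449071283574716) (ZL.cons (nat_lit 49932) (nat_lit 6) (nat_lit 110981624872925051614) (ZL.cons (nat_lit 50008) (nat_lit 6) (nat_lit 110951218735733474686) (ZL.cons (nat_lit 50084) (nat_lit 3) (nat_lit 55428218070945508093) (ZL.cons (nat_lit 50160) (nat_lit 6) (nat_lit 110870342365043280060) (ZL.cons (nat_lit 50236) (nat_lit 6) (nat_lit 110912066487920915710) (ZL.cons (nat_lit 50312) (nat_lit 6) (nat_lit 110866902955470371140) (ZL.cons (nat_lit 50388) (nat_lit 3) (nat_lit 55425925206153112073) (ZL.cons (nat_lit 50464) (nat_lit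 6) (nat_lit 110782620227257547130) (ZL.cons (nat_lit 50540) (nat_lit 6) (nat_lit 110810710798025120158) (ZL.cons (nat_lit 50616) (nat_lit 6) (nat_lit 110780900859602005522) (ZL.cons (nat_lit 50692) (nat_lit 3) (nat_lit 55362078953325754004) (ZL.cons (nat_lit 50768) (nat_lit 6) (nat_lit 110738342254266817162) (ZL.cons (nat_lit 50844) (nat_lit 3) (nat_lit 55361792429503924760) (ZL.cons (nat_lit 50920) (nat_lit 6) (nat_lit 110694932476824925034) (ZL.cons (nat_lit 50996) (nat_lit 1) (nat_lit 18446744073709551617) ZL.nil)))))))))))))))))))))))))))))))))))))))))))))))))))))))))))))))))))))))))))))))))))))))))))))))))))))))))))))))))))))))))))))))))))))))))))))))))))))))))))))))))))))))))))))))))))))))))))))))))))))))))))))))))))))))))))))))))))))))))))))))))))))))))))))))))))))))))))))))))))))))))))))))))))))))))))))))))))))))))))))))))))))))))))))))))))))))))))))))))))))))))))))))))))))))))))))))))))))))))))))))))))))))))))))))))))))))))))))))))))))))))))))))))))))))))))))))))))))))))))))))))))))))))))))))))))))))))))))))))))))))))))))))))))))))))))))))))))))))))))))))))))))))))))))))))))))))))))))))))))))))))))))))))))))))))))))))))))))))))))))))))))))))))))))))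

noncomputable def vl : XL := ⟨(nat_lit 0), (nat_lit 76), (nat_lit 13783952), (nat_lit 152), (nat_lit 474873169), (nat_lit 76), (nat_lit 13783952), (nat_lit 1), (nat_lit 5), (nat_lit 2), (nat_lit 4), (nat_lit 1), (nat_lit 4), (nat_lit 0), (nat_lit 0), (nat_lit 0)⟩

noncomputable def cp0 : Nat := (nat_lit 10647969893202376404737053449404986596087303744950806344559624095339272605953131136700574578208750330926824898453633068028262496893850741790293572372156190690000838870706831616816325537295537792350531370964491388760984773090039177793330049841633062631243622466107610427908443279450166602121487592282029298634632997535605621643308438241279217671161693227812248703688407867025708709270533873694397948222017120611341886855883700173459931924922947497153005920317866119303085009841586718250748592593819905541319642779028069078424198777442565390854354185362955322560522046133743989194672656650854733808011373343135413460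937037237655839353624777304768976038856077699012199588396939573159224411772165860447522264414922850256987372587164488484024540793591808913564868059174906743102424702597395131430274426589264401216741202276753593560402931053900674305434963710365724881929809410815497164002998241865199436740285337658940994350242522433869799407901573469757178597103685787448496768731051057617401380163416148536418270614796949859989768544800296005637603717518410269995383210642942130116910483932278007127670981241389611364483322769894604903929749432221525509826915195912254521389576004541897228867652471952047632510523305460494655083389594276829700590219084848295168387298966630730217070800742223264040891311008933302074828745641876767082336095215973393936091125411162879572738465532218135706250230345963467701298146379400131689252107689989915965032447235981328657012593303722142494897969044109866181265341184816029457970990583909907274999573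028365813456166770181783554788545987487653096356108256228428955197272714476398497478563830208160037792459501583333796034370017725277732830203986500944630016644269092377534605782136231050231201606626755896477830932230886975269727856457847659163474751046601288839584431316548179298845625194980304952962338341246726629619279824960048719248788644535185504289263500179650237871507647184391498345705903913424122264045764108365259479794558922860521074314320923595146965790821457536711336245890454504659895434497579888446305032519258997453308973747492451315399999301303816857301363877095035050257620694347830930515756509696277465522443320465514501793246760769390592945989461759230606429658960338146829300160636834575906429711152811744538250509521868763947225476476936905825787143471905131539213217322251696877977297586390853064025650904188341116163910138055265925607828903260342025393287400387365611885353082826322292976424596922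441783646810801133751484144253540403220186710588561602959151024206759786236056649039703052795259638148698263492443708435493401236082081080570163574313882021303730054542346444161125608737604566089028830055760545981885320502481794469912161885604669646590132956652778905901617966725724272488865128119073642961267836948911555546069182343366457642702250617317703576631334625361631664782185626327118860982729915870813484065347310899035328531232923841858135954853128263694397395192256263158496630636262400182996679370733448577424508687614332137309358514135659385526640097131906196704362032241270320840395537591335328860079956072825770364946725804228632620970777901702193590516951641865940726323439168220755283115560717175540593328667369700091091662692039767904274517027782745862427497648848439978939877543746243001779438886903813227103315807286863569696483664948448613057454308136792375874603285473885231913873894153187193051708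083212596557703043146790053514763178231662574103020648126286603625631539381334346212467870832652395467683296006895659810274245603634733696759063565379685426066355424076729293479015653611555880619723420103021973362919057779335702418158633980351845924356023301004113962561357788185501774294745937902600948851785552880308207947412001866331487858275265466588663563650654938356507214710459384575881992620545377503117548303539924115650747595156697522291383634267603669360698065660507382107400996043445846436847551683188288179044532576818550857998089210072168725944314298295593764224998599686252111864386935694917641111068447087375911817590700182544450515136345963798789084920122250066874228860946538949029166481287775870205495658991208681782080615926573940578357623987681019006551273060407894579582495406262546510726277750007647796208988832867846092303667844511469277204032807228100648119336882414268474515613071183200075006791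745065478215346275215237896241941214985533219288855436464766454587628622953777036332993774770378770011730894793643555397393776487792567865402660790215412849772392251385918267644997056931246016342896527227763231484946191964422569197733349360699687616230650656832721471485171342657540105129138294487547635071158380414757389581217334124389164703472331240497377355990347333296158014923463696613932141203525492747870310912041541162763831010938107957712903366904045485331442497589265219067300618976206051666501003799942235527431517415452661274445301264342764900778717844815910210358875144446805115560184501958778236485909156629772486250928272608573561237550757538034216065758915003576328778901389088693875981700630489332659247019484987665605530750366310613232779266674778484156018743640527379448088877574905903962371078246937967142398836088465842286947780118480320108775856101388448297384744837897015287290175607520026894309605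296034891270979661414626765411040603015234009765937485668593574033834376404064666308078832346093872065692462812883608075040198662122488229735532831564899534545199996139624644931248080092324773423024835936877656142655845879259664250380489609454889139687979617931623776521172025477708486775435738454966240443532519461873122006794662833608309555009842156790155407507103235649462565653598504189638470615292817995072442191142062502787685399287882840680756419447517198220521094415542174270642054033692129151890888447644055387713875395762248628787935954301538767621436637904518505432879498302076880552974573961994768360312239160389076132527546020014052932507922257862470921157398599562137853719996935717432645021249816862286418514649246904629423038598346382001833182081046222288139771641761247293400325526355280606372938367154382425792021252358629219193926374724414585444936930447059968916988159786359536433741847715747545606096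666389198802275512892978731368759685965124792343080484068478169834483770547347271371774356217689333083440597731583310976202679217741909861498171685741727478780697188433417779881895771988403811566159295602669058399731778503686570545610380527843440024895156943687833806443403437260996464421503789920754731896174558474332988282873453027550709952314563518353660329589228075430839328189551452947738494946592916990018309563005342190637481890162105730547131717576035204131248478183265655913966008332016806220477753660377912321316208307635290916533121165171763903583092465053532600665639663106620333046445250308466584431294297834526318118442922269368535789937454560119645121954224193708550767372614786065563118835446945408867537285399136101356664878635110508944494612870881158905846631486023361858770809745841934838338526435019451303419315579760460237564796509892279689165164069755699540013830371837805829245906856005323312748571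368276117780153975145694487933271355453042002489476427651675849243127251038263008787598570962989261065611403155465422201110345801921542687235795665255552193212025702849879247819604078821844240996555222944483226429984077883490009518900913964289873196295082972802011078959470875684966102893091993558217506899469757604363053738707203054204804497272192631720496316641111394252733210656437117167065058998268102611998286383877095448453116628891070790754797562928582697704282260426391034707295940346133327749782686475006292898173595302422062415814462050539759960988185369942529561771706900253761416243596720353993309802300658786723460580987209687257053095098297597311038815651509782030592625277435968175253357571161844794860505240551910289857787997579035185347869176318649695961628741690009602494275304137023595782195549318549407365848425155504845386354591878854865854077755919284593849442276991810696878173534892619043245798653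464966263973022585691148912213081327296749658131661240604102144323507772100010302363148165034629761608204006068111419679025612357896121111424217892007735718023100429735047202526103658958022600762791578698420432601764878586321321966708755496083254556848352855902988041610861508506574262389726086371196098710285683567954106520049516570079826544818341750572284677701819785836510598866365265019461015433131710438145261117115246317016787256551170976439302800109802318683099642696066668288781740828132882392110253544405912981201025753253060539102436672164660201384512035213271129764489936345632783980311064853799985752774454096317922094769243866350542916215978611808321041944881753885450813707898268294596242318155570071082335935396636671289063068137767670459953487562350361253344178985655631968606532701938994864615709781137759277921230154942943809581210253124034075643236240357932693076254710638176841916635341612814489916863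642855162295962087351864116563644798923185593963251730475777778291606109486522690870934036281087424229067250699405075404372527297354737909467781081978678047574696687155221723354529513625830833212378919300043842739941297056067703478493683870250339173010177078672986502721138527258370666480616946203423921668534557847338197876177310289031439134383438652275573388412661959717554673109512762966208894037070888779703723187855903927542423409252689040340318975268591462065917205520157464407018673326397675127553425475520559092937989200103187726609580828924434850862705462282057052704036222716860339892909420733990745090215504659246790416798008109195533521475473867223683561081772060276416156835762844426969746531723256964837907009785993438381226860799644242210234998810952794557758156051001056318906037806207505872566850208418147487380061364764891321200425778852435709422989005526615724098667268985015063097583704123083069478481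208908145569717915862497815957370499849130595668468193572354458261579130427496761808699094110549841156917342519087024538742625223471300112026052824662555056546921973744036034011642770072129717121617348948946905360413502536367408890606664862417471552434266734872552761728066013207826944396798910468774507250294217864351923975738279828686939981557936331168415700083477498677134806004015286184386792944106744625135446418771713680575537225499260026517873630442879467389316792155525089281282397136630574036729596177880946364193704348104670649758858019783416806196740049907226197873107640547715633033622497523191319054656359584688489968582088222595137729189200966463165736913954804999830077742650248150395628435441375577291611157752176554480751069815530812843323395573234065287103311601743066341988197799809346031584616250679759478084260550497965696172675182253696256387372706708075684426451175731000762737702689059515391923716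040793054766721887973534934475358707103380772488347725932360433344174177796089477824072148489018456951092254298538577758902335970196724802805501017100226976254346112111287886993627681408641537745321762571648105570288798286309241608722160766813180796291674868633311638204634829523217910232442215750821521890043871368586022693998169559520721361780742041632454581456770190858538578487682338953978156583935761038728344316934923644706622122506846472580295268644628306235055004392759233291229597856366946929002602319434690017027904512640483417684471918570872033508028565159351845784776059931582936393185044327973167946744327834897319571346402209611787807626261916928055106033217787542030833660960103871573671062847357989589095478541208452057369965814314331075224132359682680312698015675376067201095120696915380720336795253426254546782036384259027249141732337953369324791506161475785509863194994037315366187026281584513741868310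998266864468176237280368142429492575699080047933145722397093964156238426447279890096147710375620530509313721761861318456803274263972633313418003783385922595916186061294294443866908584079829672656428769368009041725437794251847125151354870767062541150681744234073366768485657471103603940494259546668238350424092086758379987325451565979193258225939281116009082776789666799885522030301787373825784634132170316039473657824398365907635419349224799739994603544460352543882634426459356757749293267417167539665669889114721843759536443679714328253148461415733272860169647551635343386887597371576617878897214089307353779979070984987154380759828787338365173694366672027707409305845396658573047349745040389401334829301300166524036611214814771843453359299343462897788239609930720420280321815057876775678502542529915122630029309820358097873927968983968161734596103149154843693737848523867120262048720886536780464203325430102291441276690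695539057553063770994294990383764083220406540916952425161298013501195619571595734041234595579969094612000207058924153061995093484990701088975555330630851736080847307249942176618709791303699572476852672532232924494177453303820802236426418965431431009805524219335701817747982334078418946097514047778473668369986039303904780491775174719986560984853420460361271212574016527101241883987654957260747971415414390986103924179172844738093646456179818072808299036620499504546619702715720236376125181570557734844017174120876076543550867899111344169974236475687402463101581908130690573678586940443335663982716156793458803855000694429565971962282836841525015134543700891806829552691037291925500653051369307118222860505006479143777041313504024773261963139961591802642751357553290065804342583204802359100822868988179156360812198836948747565318730126351929469143952331125377504786120025451441732161396875541617773398207724015612273644034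744607498255495866524188434837349395041010572683594212039704863122242249350068355276717654627396529073387405302046962578136939544866087712801896598995309172893557341875863050314780266448605455085003502658235831768173375290641129131671502697607490049466376984289545186217777093497631745072516359261112285853557050741598168006717690680131631881255104520489190704893720336303135155860486728790745130556881090784295884839806667440659803770426675057436581743455533569741025764630030065002237856115310114582962369946604115412485514754944829244611910258213363745059303548595136001089273902132357619243627465889707431588828930041559537411556733558107824771772844436893976205532322685022677536026380905302384033996866086516388328829514034635609243692167787503793108249799335792366919736613614053102918215944706464577577155524404310502257411464064922477797708792840914268288206786211806447877773019888266941161077024114981652263765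094918790711563087639553999482758661012494956772644943938055967866080584859799715834166333383929206942049635824354731654381902839590669780421739892574940546048760981946919923807078714041331858051526677041628221487230379856472539486697425023778507326778728226836835566093144252162111405668644091678937601307657995771736487626171597830195539459615063792674797139013877309094393282334452832327139788050780654169033893375920087745450570670705609881256379912577720309162453091964105546044925601085501849549832133094248187114061116258643329378562329430694493461017868897022520738795819683117879553063494141361727392948792247557580257928893840421626002800144352669225238598170491152101682149190901131077220564484363219002143144590238567804807958992241922757406288876586436427928772685847512578001380162436188341585175472726300604080906163481815003120898787889662364541881708231010818805272629851051285069032912976638272050820349879288917050079051776)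

noncomputable def cp1 : Nat := (nat_lit 105913419136406411181313895526623074325783556079495287004223002996807910969582332545934849617995335496962278391033495863336152944129011526315936999358252359853167472865088191728818092509560635957733292125978530960292206221373752916834089012485315622179660087752149982552413225753336313462289790669143493870735169244033341638628832652700438528440238015335895222163411625598815562341360974957839828629689688854676857080293232493086943284433411902864747300201052297255854226852476794356333985469017631560198138090749345124874103496235769564343399478098948832180385203406792352575576805734441299068369861044014611656130460077166208477172168504378021343446225901707855842378729560636124487239563219389598165629486424664435220948476011761359804233527051240862677346271215380855789449470520350558655629800816683199393889081828854694961152259483967559719476106921808881982485765800938874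769495008747505108627079663324684690089640865948487672733716066003667839746232679471862524962847544212762550892641473754333315223547313518136198212902170161104220828379082799041302373226834554501713379253077222724066353610394210097473634501021256914194693163481845508743923099512134849223981868048714551587417608456006958409244275025996873299638142173385874698872315105256322271365309342408241788444586551194127310195352951345676360222325065889143982959878065069177084133636447612351646850540313747280466198404970992425436927984938256267506093170411020564993479231449955625465511974764005637805641859955986227557695957020653623381534899853492047703246081070198978307129710811429070712972980014107243532834294008990575154961444685664739278257376744073267347185324887106976257068893865817989863338800122467415382783361703369311208692701525723884618832043449332469315537320740352507311826737225338597730852839296641787651490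117175721077341289648497268669168776285385660315240677358469050443527469946841752895431911226082270642706207735260023210550401029556819907556149101531033623593993441322613174544278151258422860401253101209778051962037745356869445763791891470157393157129798766255722926622695565991341460582668597494069187107424062804695169794598269546429095923656977246085801123079927019424657361073695370241505122535803410725272297484128609480698170214692988457517001795535743051935476615347714114658215103020843051442681450529125353581064608797204887788233559741542276253764678959811510358860560598399749925750414531876886500194714782873255629997493884593401173339654083427074415412035653165617632399095385979085383630928133159090550022144224132303681799291829304993148037182729017743387140039008862344509543758234604216978651027798538065715235796406629522104480920223894046763578364882987719600267426650824852459147863821696588639193496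073137123173501707695615847189573604326748630237632459529259117314053758861937893763956218800425279671020800110818177388102934328339317068618127687951273680930676108778346018697391477964767473066143733202298698332133492785916087793537821703050178937726073393112179799565873503971656991633162260214896879764752041527448781330037432317344825659512432760538567009832748906632590289160553432188567584953109155139740145215036657640995528835350388586069069575116687927784060743714968809672143776265055007332460214354316115048634166176778936649171999639831915388487244868434234417196653229200260269158932286598136537864689320693136905883331855830392342245750728343634967125219119124139164675381618071067727138407271635195642552669897405798817778847278232277587230914091700653898562026399309997001215823282409318540406224874588147987561737846789013896000678830232151494033977312898139301367585639682045716645849129442003883391859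274183164629479588580375731303282637362925882138124374563940285984713005205942814944923806230769593263540903102338863906620892873580855950340721777607703459109836652237543199819376049627970418912346893482900149840817753090159444739841299324164290137033185923259551296211384925865672753040632772295883071759617828859381752538135212376181932609476726424139657832281017699063058524802868928332247986412016008771967463680284092412871039847356556711900803363619633034470231969610777898189521094657294492746107402221179874828673986591295978899578761458781884793366868156432057490811989727155652307617508142402608336187178391894643075342036424099006796255239629371530200415592608975268035314584184356025299374605978829056464178060453273674592050180740254655690195379851936124633446780557304013734701963832815870519253487608047756978064779213331112923462290077638895611492552336670461304855797304300910658922467578545196226504749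389569112877459962086938812035369073003487117199696421309960522605951033489613673572111373692109814395631103957761768410216204215043967851927719745825273165538910528004408858211033597162700478965655152628657014241929212913856506040466064779294264612223309384784286471882519984837757829210661131737072525505406942630551731612760374814702154823680833451299123679982454717571978788980861366052305730711636129336216060020460300288872805617070802649934124577979398383936870610191728828943027861780338290175881080185588586724265430253063884757269427108060954633699631618213145343383627038092031154838442745793564627818060167952790005941676550520493998025569579983435930183142434388341390320351014219407531130981446072844509930517965897715840593390804892356907641096965160129046136869912962008864965507572872900434294378992922359654507751393946173700661450486716430941220529370243950205838057175442212882938426514858193113315470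982173102362079619699093646674347839539516609353565988869175199845725013563433330401970609434913918534600063762102795724975598185545767540272917207019845899690152402193368307850372568459830237020631156320407946729900558791163365191787965524405182141412314809200995001310093841187698666816716895924401701726790208329800430494875188602164936479683210645698220956654287790709828045165995356809083615865746428522659984005898067240138346855535252556525194531541330849204762886722914327126378328253114355473866981351253375321669250530116463466992247738434962234813734154833540736533693623539268987221734863226861418550388685738348696618885616381410232525223742134489545875057110042883240744151114552379158657380371897085667927830403048882073452388703403100521408045083208963639140052376709908643207916738935128472322702943026111424063045964233813263151551847820714915766745127805481535265494177117252310872685774335239444531033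568941270637873617440386913074570369307563486896705001573123992765719836062884833379418449489879801798826436039504377702605162719926485852112706189878373284366229828034041323495149353951655632807913583064531789207130476485998775303391472812206561132396677500211908823160242536016986208630960121123610537430192216704288320732145092306960464892986301845515502157145939583442858216838738960905075169934755276906624322466665626127772090313076266025352002575766514003327081891612681054896427286301913166707147684127690732637393977644860775241951690897970832719101617758191236798855043917516724569960408735407536102179750395400850479473534807328657636354746808120380178386159388356080826916981064748589631453316988791490362199077337216843410988235262455979559361688542034021454157806758516691717373896292549826271909448446664290293345641847162008556526485444203413053594363883181764923748091393002666931763669818909793157164873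246538917934548124598022846424395924443383055026309590161359279907520974336743584860369841676001682922357934484040039700383688951720997517273726586912488612471561337275022052958762894260003957750518020723463060588236286474673751149402978778649703773617942333481912397999528565257202453607049385542790783175475360871860996248023886285908929079521460027362708263847322597609241652043469152394559468572955634041575772051966816012194730117715905836272555945757264257228226911233639283907540378160465284572908819814675841720616599055881808856523618197019916693694101583771264833431464505569104263402493749408947012904278610457586669437043303005092513362862723085971286604860068992125490311255883517943339846284477971931258575896795412435013797908696938007949344676938596853939625868448490834462405563024236454302611373307504692338553088884418644739833478680004578784400945008899157374076084451059464748722021571478621478694019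646274616585217962474967910052743296475857958152105234375026402276254585553148317084678999463042388905032751404470168580841663839872635603043718485653919095084806487568131211827068587776028837414865158769144807073969327688664577438532145952133616714810814434511031899725988907157278570911103719980789047002099807223388024132469605687987236384495932756225609065702359350544460609617289414705931666092398948300738438063837892492813170340270273359871319810576663247512246038212301017594395118169981145804491214174026111029727756681498279957803444569050213436742221019431172557616915930985888957527160275554547553937131364314593347526062488116858522095375439542760718252676412424124907494446862369901114295680038496628179392930975046863011720518807120776698651382218809915446919320329233294214268447437705234907043458926831679963612741822108461590250317823811635852015279887980484301275363189695105508850989004148250483041851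396421492454448122331863756987417223437028406591708842736311465229851851172194727293070680784451987420763511874144763728448846050615085134425436387613892529441003645195781805451490850403194648786949161602216724200462052724729601058460394363157503467846066879319776739439121271319299884347502582779774459266204742444183806091776851813186533049943817258413514570155036452207201075024247396445241461941471978111869837269567022256610317337489997654270758613496742426020084868005992144901848477397031079897350462099366085110520149133377058105325091049915616451767729166900008863747914952213012035881755969167445334005222097571614622954983301878625219749224200691658046645954444434040782955686183973316661735637491072919248074296115236243641912807125384310493859664049553835640110629400132095819466426261236341399148539379964512135516229999879418240961234975161142548759644658424356261734670340527334231080352068432876933992679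181045866412789483067733128214875245247028487250531205119126982892465503833866581929849886495288414956151489347789856117417739149591426976340815629792864531697177932798513638221860254176648389747482239531987997977069005022194752664533459091382515660562357366299973226876117261623890406397529362862323814379931794937917358533388902916627306436000500895706151605669097558711059141437280026990301828535877953395281088697476475703473506921623249979555844275113851231784335734574679547998288902128201016153434934008816472239506677798002238248650713957904116120207180528626682857346051623618204579751630355162219574545282931313151579129852242697774321340271896398462354437919109586657748643718862748752634973404202039440656064884700215918705479928489363225252275429647315916307661861106836311343891990039636958097675440488357381861772560964243269180577748532976407243337681560699120311697228762014340552713434232975785414447304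861334139353950514386925672030158989774436873902825729713336288984987832137322611094523092714970144573848095580816684292784771409091659350345257456413744998288821881973128092312804613235798199113034437393673600111570289048976630983050767702743392967460613269484014649191568225417364652108272344116082395109894858419434431244058811185550281928921005087048756626886306704133840297442902691136232238836672166443427096399435038784665050190935466075183638203827758182049479384472271182796985341429435428126844998726421567778589132452800105266819913903326266909736459791811119631260016800759003846442335215380563679111792460440961798231189475839592384729191673342765826829150910083126581290736075453016803877356320402457340798541177758105636428614758024983031830127497337760504515949357768498909463296491367099956659507839853772749008428012944678885938398713309600450738266025962718850712118790713354207792768334251516442165775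367581376849890614401719345756171542935945613385519068227371580415567699645316459890330092002609989190413993216815353949137868214317652421966883793942559041322939330113495709632163694095405786266558535894811296388040084372340509576613002852336546031098618999389634807715695624828672591125304175801818057702729792321722147940959323752470466291101768447394309806226042162653455276061196151651539164635354367064876305756919729914976624331562871181864403212827356885041262924959859796238071108277425218751179774193411755160815109213526918934295702601523252557509967482392344262864323406083432528497779191834432846654950390834521625422385253453856555095089485492238852765275608357075259681345394978604683261159978773035025939655883748149167427143496668256488791385328394284513395926089769515076621196327846643173647396676348211093231279760352240837642360249949082951838855911027905074594806429504275578852919470861218395376230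185030753886295746534303018296457219192817174705215887904021150260133087918319420783515849160401367609171981187311719302694363097162618346125993841717934147026722033816497797822111963547790791775138064998962652253649991408029467644013267103118752159964469917534129502111087974209442594315037551614530723920414772411619073786654853772081375573532232061456540997933453655538860500220334610113911975138529181796826880964132771291209751525630449966572036733179609135632333178656752920919253247032596495972630471410165976956008394561617012792899495582167155869010049363775201500415244658684253359012992861832460386322716611608034906185488504978981261131866848730680100566110823255954516773563804089493600871087519823661892472218589795355283163256381515165658225750224649020555568923909678759180739150884556571942689532012037894791482172716457801287325368394721688860315739254553925105921347592322604832178473589255839060646760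680831256598009059069137295450027320917559271518199879984221999531491277128864205112729189237502302950270567681973128263633046314758001618336565237164024194897674796019316863364212843596692278258858941030211061187888205072277730983559329148728230467720387905862253967566944988327878850189267725821222879034192087295881507655027744989493783915530543659590359917384975234463538689466343744232452042360318621468376335193347602012471323960702260668858426819073609749926895271560264972868664019051330147177340082625757667660253658363891311874046310454464519221898202279986716657431474517406203428624351856391346523605901983883735565087054080247523257924344865795280218197673462205859864214347103361553858884057884221252465435159366939731707453806965117024161425265172085676194397099064553804150477483893378020561568331733288272784310965416684336674579383159068425470752080521371241220285562855057548709853266926742739026928048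68373605768093101777910136881219237630063362669735226505811638606383726245840376564715877613057429763440840003742498043087823162656741496757070323934611868153042628397286750243716923703658433415038555709160276728894280241660731169292779156813935012627356424001719421893029451736147998776960874457208167908618434463954366282818586271990371476867513145710475727807880259364371867399773907034853706749285352984498095688441169935479105142319969280284328402144113432851161801927159277855961404778216983119919814814948525869975582397671582014221590618358883048028396413126983351149127415135271682318495774755246668758335545530718550452974117552024049782279868083471500282461903912960)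

noncomputable def rc0 : Nat := (nat_lit 100750988968524786771423339864038943815647009447357282041864405332327288508262019693643314988851471724752859617888206949061950739160834700572192392040595754190526964376966472636436384349190165134350744150363558121075555515526536609213360978370039348108662190202289940507511137566378558060275964768300649049070151401983487597058493651762524354288930110884262156616803674950616263201879178087355420611781318644108855022753439361831894822811843600019872495365453659860703930925150954487704779618813803626005558987943565844745314373552272696978775655123052386774330294948564424076110337493966735352780080674077531400163251532327364115435140053569215063515866978155039292984253193467727546352114411251243162975282873135141796130438736683946714758155604074065650212042408548272743306118306058345586825637726686677127709750513884972615095904450329595035875010148051140057212651881408126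678488312347954526887079615698858079577431765415402101922541400295953040338201268571264033509079218481584106838014463388765061218108151989343598398846205503533116839711962253192348065099946321910642428881899872235740018152749345562216104663698593619669057459521115787063092892015292288891502871055096056745333988138480049560244006711201745682206995369896832325340111994954869978533221490109946014013704424866460670244408982893277847033488908890259643142440411193356410337268455031301048716790618073116878910666860880974918526332423438405325482519166955412137411861503164114260176354377988014330374524746318560646138185340357431994120239482293199757904021748546451829002384919942873780793243458105409707279359255398576162852674613773595988082457015917823631859890739490643816532043625971208109282268978027500273960702960323695886290699436467712033141730274400840689625464647597141749163558862781609726210974826711988119301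918483091733529181912351849635375082005812858350423177608758460298101345523728322942562004431256829191539262543219520236379084553619168914869637297128624136223066361281310304081629973790997261296698418911419158401493738363642829742830609152555718191180760519340785718589176078864514650340223281167468545605732547472638826561219753490164930248442811356261098970176160676671252588820079120174312702046274558800031430701673047694754751725002421733727921919047799998609406215389430023168068305870265912873875075636008000363151923937385393255549715543932448393349016216325569772369155877515648496691777257978267537805684143540846897569519552390693212499653926701736457351238018361396589829091341077217229026425694909833558447233349230209115039699554519570145021232790988370342873114387487442249037263926432428186161235421892851486689729719768752316445796249867221987913210731300173823337212196611909304052692093148539017376859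306900558381578503887345171353739536417282323434670536150002803199703410873805819344049006628218600957845166789484084878017979538097793259368298034310982089744705995502732024614622200700983985836547741105027835327403116386124421014367686586072851806184806877599202585831380730095328218037345249958762143180598812668332762836041701465729441860411494486817980543730989628661501507820311295853182745254287348729404145192723137688198936331821591603443781934159105823510319429274896600600897252165968012878032879882154485914094020266266615211335805869217401229733543763611538974399346148464197830071406861054033646358236963027040252067701567168138431849745017866640469181298834069288464793219922523028772139446880419634696369719942816479049110988310491717287584943213412832260209899718175984875660522715222453757904517975427589098816997362739316000163125650785407205935320240709880546805453934665890985498987892712452029112496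680312120552796898202119685857861466027216041259666411820477109136289789953008069868717365902608514451347817056909969266770347720951198346345221931042841911588092183112212357331637707718048115297933311410592073154044380971105241570545365625854079669323969834801620368817761496531740152961573039923447302952679266218797299627354952782520194493646767305276028164176320815138789700235300672832643682034182042442122272955606444763058818782536866540523270133554153743770392912988888020617126042291707237828095113420936526035070722390599048715730116679590440360752479844868326218267045116143410674063162679306817850361900885418551635181010600070942031653178911845561438079889341025007259658198494023665711693681408758506437302151363901716026464059234103122937569230451002373114310177897694495871244339381920061910401398312622210381436759286752728301784313965131187308851445961489258212765046654144207058377026375095593900052895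933902699771555408005864196818196282207624504083289690619910184663495415739804602056985538466157205013155757516845471930077539380065616807554321556395251814224232214630777289654157740433289184138560557434360159191869745256237691074829016888387264583762678987355877991781277162719286426260107898154157341329968945910185741225256493894384489372506586074174457334289925542328968223341086978509890695489896810789302167580014356419192997581211742808247127699631701949772076943891841171919754872459400766066601735113111887632273763462411862042046604474373141211786753665425454243748345128456354610324457356160326970496347372685871334553986560618501195320656664260272069893685223818069745860676786750189204656228325247808272760234494336823785968173087202682895403075158652440290569928539020796404101093336637785051816948433292256377572574454022078493765816669550763197176572613663789149648525570797141151173707503335544752886755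384787009553281534200926851153851556808494386539507807189204245790054696687253271332202316862142252129959407983597781850578978162789342318938028759154104997261327595366562644318976986132621477370280594403226795975364138820156283219718544761958106308221466622244628867466969983028560215065932948214698874185950024012214836905425424826772971189174977512987183665199535832083187114643305600768817888056784831397594485307308432783483600148983253025554339198367336521448054252292835011312226349762973008039200892834808674948522483788690232493231204273296088541298259359761235639410801159927518977045121352462384825437666725160639510073224381148758461988326896854909701535037782859097100651920585137438131797949748776938153621550795481017751485570311398731704259680859707749328386186957024272447932589607887148229536246101580431327504390009343497463757317428406000368373981240497454092035439036303683410792299348831534744123314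502809157490560369358368857818997817105199465719038337934120458091117469890989401860224265185470199163669693336449196092056594265990125139072579137050137072130093281922316404370762984122356110749179675604688763256246408250887049376784578613210812861787583102963592912252163098391493984720104360970826074688299639510603758880532542114914161119396407129324293718677808247706182262137638120826553705073535635534659875388847859304883968784252861767996981608293317756194963478870257073970092015118742910147663035394791516454621921978469753564984609421979062070270708693575961229574036434031410233401987970211454208387825468511344872368914428062024990564286917357836787713896865374955536507285728058665005401641905922067020740972355280840646450449588441935612473056889689297200603149053224104712657897022720134972368951436739415643921733796355397117553878195454592433787710815915389278770498260178010285842220544278780485091358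254560825374961336636129558338626995616992124948479998390677974336789749055892567741319755201804368614901001274583723700611566148328458399322757513008753209044673414663826712362926946563430006918120171976349462565413120669975329222178896663558420533545165276905072092583897943965178394551689162516152457754781151219360201110610251956160792241748079723082161288461260910583037944135006102119811623290523696748717034394591137900301025678933081961008042430761957014459210965629884134682756003531157867079850282312281322037632709343478972396211882404602774654050030624698119023265586135986320431860743974495484504299922315311140811587345724712015176467936660989903506207743816579468667722873787227643394570202974960153676600904808657254672338490940890130736151362913212376999017752999673633024924980154307133490658282031362873588769415710734286481230828288328366999552727981403999277972118389365128882050893093293290550428831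212757925557897007387608046730525595335239276015826528921298473777640563828617524497160472439073778529081710768131068864227021435934333598753061536474258578121453882989672332495066150367506649930648915322637689151105646906230111362801021985186701075031239073200375874951774775426993849275349522240732375824337017304612874034714744883587675617835862894954680024548363839176820079341175128355616320474773915759006937135505689976231292599729640603005654662849478284901221569852288078643346941348565851458959269476653597052301026165152662545067177306091405477518565238192457233794892669174859881987457976165293293533794904725428547192289989573586243876357981619252434354283785479270335157701759188172264632100085971578942482102708214604149749300632501899135134332256074308982957085256217790299486528817494530827609193221766989552541331741774136739044219880487747663552707422535363052119598097255788239649242138374870741147098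810930116055826250332794645512212552786784879060254847551860749511095605446716129818367525117178371879413039150042230204289801885046487515839364603882334793968799835315478979343981222719183473977515291002947796056293075912642026037236095774209662557894402079378854400246446166390599401187738221648957443567593856814009744901030261472507236929779003333170719540032208233563353804748163190092494787713427303795454126333655783882170133642164856538285842292650466776640795492220524713830772343294417316281693463806132587357587654629709502738058134570025334729163736072856523571101743552452728885300986823030068426432851224318750468547631902964404314918202587196231007857069934311001404332991198009905226919521114840189446200696918368373322554922686717133755372663054867970078505835925102662396105110797570331160500215213896525933875321238935308858631193002380188157708666103205358032823587058097941364649618433118925400645480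966038617222477553229218691347635327935422150519573670033231710094797259713495284860809676964328377708323560991471560966540788709745274719909616948862442534321392049489645479286291616929980976173839647195549731503923224084776313544020259723541545780590640366891368491287752426739298923533574869126052815290648178495525336762303475882836236110041819963329525873973145153598073483832497102550553689433340565819274696920408001897871071438963935794501570217211328024819425132380836957708316914540369414102330559151915841906037599606281045520215463607115982546908081881777504292666324566935363407907906291015768270065357322322243540752267348887172217874261599403658582519366184962244521725544017836167399344491050965684673746834467234261987476049316838093634873691020906853713676250840865986274585622944403849797888801977911713924944176297936305092086965837226397987056659608740921791511394616060856132352113374436588496573097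138264766072363835174485155385286707414537714722817683898292721737911456726683822480339898479581893814214283536667441520602172822558704519118033066548974415595497245872225741150622554922204167671835102731140910228057466960363550135698770572008304028814737139742537627455462126290139451296922564034063297315770043918434780846763704368315904636597464570120524762626316647705752585148566947056387864792074606854486138270622331931846363190295762646711039630582136144869675509421263533564056997440123471760196377619992387676867440873016655564100688316899326891309005772083435440281506737950641265626376599539762547624377686178791602106557268124850437546363896552915144970730492364002211241197528138689648709041637695923473816053505843940802861350359263664715032679634534471792295716271692397066351863914735941670079421898728457497193288129543716151335112817365327449669490415107410594352261641206705152788866663199381938352296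419692891167561352110289427438545604088639159584579150801597442190780816698020005099629568424538364976881848693264328492773650487665056913265128573664768762880128038879873641076326115180738603931675847320415562492157150078209931875770205486813241297705118774541022303109021917995427748228524392044078492880642978270358035996791527281205772386454667040417880046706833399540544987621366966741760524917851070292016951984300413493569036722044361660961141146089412423671824147114105038130814265232633663800725939006742917787307080386568182901154227672464192824695879865777813010525388369773003421044260859478385992795611684746047433758787814319437110486956705216333299476277900729924409448966412147197059480982456786581191777315699454935955828974476023549036604725308335124124762094590947513436960126373572280234449408731752881719602527818078444925960343655542451646293562536184401061179125240803279770833023102079583765502850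263602250932034538523127705538226074415778460496016792719179462064648973876084155275574400681531583885138508651852724528565154215227991285824448097710278387630134165617925272922214787561678907054764987259299197669822281768129755202004127667642257768097248548833146964772081263627389405161162055329397675964355985570478255547507366032743939359223532794897294385865848970387323963137321407102699162566389470470238262671855756915067808967656105580639130027924075199295501548102072070708503237733051960535248294738690442472939575586701216179021988705079414598326446042474204893815990052513756171515306085191667977146874454943992208520780873347163550946506554170391914754912177223779963409524611064431257652338788392092915227674711105254352549527611902389487995842896662554098346165324450547536442647754837476240096753284855339866083712392462744034685093626784352950539352146370982615111395371506559302869917929453821521704478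265750369751642527385349889725632539313634766203999777026275423891272147929044813373137501246070146008812338910231723911306250228721836007087967136434138170381905340024575008682690934264211634386473205627824410880664041663914863853076169010466291251184866246661403720461790838235995467284517976009428450233028995477906847191306935696916043363601436960623106592248825825112394893285925071314975050099561700368193730778151866216357287007454137657197000095708576675672151248618093062570446243235937949645546638594721197794936811648309801004447695988754051252442372564581211376980322950068671979103948545921019190375640916581979939965336026564355380615866396975798727198508191362164803504043926122331888606576006829655181221497255496078477078939056117969057944416136073728079524532297183538661233753861100218669335869854936038481154254483476906214027441280759919699261557432887975454918318504504148631654247293359105596890009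77219849379663908096958672533571904080026838604362736087659550060521678948885548869980707804983375384835499795229162244781888159180053772042411465268806385401478512845120782816929094950750175927001871557652188651734603327149134100265474644546663273150283636659710009800766561389679257035732935835945911078752118249146471934224433065532070442394890457048979395762749139679924761840511842707037051066733890006716693327840028914234064643491275688312002696033204740700916028675713317528190423640863532328660833641707851496349081403912164817571334533713803052563465743727624830382912201806988531211239454871030100788893126098578878884491865236906959041767340470288950810298481115136)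

noncomputable def rc1 : Nat := (nat_lit 101434040670149859797649949020991947971357385359955936628472787034619897120507263101756282453568609258985380912825932082094925563239620493281830287902392036816255157788152867258476352025028120332726350720397185086969476879882519095731938131666700348942658148350577838230910723550467469653458998022481961205865717978835401257574454793767404505748573316947123904208902279425508193442990770776818535739745229748506035324216362963713802998850728916298273106009727435031061084982339935786462075757543674954213371957232582744359596803047554910791419976051995006675785567815419078428131169714962654365358104966416154019109961750191395957395027747311878177918547476326889448068858979856465009128600421035307026550885699777665297926565976506662649239661538815200243791336113605145244512934813648204671165834708388839325676324513362968396835066870781546924018874675924966773450754223809553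086290648972659225439500740345654586624705265308781167338149342298155684365980984330286265530326550334024256244176613033867530214006022681352138863372069034970384196253028452412714382509647950478644595483953265306519117309645601378656804156715675483143151932947954212564308352364774488289348413886763700764394998696347221207318992839945050242186474535141455377145210163161502611181519012455871993245038036400669839658786976117637981594776991258063801288936611709663004942361139548233952236463751466636709890449718904214324665477602733321767196726933062185100192921680952627798132230004889222338462003174378305165081529426736590953607253646419846317340147775059757554050039150745090030524020680851038236854874260720155764649648011911083486157658798696439469535353588383185608564221012283852391400126009167105506152652624111496051963886103511167512175684636841184680480805650952407407181507910535166152722103425968088663186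913917965719502453928831073568351545202334405395461445350779683190001713624399191195308631806325857074611295590140894040308100415266900054244020196489570828947419007949430250748183970185554292906273677675731179059699173155802891848625259444554956745916389639410132368347712909255588483380538756110040343040106010521889814053374630046445039991853286094977758317501414028907071121713594884124429656310142622145768438907999667532116045334276505147049980698917835540236632214807554559724630569175874993847020705046786389856779198434784258644984487935031940155750848159011955920164491663932146139260936534239563117552733695772191893471425389374378850870605517086607350416122504388392448559991920179604495448129374260436233273272951775616625294318669548063429326646514740458621209330892342102724399413685142832666614541913263883083060532940776118270040806681889355861462093687194940859897051231136282880413767149260546815342438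995670679208525601282633352363204188992290728581042859806522987681310388703028107954874130216196137172881423196920459395192636461678380954294733279728366125588535033786084853670753362114953809943751222884567923131715431514052166585105218977709640298042527871855134750826493723577168206182340467511521294243603134688195642315594306910364716483566870779981614014998208551274558453610025943637408634840188381513964377623163786122033062667214158362162360897748116167397177483859650655695465409539358409571707371966728178808666824934001359647365948059499696913789162391367611993002200004812619925691806423215232326959258107533285677405926044064671378943077315181525244768636975170399663480527350035985579055879893565149187464452044087344167437904374370518279909040606896616588707423862507471371882567929534107587329804311175018533053330396686164604393722703106162379670900761479483659902379480553131479501960469612206397091526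878745142030279682784618211186531959884356489250908677461375643081336539748215935414593654466709886887437883063803480116826770355998973460055876550875398303933672265139335973329550912035746844422017611843451138319200745103698319117938983358562588924171077168319766084067216251263425239430443345932531190194487554575055875112993551557604339548985096896255748075612161404851382750831042698479445089883240160687837668556450665386115671423001605843056342883175661312609220625581162065456462107677974768778600682461285178831173392870008220412355447408276667694920725782005983897767889378646445762171861786506335575475447414585814530167718074473651695699794320578405215848515170522875577642657596356210575542350208020722202956515365322112477224578171658847519128070693574994966642009444648388974915531986947317142480460887063097992974691256786402515548960462835619851191479197368967870858192117418010741080036313361466135098363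042202134505254465177147571920095705155309459588542225470684293778024700850176827826521389435424331496203890634500400728012246754732736958116410719250667171717759621076717226431793176911411782570553954428119997453856287500126484447876356157712347651479275825101616065244269477365823756934560086384971760834968564675527181137178905660934818421448660400876141306636907606081842070209117197414888779374676002819158746871037927296378480771152670710486336968163538828380515421186520418774459294752750246989888743342946316890212086623388273239798618579842187111970896328882279360774697561603820558473205712234107928376223911058175046971949492302747639251711376787280436425753543681516051102594753732270616414930332498930004359162556226174912789099924818213415080635418658475756969960641989033454384131021587785569801722017593829972745738757349408653553474632267274187818950419508885593311218013694107345533821283518896740877406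170514009155889591130153249192861279618333104915030879844473951922701244940374419092323262821164299192679440037381911453562802383602747343794573250119843867722177650799777839440053432182101765128141877934377278305791661476649232278497387542535313250981321315258640503178502301552931984018255196183171112297084932324349165822105318312139781326526215506346315362760142182540143308112538126339067112128762825409386737561929679753924961288334967736791507499193624603706421476936368277111380838081686428038728967152256570764577869372134659383690846733943595979567062027760510797489463131018191845796675142616857582247139728920030865800943414754968110682321321261613330445511294898202015479309854201970407556329052790270345588141159967342996588500985083451908750005645997247213344632531797326788792610471864820506190088492651589276771419041337259863122296692445941165789948424093365709570709732927417043838513253264944044877386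607559640259810061822922526292351609718160584657045392389030137931622591446318084712570205982435793723989445065867102881305823395756471563935358855653197594816367278051890110107106917350662079183626117579291930224515001351073194345123773885534144797668365194646330177827782220456257367204474427512442176511782117568528681766604303065188382543250863277771866018611460198088302088203706486458328584049701812212952885250085639764742550500335157980735084568024926677138737489988389624860483615343525081459547349152943848938117058666744366159811820632205232001832846660296992761689142385406811011754168529762681595740415475392267677551941155866952079138066227945443724836369815489708598917794068750727813255794693860323608275147634221359234457032069637006939128005559369463379257394069171584137293014850120502779196340499955046456016586422492815288593802696301983146329102298799578790481434305893419177735664877741810533004482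155459182611661007580498833780605462788900577269641867226329310040997681822016299214532853118900687447680911312082868066015505122973705392651881071474702783295050644115930976350323106951348928274796167824571002136520829329220473847704739281692710878680255973331777081318005005955277107501275214059771611136038602964706711532491280935874140866817894899700639907008492375825905659583932278376483845520533262482383692561820414439535499783405894056861730214199895799217280261517743100919258684639145862511846072359125946443560317866836973187252183388928200092504797094840463571675155646066180889778417001548146467427782131313699048801086224660989629625679284486796316074853431196070629505149526273105942846456071842081563343081964408376669015933617366249500188159916003365490379381826706128452510847956352564161387574565998450305684772359678251520254835598383131130798629998952310030177895531378676514611278341314558978090847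653347308147952066339798619739341443212969229549828492545659676295713253532869039051523392772935889895717626544262408467114425642954588367456549218462228848545878609964574505003459618727748692724389083018770427884026686105480533508301508345010052248648433695934672472633379204229466798285285154402406793598233861829823067163624965756533937420605612620528853360465013371625072133903368862201070446025300424066765334227923721524653868497431176580538752719798374887166600710965644529507375791757172825451169691287770226069316102113159873192475311136221738261845822273511057080894740690699852895443862133838168046778154330930076129256949765212250302726512064270822979376117924981281044811829972696947951137945108545344140969107741624395885593702826159341242798326507269111813340115508652274020644334547520002937459433878473375594964728404220775175191924076127003097524699465043270729817235447895788864391401456115131143357346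575385259281978461563140759510372893982020696404581754868259852744036755988903125770018376725639397581268096600348492160087046541602730059558373932315221094828708567725859051998416693108943810376262467056550470613440915795417305180770131631436689688543121457150372547387369439294689807441741646931851889377650672464991489938026667686973271125960643694144503981095217461157927600443838467724720048192287806942960645971022035097980204596753581519095036001465063829741655185165489271271998707681331521636655711800407608533876345495849581301421387199136939650090158134858395705739473311647325560161944132845005580328119817252438557838605018502749955069902294021048058277602628360037779615860036094837512464744279149959404505633463297165437553905621753032472272273066225340414478639121026784374037573331832451377863475899192727640950973651747779288367362601345593243181703067570774763686396028005561419687575834138847346465634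163171860627141233329222898203266873325112561964987523358520419033008962906416506421117995009325233232830497093424177552994781313439823341827494234430486293249091612050175968198373425923348183161637684181081040860875384259250439204865756985149539442737965382823525041135451834832481743038242172437118865854503471322352312222344842988631988303243802209319143603599942832833005997237998196952003417298225424896174619250888767068854463853621075607387824013993638915399141312695979077347879493007905719696902692328424682038383525977510933079614682571452195089649036530351101585248363475974206758509253861226348125752110693717665197677688213143103149268017860779285683283145696299745232920025831134120455279115480293245795050093117295978773565463176400462792100074164373405383700352119532397907310207414747646999764168842155828522846384948440252445501222572771149355909371848861588723875694900571387463276438530194603752063571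706419857165842758563465331270051824719690904474389171634379296264669324972862226295858739672915943996125133188720890257461173176615431620959793407018724090026070285879942768107194023975757448001635063976159524222908055472860887191682836614254596357634569679841051260518871729140725725973574097791064302658627070151965044135165136080969974960166881934791851297580021535249997679503450860495073210347266008302619424927494354645370506334087939758877968262307159234729588552736980616549034089213170597781612835557916529635590991446990363836842954599798333198328479211758083930548139566023867635817965689125776019522263349685328596083086833708173202694993255836789327439456638332730390259089105509844986521173442686345150042533502039168819124907367785416057060925535558008907434769185870166828060754793444298535052947689302493729065747727623534025035674424780539908579427849722451376325845780064262221347346951051913007529115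286075019573777733321417894372528479112291881427561024592394570179218759768311217554103401511603785608878495791362185051838408237904399151751808474785987371360774792154376054932970083299166977875476090897516343647841901107554794812859292023677071448710579792178838846693995351784108607357377924075372365818679007326017235943698609537415566791363445077340198915979965837030112791891402129615393002675247434588539354938535459198931616704334257135925759635181597758425473377882123613091255493740103257194602410524683112980172019181611268036919409316823910098076821528434267086392148990349141712453573543915871202443190450245550458025638266604072596915115351692317797471649667007325914457041859712940979251165612929616362434418473321156133408659236673264482439192331508772594572008149453660376507157440504667485908451563648352450892921669226456479907732429726676072931250270203370768039360595490619893689128079515180661498111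949000472187904168522519847371268508331837509006145167691993384791720104370953633838072851456437169484588488421659030947795600248346233063390634648124416482771451254948810078185337574818060651195590414589644930115536403516475726087563227581971075147296233226406101244256474517742647736858917193936175379851606120974502715457418434332732661905024833841562257003721161774059947211984796863753973377431239778186659498957024315601482182257825936584217460490448506584627466363714798089312726758779827296332779381303433153696094683800868001171587265547606998750779953124725883100967626513399141817507537642550606331319946062068238860498452491663855932076949832502125284233521270856470830784480860296867493478770933276404987627043511760577701798267769393625075513351049473803522669531420223206088196213623117653188302405418079950254820707402127955421033136613694257037044202927944333334311566121589386483635452032153812764161209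201302900740664309738156232166812639106829951866919571821625662213737823853099057906460624058303927715218539672987415947432959622757700174318043685703268267833310352997170357032825050790671848183483052327497975787239088702016589798372441813977999053810593160115687589034688618593218641943244506291212927827088114805805963218946865800532551043170153015697402256746771077906843803308803023964579000259660714480343938151520942155531043208811453927755767690313703892816782668234607783630581255953256571884206875670619097834739046734493075547529477333913625197146079570888185049284367305992127105737113262728502984278252665016339591401840089039238853338133532316794067105528788121274677920125295049048037955197828316935150407890987160270452447049083422809418443493736168300640205775926165350605314051957495247123001507563821348898768838050731748846436671116797921518905276062400262396354698290447744631546977290841159077438051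31484650871846770607671454105947131974143063596758697910383884425860065889436341942134348505028778382762781992752539158614577160745412239326446749346838118074503525726169121604598878645818645529908185001712016545729831983386920751995690034595039557188407238736446215063245013342047435844962755824096051876385488259036211109681791563905313472478653439601492794469853416604241886913479882056959398154634185123205391882059214093384995391064167200848546303610049504694486030255346056307690902847575970674384152066667197161931419650094274904935011618694885843796500840357935243990614564240333458476754358486795938718161470182975322439028441862467242292151912923566131365332140425216)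

noncomputable def rc2 : Nat := (nat_lit 102109087794874519372571419595631423394067975432184577344944250557145552862824065913952412724624335507718615524466748866801836794605612960153293185978811280224063881624132226408719640239372718690665202942172616341531150397097938928643609421393819010524185314056288825506697018957562377759872663935364128765630152015762017276675288472710381859233624333281731330197313680263107312544379143277962790176526952920367507195123921349876730894661273306721815300487988346307556872858104222104107477579186003254621545303469038253735447163371151890544722360251799161116623128744300349915112189561223536732762925243768405614447697343122742383522903316216626731462242847528537387319191738797921604290786668733290370569616847837103012150588779780715498783415124792190705582564902932409979528603970072918282292106696079626365821490559249505270014068961218079579859038480497844876982615413386070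063180193001788901707957329632630778609589907229435877026348548786077149952670789237685411604790683684745203283609014220393476513069392919301392060599978115493623155610652073190804764326353780326313105252812190804046839296625660122122320023076287735691225213625452501476629353133169974784889562637917953822452294155638981506102636326708253923205154514155797070872983005262000965875493340637471530388501616871852268953427237630895672925753090745189329721796166692369246330891917736499595611935821529582909045026411062107954430946756123185816871631464238527825140829004546874917677928126283602269422578932242474270278976260797548198845225993582181404379664645804177594669168371160683607845323199624658933087340487413300841665048515324351777713985883424094843230557357643672960978259036907650684822642631250968503617748078473297167189788747152016062710187761413362966270251494297940688554846065668283209357211719970413541378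974528670368077961231631141376044782593624100533621963709695379176601063103718181141733128362088464278396256511128464296960033929374938352976828466720990269093645256939396402618970881289025674550802027182544127182980375264158142107655559929827167892568032146591660763461513685794588990001919231540843045998412394962306136974228190005359952986206709935609322523873110107198136602935426744043570667917964454611482245374850088485615154751533998177554739981176100061815236318264012732565882907370802755161369893610452138432121993552857716018498204537030688860933907270754719042214378667472592100258647446201502577268792295385460257134264353112026944939308420480334113772153063304058119155854791216710181779074117338965427643577609091663638225855785883265880334890225336645642226930467755292605952331270190856198705724234689188705559414066563342970844733631104690749402047446371544429688395755268740301051400976943987778905771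031146045836873071283595387813844555276291218760950295519508864522060117850227974940207130123207167183584018968569704289288679034292110847690422643472945021619431344315652331074114237399764713692547177795922675560856060517743639873577611061935806848493966032209323565847809763127571268090453178546733178949860751975541974175410110142637668422174658796626916400559796905088556849974483938576822663244839069122808324109498982405354549192493007608932063267151320433127966827921501230297977661746505067092795474331372829318101234491253395923963500004263082174803193488410905679409643249216005361330192339986866228547134847037179814711405395311524610780173639224483128545912572202556089048297036239625001236004993802832218705683065267884125972705413899848355293391487126099592031300480411524253490499559733468592670569675625865465632266266253084514760427696260639685933117406221345409691180985314741484188348376887275293762662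683660588816746855271525726779780829633286580701627616408130795297348883803299263725527935382054701401353159674800926020620406750230545429291161119397369279780781102331066989636069722827615540607295616534537396231540524138239856802654172555681038792403282985399398731653138380748491175318755029128936866044324167887966783881516017762979073220602095650337897170314137842011654032316853379662195957389492840986227436181967043091661698284987853635349507945020792837447381750590896703084906855387945768949917653716553538614281466315484354755420218154543588083560438201210251588864175355502413262483342681308135252940130838591516103487144565328663246664124111517847921654860847718275506976108834296588554685936645137806019178275741442337502712615422338943313308865118443479904014916023226885057744842312665555545777998553638657683098291767129126374370979077794373219769876193210584414897241355988458307271768317740273195594454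604866865860180498195152674035171493760533903201360371787910826628280804922968661071914585917124967444662848671841861744343376898702779460450097632803989217287786744984018754314607949243295216098038650524007493996000449313650924449852861222184945100251381490156517520450296361408180264675322668909670581845881420057622583394647893797414227978267566989061756477242601354428223294202977547215028165359868785179266989421379984621104909468275153376870587721916640400870944487022041396130750287473247075424649989752586750428975172780818049232614950695744771164738338607186866134300322220142837462701428974338929388334244627687307028619445353199032505107325899114010488695472768254545280130732781684053167247570011674714743287138293103796002736383891939240218333511132303618878324354631344532477474990827472032106575718082527305297150578295258891674233206453502665092186330360489837613013713576005755716397505505940994933863832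635286667859141112480581741486958594853828214506011344335957648676409767304383937670982720550441485757672215892349953881874047192859097817668135287811180736658947970435264744836578853061031652356555342690642357107530544124277561560006685292464868439727891737165443135855711891635337997542365850746414420973055017333860114173016281509361507122737221570003336986283379895656791602619520642318688465131156377925534890126328152550924688015733974755192605537167366985577640806896044615937834609725371464279105211907887870426450888209344447522218646601193444488473919352999242466841193277791468502708155772238443161909657515141426514252386236095123198413803140952659416864922037028902472253146613593879087178994450518877658741471057480686724366611930669552433038230599530112058971608527930134546870586716145457063135055307595304924920832354864621042745600667514531917638232739311282374822745871381341777076993181395384862861930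303438822690159833381389181795193626674033287424860214828571704860703194836787396224545848938187606860868509032026274190529126556003422285309393475059008667220139746992165680432546541331570675262525949557935603830366562375149315662833589096034032646874167485431082095027551735999463200069954626504985828663761976503619189090434967559633060235749136591805028211054778147061373898583718352826649275804466317285112267126047781058640273137007233717007639178866151652233661208117743012822810171025600365872378097299880430089453955810275730801713126334331066794993659568988965896786237766526846134129543138351024959356190956464443403135522817353582240043249073047012545441073817902858063468668654382051161842584228416998373476378652912898811905541028292137432032106242962716650161066524410566460680242047854370117754066931359996140394334772673826557270407795131025365560447752780982342896091513458570390428083447439526606952091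604567170054312161022864917718359756713665737924612440310129333079552055997801656652194665603194103117900318347994782309689912366267740665229943794104542717834161857169090048198009661897545172245996198339348376459211521784870569571731980584706964504175545023756391108706799766217475365753197410933284797545183380306497591736261544280608840510797837085699584731190696105353957525775211232259804138314197736928469028516565153313323570532433591019603778270534440577676832370930918098543915121212731489010122329070702445016379513062312749640864189023876632335242644605615731397988592772830549251473469265346959601124768884639029016695099459348768779984076490897001944238307425731476998575130167968669094998816176243253041937689004826434725030512633659206622667795347765611098707814572359705834640400412581308887931111205634408900341552869288006628857447773367750289475490515416148096484440432319346970021861986279564991458713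909088605978713498737507072412298991236161516376859973358533100865262943116563027730383782067726511168216637048710246286061330403543840506532985241292143463173305793911985012852044365654933453873088526049853777154339030170516388966131595279492088077430783480541364112520833759341728553146916636795373295893276664958096309601637160887597403133589919122300929480335162343423156055367687267587968383941848142612624660497302661804113899804236749471562350634137694824036302486196724199768197977227052447036557493517443188544148876451510534610548842454545922036834960464981322478114246869390497053696405231667341491321518689042363042370674766300519737297671201642144248600211058433472168667529710187216676679797637660358708431762021589213365744747884930214888811490462664552038837433084508519964851121276576905551764489207076919715397707355737802383707208669501057011136450502352871622951871694167910052288137783359507246020426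681928534476750779245199734758943583990463968164608035077805684767867709551525665126057536265410867360090815593435014384959443814132113073337057171881033624936341206066827439676504643427895292148654756257823837938795900390676069593562295471081352663818170298084860465861523851788185371425836698566757395708913473231011461495102975810960493306132560090751805786028244357788735727760640255048756079749511661567038022744745424618112566661204757960080356580990329872816184726876101590988999781067198895480408430797854008811265683079241111905032588583247527540224539349826993548525915185875920408145162754912346559370002430908595088084032976692674671231513641503562830311807627586711787683496978808482413797766102859422389399449599489844177707268509054896298241598896376806995480147598592102009681118587078859471437676526375212613157436035245857381200036554166061728957625358452067457686219262436817531075964708295457631387150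177709582866943418952013461135044159461437732305519977113457201747655228090108653516910948871065335756212856725909245218980059763406407816150362944570613909742527299885702660066653132006956484962716016803212210075118785684796955377546550981344675982187363808189477146785811136236255604621807316795310838806709711849099467353278320659615451594989589243803815318115094158760156538859712329417132060967626981388165016406086476652309607227302180667145012195797785255231929018618063896912939449292387885167768243358944672413916992007998409800298245415520044457142058320366415446615891475031775984474905900531548227258320364913533554360815249406827955314691571613016148623990012436458313960323975175935561470265404684090903874317742261177045626033079749194597678307802185562225186847719783357276432569812315586572727272826631431452085121351623582890860688281826310481375017252496513323265392418584630008220537358947452414193196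863532745904862974290674186860084949837290380642461202987705315168918130566332145563189044999901554894419184543817979787947659109373241781271752939219260150589860805262814719408892966060964581495482394781591432621089430539415918363248949764271694261857859308637876562141843902727049499161737713988343775875078245177055894662429157238419129115790643010106952171859154291521854819638993752802259279207250034746166054567718283201685339475594515701345870942864032795311983774242727861735301523464021224978212770221047827254767969073820448769252078940179868377339522908963374985015366296085522187338359235069325919203488298532015633290942700324181024946899452468123673073164021960306136537617924301388549546346721590315973626212310862112180455288392937734978804031782142749399296205041843526974522185157884790706426275451428687340160151278714563754081075484100694319154405150294385096620387529389990633090615297073868600629342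909517715440675688216034961231842928979052282359831710545859481039467196519740479135331215327963572698015672799753170461820296898907712626784420224652107732683713504951989267185824359293592400761966216527913183214478175182020996146224783965817504424342109187680475753879655930636565356567064896844168028481868938173927342564191729151071118498299048352131262715897119373326306367695760473587736293742898054930707479711427726868732418188270805662116830126147790315574228321466862668890121603474865203564238141152124183470992493660882939740857173999340531544949060316567223041288181136542955577139095030882944263321391202749699271274998795159430672976372182032890388924071218709662454659778315114519105446495279470532877703189361718272877872057013245412008842056527112236505018557227208463185600140303347171788164133247894170957307520374752389929236674430166164843468925457541893057369581587112642511265816010596309202020165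126088665643285423616759821128133705334243574895898683006473425786130557071920654988662439103404186050778833281124931327760697483953910068244336879729208731528246503136953332053664632103979413519600339562116499104694319673900394492764627043131759602011239876690431659920048356567782713989947521671777409382500122582685118250123261918633833990795151711151582387190211199700225726442544333490593466471603838767679085217766525889894374035103008787792133160115952828868553828903997186352281950280282665094558512305442213437527049270801680282331171149749796458573218947444714276873006094650976684517557938448276330969431730293358482367192288262109466735915857270618294640075906631309688570413955596608089680158359475759076022632238911242907549508931408266089939045272579074879181003945956811223413707341121904818244599762870598886730619621747309549807251536372369247552085572674622721878057428890178791471137648298443075036455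458214576701907094789694988621150749257148239205692193398417534630280930977316479160691543081550021997683169821542248252725092097410362503084388418852420096733720935850822045001745139645846911725043350696135599129497146168028296496433525568334565027519239419149290068356037536364445463754499741842953273388680003048731380042155060373505679413213549566938010372814630931890136978890061536273122916270367994599382884168839021371209370570075825444232152289426136010517658358099532596358227840456429456793535847110734765814375450710888645623628173312156518006073056103206592736318870116904064312682604333856168990431601156389146051171639781758882781274420991726613386800551159839980395727989320246117943896935351160615311646620740530471485658169065338685950704622610362112811924658689491864318087980081746459178462151026894191071807363572291329253179800652784209993950823603398866793565602404883647335310676395024717926439424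79677537921307720943272945817440239725842258318609084439072656535805283462495428623248656877964261438882918196539736216662217794318986192551683541186909855322497038837438779318992235978595927468099350945295728086292146832554670804437772925435069718679638291521823074724540898078131780257328996871200926014626640016184945667770645610730589267016155297879999369681458671828604003522127591252243792563208161837253782896880459214125748577974384000179696472800715298230818296394152740818079791441790219183396734084412132859065857139688109281456791959840035759811479378487912991377537291569012230418905593519304285739497524969243904570395198454461777699683620475608740057528634703872)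

noncomputable def rc3 : Nat := (nat_lit 102772172568459333401445416977949610744012922081771208749482110497335631317214695533967384643333170772113291555324882570024370569850900930084097058103256435133470019147642726615294930823443417645409866487681851223197030183853249970591793947003338160802626633820225218133312437358462466650963194781274674103338790031649552211614338245666480922045879744679585898003308556443149340288885937933034418604167842047269178464007901608968009263096711324372711805478894028728340623228641171136652760966430089674620821070660720421755399358413026370639660370237469360631597369289481194561449018218904730534559957096627317652617836491748671121368360849987171899136363720571268483856280327619674929574124822059888824329056294427796194504620756749557633704298648229372425614072449832019276826029979822707426046478084790938939374998573246388558090651753234165135506932646261110194343010321900017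159228479669929265995361283450600857984040723170757839700628243120417261317490610937878858092056061256420347936985500954641498163790587716642107893764288590558580530895005045759992575529069032105368551079737739922566482577055851989329227973262180214742512044470515288565522665488690503205501135048049545434350174253707866120483182384409220768595626946617047147187478378316082511765489936741203234946420674177946020852768099187407939515155995280382107868984948308718692127656108023997444235404150601872805530113478845941241691432551237396172593454733470160430643878480869942156830157418457233823919291769647183623214110416598937157800955906110414901570444903646082288126271947986303492779818936265285672870860175314399667731497762184181033847552685252957873560723461269967792316809877381269753966826078879399221783824665783833541972423060538106153869079171277481864583074696959362348279948836457311460639337419231399774794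143368518450618850528482975334819150330087873273388271876734801631899409553769968468796354310435594011165509190309378427070081303500222675879765568737395899366462653924655856617396820095685348748672285149143746890896042828869470192814757658328394844656491080792237705984804600443739507583240646950406403933374545504529907405609710107101541126050195590206846306208918009131089784551148988229379571751174205481194131338668992813930462856614284441142807264773482734754117430183311325347986687828825993883234400542409518349417477286142966350056504296864962754896605406338934124362477767307969787036027693209589517538544798155423764035720058323343293699024130543381184348107431609113902388083871351767158693380210880503968860819040515828161061384907647737493967010655474587882128808446033494875615672083717353881892352476725848419466645420209796085209424445568954777774743238969004167264139676745515506601440337710716855627949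458751967529684072801530075472008667336390346363357289170171492704809021134843513033685966097342280429786242054475989042553316025998233742417163505515678540957661944131432238020621089248482229166448412839187036987884153153865308600290123005091254429508311770265233308404760212620817342584199791815736232233537659651101694630964972351195506306320658039110664135757227171857840835527129964070825707726760553409380724578633666459317819400564914723822580763234735197391900741745017965354114595725439744101768862126059501000968566720942045546913020958773984528541475472514923861775023276648109662380240649481922786201820633382932459114072339440922392831406748511441712918205332371682544294776773717652812180706147936205150462567918818093867676617412260146939210096757346147659874387802187477944189843154282408202124675529869477434713546078912854822965284675839244165234702994183861655968928769487213984177189428072697740919547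417425034752616909925225176323701185220297539874090468882281564347531692199100252188987326426542211235494778195465387421482693527998557010796545453984776341547997547296441035995584514981225279592382656118612948261883019857932461972974711470520363864541802950848910586793911527760282387577325265213246751795295349035808665388254916564104536247641101115199472002780432044511388127136618733507785292930156039360834199101385023755179576156992655153493583963206518698433891533828385984610960735693521066913703761064693424034500788722283515108648290987220794864070690686022232049184961414098549048576514890324845846138787465785681473562686797697727163293929443504953303714176187456950699148365731747450252167001161936917456620519318939043174715831960931316075366442259812103592868709049698546258002016875609013418870755799493157509187129130906800279934722663352446808083453632161438148724568780002825784849974160677518710943159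555888389451500683041921003992106188284774415651501739333975929638203053573724363136872529539462246138728967547299187328188060569039838824473467374142407604767893279269639539746182916801772662143791984482123113070763496022066835321835941848817237518628305871032322876442473594064677473960996236349872177492288648385524921191474431109008367658450694424813596084381193365838907944081361596268531262470815762201465087971401713821516272327415829176859695596754481902076205448903497180975673549010024641447937175080600406822338169037955612783151194732187185100202073115205321281938469021104636530358014069387895952181419047738532740268664174370693801346123133654509557547041540807813946827017178626181440458953725858683613232343385208344228222279033618167602020576573650689152725918626987786324649028542467360869392967702519929970287442795079851318820088503989134147680863408897071203284599175588177146347946078018802135198058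141949160320778962971631962885609710033548817601416443438547467453698314632208886724948776101956988721324985592934240685888285841918503976132826026629734660824993844865769398712377504337532863111383995677199590664401102661230442458329720077104393702207953676784732009957143108168875073790190449629741106901584628165518628598682618301814737818502745990112181427288441884158108291170580562973598448626361806975861029207356274652302267005106593698990331400844951986705967105361968269387526432122785785164518527483068536109749141934700028166952805167989564908627582699341631467900576884814441335215788206964376450503624987139504160767335076263154388380599382267915032139674924582350906884737402763376419448425857504923796160792668346656465755338193965858736769524071074066042362486556036835270514408273093675190734438245014763542941342536104875814646100946403986647897008499208815799014972283700110202678597603892300105804685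713371359818080462626013176899522900146799983323945248235297123173637420869484140184479641799831859467794335068958561802857381995100414543808047999032190318544841790333239318819576186726722647228647899612911215314059353059566249713992576814000998932791551865074807275129397600969024144281496155741261402200845497745542147635524937237374075393736557922912780208613794327979070483313739822835465925719645907061052122272505375948443328748692701881304266777432411663182921261880591991681116752766195590207665632780633217906721090571661108238731358952064590314385481689689198489956870466287769876225336782076453678517671116994887444004735842121893429983257769115148376858101283308023286783819348316640928600869995876652259782943011896979563418584458004178930086895071943939864477358048769017741488694454836908498258666276545812470314936955886548955127131303068163858023789242949032295408862673044177906008476949483442230305900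933833930621798641987054075369856405212770972867993539682078709311934671461444596938186552671940321681682813220160481014362270159312030019169168232219379038808359756249585494631122007082680389541303834684917609539948473872462147047149429771104676704016615559889110354026551896303326173712772637543696180381473070296398084928598014873214217906986706954566634896981537877658803342351825371003897503865883700097486714377521362628624365429675480067156097045792972003615440788540004552742140337928920289217402849786124745013841608240074997294957891042126688154727389865299309584138252894861434919801411175601769240223059000898972160695847578713769718505527377573267160663326538621327148860208093090332087607204075275696338180411354376926220661186509776340719800133395910735006414392921060566314079105099546978199007977189198319795723379627771775954619058819598984599644503803482726145273653750004889443282660631488108655440019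361240317473368481724778644693491860377699740975058039599363110918723423200398732743774404326344548239789014360985896031824886910078173037643286014210257254693978282414020627345074430952552796796714406079851164497134404981473449731447814888860141254709658906543973962551722984644757973682334862095425225153443683176113057111120017402878205650817236485257811801377735762564845174655345629351580370540406961460144622353591051602437822889285688307267057907672017778298500845075524841640308640748088787976586952505556661455044736712005294287740445209398567032536763264370765915298012693608817563293892200439824404240403901762071032994915679598603813634917803600028760710951582522674975820268750979192406552309794663229364116428639159789102739120254518948794475471846080185616997916383711866208963399848157714914109562323092995734995954370422557061917001405168697213077096837271022707684324396769546012735506259572073750028602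216173482435416165396692739580425816092924607379096236318300195092049658439278256868111627123735992308707953892626535642517379899275309786842436431506092488496752785928495359803520985621877268878213224163520712812876454899692736693756187847186681569067862347771451172912758373907366443852223946962139729421161931344174780589137420030540710658902913378441508854917764745016743791890624479034444371062644944212673979428599905983041115890622727787560207976028604852115308558554390197909008047185978836640468097583072305171639391611283734285448922606081960126450578652828010957582698403614239463991890501060240120026725278488989747755281131515088914751359714376120390850110479043907638792489394312263738788966101557452812455657748558131133257223373149989969508884054501573216944185683363116509111814422959286076699097615479992868565822223762912184314632639813808962156683273133516713407462365026049496625056882011893635731078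458477039410306215354951041278737918466092439980334031230502606455944319603071719027149116389983129245325780354405912650793622132896592610014668537377528495543634702098895500645417580929590938666758435739376666666833653996843145017071641544430532693210484322149087336364463530385104339411164970940634097358098156981243296176461621698319379684663980137604253057534524106537556219036829852568720631276607878700626863661771703275558235066369598554125855482884136157952675391158119712141747752840124034451319352329748643194352083577123218795897849947743949753218005822038378033771060816186720196863682751888905778963076367647536479761341990150036015971372724947300208776767762094016311946852895968456751324813636960612523662587114216758734805400479192995003621039293979823634430637800366036463963879763320185583781864301967168894427670704943727196984385632808641636428072190854500155424639395966584590380257320690379872916137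602649640236660219125955140680832600757435648632933838810090659289611852755505631116972584735918449474565494118298885542943840621263703489940426331433930333557816341323898440081200495222831268528860145042259679847214097250724213073852982244286588206129519884281821093038769310208388266496697455245808681472326569169546909864161763050223900680182471068223347385847953799636157551068876865818105285043228571766161610472438448050406497365664543474497202183003999381392277535878614164127197988044054329009708194206846494312156068027357193825171323217673452460403384564896726341803456077251307222229823088805614609260171665434929467576318792209373053720195533453678330828950681073616514375676780709648371333754164081603729915705551113865634652470222755835348639121339933524578405864152156054234046076025616048764932362824985085339013698429256539057866397122868970448703867846914750894343991353395619010829959367128396013160559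073588027424360596732132382967141456682232080969483356571829618863168557788882824046381000801407262119170756062531764849056575347670789197796672926892723226530222979674659818911877938175205248585420075816365562087478361117478296391710794595223396499241430561869962138220295167521151397174339223424750435014549132454010729461130118837690291669587265387801044273027830977657085666771066445200131332757968121568387082276235568407037357261774864210740046437399150753341454332251531340264815046335326921598192821056631264389182565417320888350756756681428029123641413958297957647385819524876953116281223227035097074144649515423753567796107699746336358811965424647801413172692955242370457439139677764024941977814122617271514103444191629605075450822048518436137416660152265731919300857675613491969436940147608549579361627296422898772388756536414140728864951961123384998418365117476552385288178043066950768273240508747043894869367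822928487707166165208730964966557999563422249538318330789713639257658601685780574136667359432762330657272574509763720034063443981582360213136249863619768716358674324635997341365346953054863986605153262996865659237212827623701842116869588073381809122286465490358222384573490620188172890567584006763306155554334934339513839588663778474924069446977416857627955596315870859441004831128444554499122989844333754187654316625234234751382922578745029978942827775021805917006610121799073329626121502969638788225584829749215097929321487969852764158477401532647852583331922059024775756029041005481662853338566913187119307862504527319337964526743320474786582652745876317271422881032541021791417131976248004328201676955115285117388928581470974159138996493144081512588983248369890026809889615010793033378940796697588045799714352749261628113416058402790099831488508063569906793796712005689629064985187820474399287471911418367194186314537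727336541306063055244846020557080665605854222919142663784494655453355502386942261963962165201088161947142528010924502944047512027524514106683854999154086951657888672698418749622042724192561908075713354855810018518629750039403654717737449644192431568330505892228704832271244144468669848438762712740094319497612818956958772842643876456692740666570848524328980333674849878432161307864153282748592661481483583702356514938144527676714451389524909820820789068975175253008390499378549444722292774961404286380212992189759886974018070024583013121086125941976684640026768012098983791374047267512166679342040340336533361262305334267219820304071948621733876626417864269311915176193445986471398265875424045671603061471914262703679554239261210859303837017462511948912874872750064417091768588130691672500809946097710603274161951296192792067261085782399893525096322518890121378296984222599700968710722211875798548671872000517307807898119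91246156968432755749592984115320130801514250507814424500975344080103466999501179759756998959616847736268362428891846137455328524729065994244880349190713699662041925471719149302078152011926200114694120766021589492379627304759964314761355877370489116309824187683048929398860383208032095272045024022522016689905990468550888149580635447034123355657135591420773799961157696733022744776568071962728931292442475721423976907847838287514738600104621231818994355377535648732816915629169312564498892640413633942950159080385378240773610918799053046826484368862984349183115035420214649454459615227368383362726862497479481675488411839252435048884148948682037636520074657197366226978177286144)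

noncomputable def rc4 : Nat := (nat_lit 103423803046610811057975595123815699404530833519657452770633755446652051306198422849095800936339239322328931014418924339529280660023342311170843541366312321681523061312842405253862358331521166877536273578171291756834818668945664031354175836732618528371255681336540941859034638467637989734769029035279950914382506771061635453353111745874158814086189520271939311160902366137172967504013646246138638257546028935903670105879280071734749805265970018785613585705101082300629810168364775665240985844288622755276598400092169863736551895263298828620423318559884348031473193703516430521323131055583225414985200281103394165976202063684008417472970731583096986810401517149973838674197714636835494779368275560387427317890067230661211781270274475966751619959298467291356073140048652413253466456254603799872365765245850946544508019760594795045707965364560005865095988300172327685178320657793047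770020157335228566495878870114447222381189905211178421489894413874381908818506857988110040430165919690113584343301820610919711386596969135023651073633128572491569134413778995776190214284569140451978039137734901202574347676493356445789471436148498340059246956521977775561844226595094795890561658053823061071308349546000487515840626161227284042399204915263441531912012189884918241337482310385031217646885508069898652922117761542165247911326355919251211875936312029719732819535065552799377921777484097556315963005986433560432134487535938058467652571752545521858394365101230943727813787724500791302148890670448219095791458587203299195281450394854459627691150617964999981428948456058105929450522906869429170185767507376567543869386210186946000582572604674139451266304722862910630210242353644668144782227483979833763871853915990362266454310261924687028025545552426661961568416896507353500412064968274148933334253690112250805527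696272171404737569284781706780918924861424126551830058034245853526073457648915499437530804602574413778278529685324291251446313644556228227935406385965807263549506955450173887997715752960748836100920652692524130352838929870871490073284778598914026709499989806579612972713563767663475694799784790805200582781656262446270652437509446126003476828365942992178794452325326076993539858573675681856086896110395766430127696505350047535983548246947091387012797252991735755431072348972962549831956106319418704051178804003251900908395103216026672437882926878214239408117655861650028335825329101476358662325594557348019428792912068868452463113343937263483682817611248670296945348294063957608051651749491473891998291884846973598330762223883846491149914307370661753472465138092154481701859988583296495927890450042889903804206879599984223763547745788210191791214369307800302021231732160180861130878136829702526465762102808640060343945489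523987036382678201383040633801176229130655169613734424702283378825954661146626944396456109886828266627699091590112246407218360744282447023047098610528885645951689216091937818927801892478797915411635247167515512478529196073945351828267407409266933973434918245842038108025515178758310078394264182993937048176957295211659021501859521951005815692551372007858871410608985370866637911894806028500098026530723855838558638967501916927566632293830991657232632493339192983141726512024265395765142583603516314974882844176227276557772840229994470857661199607048725484266826358219004541417833492253389579131212160274123149069612505859822553294694811070291311010033785636875232120998955782316454557077700359645993261725469310310785946451090566157601496775620632525139809965324798416842184330503925703949415947266098490043529366783156087162968943287773202127399555684899468415015028697244769899134871908658370185808540620303793013062936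681477129624343250470474857206321851892461200679343361868728126365882726543650040294871197878695649536168202463257555528452318062305697715098341352446402038823404813504242703726323327136378173656205810607877828206070021947901247987617801528472502644470696521494941404694955248524685956157472741526459170015293032173019197929865439672165884417410238832333660350957218216750531836260831158229301831387220239744238299616220558433564356528567120706378763991716853381655929466326322521648243370816712849045916106164629467659830564667803096773271177311077928560107135196056329854534290507863704099283271568497217600946584545712891656233961310271636714564355302585069346141785173289169460405072807658406848248926580929702033764231080873584646267831310530846785581493494988129628699658765045234534233111898410365155233547471838862498223933785115140923439337905937751597136329377143552335628544910176633889181239054216264623463529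610686277369540110795180371455237417320559050007664846216972029801370609204299902574377389635668308979347051343496152590259001642372877025797740147995450492947170227370350172334919882274722730328277475562029739952405673727248093950318557716526117373536300099837474826524541540443157458473693794510292106183379004718685766172554087322006031432243522381821296818381774982798898835244047968629410311259474697572510991250868405921743141015416323072737299284707724912371578222397420257678400672676835978036398615364651371891355242998443079386538277230449733787189387007186101494179317906055641724284145898903686761952288291085465449017726576763326939016431822546891259607597890507734553497746393643657921301676469138804423162749427123301149891165881269456413900656744689789228958058174823331000190905055884401619101014335929392170471010821888210417982062799032685516288831767599501284239480459443596020943251809041561994708302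755873828455484075486044016968325314073479692152644548681862131424057569431405345226357957805784419309592012857604093171024138538215184146794387333485013448635754226478939189898656577194434032316937205119063073913609956922662038791196437247464681043377783528117283684443321392908028925877938801398446780279452542495428959227235403884249865321825119762407582175580647176913028825964982928921891544086504064426269229771056888204318237187106892592828153733042494514069089901981545524443003359252757990987278925249189904107185141643950984160526444275828602182000671306038537955326722963266067855587914428922936866642313203057462562629314618916917868277034708560128860076986810858222420517998853328459852167790855847192074485287803117385194763321460883007872824335929527465399277174640421556473777852941165848574085981155234647464612181863123835447366051394825564846413589570334090207931226118912150187049598029029970638734266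896440579946476195798294794944882347503731477747741281707687641270172475936347044577984388648793811267857275433982923742649440663397198611640023601078849167984271067039691265710591405978631630549410745957929682506120455639361268727933303503980880982835190946047111485657666024879471054808482044584864552021197151906643440706826263364604734613376206978338222768672100824409121263022271862843663616453317185658915344069841621504102575578114711549503850695234625707363024462958602475544283967979064570366663869980333984721109598925530354985679024487569734328825836053509987700724092254304211471342472445674939975597422269328452734379768273167881112261909203994271170127134607924344756890688001526372502966223335080702871078621206695371324915735043168774184350102600862799704664861040696167508153174048070537260016971930368126596413158084261702795114423042980754909621119254725181953591931736319011367113480039945236390492648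681259692696659295604234206690475990941013096995123400175565662727354772189180987459002900634654854623329867495569195989434261833448280273649884359461796130678274182629676457170700854256253328919989912099020589907903744343992165830155618662611335843355108437811702194410072570650395224575923945463855493276414080894875211160709075010008784164319410591354445857922401093177294810415860498263815186495989817204307374492298564332510949350560930462220961514532881874148345726700294150824388611061945238573922094430047559394516827815443775393232191600936278299811853349139273963494963382664896692336759568275738806487316167894199758517394533384349061837115759959889736432431963863191564016686115286881506722484463475724506447370378316033789345745522942796831219997932890087204120930066803279927777138989141442040297635724802024608700208347142932680208036895381235009954036494607806259739968378433717868890452998812379798372366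060901191847030015144117832784232876246447108554100551573574637171548942313212166594332331182881027489371483085806763552733849604374023577040311306440133898761519247845774093799716945678669599018373239168381738976376268124910142525111066890931415091842287101888437246704989397433794110375269448715523007228245784589174841546061416860622168215799241230915858225814130871845998543177120436388197816452070191829953746155775851456271893447239206592017077927794943266463181245756661662789513424517380724186130801634841361166500970326787999543698007104817524381964735007587830868867087992716017308954067256504635835619637538893761510505481410984031953414929344553460141482113625676781101401062042784838630528767951132575800104205012219076842580490371425544666175496912853580805454016439133954417886340377563780097844927867945886004513585843892079391975556040021994659279570622750336166044083216968226874748007564495951673663465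414131949890657528220495381265498680220253504317796756354088384813970555230411324248656548979609426940935994927145817994416113742376678467122173942313750173871075001502548705080133215204383925313273223110371534846343236228749939045216490787522475584253935939881252677942562806449692625848112294969250487066616525987152591395602697727312253347473965371671929721118915117996340548156322427819565225059814702870878226210571552762804050276574885597999499938781701346261350696088619397553740511959062583795055075685650723504602188975560876174812974418517704846425733362732073975554962071790828638835388171044830475115178308022371299489799354456666132619072855355511677673893899365776005265443972846328530663691431399635952936363344793445231936188922422781898791840689868367618350147859770217068181697704636877723557573946519958907784871639551301316177346793305791782013489072426505052970880011466032286821172591775722944007123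986056989191228331152024795116363778201341669641938027093896146559913794917330581031040753300316627837809847735759608525129039984884512146928931089998867192388793999297176522653621053935438045912433662694455940616795083621263570392217719359460245104373490572301658412640932198590940893369997442024136120508791597701960770660031829654119236814891694378279460990431871488247224188641258989636221679032962501570435517234239359355212329974012964049893564166699475126028546240869308346153618907142414087839998428078642487984726265950720532294449234827362189439017286336264810487814648474342273104974754120367001229205121480557804164613252764695005601166745248015862178712101416731803252813549653359715923724039160580620037450520765926229124037085115305932748635445394638323080734435110185388550679224079567124693213874672858078046308556645090494626227690945421127458987063110797081381735000267748608200613664078112001000885297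330006226247459127658687499983170420200504039684694033256810097251958957530798496992742559758220679052292226685868926474087055231227282280531981908036356165888981477285428316622075346042305690694953101387432485314478597839247552856663236206647591735298632685538622893057323011650316584004279726437245087848796201009093056609877275221428445106289509382963301060339211998388418339685076673356996762768330411342717276372157755001361782165653825225153571034381195371409412640742836726505627822611843382166378717718643863249405767289673902568887760619138114795045850335429333662158550064964943506492280955020849455412993607167194604608731563108809414294610540257114228450368851108229196526663359590452027337650877578577270091501074829318746169512956051522030936792007340462207799353998232487125972474458191360015211725447000868284599834788899883935992352514418362327428414645716576952702242208314310261086408193549766568754086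690507060411741001775780165049893936921223463043234030440961391798353435336158940624629453243244261019377688274085159203093842413985777107130616862497578344435841028844792396474584869032651711746126899503518690529126217616144506177212105214482039172453932361865589333231302465071552143735041179870223750437273296470321345102365394931006232732169224883817571905298769005296673629145875957597046206046023451712945899754080846466940053329949372804390533278826863558386620080143795877475276267205545884065618355824297325472148618553576772503237235509835895908247783071005074015745427850775714658510334170004952698205401276022981041259756691703425384680244051503700197901601294319821497737663749104290380223054426625576593188124770152013294386151577900579132505519777682301827374322830613702780193586564972514032934707609604744261521338342814854596630961851609740105556114747313770356781801768804280080154985001021195914113063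452892208025908495155650260959437820125225606999092583751519497893959084514395569501016545163893252538567324766503990284221247520896456944069775780730349285582492899465465034059562033855449618866790567013139591112663401202256252088366130718068861649145585280985800201718818370918084292574548673956899145411184812543303864527820006235598390000251443614762493720078894546293949338362852485789650512106766720326712278276200673933203524773523165818422886550096956438199314998457275572368954068850367004852982393311154838109100968729102605877602629238347666838208701687801005416783016155786714155152744673073693669485452318432456731160956673813801890622690137626643416333860776944249603090586399129034901141512125964889614310374796856763539921078532033067249266232593614906068594840751609497324852267624186031885993638681200237427746656112885528775291024370713793328379753028717191475421461523180359915387975269422934948973738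435664804925458661208756768025766592246323613101877522670704202806401511488871382156690065073125979116159347676166854881175789332864055208938238382892869756869812283913143710122162735048267545212594072709708499518468264720583436500516455645615606570713398455633401517148963332172095341992392202757621192765635473630957088391944215025095173807029056289306570095580376501128664410161958062251891610197336282026620504597679960992979524847513887975193285740512822201616655037195674611768409475638382508618096680737274210423288696788714391281263810706451296725484540382641780777816800614102127470443959212897910538415401406843336360616182012082349107317485366750689053782670159141792251442934903629962304902371784228643744726370841886118681931869753125531649104923232006669698067696346698578566979943564203491684834183772933418659576293677393009513268611736597760471298631345869497447550224813749786559462258308549984626578870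57498918170340440127701456243293628431439091661705032592706257842557833322927128655768693772357352401830341814810954162938378941822897760327003616237368730292166461764063830520688736242441621571589029245338504073616135719488868453923022507142987151766368175035187918040403411829157416804813278423474717709599141099546488459463694011459216034287097374065332518360737915918607861565076868244494273574316502345557771185643603977515252374355248714663954250354943772288363224457928876861419913873362565995457214050925132512142805655924473968398888352581284366643224969118230408725504302905339421046454152021734616676965251903929477726305548472001418959482040801417117238206348132352)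

noncomputable def rc5 : Nat := (nat_lit 104063886262817887324197375752960233721378421482096352150711207075141963508624316695036559189292542119377289001870017300147564106498644724984118744687103192892624824205666158000258442416675880533054875648140529229621438588371985977093288879838669854758207046624552921765966245639624939252609765434251211502405914296553764902429367222849983266702538919376068162838688896557648178010672245482881610446503106794166925629538677973992268280150059273605576490340111853370087303684112341961409682758239492781076904738191921898752384523073149451914843236943623427417114716171283389808923223381857929603059764324361636389113373543788474605725262302923774123035060664381703033403794893385877777147100769000133475544198520306633853436162143639275762703977843795020269360703658277368149309713952910192396784270623122135928201599429070821540509314464027068417904755381559813202101052789633157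867416579377887157168698430178863214187233372206234865194148778792247402347620478248517564390393356217174004633232105059350444132516138114690134483855355315131272802491819499349711741570040444888745002213526970437345888902788631654065979459394825221009977357121343616409515771265726850311246663884217014533267397698631892826495254204803789871687964142163307068692868666204599070354473505935202104986807260462670605061347018610599714741312078103842770207216947204909842951666962068636702387230087309649505695999975788312398977744235456865582939654745274456817191291034525261177174894103979453685021115033945211102428876653973474052513830615789918481155101457936385007093475117367765262780357241923600225758164069834156064111165484414419872165102265560310605218843138388090567065620719984385783373123182042190603356293367470869993172566668515411058907827745225900059885871257283490002238110381588238022206798709246409808245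498514840350066805542450721094508201630391979731410529305085016361003961999478970258176652403974905857954850660452573830538329369415401140920623403574609913997749701767376285733816442770541832652011011539087662017528710515217810915475267962133994639074609074519807559926319740221093935993701718394906072676769462288336711041593334637715871771955270589978977655030101660035888986657421925375914316649094799842212464508983112499141007767845192894529763800957174445311431104510062932631011364247008193417522046732963117353622853740662060164548958874254322899120966334300141915626906728739068654910670190535842869418211077533760121054994229093706508786581136108452713142158943337636277004133460782221420110524843900294810258243913590691935327815017904620553997747940845238415645004596244664655548120104420597033445235044693989182418550579049182672606243480808931469588110147386139239661904429044101114308833446588629161427016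885562279467497915084231138822974721113232363116917937244958500265794696100728767566864193916321923498891195368619406861222822707271946694742002568649649304493980477065191237480168955489906163610102422286502443156607249290986837251386077851522063418165013014496480300786221495171910021763685144800636749178851365835848401860651598913679317840094687081018110039325796316149101405774832837802706204589591492502347647275006973140084925359191654048720993426368146315261171846285780719147979034145417114974225238552995998335102839473066570487643034500041575072253880105251557448425743908541602527153952133472057858624923009368444157787828917467054272748647913478339551220610638065083524349565538118754851466833963022286817013281302948129262210272778645495469135212533768280782837711939074758605102172514281446605300327103770721106035575450901734932543907267258337025583794154236402139545864070911727424636302503525532355021834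026299727951646368151068938873309500855486859641616525760412689442314445572219255959357623799659440732337825835760772055175892289519424108486996151041264289653073310268022212309791140216042418391568610018818646364537782115909924329518144246697429349377797900436011488439491296286932414070968967623861146038979085964754763605888574145241512118429580513589162944273351779128210817517037964664423411793101195339247734754621320414253252134596147681897398533628118772857458951534253519134567006084207945426938557891708236968373060392187285223151136568817784312081077311155589997767665712211029526515463110870700068597170909658266844733059006433249736654885942327212184793601321231913460626409829165237180547280465386739941630799561855447180411703667835987206153272285353737724184287154622102810491879025377586610545983151407942761084438501243012604997187237057654804541716914752788999728747894236049304125831070885828707581107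369467684171593009604041271606163773209506776477056728299497998252185658658026483459660702845993195116157019238827707433030995035841441852991852882347969564565529773446042955463039638229890186674847646831744477739043353263058360404054922567423772058900394906387331167695006374621245799792910199239056837103378423396975471621920784007900761524343493541546494322798271093689690664378090691538323125148847920202208442921975452707625031051646211077158148956762478265184551674023355521318536193957331197706770692286443639308680877063181927327085418250119740159438238069805591884222035917945746493961659692968321690197276586232228896583417073648744190535082765959377454903011504214143978044523863268286923978548521214259176650860654112776130388697460037488748651889878492942598706340533507534228757760765068368533350352195938341361276337910524091710593679693332526363890637624485975381736731770215399399882325763346129636406964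847159851048234072164631037367473736991058723674131672504074848741633236673739004727350333084168327492530153936242690863072914207095457068985193145843027853853338215060302978324840435268993752429501514685847650593172017981503246969342972262836634024338874352549759819856164053043874325542819699345651060422432583338150111086905106767564014496545418258868698446280970921285410665001940368781718906128113945157618566017761927572972698043728615808861759332727502581366352809011600093540947032403259327726469008522310768675580698863804225456424111571002606125395489535401457872229058131826619666417993269133115379430053388406942839450835324137802043488998938908903579545758695149244483767662374387942856661004496082293096247157568597526561226619314841538312243682679677958597991107518004103922028188843130337531326691924747641936374213228239408294866940795313764845859287244357990545780379953438931133881547498894908373298761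453109969750958907540507522647621837413497597708792603310773363604538878415925583740782876666936118285574097322611580192339765259565217231222681816814909107774766128382780513101604040026260611610097642288017926422523297880014268273518636091784282285052574400937754890660065259409042753993093241468405146638210600021403792569978511435401784709046464036235952411761889052761926296831357909702117802078724921082346829989645008901830924757158339044173026767531513684358600128067786477606023141454525748504659727628269003730318469633334209852618149676305242749792021373078429406944401982441080878994785301702496883278394057665244643310673339327851318395995137132088029584574370872840949484472927941196546012000611821867595876052062904629104649741186015181893026175167799768737358292549674625177677819885905314843628591201551350065052317196535101553345200153245634549367960894683940758664840981097082047902876667171529746245740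292989090152393540955222254453898212653647398377250457257211007356494086516485464819737943894043708242627097425104878278730092064409396989964451682776682647575918210590724663488767810073679468336038800656898298250148425235390275990198526849571660996497085716434765484841870840744360855669702535105311559892628538417538097792625571376059975041718056035215947922109493620692677424386234285989908886658405726058386185844962090971118656222159138452463860493683497487057864548911052281769716731487123338305753916917721589273174713727097355217188873624240793018313076181906025812139724687735480840182538081463647654018392094043637247026850612743916214678236238495250813335648297652188260025102876422108343641359290087469732875578997212332677539663687972731632940750441214013125841397542835781728173685891675678792195354485812181569892230010186335201054703993409510513712539808894542378366210673383027940275604111839023988813358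426175956048607458294646266765238963353068825702263537501140764224956377470722763022257252493200564321683071148576901809932071653946047135035713667170423684545156236739343880778092685016826235646359359125336598493045295159127041181226860909400981032771194739862095592327503387835636432895060537679121505351345113805793121015978667926360256740683056678541163777975623653247501763827401996644518746553759155855650642012453573238081092333328871360034229128766836771717015497630005030642763519338234717145334886348347434103400611162115763986694271410804486198598276802300524543501317896364878565673405086294684675515216204049595364320147142651635955005268418246589590414423876622399271027126654209188443958490297098142718123309551541050714343899359304840142590400120110455929831598322340475495166432571541105337171612147178682718035885067723608499084425600486633384500331208930431916785735597749931445737063723191902782919116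521846761057118652983201428454668858325699383567262645312644946110384621008590242746283918237065733978138247520138112712708241743478300077166936444459283151793788480718815938421236877673918868395300609756492926329998248574968908898971665875947234207365615068295970358020381649768180896440278649474105703301339729646698596626005912137197486156796086139738607127415413103880745331554182818987895381369313819078375555129123462591084188970060309121846544554230632616937535008218608934756951137774993228552287143581426725031459074902514988984291050487350837219291920586677817001498818951783766946692952396622904715976920558864076697180834275579173498212821667814718435487081649223632634010577699198469767537680452407003903743840722187353778383727240386510036624031236477507573522109931588955796495340611856001565742984890871806341966887615985939674603354632987387226334632194799364104417436201967014257861305008302932947186948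642878870160140217797335207876983113748181121574978886823630024684577545494725510652339656237930988258470067825273292718697361157590694480699921851950203581533199026577855706688404893671220121606428411550925900700396789816441847793873949481324528903660377106142575118510229811845126869578961836545652069689846704976442133385111371872106315563989181863424158890190226225103438922192956306541508316466192555602457994459486508410111386885076334753201128608377164229972367841182336730815587396124652620262485188854265812038140920748050244228768381372818873197799156934433455594627933048572321437606644405371841475488558294664019082566986054158185393732981063456321403163472042437915379416429239821529395904291330275813384317728472450675480480583952311133182482529290408371868276782443574784420043579829558463530632094203900430571026080341362179618205540152650963216400637559396531378015680464953623917164903605959890482740324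063118164042478785750305695036578092327660577578027447342223248296102167017434805353727769789219158475633457842186394705867106995826209828551263290780498221735763829916399436100791912909935681683810444366695820435144977528517458919483905099450247698777923229519938981483897472556307509633298766665792795117611227442896341876712062698855200044560478681482655184684214409419182685601596793545639722076286696301649845924623706305529230278836079326188943614932197904672260437983174744854803269059216036666836865813257367198481623316607196602876936372198804648093053241532831035549642474091886884162504856917008607020826834581897159000675808766723982786515098672742675244070769208543091471396736153864379514341250648240693818252630894514666045085459528236929232237307972766959587829036668322020778691599344495691935188331877592991037325843873875654715500248685415679668200070460206456287741687836891157821667289890655413551390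190150503691913897171167939354865807546874401199394647929067967572378456709744585670463391842241807169092706499149342743141750657538901988294487078957275480666940460546779348472798115965939042475148881745408984636065184708047563771581435970450638388291434657674273192543617492618554587988729460854874359088893308920711314953140144625661916385640198315024160960653564523884157210869581745276959335778349547147932688923462209547589302789913862706821347530890670747755870219695531917655936116949986949834248499467109760086117642146195858055938717571453529030146938074534054444731614210605914401720965197691330227486690570656590294180332336325616278449843570257078988169812004215891681388354108743621184481490046612263403035062566227144001616139053881710393565726451201983544145208002052188078292198971527481971233610220548488031870229522068543997538698228051485973937700653846954007244786515622596162645367204184169677601631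970179663856970695447182009084586682807578733337003819947357195915505249553126893584000830514893448240004675502840887710999372223441510026171013391916842855422563709848656339322237426762261351276254082739135221727793957063820165434498173102716958935966589565219067800760304418328456631480720078095630955754805513238236775105501646421404494597498575450233497001013811253660636478374701239247129186241004151670734483768188227873023838090276586286917328438008108566212283881197466195791340517231662150305926845849915614703017902602175408797894117680339040646187537685217863368417701272394286501484982616454863382135297953230691859167195107230829569191310632440902918718716553574095372905503058063356424257349674019016945597550523329245812633393314520227912005592602500049725077541445134605273593137930475240396449495193426695290705754772760927934776436581115692678603333858344835384922466367898792498424481098172711315733534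993432259003258352267030333406019966604843624832604266913106112190745621097042626039626401797180277936930441104427215432569945036209711493958056166499003646182282731778697521727333919850088425060284918917906751313495290188423321392538666441615705166733283898597237846242899447945833070496838553140460861445315830021048508161535101557308202323686193208104936592542628166090824820653529931868847853240323982015218124841644076045567220101258220703305124485459947957297032761308066920997796667735510099098534919093028292643862789424322666054571471664869758854562406924398142534119340325687585306336107911621240113341769409928436378875488870217152160949506698361979938577055694388207578492630122591293081925948929057620420622733871492488403414482855334110964754849693965459045060030280971127235757087748299594367507331238559397594082591025995558219895251562076565902565931743704629809915690749977836635677240733867155181309907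36118201021882999992729565851629425742181862129203905177224114479250656575571182261233643241120384560092510655664309059133388146782480928201923791595901685546787846989657877394213110773638289194648708523537142406250828442824515096530029950039944930294624783433879217591907439846171936095040875787892527741222413563112522275637999465920122362354550376505492549608942138882289587432749024018216307037445117637054574266784641178803212767951989598048446477773644253047088477521437711106219304319107754238077353195592738448935053182497404143577159120175343194381642613630923719119513723271223078713518619485215372299149701555642202840393607356732659937602968672398104949092576657408)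

noncomputable def rc6 : Nat := (nat_lit 104692253486740990625427448635433078542899923199514314602058737649262093505245445966972715678908313045175978132936718298550108403756844446698414145797993898665205184720625617682492538564065860540187089506101243182415027533422494528233691160804509222018346823119179628935167536090215254002920496878811802861299653660430533299177345531917153785030707664356276682897114249951581656508275694539639938681505669614023941074039402106027862808889285846803447786829602328806030300655512601807613537921270752927548171558429414124676856274859300335881269633415715005158733160553789408766290236581559479773926247519858534125780469407370624370515656811436592329226272374963124793531882622733790975747514200109743275434398277008166560040195030298141850947348504959135504429123915753647350122207528659421803954458904491715383052804890316840325299385060042807703352168579527924684894960849824905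502209167079521551097224857199962101400112882073748404797020089178500347586333068624816964831054366740515329339258858356774724275841884400025801062217435181729070292692942969218911677647203460666481856745367616991817083038988190746756845618824313681722005222153220042831501114919690830402403391312304292187846098201210076665510843385358731492873636034058803391637797351324758744273575789996974823837243539008338297502802402440037080276426814329311768314810277616748059498301625372137283382764987020555181521698562519992558626582366576261230497359919859516506498473554749720979537163538535953749612114663951404934898663824645151040028640984791119957146976470734380398007611107181328993853838214877630041862387208760852220065324537809724238868092465436039662017080373414802721547271137479459047007377439951675060547169431145905784900543627963559337899905442911317917402527589447359917836171766115361692560938570053727585322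825818825810261970181407876845421323427617127522178760752593642173666579381211673568033580467951702231995540713058902792552235442399046610231654452260168498041500110874507184585230569739723982748094340384477383997772488195877485891283829004946035371702627623984235311643248226218477597673182200727623581926742373447056536430324389530212765417114705880848160614102714753810707740636503856180932948336565636544648583497997973578278265114333599510996220534063810397216544552698027465468799758449152190515681465436981722688008977203907089953989809925216862639625090807771687227446052282561194749641560441244621777313113716287361961630351585856843158193228170730940517255035198505157805254054013956237446969973147089235597153831909264113563524571379093396231980448500043210387010272630778489686594356629154119246165824602387275966132033138389382511556491710272799306635000181051331911541699743116957213550473890288536994863912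441730444922333334989423651824125933434053668074042471194512494967692426117912115916755327869793885581992701462398800852843575972582547885132877428154993338565963760666739140522939494291574882717566690774489665089799279749939189044411807120939629230555767783467247540420253799518815925122150571052006116215294548209450173096996679118551954163623539498364652420765403192158580591124523274547626214109123011207559415623405374377442543399928824923442780457707176451515097493641356109437483806101552433211528822812659428621760821972365221857452815198062381925594521884357062209652797370921218395083314088268302484089755497922201544480944446750729721519321740656449464321402898305033778374076570829548607423273615608887492414483738554043696226431904140682487112782273836185609696105707307698850904330709502250482876224114601407138915840859525066624933395460579521741559107570912765536595849168399200598297248976660155335215944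826067271104621285375344896040164116197416961289335946514403534291285490622089547004903045993913502240916586252953611925395990107845338327590973309972863215340196567951107775075179827474798646104767313673889799340003879500461144812303736643697726379532497033358504026616986107479514907382573644650648012257046275333633501443317307108460918500962825508708758799282459823755272688296864531356838767365588537703995290506491440740106466098346534515588169897021675571016517830430005283262170672449374541521601604176145798173398238325661996567292030071114913916165886259072735753084586425497848963680395593729847510654799144336136016821371437828638178250176061421756175788855278778444859224119095238457361740869245790793381206869935821324959553241165793821298246816409133233312115747455880111390728852216770206828655314980250706182850482823740789320204648284537045579114830632980703635916799374752724350152287875204931674940193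741029118344702971937666202808620098778495294059094719087493634835380042531365015467486465455143217491201704924278807067011536788822701252345292564824023053069112393773287052304733052289362940521375405082003509597052336738489560824968521934851258831241559247821972671755187997571621643204040785144235126531832763464564633866926677403949435802686702939454040343876988565069697203460197145776467195613086897066790111643858960670646298769649790124587834535384446875352812155484382703458221959783173259609591708219914443172214434918767563251432822140769164004226700073698885549840640489775010059487230129841669127829655975674015143206551578131248578466638193200028230774064472618747236470019630771292399998789108694477857765293528623172627150843319194073817779934140300842499413065285910873437204629574938841848219084204594206799536377290216389739862922263713321153369102258456692775417044689765168818228152085871058203361599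345614977058727818118654851864851429496708782630156268623041878004839576086122057638953179124197382121114463793173212784868590471509995934744763987714691470594565248976718850353247783134580453433520941068143523862598486802395594979925372851351960359937706786372554176355486550935499534068603827571016742144467885633798939443996462243815412142201632680816565977416741287058456970728843235906548953953576096991473906842426561722577351546136290499675745529426606407081349532747504283379547386871344014497018970441776341330114633532862846308823962021380726645636777898556379231196752999047939239758378786079157913823379152504494113636468612970418243598086466136613234070140703355361250050422486341489435187011264143231536098367261061645962543419044789041765110825624339370104676690867541352479574631632038362126066175141044854360074456189878857257253159441219923124278029429390769138083702898764579743901009766870238391728546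932082721465596243481808446855733806960861554940652397134820905080979149740659158488926997277334258799407800412809029834840770045172992917797299783232627925659336661357569443623622275498950118144933797148427126304810836758937290122939009788869665735118493268031158648527685201151735319771813203587302193708954227056946031861007107425507406368499911613429162119826654501398384491986562383736873063771387833222806160566178050330594119168425746384284176909242049633653611222862591982705312380177335206708222393541049911180702422127818894019090028794770474656783116258886931219312249933409364272906433439852515931175941318517925770131941362827863578065657412272692973600821533833431443339974081790226579388780935164015663711565978167352532904387455848122511226015848975230074171629558735992942144317896846955212474449644220359085483523373422045484236394379260403103899794465091762794096159296340276605984475951916867569207315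077571393807634155375550836837650608047126165023544428126340953672203925388683718985308826355264884336994338769165869984155751881838460622036868520083105174597634645496766799365404830299033593632792230628595304363602752594062461041509244807843357752685557036725345017927622041539898710178274274490386113514511864636387156752009019392574238769740828523322956332881651634510993913447351517552458983601077157285703263133352149496123976953635898897066140081299069805202798542920409430442421671847720603078920755455097880417982295402022690142893758542707552714209322239157538424886965410786418704843596915033358453666000936248310325544997943058058585310314089602831428954267057089297819584902727422113358552837110505439621077017770191013022372778423183042791348147093604410569565947809416046273096133394304559461139712656857823252218517360822777253477424536277614039809738759001620030097918515603665989889906666575715689328584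418293659249643269465056518157018590414853644069947732675078631570976212167875212446403432258410257013453032899101653838726627478966005177339603090933097342897905340111539441076829540618751834390889136239052640473455541667842642366697016884060579991188840728125081436318930480437461603623958116817856064773773272149047690196613586607127263585312976821805404317282814218196773876831828265211142435617489362576241821999700387244978295927417484031366834694620633371361009323628314393761761096351394917134830641357099621949671180319107199125650130790514163782784568832110468922350467848050869493736004013189445750650713959794755641135022524908406714484352148222717440006490721307778767093944225603467113153113218669520159147498936997176250908648426226465743585273757454332225803966815717095905903128120106695207179546913067408277117313697567815542311361877586932792288928111045441227802737075324443784403155748762640414221805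518901465522941766166430121312234131460702284386602017555289020167397246530335398822656741264952015495436259884592759158346189788255422364041679018470528755375501124654490302219367983096941947752372816299118982852756128640867063306891658526829919965171353744100647211818712654542418478640678486822167487035131055348846821833061266120326482423127131483253819361478661215610755643303164080620632509027015710711997514122009856830461642612941363719459096760677851227395820386963882504926246134899772443891038658335196368944648730960149706156783218997302521086744773179114779942012471962366277972990555298679544260587688189637922856080315824226874992656511824231132639245792516753723650703852592892758616994191319045168740629368857352725365834007677542651009746008586179916418223799360959754463053704668316576946093066283991740613504855314345475316139563155616682351329686966593253796374825128595456414355873504075918103671023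323149291783637129890858611934876743003541148748272717777933721702286551257353787149176577371895764203485480677365570677979783252751541887241825105127883506724904686349091933189165147619999878556651527338923576547682837369306878992047040689817781421758143441211951539395421441724001797972625477670850114535536723065831353466187337784885948736222397539270448761030619865132189761742046530502651314170179862116293059882377977273440582572395434547719799584111514186360584795975550909058017033978299999126121745037306654103609253854680499819500663361107397361635202439855352686588450263626032707861294269549513491983125817667298420557537389130598201105638341094121221098572132000848570267491035949021682493204822936173399998541119015527913752382782660121672990723150890296452765334216987362963166835052258043607056268784965266221845377695753297111865779617049449318682514694066012427276622351566171541699851186922856902217402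311228044202198100056318888388407233988234627290562369653259052865721874126137718055420657690101672981274684623091808203150888782427831659851613039074191455247991052274973439028411349693288588252216128615137619985380593174911502318776528164125790191503500199469374962404338921863390215678412543685455906144682245073076171198542443792007732371426087684998942860129172204429200830746388146906841791846333932554469836543340700478227211923809820704642524104949727574436286132341958517959744926843977992491663476552343039848903978670269396362636608974330098444684231272947091637192607878765134018990841318186022694793903352990854441380390587334714817451275144033190590822340057055277199997136669704991630942984938695389205204393125885040230257017844781167174123200229159419893513766090855297379883985905325540091455805400296526838082358798007431309828890163532463811779907044855018790842424252433886530911331293094925354053176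509524360124502757171423881174429640231628732291167443012630680896439076202480266455626497530332306829382421779578576108066556798676963243447887242841755921549517413313508966669912077113746694480012640066134229277199073758045974098153122287636729206513396318238792531391684488623439097028273701401343049641697718831161361930547549036140949319867585584419433365821793873625346110896427764247738192289967670513754550590249302585765905486481673925024614070416740727562800542147921718322820310459148218550718839004876447399167801343845490755964426858081325538770684491777964858371935113516262314872299869056447981080740530883097319508109391220409526399519513478020181630547369897907920817376274323778248093490688360135816578553756793003938294148450301569099507189436624621812594475648070053359183348319402039267137690833548952008738059072609417672729115540980685721061746985773974298642261912344877698751632541543442453697196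416593593589579501433123679230407170334694597640490903784500935792561784215608238858912522121775442123256772413407522443272692444709761213257173828132410175384317414956310165347365938124498017610745666996530880076959892698900363632449911242086197575135262947881451544695543766487918063084441715915821146104943313445016512895161849859117116571405128869841136015914751718829248474623073657104314452077947989963521814909573359778021374652726968250464736439372090271330195876999778105800767388470850937461683833264143337778740738587807110487975197986413852874628431481297563495294366356878675312619604733506244358384815884322737496384014231477773380946879638402015355742348069945000997371079801739627419036781305096724630705262532542219120201737625419819532618394838553747768707484582321079753055971911996324471491865202279139168597848868446566647430005307917594270327829959851246400903778213018966855755836501022486744689627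198736031997995935786004957797220941526193598410082299338978442779487114724536813533830638593564791280437200457841439008882428751005859298951659832100223418127268648498308860779665635914678573579967075113596663006332293054238033850573790244243820897237197327683832367097997397505976389172033267755182036454248170947044747860318880160270113859142650084228473021581931989282494822247744951761404109983481722078795374008017375460802244008231905479412560330456828397407159148340943490046182030219102220982011695698606922741756801309348730844216237635716964513242931655132974442997736072612008034422072844676938610620024352755658729768791356208640278922132300366811233455537621482866700222862770960417895278636926514126928829501695816202192390631502328985391090576634089838036224388425248611321862657593004927177060146931292515672307605302771458631871252910345777404325657852432138719010582201038907037016769683593112889347842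09191881719983703438977853137845375290657071857525367235001853780014908586439191976715792224929875996641799394933847478483685673298649898425788951372839791834008820654901929123686585626988002681043908183216464087109089125805925233962790261516372494259916666996007925886855280270700988601400965803993005043960815929036861639704473901219171065382671844956093685123765849981904643192115482766253424588203111754979984735285781109363653761367176789761833384774206374987143197982850048843186341923965623170221733742980468982566146280859496566367153406723986047188347071788007221786802074342645742392734195667790432741478956752645897172222602698592618043731072980231203162463829753856)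

noncomputable def rc7 : Nat := (nat_lit 105308790563652290799847104626909347784378092137737049642494028274752981210257240553439170181061602946845301210660609707492251309042409043758980478663136617902881811446940460277065502980741693570665685036535180772714254533481963604682507374953634750568963327810949395626428049633195573343429485143487465626616377966681590337410067528857845484538089893005895763343094294491394482014399500228906500577504337629162941213630852265387270665068252503329504345113358212442502269332375905245618332130178729708505229947958355748488283204697755519407354153562043769700615333507785287389107019141903601544959028334352534865715312156415448413477884793995323455095942041222634878371226601049603536340709523849162783855140034834054324009776200971102804763399960239972709695344330799775262459102649817159074135939245823874946555145587682476878401655036742554375584864630775942123046984242332902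056487477970826081558888802446584596698783916694794423939353120373651093100903253231672343507701278869206372721427679719266052210944800357317899230965799523561965272998905847329339136175249401470730014741909068720691142000801244954609412633836842729932300750079043569443939431761209148205825877568530257475630993092378023718977495169992280814147935830935198476450369287599465083522996835972976853035742507273139794439476385857712408622148377924619610909838473091464162245910441734371165392566650603115874214055363679266460138945920478302171392280647812798035699623679687776077415604829272794773195196777710349966548300726513182489820665541021992221329175892206710962782956454435192842027334674075303495088443279762264074600818324226128509980867539850971253658575418964867188467853869266351001370768316650111804926802197368883903762669434887431632836692231768429416724891462984877859984385881864679469415317170070251954002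595696697198822010551554147658329448812385890116020902338579607656149892537898179436467003616701597634125463255356959054692658758529907335060588888784817568882842986852360768322658199124809318358543694370771742371868075048487885311958499407521938516803667124686890242939198446188987608643431818138152729553169923334944261516219581102921211133190632008339273138836999207489903110443212995648673301292107712847398659814588534432200758147802273025824161637655678771448001976774679368547927450700783022844547250773875922647837721345645585511211856319800912686104035930414757238419905127559317977196043285010777767979301808142999010667445308316691835605142617117734874840596093234733848592738905944487651751195087244344420897841021093013546963137606621130586456645938391297658611298949057395446981093432108427949968281113933608948364506277523440554097228756338048159090521402247433429225060309763757568551327187204547378709761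717492599377997063946879712231850892423056792323981342443331282032224191397639511151323328667815404195506708580018514437691127263768896925480716873627193064195397477680670523097468836834325021029926163811141336143826984422447728897905176829816758050064274361087952114952799788394855005593820336060052636295669718386555229045137897784211540979087770490524439705278768950748484105391290760350181563993594613882829755949394735105566004251445046006443486439262001090348098820578417570126670383306109940352594449115465640926509170175862380718190029595325230943592232090126610821110262339680078045041154268350831273623668875176795190463720397521108286800520931375882325841545476872109328773815906470132152414895722965875749174328860344201495203345571464547860226617838945937099214087336192517321142088160186459205314055700980886619356625286328025068077363952777304825966168159371165055860509137366315502072923905508830439683175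316443304397409409476535123707262615074407388066953413373972674693790171392971514091935119849377824243125897912828843455770270816881374088391260782406766287812397612227859384725822947003298910901377987948678926217593557670835425703716356640091133187725842142998944809509886436515676680907125412858097157761292560469745288125680374442349070762611937541624818938533265722326917853296276426920096407669173510278905063396466804030631218799922866232820221036440703361432174305604295491728876816255494169748218291005409879105466071222365280316086887116278397552541231944652955723538180686466966590117676152839107521551008204349086978153718496373250233891343450010712641553293054577814586007048025940127966271016536275341771039973347560049221388058151782372396450577415939438148376519654508474271436846958180237991911408800641560128789027735050050353171187670589483198902631383638141322153252026309838374766166458580181018448695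797685185992920119924444393407458190991219855738896880116703035169127802646832545493805810455195488412126037047626254646481167959671796376292687115828748010011808760826906337926040130868852416483232933018070757813516241292236448230110717192891871024653680523842637735610139042910032310378945825560609548270547335852410948919557834030477982815928908834865793636041786948098616208776846797677170262006240950042649538811612748381174195634179693709638661767590629332194123441948883802793318506610680726333379835429506752614550492814126246765636004997128266120107056176859803421747962926652295700199630426037168581939786706055051177975440842404435029468014281174210634050456306921677878318936464174587452949606188845390308283541840857691515686334271853850231091774255985283444525303663355692945540776350328846295036179002856105126588616510372351886806549711691851448209541082167976420667847236363845385626909104292040445186532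656524722824081299013221558335191898102118673464651952282862155443624566935602561727078669698464604785734341828165633925992532907151997031494973994212837056404090754420383033472933616115206431186355006126952609395262887503096911078975996332818243267860693557667525073577788954087276188129089129924436013870598050474930248176790624415618644900695853573391844578589690859428390507984559861991656500438048348204708321758463652897898673969702569455876780389770181507652844632619702613271760275432831609719574904431151622128979155967444142687161486747554984907234748284313786946171433681643569803762104289279118493371527876919228418848017888833056043324397899389839348387069574282226966503411119835709003461106263752092604437000718119099487998718244037195880861395080183354454191299045692916842864644498530562820466768732293600035476361010846816423441304359376760569254610308474223832586661467468756432929423291432866594310306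780538313495601152123972391551165825368685449643125768070960133871166644667870423293612606493897585368438327259248969962821491101002511691680231308538355568034227001878887183706885230363628733636974938594517375338971150022561045113923481226122396202226253929859608999381100981909778239138432641567113143665120506175611693099273202434632669576062485515891968718386797244567180354549740974782327686572012170681831082283878798879505320233145722463796070006489071173834429302345205070112709253010138075855806389937503151512113182665609755690695010832977448186363460529596269906195011096613393149991023140671636239199670956162673083566451961999623854626186644410114375019613636117738049020218061920770398566530592763893067718339479952346994466600571739440383567701080291565912754995816051342637184451927481795417583373864584807664900408363291758197556988901845724358568769517482714262675369717138524896406606410817585019548575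178707096099039273159828844700400245212073386263886928579612782333687880209627990611445976377191027054836512323760373777173370027938550225450992365896817828656006860642941139948297422166944805652636830616032472880134752574161193528396871414885959074109666398973209455996079246732320588693767817004405642801713502073344737650945801639350354155485313942127618566256914157039103191509170854930062810424049876469046698881407466869271342709244231755455539731388703954101410533900247875460781438226104343576438867981106962947240967732420325161513545296857276711230925544689193567741472501098900298444957347215980652914697488165065520106817013232680108949462043331037211946480257314150614956895787127320833067996347300991641088027151707791042275039672105030387385859070995365750129298981183271851804102957217054715873485477302924955862619876002685933556680019992349515042139429179140045243498810920594816795508006541388581317313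351932070678703569159730660690726597854906498552778709334389466506557306904454673484821775964013119120906149878356441473384360374420702988747208806554787239775104645653073095599177649390941489780071121215715855925821398571776279529105560929852647434961681897659832314122576644964722053328743108431586608224689446818262190316850405965202254285348071926553477749187222779564531379208921547552370995665016631393139777655306027105383155243726900912380769956648447380363636939706797990708955457022120826017558536499895646751144390479195411460954338085063582977288569375643809410847130655821329057912045372168098704012218568746285175529292794559234728226781490111150615774996662441283218582324270050478701529303073160807428618008771049983837328598990794527851972199456894616835671438796060981865756746585070957763836044842835656142009381563834344925849861873611057741336904987055595006419105953764633396835104683595223956755414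472295643516208425794809558651833859116541435256240144325151763544830716458868059656557783392448480743789728011838194822171462407635782869069911414298438499790832332010654733867825455275698242309588722569957042731315373275490179150457848444779297249419588675929968179386238188683170844567141413402245016310468096723409850817808946846193361700216881889539158870762756270763267302128420313349786014641677033561883039996319300751516968219756232404874475962558502921453461325295521383870138631089223797386969912948605863708610693991348493975572264309419701526675791747594272485343885677295413982138923699125098281208308799692504078930549887053809046097736194299553819248894027376257475791367749456241734140826442016654174177165813626699630625369783136111855756843802428307040308953075227177483108413137458329291290555914293295596215424102134831943019227030798855741596198581884279636241628683909149267901339487554263163516165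816139696043675342999648619503302421382360552764515095163990802042829501155380609721417708717541470487287713059107376123362937522068384060495184129986503997972007850721470018704000476156058360624082214225245986805555013058277073794731487402659682410128307824326718511556211175177664776437201418653650872815793141236217673129406147887037721051518110585101456519370588479733904816149806850899675031536872417363053604092526444819439531326928979423396318160770514039695781313204487296001231492467358709948497602662069125787164012631868041049545415832536171057488204504813162262448152193639105509004206627443950075758376380855128087614173004042586061948893342040686860944079314378440028599081454497708700996171179355374244189849276650271917684992524711218688780369085388748670036647430399887065614061378356004224617821549480316636102932550804218899340928834773447356148410531363050591446743275768657332744529515886781312699379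016074135538073613480866847417448861307217311666843427459895785143639853871064267309931505813352405289704153961380291795818861363425695776599903621901787472981164876764310818642628170269861847425188653815692899736570746473624603529001559990143997847956907841862085511871147390641779670056466407323068472161101461249990819305583155891154248139152960800315794090491607966104816561787390304811600147202538852336406640354610502368938177294140282926271841849362878928220457242950430301715544242903197949209539951547381263056205355775074599947024508702233479820655664702232751993714006865928308060896238276734517563631347522012155005267049374071007432285435000967113918612706464003247609576590568281524664105374488167819075062441577396756946864859018510625604401017031043508764014478060800535150376316705632042354747370298969627394390291581417191465914988971244781427378233946895142707958571005425900659566778494568490508270714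340267262726027004762085810213784912595843543028904336842478661039374188779215144021365730062737497527781881781535573453073850428247175263020942733997660257427585241261175579299164679992309139554353016516213339367232051913072846408148612926514689989670935370514627056947551385002238906886233480887346977930348937718855568091821511168394141412184421956001063578237258912233134713863088462202217901788563138408617880051670158530102367589224968909254107938183489432962504075385486838712805036645438685333561956492320221385790284195928468294795590434771854354666354956740323847019836237254087561247207674850298235404171968748379929627560901751088712353088870705467647421674667484524941120825829137407656156530707084110156625192682138285301505286505676222019301427016702675007988179700396315279822937909743128270651009639861449413847764287996098254872894984263948458255352762962466685711798663593017228138695563800831910395384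985851992385999436506031419228385948471465459057310839765701403514975277018099049289907099473708582368626103202818692912816723937076172849491702641721412293834616507795453427166130570571650824661395571913835658268070550337904351759340505390667596194510877980980504558093875538196209382468819847127947483102252429452361812486288055828195634564786703379563753538475785488255961549729128416808714764188499155338506402529239080329996146410104073413369365537688676176138779495423386252506547462010341835375453367102804601618906032861258391123937007054925072460277405248838169557198116570316498874770298758777068060025608133092817543320458754948423181939816834846197385278219704749440823857502923506469496386704954958332815243010336138611924201640033621352260565518375180190926243125039911845003694058990092134555530461644073228180010712762104426164557127459127615350928230987309743291715816082595992828815203829771861361817628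983332740580893941088711920858984938940303540745233374716492463373015716762261533930574602765536383631285023619285485018259793450402815563074669399065442581507825700010212175293003935750092378953429162115483117189350294261262458240945925798570450427179213455011695542444013749721205813012080458635025545474442428993113904155664974016492026326189482982912693056004441004720108774534773194224345950103004671774848641632021924733927209852723735088260474301276424639904194122426638117161406609295151834036072470313659692029130096926906375076802638431192071876153538653964968692964516895389339926394631399903977591041264652989799049904261349829782374221794786640064032770593014384614868237380238213425504730508827074148224189463839519424125084357807409287903535296236420219203200542207274159659982311679825893022360644833141445211823535888315840090427470258037874405434186642252311389829044227541372063438553541591702295486353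64142310254483934112717133142284189590843972654587263976888262508513149153124475843129569134895036240719219425742068725386419715718632669543548199504367242372127958397027699589403013109381354411829561759543401787400973334606785262572642947286151464409620787240044381498236092516155097425139370651587239928729000901875289050954208762477055439023960913808055516586429282890771644927890680120704720219885025010895020009791870764342611650623594885595339093550731887479055795595291464264246391059804999505974161654101084446832928882049572763177530655497985781576691122899682011795528905342248733221244210718548085885101658474989581278852914980580182957950074568088676204555005853696)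

noncomputable def rc8 : Nat := (nat_lit 105913419136406411181313895526623074325783556079495287004223002996807910969582332545934849617995335496962278391033495863336152944129011526315936999358252359853167472865088191728818092509560635957733292125978530960292206221373752916834089012485315622179660087752149982552413225753336313462289790669143493870735169244033341638628832652700438528440238015335895222163411625598815562341360974957839828629689688854676857080293232493086943284433411902864747300201052297255854226852476794356333985469017631560198138090749345124874103496235769564343399478098948832180385203406792352575576805734441299068369861044014611656130460077166208477172168504378021343446225901707855842378729560636124487239563219389598165629486424664435220948476011761359804233527051240862677346271215380855789449470520350558655629800816683199393889081828854694961152259483967559719476106921808881982485765800938874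769495008747505108627079663324684690089640865948487672733716066003667839746232679471862524962847544212762550892641473754333315223547313518136198212902170161104220828379082799041302373226834554501713379253077222724066353610394210097473634501021256914194693163481845508743923099512134849223981868048714551587417608456006958409244275025996873299638142173385874698872315105256322271365309342408241788444586551194127310195352951345676360222325065889143982959878065069177084133636447612351646850540313747280466198404970992425436927984938256267506093170411020564993479231449955625465511974764005637805641859955986227557695957020653623381534899853492047703246081070198978307129710811429070712972980014107243532834294008990575154961444685664739278257376744073267347185324887106976257068893865817989863338800122467415382783361703369311208692701525723884618832043449332469315537320740352507311826737225338597730852839296641787651490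117175721077341289648497268669168776285385660315240677358469050443527469946841752895431911226082270642706207735260023210550401029556819907556149101531033623593993441322613174544278151258422860401253101209778051962037745356869445763791891470157393157129798766255722926622695565991341460582668597494069187107424062804695169794598269546429095923656977246085801123079927019424657361073695370241505122535803410725272297484128609480698170214692988457517001795535743051935476615347714114658215103020843051442681450529125353581064608797204887788233559741542276253764678959811510358860560598399749925750414531876886500194714782873255629997493884593401173339654083427074415412035653165617632399095385979085383630928133159090550022144224132303681799291829304993148037182729017743387140039008862344509543758234604216978651027798538065715235796406629522104480920223894046763578364882987719600267426650824852459147863821696588639193496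073137123173501707695615847189573604326748630237632459529259117314053758861937893763956218800425279671020800110818177388102934328339317068618127687951273680930676108778346018697391477964767473066143733202298698332133492785916087793537821703050178937726073393112179799565873503971656991633162260214896879764752041527448781330037432317344825659512432760538567009832748906632590289160553432188567584953109155139740145215036657640995528835350388586069069575116687927784060743714968809672143776265055007332460214354316115048634166176778936649171999639831915388487244868434234417196653229200260269158932286598136537864689320693136905883331855830392342245750728343634967125219119124139164675381618071067727138407271635195642552669897405798817778847278232277587230914091700653898562026399309997001215823282409318540406224874588147987561737846789013896000678830232151494033977312898139301367585639682045716645849129442003883391859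274183164629479588580375731303282637362925882138124374563940285984713005205942814944923806230769593263540903102338863906620892873580855950340721777607703459109836652237543199819376049627970418912346893482900149840817753090159444739841299324164290137033185923259551296211384925865672753040632772295883071759617828859381752538135212376181932609476726424139657832281017699063058524802868928332247986412016008771967463680284092412871039847356556711900803363619633034470231969610777898189521094657294492746107402221179874828673986591295978899578761458781884793366868156432057490811989727155652307617508142402608336187178391894643075342036424099006796255239629371530200415592608975268035314584184356025299374605978829056464178060453273674592050180740254655690195379851936124633446780557304013734701963832815870519253487608047756978064779213331112923462290077638895611492552336670461304855797304300910658922467578545196226504749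389569112877459962086938812035369073003487117199696421309960522605951033489613673572111373692109814395631103957761768410216204215043967851927719745825273165538910528004408858211033597162700478965655152628657014241929212913856506040466064779294264612223309384784286471882519984837757829210661131737072525505406942630551731612760374814702154823680833451299123679982454717571978788980861366052305730711636129336216060020460300288872805617070802649934124577979398383936870610191728828943027861780338290175881080185588586724265430253063884757269427108060954633699631618213145343383627038092031154838442745793564627818060167952790005941676550520493998025569579983435930183142434388341390320351014219407531130981446072844509930517965897715840593390804892356907641096965160129046136869912962008864965507572872900434294378992922359654507751393946173700661450486716430941220529370243950205838057175442212882938426514858193113315470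982173102362079619699093646674347839539516609353565988869175199845725013563433330401970609434913918534600063762102795724975598185545767540272917207019845899690152402193368307850372568459830237020631156320407946729900558791163365191787965524405182141412314809200995001310093841187698666816716895924401701726790208329800430494875188602164936479683210645698220956654287790709828045165995356809083615865746428522659984005898067240138346855535252556525194531541330849204762886722914327126378328253114355473866981351253375321669250530116463466992247738434962234813734154833540736533693623539268987221734863226861418550388685738348696618885616381410232525223742134489545875057110042883240744151114552379158657380371897085667927830403048882073452388703403100521408045083208963639140052376709908643207916738935128472322702943026111424063045964233813263151551847820714915766745127805481535265494177117252310872685774335239444531033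568941270637873617440386913074570369307563486896705001573123992765719836062884833379418449489879801798826436039504377702605162719926485852112706189878373284366229828034041323495149353951655632807913583064531789207130476485998775303391472812206561132396677500211908823160242536016986208630960121123610537430192216704288320732145092306960464892986301845515502157145939583442858216838738960905075169934755276906624322466665626127772090313076266025352002575766514003327081891612681054896427286301913166707147684127690732637393977644860775241951690897970832719101617758191236798855043917516724569960408735407536102179750395400850479473534807328657636354746808120380178386159388356080826916981064748589631453316988791490362199077337216843410988235262455979559361688542034021454157806758516691717373896292549826271909448446664290293345641847162008556526485444203413053594363883181764923748091393002666931763669818909793157164873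246538917934548124598022846424395924443383055026309590161359279907520974336743584860369841676001682922357934484040039700383688951720997517273726586912488612471561337275022052958762894260003957750518020723463060588236286474673751149402978778649703773617942333481912397999528565257202453607049385542790783175475360871860996248023886285908929079521460027362708263847322597609241652043469152394559468572955634041575772051966816012194730117715905836272555945757264257228226911233639283907540378160465284572908819814675841720616599055881808856523618197019916693694101583771264833431464505569104263402493749408947012904278610457586669437043303005092513362862723085971286604860068992125490311255883517943339846284477971931258575896795412435013797908696938007949344676938596853939625868448490834462405563024236454302611373307504692338553088884418644739833478680004578784400945008899157374076084451059464748722021571478621478694019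646274616585217962474967910052743296475857958152105234375026402276254585553148317084678999463042388905032751404470168580841663839872635603043718485653919095084806487568131211827068587776028837414865158769144807073969327688664577438532145952133616714810814434511031899725988907157278570911103719980789047002099807223388024132469605687987236384495932756225609065702359350544460609617289414705931666092398948300738438063837892492813170340270273359871319810576663247512246038212301017594395118169981145804491214174026111029727756681498279957803444569050213436742221019431172557616915930985888957527160275554547553937131364314593347526062488116858522095375439542760718252676412424124907494446862369901114295680038496628179392930975046863011720518807120776698651382218809915446919320329233294214268447437705234907043458926831679963612741822108461590250317823811635852015279887980484301275363189695105508850989004148250483041851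396421492454448122331863756987417223437028406591708842736311465229851851172194727293070680784451987420763511874144763728448846050615085134425436387613892529441003645195781805451490850403194648786949161602216724200462052724729601058460394363157503467846066879319776739439121271319299884347502582779774459266204742444183806091776851813186533049943817258413514570155036452207201075024247396445241461941471978111869837269567022256610317337489997654270758613496742426020084868005992144901848477397031079897350462099366085110520149133377058105325091049915616451767729166900008863747914952213012035881755969167445334005222097571614622954983301878625219749224200691658046645954444434040782955686183973316661735637491072919248074296115236243641912807125384310493859664049553835640110629400132095819466426261236341399148539379964512135516229999879418240961234975161142548759644658424356261734670340527334231080352068432876933992679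181045866412789483067733128214875245247028487250531205119126982892465503833866581929849886495288414956151489347789856117417739149591426976340815629792864531697177932798513638221860254176648389747482239531987997977069005022194752664533459091382515660562357366299973226876117261623890406397529362862323814379931794937917358533388902916627306436000500895706151605669097558711059141437280026990301828535877953395281088697476475703473506921623249979555844275113851231784335734574679547998288902128201016153434934008816472239506677798002238248650713957904116120207180528626682857346051623618204579751630355162219574545282931313151579129852242697774321340271896398462354437919109586657748643718862748752634973404202039440656064884700215918705479928489363225252275429647315916307661861106836311343891990039636958097675440488357381861772560964243269180577748532976407243337681560699120311697228762014340552713434232975785414447304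861334139353950514386925672030158989774436873902825729713336288984987832137322611094523092714970144573848095580816684292784771409091659350345257456413744998288821881973128092312804613235798199113034437393673600111570289048976630983050767702743392967460613269484014649191568225417364652108272344116082395109894858419434431244058811185550281928921005087048756626886306704133840297442902691136232238836672166443427096399435038784665050190935466075183638203827758182049479384472271182796985341429435428126844998726421567778589132452800105266819913903326266909736459791811119631260016800759003846442335215380563679111792460440961798231189475839592384729191673342765826829150910083126581290736075453016803877356320402457340798541177758105636428614758024983031830127497337760504515949357768498909463296491367099956659507839853772749008428012944678885938398713309600450738266025962718850712118790713354207792768334251516442165775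367581376849890614401719345756171542935945613385519068227371580415567699645316459890330092002609989190413993216815353949137868214317652421966883793942559041322939330113495709632163694095405786266558535894811296388040084372340509576613002852336546031098618999389634807715695624828672591125304175801818057702729792321722147940959323752470466291101768447394309806226042162653455276061196151651539164635354367064876305756919729914976624331562871181864403212827356885041262924959859796238071108277425218751179774193411755160815109213526918934295702601523252557509967482392344262864323406083432528497779191834432846654950390834521625422385253453856555095089485492238852765275608357075259681345394978604683261159978773035025939655883748149167427143496668256488791385328394284513395926089769515076621196327846643173647396676348211093231279760352240837642360249949082951838855911027905074594806429504275578852919470861218395376230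185030753886295746534303018296457219192817174705215887904021150260133087918319420783515849160401367609171981187311719302694363097162618346125993841717934147026722033816497797822111963547790791775138064998962652253649991408029467644013267103118752159964469917534129502111087974209442594315037551614530723920414772411619073786654853772081375573532232061456540997933453655538860500220334610113911975138529181796826880964132771291209751525630449966572036733179609135632333178656752920919253247032596495972630471410165976956008394561617012792899495582167155869010049363775201500415244658684253359012992861832460386322716611608034906185488504978981261131866848730680100566110823255954516773563804089493600871087519823661892472218589795355283163256381515165658225750224649020555568923909678759180739150884556571942689532012037894791482172716457801287325368394721688860315739254553925105921347592322604832178473589255839060646760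680831256598009059069137295450027320917559271518199879984221999531491277128864205112729189237502302950270567681973128263633046314758001618336565237164024194897674796019316863364212843596692278258858941030211061187888205072277730983559329148728230467720387905862253967566944988327878850189267725821222879034192087295881507655027744989493783915530543659590359917384975234463538689466343744232452042360318621468376335193347602012471323960702260668858426819073609749926895271560264972868664019051330147177340082625757667660253658363891311874046310454464519221898202279986716657431474517406203428624351856391346523605901983883735565087054080247523257924344865795280218197673462205859864214347103361553858884057884221252465435159366939731707453806965117024161425265172085676194397099064553804150477483893378020561568331733288272784310965416684336674579383159068425470752080521371241220285562855057548709853266926742739026928048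68373605768093101777910136881219237630063362669735226505811638606383726245840376564715877613057429763440840003742498043087823162656741496757070323934611868153042628397286750243716923703658433415038555709160276728894280241660731169292779156813935012627356424001719421893029451736147998776960874457208167908618434463954366282818586271990371476867513145710475727807880259364371867399773907034853706749285352984498095688441169935479105142319969280284328402144113432851161801927159277855961404778216983119919814814948525869975582397671582014221590618358883048028396413126983351149127415135271682318495774755246668758335545530718550452974117552024049782279868083471500282461903912960)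

end Vale.Agent.Lib.P154.PChain.BJ.S8
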